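import Vale.Agent.Lib.P154.PChain.BM.R7_0

set_option linter.all false

namespace Vale.Agent.Lib.P154.PChain.BM.S8

open Vale.Agent.Lib.P154.Chain

noncomputable def pc0 : PT := (PT.nd (nat_lit 6191484) (PT.nd (nat_lit 5894850) (PT.nd (nat_lit 5716932) (PT.nd (nat_lit 5657496) (PT.nd (nat_lit 4945746) (PT.nd (nat_lit 4945668) PT.nil (PT.lf (nat_lit 76) (nat_lit 6) (nat_lit 1) (nat_lit 3) (nat_lit 243) (nat_lit 83) (nat_lit 244))) (PT.nd (nat_lit 59280) (PT.lf (nat_lit 76) (nat_lit 6) (nat_lit 1) (nat_lit 1) (nat_lit 244) (nat_lit 83) (nat_lit 243)) (PT.lf (nat_lit 152) (nat_lit 3) (nat_lit 2) (nat_lit 1) (nat_lit 243) (nat_lit 84) (nat_lit 243)))) (PT.nd (nat_lit 59280) (PT.nd (nat_lit 78) (PT.lf (nat_lit 456) (nat_lit 6) (nat_lit 6) (nat_lit 3) (nat_lit 237) (nat_lit 95) (nat_lit 238)) (PT.lf (nat_lit 456) (nat_lit 6) (nat_lit 6) (nat_lit 1) (nat_lit 238) (nat_lit 95) (nat_lit 237))) (PT.nd (nat_lit 78) (PT.lf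 (nat_lit 532) (nat_lit 6) (nat_lit 7) (nat_lit 3) (nat_lit 236) (nat_lit 96) (nat_lit 238)) (PT.lf (nat_lit 608) (nat_lit 3) (nat_lit 8) (nat_lit 1) (nat_lit 237) (nat_lit 96) (nat_lit 237))))) (PT.nd (nat_lit 118482) (PT.nd (nat_lit 59202) (PT.lf (nat_lit 532) (nat_lit 6) (nat_lit 7) (nat_lit 1) (nat_lit 238) (nat_lit 96) (nat_lit 236)) (PT.nd (nat_lit 78) (PT.lf (nat_lit 684) (nat_lit 6) (nat_lit 9) (nat_lit 3) (nat_lit 236) (nat_lit 97) (nat_lit 237)) (PT.lf (nat_lit 684) (nat_lit 6) (nat_lit 9) (nat_lit 1) (nat_lit 237) (nat_lit 97) (nat_lit 236)))) (PT.nd (nat_lit 156) (PT.nd (nat_lit 78) (PT.lf (nat_lit 760) (nat_lit 6) (nat_lit 10) (nat_lit 3) (nat_lit 235) (nat_lit 98) (nat_lit 237)) (PT.lf (nat_lit 836) (nat_lit 3) (nat_lit 11) (nat_lit 1) (nat_lit 236) (nat_lit 98) (nat_lit 236))) (PT.nd (nat_lit 59202) (PT.lf (nat_lit 760) (nat_lit 6) (nat_lit 10) (nat_lit 1) (nat_lit 237) (nat_lit 98) (nat_lit 235))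 (PT.lf (nat_lit 912) (nat_lit 6) (nat_lit 12) (nat_lit 3) (nat_lit 235) (nat_lit 99) (nat_lit 236)))))) (PT.nd (nat_lit 177918) (PT.nd (nat_lit 59358) (PT.nd (nat_lit 59202) (PT.lf (nat_lit 912) (nat_lit 6) (nat_lit 12) (nat_lit 1) (nat_lit 236) (nat_lit 99) (nat_lit 235)) (PT.nd (nat_lit 78) (PT.lf (nat_lit 988) (nat_lit 6) (nat_lit 13) (nat_lit 3) (nat_lit 234) (nat_lit 100) (nat_lit 236)) (PT.lf (nat_lit 1064) (nat_lit 3) (nat_lit 14) (nat_lit 1) (nat_lit 235) (nat_lit 100) (nat_lit 235)))) (PT.nd (nat_lit 59280) (PT.nd (nat_lit 59202) (PT.lf (nat_lit 988) (nat_lit 6) (nat_lit 13) (nat_lit 1) (nat_lit 236) (nat_lit 100) (nat_lit 234)) (PT.lf (nat_lit 1216) (nat_lit 6) (nat_lit 16) (nat_lit 3) (nat_lit 234) (nat_lit 101) (nat_lit 235))) (PT.nd (nat_lit 59202) (PT.lf (nat_lit 1216) (nat_lit 6) (nat_lit 16) (nat_lit 1) (nat_lit 235) (nat_lit 101) (nat_lit 234)) (PT.lf (nat_lit 1292) (nat_lit 6) (nat_lit 17) (nat_lit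 3) (nat_lit 233) (nat_lit 102) (nat_lit 235))))) (PT.nd (nat_lit 59358) (PT.nd (nat_lit 59202) (PT.nd (nat_lit 78) (PT.lf (nat_lit 1368) (nat_lit 3) (nat_lit 18) (nat_lit 1) (nat_lit 234) (nat_lit 102) (nat_lit 234)) (PT.lf (nat_lit 1292) (nat_lit 6) (nat_lit 17) (nat_lit 1) (nat_lit 235) (nat_lit 102) (nat_lit 233))) (PT.nd (nat_lit 78) (PT.lf (nat_lit 1444) (nat_lit 6) (nat_lit 19) (nat_lit 3) (nat_lit 232) (nat_lit 103) (nat_lit 235)) (PT.lf (nat_lit 1520) (nat_lit 6) (nat_lit 20) (nat_lit 3) (nat_lit 233) (nat_lit 103) (nat_lit 234)))) (PT.nd (nat_lit 59202) (PT.nd (nat_lit 78) (PT.lf (nat_lit 1520) (nat_lit 6) (nat_lit 20) (nat_lit 1) (nat_lit 234) (nat_lit 103) (nat_lit 233)) (PT.lf (nat_lit 1444) (nat_lit 6) (nat_lit 19) (nat_lit 1) (nat_lit 235) (nat_lit 103) (nat_lit 232))) (PT.nd (nat_lit 78) (PT.lf (nat_lit 1596) (nat_lit 6) (nat_lit 21) (nat_lit 3) (nat_lit 232) (nat_lit 104) (nat_lit 234)) (PT.lf (nat_lit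 1672) (nat_lit 3) (nat_lit 22) (nat_lit 1) (nat_lit 233) (nat_lit 104) (nat_lit 233))))))) (PT.nd (nat_lit 237276) (PT.nd (nat_lit 118638) (PT.nd (nat_lit 59280) (PT.nd (nat_lit 59124) (PT.lf (nat_lit 1596) (nat_lit 6) (nat_lit 21) (nat_lit 1) (nat_lit 234) (nat_lit 104) (nat_lit 232)) (PT.nd (nat_lit 78) (PT.lf (nat_lit 1748) (nat_lit 6) (nat_lit 23) (nat_lit 3) (nat_lit 231) (nat_lit 105) (nat_lit 234)) (PT.lf (nat_lit 1824) (nat_lit 6) (nat_lit 24) (nat_lit 3) (nat_lit 232) (nat_lit 105) (nat_lit 233)))) (PT.nd (nat_lit 59202) (PT.nd (nat_lit 78) (PT.lf (nat_lit 1824) (nat_lit 6) (nat_lit 24) (nat_lit 1) (nat_lit 233) (nat_lit 105) (nat_lit 232)) (PT.lf (nat_lit 1748) (nat_lit 6) (nat_lit 23) (nat_lit 1) (nat_lit 234) (nat_lit 105) (nat_lit 231))) (PT.nd (nat_lit 78) (PT.lf (nat_lit 1900) (nat_lit 6) (nat_lit 25) (nat_lit 3) (nat_lit 231) (nat_lit 106) (nat_lit 233)) (PT.lf (nat_lit 1976) (nat_lit 3) (nat_lit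 26) (nat_lit 1) (nat_lit 232) (nat_lit 106) (nat_lit 232))))) (PT.nd (nat_lit 59280) (PT.nd (nat_lit 59124) (PT.lf (nat_lit 1900) (nat_lit 6) (nat_lit 25) (nat_lit 1) (nat_lit 233) (nat_lit 106) (nat_lit 231)) (PT.nd (nat_lit 78) (PT.lf (nat_lit 2052) (nat_lit 6) (nat_lit 27) (nat_lit 3) (nat_lit 230) (nat_lit 107) (nat_lit 233)) (PT.lf (nat_lit 2128) (nat_lit 6) (nat_lit 28) (nat_lit 3) (nat_lit 231) (nat_lit 107) (nat_lit 232)))) (PT.nd (nat_lit 59202) (PT.nd (nat_lit 78) (PT.lf (nat_lit 2128) (nat_lit 6) (nat_lit 28) (nat_lit 1) (nat_lit 232) (nat_lit 107) (nat_lit 231)) (PT.lf (nat_lit 2052) (nat_lit 6) (nat_lit 27) (nat_lit 1) (nat_lit 233) (nat_lit 107) (nat_lit 230))) (PT.nd (nat_lit 78) (PT.lf (nat_lit 2204) (nat_lit 6) (nat_lit 29) (nat_lit 3) (nat_lit 230) (nat_lit 108) (nat_lit 232)) (PT.lf (nat_lit 2280) (nat_lit 3) (nat_lit 30) (nat_lit 1) (nat_lit 231) (nat_lit 108) (nat_lit 231)))))) (PT.nd (nat_lit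 118560) (PT.nd (nat_lit 59280) (PT.nd (nat_lit 59124) (PT.lf (nat_lit 2204) (nat_lit 6) (nat_lit 29) (nat_lit 1) (nat_lit 232) (nat_lit 108) (nat_lit 230)) (PT.nd (nat_lit 78) (PT.lf (nat_lit 2356) (nat_lit 6) (nat_lit 31) (nat_lit 3) (nat_lit 229) (nat_lit 109) (nat_lit 232)) (PT.lf (nat_lit 2432) (nat_lit 6) (nat_lit 32) (nat_lit 3) (nat_lit 230) (nat_lit 109) (nat_lit 231)))) (PT.nd (nat_lit 59124) (PT.nd (nat_lit 78) (PT.lf (nat_lit 2432) (nat_lit 6) (nat_lit 32) (nat_lit 1) (nat_lit 231) (nat_lit 109) (nat_lit 230)) (PT.lf (nat_lit 2356) (nat_lit 6) (nat_lit 31) (nat_lit 1) (nat_lit 232) (nat_lit 109) (nat_lit 229))) (PT.nd (nat_lit 78) (PT.lf (nat_lit 2508) (nat_lit 6) (nat_lit 33) (nat_lit 3) (nat_lit 228) (nat_lit 110) (nat_lit 232)) (PT.lf (nat_lit 2584) (nat_lit 6) (nat_lit 34) (nat_lit 3) (nat_lit 229) (nat_lit 110) (nat_lit 231))))) (PT.nd (nat_lit 59280) (PT.nd (nat_lit 156) (PT.nd (nat_lit 78) (PT.lf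 (nat_lit 2660) (nat_lit 3) (nat_lit 35) (nat_lit 1) (nat_lit 230) (nat_lit 110) (nat_lit 230)) (PT.lf (nat_lit 2584) (nat_lit 6) (nat_lit 34) (nat_lit 1) (nat_lit 231) (nat_lit 110) (nat_lit 229))) (PT.nd (nat_lit 59046) (PT.lf (nat_lit 2508) (nat_lit 6) (nat_lit 33) (nat_lit 1) (nat_lit 232) (nat_lit 110) (nat_lit 228)) (PT.lf (nat_lit 2736) (nat_lit 6) (nat_lit 36) (nat_lit 3) (nat_lit 228) (nat_lit 111) (nat_lit 231)))) (PT.nd (nat_lit 156) (PT.nd (nat_lit 78) (PT.lf (nat_lit 2812) (nat_lit 6) (nat_lit 37) (nat_lit 3) (nat_lit 229) (nat_lit 111) (nat_lit 230)) (PT.lf (nat_lit 2812) (nat_lit 6) (nat_lit 37) (nat_lit 1) (nat_lit 230) (nat_lit 111) (nat_lit 229))) (PT.nd (nat_lit 59046) (PT.lf (nat_lit 2736) (nat_lit 6) (nat_lit 36) (nat_lit 1) (nat_lit 231) (nat_lit 111) (nat_lit 228)) (PT.lf (nat_lit 2888) (nat_lit 6) (nat_lit 38) (nat_lit 3) (nat_lit 227) (nat_lit 112) (nat_lit 231))))))))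
noncomputable def pc1 : PT := (PT.nd (nat_lit 355914) (PT.nd (nat_lit 177996) (PT.nd (nat_lit 59514) (PT.nd (nat_lit 234) (PT.nd (nat_lit 78) (PT.lf (nat_lit 2964) (nat_lit 6) (nat_lit 39) (nat_lit 3) (nat_lit 228) (nat_lit 112) (nat_lit 230)) (PT.nd (nat_lit 78) (PT.lf (nat_lit 3040) (nat_lit 3) (nat_lit 40) (nat_lit 1) (nat_lit 229) (nat_lit 112) (nat_lit 229)) (PT.lf (nat_lit 2964) (nat_lit 6) (nat_lit 39) (nat_lit 1) (nat_lit 230) (nat_lit 112) (nat_lit 228)))) (PT.nd (nat_lit 59124) (PT.nd (nat_lit 59046) (PT.lf (nat_lit 2888) (nat_lit 6) (nat_lit 38) (nat_lit 1) (nat_lit 231) (nat_lit 112) (nat_lit 227)) (PT.lf (nat_lit 3116) (nat_lit 6) (nat_lit 41) (nat_lit 3) (nat_lit 227) (nat_lit 113) (nat_lit 230))) (PT.nd (nat_lit 78) (PT.lf (nat_lit 3192) (nat_lit 6) (nat_lit 42) (nat_lit 3) (nat_lit 228) (nat_lit 113) (nat_lit 229)) (PT.lf (nat_lit 3192) (nat_lit 6) (nat_lit 42) (nat_lit 1) (nat_lit 229) (nat_lit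 113) (nat_lit 228))))) (PT.nd (nat_lit 59202) (PT.nd (nat_lit 59046) (PT.lf (nat_lit 3116) (nat_lit 6) (nat_lit 41) (nat_lit 1) (nat_lit 230) (nat_lit 113) (nat_lit 227)) (PT.nd (nat_lit 78) (PT.lf (nat_lit 3268) (nat_lit 6) (nat_lit 43) (nat_lit 3) (nat_lit 226) (nat_lit 114) (nat_lit 230)) (PT.lf (nat_lit 3344) (nat_lit 6) (nat_lit 44) (nat_lit 3) (nat_lit 227) (nat_lit 114) (nat_lit 229)))) (PT.nd (nat_lit 156) (PT.nd (nat_lit 78) (PT.lf (nat_lit 3420) (nat_lit 3) (nat_lit 45) (nat_lit 1) (nat_lit 228) (nat_lit 114) (nat_lit 228)) (PT.lf (nat_lit 3344) (nat_lit 6) (nat_lit 44) (nat_lit 1) (nat_lit 229) (nat_lit 114) (nat_lit 227))) (PT.nd (nat_lit 59046) (PT.lf (nat_lit 3268) (nat_lit 6) (nat_lit 43) (nat_lit 1) (nat_lit 230) (nat_lit 114) (nat_lit 226)) (PT.lf (nat_lit 3572) (nat_lit 6) (nat_lit 47) (nat_lit 3) (nat_lit 226) (nat_lit 115) (nat_lit 229)))))) (PT.nd (nat_lit 59514) (PT.nd (nat_lit 59202) (PT.nd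 (nat_lit 78) (PT.lf (nat_lit 3648) (nat_lit 6) (nat_lit 48) (nat_lit 3) (nat_lit 227) (nat_lit 115) (nat_lit 228)) (PT.nd (nat_lit 78) (PT.lf (nat_lit 3648) (nat_lit 6) (nat_lit 48) (nat_lit 1) (nat_lit 228) (nat_lit 115) (nat_lit 227)) (PT.lf (nat_lit 3572) (nat_lit 6) (nat_lit 47) (nat_lit 1) (nat_lit 229) (nat_lit 115) (nat_lit 226)))) (PT.nd (nat_lit 156) (PT.nd (nat_lit 78) (PT.lf (nat_lit 3724) (nat_lit 6) (nat_lit 49) (nat_lit 3) (nat_lit 225) (nat_lit 116) (nat_lit 229)) (PT.lf (nat_lit 3800) (nat_lit 6) (nat_lit 50) (nat_lit 3) (nat_lit 226) (nat_lit 116) (nat_lit 228))) (PT.nd (nat_lit 78) (PT.lf (nat_lit 3876) (nat_lit 3) (nat_lit 51) (nat_lit 1) (nat_lit 227) (nat_lit 116) (nat_lit 227)) (PT.lf (nat_lit 3800) (nat_lit 6) (nat_lit 50) (nat_lit 1) (nat_lit 228) (nat_lit 116) (nat_lit 226))))) (PT.nd (nat_lit 59202) (PT.nd (nat_lit 59046) (PT.nd (nat_lit 58968) (PT.lf (nat_lit 3724) (nat_lit 6) (nat_lit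 49) (nat_lit 1) (nat_lit 229) (nat_lit 116) (nat_lit 225)) (PT.lf (nat_lit 3952) (nat_lit 6) (nat_lit 52) (nat_lit 3) (nat_lit 224) (nat_lit 117) (nat_lit 229))) (PT.nd (nat_lit 78) (PT.lf (nat_lit 4028) (nat_lit 6) (nat_lit 53) (nat_lit 3) (nat_lit 225) (nat_lit 117) (nat_lit 228)) (PT.lf (nat_lit 4104) (nat_lit 6) (nat_lit 54) (nat_lit 3) (nat_lit 226) (nat_lit 117) (nat_lit 227)))) (PT.nd (nat_lit 156) (PT.nd (nat_lit 78) (PT.lf (nat_lit 4104) (nat_lit 6) (nat_lit 54) (nat_lit 1) (nat_lit 227) (nat_lit 117) (nat_lit 226)) (PT.lf (nat_lit 4028) (nat_lit 6) (nat_lit 53) (nat_lit 1) (nat_lit 228) (nat_lit 117) (nat_lit 225))) (PT.nd (nat_lit 58968) (PT.lf (nat_lit 3952) (nat_lit 6) (nat_lit 52) (nat_lit 1) (nat_lit 229) (nat_lit 117) (nat_lit 224)) (PT.lf (nat_lit 4180) (nat_lit 6) (nat_lit 55) (nat_lit 3) (nat_lit 224) (nat_lit 118) (nat_lit 228))))))) (PT.nd (nat_lit 118872) (PT.nd (nat_lit 59436) (PT.nd (nat_lit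 234) (PT.nd (nat_lit 78) (PT.lf (nat_lit 4256) (nat_lit 6) (nat_lit 56) (nat_lit 3) (nat_lit 225) (nat_lit 118) (nat_lit 227)) (PT.nd (nat_lit 78) (PT.lf (nat_lit 4332) (nat_lit 3) (nat_lit 57) (nat_lit 1) (nat_lit 226) (nat_lit 118) (nat_lit 226)) (PT.lf (nat_lit 4256) (nat_lit 6) (nat_lit 56) (nat_lit 1) (nat_lit 227) (nat_lit 118) (nat_lit 225)))) (PT.nd (nat_lit 59046) (PT.nd (nat_lit 58968) (PT.lf (nat_lit 4180) (nat_lit 6) (nat_lit 55) (nat_lit 1) (nat_lit 228) (nat_lit 118) (nat_lit 224)) (PT.lf (nat_lit 4408) (nat_lit 6) (nat_lit 58) (nat_lit 3) (nat_lit 223) (nat_lit 119) (nat_lit 228))) (PT.nd (nat_lit 78) (PT.lf (nat_lit 4484) (nat_lit 6) (nat_lit 59) (nat_lit 3) (nat_lit 224) (nat_lit 119) (nat_lit 227)) (PT.lf (nat_lit 4560) (nat_lit 6) (nat_lit 60) (nat_lit 3) (nat_lit 225) (nat_lit 119) (nat_lit 226))))) (PT.nd (nat_lit 59124) (PT.nd (nat_lit 78) (PT.lf (nat_lit 4560) (nat_lit 6) (nat_lit 60) (nat_lit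 1) (nat_lit 226) (nat_lit 119) (nat_lit 225)) (PT.nd (nat_lit 78) (PT.lf (nat_lit 4484) (nat_lit 6) (nat_lit 59) (nat_lit 1) (nat_lit 227) (nat_lit 119) (nat_lit 224)) (PT.lf (nat_lit 4408) (nat_lit 6) (nat_lit 58) (nat_lit 1) (nat_lit 228) (nat_lit 119) (nat_lit 223)))) (PT.nd (nat_lit 156) (PT.nd (nat_lit 78) (PT.lf (nat_lit 4636) (nat_lit 6) (nat_lit 61) (nat_lit 3) (nat_lit 223) (nat_lit 120) (nat_lit 227)) (PT.lf (nat_lit 4712) (nat_lit 6) (nat_lit 62) (nat_lit 3) (nat_lit 224) (nat_lit 120) (nat_lit 226))) (PT.nd (nat_lit 78) (PT.lf (nat_lit 4788) (nat_lit 3) (nat_lit 63) (nat_lit 1) (nat_lit 225) (nat_lit 120) (nat_lit 225)) (PT.lf (nat_lit 4712) (nat_lit 6) (nat_lit 62) (nat_lit 1) (nat_lit 226) (nat_lit 120) (nat_lit 224)))))) (PT.nd (nat_lit 118248) (PT.nd (nat_lit 59124) (PT.nd (nat_lit 58968) (PT.lf (nat_lit 4636) (nat_lit 6) (nat_lit 61) (nat_lit 1) (nat_lit 227) (nat_lit 120) (nat_lit 223)) (PT.nd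 (nat_lit 78) (PT.lf (nat_lit 4864) (nat_lit 6) (nat_lit 64) (nat_lit 3) (nat_lit 222) (nat_lit 121) (nat_lit 227)) (PT.lf (nat_lit 4940) (nat_lit 6) (nat_lit 65) (nat_lit 3) (nat_lit 223) (nat_lit 121) (nat_lit 226)))) (PT.nd (nat_lit 156) (PT.nd (nat_lit 78) (PT.lf (nat_lit 5016) (nat_lit 6) (nat_lit 66) (nat_lit 3) (nat_lit 224) (nat_lit 121) (nat_lit 225)) (PT.lf (nat_lit 5016) (nat_lit 6) (nat_lit 66) (nat_lit 1) (nat_lit 225) (nat_lit 121) (nat_lit 224))) (PT.nd (nat_lit 78) (PT.lf (nat_lit 4940) (nat_lit 6) (nat_lit 65) (nat_lit 1) (nat_lit 226) (nat_lit 121) (nat_lit 223)) (PT.lf (nat_lit 4864) (nat_lit 6) (nat_lit 64) (nat_lit 1) (nat_lit 227) (nat_lit 121) (nat_lit 222))))) (PT.nd (nat_lit 312) (PT.nd (nat_lit 156) (PT.nd (nat_lit 78) (PT.lf (nat_lit 5092) (nat_lit 6) (nat_lit 67) (nat_lit 3) (nat_lit 221) (nat_lit 122) (nat_lit 227)) (PT.lf (nat_lit 5168) (nat_lit 6) (nat_lit 68) (nat_lit 3) (nat_lit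 222) (nat_lit 122) (nat_lit 226))) (PT.nd (nat_lit 78) (PT.lf (nat_lit 5244) (nat_lit 6) (nat_lit 69) (nat_lit 3) (nat_lit 223) (nat_lit 122) (nat_lit 225)) (PT.lf (nat_lit 5320) (nat_lit 3) (nat_lit 70) (nat_lit 1) (nat_lit 224) (nat_lit 122) (nat_lit 224)))) (PT.nd (nat_lit 156) (PT.nd (nat_lit 78) (PT.lf (nat_lit 5244) (nat_lit 6) (nat_lit 69) (nat_lit 1) (nat_lit 225) (nat_lit 122) (nat_lit 223)) (PT.lf (nat_lit 5168) (nat_lit 6) (nat_lit 68) (nat_lit 1) (nat_lit 226) (nat_lit 122) (nat_lit 222))) (PT.nd (nat_lit 58890) (PT.lf (nat_lit 5092) (nat_lit 6) (nat_lit 67) (nat_lit 1) (nat_lit 227) (nat_lit 122) (nat_lit 221)) (PT.lf (nat_lit 5396) (nat_lit 6) (nat_lit 71) (nat_lit 3) (nat_lit 221) (nat_lit 123) (nat_lit 226))))))))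
noncomputable def pc2 : PT := (PT.nd (nat_lit 237432) (PT.nd (nat_lit 118716) (PT.nd (nat_lit 59358) (PT.nd (nat_lit 234) (PT.nd (nat_lit 78) (PT.lf (nat_lit 5472) (nat_lit 6) (nat_lit 72) (nat_lit 3) (nat_lit 222) (nat_lit 123) (nat_lit 225)) (PT.nd (nat_lit 78) (PT.lf (nat_lit 5548) (nat_lit 6) (nat_lit 73) (nat_lit 3) (nat_lit 223) (nat_lit 123) (nat_lit 224)) (PT.lf (nat_lit 5548) (nat_lit 6) (nat_lit 73) (nat_lit 1) (nat_lit 224) (nat_lit 123) (nat_lit 223)))) (PT.nd (nat_lit 58968) (PT.nd (nat_lit 78) (PT.lf (nat_lit 5472) (nat_lit 6) (nat_lit 72) (nat_lit 1) (nat_lit 225) (nat_lit 123) (nat_lit 222)) (PT.lf (nat_lit 5396) (nat_lit 6) (nat_lit 71) (nat_lit 1) (nat_lit 226) (nat_lit 123) (nat_lit 221))) (PT.nd (nat_lit 78) (PT.lf (nat_lit 5624) (nat_lit 6) (nat_lit 74) (nat_lit 3) (nat_lit 220) (nat_lit 124) (nat_lit 226)) (PT.lf (nat_lit 5700) (nat_lit 6) (nat_lit 75) (nat_lit 3) (nat_lit 221) (nat_lit 124)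 (nat_lit 225))))) (PT.nd (nat_lit 234) (PT.nd (nat_lit 78) (PT.lf (nat_lit 5776) (nat_lit 6) (nat_lit 76) (nat_lit 3) (nat_lit 222) (nat_lit 124) (nat_lit 224)) (PT.nd (nat_lit 78) (PT.lf (nat_lit 5852) (nat_lit 3) (nat_lit 77) (nat_lit 1) (nat_lit 223) (nat_lit 124) (nat_lit 223)) (PT.lf (nat_lit 5776) (nat_lit 6) (nat_lit 76) (nat_lit 1) (nat_lit 224) (nat_lit 124) (nat_lit 222)))) (PT.nd (nat_lit 58968) (PT.nd (nat_lit 78) (PT.lf (nat_lit 5700) (nat_lit 6) (nat_lit 75) (nat_lit 1) (nat_lit 225) (nat_lit 124) (nat_lit 221)) (PT.lf (nat_lit 5624) (nat_lit 6) (nat_lit 74) (nat_lit 1) (nat_lit 226) (nat_lit 124) (nat_lit 220))) (PT.nd (nat_lit 78) (PT.lf (nat_lit 5928) (nat_lit 6) (nat_lit 78) (nat_lit 3) (nat_lit 220) (nat_lit 125) (nat_lit 225)) (PT.lf (nat_lit 6004) (nat_lit 6) (nat_lit 79) (nat_lit 3) (nat_lit 221) (nat_lit 125) (nat_lit 224)))))) (PT.nd (nat_lit 59358) (PT.nd (nat_lit 234) (PT.nd (nat_lit 78)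 (PT.lf (nat_lit 6080) (nat_lit 6) (nat_lit 80) (nat_lit 3) (nat_lit 222) (nat_lit 125) (nat_lit 223)) (PT.nd (nat_lit 78) (PT.lf (nat_lit 6080) (nat_lit 6) (nat_lit 80) (nat_lit 1) (nat_lit 223) (nat_lit 125) (nat_lit 222)) (PT.lf (nat_lit 6004) (nat_lit 6) (nat_lit 79) (nat_lit 1) (nat_lit 224) (nat_lit 125) (nat_lit 221)))) (PT.nd (nat_lit 58968) (PT.nd (nat_lit 58890) (PT.lf (nat_lit 5928) (nat_lit 6) (nat_lit 78) (nat_lit 1) (nat_lit 225) (nat_lit 125) (nat_lit 220)) (PT.lf (nat_lit 6156) (nat_lit 6) (nat_lit 81) (nat_lit 3) (nat_lit 219) (nat_lit 126) (nat_lit 225))) (PT.nd (nat_lit 78) (PT.lf (nat_lit 6232) (nat_lit 6) (nat_lit 82) (nat_lit 3) (nat_lit 220) (nat_lit 126) (nat_lit 224)) (PT.lf (nat_lit 6308) (nat_lit 6) (nat_lit 83) (nat_lit 3) (nat_lit 221) (nat_lit 126) (nat_lit 223))))) (PT.nd (nat_lit 59046) (PT.nd (nat_lit 156) (PT.nd (nat_lit 78) (PT.lf (nat_lit 6384) (nat_lit 3) (nat_lit 84) (nat_lit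 1) (nat_lit 222) (nat_lit 126) (nat_lit 222)) (PT.lf (nat_lit 6308) (nat_lit 6) (nat_lit 83) (nat_lit 1) (nat_lit 223) (nat_lit 126) (nat_lit 221))) (PT.nd (nat_lit 78) (PT.lf (nat_lit 6232) (nat_lit 6) (nat_lit 82) (nat_lit 1) (nat_lit 224) (nat_lit 126) (nat_lit 220)) (PT.lf (nat_lit 6156) (nat_lit 6) (nat_lit 81) (nat_lit 1) (nat_lit 225) (nat_lit 126) (nat_lit 219)))) (PT.nd (nat_lit 156) (PT.nd (nat_lit 78) (PT.lf (nat_lit 6460) (nat_lit 6) (nat_lit 85) (nat_lit 3) (nat_lit 218) (nat_lit 127) (nat_lit 225)) (PT.lf (nat_lit 6536) (nat_lit 6) (nat_lit 86) (nat_lit 3) (nat_lit 219) (nat_lit 127) (nat_lit 224))) (PT.nd (nat_lit 78) (PT.lf (nat_lit 6612) (nat_lit 6) (nat_lit 87) (nat_lit 3) (nat_lit 220) (nat_lit 127) (nat_lit 223)) (PT.lf (nat_lit 6688) (nat_lit 6) (nat_lit 88) (nat_lit 3) (nat_lit 221) (nat_lit 127) (nat_lit 222))))))) (PT.nd (nat_lit 118560) (PT.nd (nat_lit 59280) (PT.nd (nat_lit 234) (PT.nd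 (nat_lit 78) (PT.lf (nat_lit 6688) (nat_lit 6) (nat_lit 88) (nat_lit 1) (nat_lit 222) (nat_lit 127) (nat_lit 221)) (PT.nd (nat_lit 78) (PT.lf (nat_lit 6612) (nat_lit 6) (nat_lit 87) (nat_lit 1) (nat_lit 223) (nat_lit 127) (nat_lit 220)) (PT.lf (nat_lit 6536) (nat_lit 6) (nat_lit 86) (nat_lit 1) (nat_lit 224) (nat_lit 127) (nat_lit 219)))) (PT.nd (nat_lit 58890) (PT.nd (nat_lit 58812) (PT.lf (nat_lit 6460) (nat_lit 6) (nat_lit 85) (nat_lit 1) (nat_lit 225) (nat_lit 127) (nat_lit 218)) (PT.lf (nat_lit 6764) (nat_lit 6) (nat_lit 89) (nat_lit 3) (nat_lit 218) (nat_lit 128) (nat_lit 224))) (PT.nd (nat_lit 78) (PT.lf (nat_lit 6840) (nat_lit 6) (nat_lit 90) (nat_lit 3) (nat_lit 219) (nat_lit 128) (nat_lit 223)) (PT.lf (nat_lit 6916) (nat_lit 6) (nat_lit 91) (nat_lit 3) (nat_lit 220) (nat_lit 128) (nat_lit 222))))) (PT.nd (nat_lit 234) (PT.nd (nat_lit 78) (PT.lf (nat_lit 6992) (nat_lit 3) (nat_lit 92) (nat_lit 1) (nat_lit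 221) (nat_lit 128) (nat_lit 221)) (PT.nd (nat_lit 78) (PT.lf (nat_lit 6916) (nat_lit 6) (nat_lit 91) (nat_lit 1) (nat_lit 222) (nat_lit 128) (nat_lit 220)) (PT.lf (nat_lit 6840) (nat_lit 6) (nat_lit 90) (nat_lit 1) (nat_lit 223) (nat_lit 128) (nat_lit 219)))) (PT.nd (nat_lit 58890) (PT.nd (nat_lit 58812) (PT.lf (nat_lit 6764) (nat_lit 6) (nat_lit 89) (nat_lit 1) (nat_lit 224) (nat_lit 128) (nat_lit 218)) (PT.lf (nat_lit 7068) (nat_lit 6) (nat_lit 93) (nat_lit 3) (nat_lit 217) (nat_lit 129) (nat_lit 224))) (PT.nd (nat_lit 78) (PT.lf (nat_lit 7144) (nat_lit 6) (nat_lit 94) (nat_lit 3) (nat_lit 218) (nat_lit 129) (nat_lit 223)) (PT.lf (nat_lit 7220) (nat_lit 6) (nat_lit 95) (nat_lit 3) (nat_lit 219) (nat_lit 129) (nat_lit 222)))))) (PT.nd (nat_lit 59280) (PT.nd (nat_lit 234) (PT.nd (nat_lit 78) (PT.lf (nat_lit 7296) (nat_lit 6) (nat_lit 96) (nat_lit 3) (nat_lit 220) (nat_lit 129) (nat_lit 221)) (PT.nd (nat_lit 78)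 (PT.lf (nat_lit 7296) (nat_lit 6) (nat_lit 96) (nat_lit 1) (nat_lit 221) (nat_lit 129) (nat_lit 220)) (PT.lf (nat_lit 7220) (nat_lit 6) (nat_lit 95) (nat_lit 1) (nat_lit 222) (nat_lit 129) (nat_lit 219)))) (PT.nd (nat_lit 58890) (PT.nd (nat_lit 78) (PT.lf (nat_lit 7144) (nat_lit 6) (nat_lit 94) (nat_lit 1) (nat_lit 223) (nat_lit 129) (nat_lit 218)) (PT.lf (nat_lit 7068) (nat_lit 6) (nat_lit 93) (nat_lit 1) (nat_lit 224) (nat_lit 129) (nat_lit 217))) (PT.nd (nat_lit 78) (PT.lf (nat_lit 7372) (nat_lit 6) (nat_lit 97) (nat_lit 3) (nat_lit 217) (nat_lit 130) (nat_lit 223)) (PT.lf (nat_lit 7448) (nat_lit 6) (nat_lit 98) (nat_lit 3) (nat_lit 218) (nat_lit 130) (nat_lit 222))))) (PT.nd (nat_lit 312) (PT.nd (nat_lit 156) (PT.nd (nat_lit 78) (PT.lf (nat_lit 7524) (nat_lit 6) (nat_lit 99) (nat_lit 3) (nat_lit 219) (nat_lit 130) (nat_lit 221)) (PT.lf (nat_lit 7600) (nat_lit 3) (nat_lit 100) (nat_lit 1) (nat_lit 220) (nat_lit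 130) (nat_lit 220))) (PT.nd (nat_lit 78) (PT.lf (nat_lit 7524) (nat_lit 6) (nat_lit 99) (nat_lit 1) (nat_lit 221) (nat_lit 130) (nat_lit 219)) (PT.lf (nat_lit 7448) (nat_lit 6) (nat_lit 98) (nat_lit 1) (nat_lit 222) (nat_lit 130) (nat_lit 218)))) (PT.nd (nat_lit 58890) (PT.nd (nat_lit 58812) (PT.lf (nat_lit 7372) (nat_lit 6) (nat_lit 97) (nat_lit 1) (nat_lit 223) (nat_lit 130) (nat_lit 217)) (PT.lf (nat_lit 7676) (nat_lit 6) (nat_lit 101) (nat_lit 3) (nat_lit 216) (nat_lit 131) (nat_lit 223))) (PT.nd (nat_lit 78) (PT.lf (nat_lit 7752) (nat_lit 6) (nat_lit 102) (nat_lit 3) (nat_lit 217) (nat_lit 131) (nat_lit 222)) (PT.lf (nat_lit 7828) (nat_lit 6) (nat_lit 103) (nat_lit 3) (nat_lit 218) (nat_lit 131) (nat_lit 221))))))))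
noncomputable def pc3 : PT := (PT.nd (nat_lit 178230) (PT.nd (nat_lit 118404) (PT.nd (nat_lit 59202) (PT.nd (nat_lit 234) (PT.nd (nat_lit 78) (PT.lf (nat_lit 7904) (nat_lit 6) (nat_lit 104) (nat_lit 3) (nat_lit 219) (nat_lit 131) (nat_lit 220)) (PT.nd (nat_lit 78) (PT.lf (nat_lit 7904) (nat_lit 6) (nat_lit 104) (nat_lit 1) (nat_lit 220) (nat_lit 131) (nat_lit 219)) (PT.lf (nat_lit 7828) (nat_lit 6) (nat_lit 103) (nat_lit 1) (nat_lit 221) (nat_lit 131) (nat_lit 218)))) (PT.nd (nat_lit 58812) (PT.nd (nat_lit 78) (PT.lf (nat_lit 7752) (nat_lit 6) (nat_lit 102) (nat_lit 1) (nat_lit 222) (nat_lit 131) (nat_lit 217)) (PT.lf (nat_lit 7676) (nat_lit 6) (nat_lit 101) (nat_lit 1) (nat_lit 223) (nat_lit 131) (nat_lit 216))) (PT.nd (nat_lit 78) (PT.lf (nat_lit 7980) (nat_lit 6) (nat_lit 105) (nat_lit 3) (nat_lit 215) (nat_lit 132) (nat_lit 223)) (PT.lf (nat_lit 8056) (nat_lit 6) (nat_lit 106) (nat_lit 3) (nat_lit 216) (nat_lit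 132) (nat_lit 222))))) (PT.nd (nat_lit 234) (PT.nd (nat_lit 78) (PT.lf (nat_lit 8132) (nat_lit 6) (nat_lit 107) (nat_lit 3) (nat_lit 217) (nat_lit 132) (nat_lit 221)) (PT.nd (nat_lit 78) (PT.lf (nat_lit 8208) (nat_lit 6) (nat_lit 108) (nat_lit 3) (nat_lit 218) (nat_lit 132) (nat_lit 220)) (PT.lf (nat_lit 8284) (nat_lit 3) (nat_lit 109) (nat_lit 1) (nat_lit 219) (nat_lit 132) (nat_lit 219)))) (PT.nd (nat_lit 156) (PT.nd (nat_lit 78) (PT.lf (nat_lit 8208) (nat_lit 6) (nat_lit 108) (nat_lit 1) (nat_lit 220) (nat_lit 132) (nat_lit 218)) (PT.lf (nat_lit 8132) (nat_lit 6) (nat_lit 107) (nat_lit 1) (nat_lit 221) (nat_lit 132) (nat_lit 217))) (PT.nd (nat_lit 78) (PT.lf (nat_lit 8056) (nat_lit 6) (nat_lit 106) (nat_lit 1) (nat_lit 222) (nat_lit 132) (nat_lit 216)) (PT.lf (nat_lit 7980) (nat_lit 6) (nat_lit 105) (nat_lit 1) (nat_lit 223) (nat_lit 132) (nat_lit 215)))))) (PT.nd (nat_lit 546) (PT.nd (nat_lit 234) (PT.nd (nat_lit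 78) (PT.lf (nat_lit 8360) (nat_lit 6) (nat_lit 110) (nat_lit 3) (nat_lit 215) (nat_lit 133) (nat_lit 222)) (PT.nd (nat_lit 78) (PT.lf (nat_lit 8436) (nat_lit 6) (nat_lit 111) (nat_lit 3) (nat_lit 216) (nat_lit 133) (nat_lit 221)) (PT.lf (nat_lit 8512) (nat_lit 6) (nat_lit 112) (nat_lit 3) (nat_lit 217) (nat_lit 133) (nat_lit 220)))) (PT.nd (nat_lit 156) (PT.nd (nat_lit 78) (PT.lf (nat_lit 8588) (nat_lit 6) (nat_lit 113) (nat_lit 3) (nat_lit 218) (nat_lit 133) (nat_lit 219)) (PT.lf (nat_lit 8588) (nat_lit 6) (nat_lit 113) (nat_lit 1) (nat_lit 219) (nat_lit 133) (nat_lit 218))) (PT.nd (nat_lit 78) (PT.lf (nat_lit 8512) (nat_lit 6) (nat_lit 112) (nat_lit 1) (nat_lit 220) (nat_lit 133) (nat_lit 217)) (PT.lf (nat_lit 8436) (nat_lit 6) (nat_lit 111) (nat_lit 1) (nat_lit 221) (nat_lit 133) (nat_lit 216))))) (PT.nd (nat_lit 58968) (PT.nd (nat_lit 58812) (PT.nd (nat_lit 58734) (PT.lf (nat_lit 8360) (nat_lit 6) (nat_lit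 110) (nat_lit 1) (nat_lit 222) (nat_lit 133) (nat_lit 215)) (PT.lf (nat_lit 8664) (nat_lit 6) (nat_lit 114) (nat_lit 3) (nat_lit 214) (nat_lit 134) (nat_lit 222))) (PT.nd (nat_lit 78) (PT.lf (nat_lit 8740) (nat_lit 6) (nat_lit 115) (nat_lit 3) (nat_lit 215) (nat_lit 134) (nat_lit 221)) (PT.lf (nat_lit 8816) (nat_lit 6) (nat_lit 116) (nat_lit 3) (nat_lit 216) (nat_lit 134) (nat_lit 220)))) (PT.nd (nat_lit 156) (PT.nd (nat_lit 78) (PT.lf (nat_lit 8892) (nat_lit 6) (nat_lit 117) (nat_lit 3) (nat_lit 217) (nat_lit 134) (nat_lit 219)) (PT.lf (nat_lit 8968) (nat_lit 3) (nat_lit 118) (nat_lit 1) (nat_lit 218) (nat_lit 134) (nat_lit 218))) (PT.nd (nat_lit 78) (PT.lf (nat_lit 8892) (nat_lit 6) (nat_lit 117) (nat_lit 1) (nat_lit 219) (nat_lit 134) (nat_lit 217)) (PT.lf (nat_lit 8816) (nat_lit 6) (nat_lit 116) (nat_lit 1) (nat_lit 220) (nat_lit 134) (nat_lit 216))))))) (PT.nd (nat_lit 118326) (PT.nd (nat_lit 59124) (PT.nd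 (nat_lit 58812) (PT.nd (nat_lit 78) (PT.lf (nat_lit 8740) (nat_lit 6) (nat_lit 115) (nat_lit 1) (nat_lit 221) (nat_lit 134) (nat_lit 215)) (PT.nd (nat_lit 58656) (PT.lf (nat_lit 8664) (nat_lit 6) (nat_lit 114) (nat_lit 1) (nat_lit 222) (nat_lit 134) (nat_lit 214)) (PT.lf (nat_lit 9044) (nat_lit 6) (nat_lit 119) (nat_lit 3) (nat_lit 213) (nat_lit 135) (nat_lit 222)))) (PT.nd (nat_lit 156) (PT.nd (nat_lit 78) (PT.lf (nat_lit 9120) (nat_lit 6) (nat_lit 120) (nat_lit 3) (nat_lit 214) (nat_lit 135) (nat_lit 221)) (PT.lf (nat_lit 9196) (nat_lit 6) (nat_lit 121) (nat_lit 3) (nat_lit 215) (nat_lit 135) (nat_lit 220))) (PT.nd (nat_lit 78) (PT.lf (nat_lit 9272) (nat_lit 6) (nat_lit 122) (nat_lit 3) (nat_lit 216) (nat_lit 135) (nat_lit 219)) (PT.lf (nat_lit 9348) (nat_lit 6) (nat_lit 123) (nat_lit 3) (nat_lit 217) (nat_lit 135) (nat_lit 218))))) (PT.nd (nat_lit 312) (PT.nd (nat_lit 156) (PT.nd (nat_lit 78) (PT.lf (nat_lit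 9348) (nat_lit 6) (nat_lit 123) (nat_lit 1) (nat_lit 218) (nat_lit 135) (nat_lit 217)) (PT.lf (nat_lit 9272) (nat_lit 6) (nat_lit 122) (nat_lit 1) (nat_lit 219) (nat_lit 135) (nat_lit 216))) (PT.nd (nat_lit 78) (PT.lf (nat_lit 9196) (nat_lit 6) (nat_lit 121) (nat_lit 1) (nat_lit 220) (nat_lit 135) (nat_lit 215)) (PT.lf (nat_lit 9120) (nat_lit 6) (nat_lit 120) (nat_lit 1) (nat_lit 221) (nat_lit 135) (nat_lit 214)))) (PT.nd (nat_lit 58734) (PT.nd (nat_lit 58656) (PT.lf (nat_lit 9044) (nat_lit 6) (nat_lit 119) (nat_lit 1) (nat_lit 222) (nat_lit 135) (nat_lit 213)) (PT.lf (nat_lit 9424) (nat_lit 6) (nat_lit 124) (nat_lit 3) (nat_lit 213) (nat_lit 136) (nat_lit 221))) (PT.nd (nat_lit 78) (PT.lf (nat_lit 9500) (nat_lit 6) (nat_lit 125) (nat_lit 3) (nat_lit 214) (nat_lit 136) (nat_lit 220)) (PT.lf (nat_lit 9576) (nat_lit 6) (nat_lit 126) (nat_lit 3) (nat_lit 215) (nat_lit 136) (nat_lit 219)))))) (PT.nd (nat_lit 59124)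 (PT.nd (nat_lit 234) (PT.nd (nat_lit 78) (PT.lf (nat_lit 9652) (nat_lit 6) (nat_lit 127) (nat_lit 3) (nat_lit 216) (nat_lit 136) (nat_lit 218)) (PT.nd (nat_lit 78) (PT.lf (nat_lit 9728) (nat_lit 3) (nat_lit 128) (nat_lit 1) (nat_lit 217) (nat_lit 136) (nat_lit 217)) (PT.lf (nat_lit 9652) (nat_lit 6) (nat_lit 127) (nat_lit 1) (nat_lit 218) (nat_lit 136) (nat_lit 216)))) (PT.nd (nat_lit 156) (PT.nd (nat_lit 78) (PT.lf (nat_lit 9576) (nat_lit 6) (nat_lit 126) (nat_lit 1) (nat_lit 219) (nat_lit 136) (nat_lit 215)) (PT.lf (nat_lit 9500) (nat_lit 6) (nat_lit 125) (nat_lit 1) (nat_lit 220) (nat_lit 136) (nat_lit 214))) (PT.nd (nat_lit 58656) (PT.lf (nat_lit 9424) (nat_lit 6) (nat_lit 124) (nat_lit 1) (nat_lit 221) (nat_lit 136) (nat_lit 213)) (PT.lf (nat_lit 9804) (nat_lit 6) (nat_lit 129) (nat_lit 3) (nat_lit 212) (nat_lit 137) (nat_lit 221))))) (PT.nd (nat_lit 312) (PT.nd (nat_lit 156) (PT.nd (nat_lit 78) (PT.lf (nat_lit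 9880) (nat_lit 6) (nat_lit 130) (nat_lit 3) (nat_lit 213) (nat_lit 137) (nat_lit 220)) (PT.lf (nat_lit 9956) (nat_lit 6) (nat_lit 131) (nat_lit 3) (nat_lit 214) (nat_lit 137) (nat_lit 219))) (PT.nd (nat_lit 78) (PT.lf (nat_lit 10032) (nat_lit 6) (nat_lit 132) (nat_lit 3) (nat_lit 215) (nat_lit 137) (nat_lit 218)) (PT.lf (nat_lit 10108) (nat_lit 6) (nat_lit 133) (nat_lit 3) (nat_lit 216) (nat_lit 137) (nat_lit 217)))) (PT.nd (nat_lit 156) (PT.nd (nat_lit 78) (PT.lf (nat_lit 10108) (nat_lit 6) (nat_lit 133) (nat_lit 1) (nat_lit 217) (nat_lit 137) (nat_lit 216)) (PT.lf (nat_lit 10032) (nat_lit 6) (nat_lit 132) (nat_lit 1) (nat_lit 218) (nat_lit 137) (nat_lit 215))) (PT.nd (nat_lit 78) (PT.lf (nat_lit 9956) (nat_lit 6) (nat_lit 131) (nat_lit 1) (nat_lit 219) (nat_lit 137) (nat_lit 214)) (PT.lf (nat_lit 9880) (nat_lit 6) (nat_lit 130) (nat_lit 1) (nat_lit 220) (nat_lit 137) (nat_lit 213))))))))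
noncomputable def pc4 : PT := (PT.nd (nat_lit 177762) (PT.nd (nat_lit 118092) (PT.nd (nat_lit 59046) (PT.nd (nat_lit 58734) (PT.nd (nat_lit 58578) (PT.lf (nat_lit 9804) (nat_lit 6) (nat_lit 129) (nat_lit 1) (nat_lit 221) (nat_lit 137) (nat_lit 212)) (PT.nd (nat_lit 78) (PT.lf (nat_lit 10184) (nat_lit 6) (nat_lit 134) (nat_lit 3) (nat_lit 211) (nat_lit 138) (nat_lit 221)) (PT.lf (nat_lit 10260) (nat_lit 6) (nat_lit 135) (nat_lit 3) (nat_lit 212) (nat_lit 138) (nat_lit 220)))) (PT.nd (nat_lit 156) (PT.nd (nat_lit 78) (PT.lf (nat_lit 10336) (nat_lit 6) (nat_lit 136) (nat_lit 3) (nat_lit 213) (nat_lit 138) (nat_lit 219)) (PT.lf (nat_lit 10412) (nat_lit 6) (nat_lit 137) (nat_lit 3) (nat_lit 214) (nat_lit 138) (nat_lit 218))) (PT.nd (nat_lit 78) (PT.lf (nat_lit 10488) (nat_lit 6) (nat_lit 138) (nat_lit 3) (nat_lit 215) (nat_lit 138) (nat_lit 217)) (PT.lf (nat_lit 10564) (nat_lit 3) (nat_lit 139) (nat_lit 1) (nat_lit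 216) (nat_lit 138) (nat_lit 216))))) (PT.nd (nat_lit 234) (PT.nd (nat_lit 78) (PT.lf (nat_lit 10488) (nat_lit 6) (nat_lit 138) (nat_lit 1) (nat_lit 217) (nat_lit 138) (nat_lit 215)) (PT.nd (nat_lit 78) (PT.lf (nat_lit 10412) (nat_lit 6) (nat_lit 137) (nat_lit 1) (nat_lit 218) (nat_lit 138) (nat_lit 214)) (PT.lf (nat_lit 10336) (nat_lit 6) (nat_lit 136) (nat_lit 1) (nat_lit 219) (nat_lit 138) (nat_lit 213)))) (PT.nd (nat_lit 58656) (PT.nd (nat_lit 78) (PT.lf (nat_lit 10260) (nat_lit 6) (nat_lit 135) (nat_lit 1) (nat_lit 220) (nat_lit 138) (nat_lit 212)) (PT.lf (nat_lit 10184) (nat_lit 6) (nat_lit 134) (nat_lit 1) (nat_lit 221) (nat_lit 138) (nat_lit 211))) (PT.nd (nat_lit 78) (PT.lf (nat_lit 10640) (nat_lit 6) (nat_lit 140) (nat_lit 3) (nat_lit 211) (nat_lit 139) (nat_lit 220)) (PT.lf (nat_lit 10716) (nat_lit 6) (nat_lit 141) (nat_lit 3) (nat_lit 212) (nat_lit 139) (nat_lit 219)))))) (PT.nd (nat_lit 546) (PT.nd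 (nat_lit 234) (PT.nd (nat_lit 78) (PT.lf (nat_lit 10792) (nat_lit 6) (nat_lit 142) (nat_lit 3) (nat_lit 213) (nat_lit 139) (nat_lit 218)) (PT.nd (nat_lit 78) (PT.lf (nat_lit 10868) (nat_lit 6) (nat_lit 143) (nat_lit 3) (nat_lit 214) (nat_lit 139) (nat_lit 217)) (PT.lf (nat_lit 10944) (nat_lit 6) (nat_lit 144) (nat_lit 3) (nat_lit 215) (nat_lit 139) (nat_lit 216)))) (PT.nd (nat_lit 156) (PT.nd (nat_lit 78) (PT.lf (nat_lit 10944) (nat_lit 6) (nat_lit 144) (nat_lit 1) (nat_lit 216) (nat_lit 139) (nat_lit 215)) (PT.lf (nat_lit 10868) (nat_lit 6) (nat_lit 143) (nat_lit 1) (nat_lit 217) (nat_lit 139) (nat_lit 214))) (PT.nd (nat_lit 78) (PT.lf (nat_lit 10792) (nat_lit 6) (nat_lit 142) (nat_lit 1) (nat_lit 218) (nat_lit 139) (nat_lit 213)) (PT.lf (nat_lit 10716) (nat_lit 6) (nat_lit 141) (nat_lit 1) (nat_lit 219) (nat_lit 139) (nat_lit 212))))) (PT.nd (nat_lit 58812) (PT.nd (nat_lit 58656) (PT.nd (nat_lit 58578) (PT.lf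 (nat_lit 10640) (nat_lit 6) (nat_lit 140) (nat_lit 1) (nat_lit 220) (nat_lit 139) (nat_lit 211)) (PT.lf (nat_lit 11020) (nat_lit 6) (nat_lit 145) (nat_lit 3) (nat_lit 210) (nat_lit 140) (nat_lit 220))) (PT.nd (nat_lit 78) (PT.lf (nat_lit 11096) (nat_lit 6) (nat_lit 146) (nat_lit 3) (nat_lit 211) (nat_lit 140) (nat_lit 219)) (PT.lf (nat_lit 11172) (nat_lit 6) (nat_lit 147) (nat_lit 3) (nat_lit 212) (nat_lit 140) (nat_lit 218)))) (PT.nd (nat_lit 156) (PT.nd (nat_lit 78) (PT.lf (nat_lit 11248) (nat_lit 6) (nat_lit 148) (nat_lit 3) (nat_lit 213) (nat_lit 140) (nat_lit 217)) (PT.lf (nat_lit 11324) (nat_lit 6) (nat_lit 149) (nat_lit 3) (nat_lit 214) (nat_lit 140) (nat_lit 216))) (PT.nd (nat_lit 78) (PT.lf (nat_lit 11400) (nat_lit 3) (nat_lit 150) (nat_lit 1) (nat_lit 215) (nat_lit 140) (nat_lit 215)) (PT.lf (nat_lit 11324) (nat_lit 6) (nat_lit 149) (nat_lit 1) (nat_lit 216) (nat_lit 140) (nat_lit 214))))))) (PT.nd (nat_lit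 59514) (PT.nd (nat_lit 58968) (PT.nd (nat_lit 234) (PT.nd (nat_lit 78) (PT.lf (nat_lit 11248) (nat_lit 6) (nat_lit 148) (nat_lit 1) (nat_lit 217) (nat_lit 140) (nat_lit 213)) (PT.nd (nat_lit 78) (PT.lf (nat_lit 11172) (nat_lit 6) (nat_lit 147) (nat_lit 1) (nat_lit 218) (nat_lit 140) (nat_lit 212)) (PT.lf (nat_lit 11096) (nat_lit 6) (nat_lit 146) (nat_lit 1) (nat_lit 219) (nat_lit 140) (nat_lit 211)))) (PT.nd (nat_lit 58578) (PT.nd (nat_lit 58500) (PT.lf (nat_lit 11020) (nat_lit 6) (nat_lit 145) (nat_lit 1) (nat_lit 220) (nat_lit 140) (nat_lit 210)) (PT.lf (nat_lit 11476) (nat_lit 6) (nat_lit 151) (nat_lit 3) (nat_lit 209) (nat_lit 141) (nat_lit 220))) (PT.nd (nat_lit 78) (PT.lf (nat_lit 11552) (nat_lit 6) (nat_lit 152) (nat_lit 3) (nat_lit 210) (nat_lit 141) (nat_lit 219)) (PT.lf (nat_lit 11628) (nat_lit 6) (nat_lit 153) (nat_lit 3) (nat_lit 211) (nat_lit 141) (nat_lit 218))))) (PT.nd (nat_lit 234) (PT.nd (nat_lit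 78) (PT.lf (nat_lit 11704) (nat_lit 6) (nat_lit 154) (nat_lit 3) (nat_lit 212) (nat_lit 141) (nat_lit 217)) (PT.nd (nat_lit 78) (PT.lf (nat_lit 11780) (nat_lit 6) (nat_lit 155) (nat_lit 3) (nat_lit 213) (nat_lit 141) (nat_lit 216)) (PT.lf (nat_lit 11856) (nat_lit 6) (nat_lit 156) (nat_lit 3) (nat_lit 214) (nat_lit 141) (nat_lit 215)))) (PT.nd (nat_lit 156) (PT.nd (nat_lit 78) (PT.lf (nat_lit 11856) (nat_lit 6) (nat_lit 156) (nat_lit 1) (nat_lit 215) (nat_lit 141) (nat_lit 214)) (PT.lf (nat_lit 11780) (nat_lit 6) (nat_lit 155) (nat_lit 1) (nat_lit 216) (nat_lit 141) (nat_lit 213))) (PT.nd (nat_lit 78) (PT.lf (nat_lit 11704) (nat_lit 6) (nat_lit 154) (nat_lit 1) (nat_lit 217) (nat_lit 141) (nat_lit 212)) (PT.lf (nat_lit 11628) (nat_lit 6) (nat_lit 153) (nat_lit 1) (nat_lit 218) (nat_lit 141) (nat_lit 211)))))) (PT.nd (nat_lit 58968) (PT.nd (nat_lit 58656) (PT.nd (nat_lit 78) (PT.lf (nat_lit 11552) (nat_lit 6) (nat_lit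 152) (nat_lit 1) (nat_lit 219) (nat_lit 141) (nat_lit 210)) (PT.nd (nat_lit 58500) (PT.lf (nat_lit 11476) (nat_lit 6) (nat_lit 151) (nat_lit 1) (nat_lit 220) (nat_lit 141) (nat_lit 209)) (PT.lf (nat_lit 11932) (nat_lit 6) (nat_lit 157) (nat_lit 3) (nat_lit 209) (nat_lit 142) (nat_lit 219)))) (PT.nd (nat_lit 156) (PT.nd (nat_lit 78) (PT.lf (nat_lit 12008) (nat_lit 6) (nat_lit 158) (nat_lit 3) (nat_lit 210) (nat_lit 142) (nat_lit 218)) (PT.lf (nat_lit 12084) (nat_lit 6) (nat_lit 159) (nat_lit 3) (nat_lit 211) (nat_lit 142) (nat_lit 217))) (PT.nd (nat_lit 78) (PT.lf (nat_lit 12160) (nat_lit 6) (nat_lit 160) (nat_lit 3) (nat_lit 212) (nat_lit 142) (nat_lit 216)) (PT.lf (nat_lit 12236) (nat_lit 6) (nat_lit 161) (nat_lit 3) (nat_lit 213) (nat_lit 142) (nat_lit 215))))) (PT.nd (nat_lit 312) (PT.nd (nat_lit 156) (PT.nd (nat_lit 78) (PT.lf (nat_lit 12312) (nat_lit 3) (nat_lit 162) (nat_lit 1) (nat_lit 214) (nat_lit 142)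 (nat_lit 214)) (PT.lf (nat_lit 12236) (nat_lit 6) (nat_lit 161) (nat_lit 1) (nat_lit 215) (nat_lit 142) (nat_lit 213))) (PT.nd (nat_lit 78) (PT.lf (nat_lit 12160) (nat_lit 6) (nat_lit 160) (nat_lit 1) (nat_lit 216) (nat_lit 142) (nat_lit 212)) (PT.lf (nat_lit 12084) (nat_lit 6) (nat_lit 159) (nat_lit 1) (nat_lit 217) (nat_lit 142) (nat_lit 211)))) (PT.nd (nat_lit 58578) (PT.nd (nat_lit 78) (PT.lf (nat_lit 12008) (nat_lit 6) (nat_lit 158) (nat_lit 1) (nat_lit 218) (nat_lit 142) (nat_lit 210)) (PT.lf (nat_lit 11932) (nat_lit 6) (nat_lit 157) (nat_lit 1) (nat_lit 219) (nat_lit 142) (nat_lit 209))) (PT.nd (nat_lit 78) (PT.lf (nat_lit 12388) (nat_lit 6) (nat_lit 163) (nat_lit 3) (nat_lit 208) (nat_lit 143) (nat_lit 219)) (PT.lf (nat_lit 12464) (nat_lit 6) (nat_lit 164) (nat_lit 3) (nat_lit 209) (nat_lit 143) (nat_lit 218))))))))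
noncomputable def pc5 : PT := (PT.nd (nat_lit 118950) (PT.nd (nat_lit 59436) (PT.nd (nat_lit 546) (PT.nd (nat_lit 234) (PT.nd (nat_lit 78) (PT.lf (nat_lit 12540) (nat_lit 6) (nat_lit 165) (nat_lit 3) (nat_lit 210) (nat_lit 143) (nat_lit 217)) (PT.nd (nat_lit 78) (PT.lf (nat_lit 12616) (nat_lit 6) (nat_lit 166) (nat_lit 3) (nat_lit 211) (nat_lit 143) (nat_lit 216)) (PT.lf (nat_lit 12692) (nat_lit 6) (nat_lit 167) (nat_lit 3) (nat_lit 212) (nat_lit 143) (nat_lit 215)))) (PT.nd (nat_lit 156) (PT.nd (nat_lit 78) (PT.lf (nat_lit 12768) (nat_lit 6) (nat_lit 168) (nat_lit 3) (nat_lit 213) (nat_lit 143) (nat_lit 214)) (PT.lf (nat_lit 12768) (nat_lit 6) (nat_lit 168) (nat_lit 1) (nat_lit 214) (nat_lit 143) (nat_lit 213))) (PT.nd (nat_lit 78) (PT.lf (nat_lit 12692) (nat_lit 6) (nat_lit 167) (nat_lit 1) (nat_lit 215) (nat_lit 143) (nat_lit 212)) (PT.lf (nat_lit 12616) (nat_lit 6) (nat_lit 166) (nat_lit 1) (nat_lit 216) (nat_lit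 143) (nat_lit 211))))) (PT.nd (nat_lit 58578) (PT.nd (nat_lit 78) (PT.lf (nat_lit 12540) (nat_lit 6) (nat_lit 165) (nat_lit 1) (nat_lit 217) (nat_lit 143) (nat_lit 210)) (PT.nd (nat_lit 78) (PT.lf (nat_lit 12464) (nat_lit 6) (nat_lit 164) (nat_lit 1) (nat_lit 218) (nat_lit 143) (nat_lit 209)) (PT.lf (nat_lit 12388) (nat_lit 6) (nat_lit 163) (nat_lit 1) (nat_lit 219) (nat_lit 143) (nat_lit 208)))) (PT.nd (nat_lit 156) (PT.nd (nat_lit 78) (PT.lf (nat_lit 12844) (nat_lit 6) (nat_lit 169) (nat_lit 3) (nat_lit 207) (nat_lit 144) (nat_lit 219)) (PT.lf (nat_lit 12920) (nat_lit 6) (nat_lit 170) (nat_lit 3) (nat_lit 208) (nat_lit 144) (nat_lit 218))) (PT.nd (nat_lit 78) (PT.lf (nat_lit 12996) (nat_lit 6) (nat_lit 171) (nat_lit 3) (nat_lit 209) (nat_lit 144) (nat_lit 217)) (PT.lf (nat_lit 13072) (nat_lit 6) (nat_lit 172) (nat_lit 3) (nat_lit 210) (nat_lit 144) (nat_lit 216)))))) (PT.nd (nat_lit 546) (PT.nd (nat_lit 234)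 (PT.nd (nat_lit 78) (PT.lf (nat_lit 13148) (nat_lit 6) (nat_lit 173) (nat_lit 3) (nat_lit 211) (nat_lit 144) (nat_lit 215)) (PT.nd (nat_lit 78) (PT.lf (nat_lit 13224) (nat_lit 6) (nat_lit 174) (nat_lit 3) (nat_lit 212) (nat_lit 144) (nat_lit 214)) (PT.lf (nat_lit 13300) (nat_lit 3) (nat_lit 175) (nat_lit 1) (nat_lit 213) (nat_lit 144) (nat_lit 213)))) (PT.nd (nat_lit 156) (PT.nd (nat_lit 78) (PT.lf (nat_lit 13224) (nat_lit 6) (nat_lit 174) (nat_lit 1) (nat_lit 214) (nat_lit 144) (nat_lit 212)) (PT.lf (nat_lit 13148) (nat_lit 6) (nat_lit 173) (nat_lit 1) (nat_lit 215) (nat_lit 144) (nat_lit 211))) (PT.nd (nat_lit 78) (PT.lf (nat_lit 13072) (nat_lit 6) (nat_lit 172) (nat_lit 1) (nat_lit 216) (nat_lit 144) (nat_lit 210)) (PT.lf (nat_lit 12996) (nat_lit 6) (nat_lit 171) (nat_lit 1) (nat_lit 217) (nat_lit 144) (nat_lit 209))))) (PT.nd (nat_lit 58656) (PT.nd (nat_lit 58500) (PT.nd (nat_lit 78) (PT.lf (nat_lit 12920)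 (nat_lit 6) (nat_lit 170) (nat_lit 1) (nat_lit 218) (nat_lit 144) (nat_lit 208)) (PT.lf (nat_lit 12844) (nat_lit 6) (nat_lit 169) (nat_lit 1) (nat_lit 219) (nat_lit 144) (nat_lit 207))) (PT.nd (nat_lit 78) (PT.lf (nat_lit 13376) (nat_lit 6) (nat_lit 176) (nat_lit 3) (nat_lit 207) (nat_lit 145) (nat_lit 218)) (PT.lf (nat_lit 13452) (nat_lit 6) (nat_lit 177) (nat_lit 3) (nat_lit 208) (nat_lit 145) (nat_lit 217)))) (PT.nd (nat_lit 156) (PT.nd (nat_lit 78) (PT.lf (nat_lit 13528) (nat_lit 6) (nat_lit 178) (nat_lit 3) (nat_lit 209) (nat_lit 145) (nat_lit 216)) (PT.lf (nat_lit 13604) (nat_lit 6) (nat_lit 179) (nat_lit 3) (nat_lit 210) (nat_lit 145) (nat_lit 215))) (PT.nd (nat_lit 78) (PT.lf (nat_lit 13680) (nat_lit 6) (nat_lit 180) (nat_lit 3) (nat_lit 211) (nat_lit 145) (nat_lit 214)) (PT.lf (nat_lit 13756) (nat_lit 6) (nat_lit 181) (nat_lit 3) (nat_lit 212) (nat_lit 145) (nat_lit 213))))))) (PT.nd (nat_lit 59514) (PT.nd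 (nat_lit 58890) (PT.nd (nat_lit 234) (PT.nd (nat_lit 78) (PT.lf (nat_lit 13756) (nat_lit 6) (nat_lit 181) (nat_lit 1) (nat_lit 213) (nat_lit 145) (nat_lit 212)) (PT.nd (nat_lit 78) (PT.lf (nat_lit 13680) (nat_lit 6) (nat_lit 180) (nat_lit 1) (nat_lit 214) (nat_lit 145) (nat_lit 211)) (PT.lf (nat_lit 13604) (nat_lit 6) (nat_lit 179) (nat_lit 1) (nat_lit 215) (nat_lit 145) (nat_lit 210)))) (PT.nd (nat_lit 156) (PT.nd (nat_lit 78) (PT.lf (nat_lit 13528) (nat_lit 6) (nat_lit 178) (nat_lit 1) (nat_lit 216) (nat_lit 145) (nat_lit 209)) (PT.lf (nat_lit 13452) (nat_lit 6) (nat_lit 177) (nat_lit 1) (nat_lit 217) (nat_lit 145) (nat_lit 208))) (PT.nd (nat_lit 58422) (PT.lf (nat_lit 13376) (nat_lit 6) (nat_lit 176) (nat_lit 1) (nat_lit 218) (nat_lit 145) (nat_lit 207)) (PT.lf (nat_lit 13832) (nat_lit 6) (nat_lit 182) (nat_lit 3) (nat_lit 206) (nat_lit 146) (nat_lit 218))))) (PT.nd (nat_lit 312) (PT.nd (nat_lit 156) (PT.nd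 (nat_lit 78) (PT.lf (nat_lit 13908) (nat_lit 6) (nat_lit 183) (nat_lit 3) (nat_lit 207) (nat_lit 146) (nat_lit 217)) (PT.lf (nat_lit 13984) (nat_lit 6) (nat_lit 184) (nat_lit 3) (nat_lit 208) (nat_lit 146) (nat_lit 216))) (PT.nd (nat_lit 78) (PT.lf (nat_lit 14060) (nat_lit 6) (nat_lit 185) (nat_lit 3) (nat_lit 209) (nat_lit 146) (nat_lit 215)) (PT.lf (nat_lit 14136) (nat_lit 6) (nat_lit 186) (nat_lit 3) (nat_lit 210) (nat_lit 146) (nat_lit 214)))) (PT.nd (nat_lit 156) (PT.nd (nat_lit 78) (PT.lf (nat_lit 14212) (nat_lit 6) (nat_lit 187) (nat_lit 3) (nat_lit 211) (nat_lit 146) (nat_lit 213)) (PT.lf (nat_lit 14288) (nat_lit 3) (nat_lit 188) (nat_lit 1) (nat_lit 212) (nat_lit 146) (nat_lit 212))) (PT.nd (nat_lit 78) (PT.lf (nat_lit 14212) (nat_lit 6) (nat_lit 187) (nat_lit 1) (nat_lit 213) (nat_lit 146) (nat_lit 211)) (PT.lf (nat_lit 14136) (nat_lit 6) (nat_lit 186) (nat_lit 1) (nat_lit 214) (nat_lit 146) (nat_lit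 210)))))) (PT.nd (nat_lit 58812) (PT.nd (nat_lit 234) (PT.nd (nat_lit 78) (PT.lf (nat_lit 14060) (nat_lit 6) (nat_lit 185) (nat_lit 1) (nat_lit 215) (nat_lit 146) (nat_lit 209)) (PT.nd (nat_lit 78) (PT.lf (nat_lit 13984) (nat_lit 6) (nat_lit 184) (nat_lit 1) (nat_lit 216) (nat_lit 146) (nat_lit 208)) (PT.lf (nat_lit 13908) (nat_lit 6) (nat_lit 183) (nat_lit 1) (nat_lit 217) (nat_lit 146) (nat_lit 207)))) (PT.nd (nat_lit 58422) (PT.nd (nat_lit 58344) (PT.lf (nat_lit 13832) (nat_lit 6) (nat_lit 182) (nat_lit 1) (nat_lit 218) (nat_lit 146) (nat_lit 206)) (PT.lf (nat_lit 14364) (nat_lit 6) (nat_lit 189) (nat_lit 3) (nat_lit 205) (nat_lit 147) (nat_lit 218))) (PT.nd (nat_lit 78) (PT.lf (nat_lit 14440) (nat_lit 6) (nat_lit 190) (nat_lit 3) (nat_lit 206) (nat_lit 147) (nat_lit 217)) (PT.lf (nat_lit 14516) (nat_lit 6) (nat_lit 191) (nat_lit 3) (nat_lit 207) (nat_lit 147) (nat_lit 216))))) (PT.nd (nat_lit 312) (PT.nd (nat_lit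 156) (PT.nd (nat_lit 78) (PT.lf (nat_lit 14592) (nat_lit 6) (nat_lit 192) (nat_lit 3) (nat_lit 208) (nat_lit 147) (nat_lit 215)) (PT.lf (nat_lit 14668) (nat_lit 6) (nat_lit 193) (nat_lit 3) (nat_lit 209) (nat_lit 147) (nat_lit 214))) (PT.nd (nat_lit 78) (PT.lf (nat_lit 14744) (nat_lit 6) (nat_lit 194) (nat_lit 3) (nat_lit 210) (nat_lit 147) (nat_lit 213)) (PT.lf (nat_lit 14820) (nat_lit 6) (nat_lit 195) (nat_lit 3) (nat_lit 211) (nat_lit 147) (nat_lit 212)))) (PT.nd (nat_lit 156) (PT.nd (nat_lit 78) (PT.lf (nat_lit 14820) (nat_lit 6) (nat_lit 195) (nat_lit 1) (nat_lit 212) (nat_lit 147) (nat_lit 211)) (PT.lf (nat_lit 14744) (nat_lit 6) (nat_lit 194) (nat_lit 1) (nat_lit 213) (nat_lit 147) (nat_lit 210))) (PT.nd (nat_lit 78) (PT.lf (nat_lit 14668) (nat_lit 6) (nat_lit 193) (nat_lit 1) (nat_lit 214) (nat_lit 147) (nat_lit 209)) (PT.lf (nat_lit 14592) (nat_lit 6) (nat_lit 192) (nat_lit 1) (nat_lit 215) (nat_lit 147)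 (nat_lit 208))))))))
noncomputable def pc6 : PT := (PT.nd (nat_lit 118794) (PT.nd (nat_lit 59358) (PT.nd (nat_lit 58812) (PT.nd (nat_lit 58500) (PT.nd (nat_lit 78) (PT.lf (nat_lit 14516) (nat_lit 6) (nat_lit 191) (nat_lit 1) (nat_lit 216) (nat_lit 147) (nat_lit 207)) (PT.nd (nat_lit 78) (PT.lf (nat_lit 14440) (nat_lit 6) (nat_lit 190) (nat_lit 1) (nat_lit 217) (nat_lit 147) (nat_lit 206)) (PT.lf (nat_lit 14364) (nat_lit 6) (nat_lit 189) (nat_lit 1) (nat_lit 218) (nat_lit 147) (nat_lit 205)))) (PT.nd (nat_lit 156) (PT.nd (nat_lit 78) (PT.lf (nat_lit 14896) (nat_lit 6) (nat_lit 196) (nat_lit 3) (nat_lit 205) (nat_lit 148) (nat_lit 217)) (PT.lf (nat_lit 14972) (nat_lit 6) (nat_lit 197) (nat_lit 3) (nat_lit 206) (nat_lit 148) (nat_lit 216))) (PT.nd (nat_lit 78) (PT.lf (nat_lit 15048) (nat_lit 6) (nat_lit 198) (nat_lit 3) (nat_lit 207) (nat_lit 148) (nat_lit 215)) (PT.lf (nat_lit 15124) (nat_lit 6) (nat_lit 199) (nat_lit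 3) (nat_lit 208) (nat_lit 148) (nat_lit 214))))) (PT.nd (nat_lit 234) (PT.nd (nat_lit 78) (PT.lf (nat_lit 15200) (nat_lit 6) (nat_lit 200) (nat_lit 3) (nat_lit 209) (nat_lit 148) (nat_lit 213)) (PT.nd (nat_lit 78) (PT.lf (nat_lit 15276) (nat_lit 6) (nat_lit 201) (nat_lit 3) (nat_lit 210) (nat_lit 148) (nat_lit 212)) (PT.lf (nat_lit 15352) (nat_lit 3) (nat_lit 202) (nat_lit 1) (nat_lit 211) (nat_lit 148) (nat_lit 211)))) (PT.nd (nat_lit 156) (PT.nd (nat_lit 78) (PT.lf (nat_lit 15276) (nat_lit 6) (nat_lit 201) (nat_lit 1) (nat_lit 212) (nat_lit 148) (nat_lit 210)) (PT.lf (nat_lit 15200) (nat_lit 6) (nat_lit 200) (nat_lit 1) (nat_lit 213) (nat_lit 148) (nat_lit 209))) (PT.nd (nat_lit 78) (PT.lf (nat_lit 15124) (nat_lit 6) (nat_lit 199) (nat_lit 1) (nat_lit 214) (nat_lit 148) (nat_lit 208)) (PT.lf (nat_lit 15048) (nat_lit 6) (nat_lit 198) (nat_lit 1) (nat_lit 215) (nat_lit 148) (nat_lit 207)))))) (PT.nd (nat_lit 58812)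 (PT.nd (nat_lit 58500) (PT.nd (nat_lit 78) (PT.lf (nat_lit 14972) (nat_lit 6) (nat_lit 197) (nat_lit 1) (nat_lit 216) (nat_lit 148) (nat_lit 206)) (PT.nd (nat_lit 58344) (PT.lf (nat_lit 14896) (nat_lit 6) (nat_lit 196) (nat_lit 1) (nat_lit 217) (nat_lit 148) (nat_lit 205)) (PT.lf (nat_lit 15428) (nat_lit 6) (nat_lit 203) (nat_lit 3) (nat_lit 204) (nat_lit 149) (nat_lit 217)))) (PT.nd (nat_lit 156) (PT.nd (nat_lit 78) (PT.lf (nat_lit 15504) (nat_lit 6) (nat_lit 204) (nat_lit 3) (nat_lit 205) (nat_lit 149) (nat_lit 216)) (PT.lf (nat_lit 15580) (nat_lit 6) (nat_lit 205) (nat_lit 3) (nat_lit 206) (nat_lit 149) (nat_lit 215))) (PT.nd (nat_lit 78) (PT.lf (nat_lit 15656) (nat_lit 6) (nat_lit 206) (nat_lit 3) (nat_lit 207) (nat_lit 149) (nat_lit 214)) (PT.lf (nat_lit 15732) (nat_lit 6) (nat_lit 207) (nat_lit 3) (nat_lit 208) (nat_lit 149) (nat_lit 213))))) (PT.nd (nat_lit 312) (PT.nd (nat_lit 156) (PT.nd (nat_lit 78) (PT.lf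 (nat_lit 15808) (nat_lit 6) (nat_lit 208) (nat_lit 3) (nat_lit 209) (nat_lit 149) (nat_lit 212)) (PT.lf (nat_lit 15884) (nat_lit 6) (nat_lit 209) (nat_lit 3) (nat_lit 210) (nat_lit 149) (nat_lit 211))) (PT.nd (nat_lit 78) (PT.lf (nat_lit 15884) (nat_lit 6) (nat_lit 209) (nat_lit 1) (nat_lit 211) (nat_lit 149) (nat_lit 210)) (PT.lf (nat_lit 15808) (nat_lit 6) (nat_lit 208) (nat_lit 1) (nat_lit 212) (nat_lit 149) (nat_lit 209)))) (PT.nd (nat_lit 156) (PT.nd (nat_lit 78) (PT.lf (nat_lit 15732) (nat_lit 6) (nat_lit 207) (nat_lit 1) (nat_lit 213) (nat_lit 149) (nat_lit 208)) (PT.lf (nat_lit 15656) (nat_lit 6) (nat_lit 206) (nat_lit 1) (nat_lit 214) (nat_lit 149) (nat_lit 207))) (PT.nd (nat_lit 78) (PT.lf (nat_lit 15580) (nat_lit 6) (nat_lit 205) (nat_lit 1) (nat_lit 215) (nat_lit 149) (nat_lit 206)) (PT.lf (nat_lit 15504) (nat_lit 6) (nat_lit 204) (nat_lit 1) (nat_lit 216) (nat_lit 149) (nat_lit 205))))))) (PT.nd (nat_lit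 59280) (PT.nd (nat_lit 58734) (PT.nd (nat_lit 58422) (PT.nd (nat_lit 58266) (PT.lf (nat_lit 15428) (nat_lit 6) (nat_lit 203) (nat_lit 1) (nat_lit 217) (nat_lit 149) (nat_lit 204)) (PT.nd (nat_lit 78) (PT.lf (nat_lit 15960) (nat_lit 6) (nat_lit 210) (nat_lit 3) (nat_lit 203) (nat_lit 150) (nat_lit 217)) (PT.lf (nat_lit 16036) (nat_lit 6) (nat_lit 211) (nat_lit 3) (nat_lit 204) (nat_lit 150) (nat_lit 216)))) (PT.nd (nat_lit 156) (PT.nd (nat_lit 78) (PT.lf (nat_lit 16112) (nat_lit 6) (nat_lit 212) (nat_lit 3) (nat_lit 205) (nat_lit 150) (nat_lit 215)) (PT.lf (nat_lit 16188) (nat_lit 6) (nat_lit 213) (nat_lit 3) (nat_lit 206) (nat_lit 150) (nat_lit 214))) (PT.nd (nat_lit 78) (PT.lf (nat_lit 16264) (nat_lit 6) (nat_lit 214) (nat_lit 3) (nat_lit 207) (nat_lit 150) (nat_lit 213)) (PT.lf (nat_lit 16340) (nat_lit 6) (nat_lit 215) (nat_lit 3) (nat_lit 208) (nat_lit 150) (nat_lit 212))))) (PT.nd (nat_lit 234) (PT.nd (nat_lit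 78) (PT.lf (nat_lit 16416) (nat_lit 6) (nat_lit 216) (nat_lit 3) (nat_lit 209) (nat_lit 150) (nat_lit 211)) (PT.nd (nat_lit 78) (PT.lf (nat_lit 16492) (nat_lit 3) (nat_lit 217) (nat_lit 1) (nat_lit 210) (nat_lit 150) (nat_lit 210)) (PT.lf (nat_lit 16416) (nat_lit 6) (nat_lit 216) (nat_lit 1) (nat_lit 211) (nat_lit 150) (nat_lit 209)))) (PT.nd (nat_lit 156) (PT.nd (nat_lit 78) (PT.lf (nat_lit 16340) (nat_lit 6) (nat_lit 215) (nat_lit 1) (nat_lit 212) (nat_lit 150) (nat_lit 208)) (PT.lf (nat_lit 16264) (nat_lit 6) (nat_lit 214) (nat_lit 1) (nat_lit 213) (nat_lit 150) (nat_lit 207))) (PT.nd (nat_lit 78) (PT.lf (nat_lit 16188) (nat_lit 6) (nat_lit 213) (nat_lit 1) (nat_lit 214) (nat_lit 150) (nat_lit 206)) (PT.lf (nat_lit 16112) (nat_lit 6) (nat_lit 212) (nat_lit 1) (nat_lit 215) (nat_lit 150) (nat_lit 205)))))) (PT.nd (nat_lit 58656) (PT.nd (nat_lit 58344) (PT.nd (nat_lit 78) (PT.lf (nat_lit 16036) (nat_lit 6) (nat_lit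 211) (nat_lit 1) (nat_lit 216) (nat_lit 150) (nat_lit 204)) (PT.nd (nat_lit 58188) (PT.lf (nat_lit 15960) (nat_lit 6) (nat_lit 210) (nat_lit 1) (nat_lit 217) (nat_lit 150) (nat_lit 203)) (PT.lf (nat_lit 16568) (nat_lit 6) (nat_lit 218) (nat_lit 3) (nat_lit 202) (nat_lit 151) (nat_lit 217)))) (PT.nd (nat_lit 156) (PT.nd (nat_lit 78) (PT.lf (nat_lit 16644) (nat_lit 6) (nat_lit 219) (nat_lit 3) (nat_lit 203) (nat_lit 151) (nat_lit 216)) (PT.lf (nat_lit 16720) (nat_lit 6) (nat_lit 220) (nat_lit 3) (nat_lit 204) (nat_lit 151) (nat_lit 215))) (PT.nd (nat_lit 78) (PT.lf (nat_lit 16796) (nat_lit 6) (nat_lit 221) (nat_lit 3) (nat_lit 205) (nat_lit 151) (nat_lit 214)) (PT.lf (nat_lit 16872) (nat_lit 6) (nat_lit 222) (nat_lit 3) (nat_lit 206) (nat_lit 151) (nat_lit 213))))) (PT.nd (nat_lit 312) (PT.nd (nat_lit 156) (PT.nd (nat_lit 78) (PT.lf (nat_lit 16948) (nat_lit 6) (nat_lit 223) (nat_lit 3) (nat_lit 207) (nat_lit 151)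 (nat_lit 212)) (PT.lf (nat_lit 17024) (nat_lit 6) (nat_lit 224) (nat_lit 3) (nat_lit 208) (nat_lit 151) (nat_lit 211))) (PT.nd (nat_lit 78) (PT.lf (nat_lit 17100) (nat_lit 6) (nat_lit 225) (nat_lit 3) (nat_lit 209) (nat_lit 151) (nat_lit 210)) (PT.lf (nat_lit 17100) (nat_lit 6) (nat_lit 225) (nat_lit 1) (nat_lit 210) (nat_lit 151) (nat_lit 209)))) (PT.nd (nat_lit 156) (PT.nd (nat_lit 78) (PT.lf (nat_lit 17024) (nat_lit 6) (nat_lit 224) (nat_lit 1) (nat_lit 211) (nat_lit 151) (nat_lit 208)) (PT.lf (nat_lit 16948) (nat_lit 6) (nat_lit 223) (nat_lit 1) (nat_lit 212) (nat_lit 151) (nat_lit 207))) (PT.nd (nat_lit 78) (PT.lf (nat_lit 16872) (nat_lit 6) (nat_lit 222) (nat_lit 1) (nat_lit 213) (nat_lit 151) (nat_lit 206)) (PT.lf (nat_lit 16796) (nat_lit 6) (nat_lit 221) (nat_lit 1) (nat_lit 214) (nat_lit 151) (nat_lit 205))))))))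
noncomputable def pc7 : PT := (PT.nd (nat_lit 118482) (PT.nd (nat_lit 59202) (PT.nd (nat_lit 58656) (PT.nd (nat_lit 58344) (PT.nd (nat_lit 78) (PT.lf (nat_lit 16720) (nat_lit 6) (nat_lit 220) (nat_lit 1) (nat_lit 215) (nat_lit 151) (nat_lit 204)) (PT.nd (nat_lit 78) (PT.lf (nat_lit 16644) (nat_lit 6) (nat_lit 219) (nat_lit 1) (nat_lit 216) (nat_lit 151) (nat_lit 203)) (PT.lf (nat_lit 16568) (nat_lit 6) (nat_lit 218) (nat_lit 1) (nat_lit 217) (nat_lit 151) (nat_lit 202)))) (PT.nd (nat_lit 156) (PT.nd (nat_lit 78) (PT.lf (nat_lit 17176) (nat_lit 6) (nat_lit 226) (nat_lit 3) (nat_lit 202) (nat_lit 152) (nat_lit 216)) (PT.lf (nat_lit 17252) (nat_lit 6) (nat_lit 227) (nat_lit 3) (nat_lit 203) (nat_lit 152) (nat_lit 215))) (PT.nd (nat_lit 78) (PT.lf (nat_lit 17328) (nat_lit 6) (nat_lit 228) (nat_lit 3) (nat_lit 204) (nat_lit 152) (nat_lit 214)) (PT.lf (nat_lit 17404) (nat_lit 6) (nat_lit 229) (nat_lit 3) (nat_lit 205)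 (nat_lit 152) (nat_lit 213))))) (PT.nd (nat_lit 234) (PT.nd (nat_lit 78) (PT.lf (nat_lit 17480) (nat_lit 6) (nat_lit 230) (nat_lit 3) (nat_lit 206) (nat_lit 152) (nat_lit 212)) (PT.nd (nat_lit 78) (PT.lf (nat_lit 17556) (nat_lit 6) (nat_lit 231) (nat_lit 3) (nat_lit 207) (nat_lit 152) (nat_lit 211)) (PT.lf (nat_lit 17632) (nat_lit 6) (nat_lit 232) (nat_lit 3) (nat_lit 208) (nat_lit 152) (nat_lit 210)))) (PT.nd (nat_lit 156) (PT.nd (nat_lit 78) (PT.lf (nat_lit 17708) (nat_lit 3) (nat_lit 233) (nat_lit 1) (nat_lit 209) (nat_lit 152) (nat_lit 209)) (PT.lf (nat_lit 17632) (nat_lit 6) (nat_lit 232) (nat_lit 1) (nat_lit 210) (nat_lit 152) (nat_lit 208))) (PT.nd (nat_lit 78) (PT.lf (nat_lit 17556) (nat_lit 6) (nat_lit 231) (nat_lit 1) (nat_lit 211) (nat_lit 152) (nat_lit 207)) (PT.lf (nat_lit 17480) (nat_lit 6) (nat_lit 230) (nat_lit 1) (nat_lit 212) (nat_lit 152) (nat_lit 206)))))) (PT.nd (nat_lit 58656) (PT.nd (nat_lit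 234) (PT.nd (nat_lit 78) (PT.lf (nat_lit 17404) (nat_lit 6) (nat_lit 229) (nat_lit 1) (nat_lit 213) (nat_lit 152) (nat_lit 205)) (PT.nd (nat_lit 78) (PT.lf (nat_lit 17328) (nat_lit 6) (nat_lit 228) (nat_lit 1) (nat_lit 214) (nat_lit 152) (nat_lit 204)) (PT.lf (nat_lit 17252) (nat_lit 6) (nat_lit 227) (nat_lit 1) (nat_lit 215) (nat_lit 152) (nat_lit 203)))) (PT.nd (nat_lit 58266) (PT.nd (nat_lit 58188) (PT.lf (nat_lit 17176) (nat_lit 6) (nat_lit 226) (nat_lit 1) (nat_lit 216) (nat_lit 152) (nat_lit 202)) (PT.lf (nat_lit 17784) (nat_lit 6) (nat_lit 234) (nat_lit 3) (nat_lit 201) (nat_lit 153) (nat_lit 216))) (PT.nd (nat_lit 78) (PT.lf (nat_lit 17860) (nat_lit 6) (nat_lit 235) (nat_lit 3) (nat_lit 202) (nat_lit 153) (nat_lit 215)) (PT.lf (nat_lit 17936) (nat_lit 6) (nat_lit 236) (nat_lit 3) (nat_lit 203) (nat_lit 153) (nat_lit 214))))) (PT.nd (nat_lit 312) (PT.nd (nat_lit 156) (PT.nd (nat_lit 78) (PT.lf (nat_lit 18012)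 (nat_lit 6) (nat_lit 237) (nat_lit 3) (nat_lit 204) (nat_lit 153) (nat_lit 213)) (PT.lf (nat_lit 18088) (nat_lit 6) (nat_lit 238) (nat_lit 3) (nat_lit 205) (nat_lit 153) (nat_lit 212))) (PT.nd (nat_lit 78) (PT.lf (nat_lit 18164) (nat_lit 6) (nat_lit 239) (nat_lit 3) (nat_lit 206) (nat_lit 153) (nat_lit 211)) (PT.lf (nat_lit 18240) (nat_lit 6) (nat_lit 240) (nat_lit 3) (nat_lit 207) (nat_lit 153) (nat_lit 210)))) (PT.nd (nat_lit 156) (PT.nd (nat_lit 78) (PT.lf (nat_lit 18316) (nat_lit 6) (nat_lit 241) (nat_lit 3) (nat_lit 208) (nat_lit 153) (nat_lit 209)) (PT.lf (nat_lit 18316) (nat_lit 6) (nat_lit 241) (nat_lit 1) (nat_lit 209) (nat_lit 153) (nat_lit 208))) (PT.nd (nat_lit 78) (PT.lf (nat_lit 18240) (nat_lit 6) (nat_lit 240) (nat_lit 1) (nat_lit 210) (nat_lit 153) (nat_lit 207)) (PT.lf (nat_lit 18164) (nat_lit 6) (nat_lit 239) (nat_lit 1) (nat_lit 211) (nat_lit 153) (nat_lit 206))))))) (PT.nd (nat_lit 59202) (PT.nd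 (nat_lit 58578) (PT.nd (nat_lit 234) (PT.nd (nat_lit 78) (PT.lf (nat_lit 18088) (nat_lit 6) (nat_lit 238) (nat_lit 1) (nat_lit 212) (nat_lit 153) (nat_lit 205)) (PT.nd (nat_lit 78) (PT.lf (nat_lit 18012) (nat_lit 6) (nat_lit 237) (nat_lit 1) (nat_lit 213) (nat_lit 153) (nat_lit 204)) (PT.lf (nat_lit 17936) (nat_lit 6) (nat_lit 236) (nat_lit 1) (nat_lit 214) (nat_lit 153) (nat_lit 203)))) (PT.nd (nat_lit 58188) (PT.nd (nat_lit 78) (PT.lf (nat_lit 17860) (nat_lit 6) (nat_lit 235) (nat_lit 1) (nat_lit 215) (nat_lit 153) (nat_lit 202)) (PT.lf (nat_lit 17784) (nat_lit 6) (nat_lit 234) (nat_lit 1) (nat_lit 216) (nat_lit 153) (nat_lit 201))) (PT.nd (nat_lit 78) (PT.lf (nat_lit 18392) (nat_lit 6) (nat_lit 242) (nat_lit 3) (nat_lit 200) (nat_lit 154) (nat_lit 216)) (PT.lf (nat_lit 18468) (nat_lit 6) (nat_lit 243) (nat_lit 3) (nat_lit 201) (nat_lit 154) (nat_lit 215))))) (PT.nd (nat_lit 312) (PT.nd (nat_lit 156) (PT.nd (nat_lit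 78) (PT.lf (nat_lit 18544) (nat_lit 6) (nat_lit 244) (nat_lit 3) (nat_lit 202) (nat_lit 154) (nat_lit 214)) (PT.lf (nat_lit 18620) (nat_lit 6) (nat_lit 245) (nat_lit 3) (nat_lit 203) (nat_lit 154) (nat_lit 213))) (PT.nd (nat_lit 78) (PT.lf (nat_lit 18696) (nat_lit 6) (nat_lit 246) (nat_lit 3) (nat_lit 204) (nat_lit 154) (nat_lit 212)) (PT.lf (nat_lit 18772) (nat_lit 6) (nat_lit 247) (nat_lit 3) (nat_lit 205) (nat_lit 154) (nat_lit 211)))) (PT.nd (nat_lit 156) (PT.nd (nat_lit 78) (PT.lf (nat_lit 18848) (nat_lit 6) (nat_lit 248) (nat_lit 3) (nat_lit 206) (nat_lit 154) (nat_lit 210)) (PT.lf (nat_lit 18924) (nat_lit 6) (nat_lit 249) (nat_lit 3) (nat_lit 207) (nat_lit 154) (nat_lit 209))) (PT.nd (nat_lit 78) (PT.lf (nat_lit 19000) (nat_lit 3) (nat_lit 250) (nat_lit 1) (nat_lit 208) (nat_lit 154) (nat_lit 208)) (PT.lf (nat_lit 18924) (nat_lit 6) (nat_lit 249) (nat_lit 1) (nat_lit 209) (nat_lit 154) (nat_lit 207))))))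 (PT.nd (nat_lit 58500) (PT.nd (nat_lit 234) (PT.nd (nat_lit 78) (PT.lf (nat_lit 18848) (nat_lit 6) (nat_lit 248) (nat_lit 1) (nat_lit 210) (nat_lit 154) (nat_lit 206)) (PT.nd (nat_lit 78) (PT.lf (nat_lit 18772) (nat_lit 6) (nat_lit 247) (nat_lit 1) (nat_lit 211) (nat_lit 154) (nat_lit 205)) (PT.lf (nat_lit 18696) (nat_lit 6) (nat_lit 246) (nat_lit 1) (nat_lit 212) (nat_lit 154) (nat_lit 204)))) (PT.nd (nat_lit 156) (PT.nd (nat_lit 78) (PT.lf (nat_lit 18620) (nat_lit 6) (nat_lit 245) (nat_lit 1) (nat_lit 213) (nat_lit 154) (nat_lit 203)) (PT.lf (nat_lit 18544) (nat_lit 6) (nat_lit 244) (nat_lit 1) (nat_lit 214) (nat_lit 154) (nat_lit 202))) (PT.nd (nat_lit 78) (PT.lf (nat_lit 18468) (nat_lit 6) (nat_lit 243) (nat_lit 1) (nat_lit 215) (nat_lit 154) (nat_lit 201)) (PT.lf (nat_lit 18392) (nat_lit 6) (nat_lit 242) (nat_lit 1) (nat_lit 216) (nat_lit 154) (nat_lit 200))))) (PT.nd (nat_lit 312) (PT.nd (nat_lit 156) (PT.nd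 (nat_lit 78) (PT.lf (nat_lit 19076) (nat_lit 6) (nat_lit 251) (nat_lit 3) (nat_lit 199) (nat_lit 155) (nat_lit 216)) (PT.lf (nat_lit 19152) (nat_lit 6) (nat_lit 252) (nat_lit 3) (nat_lit 200) (nat_lit 155) (nat_lit 215))) (PT.nd (nat_lit 78) (PT.lf (nat_lit 19228) (nat_lit 6) (nat_lit 253) (nat_lit 3) (nat_lit 201) (nat_lit 155) (nat_lit 214)) (PT.lf (nat_lit 19304) (nat_lit 6) (nat_lit 254) (nat_lit 3) (nat_lit 202) (nat_lit 155) (nat_lit 213)))) (PT.nd (nat_lit 156) (PT.nd (nat_lit 78) (PT.lf (nat_lit 19380) (nat_lit 6) (nat_lit 255) (nat_lit 3) (nat_lit 203) (nat_lit 155) (nat_lit 212)) (PT.lf (nat_lit 19456) (nat_lit 6) (nat_lit 256) (nat_lit 3) (nat_lit 204) (nat_lit 155) (nat_lit 211))) (PT.nd (nat_lit 78) (PT.lf (nat_lit 19532) (nat_lit 6) (nat_lit 257) (nat_lit 3) (nat_lit 205) (nat_lit 155) (nat_lit 210)) (PT.lf (nat_lit 19608) (nat_lit 6) (nat_lit 258) (nat_lit 3) (nat_lit 206) (nat_lit 155) (nat_lit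 209))))))))
noncomputable def pc8 : PT := (PT.nd (nat_lit 118170) (PT.nd (nat_lit 59046) (PT.nd (nat_lit 546) (PT.nd (nat_lit 234) (PT.nd (nat_lit 78) (PT.lf (nat_lit 19684) (nat_lit 6) (nat_lit 259) (nat_lit 3) (nat_lit 207) (nat_lit 155) (nat_lit 208)) (PT.nd (nat_lit 78) (PT.lf (nat_lit 19684) (nat_lit 6) (nat_lit 259) (nat_lit 1) (nat_lit 208) (nat_lit 155) (nat_lit 207)) (PT.lf (nat_lit 19608) (nat_lit 6) (nat_lit 258) (nat_lit 1) (nat_lit 209) (nat_lit 155) (nat_lit 206)))) (PT.nd (nat_lit 156) (PT.nd (nat_lit 78) (PT.lf (nat_lit 19532) (nat_lit 6) (nat_lit 257) (nat_lit 1) (nat_lit 210) (nat_lit 155) (nat_lit 205)) (PT.lf (nat_lit 19456) (nat_lit 6) (nat_lit 256) (nat_lit 1) (nat_lit 211) (nat_lit 155) (nat_lit 204))) (PT.nd (nat_lit 78) (PT.lf (nat_lit 19380) (nat_lit 6) (nat_lit 255) (nat_lit 1) (nat_lit 212) (nat_lit 155) (nat_lit 203)) (PT.lf (nat_lit 19304) (nat_lit 6) (nat_lit 254) (nat_lit 1) (nat_lit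 213) (nat_lit 155) (nat_lit 202))))) (PT.nd (nat_lit 58188) (PT.nd (nat_lit 78) (PT.lf (nat_lit 19228) (nat_lit 6) (nat_lit 253) (nat_lit 1) (nat_lit 214) (nat_lit 155) (nat_lit 201)) (PT.nd (nat_lit 78) (PT.lf (nat_lit 19152) (nat_lit 6) (nat_lit 252) (nat_lit 1) (nat_lit 215) (nat_lit 155) (nat_lit 200)) (PT.lf (nat_lit 19076) (nat_lit 6) (nat_lit 251) (nat_lit 1) (nat_lit 216) (nat_lit 155) (nat_lit 199)))) (PT.nd (nat_lit 156) (PT.nd (nat_lit 78) (PT.lf (nat_lit 19760) (nat_lit 6) (nat_lit 260) (nat_lit 3) (nat_lit 199) (nat_lit 156) (nat_lit 215)) (PT.lf (nat_lit 19836) (nat_lit 6) (nat_lit 261) (nat_lit 3) (nat_lit 200) (nat_lit 156) (nat_lit 214))) (PT.nd (nat_lit 78) (PT.lf (nat_lit 19912) (nat_lit 6) (nat_lit 262) (nat_lit 3) (nat_lit 201) (nat_lit 156) (nat_lit 213)) (PT.lf (nat_lit 19988) (nat_lit 6) (nat_lit 263) (nat_lit 3) (nat_lit 202) (nat_lit 156) (nat_lit 212)))))) (PT.nd (nat_lit 546) (PT.nd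 (nat_lit 234) (PT.nd (nat_lit 78) (PT.lf (nat_lit 20064) (nat_lit 6) (nat_lit 264) (nat_lit 3) (nat_lit 203) (nat_lit 156) (nat_lit 211)) (PT.nd (nat_lit 78) (PT.lf (nat_lit 20140) (nat_lit 6) (nat_lit 265) (nat_lit 3) (nat_lit 204) (nat_lit 156) (nat_lit 210)) (PT.lf (nat_lit 20216) (nat_lit 6) (nat_lit 266) (nat_lit 3) (nat_lit 205) (nat_lit 156) (nat_lit 209)))) (PT.nd (nat_lit 156) (PT.nd (nat_lit 78) (PT.lf (nat_lit 20292) (nat_lit 6) (nat_lit 267) (nat_lit 3) (nat_lit 206) (nat_lit 156) (nat_lit 208)) (PT.lf (nat_lit 20368) (nat_lit 3) (nat_lit 268) (nat_lit 1) (nat_lit 207) (nat_lit 156) (nat_lit 207))) (PT.nd (nat_lit 78) (PT.lf (nat_lit 20292) (nat_lit 6) (nat_lit 267) (nat_lit 1) (nat_lit 208) (nat_lit 156) (nat_lit 206)) (PT.lf (nat_lit 20216) (nat_lit 6) (nat_lit 266) (nat_lit 1) (nat_lit 209) (nat_lit 156) (nat_lit 205))))) (PT.nd (nat_lit 312) (PT.nd (nat_lit 156) (PT.nd (nat_lit 78) (PT.lf (nat_lit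 20140) (nat_lit 6) (nat_lit 265) (nat_lit 1) (nat_lit 210) (nat_lit 156) (nat_lit 204)) (PT.lf (nat_lit 20064) (nat_lit 6) (nat_lit 264) (nat_lit 1) (nat_lit 211) (nat_lit 156) (nat_lit 203))) (PT.nd (nat_lit 78) (PT.lf (nat_lit 19988) (nat_lit 6) (nat_lit 263) (nat_lit 1) (nat_lit 212) (nat_lit 156) (nat_lit 202)) (PT.lf (nat_lit 19912) (nat_lit 6) (nat_lit 262) (nat_lit 1) (nat_lit 213) (nat_lit 156) (nat_lit 201)))) (PT.nd (nat_lit 58110) (PT.nd (nat_lit 78) (PT.lf (nat_lit 19836) (nat_lit 6) (nat_lit 261) (nat_lit 1) (nat_lit 214) (nat_lit 156) (nat_lit 200)) (PT.lf (nat_lit 19760) (nat_lit 6) (nat_lit 260) (nat_lit 1) (nat_lit 215) (nat_lit 156) (nat_lit 199))) (PT.nd (nat_lit 78) (PT.lf (nat_lit 20444) (nat_lit 6) (nat_lit 269) (nat_lit 3) (nat_lit 198) (nat_lit 157) (nat_lit 215)) (PT.lf (nat_lit 20520) (nat_lit 6) (nat_lit 270) (nat_lit 3) (nat_lit 199) (nat_lit 157) (nat_lit 214))))))) (PT.nd (nat_lit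 1092) (PT.nd (nat_lit 546) (PT.nd (nat_lit 234) (PT.nd (nat_lit 78) (PT.lf (nat_lit 20596) (nat_lit 6) (nat_lit 271) (nat_lit 3) (nat_lit 200) (nat_lit 157) (nat_lit 213)) (PT.nd (nat_lit 78) (PT.lf (nat_lit 20672) (nat_lit 6) (nat_lit 272) (nat_lit 3) (nat_lit 201) (nat_lit 157) (nat_lit 212)) (PT.lf (nat_lit 20748) (nat_lit 6) (nat_lit 273) (nat_lit 3) (nat_lit 202) (nat_lit 157) (nat_lit 211)))) (PT.nd (nat_lit 156) (PT.nd (nat_lit 78) (PT.lf (nat_lit 20824) (nat_lit 6) (nat_lit 274) (nat_lit 3) (nat_lit 203) (nat_lit 157) (nat_lit 210)) (PT.lf (nat_lit 20900) (nat_lit 6) (nat_lit 275) (nat_lit 3) (nat_lit 204) (nat_lit 157) (nat_lit 209))) (PT.nd (nat_lit 78) (PT.lf (nat_lit 20976) (nat_lit 6) (nat_lit 276) (nat_lit 3) (nat_lit 205) (nat_lit 157) (nat_lit 208)) (PT.lf (nat_lit 21052) (nat_lit 6) (nat_lit 277) (nat_lit 3) (nat_lit 206) (nat_lit 157) (nat_lit 207))))) (PT.nd (nat_lit 234) (PT.nd (nat_lit 78)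 (PT.lf (nat_lit 21052) (nat_lit 6) (nat_lit 277) (nat_lit 1) (nat_lit 207) (nat_lit 157) (nat_lit 206)) (PT.nd (nat_lit 78) (PT.lf (nat_lit 20976) (nat_lit 6) (nat_lit 276) (nat_lit 1) (nat_lit 208) (nat_lit 157) (nat_lit 205)) (PT.lf (nat_lit 20900) (nat_lit 6) (nat_lit 275) (nat_lit 1) (nat_lit 209) (nat_lit 157) (nat_lit 204)))) (PT.nd (nat_lit 156) (PT.nd (nat_lit 78) (PT.lf (nat_lit 20824) (nat_lit 6) (nat_lit 274) (nat_lit 1) (nat_lit 210) (nat_lit 157) (nat_lit 203)) (PT.lf (nat_lit 20748) (nat_lit 6) (nat_lit 273) (nat_lit 1) (nat_lit 211) (nat_lit 157) (nat_lit 202))) (PT.nd (nat_lit 78) (PT.lf (nat_lit 20672) (nat_lit 6) (nat_lit 272) (nat_lit 1) (nat_lit 212) (nat_lit 157) (nat_lit 201)) (PT.lf (nat_lit 20596) (nat_lit 6) (nat_lit 271) (nat_lit 1) (nat_lit 213) (nat_lit 157) (nat_lit 200)))))) (PT.nd (nat_lit 58422) (PT.nd (nat_lit 58110) (PT.nd (nat_lit 78) (PT.lf (nat_lit 20520) (nat_lit 6) (nat_lit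 270) (nat_lit 1) (nat_lit 214) (nat_lit 157) (nat_lit 199)) (PT.nd (nat_lit 57954) (PT.lf (nat_lit 20444) (nat_lit 6) (nat_lit 269) (nat_lit 1) (nat_lit 215) (nat_lit 157) (nat_lit 198)) (PT.lf (nat_lit 21128) (nat_lit 6) (nat_lit 278) (nat_lit 3) (nat_lit 197) (nat_lit 158) (nat_lit 215)))) (PT.nd (nat_lit 156) (PT.nd (nat_lit 78) (PT.lf (nat_lit 21204) (nat_lit 6) (nat_lit 279) (nat_lit 3) (nat_lit 198) (nat_lit 158) (nat_lit 214)) (PT.lf (nat_lit 21280) (nat_lit 6) (nat_lit 280) (nat_lit 3) (nat_lit 199) (nat_lit 158) (nat_lit 213))) (PT.nd (nat_lit 78) (PT.lf (nat_lit 21356) (nat_lit 6) (nat_lit 281) (nat_lit 3) (nat_lit 200) (nat_lit 158) (nat_lit 212)) (PT.lf (nat_lit 21432) (nat_lit 6) (nat_lit 282) (nat_lit 3) (nat_lit 201) (nat_lit 158) (nat_lit 211))))) (PT.nd (nat_lit 312) (PT.nd (nat_lit 156) (PT.nd (nat_lit 78) (PT.lf (nat_lit 21508) (nat_lit 6) (nat_lit 283) (nat_lit 3) (nat_lit 202) (nat_lit 158)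 (nat_lit 210)) (PT.lf (nat_lit 21584) (nat_lit 6) (nat_lit 284) (nat_lit 3) (nat_lit 203) (nat_lit 158) (nat_lit 209))) (PT.nd (nat_lit 78) (PT.lf (nat_lit 21660) (nat_lit 6) (nat_lit 285) (nat_lit 3) (nat_lit 204) (nat_lit 158) (nat_lit 208)) (PT.lf (nat_lit 21736) (nat_lit 6) (nat_lit 286) (nat_lit 3) (nat_lit 205) (nat_lit 158) (nat_lit 207)))) (PT.nd (nat_lit 156) (PT.nd (nat_lit 78) (PT.lf (nat_lit 21812) (nat_lit 3) (nat_lit 287) (nat_lit 1) (nat_lit 206) (nat_lit 158) (nat_lit 206)) (PT.lf (nat_lit 21736) (nat_lit 6) (nat_lit 286) (nat_lit 1) (nat_lit 207) (nat_lit 158) (nat_lit 205))) (PT.nd (nat_lit 78) (PT.lf (nat_lit 21660) (nat_lit 6) (nat_lit 285) (nat_lit 1) (nat_lit 208) (nat_lit 158) (nat_lit 204)) (PT.lf (nat_lit 21584) (nat_lit 6) (nat_lit 284) (nat_lit 1) (nat_lit 209) (nat_lit 158) (nat_lit 203))))))))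
noncomputable def pc9 : PT := (PT.nd (nat_lit 117858) (PT.nd (nat_lit 58890) (PT.nd (nat_lit 58344) (PT.nd (nat_lit 234) (PT.nd (nat_lit 78) (PT.lf (nat_lit 21508) (nat_lit 6) (nat_lit 283) (nat_lit 1) (nat_lit 210) (nat_lit 158) (nat_lit 202)) (PT.nd (nat_lit 78) (PT.lf (nat_lit 21432) (nat_lit 6) (nat_lit 282) (nat_lit 1) (nat_lit 211) (nat_lit 158) (nat_lit 201)) (PT.lf (nat_lit 21356) (nat_lit 6) (nat_lit 281) (nat_lit 1) (nat_lit 212) (nat_lit 158) (nat_lit 200)))) (PT.nd (nat_lit 156) (PT.nd (nat_lit 78) (PT.lf (nat_lit 21280) (nat_lit 6) (nat_lit 280) (nat_lit 1) (nat_lit 213) (nat_lit 158) (nat_lit 199)) (PT.lf (nat_lit 21204) (nat_lit 6) (nat_lit 279) (nat_lit 1) (nat_lit 214) (nat_lit 158) (nat_lit 198))) (PT.nd (nat_lit 57876) (PT.lf (nat_lit 21128) (nat_lit 6) (nat_lit 278) (nat_lit 1) (nat_lit 215) (nat_lit 158) (nat_lit 197)) (PT.lf (nat_lit 21888) (nat_lit 6) (nat_lit 288) (nat_lit 3) (nat_lit 196)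 (nat_lit 159) (nat_lit 215))))) (PT.nd (nat_lit 234) (PT.nd (nat_lit 78) (PT.lf (nat_lit 21964) (nat_lit 6) (nat_lit 289) (nat_lit 3) (nat_lit 197) (nat_lit 159) (nat_lit 214)) (PT.nd (nat_lit 78) (PT.lf (nat_lit 22040) (nat_lit 6) (nat_lit 290) (nat_lit 3) (nat_lit 198) (nat_lit 159) (nat_lit 213)) (PT.lf (nat_lit 22116) (nat_lit 6) (nat_lit 291) (nat_lit 3) (nat_lit 199) (nat_lit 159) (nat_lit 212)))) (PT.nd (nat_lit 156) (PT.nd (nat_lit 78) (PT.lf (nat_lit 22192) (nat_lit 6) (nat_lit 292) (nat_lit 3) (nat_lit 200) (nat_lit 159) (nat_lit 211)) (PT.lf (nat_lit 22268) (nat_lit 6) (nat_lit 293) (nat_lit 3) (nat_lit 201) (nat_lit 159) (nat_lit 210))) (PT.nd (nat_lit 78) (PT.lf (nat_lit 22344) (nat_lit 6) (nat_lit 294) (nat_lit 3) (nat_lit 202) (nat_lit 159) (nat_lit 209)) (PT.lf (nat_lit 22420) (nat_lit 6) (nat_lit 295) (nat_lit 3) (nat_lit 203) (nat_lit 159) (nat_lit 208)))))) (PT.nd (nat_lit 546) (PT.nd (nat_lit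 234) (PT.nd (nat_lit 78) (PT.lf (nat_lit 22496) (nat_lit 6) (nat_lit 296) (nat_lit 3) (nat_lit 204) (nat_lit 159) (nat_lit 207)) (PT.nd (nat_lit 78) (PT.lf (nat_lit 22572) (nat_lit 6) (nat_lit 297) (nat_lit 3) (nat_lit 205) (nat_lit 159) (nat_lit 206)) (PT.lf (nat_lit 22572) (nat_lit 6) (nat_lit 297) (nat_lit 1) (nat_lit 206) (nat_lit 159) (nat_lit 205)))) (PT.nd (nat_lit 156) (PT.nd (nat_lit 78) (PT.lf (nat_lit 22496) (nat_lit 6) (nat_lit 296) (nat_lit 1) (nat_lit 207) (nat_lit 159) (nat_lit 204)) (PT.lf (nat_lit 22420) (nat_lit 6) (nat_lit 295) (nat_lit 1) (nat_lit 208) (nat_lit 159) (nat_lit 203))) (PT.nd (nat_lit 78) (PT.lf (nat_lit 22344) (nat_lit 6) (nat_lit 294) (nat_lit 1) (nat_lit 209) (nat_lit 159) (nat_lit 202)) (PT.lf (nat_lit 22268) (nat_lit 6) (nat_lit 293) (nat_lit 1) (nat_lit 210) (nat_lit 159) (nat_lit 201))))) (PT.nd (nat_lit 312) (PT.nd (nat_lit 156) (PT.nd (nat_lit 78) (PT.lf (nat_lit 22192)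 (nat_lit 6) (nat_lit 292) (nat_lit 1) (nat_lit 211) (nat_lit 159) (nat_lit 200)) (PT.lf (nat_lit 22116) (nat_lit 6) (nat_lit 291) (nat_lit 1) (nat_lit 212) (nat_lit 159) (nat_lit 199))) (PT.nd (nat_lit 78) (PT.lf (nat_lit 22040) (nat_lit 6) (nat_lit 290) (nat_lit 1) (nat_lit 213) (nat_lit 159) (nat_lit 198)) (PT.lf (nat_lit 21964) (nat_lit 6) (nat_lit 289) (nat_lit 1) (nat_lit 214) (nat_lit 159) (nat_lit 197)))) (PT.nd (nat_lit 57954) (PT.nd (nat_lit 57876) (PT.lf (nat_lit 21888) (nat_lit 6) (nat_lit 288) (nat_lit 1) (nat_lit 215) (nat_lit 159) (nat_lit 196)) (PT.lf (nat_lit 22648) (nat_lit 6) (nat_lit 298) (nat_lit 3) (nat_lit 196) (nat_lit 160) (nat_lit 214))) (PT.nd (nat_lit 78) (PT.lf (nat_lit 22724) (nat_lit 6) (nat_lit 299) (nat_lit 3) (nat_lit 197) (nat_lit 160) (nat_lit 213)) (PT.lf (nat_lit 22800) (nat_lit 6) (nat_lit 300) (nat_lit 3) (nat_lit 198) (nat_lit 160) (nat_lit 212))))))) (PT.nd (nat_lit 1170)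 (PT.nd (nat_lit 546) (PT.nd (nat_lit 234) (PT.nd (nat_lit 78) (PT.lf (nat_lit 22876) (nat_lit 6) (nat_lit 301) (nat_lit 3) (nat_lit 199) (nat_lit 160) (nat_lit 211)) (PT.nd (nat_lit 78) (PT.lf (nat_lit 22952) (nat_lit 6) (nat_lit 302) (nat_lit 3) (nat_lit 200) (nat_lit 160) (nat_lit 210)) (PT.lf (nat_lit 23028) (nat_lit 6) (nat_lit 303) (nat_lit 3) (nat_lit 201) (nat_lit 160) (nat_lit 209)))) (PT.nd (nat_lit 156) (PT.nd (nat_lit 78) (PT.lf (nat_lit 23104) (nat_lit 6) (nat_lit 304) (nat_lit 3) (nat_lit 202) (nat_lit 160) (nat_lit 208)) (PT.lf (nat_lit 23180) (nat_lit 6) (nat_lit 305) (nat_lit 3) (nat_lit 203) (nat_lit 160) (nat_lit 207))) (PT.nd (nat_lit 78) (PT.lf (nat_lit 23256) (nat_lit 6) (nat_lit 306) (nat_lit 3) (nat_lit 204) (nat_lit 160) (nat_lit 206)) (PT.lf (nat_lit 23332) (nat_lit 3) (nat_lit 307) (nat_lit 1) (nat_lit 205) (nat_lit 160) (nat_lit 205))))) (PT.nd (nat_lit 312) (PT.nd (nat_lit 156) (PT.nd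 (nat_lit 78) (PT.lf (nat_lit 23256) (nat_lit 6) (nat_lit 306) (nat_lit 1) (nat_lit 206) (nat_lit 160) (nat_lit 204)) (PT.lf (nat_lit 23180) (nat_lit 6) (nat_lit 305) (nat_lit 1) (nat_lit 207) (nat_lit 160) (nat_lit 203))) (PT.nd (nat_lit 78) (PT.lf (nat_lit 23104) (nat_lit 6) (nat_lit 304) (nat_lit 1) (nat_lit 208) (nat_lit 160) (nat_lit 202)) (PT.lf (nat_lit 23028) (nat_lit 6) (nat_lit 303) (nat_lit 1) (nat_lit 209) (nat_lit 160) (nat_lit 201)))) (PT.nd (nat_lit 156) (PT.nd (nat_lit 78) (PT.lf (nat_lit 22952) (nat_lit 6) (nat_lit 302) (nat_lit 1) (nat_lit 210) (nat_lit 160) (nat_lit 200)) (PT.lf (nat_lit 22876) (nat_lit 6) (nat_lit 301) (nat_lit 1) (nat_lit 211) (nat_lit 160) (nat_lit 199))) (PT.nd (nat_lit 78) (PT.lf (nat_lit 22800) (nat_lit 6) (nat_lit 300) (nat_lit 1) (nat_lit 212) (nat_lit 160) (nat_lit 198)) (PT.lf (nat_lit 22724) (nat_lit 6) (nat_lit 299) (nat_lit 1) (nat_lit 213) (nat_lit 160) (nat_lit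 197)))))) (PT.nd (nat_lit 58344) (PT.nd (nat_lit 58032) (PT.nd (nat_lit 57876) (PT.lf (nat_lit 22648) (nat_lit 6) (nat_lit 298) (nat_lit 1) (nat_lit 214) (nat_lit 160) (nat_lit 196)) (PT.nd (nat_lit 78) (PT.lf (nat_lit 23408) (nat_lit 6) (nat_lit 308) (nat_lit 3) (nat_lit 195) (nat_lit 161) (nat_lit 214)) (PT.lf (nat_lit 23484) (nat_lit 6) (nat_lit 309) (nat_lit 3) (nat_lit 196) (nat_lit 161) (nat_lit 213)))) (PT.nd (nat_lit 156) (PT.nd (nat_lit 78) (PT.lf (nat_lit 23560) (nat_lit 6) (nat_lit 310) (nat_lit 3) (nat_lit 197) (nat_lit 161) (nat_lit 212)) (PT.lf (nat_lit 23636) (nat_lit 6) (nat_lit 311) (nat_lit 3) (nat_lit 198) (nat_lit 161) (nat_lit 211))) (PT.nd (nat_lit 78) (PT.lf (nat_lit 23712) (nat_lit 6) (nat_lit 312) (nat_lit 3) (nat_lit 199) (nat_lit 161) (nat_lit 210)) (PT.lf (nat_lit 23788) (nat_lit 6) (nat_lit 313) (nat_lit 3) (nat_lit 200) (nat_lit 161) (nat_lit 209))))) (PT.nd (nat_lit 312) (PT.nd (nat_lit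 156) (PT.nd (nat_lit 78) (PT.lf (nat_lit 23864) (nat_lit 6) (nat_lit 314) (nat_lit 3) (nat_lit 201) (nat_lit 161) (nat_lit 208)) (PT.lf (nat_lit 23940) (nat_lit 6) (nat_lit 315) (nat_lit 3) (nat_lit 202) (nat_lit 161) (nat_lit 207))) (PT.nd (nat_lit 78) (PT.lf (nat_lit 24016) (nat_lit 6) (nat_lit 316) (nat_lit 3) (nat_lit 203) (nat_lit 161) (nat_lit 206)) (PT.lf (nat_lit 24092) (nat_lit 6) (nat_lit 317) (nat_lit 3) (nat_lit 204) (nat_lit 161) (nat_lit 205)))) (PT.nd (nat_lit 156) (PT.nd (nat_lit 78) (PT.lf (nat_lit 24092) (nat_lit 6) (nat_lit 317) (nat_lit 1) (nat_lit 205) (nat_lit 161) (nat_lit 204)) (PT.lf (nat_lit 24016) (nat_lit 6) (nat_lit 316) (nat_lit 1) (nat_lit 206) (nat_lit 161) (nat_lit 203))) (PT.nd (nat_lit 78) (PT.lf (nat_lit 23940) (nat_lit 6) (nat_lit 315) (nat_lit 1) (nat_lit 207) (nat_lit 161) (nat_lit 202)) (PT.lf (nat_lit 23864) (nat_lit 6) (nat_lit 314) (nat_lit 1) (nat_lit 208) (nat_lit 161)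 (nat_lit 201))))))))
noncomputable def pc10 : PT := (PT.nd (nat_lit 117624) (PT.nd (nat_lit 58812) (PT.nd (nat_lit 58266) (PT.nd (nat_lit 234) (PT.nd (nat_lit 78) (PT.lf (nat_lit 23788) (nat_lit 6) (nat_lit 313) (nat_lit 1) (nat_lit 209) (nat_lit 161) (nat_lit 200)) (PT.nd (nat_lit 78) (PT.lf (nat_lit 23712) (nat_lit 6) (nat_lit 312) (nat_lit 1) (nat_lit 210) (nat_lit 161) (nat_lit 199)) (PT.lf (nat_lit 23636) (nat_lit 6) (nat_lit 311) (nat_lit 1) (nat_lit 211) (nat_lit 161) (nat_lit 198)))) (PT.nd (nat_lit 156) (PT.nd (nat_lit 78) (PT.lf (nat_lit 23560) (nat_lit 6) (nat_lit 310) (nat_lit 1) (nat_lit 212) (nat_lit 161) (nat_lit 197)) (PT.lf (nat_lit 23484) (nat_lit 6) (nat_lit 309) (nat_lit 1) (nat_lit 213) (nat_lit 161) (nat_lit 196))) (PT.nd (nat_lit 57798) (PT.lf (nat_lit 23408) (nat_lit 6) (nat_lit 308) (nat_lit 1) (nat_lit 214) (nat_lit 161) (nat_lit 195)) (PT.lf (nat_lit 24168) (nat_lit 6) (nat_lit 318) (nat_lit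 3) (nat_lit 194) (nat_lit 162) (nat_lit 214))))) (PT.nd (nat_lit 234) (PT.nd (nat_lit 78) (PT.lf (nat_lit 24244) (nat_lit 6) (nat_lit 319) (nat_lit 3) (nat_lit 195) (nat_lit 162) (nat_lit 213)) (PT.nd (nat_lit 78) (PT.lf (nat_lit 24320) (nat_lit 6) (nat_lit 320) (nat_lit 3) (nat_lit 196) (nat_lit 162) (nat_lit 212)) (PT.lf (nat_lit 24396) (nat_lit 6) (nat_lit 321) (nat_lit 3) (nat_lit 197) (nat_lit 162) (nat_lit 211)))) (PT.nd (nat_lit 156) (PT.nd (nat_lit 78) (PT.lf (nat_lit 24472) (nat_lit 6) (nat_lit 322) (nat_lit 3) (nat_lit 198) (nat_lit 162) (nat_lit 210)) (PT.lf (nat_lit 24548) (nat_lit 6) (nat_lit 323) (nat_lit 3) (nat_lit 199) (nat_lit 162) (nat_lit 209))) (PT.nd (nat_lit 78) (PT.lf (nat_lit 24624) (nat_lit 6) (nat_lit 324) (nat_lit 3) (nat_lit 200) (nat_lit 162) (nat_lit 208)) (PT.lf (nat_lit 24700) (nat_lit 6) (nat_lit 325) (nat_lit 3) (nat_lit 201) (nat_lit 162) (nat_lit 207)))))) (PT.nd (nat_lit 546)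 (PT.nd (nat_lit 234) (PT.nd (nat_lit 78) (PT.lf (nat_lit 24776) (nat_lit 6) (nat_lit 326) (nat_lit 3) (nat_lit 202) (nat_lit 162) (nat_lit 206)) (PT.nd (nat_lit 78) (PT.lf (nat_lit 24852) (nat_lit 6) (nat_lit 327) (nat_lit 3) (nat_lit 203) (nat_lit 162) (nat_lit 205)) (PT.lf (nat_lit 24928) (nat_lit 3) (nat_lit 328) (nat_lit 1) (nat_lit 204) (nat_lit 162) (nat_lit 204)))) (PT.nd (nat_lit 156) (PT.nd (nat_lit 78) (PT.lf (nat_lit 24852) (nat_lit 6) (nat_lit 327) (nat_lit 1) (nat_lit 205) (nat_lit 162) (nat_lit 203)) (PT.lf (nat_lit 24776) (nat_lit 6) (nat_lit 326) (nat_lit 1) (nat_lit 206) (nat_lit 162) (nat_lit 202))) (PT.nd (nat_lit 78) (PT.lf (nat_lit 24700) (nat_lit 6) (nat_lit 325) (nat_lit 1) (nat_lit 207) (nat_lit 162) (nat_lit 201)) (PT.lf (nat_lit 24624) (nat_lit 6) (nat_lit 324) (nat_lit 1) (nat_lit 208) (nat_lit 162) (nat_lit 200))))) (PT.nd (nat_lit 312) (PT.nd (nat_lit 156) (PT.nd (nat_lit 78) (PT.lf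 (nat_lit 24548) (nat_lit 6) (nat_lit 323) (nat_lit 1) (nat_lit 209) (nat_lit 162) (nat_lit 199)) (PT.lf (nat_lit 24472) (nat_lit 6) (nat_lit 322) (nat_lit 1) (nat_lit 210) (nat_lit 162) (nat_lit 198))) (PT.nd (nat_lit 78) (PT.lf (nat_lit 24396) (nat_lit 6) (nat_lit 321) (nat_lit 1) (nat_lit 211) (nat_lit 162) (nat_lit 197)) (PT.lf (nat_lit 24320) (nat_lit 6) (nat_lit 320) (nat_lit 1) (nat_lit 212) (nat_lit 162) (nat_lit 196)))) (PT.nd (nat_lit 57798) (PT.nd (nat_lit 78) (PT.lf (nat_lit 24244) (nat_lit 6) (nat_lit 319) (nat_lit 1) (nat_lit 213) (nat_lit 162) (nat_lit 195)) (PT.lf (nat_lit 24168) (nat_lit 6) (nat_lit 318) (nat_lit 1) (nat_lit 214) (nat_lit 162) (nat_lit 194))) (PT.nd (nat_lit 78) (PT.lf (nat_lit 25004) (nat_lit 6) (nat_lit 329) (nat_lit 3) (nat_lit 193) (nat_lit 163) (nat_lit 214)) (PT.lf (nat_lit 25080) (nat_lit 6) (nat_lit 330) (nat_lit 3) (nat_lit 194) (nat_lit 163) (nat_lit 213))))))) (PT.nd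 (nat_lit 1092) (PT.nd (nat_lit 546) (PT.nd (nat_lit 234) (PT.nd (nat_lit 78) (PT.lf (nat_lit 25156) (nat_lit 6) (nat_lit 331) (nat_lit 3) (nat_lit 195) (nat_lit 163) (nat_lit 212)) (PT.nd (nat_lit 78) (PT.lf (nat_lit 25232) (nat_lit 6) (nat_lit 332) (nat_lit 3) (nat_lit 196) (nat_lit 163) (nat_lit 211)) (PT.lf (nat_lit 25308) (nat_lit 6) (nat_lit 333) (nat_lit 3) (nat_lit 197) (nat_lit 163) (nat_lit 210)))) (PT.nd (nat_lit 156) (PT.nd (nat_lit 78) (PT.lf (nat_lit 25384) (nat_lit 6) (nat_lit 334) (nat_lit 3) (nat_lit 198) (nat_lit 163) (nat_lit 209)) (PT.lf (nat_lit 25460) (nat_lit 6) (nat_lit 335) (nat_lit 3) (nat_lit 199) (nat_lit 163) (nat_lit 208))) (PT.nd (nat_lit 78) (PT.lf (nat_lit 25536) (nat_lit 6) (nat_lit 336) (nat_lit 3) (nat_lit 200) (nat_lit 163) (nat_lit 207)) (PT.lf (nat_lit 25612) (nat_lit 6) (nat_lit 337) (nat_lit 3) (nat_lit 201) (nat_lit 163) (nat_lit 206))))) (PT.nd (nat_lit 234) (PT.nd (nat_lit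 78) (PT.lf (nat_lit 25688) (nat_lit 6) (nat_lit 338) (nat_lit 3) (nat_lit 202) (nat_lit 163) (nat_lit 205)) (PT.nd (nat_lit 78) (PT.lf (nat_lit 25764) (nat_lit 6) (nat_lit 339) (nat_lit 3) (nat_lit 203) (nat_lit 163) (nat_lit 204)) (PT.lf (nat_lit 25764) (nat_lit 6) (nat_lit 339) (nat_lit 1) (nat_lit 204) (nat_lit 163) (nat_lit 203)))) (PT.nd (nat_lit 156) (PT.nd (nat_lit 78) (PT.lf (nat_lit 25688) (nat_lit 6) (nat_lit 338) (nat_lit 1) (nat_lit 205) (nat_lit 163) (nat_lit 202)) (PT.lf (nat_lit 25612) (nat_lit 6) (nat_lit 337) (nat_lit 1) (nat_lit 206) (nat_lit 163) (nat_lit 201))) (PT.nd (nat_lit 78) (PT.lf (nat_lit 25536) (nat_lit 6) (nat_lit 336) (nat_lit 1) (nat_lit 207) (nat_lit 163) (nat_lit 200)) (PT.lf (nat_lit 25460) (nat_lit 6) (nat_lit 335) (nat_lit 1) (nat_lit 208) (nat_lit 163) (nat_lit 199)))))) (PT.nd (nat_lit 58110) (PT.nd (nat_lit 234) (PT.nd (nat_lit 78) (PT.lf (nat_lit 25384) (nat_lit 6) (nat_lit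 334) (nat_lit 1) (nat_lit 209) (nat_lit 163) (nat_lit 198)) (PT.nd (nat_lit 78) (PT.lf (nat_lit 25308) (nat_lit 6) (nat_lit 333) (nat_lit 1) (nat_lit 210) (nat_lit 163) (nat_lit 197)) (PT.lf (nat_lit 25232) (nat_lit 6) (nat_lit 332) (nat_lit 1) (nat_lit 211) (nat_lit 163) (nat_lit 196)))) (PT.nd (nat_lit 156) (PT.nd (nat_lit 78) (PT.lf (nat_lit 25156) (nat_lit 6) (nat_lit 331) (nat_lit 1) (nat_lit 212) (nat_lit 163) (nat_lit 195)) (PT.lf (nat_lit 25080) (nat_lit 6) (nat_lit 330) (nat_lit 1) (nat_lit 213) (nat_lit 163) (nat_lit 194))) (PT.nd (nat_lit 57642) (PT.lf (nat_lit 25004) (nat_lit 6) (nat_lit 329) (nat_lit 1) (nat_lit 214) (nat_lit 163) (nat_lit 193)) (PT.lf (nat_lit 25840) (nat_lit 6) (nat_lit 340) (nat_lit 3) (nat_lit 192) (nat_lit 164) (nat_lit 214))))) (PT.nd (nat_lit 312) (PT.nd (nat_lit 156) (PT.nd (nat_lit 78) (PT.lf (nat_lit 25916) (nat_lit 6) (nat_lit 341) (nat_lit 3) (nat_lit 193) (nat_lit 164)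 (nat_lit 213)) (PT.lf (nat_lit 25992) (nat_lit 6) (nat_lit 342) (nat_lit 3) (nat_lit 194) (nat_lit 164) (nat_lit 212))) (PT.nd (nat_lit 78) (PT.lf (nat_lit 26068) (nat_lit 6) (nat_lit 343) (nat_lit 3) (nat_lit 195) (nat_lit 164) (nat_lit 211)) (PT.lf (nat_lit 26144) (nat_lit 6) (nat_lit 344) (nat_lit 3) (nat_lit 196) (nat_lit 164) (nat_lit 210)))) (PT.nd (nat_lit 156) (PT.nd (nat_lit 78) (PT.lf (nat_lit 26220) (nat_lit 6) (nat_lit 345) (nat_lit 3) (nat_lit 197) (nat_lit 164) (nat_lit 209)) (PT.lf (nat_lit 26296) (nat_lit 6) (nat_lit 346) (nat_lit 3) (nat_lit 198) (nat_lit 164) (nat_lit 208))) (PT.nd (nat_lit 78) (PT.lf (nat_lit 26372) (nat_lit 6) (nat_lit 347) (nat_lit 3) (nat_lit 199) (nat_lit 164) (nat_lit 207)) (PT.lf (nat_lit 26448) (nat_lit 6) (nat_lit 348) (nat_lit 3) (nat_lit 200) (nat_lit 164) (nat_lit 206))))))))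
noncomputable def pc11 : PT := (PT.nd (nat_lit 59748) (PT.nd (nat_lit 58578) (PT.nd (nat_lit 546) (PT.nd (nat_lit 234) (PT.nd (nat_lit 78) (PT.lf (nat_lit 26524) (nat_lit 6) (nat_lit 349) (nat_lit 3) (nat_lit 201) (nat_lit 164) (nat_lit 205)) (PT.nd (nat_lit 78) (PT.lf (nat_lit 26600) (nat_lit 6) (nat_lit 350) (nat_lit 3) (nat_lit 202) (nat_lit 164) (nat_lit 204)) (PT.lf (nat_lit 26676) (nat_lit 3) (nat_lit 351) (nat_lit 1) (nat_lit 203) (nat_lit 164) (nat_lit 203)))) (PT.nd (nat_lit 156) (PT.nd (nat_lit 78) (PT.lf (nat_lit 26600) (nat_lit 6) (nat_lit 350) (nat_lit 1) (nat_lit 204) (nat_lit 164) (nat_lit 202)) (PT.lf (nat_lit 26524) (nat_lit 6) (nat_lit 349) (nat_lit 1) (nat_lit 205) (nat_lit 164) (nat_lit 201))) (PT.nd (nat_lit 78) (PT.lf (nat_lit 26448) (nat_lit 6) (nat_lit 348) (nat_lit 1) (nat_lit 206) (nat_lit 164) (nat_lit 200)) (PT.lf (nat_lit 26372) (nat_lit 6) (nat_lit 347) (nat_lit 1) (nat_lit 207) (nat_lit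 164) (nat_lit 199))))) (PT.nd (nat_lit 234) (PT.nd (nat_lit 78) (PT.lf (nat_lit 26296) (nat_lit 6) (nat_lit 346) (nat_lit 1) (nat_lit 208) (nat_lit 164) (nat_lit 198)) (PT.nd (nat_lit 78) (PT.lf (nat_lit 26220) (nat_lit 6) (nat_lit 345) (nat_lit 1) (nat_lit 209) (nat_lit 164) (nat_lit 197)) (PT.lf (nat_lit 26144) (nat_lit 6) (nat_lit 344) (nat_lit 1) (nat_lit 210) (nat_lit 164) (nat_lit 196)))) (PT.nd (nat_lit 156) (PT.nd (nat_lit 78) (PT.lf (nat_lit 26068) (nat_lit 6) (nat_lit 343) (nat_lit 1) (nat_lit 211) (nat_lit 164) (nat_lit 195)) (PT.lf (nat_lit 25992) (nat_lit 6) (nat_lit 342) (nat_lit 1) (nat_lit 212) (nat_lit 164) (nat_lit 194))) (PT.nd (nat_lit 78) (PT.lf (nat_lit 25916) (nat_lit 6) (nat_lit 341) (nat_lit 1) (nat_lit 213) (nat_lit 164) (nat_lit 193)) (PT.lf (nat_lit 25840) (nat_lit 6) (nat_lit 340) (nat_lit 1) (nat_lit 214) (nat_lit 164) (nat_lit 192)))))) (PT.nd (nat_lit 546) (PT.nd (nat_lit 234) (PT.nd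 (nat_lit 78) (PT.lf (nat_lit 26752) (nat_lit 6) (nat_lit 352) (nat_lit 3) (nat_lit 191) (nat_lit 165) (nat_lit 214)) (PT.nd (nat_lit 78) (PT.lf (nat_lit 26828) (nat_lit 6) (nat_lit 353) (nat_lit 3) (nat_lit 192) (nat_lit 165) (nat_lit 213)) (PT.lf (nat_lit 26904) (nat_lit 6) (nat_lit 354) (nat_lit 3) (nat_lit 193) (nat_lit 165) (nat_lit 212)))) (PT.nd (nat_lit 156) (PT.nd (nat_lit 78) (PT.lf (nat_lit 26980) (nat_lit 6) (nat_lit 355) (nat_lit 3) (nat_lit 194) (nat_lit 165) (nat_lit 211)) (PT.lf (nat_lit 27056) (nat_lit 6) (nat_lit 356) (nat_lit 3) (nat_lit 195) (nat_lit 165) (nat_lit 210))) (PT.nd (nat_lit 78) (PT.lf (nat_lit 27132) (nat_lit 6) (nat_lit 357) (nat_lit 3) (nat_lit 196) (nat_lit 165) (nat_lit 209)) (PT.lf (nat_lit 27208) (nat_lit 6) (nat_lit 358) (nat_lit 3) (nat_lit 197) (nat_lit 165) (nat_lit 208))))) (PT.nd (nat_lit 312) (PT.nd (nat_lit 156) (PT.nd (nat_lit 78) (PT.lf (nat_lit 27284) (nat_lit 6)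 (nat_lit 359) (nat_lit 3) (nat_lit 198) (nat_lit 165) (nat_lit 207)) (PT.lf (nat_lit 27360) (nat_lit 6) (nat_lit 360) (nat_lit 3) (nat_lit 199) (nat_lit 165) (nat_lit 206))) (PT.nd (nat_lit 78) (PT.lf (nat_lit 27436) (nat_lit 6) (nat_lit 361) (nat_lit 3) (nat_lit 200) (nat_lit 165) (nat_lit 205)) (PT.lf (nat_lit 27512) (nat_lit 6) (nat_lit 362) (nat_lit 3) (nat_lit 201) (nat_lit 165) (nat_lit 204)))) (PT.nd (nat_lit 156) (PT.nd (nat_lit 78) (PT.lf (nat_lit 27588) (nat_lit 6) (nat_lit 363) (nat_lit 3) (nat_lit 202) (nat_lit 165) (nat_lit 203)) (PT.lf (nat_lit 27588) (nat_lit 6) (nat_lit 363) (nat_lit 1) (nat_lit 203) (nat_lit 165) (nat_lit 202))) (PT.nd (nat_lit 78) (PT.lf (nat_lit 27512) (nat_lit 6) (nat_lit 362) (nat_lit 1) (nat_lit 204) (nat_lit 165) (nat_lit 201)) (PT.lf (nat_lit 27436) (nat_lit 6) (nat_lit 361) (nat_lit 1) (nat_lit 205) (nat_lit 165) (nat_lit 200))))))) (PT.nd (nat_lit 58656) (PT.nd (nat_lit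 546) (PT.nd (nat_lit 234) (PT.nd (nat_lit 78) (PT.lf (nat_lit 27360) (nat_lit 6) (nat_lit 360) (nat_lit 1) (nat_lit 206) (nat_lit 165) (nat_lit 199)) (PT.nd (nat_lit 78) (PT.lf (nat_lit 27284) (nat_lit 6) (nat_lit 359) (nat_lit 1) (nat_lit 207) (nat_lit 165) (nat_lit 198)) (PT.lf (nat_lit 27208) (nat_lit 6) (nat_lit 358) (nat_lit 1) (nat_lit 208) (nat_lit 165) (nat_lit 197)))) (PT.nd (nat_lit 156) (PT.nd (nat_lit 78) (PT.lf (nat_lit 27132) (nat_lit 6) (nat_lit 357) (nat_lit 1) (nat_lit 209) (nat_lit 165) (nat_lit 196)) (PT.lf (nat_lit 27056) (nat_lit 6) (nat_lit 356) (nat_lit 1) (nat_lit 210) (nat_lit 165) (nat_lit 195))) (PT.nd (nat_lit 78) (PT.lf (nat_lit 26980) (nat_lit 6) (nat_lit 355) (nat_lit 1) (nat_lit 211) (nat_lit 165) (nat_lit 194)) (PT.lf (nat_lit 26904) (nat_lit 6) (nat_lit 354) (nat_lit 1) (nat_lit 212) (nat_lit 165) (nat_lit 193))))) (PT.nd (nat_lit 57798) (PT.nd (nat_lit 57642) (PT.nd (nat_lit 78)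 (PT.lf (nat_lit 26828) (nat_lit 6) (nat_lit 353) (nat_lit 1) (nat_lit 213) (nat_lit 165) (nat_lit 192)) (PT.lf (nat_lit 26752) (nat_lit 6) (nat_lit 352) (nat_lit 1) (nat_lit 214) (nat_lit 165) (nat_lit 191))) (PT.nd (nat_lit 78) (PT.lf (nat_lit 27664) (nat_lit 6) (nat_lit 364) (nat_lit 3) (nat_lit 191) (nat_lit 166) (nat_lit 213)) (PT.lf (nat_lit 27740) (nat_lit 6) (nat_lit 365) (nat_lit 3) (nat_lit 192) (nat_lit 166) (nat_lit 212)))) (PT.nd (nat_lit 156) (PT.nd (nat_lit 78) (PT.lf (nat_lit 27816) (nat_lit 6) (nat_lit 366) (nat_lit 3) (nat_lit 193) (nat_lit 166) (nat_lit 211)) (PT.lf (nat_lit 27892) (nat_lit 6) (nat_lit 367) (nat_lit 3) (nat_lit 194) (nat_lit 166) (nat_lit 210))) (PT.nd (nat_lit 78) (PT.lf (nat_lit 27968) (nat_lit 6) (nat_lit 368) (nat_lit 3) (nat_lit 195) (nat_lit 166) (nat_lit 209)) (PT.lf (nat_lit 28044) (nat_lit 6) (nat_lit 369) (nat_lit 3) (nat_lit 196) (nat_lit 166) (nat_lit 208)))))) (PT.nd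 (nat_lit 546) (PT.nd (nat_lit 234) (PT.nd (nat_lit 78) (PT.lf (nat_lit 28120) (nat_lit 6) (nat_lit 370) (nat_lit 3) (nat_lit 197) (nat_lit 166) (nat_lit 207)) (PT.nd (nat_lit 78) (PT.lf (nat_lit 28196) (nat_lit 6) (nat_lit 371) (nat_lit 3) (nat_lit 198) (nat_lit 166) (nat_lit 206)) (PT.lf (nat_lit 28272) (nat_lit 6) (nat_lit 372) (nat_lit 3) (nat_lit 199) (nat_lit 166) (nat_lit 205)))) (PT.nd (nat_lit 156) (PT.nd (nat_lit 78) (PT.lf (nat_lit 28348) (nat_lit 6) (nat_lit 373) (nat_lit 3) (nat_lit 200) (nat_lit 166) (nat_lit 204)) (PT.lf (nat_lit 28424) (nat_lit 6) (nat_lit 374) (nat_lit 3) (nat_lit 201) (nat_lit 166) (nat_lit 203))) (PT.nd (nat_lit 78) (PT.lf (nat_lit 28500) (nat_lit 3) (nat_lit 375) (nat_lit 1) (nat_lit 202) (nat_lit 166) (nat_lit 202)) (PT.lf (nat_lit 28424) (nat_lit 6) (nat_lit 374) (nat_lit 1) (nat_lit 203) (nat_lit 166) (nat_lit 201))))) (PT.nd (nat_lit 312) (PT.nd (nat_lit 156) (PT.nd (nat_lit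 78) (PT.lf (nat_lit 28348) (nat_lit 6) (nat_lit 373) (nat_lit 1) (nat_lit 204) (nat_lit 166) (nat_lit 200)) (PT.lf (nat_lit 28272) (nat_lit 6) (nat_lit 372) (nat_lit 1) (nat_lit 205) (nat_lit 166) (nat_lit 199))) (PT.nd (nat_lit 78) (PT.lf (nat_lit 28196) (nat_lit 6) (nat_lit 371) (nat_lit 1) (nat_lit 206) (nat_lit 166) (nat_lit 198)) (PT.lf (nat_lit 28120) (nat_lit 6) (nat_lit 370) (nat_lit 1) (nat_lit 207) (nat_lit 166) (nat_lit 197)))) (PT.nd (nat_lit 156) (PT.nd (nat_lit 78) (PT.lf (nat_lit 28044) (nat_lit 6) (nat_lit 369) (nat_lit 1) (nat_lit 208) (nat_lit 166) (nat_lit 196)) (PT.lf (nat_lit 27968) (nat_lit 6) (nat_lit 368) (nat_lit 1) (nat_lit 209) (nat_lit 166) (nat_lit 195))) (PT.nd (nat_lit 78) (PT.lf (nat_lit 27892) (nat_lit 6) (nat_lit 367) (nat_lit 1) (nat_lit 210) (nat_lit 166) (nat_lit 194)) (PT.lf (nat_lit 27816) (nat_lit 6) (nat_lit 366) (nat_lit 1) (nat_lit 211) (nat_lit 166) (nat_lit 193))))))))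
noncomputable def pc12 : PT := (PT.nd (nat_lit 117156) (PT.nd (nat_lit 58578) (PT.nd (nat_lit 58032) (PT.nd (nat_lit 57720) (PT.nd (nat_lit 78) (PT.lf (nat_lit 27740) (nat_lit 6) (nat_lit 365) (nat_lit 1) (nat_lit 212) (nat_lit 166) (nat_lit 192)) (PT.nd (nat_lit 57564) (PT.lf (nat_lit 27664) (nat_lit 6) (nat_lit 364) (nat_lit 1) (nat_lit 213) (nat_lit 166) (nat_lit 191)) (PT.lf (nat_lit 29108) (nat_lit 6) (nat_lit 383) (nat_lit 3) (nat_lit 190) (nat_lit 167) (nat_lit 213)))) (PT.nd (nat_lit 156) (PT.nd (nat_lit 78) (PT.lf (nat_lit 29184) (nat_lit 6) (nat_lit 384) (nat_lit 3) (nat_lit 191) (nat_lit 167) (nat_lit 212)) (PT.lf (nat_lit 29260) (nat_lit 6) (nat_lit 385) (nat_lit 3) (nat_lit 192) (nat_lit 167) (nat_lit 211))) (PT.nd (nat_lit 78) (PT.lf (nat_lit 29336) (nat_lit 6) (nat_lit 386) (nat_lit 3) (nat_lit 193) (nat_lit 167) (nat_lit 210)) (PT.lf (nat_lit 29412) (nat_lit 6) (nat_lit 387) (nat_lit 3) (nat_lit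 194) (nat_lit 167) (nat_lit 209))))) (PT.nd (nat_lit 234) (PT.nd (nat_lit 78) (PT.lf (nat_lit 29488) (nat_lit 6) (nat_lit 388) (nat_lit 3) (nat_lit 195) (nat_lit 167) (nat_lit 208)) (PT.nd (nat_lit 78) (PT.lf (nat_lit 29564) (nat_lit 6) (nat_lit 389) (nat_lit 3) (nat_lit 196) (nat_lit 167) (nat_lit 207)) (PT.lf (nat_lit 29640) (nat_lit 6) (nat_lit 390) (nat_lit 3) (nat_lit 197) (nat_lit 167) (nat_lit 206)))) (PT.nd (nat_lit 156) (PT.nd (nat_lit 78) (PT.lf (nat_lit 29716) (nat_lit 6) (nat_lit 391) (nat_lit 3) (nat_lit 198) (nat_lit 167) (nat_lit 205)) (PT.lf (nat_lit 29792) (nat_lit 6) (nat_lit 392) (nat_lit 3) (nat_lit 199) (nat_lit 167) (nat_lit 204))) (PT.nd (nat_lit 78) (PT.lf (nat_lit 29868) (nat_lit 6) (nat_lit 393) (nat_lit 3) (nat_lit 200) (nat_lit 167) (nat_lit 203)) (PT.lf (nat_lit 29944) (nat_lit 6) (nat_lit 394) (nat_lit 3) (nat_lit 201) (nat_lit 167) (nat_lit 202)))))) (PT.nd (nat_lit 546) (PT.nd (nat_lit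 234) (PT.nd (nat_lit 78) (PT.lf (nat_lit 29944) (nat_lit 6) (nat_lit 394) (nat_lit 1) (nat_lit 202) (nat_lit 167) (nat_lit 201)) (PT.nd (nat_lit 78) (PT.lf (nat_lit 29868) (nat_lit 6) (nat_lit 393) (nat_lit 1) (nat_lit 203) (nat_lit 167) (nat_lit 200)) (PT.lf (nat_lit 29792) (nat_lit 6) (nat_lit 392) (nat_lit 1) (nat_lit 204) (nat_lit 167) (nat_lit 199)))) (PT.nd (nat_lit 156) (PT.nd (nat_lit 78) (PT.lf (nat_lit 29716) (nat_lit 6) (nat_lit 391) (nat_lit 1) (nat_lit 205) (nat_lit 167) (nat_lit 198)) (PT.lf (nat_lit 29640) (nat_lit 6) (nat_lit 390) (nat_lit 1) (nat_lit 206) (nat_lit 167) (nat_lit 197))) (PT.nd (nat_lit 78) (PT.lf (nat_lit 29564) (nat_lit 6) (nat_lit 389) (nat_lit 1) (nat_lit 207) (nat_lit 167) (nat_lit 196)) (PT.lf (nat_lit 29488) (nat_lit 6) (nat_lit 388) (nat_lit 1) (nat_lit 208) (nat_lit 167) (nat_lit 195))))) (PT.nd (nat_lit 312) (PT.nd (nat_lit 156) (PT.nd (nat_lit 78) (PT.lf (nat_lit 29412)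 (nat_lit 6) (nat_lit 387) (nat_lit 1) (nat_lit 209) (nat_lit 167) (nat_lit 194)) (PT.lf (nat_lit 29336) (nat_lit 6) (nat_lit 386) (nat_lit 1) (nat_lit 210) (nat_lit 167) (nat_lit 193))) (PT.nd (nat_lit 78) (PT.lf (nat_lit 29260) (nat_lit 6) (nat_lit 385) (nat_lit 1) (nat_lit 211) (nat_lit 167) (nat_lit 192)) (PT.lf (nat_lit 29184) (nat_lit 6) (nat_lit 384) (nat_lit 1) (nat_lit 212) (nat_lit 167) (nat_lit 191)))) (PT.nd (nat_lit 57564) (PT.nd (nat_lit 57486) (PT.lf (nat_lit 29108) (nat_lit 6) (nat_lit 383) (nat_lit 1) (nat_lit 213) (nat_lit 167) (nat_lit 190)) (PT.lf (nat_lit 29032) (nat_lit 6) (nat_lit 382) (nat_lit 3) (nat_lit 189) (nat_lit 168) (nat_lit 213))) (PT.nd (nat_lit 78) (PT.lf (nat_lit 30856) (nat_lit 6) (nat_lit 406) (nat_lit 3) (nat_lit 190) (nat_lit 168) (nat_lit 212)) (PT.lf (nat_lit 30932) (nat_lit 6) (nat_lit 407) (nat_lit 3) (nat_lit 191) (nat_lit 168) (nat_lit 211))))))) (PT.nd (nat_lit 1092)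 (PT.nd (nat_lit 546) (PT.nd (nat_lit 234) (PT.nd (nat_lit 78) (PT.lf (nat_lit 31008) (nat_lit 6) (nat_lit 408) (nat_lit 3) (nat_lit 192) (nat_lit 168) (nat_lit 210)) (PT.nd (nat_lit 78) (PT.lf (nat_lit 31084) (nat_lit 6) (nat_lit 409) (nat_lit 3) (nat_lit 193) (nat_lit 168) (nat_lit 209)) (PT.lf (nat_lit 31160) (nat_lit 6) (nat_lit 410) (nat_lit 3) (nat_lit 194) (nat_lit 168) (nat_lit 208)))) (PT.nd (nat_lit 156) (PT.nd (nat_lit 78) (PT.lf (nat_lit 31236) (nat_lit 6) (nat_lit 411) (nat_lit 3) (nat_lit 195) (nat_lit 168) (nat_lit 207)) (PT.lf (nat_lit 31312) (nat_lit 6) (nat_lit 412) (nat_lit 3) (nat_lit 196) (nat_lit 168) (nat_lit 206))) (PT.nd (nat_lit 78) (PT.lf (nat_lit 31388) (nat_lit 6) (nat_lit 413) (nat_lit 3) (nat_lit 197) (nat_lit 168) (nat_lit 205)) (PT.lf (nat_lit 31464) (nat_lit 6) (nat_lit 414) (nat_lit 3) (nat_lit 198) (nat_lit 168) (nat_lit 204))))) (PT.nd (nat_lit 234) (PT.nd (nat_lit 78) (PT.lf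 (nat_lit 31540) (nat_lit 6) (nat_lit 415) (nat_lit 3) (nat_lit 199) (nat_lit 168) (nat_lit 203)) (PT.nd (nat_lit 78) (PT.lf (nat_lit 31616) (nat_lit 6) (nat_lit 416) (nat_lit 3) (nat_lit 200) (nat_lit 168) (nat_lit 202)) (PT.lf (nat_lit 31692) (nat_lit 3) (nat_lit 417) (nat_lit 1) (nat_lit 201) (nat_lit 168) (nat_lit 201)))) (PT.nd (nat_lit 156) (PT.nd (nat_lit 78) (PT.lf (nat_lit 31616) (nat_lit 6) (nat_lit 416) (nat_lit 1) (nat_lit 202) (nat_lit 168) (nat_lit 200)) (PT.lf (nat_lit 31540) (nat_lit 6) (nat_lit 415) (nat_lit 1) (nat_lit 203) (nat_lit 168) (nat_lit 199))) (PT.nd (nat_lit 78) (PT.lf (nat_lit 31464) (nat_lit 6) (nat_lit 414) (nat_lit 1) (nat_lit 204) (nat_lit 168) (nat_lit 198)) (PT.lf (nat_lit 31388) (nat_lit 6) (nat_lit 413) (nat_lit 1) (nat_lit 205) (nat_lit 168) (nat_lit 197)))))) (PT.nd (nat_lit 546) (PT.nd (nat_lit 234) (PT.nd (nat_lit 78) (PT.lf (nat_lit 31312) (nat_lit 6) (nat_lit 412) (nat_lit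 1) (nat_lit 206) (nat_lit 168) (nat_lit 196)) (PT.nd (nat_lit 78) (PT.lf (nat_lit 31236) (nat_lit 6) (nat_lit 411) (nat_lit 1) (nat_lit 207) (nat_lit 168) (nat_lit 195)) (PT.lf (nat_lit 31160) (nat_lit 6) (nat_lit 410) (nat_lit 1) (nat_lit 208) (nat_lit 168) (nat_lit 194)))) (PT.nd (nat_lit 156) (PT.nd (nat_lit 78) (PT.lf (nat_lit 31084) (nat_lit 6) (nat_lit 409) (nat_lit 1) (nat_lit 209) (nat_lit 168) (nat_lit 193)) (PT.lf (nat_lit 31008) (nat_lit 6) (nat_lit 408) (nat_lit 1) (nat_lit 210) (nat_lit 168) (nat_lit 192))) (PT.nd (nat_lit 78) (PT.lf (nat_lit 30932) (nat_lit 6) (nat_lit 407) (nat_lit 1) (nat_lit 211) (nat_lit 168) (nat_lit 191)) (PT.lf (nat_lit 30856) (nat_lit 6) (nat_lit 406) (nat_lit 1) (nat_lit 212) (nat_lit 168) (nat_lit 190))))) (PT.nd (nat_lit 57642) (PT.nd (nat_lit 57486) (PT.nd (nat_lit 57408) (PT.lf (nat_lit 29032) (nat_lit 6) (nat_lit 382) (nat_lit 1) (nat_lit 213) (nat_lit 168) (nat_lit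 189)) (PT.lf (nat_lit 28956) (nat_lit 6) (nat_lit 381) (nat_lit 3) (nat_lit 188) (nat_lit 169) (nat_lit 213))) (PT.nd (nat_lit 78) (PT.lf (nat_lit 30780) (nat_lit 6) (nat_lit 405) (nat_lit 3) (nat_lit 189) (nat_lit 169) (nat_lit 212)) (PT.lf (nat_lit 32528) (nat_lit 6) (nat_lit 428) (nat_lit 3) (nat_lit 190) (nat_lit 169) (nat_lit 211)))) (PT.nd (nat_lit 156) (PT.nd (nat_lit 78) (PT.lf (nat_lit 32604) (nat_lit 6) (nat_lit 429) (nat_lit 3) (nat_lit 191) (nat_lit 169) (nat_lit 210)) (PT.lf (nat_lit 32680) (nat_lit 6) (nat_lit 430) (nat_lit 3) (nat_lit 192) (nat_lit 169) (nat_lit 209))) (PT.nd (nat_lit 78) (PT.lf (nat_lit 32756) (nat_lit 6) (nat_lit 431) (nat_lit 3) (nat_lit 193) (nat_lit 169) (nat_lit 208)) (PT.lf (nat_lit 32832) (nat_lit 6) (nat_lit 432) (nat_lit 3) (nat_lit 194) (nat_lit 169) (nat_lit 207))))))))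
noncomputable def pc13 : PT := (PT.nd (nat_lit 59514) (PT.nd (nat_lit 1092) (PT.nd (nat_lit 546) (PT.nd (nat_lit 234) (PT.nd (nat_lit 78) (PT.lf (nat_lit 32908) (nat_lit 6) (nat_lit 433) (nat_lit 3) (nat_lit 195) (nat_lit 169) (nat_lit 206)) (PT.nd (nat_lit 78) (PT.lf (nat_lit 32984) (nat_lit 6) (nat_lit 434) (nat_lit 3) (nat_lit 196) (nat_lit 169) (nat_lit 205)) (PT.lf (nat_lit 33060) (nat_lit 6) (nat_lit 435) (nat_lit 3) (nat_lit 197) (nat_lit 169) (nat_lit 204)))) (PT.nd (nat_lit 156) (PT.nd (nat_lit 78) (PT.lf (nat_lit 33136) (nat_lit 6) (nat_lit 436) (nat_lit 3) (nat_lit 198) (nat_lit 169) (nat_lit 203)) (PT.lf (nat_lit 33212) (nat_lit 6) (nat_lit 437) (nat_lit 3) (nat_lit 199) (nat_lit 169) (nat_lit 202))) (PT.nd (nat_lit 78) (PT.lf (nat_lit 33288) (nat_lit 6) (nat_lit 438) (nat_lit 3) (nat_lit 200) (nat_lit 169) (nat_lit 201)) (PT.lf (nat_lit 33288) (nat_lit 6) (nat_lit 438) (nat_lit 1) (nat_lit 201) (nat_lit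 169) (nat_lit 200))))) (PT.nd (nat_lit 234) (PT.nd (nat_lit 78) (PT.lf (nat_lit 33212) (nat_lit 6) (nat_lit 437) (nat_lit 1) (nat_lit 202) (nat_lit 169) (nat_lit 199)) (PT.nd (nat_lit 78) (PT.lf (nat_lit 33136) (nat_lit 6) (nat_lit 436) (nat_lit 1) (nat_lit 203) (nat_lit 169) (nat_lit 198)) (PT.lf (nat_lit 33060) (nat_lit 6) (nat_lit 435) (nat_lit 1) (nat_lit 204) (nat_lit 169) (nat_lit 197)))) (PT.nd (nat_lit 156) (PT.nd (nat_lit 78) (PT.lf (nat_lit 32984) (nat_lit 6) (nat_lit 434) (nat_lit 1) (nat_lit 205) (nat_lit 169) (nat_lit 196)) (PT.lf (nat_lit 32908) (nat_lit 6) (nat_lit 433) (nat_lit 1) (nat_lit 206) (nat_lit 169) (nat_lit 195))) (PT.nd (nat_lit 78) (PT.lf (nat_lit 32832) (nat_lit 6) (nat_lit 432) (nat_lit 1) (nat_lit 207) (nat_lit 169) (nat_lit 194)) (PT.lf (nat_lit 32756) (nat_lit 6) (nat_lit 431) (nat_lit 1) (nat_lit 208) (nat_lit 169) (nat_lit 193)))))) (PT.nd (nat_lit 57798) (PT.nd (nat_lit 234)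 (PT.nd (nat_lit 78) (PT.lf (nat_lit 32680) (nat_lit 6) (nat_lit 430) (nat_lit 1) (nat_lit 209) (nat_lit 169) (nat_lit 192)) (PT.nd (nat_lit 78) (PT.lf (nat_lit 32604) (nat_lit 6) (nat_lit 429) (nat_lit 1) (nat_lit 210) (nat_lit 169) (nat_lit 191)) (PT.lf (nat_lit 32528) (nat_lit 6) (nat_lit 428) (nat_lit 1) (nat_lit 211) (nat_lit 169) (nat_lit 190)))) (PT.nd (nat_lit 57408) (PT.nd (nat_lit 78) (PT.lf (nat_lit 30780) (nat_lit 6) (nat_lit 405) (nat_lit 1) (nat_lit 212) (nat_lit 169) (nat_lit 189)) (PT.lf (nat_lit 28956) (nat_lit 6) (nat_lit 381) (nat_lit 1) (nat_lit 213) (nat_lit 169) (nat_lit 188))) (PT.nd (nat_lit 78) (PT.lf (nat_lit 28880) (nat_lit 6) (nat_lit 380) (nat_lit 3) (nat_lit 187) (nat_lit 170) (nat_lit 213)) (PT.lf (nat_lit 30704) (nat_lit 6) (nat_lit 404) (nat_lit 3) (nat_lit 188) (nat_lit 170) (nat_lit 212))))) (PT.nd (nat_lit 312) (PT.nd (nat_lit 156) (PT.nd (nat_lit 78) (PT.lf (nat_lit 32452) (nat_lit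 6) (nat_lit 427) (nat_lit 3) (nat_lit 189) (nat_lit 170) (nat_lit 211)) (PT.lf (nat_lit 34124) (nat_lit 6) (nat_lit 449) (nat_lit 3) (nat_lit 190) (nat_lit 170) (nat_lit 210))) (PT.nd (nat_lit 78) (PT.lf (nat_lit 34200) (nat_lit 6) (nat_lit 450) (nat_lit 3) (nat_lit 191) (nat_lit 170) (nat_lit 209)) (PT.lf (nat_lit 34276) (nat_lit 6) (nat_lit 451) (nat_lit 3) (nat_lit 192) (nat_lit 170) (nat_lit 208)))) (PT.nd (nat_lit 156) (PT.nd (nat_lit 78) (PT.lf (nat_lit 34352) (nat_lit 6) (nat_lit 452) (nat_lit 3) (nat_lit 193) (nat_lit 170) (nat_lit 207)) (PT.lf (nat_lit 34428) (nat_lit 6) (nat_lit 453) (nat_lit 3) (nat_lit 194) (nat_lit 170) (nat_lit 206))) (PT.nd (nat_lit 78) (PT.lf (nat_lit 34504) (nat_lit 6) (nat_lit 454) (nat_lit 3) (nat_lit 195) (nat_lit 170) (nat_lit 205)) (PT.lf (nat_lit 34580) (nat_lit 6) (nat_lit 455) (nat_lit 3) (nat_lit 196) (nat_lit 170) (nat_lit 204))))))) (PT.nd (nat_lit 1170) (PT.nd (nat_lit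 546) (PT.nd (nat_lit 234) (PT.nd (nat_lit 78) (PT.lf (nat_lit 34656) (nat_lit 6) (nat_lit 456) (nat_lit 3) (nat_lit 197) (nat_lit 170) (nat_lit 203)) (PT.nd (nat_lit 78) (PT.lf (nat_lit 34732) (nat_lit 6) (nat_lit 457) (nat_lit 3) (nat_lit 198) (nat_lit 170) (nat_lit 202)) (PT.lf (nat_lit 34808) (nat_lit 6) (nat_lit 458) (nat_lit 3) (nat_lit 199) (nat_lit 170) (nat_lit 201)))) (PT.nd (nat_lit 156) (PT.nd (nat_lit 78) (PT.lf (nat_lit 34884) (nat_lit 3) (nat_lit 459) (nat_lit 1) (nat_lit 200) (nat_lit 170) (nat_lit 200)) (PT.lf (nat_lit 34808) (nat_lit 6) (nat_lit 458) (nat_lit 1) (nat_lit 201) (nat_lit 170) (nat_lit 199))) (PT.nd (nat_lit 78) (PT.lf (nat_lit 34732) (nat_lit 6) (nat_lit 457) (nat_lit 1) (nat_lit 202) (nat_lit 170) (nat_lit 198)) (PT.lf (nat_lit 34656) (nat_lit 6) (nat_lit 456) (nat_lit 1) (nat_lit 203) (nat_lit 170) (nat_lit 197))))) (PT.nd (nat_lit 312) (PT.nd (nat_lit 156) (PT.nd (nat_lit 78) (PT.lf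 (nat_lit 34580) (nat_lit 6) (nat_lit 455) (nat_lit 1) (nat_lit 204) (nat_lit 170) (nat_lit 196)) (PT.lf (nat_lit 34504) (nat_lit 6) (nat_lit 454) (nat_lit 1) (nat_lit 205) (nat_lit 170) (nat_lit 195))) (PT.nd (nat_lit 78) (PT.lf (nat_lit 34428) (nat_lit 6) (nat_lit 453) (nat_lit 1) (nat_lit 206) (nat_lit 170) (nat_lit 194)) (PT.lf (nat_lit 34352) (nat_lit 6) (nat_lit 452) (nat_lit 1) (nat_lit 207) (nat_lit 170) (nat_lit 193)))) (PT.nd (nat_lit 156) (PT.nd (nat_lit 78) (PT.lf (nat_lit 34276) (nat_lit 6) (nat_lit 451) (nat_lit 1) (nat_lit 208) (nat_lit 170) (nat_lit 192)) (PT.lf (nat_lit 34200) (nat_lit 6) (nat_lit 450) (nat_lit 1) (nat_lit 209) (nat_lit 170) (nat_lit 191))) (PT.nd (nat_lit 78) (PT.lf (nat_lit 34124) (nat_lit 6) (nat_lit 449) (nat_lit 1) (nat_lit 210) (nat_lit 170) (nat_lit 190)) (PT.lf (nat_lit 32452) (nat_lit 6) (nat_lit 427) (nat_lit 1) (nat_lit 211) (nat_lit 170) (nat_lit 189)))))) (PT.nd (nat_lit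 57720) (PT.nd (nat_lit 57408) (PT.nd (nat_lit 78) (PT.lf (nat_lit 30704) (nat_lit 6) (nat_lit 404) (nat_lit 1) (nat_lit 212) (nat_lit 170) (nat_lit 188)) (PT.nd (nat_lit 57252) (PT.lf (nat_lit 28880) (nat_lit 6) (nat_lit 380) (nat_lit 1) (nat_lit 213) (nat_lit 170) (nat_lit 187)) (PT.lf (nat_lit 28804) (nat_lit 6) (nat_lit 379) (nat_lit 3) (nat_lit 186) (nat_lit 171) (nat_lit 213)))) (PT.nd (nat_lit 156) (PT.nd (nat_lit 78) (PT.lf (nat_lit 30628) (nat_lit 6) (nat_lit 403) (nat_lit 3) (nat_lit 187) (nat_lit 171) (nat_lit 212)) (PT.lf (nat_lit 32376) (nat_lit 6) (nat_lit 426) (nat_lit 3) (nat_lit 188) (nat_lit 171) (nat_lit 211))) (PT.nd (nat_lit 78) (PT.lf (nat_lit 34048) (nat_lit 6) (nat_lit 448) (nat_lit 3) (nat_lit 189) (nat_lit 171) (nat_lit 210)) (PT.lf (nat_lit 35644) (nat_lit 6) (nat_lit 469) (nat_lit 3) (nat_lit 190) (nat_lit 171) (nat_lit 209))))) (PT.nd (nat_lit 312) (PT.nd (nat_lit 156) (PT.nd (nat_lit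 78) (PT.lf (nat_lit 35720) (nat_lit 6) (nat_lit 470) (nat_lit 3) (nat_lit 191) (nat_lit 171) (nat_lit 208)) (PT.lf (nat_lit 35796) (nat_lit 6) (nat_lit 471) (nat_lit 3) (nat_lit 192) (nat_lit 171) (nat_lit 207))) (PT.nd (nat_lit 78) (PT.lf (nat_lit 35872) (nat_lit 6) (nat_lit 472) (nat_lit 3) (nat_lit 193) (nat_lit 171) (nat_lit 206)) (PT.lf (nat_lit 35948) (nat_lit 6) (nat_lit 473) (nat_lit 3) (nat_lit 194) (nat_lit 171) (nat_lit 205)))) (PT.nd (nat_lit 156) (PT.nd (nat_lit 78) (PT.lf (nat_lit 36024) (nat_lit 6) (nat_lit 474) (nat_lit 3) (nat_lit 195) (nat_lit 171) (nat_lit 204)) (PT.lf (nat_lit 36100) (nat_lit 6) (nat_lit 475) (nat_lit 3) (nat_lit 196) (nat_lit 171) (nat_lit 203))) (PT.nd (nat_lit 78) (PT.lf (nat_lit 36176) (nat_lit 6) (nat_lit 476) (nat_lit 3) (nat_lit 197) (nat_lit 171) (nat_lit 202)) (PT.lf (nat_lit 36252) (nat_lit 6) (nat_lit 477) (nat_lit 3) (nat_lit 198) (nat_lit 171) (nat_lit 201))))))))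
noncomputable def pc14 : PT := (PT.nd (nat_lit 59358) (PT.nd (nat_lit 1092) (PT.nd (nat_lit 546) (PT.nd (nat_lit 234) (PT.nd (nat_lit 78) (PT.lf (nat_lit 36328) (nat_lit 6) (nat_lit 478) (nat_lit 3) (nat_lit 199) (nat_lit 171) (nat_lit 200)) (PT.nd (nat_lit 78) (PT.lf (nat_lit 36328) (nat_lit 6) (nat_lit 478) (nat_lit 1) (nat_lit 200) (nat_lit 171) (nat_lit 199)) (PT.lf (nat_lit 36252) (nat_lit 6) (nat_lit 477) (nat_lit 1) (nat_lit 201) (nat_lit 171) (nat_lit 198)))) (PT.nd (nat_lit 156) (PT.nd (nat_lit 78) (PT.lf (nat_lit 36176) (nat_lit 6) (nat_lit 476) (nat_lit 1) (nat_lit 202) (nat_lit 171) (nat_lit 197)) (PT.lf (nat_lit 36100) (nat_lit 6) (nat_lit 475) (nat_lit 1) (nat_lit 203) (nat_lit 171) (nat_lit 196))) (PT.nd (nat_lit 78) (PT.lf (nat_lit 36024) (nat_lit 6) (nat_lit 474) (nat_lit 1) (nat_lit 204) (nat_lit 171) (nat_lit 195)) (PT.lf (nat_lit 35948) (nat_lit 6) (nat_lit 473) (nat_lit 1) (nat_lit 205) (nat_lit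 171) (nat_lit 194))))) (PT.nd (nat_lit 234) (PT.nd (nat_lit 78) (PT.lf (nat_lit 35872) (nat_lit 6) (nat_lit 472) (nat_lit 1) (nat_lit 206) (nat_lit 171) (nat_lit 193)) (PT.nd (nat_lit 78) (PT.lf (nat_lit 35796) (nat_lit 6) (nat_lit 471) (nat_lit 1) (nat_lit 207) (nat_lit 171) (nat_lit 192)) (PT.lf (nat_lit 35720) (nat_lit 6) (nat_lit 470) (nat_lit 1) (nat_lit 208) (nat_lit 171) (nat_lit 191)))) (PT.nd (nat_lit 156) (PT.nd (nat_lit 78) (PT.lf (nat_lit 35644) (nat_lit 6) (nat_lit 469) (nat_lit 1) (nat_lit 209) (nat_lit 171) (nat_lit 190)) (PT.lf (nat_lit 34048) (nat_lit 6) (nat_lit 448) (nat_lit 1) (nat_lit 210) (nat_lit 171) (nat_lit 189))) (PT.nd (nat_lit 78) (PT.lf (nat_lit 32376) (nat_lit 6) (nat_lit 426) (nat_lit 1) (nat_lit 211) (nat_lit 171) (nat_lit 188)) (PT.lf (nat_lit 30628) (nat_lit 6) (nat_lit 403) (nat_lit 1) (nat_lit 212) (nat_lit 171) (nat_lit 187)))))) (PT.nd (nat_lit 57642) (PT.nd (nat_lit 57330)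 (PT.nd (nat_lit 57174) (PT.lf (nat_lit 28804) (nat_lit 6) (nat_lit 379) (nat_lit 1) (nat_lit 213) (nat_lit 171) (nat_lit 186)) (PT.nd (nat_lit 78) (PT.lf (nat_lit 28728) (nat_lit 6) (nat_lit 378) (nat_lit 3) (nat_lit 185) (nat_lit 172) (nat_lit 213)) (PT.lf (nat_lit 30552) (nat_lit 6) (nat_lit 402) (nat_lit 3) (nat_lit 186) (nat_lit 172) (nat_lit 212)))) (PT.nd (nat_lit 156) (PT.nd (nat_lit 78) (PT.lf (nat_lit 32300) (nat_lit 6) (nat_lit 425) (nat_lit 3) (nat_lit 187) (nat_lit 172) (nat_lit 211)) (PT.lf (nat_lit 33972) (nat_lit 6) (nat_lit 447) (nat_lit 3) (nat_lit 188) (nat_lit 172) (nat_lit 210))) (PT.nd (nat_lit 78) (PT.lf (nat_lit 35568) (nat_lit 6) (nat_lit 468) (nat_lit 3) (nat_lit 189) (nat_lit 172) (nat_lit 209)) (PT.lf (nat_lit 37088) (nat_lit 6) (nat_lit 488) (nat_lit 3) (nat_lit 190) (nat_lit 172) (nat_lit 208))))) (PT.nd (nat_lit 312) (PT.nd (nat_lit 156) (PT.nd (nat_lit 78) (PT.lf (nat_lit 37164) (nat_lit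 6) (nat_lit 489) (nat_lit 3) (nat_lit 191) (nat_lit 172) (nat_lit 207)) (PT.lf (nat_lit 37240) (nat_lit 6) (nat_lit 490) (nat_lit 3) (nat_lit 192) (nat_lit 172) (nat_lit 206))) (PT.nd (nat_lit 78) (PT.lf (nat_lit 37316) (nat_lit 6) (nat_lit 491) (nat_lit 3) (nat_lit 193) (nat_lit 172) (nat_lit 205)) (PT.lf (nat_lit 37392) (nat_lit 6) (nat_lit 492) (nat_lit 3) (nat_lit 194) (nat_lit 172) (nat_lit 204)))) (PT.nd (nat_lit 156) (PT.nd (nat_lit 78) (PT.lf (nat_lit 37468) (nat_lit 6) (nat_lit 493) (nat_lit 3) (nat_lit 195) (nat_lit 172) (nat_lit 203)) (PT.lf (nat_lit 37544) (nat_lit 6) (nat_lit 494) (nat_lit 3) (nat_lit 196) (nat_lit 172) (nat_lit 202))) (PT.nd (nat_lit 78) (PT.lf (nat_lit 37620) (nat_lit 6) (nat_lit 495) (nat_lit 3) (nat_lit 197) (nat_lit 172) (nat_lit 201)) (PT.lf (nat_lit 37696) (nat_lit 6) (nat_lit 496) (nat_lit 3) (nat_lit 198) (nat_lit 172) (nat_lit 200))))))) (PT.nd (nat_lit 1092) (PT.nd (nat_lit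 546) (PT.nd (nat_lit 234) (PT.nd (nat_lit 78) (PT.lf (nat_lit 37772) (nat_lit 3) (nat_lit 497) (nat_lit 1) (nat_lit 199) (nat_lit 172) (nat_lit 199)) (PT.nd (nat_lit 78) (PT.lf (nat_lit 37696) (nat_lit 6) (nat_lit 496) (nat_lit 1) (nat_lit 200) (nat_lit 172) (nat_lit 198)) (PT.lf (nat_lit 37620) (nat_lit 6) (nat_lit 495) (nat_lit 1) (nat_lit 201) (nat_lit 172) (nat_lit 197)))) (PT.nd (nat_lit 156) (PT.nd (nat_lit 78) (PT.lf (nat_lit 37544) (nat_lit 6) (nat_lit 494) (nat_lit 1) (nat_lit 202) (nat_lit 172) (nat_lit 196)) (PT.lf (nat_lit 37468) (nat_lit 6) (nat_lit 493) (nat_lit 1) (nat_lit 203) (nat_lit 172) (nat_lit 195))) (PT.nd (nat_lit 78) (PT.lf (nat_lit 37392) (nat_lit 6) (nat_lit 492) (nat_lit 1) (nat_lit 204) (nat_lit 172) (nat_lit 194)) (PT.lf (nat_lit 37316) (nat_lit 6) (nat_lit 491) (nat_lit 1) (nat_lit 205) (nat_lit 172) (nat_lit 193))))) (PT.nd (nat_lit 234) (PT.nd (nat_lit 78) (PT.lf (nat_lit 37240)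 (nat_lit 6) (nat_lit 490) (nat_lit 1) (nat_lit 206) (nat_lit 172) (nat_lit 192)) (PT.nd (nat_lit 78) (PT.lf (nat_lit 37164) (nat_lit 6) (nat_lit 489) (nat_lit 1) (nat_lit 207) (nat_lit 172) (nat_lit 191)) (PT.lf (nat_lit 37088) (nat_lit 6) (nat_lit 488) (nat_lit 1) (nat_lit 208) (nat_lit 172) (nat_lit 190)))) (PT.nd (nat_lit 156) (PT.nd (nat_lit 78) (PT.lf (nat_lit 35568) (nat_lit 6) (nat_lit 468) (nat_lit 1) (nat_lit 209) (nat_lit 172) (nat_lit 189)) (PT.lf (nat_lit 33972) (nat_lit 6) (nat_lit 447) (nat_lit 1) (nat_lit 210) (nat_lit 172) (nat_lit 188))) (PT.nd (nat_lit 78) (PT.lf (nat_lit 32300) (nat_lit 6) (nat_lit 425) (nat_lit 1) (nat_lit 211) (nat_lit 172) (nat_lit 187)) (PT.lf (nat_lit 30552) (nat_lit 6) (nat_lit 402) (nat_lit 1) (nat_lit 212) (nat_lit 172) (nat_lit 186)))))) (PT.nd (nat_lit 57564) (PT.nd (nat_lit 57252) (PT.nd (nat_lit 57096) (PT.lf (nat_lit 28728) (nat_lit 6) (nat_lit 378) (nat_lit 1) (nat_lit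 213) (nat_lit 172) (nat_lit 185)) (PT.nd (nat_lit 78) (PT.lf (nat_lit 28652) (nat_lit 6) (nat_lit 377) (nat_lit 3) (nat_lit 184) (nat_lit 173) (nat_lit 213)) (PT.lf (nat_lit 30476) (nat_lit 6) (nat_lit 401) (nat_lit 3) (nat_lit 185) (nat_lit 173) (nat_lit 212)))) (PT.nd (nat_lit 156) (PT.nd (nat_lit 78) (PT.lf (nat_lit 32224) (nat_lit 6) (nat_lit 424) (nat_lit 3) (nat_lit 186) (nat_lit 173) (nat_lit 211)) (PT.lf (nat_lit 33896) (nat_lit 6) (nat_lit 446) (nat_lit 3) (nat_lit 187) (nat_lit 173) (nat_lit 210))) (PT.nd (nat_lit 78) (PT.lf (nat_lit 35492) (nat_lit 6) (nat_lit 467) (nat_lit 3) (nat_lit 188) (nat_lit 173) (nat_lit 209)) (PT.lf (nat_lit 37012) (nat_lit 6) (nat_lit 487) (nat_lit 3) (nat_lit 189) (nat_lit 173) (nat_lit 208))))) (PT.nd (nat_lit 312) (PT.nd (nat_lit 156) (PT.nd (nat_lit 78) (PT.lf (nat_lit 38456) (nat_lit 6) (nat_lit 506) (nat_lit 3) (nat_lit 190) (nat_lit 173) (nat_lit 207)) (PT.lf (nat_lit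 38532) (nat_lit 6) (nat_lit 507) (nat_lit 3) (nat_lit 191) (nat_lit 173) (nat_lit 206))) (PT.nd (nat_lit 78) (PT.lf (nat_lit 38608) (nat_lit 6) (nat_lit 508) (nat_lit 3) (nat_lit 192) (nat_lit 173) (nat_lit 205)) (PT.lf (nat_lit 38684) (nat_lit 6) (nat_lit 509) (nat_lit 3) (nat_lit 193) (nat_lit 173) (nat_lit 204)))) (PT.nd (nat_lit 156) (PT.nd (nat_lit 78) (PT.lf (nat_lit 38760) (nat_lit 6) (nat_lit 510) (nat_lit 3) (nat_lit 194) (nat_lit 173) (nat_lit 203)) (PT.lf (nat_lit 38836) (nat_lit 6) (nat_lit 511) (nat_lit 3) (nat_lit 195) (nat_lit 173) (nat_lit 202))) (PT.nd (nat_lit 78) (PT.lf (nat_lit 38912) (nat_lit 6) (nat_lit 512) (nat_lit 3) (nat_lit 196) (nat_lit 173) (nat_lit 201)) (PT.lf (nat_lit 38988) (nat_lit 6) (nat_lit 513) (nat_lit 3) (nat_lit 197) (nat_lit 173) (nat_lit 200))))))))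
noncomputable def pc15 : PT := (PT.nd (nat_lit 59202) (PT.nd (nat_lit 1092) (PT.nd (nat_lit 546) (PT.nd (nat_lit 234) (PT.nd (nat_lit 78) (PT.lf (nat_lit 39064) (nat_lit 6) (nat_lit 514) (nat_lit 3) (nat_lit 198) (nat_lit 173) (nat_lit 199)) (PT.nd (nat_lit 78) (PT.lf (nat_lit 39064) (nat_lit 6) (nat_lit 514) (nat_lit 1) (nat_lit 199) (nat_lit 173) (nat_lit 198)) (PT.lf (nat_lit 38988) (nat_lit 6) (nat_lit 513) (nat_lit 1) (nat_lit 200) (nat_lit 173) (nat_lit 197)))) (PT.nd (nat_lit 156) (PT.nd (nat_lit 78) (PT.lf (nat_lit 38912) (nat_lit 6) (nat_lit 512) (nat_lit 1) (nat_lit 201) (nat_lit 173) (nat_lit 196)) (PT.lf (nat_lit 38836) (nat_lit 6) (nat_lit 511) (nat_lit 1) (nat_lit 202) (nat_lit 173) (nat_lit 195))) (PT.nd (nat_lit 78) (PT.lf (nat_lit 38760) (nat_lit 6) (nat_lit 510) (nat_lit 1) (nat_lit 203) (nat_lit 173) (nat_lit 194)) (PT.lf (nat_lit 38684) (nat_lit 6) (nat_lit 509) (nat_lit 1) (nat_lit 204) (nat_lit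 173) (nat_lit 193))))) (PT.nd (nat_lit 234) (PT.nd (nat_lit 78) (PT.lf (nat_lit 38608) (nat_lit 6) (nat_lit 508) (nat_lit 1) (nat_lit 205) (nat_lit 173) (nat_lit 192)) (PT.nd (nat_lit 78) (PT.lf (nat_lit 38532) (nat_lit 6) (nat_lit 507) (nat_lit 1) (nat_lit 206) (nat_lit 173) (nat_lit 191)) (PT.lf (nat_lit 38456) (nat_lit 6) (nat_lit 506) (nat_lit 1) (nat_lit 207) (nat_lit 173) (nat_lit 190)))) (PT.nd (nat_lit 156) (PT.nd (nat_lit 78) (PT.lf (nat_lit 37012) (nat_lit 6) (nat_lit 487) (nat_lit 1) (nat_lit 208) (nat_lit 173) (nat_lit 189)) (PT.lf (nat_lit 35492) (nat_lit 6) (nat_lit 467) (nat_lit 1) (nat_lit 209) (nat_lit 173) (nat_lit 188))) (PT.nd (nat_lit 78) (PT.lf (nat_lit 33896) (nat_lit 6) (nat_lit 446) (nat_lit 1) (nat_lit 210) (nat_lit 173) (nat_lit 187)) (PT.lf (nat_lit 32224) (nat_lit 6) (nat_lit 424) (nat_lit 1) (nat_lit 211) (nat_lit 173) (nat_lit 186)))))) (PT.nd (nat_lit 57486) (PT.nd (nat_lit 57174)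 (PT.nd (nat_lit 78) (PT.lf (nat_lit 30476) (nat_lit 6) (nat_lit 401) (nat_lit 1) (nat_lit 212) (nat_lit 173) (nat_lit 185)) (PT.nd (nat_lit 57018) (PT.lf (nat_lit 28652) (nat_lit 6) (nat_lit 377) (nat_lit 1) (nat_lit 213) (nat_lit 173) (nat_lit 184)) (PT.lf (nat_lit 28576) (nat_lit 6) (nat_lit 376) (nat_lit 3) (nat_lit 183) (nat_lit 174) (nat_lit 213)))) (PT.nd (nat_lit 156) (PT.nd (nat_lit 78) (PT.lf (nat_lit 30400) (nat_lit 6) (nat_lit 400) (nat_lit 3) (nat_lit 184) (nat_lit 174) (nat_lit 212)) (PT.lf (nat_lit 32148) (nat_lit 6) (nat_lit 423) (nat_lit 3) (nat_lit 185) (nat_lit 174) (nat_lit 211))) (PT.nd (nat_lit 78) (PT.lf (nat_lit 33820) (nat_lit 6) (nat_lit 445) (nat_lit 3) (nat_lit 186) (nat_lit 174) (nat_lit 210)) (PT.lf (nat_lit 35416) (nat_lit 6) (nat_lit 466) (nat_lit 3) (nat_lit 187) (nat_lit 174) (nat_lit 209))))) (PT.nd (nat_lit 312) (PT.nd (nat_lit 156) (PT.nd (nat_lit 78) (PT.lf (nat_lit 36936) (nat_lit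 6) (nat_lit 486) (nat_lit 3) (nat_lit 188) (nat_lit 174) (nat_lit 208)) (PT.lf (nat_lit 38380) (nat_lit 6) (nat_lit 505) (nat_lit 3) (nat_lit 189) (nat_lit 174) (nat_lit 207))) (PT.nd (nat_lit 78) (PT.lf (nat_lit 39748) (nat_lit 6) (nat_lit 523) (nat_lit 3) (nat_lit 190) (nat_lit 174) (nat_lit 206)) (PT.lf (nat_lit 39824) (nat_lit 6) (nat_lit 524) (nat_lit 3) (nat_lit 191) (nat_lit 174) (nat_lit 205)))) (PT.nd (nat_lit 156) (PT.nd (nat_lit 78) (PT.lf (nat_lit 39900) (nat_lit 6) (nat_lit 525) (nat_lit 3) (nat_lit 192) (nat_lit 174) (nat_lit 204)) (PT.lf (nat_lit 39976) (nat_lit 6) (nat_lit 526) (nat_lit 3) (nat_lit 193) (nat_lit 174) (nat_lit 203))) (PT.nd (nat_lit 78) (PT.lf (nat_lit 40052) (nat_lit 6) (nat_lit 527) (nat_lit 3) (nat_lit 194) (nat_lit 174) (nat_lit 202)) (PT.lf (nat_lit 40128) (nat_lit 6) (nat_lit 528) (nat_lit 3) (nat_lit 195) (nat_lit 174) (nat_lit 201))))))) (PT.nd (nat_lit 1170) (PT.nd (nat_lit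 546) (PT.nd (nat_lit 234) (PT.nd (nat_lit 78) (PT.lf (nat_lit 40204) (nat_lit 6) (nat_lit 529) (nat_lit 3) (nat_lit 196) (nat_lit 174) (nat_lit 200)) (PT.nd (nat_lit 78) (PT.lf (nat_lit 40280) (nat_lit 6) (nat_lit 530) (nat_lit 3) (nat_lit 197) (nat_lit 174) (nat_lit 199)) (PT.lf (nat_lit 40356) (nat_lit 3) (nat_lit 531) (nat_lit 1) (nat_lit 198) (nat_lit 174) (nat_lit 198)))) (PT.nd (nat_lit 156) (PT.nd (nat_lit 78) (PT.lf (nat_lit 40280) (nat_lit 6) (nat_lit 530) (nat_lit 1) (nat_lit 199) (nat_lit 174) (nat_lit 197)) (PT.lf (nat_lit 40204) (nat_lit 6) (nat_lit 529) (nat_lit 1) (nat_lit 200) (nat_lit 174) (nat_lit 196))) (PT.nd (nat_lit 78) (PT.lf (nat_lit 40128) (nat_lit 6) (nat_lit 528) (nat_lit 1) (nat_lit 201) (nat_lit 174) (nat_lit 195)) (PT.lf (nat_lit 40052) (nat_lit 6) (nat_lit 527) (nat_lit 1) (nat_lit 202) (nat_lit 174) (nat_lit 194))))) (PT.nd (nat_lit 312) (PT.nd (nat_lit 156) (PT.nd (nat_lit 78) (PT.lf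 (nat_lit 39976) (nat_lit 6) (nat_lit 526) (nat_lit 1) (nat_lit 203) (nat_lit 174) (nat_lit 193)) (PT.lf (nat_lit 39900) (nat_lit 6) (nat_lit 525) (nat_lit 1) (nat_lit 204) (nat_lit 174) (nat_lit 192))) (PT.nd (nat_lit 78) (PT.lf (nat_lit 39824) (nat_lit 6) (nat_lit 524) (nat_lit 1) (nat_lit 205) (nat_lit 174) (nat_lit 191)) (PT.lf (nat_lit 39748) (nat_lit 6) (nat_lit 523) (nat_lit 1) (nat_lit 206) (nat_lit 174) (nat_lit 190)))) (PT.nd (nat_lit 156) (PT.nd (nat_lit 78) (PT.lf (nat_lit 38380) (nat_lit 6) (nat_lit 505) (nat_lit 1) (nat_lit 207) (nat_lit 174) (nat_lit 189)) (PT.lf (nat_lit 36936) (nat_lit 6) (nat_lit 486) (nat_lit 1) (nat_lit 208) (nat_lit 174) (nat_lit 188))) (PT.nd (nat_lit 78) (PT.lf (nat_lit 35416) (nat_lit 6) (nat_lit 466) (nat_lit 1) (nat_lit 209) (nat_lit 174) (nat_lit 187)) (PT.lf (nat_lit 33820) (nat_lit 6) (nat_lit 445) (nat_lit 1) (nat_lit 210) (nat_lit 174) (nat_lit 186)))))) (PT.nd (nat_lit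 57486) (PT.nd (nat_lit 57174) (PT.nd (nat_lit 78) (PT.lf (nat_lit 32148) (nat_lit 6) (nat_lit 423) (nat_lit 1) (nat_lit 211) (nat_lit 174) (nat_lit 185)) (PT.nd (nat_lit 78) (PT.lf (nat_lit 30400) (nat_lit 6) (nat_lit 400) (nat_lit 1) (nat_lit 212) (nat_lit 174) (nat_lit 184)) (PT.lf (nat_lit 28576) (nat_lit 6) (nat_lit 376) (nat_lit 1) (nat_lit 213) (nat_lit 174) (nat_lit 183)))) (PT.nd (nat_lit 156) (PT.nd (nat_lit 78) (PT.lf (nat_lit 30324) (nat_lit 6) (nat_lit 399) (nat_lit 3) (nat_lit 183) (nat_lit 175) (nat_lit 212)) (PT.lf (nat_lit 32072) (nat_lit 6) (nat_lit 422) (nat_lit 3) (nat_lit 184) (nat_lit 175) (nat_lit 211))) (PT.nd (nat_lit 78) (PT.lf (nat_lit 33744) (nat_lit 6) (nat_lit 444) (nat_lit 3) (nat_lit 185) (nat_lit 175) (nat_lit 210)) (PT.lf (nat_lit 35340) (nat_lit 6) (nat_lit 465) (nat_lit 3) (nat_lit 186) (nat_lit 175) (nat_lit 209))))) (PT.nd (nat_lit 312) (PT.nd (nat_lit 156) (PT.nd (nat_lit 78)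 (PT.lf (nat_lit 36860) (nat_lit 6) (nat_lit 485) (nat_lit 3) (nat_lit 187) (nat_lit 175) (nat_lit 208)) (PT.lf (nat_lit 38304) (nat_lit 6) (nat_lit 504) (nat_lit 3) (nat_lit 188) (nat_lit 175) (nat_lit 207))) (PT.nd (nat_lit 78) (PT.lf (nat_lit 39672) (nat_lit 6) (nat_lit 522) (nat_lit 3) (nat_lit 189) (nat_lit 175) (nat_lit 206)) (PT.lf (nat_lit 40964) (nat_lit 6) (nat_lit 539) (nat_lit 3) (nat_lit 190) (nat_lit 175) (nat_lit 205)))) (PT.nd (nat_lit 156) (PT.nd (nat_lit 78) (PT.lf (nat_lit 41040) (nat_lit 6) (nat_lit 540) (nat_lit 3) (nat_lit 191) (nat_lit 175) (nat_lit 204)) (PT.lf (nat_lit 41116) (nat_lit 6) (nat_lit 541) (nat_lit 3) (nat_lit 192) (nat_lit 175) (nat_lit 203))) (PT.nd (nat_lit 78) (PT.lf (nat_lit 41192) (nat_lit 6) (nat_lit 542) (nat_lit 3) (nat_lit 193) (nat_lit 175) (nat_lit 202)) (PT.lf (nat_lit 41268) (nat_lit 6) (nat_lit 543) (nat_lit 3) (nat_lit 194) (nat_lit 175) (nat_lit 201))))))))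
noncomputable def pc16 : PT := (PT.nd (nat_lit 59202) (PT.nd (nat_lit 1092) (PT.nd (nat_lit 546) (PT.nd (nat_lit 234) (PT.nd (nat_lit 78) (PT.lf (nat_lit 41344) (nat_lit 6) (nat_lit 544) (nat_lit 3) (nat_lit 195) (nat_lit 175) (nat_lit 200)) (PT.nd (nat_lit 78) (PT.lf (nat_lit 41420) (nat_lit 6) (nat_lit 545) (nat_lit 3) (nat_lit 196) (nat_lit 175) (nat_lit 199)) (PT.lf (nat_lit 41496) (nat_lit 6) (nat_lit 546) (nat_lit 3) (nat_lit 197) (nat_lit 175) (nat_lit 198)))) (PT.nd (nat_lit 156) (PT.nd (nat_lit 78) (PT.lf (nat_lit 41496) (nat_lit 6) (nat_lit 546) (nat_lit 1) (nat_lit 198) (nat_lit 175) (nat_lit 197)) (PT.lf (nat_lit 41420) (nat_lit 6) (nat_lit 545) (nat_lit 1) (nat_lit 199) (nat_lit 175) (nat_lit 196))) (PT.nd (nat_lit 78) (PT.lf (nat_lit 41344) (nat_lit 6) (nat_lit 544) (nat_lit 1) (nat_lit 200) (nat_lit 175) (nat_lit 195)) (PT.lf (nat_lit 41268) (nat_lit 6) (nat_lit 543) (nat_lit 1) (nat_lit 201) (nat_lit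 175) (nat_lit 194))))) (PT.nd (nat_lit 234) (PT.nd (nat_lit 78) (PT.lf (nat_lit 41192) (nat_lit 6) (nat_lit 542) (nat_lit 1) (nat_lit 202) (nat_lit 175) (nat_lit 193)) (PT.nd (nat_lit 78) (PT.lf (nat_lit 41116) (nat_lit 6) (nat_lit 541) (nat_lit 1) (nat_lit 203) (nat_lit 175) (nat_lit 192)) (PT.lf (nat_lit 41040) (nat_lit 6) (nat_lit 540) (nat_lit 1) (nat_lit 204) (nat_lit 175) (nat_lit 191)))) (PT.nd (nat_lit 156) (PT.nd (nat_lit 78) (PT.lf (nat_lit 40964) (nat_lit 6) (nat_lit 539) (nat_lit 1) (nat_lit 205) (nat_lit 175) (nat_lit 190)) (PT.lf (nat_lit 39672) (nat_lit 6) (nat_lit 522) (nat_lit 1) (nat_lit 206) (nat_lit 175) (nat_lit 189))) (PT.nd (nat_lit 78) (PT.lf (nat_lit 38304) (nat_lit 6) (nat_lit 504) (nat_lit 1) (nat_lit 207) (nat_lit 175) (nat_lit 188)) (PT.lf (nat_lit 36860) (nat_lit 6) (nat_lit 485) (nat_lit 1) (nat_lit 208) (nat_lit 175) (nat_lit 187)))))) (PT.nd (nat_lit 57486) (PT.nd (nat_lit 234)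 (PT.nd (nat_lit 78) (PT.lf (nat_lit 35340) (nat_lit 6) (nat_lit 465) (nat_lit 1) (nat_lit 209) (nat_lit 175) (nat_lit 186)) (PT.nd (nat_lit 78) (PT.lf (nat_lit 33744) (nat_lit 6) (nat_lit 444) (nat_lit 1) (nat_lit 210) (nat_lit 175) (nat_lit 185)) (PT.lf (nat_lit 32072) (nat_lit 6) (nat_lit 422) (nat_lit 1) (nat_lit 211) (nat_lit 175) (nat_lit 184)))) (PT.nd (nat_lit 57096) (PT.nd (nat_lit 57018) (PT.lf (nat_lit 30324) (nat_lit 6) (nat_lit 399) (nat_lit 1) (nat_lit 212) (nat_lit 175) (nat_lit 183)) (PT.lf (nat_lit 30248) (nat_lit 6) (nat_lit 398) (nat_lit 3) (nat_lit 182) (nat_lit 176) (nat_lit 212))) (PT.nd (nat_lit 78) (PT.lf (nat_lit 31996) (nat_lit 6) (nat_lit 421) (nat_lit 3) (nat_lit 183) (nat_lit 176) (nat_lit 211)) (PT.lf (nat_lit 33668) (nat_lit 6) (nat_lit 443) (nat_lit 3) (nat_lit 184) (nat_lit 176) (nat_lit 210))))) (PT.nd (nat_lit 312) (PT.nd (nat_lit 156) (PT.nd (nat_lit 78) (PT.lf (nat_lit 35264)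 (nat_lit 6) (nat_lit 464) (nat_lit 3) (nat_lit 185) (nat_lit 176) (nat_lit 209)) (PT.lf (nat_lit 36784) (nat_lit 6) (nat_lit 484) (nat_lit 3) (nat_lit 186) (nat_lit 176) (nat_lit 208))) (PT.nd (nat_lit 78) (PT.lf (nat_lit 38228) (nat_lit 6) (nat_lit 503) (nat_lit 3) (nat_lit 187) (nat_lit 176) (nat_lit 207)) (PT.lf (nat_lit 39596) (nat_lit 6) (nat_lit 521) (nat_lit 3) (nat_lit 188) (nat_lit 176) (nat_lit 206)))) (PT.nd (nat_lit 156) (PT.nd (nat_lit 78) (PT.lf (nat_lit 40888) (nat_lit 6) (nat_lit 538) (nat_lit 3) (nat_lit 189) (nat_lit 176) (nat_lit 205)) (PT.lf (nat_lit 42104) (nat_lit 6) (nat_lit 554) (nat_lit 3) (nat_lit 190) (nat_lit 176) (nat_lit 204))) (PT.nd (nat_lit 78) (PT.lf (nat_lit 42180) (nat_lit 6) (nat_lit 555) (nat_lit 3) (nat_lit 191) (nat_lit 176) (nat_lit 203)) (PT.lf (nat_lit 42256) (nat_lit 6) (nat_lit 556) (nat_lit 3) (nat_lit 192) (nat_lit 176) (nat_lit 202))))))) (PT.nd (nat_lit 1092) (PT.nd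 (nat_lit 546) (PT.nd (nat_lit 234) (PT.nd (nat_lit 78) (PT.lf (nat_lit 42332) (nat_lit 6) (nat_lit 557) (nat_lit 3) (nat_lit 193) (nat_lit 176) (nat_lit 201)) (PT.nd (nat_lit 78) (PT.lf (nat_lit 42408) (nat_lit 6) (nat_lit 558) (nat_lit 3) (nat_lit 194) (nat_lit 176) (nat_lit 200)) (PT.lf (nat_lit 42484) (nat_lit 6) (nat_lit 559) (nat_lit 3) (nat_lit 195) (nat_lit 176) (nat_lit 199)))) (PT.nd (nat_lit 156) (PT.nd (nat_lit 78) (PT.lf (nat_lit 42560) (nat_lit 6) (nat_lit 560) (nat_lit 3) (nat_lit 196) (nat_lit 176) (nat_lit 198)) (PT.lf (nat_lit 42636) (nat_lit 3) (nat_lit 561) (nat_lit 1) (nat_lit 197) (nat_lit 176) (nat_lit 197))) (PT.nd (nat_lit 78) (PT.lf (nat_lit 42560) (nat_lit 6) (nat_lit 560) (nat_lit 1) (nat_lit 198) (nat_lit 176) (nat_lit 196)) (PT.lf (nat_lit 42484) (nat_lit 6) (nat_lit 559) (nat_lit 1) (nat_lit 199) (nat_lit 176) (nat_lit 195))))) (PT.nd (nat_lit 234) (PT.nd (nat_lit 78) (PT.lf (nat_lit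 42408) (nat_lit 6) (nat_lit 558) (nat_lit 1) (nat_lit 200) (nat_lit 176) (nat_lit 194)) (PT.nd (nat_lit 78) (PT.lf (nat_lit 42332) (nat_lit 6) (nat_lit 557) (nat_lit 1) (nat_lit 201) (nat_lit 176) (nat_lit 193)) (PT.lf (nat_lit 42256) (nat_lit 6) (nat_lit 556) (nat_lit 1) (nat_lit 202) (nat_lit 176) (nat_lit 192)))) (PT.nd (nat_lit 156) (PT.nd (nat_lit 78) (PT.lf (nat_lit 42180) (nat_lit 6) (nat_lit 555) (nat_lit 1) (nat_lit 203) (nat_lit 176) (nat_lit 191)) (PT.lf (nat_lit 42104) (nat_lit 6) (nat_lit 554) (nat_lit 1) (nat_lit 204) (nat_lit 176) (nat_lit 190))) (PT.nd (nat_lit 78) (PT.lf (nat_lit 40888) (nat_lit 6) (nat_lit 538) (nat_lit 1) (nat_lit 205) (nat_lit 176) (nat_lit 189)) (PT.lf (nat_lit 39596) (nat_lit 6) (nat_lit 521) (nat_lit 1) (nat_lit 206) (nat_lit 176) (nat_lit 188)))))) (PT.nd (nat_lit 57408) (PT.nd (nat_lit 234) (PT.nd (nat_lit 78) (PT.lf (nat_lit 38228) (nat_lit 6) (nat_lit 503) (nat_lit 1)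 (nat_lit 207) (nat_lit 176) (nat_lit 187)) (PT.nd (nat_lit 78) (PT.lf (nat_lit 36784) (nat_lit 6) (nat_lit 484) (nat_lit 1) (nat_lit 208) (nat_lit 176) (nat_lit 186)) (PT.lf (nat_lit 35264) (nat_lit 6) (nat_lit 464) (nat_lit 1) (nat_lit 209) (nat_lit 176) (nat_lit 185)))) (PT.nd (nat_lit 156) (PT.nd (nat_lit 78) (PT.lf (nat_lit 33668) (nat_lit 6) (nat_lit 443) (nat_lit 1) (nat_lit 210) (nat_lit 176) (nat_lit 184)) (PT.lf (nat_lit 31996) (nat_lit 6) (nat_lit 421) (nat_lit 1) (nat_lit 211) (nat_lit 176) (nat_lit 183))) (PT.nd (nat_lit 56940) (PT.lf (nat_lit 30248) (nat_lit 6) (nat_lit 398) (nat_lit 1) (nat_lit 212) (nat_lit 176) (nat_lit 182)) (PT.lf (nat_lit 30172) (nat_lit 6) (nat_lit 397) (nat_lit 3) (nat_lit 181) (nat_lit 177) (nat_lit 212))))) (PT.nd (nat_lit 312) (PT.nd (nat_lit 156) (PT.nd (nat_lit 78) (PT.lf (nat_lit 31920) (nat_lit 6) (nat_lit 420) (nat_lit 3) (nat_lit 182) (nat_lit 177) (nat_lit 211)) (PT.lf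 (nat_lit 33592) (nat_lit 6) (nat_lit 442) (nat_lit 3) (nat_lit 183) (nat_lit 177) (nat_lit 210))) (PT.nd (nat_lit 78) (PT.lf (nat_lit 35188) (nat_lit 6) (nat_lit 463) (nat_lit 3) (nat_lit 184) (nat_lit 177) (nat_lit 209)) (PT.lf (nat_lit 36708) (nat_lit 6) (nat_lit 483) (nat_lit 3) (nat_lit 185) (nat_lit 177) (nat_lit 208)))) (PT.nd (nat_lit 156) (PT.nd (nat_lit 78) (PT.lf (nat_lit 38152) (nat_lit 6) (nat_lit 502) (nat_lit 3) (nat_lit 186) (nat_lit 177) (nat_lit 207)) (PT.lf (nat_lit 39520) (nat_lit 6) (nat_lit 520) (nat_lit 3) (nat_lit 187) (nat_lit 177) (nat_lit 206))) (PT.nd (nat_lit 78) (PT.lf (nat_lit 40812) (nat_lit 6) (nat_lit 537) (nat_lit 3) (nat_lit 188) (nat_lit 177) (nat_lit 205)) (PT.lf (nat_lit 42028) (nat_lit 6) (nat_lit 553) (nat_lit 3) (nat_lit 189) (nat_lit 177) (nat_lit 204))))))))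
noncomputable def pc17 : PT := (PT.nd (nat_lit 59046) (PT.nd (nat_lit 1092) (PT.nd (nat_lit 546) (PT.nd (nat_lit 234) (PT.nd (nat_lit 78) (PT.lf (nat_lit 43168) (nat_lit 6) (nat_lit 568) (nat_lit 3) (nat_lit 190) (nat_lit 177) (nat_lit 203)) (PT.nd (nat_lit 78) (PT.lf (nat_lit 43244) (nat_lit 6) (nat_lit 569) (nat_lit 3) (nat_lit 191) (nat_lit 177) (nat_lit 202)) (PT.lf (nat_lit 43320) (nat_lit 6) (nat_lit 570) (nat_lit 3) (nat_lit 192) (nat_lit 177) (nat_lit 201)))) (PT.nd (nat_lit 156) (PT.nd (nat_lit 78) (PT.lf (nat_lit 43396) (nat_lit 6) (nat_lit 571) (nat_lit 3) (nat_lit 193) (nat_lit 177) (nat_lit 200)) (PT.lf (nat_lit 43472) (nat_lit 6) (nat_lit 572) (nat_lit 3) (nat_lit 194) (nat_lit 177) (nat_lit 199))) (PT.nd (nat_lit 78) (PT.lf (nat_lit 43548) (nat_lit 6) (nat_lit 573) (nat_lit 3) (nat_lit 195) (nat_lit 177) (nat_lit 198)) (PT.lf (nat_lit 43624) (nat_lit 6) (nat_lit 574) (nat_lit 3) (nat_lit 196) (nat_lit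 177) (nat_lit 197))))) (PT.nd (nat_lit 234) (PT.nd (nat_lit 78) (PT.lf (nat_lit 43624) (nat_lit 6) (nat_lit 574) (nat_lit 1) (nat_lit 197) (nat_lit 177) (nat_lit 196)) (PT.nd (nat_lit 78) (PT.lf (nat_lit 43548) (nat_lit 6) (nat_lit 573) (nat_lit 1) (nat_lit 198) (nat_lit 177) (nat_lit 195)) (PT.lf (nat_lit 43472) (nat_lit 6) (nat_lit 572) (nat_lit 1) (nat_lit 199) (nat_lit 177) (nat_lit 194)))) (PT.nd (nat_lit 156) (PT.nd (nat_lit 78) (PT.lf (nat_lit 43396) (nat_lit 6) (nat_lit 571) (nat_lit 1) (nat_lit 200) (nat_lit 177) (nat_lit 193)) (PT.lf (nat_lit 43320) (nat_lit 6) (nat_lit 570) (nat_lit 1) (nat_lit 201) (nat_lit 177) (nat_lit 192))) (PT.nd (nat_lit 78) (PT.lf (nat_lit 43244) (nat_lit 6) (nat_lit 569) (nat_lit 1) (nat_lit 202) (nat_lit 177) (nat_lit 191)) (PT.lf (nat_lit 43168) (nat_lit 6) (nat_lit 568) (nat_lit 1) (nat_lit 203) (nat_lit 177) (nat_lit 190)))))) (PT.nd (nat_lit 546) (PT.nd (nat_lit 234) (PT.nd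 (nat_lit 78) (PT.lf (nat_lit 42028) (nat_lit 6) (nat_lit 553) (nat_lit 1) (nat_lit 204) (nat_lit 177) (nat_lit 189)) (PT.nd (nat_lit 78) (PT.lf (nat_lit 40812) (nat_lit 6) (nat_lit 537) (nat_lit 1) (nat_lit 205) (nat_lit 177) (nat_lit 188)) (PT.lf (nat_lit 39520) (nat_lit 6) (nat_lit 520) (nat_lit 1) (nat_lit 206) (nat_lit 177) (nat_lit 187)))) (PT.nd (nat_lit 156) (PT.nd (nat_lit 78) (PT.lf (nat_lit 38152) (nat_lit 6) (nat_lit 502) (nat_lit 1) (nat_lit 207) (nat_lit 177) (nat_lit 186)) (PT.lf (nat_lit 36708) (nat_lit 6) (nat_lit 483) (nat_lit 1) (nat_lit 208) (nat_lit 177) (nat_lit 185))) (PT.nd (nat_lit 78) (PT.lf (nat_lit 35188) (nat_lit 6) (nat_lit 463) (nat_lit 1) (nat_lit 209) (nat_lit 177) (nat_lit 184)) (PT.lf (nat_lit 33592) (nat_lit 6) (nat_lit 442) (nat_lit 1) (nat_lit 210) (nat_lit 177) (nat_lit 183))))) (PT.nd (nat_lit 57096) (PT.nd (nat_lit 56940) (PT.nd (nat_lit 78) (PT.lf (nat_lit 31920) (nat_lit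 6) (nat_lit 420) (nat_lit 1) (nat_lit 211) (nat_lit 177) (nat_lit 182)) (PT.lf (nat_lit 30172) (nat_lit 6) (nat_lit 397) (nat_lit 1) (nat_lit 212) (nat_lit 177) (nat_lit 181))) (PT.nd (nat_lit 78) (PT.lf (nat_lit 30096) (nat_lit 6) (nat_lit 396) (nat_lit 3) (nat_lit 180) (nat_lit 178) (nat_lit 212)) (PT.lf (nat_lit 31844) (nat_lit 6) (nat_lit 419) (nat_lit 3) (nat_lit 181) (nat_lit 178) (nat_lit 211)))) (PT.nd (nat_lit 156) (PT.nd (nat_lit 78) (PT.lf (nat_lit 33516) (nat_lit 6) (nat_lit 441) (nat_lit 3) (nat_lit 182) (nat_lit 178) (nat_lit 210)) (PT.lf (nat_lit 35112) (nat_lit 6) (nat_lit 462) (nat_lit 3) (nat_lit 183) (nat_lit 178) (nat_lit 209))) (PT.nd (nat_lit 78) (PT.lf (nat_lit 36632) (nat_lit 6) (nat_lit 482) (nat_lit 3) (nat_lit 184) (nat_lit 178) (nat_lit 208)) (PT.lf (nat_lit 38076) (nat_lit 6) (nat_lit 501) (nat_lit 3) (nat_lit 185) (nat_lit 178) (nat_lit 207))))))) (PT.nd (nat_lit 1170) (PT.nd (nat_lit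 546) (PT.nd (nat_lit 234) (PT.nd (nat_lit 78) (PT.lf (nat_lit 39444) (nat_lit 6) (nat_lit 519) (nat_lit 3) (nat_lit 186) (nat_lit 178) (nat_lit 206)) (PT.nd (nat_lit 78) (PT.lf (nat_lit 40736) (nat_lit 6) (nat_lit 536) (nat_lit 3) (nat_lit 187) (nat_lit 178) (nat_lit 205)) (PT.lf (nat_lit 41952) (nat_lit 6) (nat_lit 552) (nat_lit 3) (nat_lit 188) (nat_lit 178) (nat_lit 204)))) (PT.nd (nat_lit 156) (PT.nd (nat_lit 78) (PT.lf (nat_lit 43092) (nat_lit 6) (nat_lit 567) (nat_lit 3) (nat_lit 189) (nat_lit 178) (nat_lit 203)) (PT.lf (nat_lit 44156) (nat_lit 6) (nat_lit 581) (nat_lit 3) (nat_lit 190) (nat_lit 178) (nat_lit 202))) (PT.nd (nat_lit 78) (PT.lf (nat_lit 44232) (nat_lit 6) (nat_lit 582) (nat_lit 3) (nat_lit 191) (nat_lit 178) (nat_lit 201)) (PT.lf (nat_lit 44308) (nat_lit 6) (nat_lit 583) (nat_lit 3) (nat_lit 192) (nat_lit 178) (nat_lit 200))))) (PT.nd (nat_lit 312) (PT.nd (nat_lit 156) (PT.nd (nat_lit 78) (PT.lf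 (nat_lit 44384) (nat_lit 6) (nat_lit 584) (nat_lit 3) (nat_lit 193) (nat_lit 178) (nat_lit 199)) (PT.lf (nat_lit 44460) (nat_lit 6) (nat_lit 585) (nat_lit 3) (nat_lit 194) (nat_lit 178) (nat_lit 198))) (PT.nd (nat_lit 78) (PT.lf (nat_lit 44536) (nat_lit 6) (nat_lit 586) (nat_lit 3) (nat_lit 195) (nat_lit 178) (nat_lit 197)) (PT.lf (nat_lit 44612) (nat_lit 3) (nat_lit 587) (nat_lit 1) (nat_lit 196) (nat_lit 178) (nat_lit 196)))) (PT.nd (nat_lit 156) (PT.nd (nat_lit 78) (PT.lf (nat_lit 44536) (nat_lit 6) (nat_lit 586) (nat_lit 1) (nat_lit 197) (nat_lit 178) (nat_lit 195)) (PT.lf (nat_lit 44460) (nat_lit 6) (nat_lit 585) (nat_lit 1) (nat_lit 198) (nat_lit 178) (nat_lit 194))) (PT.nd (nat_lit 78) (PT.lf (nat_lit 44384) (nat_lit 6) (nat_lit 584) (nat_lit 1) (nat_lit 199) (nat_lit 178) (nat_lit 193)) (PT.lf (nat_lit 44308) (nat_lit 6) (nat_lit 583) (nat_lit 1) (nat_lit 200) (nat_lit 178) (nat_lit 192)))))) (PT.nd (nat_lit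 546) (PT.nd (nat_lit 234) (PT.nd (nat_lit 78) (PT.lf (nat_lit 44232) (nat_lit 6) (nat_lit 582) (nat_lit 1) (nat_lit 201) (nat_lit 178) (nat_lit 191)) (PT.nd (nat_lit 78) (PT.lf (nat_lit 44156) (nat_lit 6) (nat_lit 581) (nat_lit 1) (nat_lit 202) (nat_lit 178) (nat_lit 190)) (PT.lf (nat_lit 43092) (nat_lit 6) (nat_lit 567) (nat_lit 1) (nat_lit 203) (nat_lit 178) (nat_lit 189)))) (PT.nd (nat_lit 156) (PT.nd (nat_lit 78) (PT.lf (nat_lit 41952) (nat_lit 6) (nat_lit 552) (nat_lit 1) (nat_lit 204) (nat_lit 178) (nat_lit 188)) (PT.lf (nat_lit 40736) (nat_lit 6) (nat_lit 536) (nat_lit 1) (nat_lit 205) (nat_lit 178) (nat_lit 187))) (PT.nd (nat_lit 78) (PT.lf (nat_lit 39444) (nat_lit 6) (nat_lit 519) (nat_lit 1) (nat_lit 206) (nat_lit 178) (nat_lit 186)) (PT.lf (nat_lit 38076) (nat_lit 6) (nat_lit 501) (nat_lit 1) (nat_lit 207) (nat_lit 178) (nat_lit 185))))) (PT.nd (nat_lit 312) (PT.nd (nat_lit 156) (PT.nd (nat_lit 78) (PT.lf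 (nat_lit 36632) (nat_lit 6) (nat_lit 482) (nat_lit 1) (nat_lit 208) (nat_lit 178) (nat_lit 184)) (PT.lf (nat_lit 35112) (nat_lit 6) (nat_lit 462) (nat_lit 1) (nat_lit 209) (nat_lit 178) (nat_lit 183))) (PT.nd (nat_lit 78) (PT.lf (nat_lit 33516) (nat_lit 6) (nat_lit 441) (nat_lit 1) (nat_lit 210) (nat_lit 178) (nat_lit 182)) (PT.lf (nat_lit 31844) (nat_lit 6) (nat_lit 419) (nat_lit 1) (nat_lit 211) (nat_lit 178) (nat_lit 181)))) (PT.nd (nat_lit 56862) (PT.nd (nat_lit 56784) (PT.lf (nat_lit 30096) (nat_lit 6) (nat_lit 396) (nat_lit 1) (nat_lit 212) (nat_lit 178) (nat_lit 180)) (PT.lf (nat_lit 30020) (nat_lit 3) (nat_lit 395) (nat_lit 3) (nat_lit 179) (nat_lit 179) (nat_lit 212))) (PT.nd (nat_lit 78) (PT.lf (nat_lit 31768) (nat_lit 6) (nat_lit 418) (nat_lit 3) (nat_lit 180) (nat_lit 179) (nat_lit 211)) (PT.lf (nat_lit 33440) (nat_lit 6) (nat_lit 440) (nat_lit 3) (nat_lit 181) (nat_lit 179) (nat_lit 210))))))))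
noncomputable def pc18 : PT := (PT.nd (nat_lit 2262) (PT.nd (nat_lit 1092) (PT.nd (nat_lit 546) (PT.nd (nat_lit 234) (PT.nd (nat_lit 78) (PT.lf (nat_lit 35036) (nat_lit 6) (nat_lit 461) (nat_lit 3) (nat_lit 182) (nat_lit 179) (nat_lit 209)) (PT.nd (nat_lit 78) (PT.lf (nat_lit 36556) (nat_lit 6) (nat_lit 481) (nat_lit 3) (nat_lit 183) (nat_lit 179) (nat_lit 208)) (PT.lf (nat_lit 38000) (nat_lit 6) (nat_lit 500) (nat_lit 3) (nat_lit 184) (nat_lit 179) (nat_lit 207)))) (PT.nd (nat_lit 156) (PT.nd (nat_lit 78) (PT.lf (nat_lit 39368) (nat_lit 6) (nat_lit 518) (nat_lit 3) (nat_lit 185) (nat_lit 179) (nat_lit 206)) (PT.lf (nat_lit 40660) (nat_lit 6) (nat_lit 535) (nat_lit 3) (nat_lit 186) (nat_lit 179) (nat_lit 205))) (PT.nd (nat_lit 78) (PT.lf (nat_lit 41876) (nat_lit 6) (nat_lit 551) (nat_lit 3) (nat_lit 187) (nat_lit 179) (nat_lit 204)) (PT.lf (nat_lit 43016) (nat_lit 6) (nat_lit 566) (nat_lit 3) (nat_lit 188) (nat_lit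 179) (nat_lit 203))))) (PT.nd (nat_lit 234) (PT.nd (nat_lit 78) (PT.lf (nat_lit 44080) (nat_lit 6) (nat_lit 580) (nat_lit 3) (nat_lit 189) (nat_lit 179) (nat_lit 202)) (PT.nd (nat_lit 78) (PT.lf (nat_lit 45068) (nat_lit 6) (nat_lit 593) (nat_lit 3) (nat_lit 190) (nat_lit 179) (nat_lit 201)) (PT.lf (nat_lit 45144) (nat_lit 6) (nat_lit 594) (nat_lit 3) (nat_lit 191) (nat_lit 179) (nat_lit 200)))) (PT.nd (nat_lit 156) (PT.nd (nat_lit 78) (PT.lf (nat_lit 45220) (nat_lit 6) (nat_lit 595) (nat_lit 3) (nat_lit 192) (nat_lit 179) (nat_lit 199)) (PT.lf (nat_lit 45296) (nat_lit 6) (nat_lit 596) (nat_lit 3) (nat_lit 193) (nat_lit 179) (nat_lit 198))) (PT.nd (nat_lit 78) (PT.lf (nat_lit 45372) (nat_lit 6) (nat_lit 597) (nat_lit 3) (nat_lit 194) (nat_lit 179) (nat_lit 197)) (PT.lf (nat_lit 45448) (nat_lit 6) (nat_lit 598) (nat_lit 3) (nat_lit 195) (nat_lit 179) (nat_lit 196)))))) (PT.nd (nat_lit 546) (PT.nd (nat_lit 234) (PT.nd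 (nat_lit 78) (PT.lf (nat_lit 45448) (nat_lit 6) (nat_lit 598) (nat_lit 1) (nat_lit 196) (nat_lit 179) (nat_lit 195)) (PT.nd (nat_lit 78) (PT.lf (nat_lit 45372) (nat_lit 6) (nat_lit 597) (nat_lit 1) (nat_lit 197) (nat_lit 179) (nat_lit 194)) (PT.lf (nat_lit 45296) (nat_lit 6) (nat_lit 596) (nat_lit 1) (nat_lit 198) (nat_lit 179) (nat_lit 193)))) (PT.nd (nat_lit 156) (PT.nd (nat_lit 78) (PT.lf (nat_lit 45220) (nat_lit 6) (nat_lit 595) (nat_lit 1) (nat_lit 199) (nat_lit 179) (nat_lit 192)) (PT.lf (nat_lit 45144) (nat_lit 6) (nat_lit 594) (nat_lit 1) (nat_lit 200) (nat_lit 179) (nat_lit 191))) (PT.nd (nat_lit 78) (PT.lf (nat_lit 45068) (nat_lit 6) (nat_lit 593) (nat_lit 1) (nat_lit 201) (nat_lit 179) (nat_lit 190)) (PT.lf (nat_lit 44080) (nat_lit 6) (nat_lit 580) (nat_lit 1) (nat_lit 202) (nat_lit 179) (nat_lit 189))))) (PT.nd (nat_lit 312) (PT.nd (nat_lit 156) (PT.nd (nat_lit 78) (PT.lf (nat_lit 43016) (nat_lit 6)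 (nat_lit 566) (nat_lit 1) (nat_lit 203) (nat_lit 179) (nat_lit 188)) (PT.lf (nat_lit 41876) (nat_lit 6) (nat_lit 551) (nat_lit 1) (nat_lit 204) (nat_lit 179) (nat_lit 187))) (PT.nd (nat_lit 78) (PT.lf (nat_lit 40660) (nat_lit 6) (nat_lit 535) (nat_lit 1) (nat_lit 205) (nat_lit 179) (nat_lit 186)) (PT.lf (nat_lit 39368) (nat_lit 6) (nat_lit 518) (nat_lit 1) (nat_lit 206) (nat_lit 179) (nat_lit 185)))) (PT.nd (nat_lit 156) (PT.nd (nat_lit 78) (PT.lf (nat_lit 38000) (nat_lit 6) (nat_lit 500) (nat_lit 1) (nat_lit 207) (nat_lit 179) (nat_lit 184)) (PT.lf (nat_lit 36556) (nat_lit 6) (nat_lit 481) (nat_lit 1) (nat_lit 208) (nat_lit 179) (nat_lit 183))) (PT.nd (nat_lit 78) (PT.lf (nat_lit 35036) (nat_lit 6) (nat_lit 461) (nat_lit 1) (nat_lit 209) (nat_lit 179) (nat_lit 182)) (PT.lf (nat_lit 33440) (nat_lit 6) (nat_lit 440) (nat_lit 1) (nat_lit 210) (nat_lit 179) (nat_lit 181))))))) (PT.nd (nat_lit 57720) (PT.nd (nat_lit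 57174) (PT.nd (nat_lit 56862) (PT.nd (nat_lit 78) (PT.lf (nat_lit 31768) (nat_lit 6) (nat_lit 418) (nat_lit 1) (nat_lit 211) (nat_lit 179) (nat_lit 180)) (PT.nd (nat_lit 56706) (PT.lf (nat_lit 30020) (nat_lit 3) (nat_lit 395) (nat_lit 0) (nat_lit 212) (nat_lit 179) (nat_lit 179)) (PT.lf (nat_lit 30096) (nat_lit 6) (nat_lit 396) (nat_lit 5) (nat_lit 178) (nat_lit 180) (nat_lit 212)))) (PT.nd (nat_lit 156) (PT.nd (nat_lit 78) (PT.lf (nat_lit 31768) (nat_lit 6) (nat_lit 418) (nat_lit 5) (nat_lit 179) (nat_lit 180) (nat_lit 211)) (PT.lf (nat_lit 33364) (nat_lit 3) (nat_lit 439) (nat_lit 3) (nat_lit 180) (nat_lit 180) (nat_lit 210))) (PT.nd (nat_lit 78) (PT.lf (nat_lit 34960) (nat_lit 6) (nat_lit 460) (nat_lit 3) (nat_lit 181) (nat_lit 180) (nat_lit 209)) (PT.lf (nat_lit 36480) (nat_lit 6) (nat_lit 480) (nat_lit 3) (nat_lit 182) (nat_lit 180) (nat_lit 208))))) (PT.nd (nat_lit 234) (PT.nd (nat_lit 78) (PT.lf (nat_lit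 37924) (nat_lit 6) (nat_lit 499) (nat_lit 3) (nat_lit 183) (nat_lit 180) (nat_lit 207)) (PT.nd (nat_lit 78) (PT.lf (nat_lit 39292) (nat_lit 6) (nat_lit 517) (nat_lit 3) (nat_lit 184) (nat_lit 180) (nat_lit 206)) (PT.lf (nat_lit 40584) (nat_lit 6) (nat_lit 534) (nat_lit 3) (nat_lit 185) (nat_lit 180) (nat_lit 205)))) (PT.nd (nat_lit 156) (PT.nd (nat_lit 78) (PT.lf (nat_lit 41800) (nat_lit 6) (nat_lit 550) (nat_lit 3) (nat_lit 186) (nat_lit 180) (nat_lit 204)) (PT.lf (nat_lit 42940) (nat_lit 6) (nat_lit 565) (nat_lit 3) (nat_lit 187) (nat_lit 180) (nat_lit 203))) (PT.nd (nat_lit 78) (PT.lf (nat_lit 44004) (nat_lit 6) (nat_lit 579) (nat_lit 3) (nat_lit 188) (nat_lit 180) (nat_lit 202)) (PT.lf (nat_lit 44992) (nat_lit 6) (nat_lit 592) (nat_lit 3) (nat_lit 189) (nat_lit 180) (nat_lit 201)))))) (PT.nd (nat_lit 546) (PT.nd (nat_lit 234) (PT.nd (nat_lit 78) (PT.lf (nat_lit 45904) (nat_lit 6) (nat_lit 604) (nat_lit 3) (nat_lit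 190) (nat_lit 180) (nat_lit 200)) (PT.nd (nat_lit 78) (PT.lf (nat_lit 45980) (nat_lit 6) (nat_lit 605) (nat_lit 3) (nat_lit 191) (nat_lit 180) (nat_lit 199)) (PT.lf (nat_lit 46056) (nat_lit 6) (nat_lit 606) (nat_lit 3) (nat_lit 192) (nat_lit 180) (nat_lit 198)))) (PT.nd (nat_lit 156) (PT.nd (nat_lit 78) (PT.lf (nat_lit 46132) (nat_lit 6) (nat_lit 607) (nat_lit 3) (nat_lit 193) (nat_lit 180) (nat_lit 197)) (PT.lf (nat_lit 46208) (nat_lit 6) (nat_lit 608) (nat_lit 3) (nat_lit 194) (nat_lit 180) (nat_lit 196))) (PT.nd (nat_lit 78) (PT.lf (nat_lit 46284) (nat_lit 3) (nat_lit 609) (nat_lit 1) (nat_lit 195) (nat_lit 180) (nat_lit 195)) (PT.lf (nat_lit 46208) (nat_lit 6) (nat_lit 608) (nat_lit 1) (nat_lit 196) (nat_lit 180) (nat_lit 194))))) (PT.nd (nat_lit 312) (PT.nd (nat_lit 156) (PT.nd (nat_lit 78) (PT.lf (nat_lit 46132) (nat_lit 6) (nat_lit 607) (nat_lit 1) (nat_lit 197) (nat_lit 180) (nat_lit 193)) (PT.lf (nat_lit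 46056) (nat_lit 6) (nat_lit 606) (nat_lit 1) (nat_lit 198) (nat_lit 180) (nat_lit 192))) (PT.nd (nat_lit 78) (PT.lf (nat_lit 45980) (nat_lit 6) (nat_lit 605) (nat_lit 1) (nat_lit 199) (nat_lit 180) (nat_lit 191)) (PT.lf (nat_lit 45904) (nat_lit 6) (nat_lit 604) (nat_lit 1) (nat_lit 200) (nat_lit 180) (nat_lit 190)))) (PT.nd (nat_lit 156) (PT.nd (nat_lit 78) (PT.lf (nat_lit 44992) (nat_lit 6) (nat_lit 592) (nat_lit 1) (nat_lit 201) (nat_lit 180) (nat_lit 189)) (PT.lf (nat_lit 44004) (nat_lit 6) (nat_lit 579) (nat_lit 1) (nat_lit 202) (nat_lit 180) (nat_lit 188))) (PT.nd (nat_lit 78) (PT.lf (nat_lit 42940) (nat_lit 6) (nat_lit 565) (nat_lit 1) (nat_lit 203) (nat_lit 180) (nat_lit 187)) (PT.lf (nat_lit 41800) (nat_lit 6) (nat_lit 550) (nat_lit 1) (nat_lit 204) (nat_lit 180) (nat_lit 186))))))))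
noncomputable def pc19 : PT := (PT.nd (nat_lit 58812) (PT.nd (nat_lit 57642) (PT.nd (nat_lit 546) (PT.nd (nat_lit 234) (PT.nd (nat_lit 78) (PT.lf (nat_lit 40584) (nat_lit 6) (nat_lit 534) (nat_lit 1) (nat_lit 205) (nat_lit 180) (nat_lit 185)) (PT.nd (nat_lit 78) (PT.lf (nat_lit 39292) (nat_lit 6) (nat_lit 517) (nat_lit 1) (nat_lit 206) (nat_lit 180) (nat_lit 184)) (PT.lf (nat_lit 37924) (nat_lit 6) (nat_lit 499) (nat_lit 1) (nat_lit 207) (nat_lit 180) (nat_lit 183)))) (PT.nd (nat_lit 156) (PT.nd (nat_lit 78) (PT.lf (nat_lit 36480) (nat_lit 6) (nat_lit 480) (nat_lit 1) (nat_lit 208) (nat_lit 180) (nat_lit 182)) (PT.lf (nat_lit 34960) (nat_lit 6) (nat_lit 460) (nat_lit 1) (nat_lit 209) (nat_lit 180) (nat_lit 181))) (PT.nd (nat_lit 78) (PT.lf (nat_lit 33364) (nat_lit 3) (nat_lit 439) (nat_lit 0) (nat_lit 210) (nat_lit 180) (nat_lit 180)) (PT.lf (nat_lit 31768) (nat_lit 6) (nat_lit 418) (nat_lit 0) (nat_lit 211) (nat_lit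 180) (nat_lit 179))))) (PT.nd (nat_lit 56784) (PT.nd (nat_lit 56628) (PT.lf (nat_lit 30096) (nat_lit 6) (nat_lit 396) (nat_lit 0) (nat_lit 212) (nat_lit 180) (nat_lit 178)) (PT.nd (nat_lit 78) (PT.lf (nat_lit 30172) (nat_lit 6) (nat_lit 397) (nat_lit 5) (nat_lit 177) (nat_lit 181) (nat_lit 212)) (PT.lf (nat_lit 31844) (nat_lit 6) (nat_lit 419) (nat_lit 5) (nat_lit 178) (nat_lit 181) (nat_lit 211)))) (PT.nd (nat_lit 156) (PT.nd (nat_lit 78) (PT.lf (nat_lit 33440) (nat_lit 6) (nat_lit 440) (nat_lit 5) (nat_lit 179) (nat_lit 181) (nat_lit 210)) (PT.lf (nat_lit 34960) (nat_lit 6) (nat_lit 460) (nat_lit 5) (nat_lit 180) (nat_lit 181) (nat_lit 209))) (PT.nd (nat_lit 78) (PT.lf (nat_lit 36404) (nat_lit 3) (nat_lit 479) (nat_lit 3) (nat_lit 181) (nat_lit 181) (nat_lit 208)) (PT.lf (nat_lit 37848) (nat_lit 6) (nat_lit 498) (nat_lit 3) (nat_lit 182) (nat_lit 181) (nat_lit 207)))))) (PT.nd (nat_lit 546) (PT.nd (nat_lit 234)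 (PT.nd (nat_lit 78) (PT.lf (nat_lit 39216) (nat_lit 6) (nat_lit 516) (nat_lit 3) (nat_lit 183) (nat_lit 181) (nat_lit 206)) (PT.nd (nat_lit 78) (PT.lf (nat_lit 40508) (nat_lit 6) (nat_lit 533) (nat_lit 3) (nat_lit 184) (nat_lit 181) (nat_lit 205)) (PT.lf (nat_lit 41724) (nat_lit 6) (nat_lit 549) (nat_lit 3) (nat_lit 185) (nat_lit 181) (nat_lit 204)))) (PT.nd (nat_lit 156) (PT.nd (nat_lit 78) (PT.lf (nat_lit 42864) (nat_lit 6) (nat_lit 564) (nat_lit 3) (nat_lit 186) (nat_lit 181) (nat_lit 203)) (PT.lf (nat_lit 43928) (nat_lit 6) (nat_lit 578) (nat_lit 3) (nat_lit 187) (nat_lit 181) (nat_lit 202))) (PT.nd (nat_lit 78) (PT.lf (nat_lit 44916) (nat_lit 6) (nat_lit 591) (nat_lit 3) (nat_lit 188) (nat_lit 181) (nat_lit 201)) (PT.lf (nat_lit 45828) (nat_lit 6) (nat_lit 603) (nat_lit 3) (nat_lit 189) (nat_lit 181) (nat_lit 200))))) (PT.nd (nat_lit 312) (PT.nd (nat_lit 156) (PT.nd (nat_lit 78) (PT.lf (nat_lit 46664) (nat_lit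 6) (nat_lit 614) (nat_lit 3) (nat_lit 190) (nat_lit 181) (nat_lit 199)) (PT.lf (nat_lit 46740) (nat_lit 6) (nat_lit 615) (nat_lit 3) (nat_lit 191) (nat_lit 181) (nat_lit 198))) (PT.nd (nat_lit 78) (PT.lf (nat_lit 46816) (nat_lit 6) (nat_lit 616) (nat_lit 3) (nat_lit 192) (nat_lit 181) (nat_lit 197)) (PT.lf (nat_lit 46892) (nat_lit 6) (nat_lit 617) (nat_lit 3) (nat_lit 193) (nat_lit 181) (nat_lit 196)))) (PT.nd (nat_lit 156) (PT.nd (nat_lit 78) (PT.lf (nat_lit 46968) (nat_lit 6) (nat_lit 618) (nat_lit 3) (nat_lit 194) (nat_lit 181) (nat_lit 195)) (PT.lf (nat_lit 46968) (nat_lit 6) (nat_lit 618) (nat_lit 1) (nat_lit 195) (nat_lit 181) (nat_lit 194))) (PT.nd (nat_lit 78) (PT.lf (nat_lit 46892) (nat_lit 6) (nat_lit 617) (nat_lit 1) (nat_lit 196) (nat_lit 181) (nat_lit 193)) (PT.lf (nat_lit 46816) (nat_lit 6) (nat_lit 616) (nat_lit 1) (nat_lit 197) (nat_lit 181) (nat_lit 192))))))) (PT.nd (nat_lit 57642) (PT.nd (nat_lit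 546) (PT.nd (nat_lit 234) (PT.nd (nat_lit 78) (PT.lf (nat_lit 46740) (nat_lit 6) (nat_lit 615) (nat_lit 1) (nat_lit 198) (nat_lit 181) (nat_lit 191)) (PT.nd (nat_lit 78) (PT.lf (nat_lit 46664) (nat_lit 6) (nat_lit 614) (nat_lit 1) (nat_lit 199) (nat_lit 181) (nat_lit 190)) (PT.lf (nat_lit 45828) (nat_lit 6) (nat_lit 603) (nat_lit 1) (nat_lit 200) (nat_lit 181) (nat_lit 189)))) (PT.nd (nat_lit 156) (PT.nd (nat_lit 78) (PT.lf (nat_lit 44916) (nat_lit 6) (nat_lit 591) (nat_lit 1) (nat_lit 201) (nat_lit 181) (nat_lit 188)) (PT.lf (nat_lit 43928) (nat_lit 6) (nat_lit 578) (nat_lit 1) (nat_lit 202) (nat_lit 181) (nat_lit 187))) (PT.nd (nat_lit 78) (PT.lf (nat_lit 42864) (nat_lit 6) (nat_lit 564) (nat_lit 1) (nat_lit 203) (nat_lit 181) (nat_lit 186)) (PT.lf (nat_lit 41724) (nat_lit 6) (nat_lit 549) (nat_lit 1) (nat_lit 204) (nat_lit 181) (nat_lit 185))))) (PT.nd (nat_lit 312) (PT.nd (nat_lit 156) (PT.nd (nat_lit 78) (PT.lf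 (nat_lit 40508) (nat_lit 6) (nat_lit 533) (nat_lit 1) (nat_lit 205) (nat_lit 181) (nat_lit 184)) (PT.lf (nat_lit 39216) (nat_lit 6) (nat_lit 516) (nat_lit 1) (nat_lit 206) (nat_lit 181) (nat_lit 183))) (PT.nd (nat_lit 78) (PT.lf (nat_lit 37848) (nat_lit 6) (nat_lit 498) (nat_lit 1) (nat_lit 207) (nat_lit 181) (nat_lit 182)) (PT.lf (nat_lit 36404) (nat_lit 3) (nat_lit 479) (nat_lit 0) (nat_lit 208) (nat_lit 181) (nat_lit 181)))) (PT.nd (nat_lit 156) (PT.nd (nat_lit 78) (PT.lf (nat_lit 34960) (nat_lit 6) (nat_lit 460) (nat_lit 0) (nat_lit 209) (nat_lit 181) (nat_lit 180)) (PT.lf (nat_lit 33440) (nat_lit 6) (nat_lit 440) (nat_lit 0) (nat_lit 210) (nat_lit 181) (nat_lit 179))) (PT.nd (nat_lit 78) (PT.lf (nat_lit 31844) (nat_lit 6) (nat_lit 419) (nat_lit 0) (nat_lit 211) (nat_lit 181) (nat_lit 178)) (PT.lf (nat_lit 30172) (nat_lit 6) (nat_lit 397) (nat_lit 0) (nat_lit 212) (nat_lit 181) (nat_lit 177)))))) (PT.nd (nat_lit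 546) (PT.nd (nat_lit 234) (PT.nd (nat_lit 78) (PT.lf (nat_lit 30248) (nat_lit 6) (nat_lit 398) (nat_lit 5) (nat_lit 176) (nat_lit 182) (nat_lit 212)) (PT.nd (nat_lit 78) (PT.lf (nat_lit 31920) (nat_lit 6) (nat_lit 420) (nat_lit 5) (nat_lit 177) (nat_lit 182) (nat_lit 211)) (PT.lf (nat_lit 33516) (nat_lit 6) (nat_lit 441) (nat_lit 5) (nat_lit 178) (nat_lit 182) (nat_lit 210)))) (PT.nd (nat_lit 156) (PT.nd (nat_lit 78) (PT.lf (nat_lit 35036) (nat_lit 6) (nat_lit 461) (nat_lit 5) (nat_lit 179) (nat_lit 182) (nat_lit 209)) (PT.lf (nat_lit 36480) (nat_lit 6) (nat_lit 480) (nat_lit 5) (nat_lit 180) (nat_lit 182) (nat_lit 208))) (PT.nd (nat_lit 78) (PT.lf (nat_lit 37848) (nat_lit 6) (nat_lit 498) (nat_lit 5) (nat_lit 181) (nat_lit 182) (nat_lit 207)) (PT.lf (nat_lit 39140) (nat_lit 3) (nat_lit 515) (nat_lit 3) (nat_lit 182) (nat_lit 182) (nat_lit 206))))) (PT.nd (nat_lit 312) (PT.nd (nat_lit 156) (PT.nd (nat_lit 78) (PT.lf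 (nat_lit 40432) (nat_lit 6) (nat_lit 532) (nat_lit 3) (nat_lit 183) (nat_lit 182) (nat_lit 205)) (PT.lf (nat_lit 41648) (nat_lit 6) (nat_lit 548) (nat_lit 3) (nat_lit 184) (nat_lit 182) (nat_lit 204))) (PT.nd (nat_lit 78) (PT.lf (nat_lit 42788) (nat_lit 6) (nat_lit 563) (nat_lit 3) (nat_lit 185) (nat_lit 182) (nat_lit 203)) (PT.lf (nat_lit 43852) (nat_lit 6) (nat_lit 577) (nat_lit 3) (nat_lit 186) (nat_lit 182) (nat_lit 202)))) (PT.nd (nat_lit 156) (PT.nd (nat_lit 78) (PT.lf (nat_lit 44840) (nat_lit 6) (nat_lit 590) (nat_lit 3) (nat_lit 187) (nat_lit 182) (nat_lit 201)) (PT.lf (nat_lit 45752) (nat_lit 6) (nat_lit 602) (nat_lit 3) (nat_lit 188) (nat_lit 182) (nat_lit 200))) (PT.nd (nat_lit 78) (PT.lf (nat_lit 46588) (nat_lit 6) (nat_lit 613) (nat_lit 3) (nat_lit 189) (nat_lit 182) (nat_lit 199)) (PT.lf (nat_lit 47348) (nat_lit 6) (nat_lit 623) (nat_lit 3) (nat_lit 190) (nat_lit 182) (nat_lit 198))))))))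
noncomputable def pc20 : PT := (PT.nd (nat_lit 58578) (PT.nd (nat_lit 1092) (PT.nd (nat_lit 546) (PT.nd (nat_lit 234) (PT.nd (nat_lit 78) (PT.lf (nat_lit 47424) (nat_lit 6) (nat_lit 624) (nat_lit 3) (nat_lit 191) (nat_lit 182) (nat_lit 197)) (PT.nd (nat_lit 78) (PT.lf (nat_lit 47500) (nat_lit 6) (nat_lit 625) (nat_lit 3) (nat_lit 192) (nat_lit 182) (nat_lit 196)) (PT.lf (nat_lit 47576) (nat_lit 6) (nat_lit 626) (nat_lit 3) (nat_lit 193) (nat_lit 182) (nat_lit 195)))) (PT.nd (nat_lit 156) (PT.nd (nat_lit 78) (PT.lf (nat_lit 47652) (nat_lit 3) (nat_lit 627) (nat_lit 1) (nat_lit 194) (nat_lit 182) (nat_lit 194)) (PT.lf (nat_lit 47576) (nat_lit 6) (nat_lit 626) (nat_lit 1) (nat_lit 195) (nat_lit 182) (nat_lit 193))) (PT.nd (nat_lit 78) (PT.lf (nat_lit 47500) (nat_lit 6) (nat_lit 625) (nat_lit 1) (nat_lit 196) (nat_lit 182) (nat_lit 192)) (PT.lf (nat_lit 47424) (nat_lit 6) (nat_lit 624) (nat_lit 1) (nat_lit 197) (nat_lit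 182) (nat_lit 191))))) (PT.nd (nat_lit 234) (PT.nd (nat_lit 78) (PT.lf (nat_lit 47348) (nat_lit 6) (nat_lit 623) (nat_lit 1) (nat_lit 198) (nat_lit 182) (nat_lit 190)) (PT.nd (nat_lit 78) (PT.lf (nat_lit 46588) (nat_lit 6) (nat_lit 613) (nat_lit 1) (nat_lit 199) (nat_lit 182) (nat_lit 189)) (PT.lf (nat_lit 45752) (nat_lit 6) (nat_lit 602) (nat_lit 1) (nat_lit 200) (nat_lit 182) (nat_lit 188)))) (PT.nd (nat_lit 156) (PT.nd (nat_lit 78) (PT.lf (nat_lit 44840) (nat_lit 6) (nat_lit 590) (nat_lit 1) (nat_lit 201) (nat_lit 182) (nat_lit 187)) (PT.lf (nat_lit 43852) (nat_lit 6) (nat_lit 577) (nat_lit 1) (nat_lit 202) (nat_lit 182) (nat_lit 186))) (PT.nd (nat_lit 78) (PT.lf (nat_lit 42788) (nat_lit 6) (nat_lit 563) (nat_lit 1) (nat_lit 203) (nat_lit 182) (nat_lit 185)) (PT.lf (nat_lit 41648) (nat_lit 6) (nat_lit 548) (nat_lit 1) (nat_lit 204) (nat_lit 182) (nat_lit 184)))))) (PT.nd (nat_lit 546) (PT.nd (nat_lit 234) (PT.nd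 (nat_lit 78) (PT.lf (nat_lit 40432) (nat_lit 6) (nat_lit 532) (nat_lit 1) (nat_lit 205) (nat_lit 182) (nat_lit 183)) (PT.nd (nat_lit 78) (PT.lf (nat_lit 39140) (nat_lit 3) (nat_lit 515) (nat_lit 0) (nat_lit 206) (nat_lit 182) (nat_lit 182)) (PT.lf (nat_lit 37848) (nat_lit 6) (nat_lit 498) (nat_lit 0) (nat_lit 207) (nat_lit 182) (nat_lit 181)))) (PT.nd (nat_lit 156) (PT.nd (nat_lit 78) (PT.lf (nat_lit 36480) (nat_lit 6) (nat_lit 480) (nat_lit 0) (nat_lit 208) (nat_lit 182) (nat_lit 180)) (PT.lf (nat_lit 35036) (nat_lit 6) (nat_lit 461) (nat_lit 0) (nat_lit 209) (nat_lit 182) (nat_lit 179))) (PT.nd (nat_lit 78) (PT.lf (nat_lit 33516) (nat_lit 6) (nat_lit 441) (nat_lit 0) (nat_lit 210) (nat_lit 182) (nat_lit 178)) (PT.lf (nat_lit 31920) (nat_lit 6) (nat_lit 420) (nat_lit 0) (nat_lit 211) (nat_lit 182) (nat_lit 177))))) (PT.nd (nat_lit 56628) (PT.nd (nat_lit 56472) (PT.nd (nat_lit 56394) (PT.lf (nat_lit 30248) (nat_lit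 6) (nat_lit 398) (nat_lit 0) (nat_lit 212) (nat_lit 182) (nat_lit 176)) (PT.lf (nat_lit 28576) (nat_lit 6) (nat_lit 376) (nat_lit 5) (nat_lit 174) (nat_lit 183) (nat_lit 213))) (PT.nd (nat_lit 78) (PT.lf (nat_lit 30324) (nat_lit 6) (nat_lit 399) (nat_lit 5) (nat_lit 175) (nat_lit 183) (nat_lit 212)) (PT.lf (nat_lit 31996) (nat_lit 6) (nat_lit 421) (nat_lit 5) (nat_lit 176) (nat_lit 183) (nat_lit 211)))) (PT.nd (nat_lit 156) (PT.nd (nat_lit 78) (PT.lf (nat_lit 33592) (nat_lit 6) (nat_lit 442) (nat_lit 5) (nat_lit 177) (nat_lit 183) (nat_lit 210)) (PT.lf (nat_lit 35112) (nat_lit 6) (nat_lit 462) (nat_lit 5) (nat_lit 178) (nat_lit 183) (nat_lit 209))) (PT.nd (nat_lit 78) (PT.lf (nat_lit 36556) (nat_lit 6) (nat_lit 481) (nat_lit 5) (nat_lit 179) (nat_lit 183) (nat_lit 208)) (PT.lf (nat_lit 37924) (nat_lit 6) (nat_lit 499) (nat_lit 5) (nat_lit 180) (nat_lit 183) (nat_lit 207))))))) (PT.nd (nat_lit 1092) (PT.nd (nat_lit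 546) (PT.nd (nat_lit 234) (PT.nd (nat_lit 78) (PT.lf (nat_lit 39216) (nat_lit 6) (nat_lit 516) (nat_lit 5) (nat_lit 181) (nat_lit 183) (nat_lit 206)) (PT.nd (nat_lit 78) (PT.lf (nat_lit 40432) (nat_lit 6) (nat_lit 532) (nat_lit 5) (nat_lit 182) (nat_lit 183) (nat_lit 205)) (PT.lf (nat_lit 41572) (nat_lit 3) (nat_lit 547) (nat_lit 3) (nat_lit 183) (nat_lit 183) (nat_lit 204)))) (PT.nd (nat_lit 156) (PT.nd (nat_lit 78) (PT.lf (nat_lit 42712) (nat_lit 6) (nat_lit 562) (nat_lit 3) (nat_lit 184) (nat_lit 183) (nat_lit 203)) (PT.lf (nat_lit 43776) (nat_lit 6) (nat_lit 576) (nat_lit 3) (nat_lit 185) (nat_lit 183) (nat_lit 202))) (PT.nd (nat_lit 78) (PT.lf (nat_lit 44764) (nat_lit 6) (nat_lit 589) (nat_lit 3) (nat_lit 186) (nat_lit 183) (nat_lit 201)) (PT.lf (nat_lit 45676) (nat_lit 6) (nat_lit 601) (nat_lit 3) (nat_lit 187) (nat_lit 183) (nat_lit 200))))) (PT.nd (nat_lit 234) (PT.nd (nat_lit 78) (PT.lf (nat_lit 46512)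 (nat_lit 6) (nat_lit 612) (nat_lit 3) (nat_lit 188) (nat_lit 183) (nat_lit 199)) (PT.nd (nat_lit 78) (PT.lf (nat_lit 47272) (nat_lit 6) (nat_lit 622) (nat_lit 3) (nat_lit 189) (nat_lit 183) (nat_lit 198)) (PT.lf (nat_lit 47956) (nat_lit 6) (nat_lit 631) (nat_lit 3) (nat_lit 190) (nat_lit 183) (nat_lit 197)))) (PT.nd (nat_lit 156) (PT.nd (nat_lit 78) (PT.lf (nat_lit 48032) (nat_lit 6) (nat_lit 632) (nat_lit 3) (nat_lit 191) (nat_lit 183) (nat_lit 196)) (PT.lf (nat_lit 48108) (nat_lit 6) (nat_lit 633) (nat_lit 3) (nat_lit 192) (nat_lit 183) (nat_lit 195))) (PT.nd (nat_lit 78) (PT.lf (nat_lit 48184) (nat_lit 6) (nat_lit 634) (nat_lit 3) (nat_lit 193) (nat_lit 183) (nat_lit 194)) (PT.lf (nat_lit 48184) (nat_lit 6) (nat_lit 634) (nat_lit 1) (nat_lit 194) (nat_lit 183) (nat_lit 193)))))) (PT.nd (nat_lit 546) (PT.nd (nat_lit 234) (PT.nd (nat_lit 78) (PT.lf (nat_lit 48108) (nat_lit 6) (nat_lit 633) (nat_lit 1) (nat_lit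 195) (nat_lit 183) (nat_lit 192)) (PT.nd (nat_lit 78) (PT.lf (nat_lit 48032) (nat_lit 6) (nat_lit 632) (nat_lit 1) (nat_lit 196) (nat_lit 183) (nat_lit 191)) (PT.lf (nat_lit 47956) (nat_lit 6) (nat_lit 631) (nat_lit 1) (nat_lit 197) (nat_lit 183) (nat_lit 190)))) (PT.nd (nat_lit 156) (PT.nd (nat_lit 78) (PT.lf (nat_lit 47272) (nat_lit 6) (nat_lit 622) (nat_lit 1) (nat_lit 198) (nat_lit 183) (nat_lit 189)) (PT.lf (nat_lit 46512) (nat_lit 6) (nat_lit 612) (nat_lit 1) (nat_lit 199) (nat_lit 183) (nat_lit 188))) (PT.nd (nat_lit 78) (PT.lf (nat_lit 45676) (nat_lit 6) (nat_lit 601) (nat_lit 1) (nat_lit 200) (nat_lit 183) (nat_lit 187)) (PT.lf (nat_lit 44764) (nat_lit 6) (nat_lit 589) (nat_lit 1) (nat_lit 201) (nat_lit 183) (nat_lit 186))))) (PT.nd (nat_lit 312) (PT.nd (nat_lit 156) (PT.nd (nat_lit 78) (PT.lf (nat_lit 43776) (nat_lit 6) (nat_lit 576) (nat_lit 1) (nat_lit 202) (nat_lit 183) (nat_lit 185)) (PT.lf (nat_lit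 42712) (nat_lit 6) (nat_lit 562) (nat_lit 1) (nat_lit 203) (nat_lit 183) (nat_lit 184))) (PT.nd (nat_lit 78) (PT.lf (nat_lit 41572) (nat_lit 3) (nat_lit 547) (nat_lit 0) (nat_lit 204) (nat_lit 183) (nat_lit 183)) (PT.lf (nat_lit 40432) (nat_lit 6) (nat_lit 532) (nat_lit 0) (nat_lit 205) (nat_lit 183) (nat_lit 182)))) (PT.nd (nat_lit 156) (PT.nd (nat_lit 78) (PT.lf (nat_lit 39216) (nat_lit 6) (nat_lit 516) (nat_lit 0) (nat_lit 206) (nat_lit 183) (nat_lit 181)) (PT.lf (nat_lit 37924) (nat_lit 6) (nat_lit 499) (nat_lit 0) (nat_lit 207) (nat_lit 183) (nat_lit 180))) (PT.nd (nat_lit 78) (PT.lf (nat_lit 36556) (nat_lit 6) (nat_lit 481) (nat_lit 0) (nat_lit 208) (nat_lit 183) (nat_lit 179)) (PT.lf (nat_lit 35112) (nat_lit 6) (nat_lit 462) (nat_lit 0) (nat_lit 209) (nat_lit 183) (nat_lit 178))))))))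
noncomputable def pc21 : PT := (PT.nd (nat_lit 58422) (PT.nd (nat_lit 57252) (PT.nd (nat_lit 56706) (PT.nd (nat_lit 234) (PT.nd (nat_lit 78) (PT.lf (nat_lit 33592) (nat_lit 6) (nat_lit 442) (nat_lit 0) (nat_lit 210) (nat_lit 183) (nat_lit 177)) (PT.nd (nat_lit 78) (PT.lf (nat_lit 31996) (nat_lit 6) (nat_lit 421) (nat_lit 0) (nat_lit 211) (nat_lit 183) (nat_lit 176)) (PT.lf (nat_lit 30324) (nat_lit 6) (nat_lit 399) (nat_lit 0) (nat_lit 212) (nat_lit 183) (nat_lit 175)))) (PT.nd (nat_lit 56316) (PT.nd (nat_lit 56238) (PT.lf (nat_lit 28576) (nat_lit 6) (nat_lit 376) (nat_lit 0) (nat_lit 213) (nat_lit 183) (nat_lit 174)) (PT.lf (nat_lit 28652) (nat_lit 6) (nat_lit 377) (nat_lit 5) (nat_lit 173) (nat_lit 184) (nat_lit 213))) (PT.nd (nat_lit 78) (PT.lf (nat_lit 30400) (nat_lit 6) (nat_lit 400) (nat_lit 5) (nat_lit 174) (nat_lit 184) (nat_lit 212)) (PT.lf (nat_lit 32072) (nat_lit 6) (nat_lit 422) (nat_lit 5) (nat_lit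 175) (nat_lit 184) (nat_lit 211))))) (PT.nd (nat_lit 234) (PT.nd (nat_lit 78) (PT.lf (nat_lit 33668) (nat_lit 6) (nat_lit 443) (nat_lit 5) (nat_lit 176) (nat_lit 184) (nat_lit 210)) (PT.nd (nat_lit 78) (PT.lf (nat_lit 35188) (nat_lit 6) (nat_lit 463) (nat_lit 5) (nat_lit 177) (nat_lit 184) (nat_lit 209)) (PT.lf (nat_lit 36632) (nat_lit 6) (nat_lit 482) (nat_lit 5) (nat_lit 178) (nat_lit 184) (nat_lit 208)))) (PT.nd (nat_lit 156) (PT.nd (nat_lit 78) (PT.lf (nat_lit 38000) (nat_lit 6) (nat_lit 500) (nat_lit 5) (nat_lit 179) (nat_lit 184) (nat_lit 207)) (PT.lf (nat_lit 39292) (nat_lit 6) (nat_lit 517) (nat_lit 5) (nat_lit 180) (nat_lit 184) (nat_lit 206))) (PT.nd (nat_lit 78) (PT.lf (nat_lit 40508) (nat_lit 6) (nat_lit 533) (nat_lit 5) (nat_lit 181) (nat_lit 184) (nat_lit 205)) (PT.lf (nat_lit 41648) (nat_lit 6) (nat_lit 548) (nat_lit 5) (nat_lit 182) (nat_lit 184) (nat_lit 204)))))) (PT.nd (nat_lit 546) (PT.nd (nat_lit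 234) (PT.nd (nat_lit 78) (PT.lf (nat_lit 42712) (nat_lit 6) (nat_lit 562) (nat_lit 5) (nat_lit 183) (nat_lit 184) (nat_lit 203)) (PT.nd (nat_lit 78) (PT.lf (nat_lit 43700) (nat_lit 3) (nat_lit 575) (nat_lit 3) (nat_lit 184) (nat_lit 184) (nat_lit 202)) (PT.lf (nat_lit 44688) (nat_lit 6) (nat_lit 588) (nat_lit 3) (nat_lit 185) (nat_lit 184) (nat_lit 201)))) (PT.nd (nat_lit 156) (PT.nd (nat_lit 78) (PT.lf (nat_lit 45600) (nat_lit 6) (nat_lit 600) (nat_lit 3) (nat_lit 186) (nat_lit 184) (nat_lit 200)) (PT.lf (nat_lit 46436) (nat_lit 6) (nat_lit 611) (nat_lit 3) (nat_lit 187) (nat_lit 184) (nat_lit 199))) (PT.nd (nat_lit 78) (PT.lf (nat_lit 47196) (nat_lit 6) (nat_lit 621) (nat_lit 3) (nat_lit 188) (nat_lit 184) (nat_lit 198)) (PT.lf (nat_lit 47880) (nat_lit 6) (nat_lit 630) (nat_lit 3) (nat_lit 189) (nat_lit 184) (nat_lit 197))))) (PT.nd (nat_lit 312) (PT.nd (nat_lit 156) (PT.nd (nat_lit 78) (PT.lf (nat_lit 48488)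 (nat_lit 6) (nat_lit 638) (nat_lit 3) (nat_lit 190) (nat_lit 184) (nat_lit 196)) (PT.lf (nat_lit 48564) (nat_lit 6) (nat_lit 639) (nat_lit 3) (nat_lit 191) (nat_lit 184) (nat_lit 195))) (PT.nd (nat_lit 78) (PT.lf (nat_lit 48640) (nat_lit 6) (nat_lit 640) (nat_lit 3) (nat_lit 192) (nat_lit 184) (nat_lit 194)) (PT.lf (nat_lit 48716) (nat_lit 3) (nat_lit 641) (nat_lit 1) (nat_lit 193) (nat_lit 184) (nat_lit 193)))) (PT.nd (nat_lit 156) (PT.nd (nat_lit 78) (PT.lf (nat_lit 48640) (nat_lit 6) (nat_lit 640) (nat_lit 1) (nat_lit 194) (nat_lit 184) (nat_lit 192)) (PT.lf (nat_lit 48564) (nat_lit 6) (nat_lit 639) (nat_lit 1) (nat_lit 195) (nat_lit 184) (nat_lit 191))) (PT.nd (nat_lit 78) (PT.lf (nat_lit 48488) (nat_lit 6) (nat_lit 638) (nat_lit 1) (nat_lit 196) (nat_lit 184) (nat_lit 190)) (PT.lf (nat_lit 47880) (nat_lit 6) (nat_lit 630) (nat_lit 1) (nat_lit 197) (nat_lit 184) (nat_lit 189))))))) (PT.nd (nat_lit 1170) (PT.nd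 (nat_lit 546) (PT.nd (nat_lit 234) (PT.nd (nat_lit 78) (PT.lf (nat_lit 47196) (nat_lit 6) (nat_lit 621) (nat_lit 1) (nat_lit 198) (nat_lit 184) (nat_lit 188)) (PT.nd (nat_lit 78) (PT.lf (nat_lit 46436) (nat_lit 6) (nat_lit 611) (nat_lit 1) (nat_lit 199) (nat_lit 184) (nat_lit 187)) (PT.lf (nat_lit 45600) (nat_lit 6) (nat_lit 600) (nat_lit 1) (nat_lit 200) (nat_lit 184) (nat_lit 186)))) (PT.nd (nat_lit 156) (PT.nd (nat_lit 78) (PT.lf (nat_lit 44688) (nat_lit 6) (nat_lit 588) (nat_lit 1) (nat_lit 201) (nat_lit 184) (nat_lit 185)) (PT.lf (nat_lit 43700) (nat_lit 3) (nat_lit 575) (nat_lit 0) (nat_lit 202) (nat_lit 184) (nat_lit 184))) (PT.nd (nat_lit 78) (PT.lf (nat_lit 42712) (nat_lit 6) (nat_lit 562) (nat_lit 0) (nat_lit 203) (nat_lit 184) (nat_lit 183)) (PT.lf (nat_lit 41648) (nat_lit 6) (nat_lit 548) (nat_lit 0) (nat_lit 204) (nat_lit 184) (nat_lit 182))))) (PT.nd (nat_lit 312) (PT.nd (nat_lit 156) (PT.nd (nat_lit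 78) (PT.lf (nat_lit 40508) (nat_lit 6) (nat_lit 533) (nat_lit 0) (nat_lit 205) (nat_lit 184) (nat_lit 181)) (PT.lf (nat_lit 39292) (nat_lit 6) (nat_lit 517) (nat_lit 0) (nat_lit 206) (nat_lit 184) (nat_lit 180))) (PT.nd (nat_lit 78) (PT.lf (nat_lit 38000) (nat_lit 6) (nat_lit 500) (nat_lit 0) (nat_lit 207) (nat_lit 184) (nat_lit 179)) (PT.lf (nat_lit 36632) (nat_lit 6) (nat_lit 482) (nat_lit 0) (nat_lit 208) (nat_lit 184) (nat_lit 178)))) (PT.nd (nat_lit 156) (PT.nd (nat_lit 78) (PT.lf (nat_lit 35188) (nat_lit 6) (nat_lit 463) (nat_lit 0) (nat_lit 209) (nat_lit 184) (nat_lit 177)) (PT.lf (nat_lit 33668) (nat_lit 6) (nat_lit 443) (nat_lit 0) (nat_lit 210) (nat_lit 184) (nat_lit 176))) (PT.nd (nat_lit 78) (PT.lf (nat_lit 32072) (nat_lit 6) (nat_lit 422) (nat_lit 0) (nat_lit 211) (nat_lit 184) (nat_lit 175)) (PT.lf (nat_lit 30400) (nat_lit 6) (nat_lit 400) (nat_lit 0) (nat_lit 212) (nat_lit 184) (nat_lit 174))))))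 (PT.nd (nat_lit 56628) (PT.nd (nat_lit 56316) (PT.nd (nat_lit 56160) (PT.lf (nat_lit 28652) (nat_lit 6) (nat_lit 377) (nat_lit 0) (nat_lit 213) (nat_lit 184) (nat_lit 173)) (PT.nd (nat_lit 78) (PT.lf (nat_lit 28728) (nat_lit 6) (nat_lit 378) (nat_lit 5) (nat_lit 172) (nat_lit 185) (nat_lit 213)) (PT.lf (nat_lit 30476) (nat_lit 6) (nat_lit 401) (nat_lit 5) (nat_lit 173) (nat_lit 185) (nat_lit 212)))) (PT.nd (nat_lit 156) (PT.nd (nat_lit 78) (PT.lf (nat_lit 32148) (nat_lit 6) (nat_lit 423) (nat_lit 5) (nat_lit 174) (nat_lit 185) (nat_lit 211)) (PT.lf (nat_lit 33744) (nat_lit 6) (nat_lit 444) (nat_lit 5) (nat_lit 175) (nat_lit 185) (nat_lit 210))) (PT.nd (nat_lit 78) (PT.lf (nat_lit 35264) (nat_lit 6) (nat_lit 464) (nat_lit 5) (nat_lit 176) (nat_lit 185) (nat_lit 209)) (PT.lf (nat_lit 36708) (nat_lit 6) (nat_lit 483) (nat_lit 5) (nat_lit 177) (nat_lit 185) (nat_lit 208))))) (PT.nd (nat_lit 312) (PT.nd (nat_lit 156)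 (PT.nd (nat_lit 78) (PT.lf (nat_lit 38076) (nat_lit 6) (nat_lit 501) (nat_lit 5) (nat_lit 178) (nat_lit 185) (nat_lit 207)) (PT.lf (nat_lit 39368) (nat_lit 6) (nat_lit 518) (nat_lit 5) (nat_lit 179) (nat_lit 185) (nat_lit 206))) (PT.nd (nat_lit 78) (PT.lf (nat_lit 40584) (nat_lit 6) (nat_lit 534) (nat_lit 5) (nat_lit 180) (nat_lit 185) (nat_lit 205)) (PT.lf (nat_lit 41724) (nat_lit 6) (nat_lit 549) (nat_lit 5) (nat_lit 181) (nat_lit 185) (nat_lit 204)))) (PT.nd (nat_lit 156) (PT.nd (nat_lit 78) (PT.lf (nat_lit 42788) (nat_lit 6) (nat_lit 563) (nat_lit 5) (nat_lit 182) (nat_lit 185) (nat_lit 203)) (PT.lf (nat_lit 43776) (nat_lit 6) (nat_lit 576) (nat_lit 5) (nat_lit 183) (nat_lit 185) (nat_lit 202))) (PT.nd (nat_lit 78) (PT.lf (nat_lit 44688) (nat_lit 6) (nat_lit 588) (nat_lit 5) (nat_lit 184) (nat_lit 185) (nat_lit 201)) (PT.lf (nat_lit 45524) (nat_lit 3) (nat_lit 599) (nat_lit 3) (nat_lit 185) (nat_lit 185) (nat_lit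 200))))))))
noncomputable def pc22 : PT := (PT.nd (nat_lit 58266) (PT.nd (nat_lit 1092) (PT.nd (nat_lit 546) (PT.nd (nat_lit 234) (PT.nd (nat_lit 78) (PT.lf (nat_lit 46360) (nat_lit 6) (nat_lit 610) (nat_lit 3) (nat_lit 186) (nat_lit 185) (nat_lit 199)) (PT.nd (nat_lit 78) (PT.lf (nat_lit 47120) (nat_lit 6) (nat_lit 620) (nat_lit 3) (nat_lit 187) (nat_lit 185) (nat_lit 198)) (PT.lf (nat_lit 47804) (nat_lit 6) (nat_lit 629) (nat_lit 3) (nat_lit 188) (nat_lit 185) (nat_lit 197)))) (PT.nd (nat_lit 156) (PT.nd (nat_lit 78) (PT.lf (nat_lit 48412) (nat_lit 6) (nat_lit 637) (nat_lit 3) (nat_lit 189) (nat_lit 185) (nat_lit 196)) (PT.lf (nat_lit 48944) (nat_lit 6) (nat_lit 644) (nat_lit 3) (nat_lit 190) (nat_lit 185) (nat_lit 195))) (PT.nd (nat_lit 78) (PT.lf (nat_lit 49020) (nat_lit 6) (nat_lit 645) (nat_lit 3) (nat_lit 191) (nat_lit 185) (nat_lit 194)) (PT.lf (nat_lit 49096) (nat_lit 6) (nat_lit 646) (nat_lit 3) (nat_lit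 192) (nat_lit 185) (nat_lit 193))))) (PT.nd (nat_lit 234) (PT.nd (nat_lit 78) (PT.lf (nat_lit 49096) (nat_lit 6) (nat_lit 646) (nat_lit 1) (nat_lit 193) (nat_lit 185) (nat_lit 192)) (PT.nd (nat_lit 78) (PT.lf (nat_lit 49020) (nat_lit 6) (nat_lit 645) (nat_lit 1) (nat_lit 194) (nat_lit 185) (nat_lit 191)) (PT.lf (nat_lit 48944) (nat_lit 6) (nat_lit 644) (nat_lit 1) (nat_lit 195) (nat_lit 185) (nat_lit 190)))) (PT.nd (nat_lit 156) (PT.nd (nat_lit 78) (PT.lf (nat_lit 48412) (nat_lit 6) (nat_lit 637) (nat_lit 1) (nat_lit 196) (nat_lit 185) (nat_lit 189)) (PT.lf (nat_lit 47804) (nat_lit 6) (nat_lit 629) (nat_lit 1) (nat_lit 197) (nat_lit 185) (nat_lit 188))) (PT.nd (nat_lit 78) (PT.lf (nat_lit 47120) (nat_lit 6) (nat_lit 620) (nat_lit 1) (nat_lit 198) (nat_lit 185) (nat_lit 187)) (PT.lf (nat_lit 46360) (nat_lit 6) (nat_lit 610) (nat_lit 1) (nat_lit 199) (nat_lit 185) (nat_lit 186)))))) (PT.nd (nat_lit 546) (PT.nd (nat_lit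 234) (PT.nd (nat_lit 78) (PT.lf (nat_lit 45524) (nat_lit 3) (nat_lit 599) (nat_lit 0) (nat_lit 200) (nat_lit 185) (nat_lit 185)) (PT.nd (nat_lit 78) (PT.lf (nat_lit 44688) (nat_lit 6) (nat_lit 588) (nat_lit 0) (nat_lit 201) (nat_lit 185) (nat_lit 184)) (PT.lf (nat_lit 43776) (nat_lit 6) (nat_lit 576) (nat_lit 0) (nat_lit 202) (nat_lit 185) (nat_lit 183)))) (PT.nd (nat_lit 156) (PT.nd (nat_lit 78) (PT.lf (nat_lit 42788) (nat_lit 6) (nat_lit 563) (nat_lit 0) (nat_lit 203) (nat_lit 185) (nat_lit 182)) (PT.lf (nat_lit 41724) (nat_lit 6) (nat_lit 549) (nat_lit 0) (nat_lit 204) (nat_lit 185) (nat_lit 181))) (PT.nd (nat_lit 78) (PT.lf (nat_lit 40584) (nat_lit 6) (nat_lit 534) (nat_lit 0) (nat_lit 205) (nat_lit 185) (nat_lit 180)) (PT.lf (nat_lit 39368) (nat_lit 6) (nat_lit 518) (nat_lit 0) (nat_lit 206) (nat_lit 185) (nat_lit 179))))) (PT.nd (nat_lit 312) (PT.nd (nat_lit 156) (PT.nd (nat_lit 78) (PT.lf (nat_lit 38076)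 (nat_lit 6) (nat_lit 501) (nat_lit 0) (nat_lit 207) (nat_lit 185) (nat_lit 178)) (PT.lf (nat_lit 36708) (nat_lit 6) (nat_lit 483) (nat_lit 0) (nat_lit 208) (nat_lit 185) (nat_lit 177))) (PT.nd (nat_lit 78) (PT.lf (nat_lit 35264) (nat_lit 6) (nat_lit 464) (nat_lit 0) (nat_lit 209) (nat_lit 185) (nat_lit 176)) (PT.lf (nat_lit 33744) (nat_lit 6) (nat_lit 444) (nat_lit 0) (nat_lit 210) (nat_lit 185) (nat_lit 175)))) (PT.nd (nat_lit 156) (PT.nd (nat_lit 78) (PT.lf (nat_lit 32148) (nat_lit 6) (nat_lit 423) (nat_lit 0) (nat_lit 211) (nat_lit 185) (nat_lit 174)) (PT.lf (nat_lit 30476) (nat_lit 6) (nat_lit 401) (nat_lit 0) (nat_lit 212) (nat_lit 185) (nat_lit 173))) (PT.nd (nat_lit 56082) (PT.lf (nat_lit 28728) (nat_lit 6) (nat_lit 378) (nat_lit 0) (nat_lit 213) (nat_lit 185) (nat_lit 172)) (PT.lf (nat_lit 28804) (nat_lit 6) (nat_lit 379) (nat_lit 5) (nat_lit 171) (nat_lit 186) (nat_lit 213))))))) (PT.nd (nat_lit 1092)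 (PT.nd (nat_lit 546) (PT.nd (nat_lit 234) (PT.nd (nat_lit 78) (PT.lf (nat_lit 30552) (nat_lit 6) (nat_lit 402) (nat_lit 5) (nat_lit 172) (nat_lit 186) (nat_lit 212)) (PT.nd (nat_lit 78) (PT.lf (nat_lit 32224) (nat_lit 6) (nat_lit 424) (nat_lit 5) (nat_lit 173) (nat_lit 186) (nat_lit 211)) (PT.lf (nat_lit 33820) (nat_lit 6) (nat_lit 445) (nat_lit 5) (nat_lit 174) (nat_lit 186) (nat_lit 210)))) (PT.nd (nat_lit 156) (PT.nd (nat_lit 78) (PT.lf (nat_lit 35340) (nat_lit 6) (nat_lit 465) (nat_lit 5) (nat_lit 175) (nat_lit 186) (nat_lit 209)) (PT.lf (nat_lit 36784) (nat_lit 6) (nat_lit 484) (nat_lit 5) (nat_lit 176) (nat_lit 186) (nat_lit 208))) (PT.nd (nat_lit 78) (PT.lf (nat_lit 38152) (nat_lit 6) (nat_lit 502) (nat_lit 5) (nat_lit 177) (nat_lit 186) (nat_lit 207)) (PT.lf (nat_lit 39444) (nat_lit 6) (nat_lit 519) (nat_lit 5) (nat_lit 178) (nat_lit 186) (nat_lit 206))))) (PT.nd (nat_lit 234) (PT.nd (nat_lit 78) (PT.lf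 (nat_lit 40660) (nat_lit 6) (nat_lit 535) (nat_lit 5) (nat_lit 179) (nat_lit 186) (nat_lit 205)) (PT.nd (nat_lit 78) (PT.lf (nat_lit 41800) (nat_lit 6) (nat_lit 550) (nat_lit 5) (nat_lit 180) (nat_lit 186) (nat_lit 204)) (PT.lf (nat_lit 42864) (nat_lit 6) (nat_lit 564) (nat_lit 5) (nat_lit 181) (nat_lit 186) (nat_lit 203)))) (PT.nd (nat_lit 156) (PT.nd (nat_lit 78) (PT.lf (nat_lit 43852) (nat_lit 6) (nat_lit 577) (nat_lit 5) (nat_lit 182) (nat_lit 186) (nat_lit 202)) (PT.lf (nat_lit 44764) (nat_lit 6) (nat_lit 589) (nat_lit 5) (nat_lit 183) (nat_lit 186) (nat_lit 201))) (PT.nd (nat_lit 78) (PT.lf (nat_lit 45600) (nat_lit 6) (nat_lit 600) (nat_lit 5) (nat_lit 184) (nat_lit 186) (nat_lit 200)) (PT.lf (nat_lit 46360) (nat_lit 6) (nat_lit 610) (nat_lit 5) (nat_lit 185) (nat_lit 186) (nat_lit 199)))))) (PT.nd (nat_lit 546) (PT.nd (nat_lit 234) (PT.nd (nat_lit 78) (PT.lf (nat_lit 47044) (nat_lit 3) (nat_lit 619) (nat_lit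 3) (nat_lit 186) (nat_lit 186) (nat_lit 198)) (PT.nd (nat_lit 78) (PT.lf (nat_lit 47728) (nat_lit 6) (nat_lit 628) (nat_lit 3) (nat_lit 187) (nat_lit 186) (nat_lit 197)) (PT.lf (nat_lit 48336) (nat_lit 6) (nat_lit 636) (nat_lit 3) (nat_lit 188) (nat_lit 186) (nat_lit 196)))) (PT.nd (nat_lit 156) (PT.nd (nat_lit 78) (PT.lf (nat_lit 48868) (nat_lit 6) (nat_lit 643) (nat_lit 3) (nat_lit 189) (nat_lit 186) (nat_lit 195)) (PT.lf (nat_lit 49324) (nat_lit 6) (nat_lit 649) (nat_lit 3) (nat_lit 190) (nat_lit 186) (nat_lit 194))) (PT.nd (nat_lit 78) (PT.lf (nat_lit 49400) (nat_lit 6) (nat_lit 650) (nat_lit 3) (nat_lit 191) (nat_lit 186) (nat_lit 193)) (PT.lf (nat_lit 49476) (nat_lit 3) (nat_lit 651) (nat_lit 1) (nat_lit 192) (nat_lit 186) (nat_lit 192))))) (PT.nd (nat_lit 312) (PT.nd (nat_lit 156) (PT.nd (nat_lit 78) (PT.lf (nat_lit 49400) (nat_lit 6) (nat_lit 650) (nat_lit 1) (nat_lit 193) (nat_lit 186) (nat_lit 191)) (PT.lf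 (nat_lit 49324) (nat_lit 6) (nat_lit 649) (nat_lit 1) (nat_lit 194) (nat_lit 186) (nat_lit 190))) (PT.nd (nat_lit 78) (PT.lf (nat_lit 48868) (nat_lit 6) (nat_lit 643) (nat_lit 1) (nat_lit 195) (nat_lit 186) (nat_lit 189)) (PT.lf (nat_lit 48336) (nat_lit 6) (nat_lit 636) (nat_lit 1) (nat_lit 196) (nat_lit 186) (nat_lit 188)))) (PT.nd (nat_lit 156) (PT.nd (nat_lit 78) (PT.lf (nat_lit 47728) (nat_lit 6) (nat_lit 628) (nat_lit 1) (nat_lit 197) (nat_lit 186) (nat_lit 187)) (PT.lf (nat_lit 47044) (nat_lit 3) (nat_lit 619) (nat_lit 0) (nat_lit 198) (nat_lit 186) (nat_lit 186))) (PT.nd (nat_lit 78) (PT.lf (nat_lit 46360) (nat_lit 6) (nat_lit 610) (nat_lit 0) (nat_lit 199) (nat_lit 186) (nat_lit 185)) (PT.lf (nat_lit 45600) (nat_lit 6) (nat_lit 600) (nat_lit 0) (nat_lit 200) (nat_lit 186) (nat_lit 184))))))))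
noncomputable def pc23 : PT := (PT.nd (nat_lit 58188) (PT.nd (nat_lit 57018) (PT.nd (nat_lit 546) (PT.nd (nat_lit 234) (PT.nd (nat_lit 78) (PT.lf (nat_lit 44764) (nat_lit 6) (nat_lit 589) (nat_lit 0) (nat_lit 201) (nat_lit 186) (nat_lit 183)) (PT.nd (nat_lit 78) (PT.lf (nat_lit 43852) (nat_lit 6) (nat_lit 577) (nat_lit 0) (nat_lit 202) (nat_lit 186) (nat_lit 182)) (PT.lf (nat_lit 42864) (nat_lit 6) (nat_lit 564) (nat_lit 0) (nat_lit 203) (nat_lit 186) (nat_lit 181)))) (PT.nd (nat_lit 156) (PT.nd (nat_lit 78) (PT.lf (nat_lit 41800) (nat_lit 6) (nat_lit 550) (nat_lit 0) (nat_lit 204) (nat_lit 186) (nat_lit 180)) (PT.lf (nat_lit 40660) (nat_lit 6) (nat_lit 535) (nat_lit 0) (nat_lit 205) (nat_lit 186) (nat_lit 179))) (PT.nd (nat_lit 78) (PT.lf (nat_lit 39444) (nat_lit 6) (nat_lit 519) (nat_lit 0) (nat_lit 206) (nat_lit 186) (nat_lit 178)) (PT.lf (nat_lit 38152) (nat_lit 6) (nat_lit 502) (nat_lit 0) (nat_lit 207) (nat_lit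 186) (nat_lit 177))))) (PT.nd (nat_lit 234) (PT.nd (nat_lit 78) (PT.lf (nat_lit 36784) (nat_lit 6) (nat_lit 484) (nat_lit 0) (nat_lit 208) (nat_lit 186) (nat_lit 176)) (PT.nd (nat_lit 78) (PT.lf (nat_lit 35340) (nat_lit 6) (nat_lit 465) (nat_lit 0) (nat_lit 209) (nat_lit 186) (nat_lit 175)) (PT.lf (nat_lit 33820) (nat_lit 6) (nat_lit 445) (nat_lit 0) (nat_lit 210) (nat_lit 186) (nat_lit 174)))) (PT.nd (nat_lit 156) (PT.nd (nat_lit 78) (PT.lf (nat_lit 32224) (nat_lit 6) (nat_lit 424) (nat_lit 0) (nat_lit 211) (nat_lit 186) (nat_lit 173)) (PT.lf (nat_lit 30552) (nat_lit 6) (nat_lit 402) (nat_lit 0) (nat_lit 212) (nat_lit 186) (nat_lit 172))) (PT.nd (nat_lit 56004) (PT.lf (nat_lit 28804) (nat_lit 6) (nat_lit 379) (nat_lit 0) (nat_lit 213) (nat_lit 186) (nat_lit 171)) (PT.lf (nat_lit 28880) (nat_lit 6) (nat_lit 380) (nat_lit 5) (nat_lit 170) (nat_lit 187) (nat_lit 213)))))) (PT.nd (nat_lit 546) (PT.nd (nat_lit 234)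 (PT.nd (nat_lit 78) (PT.lf (nat_lit 30628) (nat_lit 6) (nat_lit 403) (nat_lit 5) (nat_lit 171) (nat_lit 187) (nat_lit 212)) (PT.nd (nat_lit 78) (PT.lf (nat_lit 32300) (nat_lit 6) (nat_lit 425) (nat_lit 5) (nat_lit 172) (nat_lit 187) (nat_lit 211)) (PT.lf (nat_lit 33896) (nat_lit 6) (nat_lit 446) (nat_lit 5) (nat_lit 173) (nat_lit 187) (nat_lit 210)))) (PT.nd (nat_lit 156) (PT.nd (nat_lit 78) (PT.lf (nat_lit 35416) (nat_lit 6) (nat_lit 466) (nat_lit 5) (nat_lit 174) (nat_lit 187) (nat_lit 209)) (PT.lf (nat_lit 36860) (nat_lit 6) (nat_lit 485) (nat_lit 5) (nat_lit 175) (nat_lit 187) (nat_lit 208))) (PT.nd (nat_lit 78) (PT.lf (nat_lit 38228) (nat_lit 6) (nat_lit 503) (nat_lit 5) (nat_lit 176) (nat_lit 187) (nat_lit 207)) (PT.lf (nat_lit 39520) (nat_lit 6) (nat_lit 520) (nat_lit 5) (nat_lit 177) (nat_lit 187) (nat_lit 206))))) (PT.nd (nat_lit 312) (PT.nd (nat_lit 156) (PT.nd (nat_lit 78) (PT.lf (nat_lit 40736) (nat_lit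 6) (nat_lit 536) (nat_lit 5) (nat_lit 178) (nat_lit 187) (nat_lit 205)) (PT.lf (nat_lit 41876) (nat_lit 6) (nat_lit 551) (nat_lit 5) (nat_lit 179) (nat_lit 187) (nat_lit 204))) (PT.nd (nat_lit 78) (PT.lf (nat_lit 42940) (nat_lit 6) (nat_lit 565) (nat_lit 5) (nat_lit 180) (nat_lit 187) (nat_lit 203)) (PT.lf (nat_lit 43928) (nat_lit 6) (nat_lit 578) (nat_lit 5) (nat_lit 181) (nat_lit 187) (nat_lit 202)))) (PT.nd (nat_lit 156) (PT.nd (nat_lit 78) (PT.lf (nat_lit 44840) (nat_lit 6) (nat_lit 590) (nat_lit 5) (nat_lit 182) (nat_lit 187) (nat_lit 201)) (PT.lf (nat_lit 45676) (nat_lit 6) (nat_lit 601) (nat_lit 5) (nat_lit 183) (nat_lit 187) (nat_lit 200))) (PT.nd (nat_lit 78) (PT.lf (nat_lit 46436) (nat_lit 6) (nat_lit 611) (nat_lit 5) (nat_lit 184) (nat_lit 187) (nat_lit 199)) (PT.lf (nat_lit 47120) (nat_lit 6) (nat_lit 620) (nat_lit 5) (nat_lit 185) (nat_lit 187) (nat_lit 198))))))) (PT.nd (nat_lit 1170) (PT.nd (nat_lit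 546) (PT.nd (nat_lit 234) (PT.nd (nat_lit 78) (PT.lf (nat_lit 47728) (nat_lit 6) (nat_lit 628) (nat_lit 5) (nat_lit 186) (nat_lit 187) (nat_lit 197)) (PT.nd (nat_lit 78) (PT.lf (nat_lit 48260) (nat_lit 3) (nat_lit 635) (nat_lit 3) (nat_lit 187) (nat_lit 187) (nat_lit 196)) (PT.lf (nat_lit 48792) (nat_lit 6) (nat_lit 642) (nat_lit 3) (nat_lit 188) (nat_lit 187) (nat_lit 195)))) (PT.nd (nat_lit 156) (PT.nd (nat_lit 78) (PT.lf (nat_lit 49248) (nat_lit 6) (nat_lit 648) (nat_lit 3) (nat_lit 189) (nat_lit 187) (nat_lit 194)) (PT.lf (nat_lit 49628) (nat_lit 6) (nat_lit 653) (nat_lit 3) (nat_lit 190) (nat_lit 187) (nat_lit 193))) (PT.nd (nat_lit 78) (PT.lf (nat_lit 49704) (nat_lit 6) (nat_lit 654) (nat_lit 3) (nat_lit 191) (nat_lit 187) (nat_lit 192)) (PT.lf (nat_lit 49704) (nat_lit 6) (nat_lit 654) (nat_lit 1) (nat_lit 192) (nat_lit 187) (nat_lit 191))))) (PT.nd (nat_lit 312) (PT.nd (nat_lit 156) (PT.nd (nat_lit 78) (PT.lf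 (nat_lit 49628) (nat_lit 6) (nat_lit 653) (nat_lit 1) (nat_lit 193) (nat_lit 187) (nat_lit 190)) (PT.lf (nat_lit 49248) (nat_lit 6) (nat_lit 648) (nat_lit 1) (nat_lit 194) (nat_lit 187) (nat_lit 189))) (PT.nd (nat_lit 78) (PT.lf (nat_lit 48792) (nat_lit 6) (nat_lit 642) (nat_lit 1) (nat_lit 195) (nat_lit 187) (nat_lit 188)) (PT.lf (nat_lit 48260) (nat_lit 3) (nat_lit 635) (nat_lit 0) (nat_lit 196) (nat_lit 187) (nat_lit 187)))) (PT.nd (nat_lit 156) (PT.nd (nat_lit 78) (PT.lf (nat_lit 47728) (nat_lit 6) (nat_lit 628) (nat_lit 0) (nat_lit 197) (nat_lit 187) (nat_lit 186)) (PT.lf (nat_lit 47120) (nat_lit 6) (nat_lit 620) (nat_lit 0) (nat_lit 198) (nat_lit 187) (nat_lit 185))) (PT.nd (nat_lit 78) (PT.lf (nat_lit 46436) (nat_lit 6) (nat_lit 611) (nat_lit 0) (nat_lit 199) (nat_lit 187) (nat_lit 184)) (PT.lf (nat_lit 45676) (nat_lit 6) (nat_lit 601) (nat_lit 0) (nat_lit 200) (nat_lit 187) (nat_lit 183)))))) (PT.nd (nat_lit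 546) (PT.nd (nat_lit 234) (PT.nd (nat_lit 78) (PT.lf (nat_lit 44840) (nat_lit 6) (nat_lit 590) (nat_lit 0) (nat_lit 201) (nat_lit 187) (nat_lit 182)) (PT.nd (nat_lit 78) (PT.lf (nat_lit 43928) (nat_lit 6) (nat_lit 578) (nat_lit 0) (nat_lit 202) (nat_lit 187) (nat_lit 181)) (PT.lf (nat_lit 42940) (nat_lit 6) (nat_lit 565) (nat_lit 0) (nat_lit 203) (nat_lit 187) (nat_lit 180)))) (PT.nd (nat_lit 156) (PT.nd (nat_lit 78) (PT.lf (nat_lit 41876) (nat_lit 6) (nat_lit 551) (nat_lit 0) (nat_lit 204) (nat_lit 187) (nat_lit 179)) (PT.lf (nat_lit 40736) (nat_lit 6) (nat_lit 536) (nat_lit 0) (nat_lit 205) (nat_lit 187) (nat_lit 178))) (PT.nd (nat_lit 78) (PT.lf (nat_lit 39520) (nat_lit 6) (nat_lit 520) (nat_lit 0) (nat_lit 206) (nat_lit 187) (nat_lit 177)) (PT.lf (nat_lit 38228) (nat_lit 6) (nat_lit 503) (nat_lit 0) (nat_lit 207) (nat_lit 187) (nat_lit 176))))) (PT.nd (nat_lit 312) (PT.nd (nat_lit 156) (PT.nd (nat_lit 78) (PT.lf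 (nat_lit 36860) (nat_lit 6) (nat_lit 485) (nat_lit 0) (nat_lit 208) (nat_lit 187) (nat_lit 175)) (PT.lf (nat_lit 35416) (nat_lit 6) (nat_lit 466) (nat_lit 0) (nat_lit 209) (nat_lit 187) (nat_lit 174))) (PT.nd (nat_lit 78) (PT.lf (nat_lit 33896) (nat_lit 6) (nat_lit 446) (nat_lit 0) (nat_lit 210) (nat_lit 187) (nat_lit 173)) (PT.lf (nat_lit 32300) (nat_lit 6) (nat_lit 425) (nat_lit 0) (nat_lit 211) (nat_lit 187) (nat_lit 172)))) (PT.nd (nat_lit 56004) (PT.nd (nat_lit 78) (PT.lf (nat_lit 30628) (nat_lit 6) (nat_lit 403) (nat_lit 0) (nat_lit 212) (nat_lit 187) (nat_lit 171)) (PT.lf (nat_lit 28880) (nat_lit 6) (nat_lit 380) (nat_lit 0) (nat_lit 213) (nat_lit 187) (nat_lit 170))) (PT.nd (nat_lit 78) (PT.lf (nat_lit 28956) (nat_lit 6) (nat_lit 381) (nat_lit 5) (nat_lit 169) (nat_lit 188) (nat_lit 213)) (PT.lf (nat_lit 30704) (nat_lit 6) (nat_lit 404) (nat_lit 5) (nat_lit 170) (nat_lit 188) (nat_lit 212))))))))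
noncomputable def pc24 : PT := (PT.nd (nat_lit 2262) (PT.nd (nat_lit 1092) (PT.nd (nat_lit 546) (PT.nd (nat_lit 234) (PT.nd (nat_lit 78) (PT.lf (nat_lit 32376) (nat_lit 6) (nat_lit 426) (nat_lit 5) (nat_lit 171) (nat_lit 188) (nat_lit 211)) (PT.nd (nat_lit 78) (PT.lf (nat_lit 33972) (nat_lit 6) (nat_lit 447) (nat_lit 5) (nat_lit 172) (nat_lit 188) (nat_lit 210)) (PT.lf (nat_lit 35492) (nat_lit 6) (nat_lit 467) (nat_lit 5) (nat_lit 173) (nat_lit 188) (nat_lit 209)))) (PT.nd (nat_lit 156) (PT.nd (nat_lit 78) (PT.lf (nat_lit 36936) (nat_lit 6) (nat_lit 486) (nat_lit 5) (nat_lit 174) (nat_lit 188) (nat_lit 208)) (PT.lf (nat_lit 38304) (nat_lit 6) (nat_lit 504) (nat_lit 5) (nat_lit 175) (nat_lit 188) (nat_lit 207))) (PT.nd (nat_lit 78) (PT.lf (nat_lit 39596) (nat_lit 6) (nat_lit 521) (nat_lit 5) (nat_lit 176) (nat_lit 188) (nat_lit 206)) (PT.lf (nat_lit 40812) (nat_lit 6) (nat_lit 537) (nat_lit 5) (nat_lit 177) (nat_lit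 188) (nat_lit 205))))) (PT.nd (nat_lit 234) (PT.nd (nat_lit 78) (PT.lf (nat_lit 41952) (nat_lit 6) (nat_lit 552) (nat_lit 5) (nat_lit 178) (nat_lit 188) (nat_lit 204)) (PT.nd (nat_lit 78) (PT.lf (nat_lit 43016) (nat_lit 6) (nat_lit 566) (nat_lit 5) (nat_lit 179) (nat_lit 188) (nat_lit 203)) (PT.lf (nat_lit 44004) (nat_lit 6) (nat_lit 579) (nat_lit 5) (nat_lit 180) (nat_lit 188) (nat_lit 202)))) (PT.nd (nat_lit 156) (PT.nd (nat_lit 78) (PT.lf (nat_lit 44916) (nat_lit 6) (nat_lit 591) (nat_lit 5) (nat_lit 181) (nat_lit 188) (nat_lit 201)) (PT.lf (nat_lit 45752) (nat_lit 6) (nat_lit 602) (nat_lit 5) (nat_lit 182) (nat_lit 188) (nat_lit 200))) (PT.nd (nat_lit 78) (PT.lf (nat_lit 46512) (nat_lit 6) (nat_lit 612) (nat_lit 5) (nat_lit 183) (nat_lit 188) (nat_lit 199)) (PT.lf (nat_lit 47196) (nat_lit 6) (nat_lit 621) (nat_lit 5) (nat_lit 184) (nat_lit 188) (nat_lit 198)))))) (PT.nd (nat_lit 546) (PT.nd (nat_lit 234) (PT.nd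 (nat_lit 78) (PT.lf (nat_lit 47804) (nat_lit 6) (nat_lit 629) (nat_lit 5) (nat_lit 185) (nat_lit 188) (nat_lit 197)) (PT.nd (nat_lit 78) (PT.lf (nat_lit 48336) (nat_lit 6) (nat_lit 636) (nat_lit 5) (nat_lit 186) (nat_lit 188) (nat_lit 196)) (PT.lf (nat_lit 48792) (nat_lit 6) (nat_lit 642) (nat_lit 5) (nat_lit 187) (nat_lit 188) (nat_lit 195)))) (PT.nd (nat_lit 156) (PT.nd (nat_lit 78) (PT.lf (nat_lit 49172) (nat_lit 3) (nat_lit 647) (nat_lit 3) (nat_lit 188) (nat_lit 188) (nat_lit 194)) (PT.lf (nat_lit 49552) (nat_lit 6) (nat_lit 652) (nat_lit 3) (nat_lit 189) (nat_lit 188) (nat_lit 193))) (PT.nd (nat_lit 78) (PT.lf (nat_lit 49856) (nat_lit 6) (nat_lit 656) (nat_lit 3) (nat_lit 190) (nat_lit 188) (nat_lit 192)) (PT.lf (nat_lit 49932) (nat_lit 3) (nat_lit 657) (nat_lit 1) (nat_lit 191) (nat_lit 188) (nat_lit 191))))) (PT.nd (nat_lit 312) (PT.nd (nat_lit 156) (PT.nd (nat_lit 78) (PT.lf (nat_lit 49856) (nat_lit 6)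 (nat_lit 656) (nat_lit 1) (nat_lit 192) (nat_lit 188) (nat_lit 190)) (PT.lf (nat_lit 49552) (nat_lit 6) (nat_lit 652) (nat_lit 1) (nat_lit 193) (nat_lit 188) (nat_lit 189))) (PT.nd (nat_lit 78) (PT.lf (nat_lit 49172) (nat_lit 3) (nat_lit 647) (nat_lit 0) (nat_lit 194) (nat_lit 188) (nat_lit 188)) (PT.lf (nat_lit 48792) (nat_lit 6) (nat_lit 642) (nat_lit 0) (nat_lit 195) (nat_lit 188) (nat_lit 187)))) (PT.nd (nat_lit 156) (PT.nd (nat_lit 78) (PT.lf (nat_lit 48336) (nat_lit 6) (nat_lit 636) (nat_lit 0) (nat_lit 196) (nat_lit 188) (nat_lit 186)) (PT.lf (nat_lit 47804) (nat_lit 6) (nat_lit 629) (nat_lit 0) (nat_lit 197) (nat_lit 188) (nat_lit 185))) (PT.nd (nat_lit 78) (PT.lf (nat_lit 47196) (nat_lit 6) (nat_lit 621) (nat_lit 0) (nat_lit 198) (nat_lit 188) (nat_lit 184)) (PT.lf (nat_lit 46512) (nat_lit 6) (nat_lit 612) (nat_lit 0) (nat_lit 199) (nat_lit 188) (nat_lit 183))))))) (PT.nd (nat_lit 56862) (PT.nd (nat_lit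 546) (PT.nd (nat_lit 234) (PT.nd (nat_lit 78) (PT.lf (nat_lit 45752) (nat_lit 6) (nat_lit 602) (nat_lit 0) (nat_lit 200) (nat_lit 188) (nat_lit 182)) (PT.nd (nat_lit 78) (PT.lf (nat_lit 44916) (nat_lit 6) (nat_lit 591) (nat_lit 0) (nat_lit 201) (nat_lit 188) (nat_lit 181)) (PT.lf (nat_lit 44004) (nat_lit 6) (nat_lit 579) (nat_lit 0) (nat_lit 202) (nat_lit 188) (nat_lit 180)))) (PT.nd (nat_lit 156) (PT.nd (nat_lit 78) (PT.lf (nat_lit 43016) (nat_lit 6) (nat_lit 566) (nat_lit 0) (nat_lit 203) (nat_lit 188) (nat_lit 179)) (PT.lf (nat_lit 41952) (nat_lit 6) (nat_lit 552) (nat_lit 0) (nat_lit 204) (nat_lit 188) (nat_lit 178))) (PT.nd (nat_lit 78) (PT.lf (nat_lit 40812) (nat_lit 6) (nat_lit 537) (nat_lit 0) (nat_lit 205) (nat_lit 188) (nat_lit 177)) (PT.lf (nat_lit 39596) (nat_lit 6) (nat_lit 521) (nat_lit 0) (nat_lit 206) (nat_lit 188) (nat_lit 176))))) (PT.nd (nat_lit 234) (PT.nd (nat_lit 78) (PT.lf (nat_lit 38304)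 (nat_lit 6) (nat_lit 504) (nat_lit 0) (nat_lit 207) (nat_lit 188) (nat_lit 175)) (PT.nd (nat_lit 78) (PT.lf (nat_lit 36936) (nat_lit 6) (nat_lit 486) (nat_lit 0) (nat_lit 208) (nat_lit 188) (nat_lit 174)) (PT.lf (nat_lit 35492) (nat_lit 6) (nat_lit 467) (nat_lit 0) (nat_lit 209) (nat_lit 188) (nat_lit 173)))) (PT.nd (nat_lit 156) (PT.nd (nat_lit 78) (PT.lf (nat_lit 33972) (nat_lit 6) (nat_lit 447) (nat_lit 0) (nat_lit 210) (nat_lit 188) (nat_lit 172)) (PT.lf (nat_lit 32376) (nat_lit 6) (nat_lit 426) (nat_lit 0) (nat_lit 211) (nat_lit 188) (nat_lit 171))) (PT.nd (nat_lit 78) (PT.lf (nat_lit 30704) (nat_lit 6) (nat_lit 404) (nat_lit 0) (nat_lit 212) (nat_lit 188) (nat_lit 170)) (PT.lf (nat_lit 28956) (nat_lit 6) (nat_lit 381) (nat_lit 0) (nat_lit 213) (nat_lit 188) (nat_lit 169)))))) (PT.nd (nat_lit 546) (PT.nd (nat_lit 234) (PT.nd (nat_lit 78) (PT.lf (nat_lit 29032) (nat_lit 6) (nat_lit 382) (nat_lit 5) (nat_lit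 168) (nat_lit 189) (nat_lit 213)) (PT.nd (nat_lit 78) (PT.lf (nat_lit 30780) (nat_lit 6) (nat_lit 405) (nat_lit 5) (nat_lit 169) (nat_lit 189) (nat_lit 212)) (PT.lf (nat_lit 32452) (nat_lit 6) (nat_lit 427) (nat_lit 5) (nat_lit 170) (nat_lit 189) (nat_lit 211)))) (PT.nd (nat_lit 156) (PT.nd (nat_lit 78) (PT.lf (nat_lit 34048) (nat_lit 6) (nat_lit 448) (nat_lit 5) (nat_lit 171) (nat_lit 189) (nat_lit 210)) (PT.lf (nat_lit 35568) (nat_lit 6) (nat_lit 468) (nat_lit 5) (nat_lit 172) (nat_lit 189) (nat_lit 209))) (PT.nd (nat_lit 78) (PT.lf (nat_lit 37012) (nat_lit 6) (nat_lit 487) (nat_lit 5) (nat_lit 173) (nat_lit 189) (nat_lit 208)) (PT.lf (nat_lit 38380) (nat_lit 6) (nat_lit 505) (nat_lit 5) (nat_lit 174) (nat_lit 189) (nat_lit 207))))) (PT.nd (nat_lit 312) (PT.nd (nat_lit 156) (PT.nd (nat_lit 78) (PT.lf (nat_lit 39672) (nat_lit 6) (nat_lit 522) (nat_lit 5) (nat_lit 175) (nat_lit 189) (nat_lit 206)) (PT.lf (nat_lit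 40888) (nat_lit 6) (nat_lit 538) (nat_lit 5) (nat_lit 176) (nat_lit 189) (nat_lit 205))) (PT.nd (nat_lit 78) (PT.lf (nat_lit 42028) (nat_lit 6) (nat_lit 553) (nat_lit 5) (nat_lit 177) (nat_lit 189) (nat_lit 204)) (PT.lf (nat_lit 43092) (nat_lit 6) (nat_lit 567) (nat_lit 5) (nat_lit 178) (nat_lit 189) (nat_lit 203)))) (PT.nd (nat_lit 156) (PT.nd (nat_lit 78) (PT.lf (nat_lit 44080) (nat_lit 6) (nat_lit 580) (nat_lit 5) (nat_lit 179) (nat_lit 189) (nat_lit 202)) (PT.lf (nat_lit 44992) (nat_lit 6) (nat_lit 592) (nat_lit 5) (nat_lit 180) (nat_lit 189) (nat_lit 201))) (PT.nd (nat_lit 78) (PT.lf (nat_lit 45828) (nat_lit 6) (nat_lit 603) (nat_lit 5) (nat_lit 181) (nat_lit 189) (nat_lit 200)) (PT.lf (nat_lit 46588) (nat_lit 6) (nat_lit 613) (nat_lit 5) (nat_lit 182) (nat_lit 189) (nat_lit 199))))))))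
noncomputable def pc25 : PT := (PT.nd (nat_lit 2262) (PT.nd (nat_lit 1092) (PT.nd (nat_lit 546) (PT.nd (nat_lit 234) (PT.nd (nat_lit 78) (PT.lf (nat_lit 47272) (nat_lit 6) (nat_lit 622) (nat_lit 5) (nat_lit 183) (nat_lit 189) (nat_lit 198)) (PT.nd (nat_lit 78) (PT.lf (nat_lit 47880) (nat_lit 6) (nat_lit 630) (nat_lit 5) (nat_lit 184) (nat_lit 189) (nat_lit 197)) (PT.lf (nat_lit 48412) (nat_lit 6) (nat_lit 637) (nat_lit 5) (nat_lit 185) (nat_lit 189) (nat_lit 196)))) (PT.nd (nat_lit 156) (PT.nd (nat_lit 78) (PT.lf (nat_lit 48868) (nat_lit 6) (nat_lit 643) (nat_lit 5) (nat_lit 186) (nat_lit 189) (nat_lit 195)) (PT.lf (nat_lit 49248) (nat_lit 6) (nat_lit 648) (nat_lit 5) (nat_lit 187) (nat_lit 189) (nat_lit 194))) (PT.nd (nat_lit 78) (PT.lf (nat_lit 49552) (nat_lit 6) (nat_lit 652) (nat_lit 5) (nat_lit 188) (nat_lit 189) (nat_lit 193)) (PT.lf (nat_lit 49780) (nat_lit 3) (nat_lit 655) (nat_lit 3) (nat_lit 189) (nat_lit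 189) (nat_lit 192))))) (PT.nd (nat_lit 234) (PT.nd (nat_lit 78) (PT.lf (nat_lit 50008) (nat_lit 6) (nat_lit 658) (nat_lit 3) (nat_lit 190) (nat_lit 189) (nat_lit 191)) (PT.nd (nat_lit 78) (PT.lf (nat_lit 50008) (nat_lit 6) (nat_lit 658) (nat_lit 1) (nat_lit 191) (nat_lit 189) (nat_lit 190)) (PT.lf (nat_lit 49780) (nat_lit 3) (nat_lit 655) (nat_lit 0) (nat_lit 192) (nat_lit 189) (nat_lit 189)))) (PT.nd (nat_lit 156) (PT.nd (nat_lit 78) (PT.lf (nat_lit 49552) (nat_lit 6) (nat_lit 652) (nat_lit 0) (nat_lit 193) (nat_lit 189) (nat_lit 188)) (PT.lf (nat_lit 49248) (nat_lit 6) (nat_lit 648) (nat_lit 0) (nat_lit 194) (nat_lit 189) (nat_lit 187))) (PT.nd (nat_lit 78) (PT.lf (nat_lit 48868) (nat_lit 6) (nat_lit 643) (nat_lit 0) (nat_lit 195) (nat_lit 189) (nat_lit 186)) (PT.lf (nat_lit 48412) (nat_lit 6) (nat_lit 637) (nat_lit 0) (nat_lit 196) (nat_lit 189) (nat_lit 185)))))) (PT.nd (nat_lit 546) (PT.nd (nat_lit 234) (PT.nd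 (nat_lit 78) (PT.lf (nat_lit 47880) (nat_lit 6) (nat_lit 630) (nat_lit 0) (nat_lit 197) (nat_lit 189) (nat_lit 184)) (PT.nd (nat_lit 78) (PT.lf (nat_lit 47272) (nat_lit 6) (nat_lit 622) (nat_lit 0) (nat_lit 198) (nat_lit 189) (nat_lit 183)) (PT.lf (nat_lit 46588) (nat_lit 6) (nat_lit 613) (nat_lit 0) (nat_lit 199) (nat_lit 189) (nat_lit 182)))) (PT.nd (nat_lit 156) (PT.nd (nat_lit 78) (PT.lf (nat_lit 45828) (nat_lit 6) (nat_lit 603) (nat_lit 0) (nat_lit 200) (nat_lit 189) (nat_lit 181)) (PT.lf (nat_lit 44992) (nat_lit 6) (nat_lit 592) (nat_lit 0) (nat_lit 201) (nat_lit 189) (nat_lit 180))) (PT.nd (nat_lit 78) (PT.lf (nat_lit 44080) (nat_lit 6) (nat_lit 580) (nat_lit 0) (nat_lit 202) (nat_lit 189) (nat_lit 179)) (PT.lf (nat_lit 43092) (nat_lit 6) (nat_lit 567) (nat_lit 0) (nat_lit 203) (nat_lit 189) (nat_lit 178))))) (PT.nd (nat_lit 312) (PT.nd (nat_lit 156) (PT.nd (nat_lit 78) (PT.lf (nat_lit 42028) (nat_lit 6)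 (nat_lit 553) (nat_lit 0) (nat_lit 204) (nat_lit 189) (nat_lit 177)) (PT.lf (nat_lit 40888) (nat_lit 6) (nat_lit 538) (nat_lit 0) (nat_lit 205) (nat_lit 189) (nat_lit 176))) (PT.nd (nat_lit 78) (PT.lf (nat_lit 39672) (nat_lit 6) (nat_lit 522) (nat_lit 0) (nat_lit 206) (nat_lit 189) (nat_lit 175)) (PT.lf (nat_lit 38380) (nat_lit 6) (nat_lit 505) (nat_lit 0) (nat_lit 207) (nat_lit 189) (nat_lit 174)))) (PT.nd (nat_lit 156) (PT.nd (nat_lit 78) (PT.lf (nat_lit 37012) (nat_lit 6) (nat_lit 487) (nat_lit 0) (nat_lit 208) (nat_lit 189) (nat_lit 173)) (PT.lf (nat_lit 35568) (nat_lit 6) (nat_lit 468) (nat_lit 0) (nat_lit 209) (nat_lit 189) (nat_lit 172))) (PT.nd (nat_lit 78) (PT.lf (nat_lit 34048) (nat_lit 6) (nat_lit 448) (nat_lit 0) (nat_lit 210) (nat_lit 189) (nat_lit 171)) (PT.lf (nat_lit 32452) (nat_lit 6) (nat_lit 427) (nat_lit 0) (nat_lit 211) (nat_lit 189) (nat_lit 170))))))) (PT.nd (nat_lit 56862) (PT.nd (nat_lit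 56238) (PT.nd (nat_lit 55926) (PT.nd (nat_lit 78) (PT.lf (nat_lit 30780) (nat_lit 6) (nat_lit 405) (nat_lit 0) (nat_lit 212) (nat_lit 189) (nat_lit 169)) (PT.nd (nat_lit 55770) (PT.lf (nat_lit 29032) (nat_lit 6) (nat_lit 382) (nat_lit 0) (nat_lit 213) (nat_lit 189) (nat_lit 168)) (PT.lf (nat_lit 29108) (nat_lit 6) (nat_lit 383) (nat_lit 5) (nat_lit 167) (nat_lit 190) (nat_lit 213)))) (PT.nd (nat_lit 156) (PT.nd (nat_lit 78) (PT.lf (nat_lit 30856) (nat_lit 6) (nat_lit 406) (nat_lit 5) (nat_lit 168) (nat_lit 190) (nat_lit 212)) (PT.lf (nat_lit 32528) (nat_lit 6) (nat_lit 428) (nat_lit 5) (nat_lit 169) (nat_lit 190) (nat_lit 211))) (PT.nd (nat_lit 78) (PT.lf (nat_lit 34124) (nat_lit 6) (nat_lit 449) (nat_lit 5) (nat_lit 170) (nat_lit 190) (nat_lit 210)) (PT.lf (nat_lit 35644) (nat_lit 6) (nat_lit 469) (nat_lit 5) (nat_lit 171) (nat_lit 190) (nat_lit 209))))) (PT.nd (nat_lit 312) (PT.nd (nat_lit 156) (PT.nd (nat_lit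 78) (PT.lf (nat_lit 37088) (nat_lit 6) (nat_lit 488) (nat_lit 5) (nat_lit 172) (nat_lit 190) (nat_lit 208)) (PT.lf (nat_lit 38456) (nat_lit 6) (nat_lit 506) (nat_lit 5) (nat_lit 173) (nat_lit 190) (nat_lit 207))) (PT.nd (nat_lit 78) (PT.lf (nat_lit 39748) (nat_lit 6) (nat_lit 523) (nat_lit 5) (nat_lit 174) (nat_lit 190) (nat_lit 206)) (PT.lf (nat_lit 40964) (nat_lit 6) (nat_lit 539) (nat_lit 5) (nat_lit 175) (nat_lit 190) (nat_lit 205)))) (PT.nd (nat_lit 156) (PT.nd (nat_lit 78) (PT.lf (nat_lit 42104) (nat_lit 6) (nat_lit 554) (nat_lit 5) (nat_lit 176) (nat_lit 190) (nat_lit 204)) (PT.lf (nat_lit 43168) (nat_lit 6) (nat_lit 568) (nat_lit 5) (nat_lit 177) (nat_lit 190) (nat_lit 203))) (PT.nd (nat_lit 78) (PT.lf (nat_lit 44156) (nat_lit 6) (nat_lit 581) (nat_lit 5) (nat_lit 178) (nat_lit 190) (nat_lit 202)) (PT.lf (nat_lit 45068) (nat_lit 6) (nat_lit 593) (nat_lit 5) (nat_lit 179) (nat_lit 190) (nat_lit 201))))))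 (PT.nd (nat_lit 546) (PT.nd (nat_lit 234) (PT.nd (nat_lit 78) (PT.lf (nat_lit 45904) (nat_lit 6) (nat_lit 604) (nat_lit 5) (nat_lit 180) (nat_lit 190) (nat_lit 200)) (PT.nd (nat_lit 78) (PT.lf (nat_lit 46664) (nat_lit 6) (nat_lit 614) (nat_lit 5) (nat_lit 181) (nat_lit 190) (nat_lit 199)) (PT.lf (nat_lit 47348) (nat_lit 6) (nat_lit 623) (nat_lit 5) (nat_lit 182) (nat_lit 190) (nat_lit 198)))) (PT.nd (nat_lit 156) (PT.nd (nat_lit 78) (PT.lf (nat_lit 47956) (nat_lit 6) (nat_lit 631) (nat_lit 5) (nat_lit 183) (nat_lit 190) (nat_lit 197)) (PT.lf (nat_lit 48488) (nat_lit 6) (nat_lit 638) (nat_lit 5) (nat_lit 184) (nat_lit 190) (nat_lit 196))) (PT.nd (nat_lit 78) (PT.lf (nat_lit 48944) (nat_lit 6) (nat_lit 644) (nat_lit 5) (nat_lit 185) (nat_lit 190) (nat_lit 195)) (PT.lf (nat_lit 49324) (nat_lit 6) (nat_lit 649) (nat_lit 5) (nat_lit 186) (nat_lit 190) (nat_lit 194))))) (PT.nd (nat_lit 312) (PT.nd (nat_lit 156) (PT.nd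 (nat_lit 78) (PT.lf (nat_lit 49628) (nat_lit 6) (nat_lit 653) (nat_lit 5) (nat_lit 187) (nat_lit 190) (nat_lit 193)) (PT.lf (nat_lit 49856) (nat_lit 6) (nat_lit 656) (nat_lit 5) (nat_lit 188) (nat_lit 190) (nat_lit 192))) (PT.nd (nat_lit 78) (PT.lf (nat_lit 50008) (nat_lit 6) (nat_lit 658) (nat_lit 5) (nat_lit 189) (nat_lit 190) (nat_lit 191)) (PT.lf (nat_lit 50084) (nat_lit 1) (nat_lit 659) (nat_lit 0) (nat_lit 190) (nat_lit 190) (nat_lit 190)))) (PT.nd (nat_lit 156) (PT.nd (nat_lit 78) (PT.lf (nat_lit 50008) (nat_lit 6) (nat_lit 658) (nat_lit 0) (nat_lit 191) (nat_lit 190) (nat_lit 189)) (PT.lf (nat_lit 49856) (nat_lit 6) (nat_lit 656) (nat_lit 0) (nat_lit 192) (nat_lit 190) (nat_lit 188))) (PT.nd (nat_lit 78) (PT.lf (nat_lit 49628) (nat_lit 6) (nat_lit 653) (nat_lit 0) (nat_lit 193) (nat_lit 190) (nat_lit 187)) (PT.lf (nat_lit 49324) (nat_lit 6) (nat_lit 649) (nat_lit 0) (nat_lit 194) (nat_lit 190) (nat_lit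 186))))))))
noncomputable def pc26 : PT := (PT.nd (nat_lit 57798) (PT.nd (nat_lit 1092) (PT.nd (nat_lit 546) (PT.nd (nat_lit 234) (PT.nd (nat_lit 78) (PT.lf (nat_lit 48944) (nat_lit 6) (nat_lit 644) (nat_lit 0) (nat_lit 195) (nat_lit 190) (nat_lit 185)) (PT.nd (nat_lit 78) (PT.lf (nat_lit 48488) (nat_lit 6) (nat_lit 638) (nat_lit 0) (nat_lit 196) (nat_lit 190) (nat_lit 184)) (PT.lf (nat_lit 47956) (nat_lit 6) (nat_lit 631) (nat_lit 0) (nat_lit 197) (nat_lit 190) (nat_lit 183)))) (PT.nd (nat_lit 156) (PT.nd (nat_lit 78) (PT.lf (nat_lit 47348) (nat_lit 6) (nat_lit 623) (nat_lit 0) (nat_lit 198) (nat_lit 190) (nat_lit 182)) (PT.lf (nat_lit 46664) (nat_lit 6) (nat_lit 614) (nat_lit 0) (nat_lit 199) (nat_lit 190) (nat_lit 181))) (PT.nd (nat_lit 78) (PT.lf (nat_lit 45904) (nat_lit 6) (nat_lit 604) (nat_lit 0) (nat_lit 200) (nat_lit 190) (nat_lit 180)) (PT.lf (nat_lit 45068) (nat_lit 6) (nat_lit 593) (nat_lit 0) (nat_lit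 201) (nat_lit 190) (nat_lit 179))))) (PT.nd (nat_lit 234) (PT.nd (nat_lit 78) (PT.lf (nat_lit 44156) (nat_lit 6) (nat_lit 581) (nat_lit 0) (nat_lit 202) (nat_lit 190) (nat_lit 178)) (PT.nd (nat_lit 78) (PT.lf (nat_lit 43168) (nat_lit 6) (nat_lit 568) (nat_lit 0) (nat_lit 203) (nat_lit 190) (nat_lit 177)) (PT.lf (nat_lit 42104) (nat_lit 6) (nat_lit 554) (nat_lit 0) (nat_lit 204) (nat_lit 190) (nat_lit 176)))) (PT.nd (nat_lit 156) (PT.nd (nat_lit 78) (PT.lf (nat_lit 40964) (nat_lit 6) (nat_lit 539) (nat_lit 0) (nat_lit 205) (nat_lit 190) (nat_lit 175)) (PT.lf (nat_lit 39748) (nat_lit 6) (nat_lit 523) (nat_lit 0) (nat_lit 206) (nat_lit 190) (nat_lit 174))) (PT.nd (nat_lit 78) (PT.lf (nat_lit 38456) (nat_lit 6) (nat_lit 506) (nat_lit 0) (nat_lit 207) (nat_lit 190) (nat_lit 173)) (PT.lf (nat_lit 37088) (nat_lit 6) (nat_lit 488) (nat_lit 0) (nat_lit 208) (nat_lit 190) (nat_lit 172)))))) (PT.nd (nat_lit 56082) (PT.nd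 (nat_lit 234) (PT.nd (nat_lit 78) (PT.lf (nat_lit 35644) (nat_lit 6) (nat_lit 469) (nat_lit 0) (nat_lit 209) (nat_lit 190) (nat_lit 171)) (PT.nd (nat_lit 78) (PT.lf (nat_lit 34124) (nat_lit 6) (nat_lit 449) (nat_lit 0) (nat_lit 210) (nat_lit 190) (nat_lit 170)) (PT.lf (nat_lit 32528) (nat_lit 6) (nat_lit 428) (nat_lit 0) (nat_lit 211) (nat_lit 190) (nat_lit 169)))) (PT.nd (nat_lit 55692) (PT.nd (nat_lit 78) (PT.lf (nat_lit 30856) (nat_lit 6) (nat_lit 406) (nat_lit 0) (nat_lit 212) (nat_lit 190) (nat_lit 168)) (PT.lf (nat_lit 29108) (nat_lit 6) (nat_lit 383) (nat_lit 0) (nat_lit 213) (nat_lit 190) (nat_lit 167))) (PT.nd (nat_lit 78) (PT.lf (nat_lit 26752) (nat_lit 6) (nat_lit 352) (nat_lit 5) (nat_lit 165) (nat_lit 191) (nat_lit 214)) (PT.lf (nat_lit 27664) (nat_lit 6) (nat_lit 364) (nat_lit 5) (nat_lit 166) (nat_lit 191) (nat_lit 213))))) (PT.nd (nat_lit 312) (PT.nd (nat_lit 156) (PT.nd (nat_lit 78) (PT.lf (nat_lit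 29184) (nat_lit 6) (nat_lit 384) (nat_lit 5) (nat_lit 167) (nat_lit 191) (nat_lit 212)) (PT.lf (nat_lit 30932) (nat_lit 6) (nat_lit 407) (nat_lit 5) (nat_lit 168) (nat_lit 191) (nat_lit 211))) (PT.nd (nat_lit 78) (PT.lf (nat_lit 32604) (nat_lit 6) (nat_lit 429) (nat_lit 5) (nat_lit 169) (nat_lit 191) (nat_lit 210)) (PT.lf (nat_lit 34200) (nat_lit 6) (nat_lit 450) (nat_lit 5) (nat_lit 170) (nat_lit 191) (nat_lit 209)))) (PT.nd (nat_lit 156) (PT.nd (nat_lit 78) (PT.lf (nat_lit 35720) (nat_lit 6) (nat_lit 470) (nat_lit 5) (nat_lit 171) (nat_lit 191) (nat_lit 208)) (PT.lf (nat_lit 37164) (nat_lit 6) (nat_lit 489) (nat_lit 5) (nat_lit 172) (nat_lit 191) (nat_lit 207))) (PT.nd (nat_lit 78) (PT.lf (nat_lit 38532) (nat_lit 6) (nat_lit 507) (nat_lit 5) (nat_lit 173) (nat_lit 191) (nat_lit 206)) (PT.lf (nat_lit 39824) (nat_lit 6) (nat_lit 524) (nat_lit 5) (nat_lit 174) (nat_lit 191) (nat_lit 205))))))) (PT.nd (nat_lit 1092)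 (PT.nd (nat_lit 546) (PT.nd (nat_lit 234) (PT.nd (nat_lit 78) (PT.lf (nat_lit 41040) (nat_lit 6) (nat_lit 540) (nat_lit 5) (nat_lit 175) (nat_lit 191) (nat_lit 204)) (PT.nd (nat_lit 78) (PT.lf (nat_lit 42180) (nat_lit 6) (nat_lit 555) (nat_lit 5) (nat_lit 176) (nat_lit 191) (nat_lit 203)) (PT.lf (nat_lit 43244) (nat_lit 6) (nat_lit 569) (nat_lit 5) (nat_lit 177) (nat_lit 191) (nat_lit 202)))) (PT.nd (nat_lit 156) (PT.nd (nat_lit 78) (PT.lf (nat_lit 44232) (nat_lit 6) (nat_lit 582) (nat_lit 5) (nat_lit 178) (nat_lit 191) (nat_lit 201)) (PT.lf (nat_lit 45144) (nat_lit 6) (nat_lit 594) (nat_lit 5) (nat_lit 179) (nat_lit 191) (nat_lit 200))) (PT.nd (nat_lit 78) (PT.lf (nat_lit 45980) (nat_lit 6) (nat_lit 605) (nat_lit 5) (nat_lit 180) (nat_lit 191) (nat_lit 199)) (PT.lf (nat_lit 46740) (nat_lit 6) (nat_lit 615) (nat_lit 5) (nat_lit 181) (nat_lit 191) (nat_lit 198))))) (PT.nd (nat_lit 234) (PT.nd (nat_lit 78) (PT.lf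 (nat_lit 47424) (nat_lit 6) (nat_lit 624) (nat_lit 5) (nat_lit 182) (nat_lit 191) (nat_lit 197)) (PT.nd (nat_lit 78) (PT.lf (nat_lit 48032) (nat_lit 6) (nat_lit 632) (nat_lit 5) (nat_lit 183) (nat_lit 191) (nat_lit 196)) (PT.lf (nat_lit 48564) (nat_lit 6) (nat_lit 639) (nat_lit 5) (nat_lit 184) (nat_lit 191) (nat_lit 195)))) (PT.nd (nat_lit 156) (PT.nd (nat_lit 78) (PT.lf (nat_lit 49020) (nat_lit 6) (nat_lit 645) (nat_lit 5) (nat_lit 185) (nat_lit 191) (nat_lit 194)) (PT.lf (nat_lit 49400) (nat_lit 6) (nat_lit 650) (nat_lit 5) (nat_lit 186) (nat_lit 191) (nat_lit 193))) (PT.nd (nat_lit 78) (PT.lf (nat_lit 49704) (nat_lit 6) (nat_lit 654) (nat_lit 5) (nat_lit 187) (nat_lit 191) (nat_lit 192)) (PT.lf (nat_lit 49932) (nat_lit 3) (nat_lit 657) (nat_lit 4) (nat_lit 188) (nat_lit 191) (nat_lit 191)))))) (PT.nd (nat_lit 546) (PT.nd (nat_lit 234) (PT.nd (nat_lit 78) (PT.lf (nat_lit 50008) (nat_lit 6) (nat_lit 658) (nat_lit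 4) (nat_lit 189) (nat_lit 191) (nat_lit 190)) (PT.nd (nat_lit 78) (PT.lf (nat_lit 50008) (nat_lit 6) (nat_lit 658) (nat_lit 2) (nat_lit 190) (nat_lit 191) (nat_lit 189)) (PT.lf (nat_lit 49932) (nat_lit 3) (nat_lit 657) (nat_lit 0) (nat_lit 191) (nat_lit 191) (nat_lit 188)))) (PT.nd (nat_lit 156) (PT.nd (nat_lit 78) (PT.lf (nat_lit 49704) (nat_lit 6) (nat_lit 654) (nat_lit 0) (nat_lit 192) (nat_lit 191) (nat_lit 187)) (PT.lf (nat_lit 49400) (nat_lit 6) (nat_lit 650) (nat_lit 0) (nat_lit 193) (nat_lit 191) (nat_lit 186))) (PT.nd (nat_lit 78) (PT.lf (nat_lit 49020) (nat_lit 6) (nat_lit 645) (nat_lit 0) (nat_lit 194) (nat_lit 191) (nat_lit 185)) (PT.lf (nat_lit 48564) (nat_lit 6) (nat_lit 639) (nat_lit 0) (nat_lit 195) (nat_lit 191) (nat_lit 184))))) (PT.nd (nat_lit 312) (PT.nd (nat_lit 156) (PT.nd (nat_lit 78) (PT.lf (nat_lit 48032) (nat_lit 6) (nat_lit 632) (nat_lit 0) (nat_lit 196) (nat_lit 191) (nat_lit 183)) (PT.lf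 (nat_lit 47424) (nat_lit 6) (nat_lit 624) (nat_lit 0) (nat_lit 197) (nat_lit 191) (nat_lit 182))) (PT.nd (nat_lit 78) (PT.lf (nat_lit 46740) (nat_lit 6) (nat_lit 615) (nat_lit 0) (nat_lit 198) (nat_lit 191) (nat_lit 181)) (PT.lf (nat_lit 45980) (nat_lit 6) (nat_lit 605) (nat_lit 0) (nat_lit 199) (nat_lit 191) (nat_lit 180)))) (PT.nd (nat_lit 156) (PT.nd (nat_lit 78) (PT.lf (nat_lit 45144) (nat_lit 6) (nat_lit 594) (nat_lit 0) (nat_lit 200) (nat_lit 191) (nat_lit 179)) (PT.lf (nat_lit 44232) (nat_lit 6) (nat_lit 582) (nat_lit 0) (nat_lit 201) (nat_lit 191) (nat_lit 178))) (PT.nd (nat_lit 78) (PT.lf (nat_lit 43244) (nat_lit 6) (nat_lit 569) (nat_lit 0) (nat_lit 202) (nat_lit 191) (nat_lit 177)) (PT.lf (nat_lit 42180) (nat_lit 6) (nat_lit 555) (nat_lit 0) (nat_lit 203) (nat_lit 191) (nat_lit 176))))))))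
noncomputable def pc27 : PT := (PT.nd (nat_lit 57642) (PT.nd (nat_lit 56472) (PT.nd (nat_lit 546) (PT.nd (nat_lit 234) (PT.nd (nat_lit 78) (PT.lf (nat_lit 41040) (nat_lit 6) (nat_lit 540) (nat_lit 0) (nat_lit 204) (nat_lit 191) (nat_lit 175)) (PT.nd (nat_lit 78) (PT.lf (nat_lit 39824) (nat_lit 6) (nat_lit 524) (nat_lit 0) (nat_lit 205) (nat_lit 191) (nat_lit 174)) (PT.lf (nat_lit 38532) (nat_lit 6) (nat_lit 507) (nat_lit 0) (nat_lit 206) (nat_lit 191) (nat_lit 173)))) (PT.nd (nat_lit 156) (PT.nd (nat_lit 78) (PT.lf (nat_lit 37164) (nat_lit 6) (nat_lit 489) (nat_lit 0) (nat_lit 207) (nat_lit 191) (nat_lit 172)) (PT.lf (nat_lit 35720) (nat_lit 6) (nat_lit 470) (nat_lit 0) (nat_lit 208) (nat_lit 191) (nat_lit 171))) (PT.nd (nat_lit 78) (PT.lf (nat_lit 34200) (nat_lit 6) (nat_lit 450) (nat_lit 0) (nat_lit 209) (nat_lit 191) (nat_lit 170)) (PT.lf (nat_lit 32604) (nat_lit 6) (nat_lit 429) (nat_lit 0) (nat_lit 210) (nat_lit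 191) (nat_lit 169))))) (PT.nd (nat_lit 234) (PT.nd (nat_lit 78) (PT.lf (nat_lit 30932) (nat_lit 6) (nat_lit 407) (nat_lit 0) (nat_lit 211) (nat_lit 191) (nat_lit 168)) (PT.nd (nat_lit 78) (PT.lf (nat_lit 29184) (nat_lit 6) (nat_lit 384) (nat_lit 0) (nat_lit 212) (nat_lit 191) (nat_lit 167)) (PT.lf (nat_lit 27664) (nat_lit 6) (nat_lit 364) (nat_lit 0) (nat_lit 213) (nat_lit 191) (nat_lit 166)))) (PT.nd (nat_lit 55536) (PT.nd (nat_lit 55458) (PT.lf (nat_lit 26752) (nat_lit 6) (nat_lit 352) (nat_lit 0) (nat_lit 214) (nat_lit 191) (nat_lit 165)) (PT.lf (nat_lit 25840) (nat_lit 6) (nat_lit 340) (nat_lit 5) (nat_lit 164) (nat_lit 192) (nat_lit 214))) (PT.nd (nat_lit 78) (PT.lf (nat_lit 26828) (nat_lit 6) (nat_lit 353) (nat_lit 5) (nat_lit 165) (nat_lit 192) (nat_lit 213)) (PT.lf (nat_lit 27740) (nat_lit 6) (nat_lit 365) (nat_lit 5) (nat_lit 166) (nat_lit 192) (nat_lit 212)))))) (PT.nd (nat_lit 546) (PT.nd (nat_lit 234)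 (PT.nd (nat_lit 78) (PT.lf (nat_lit 29260) (nat_lit 6) (nat_lit 385) (nat_lit 5) (nat_lit 167) (nat_lit 192) (nat_lit 211)) (PT.nd (nat_lit 78) (PT.lf (nat_lit 31008) (nat_lit 6) (nat_lit 408) (nat_lit 5) (nat_lit 168) (nat_lit 192) (nat_lit 210)) (PT.lf (nat_lit 32680) (nat_lit 6) (nat_lit 430) (nat_lit 5) (nat_lit 169) (nat_lit 192) (nat_lit 209)))) (PT.nd (nat_lit 156) (PT.nd (nat_lit 78) (PT.lf (nat_lit 34276) (nat_lit 6) (nat_lit 451) (nat_lit 5) (nat_lit 170) (nat_lit 192) (nat_lit 208)) (PT.lf (nat_lit 35796) (nat_lit 6) (nat_lit 471) (nat_lit 5) (nat_lit 171) (nat_lit 192) (nat_lit 207))) (PT.nd (nat_lit 78) (PT.lf (nat_lit 37240) (nat_lit 6) (nat_lit 490) (nat_lit 5) (nat_lit 172) (nat_lit 192) (nat_lit 206)) (PT.lf (nat_lit 38608) (nat_lit 6) (nat_lit 508) (nat_lit 5) (nat_lit 173) (nat_lit 192) (nat_lit 205))))) (PT.nd (nat_lit 312) (PT.nd (nat_lit 156) (PT.nd (nat_lit 78) (PT.lf (nat_lit 39900) (nat_lit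 6) (nat_lit 525) (nat_lit 5) (nat_lit 174) (nat_lit 192) (nat_lit 204)) (PT.lf (nat_lit 41116) (nat_lit 6) (nat_lit 541) (nat_lit 5) (nat_lit 175) (nat_lit 192) (nat_lit 203))) (PT.nd (nat_lit 78) (PT.lf (nat_lit 42256) (nat_lit 6) (nat_lit 556) (nat_lit 5) (nat_lit 176) (nat_lit 192) (nat_lit 202)) (PT.lf (nat_lit 43320) (nat_lit 6) (nat_lit 570) (nat_lit 5) (nat_lit 177) (nat_lit 192) (nat_lit 201)))) (PT.nd (nat_lit 156) (PT.nd (nat_lit 78) (PT.lf (nat_lit 44308) (nat_lit 6) (nat_lit 583) (nat_lit 5) (nat_lit 178) (nat_lit 192) (nat_lit 200)) (PT.lf (nat_lit 45220) (nat_lit 6) (nat_lit 595) (nat_lit 5) (nat_lit 179) (nat_lit 192) (nat_lit 199))) (PT.nd (nat_lit 78) (PT.lf (nat_lit 46056) (nat_lit 6) (nat_lit 606) (nat_lit 5) (nat_lit 180) (nat_lit 192) (nat_lit 198)) (PT.lf (nat_lit 46816) (nat_lit 6) (nat_lit 616) (nat_lit 5) (nat_lit 181) (nat_lit 192) (nat_lit 197))))))) (PT.nd (nat_lit 1170) (PT.nd (nat_lit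 546) (PT.nd (nat_lit 234) (PT.nd (nat_lit 78) (PT.lf (nat_lit 47500) (nat_lit 6) (nat_lit 625) (nat_lit 5) (nat_lit 182) (nat_lit 192) (nat_lit 196)) (PT.nd (nat_lit 78) (PT.lf (nat_lit 48108) (nat_lit 6) (nat_lit 633) (nat_lit 5) (nat_lit 183) (nat_lit 192) (nat_lit 195)) (PT.lf (nat_lit 48640) (nat_lit 6) (nat_lit 640) (nat_lit 5) (nat_lit 184) (nat_lit 192) (nat_lit 194)))) (PT.nd (nat_lit 156) (PT.nd (nat_lit 78) (PT.lf (nat_lit 49096) (nat_lit 6) (nat_lit 646) (nat_lit 5) (nat_lit 185) (nat_lit 192) (nat_lit 193)) (PT.lf (nat_lit 49476) (nat_lit 3) (nat_lit 651) (nat_lit 4) (nat_lit 186) (nat_lit 192) (nat_lit 192))) (PT.nd (nat_lit 78) (PT.lf (nat_lit 49704) (nat_lit 6) (nat_lit 654) (nat_lit 4) (nat_lit 187) (nat_lit 192) (nat_lit 191)) (PT.lf (nat_lit 49856) (nat_lit 6) (nat_lit 656) (nat_lit 4) (nat_lit 188) (nat_lit 192) (nat_lit 190))))) (PT.nd (nat_lit 312) (PT.nd (nat_lit 156) (PT.nd (nat_lit 78) (PT.lf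 (nat_lit 49780) (nat_lit 3) (nat_lit 655) (nat_lit 2) (nat_lit 189) (nat_lit 192) (nat_lit 189)) (PT.lf (nat_lit 49856) (nat_lit 6) (nat_lit 656) (nat_lit 2) (nat_lit 190) (nat_lit 192) (nat_lit 188))) (PT.nd (nat_lit 78) (PT.lf (nat_lit 49704) (nat_lit 6) (nat_lit 654) (nat_lit 2) (nat_lit 191) (nat_lit 192) (nat_lit 187)) (PT.lf (nat_lit 49476) (nat_lit 3) (nat_lit 651) (nat_lit 0) (nat_lit 192) (nat_lit 192) (nat_lit 186)))) (PT.nd (nat_lit 156) (PT.nd (nat_lit 78) (PT.lf (nat_lit 49096) (nat_lit 6) (nat_lit 646) (nat_lit 0) (nat_lit 193) (nat_lit 192) (nat_lit 185)) (PT.lf (nat_lit 48640) (nat_lit 6) (nat_lit 640) (nat_lit 0) (nat_lit 194) (nat_lit 192) (nat_lit 184))) (PT.nd (nat_lit 78) (PT.lf (nat_lit 48108) (nat_lit 6) (nat_lit 633) (nat_lit 0) (nat_lit 195) (nat_lit 192) (nat_lit 183)) (PT.lf (nat_lit 47500) (nat_lit 6) (nat_lit 625) (nat_lit 0) (nat_lit 196) (nat_lit 192) (nat_lit 182)))))) (PT.nd (nat_lit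 546) (PT.nd (nat_lit 234) (PT.nd (nat_lit 78) (PT.lf (nat_lit 46816) (nat_lit 6) (nat_lit 616) (nat_lit 0) (nat_lit 197) (nat_lit 192) (nat_lit 181)) (PT.nd (nat_lit 78) (PT.lf (nat_lit 46056) (nat_lit 6) (nat_lit 606) (nat_lit 0) (nat_lit 198) (nat_lit 192) (nat_lit 180)) (PT.lf (nat_lit 45220) (nat_lit 6) (nat_lit 595) (nat_lit 0) (nat_lit 199) (nat_lit 192) (nat_lit 179)))) (PT.nd (nat_lit 156) (PT.nd (nat_lit 78) (PT.lf (nat_lit 44308) (nat_lit 6) (nat_lit 583) (nat_lit 0) (nat_lit 200) (nat_lit 192) (nat_lit 178)) (PT.lf (nat_lit 43320) (nat_lit 6) (nat_lit 570) (nat_lit 0) (nat_lit 201) (nat_lit 192) (nat_lit 177))) (PT.nd (nat_lit 78) (PT.lf (nat_lit 42256) (nat_lit 6) (nat_lit 556) (nat_lit 0) (nat_lit 202) (nat_lit 192) (nat_lit 176)) (PT.lf (nat_lit 41116) (nat_lit 6) (nat_lit 541) (nat_lit 0) (nat_lit 203) (nat_lit 192) (nat_lit 175))))) (PT.nd (nat_lit 312) (PT.nd (nat_lit 156) (PT.nd (nat_lit 78) (PT.lf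 (nat_lit 39900) (nat_lit 6) (nat_lit 525) (nat_lit 0) (nat_lit 204) (nat_lit 192) (nat_lit 174)) (PT.lf (nat_lit 38608) (nat_lit 6) (nat_lit 508) (nat_lit 0) (nat_lit 205) (nat_lit 192) (nat_lit 173))) (PT.nd (nat_lit 78) (PT.lf (nat_lit 37240) (nat_lit 6) (nat_lit 490) (nat_lit 0) (nat_lit 206) (nat_lit 192) (nat_lit 172)) (PT.lf (nat_lit 35796) (nat_lit 6) (nat_lit 471) (nat_lit 0) (nat_lit 207) (nat_lit 192) (nat_lit 171)))) (PT.nd (nat_lit 156) (PT.nd (nat_lit 78) (PT.lf (nat_lit 34276) (nat_lit 6) (nat_lit 451) (nat_lit 0) (nat_lit 208) (nat_lit 192) (nat_lit 170)) (PT.lf (nat_lit 32680) (nat_lit 6) (nat_lit 430) (nat_lit 0) (nat_lit 209) (nat_lit 192) (nat_lit 169))) (PT.nd (nat_lit 78) (PT.lf (nat_lit 31008) (nat_lit 6) (nat_lit 408) (nat_lit 0) (nat_lit 210) (nat_lit 192) (nat_lit 168)) (PT.lf (nat_lit 29260) (nat_lit 6) (nat_lit 385) (nat_lit 0) (nat_lit 211) (nat_lit 192) (nat_lit 167))))))))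
noncomputable def pc28 : PT := (PT.nd (nat_lit 57564) (PT.nd (nat_lit 56394) (PT.nd (nat_lit 55848) (PT.nd (nat_lit 55536) (PT.nd (nat_lit 78) (PT.lf (nat_lit 27740) (nat_lit 6) (nat_lit 365) (nat_lit 0) (nat_lit 212) (nat_lit 192) (nat_lit 166)) (PT.nd (nat_lit 78) (PT.lf (nat_lit 26828) (nat_lit 6) (nat_lit 353) (nat_lit 0) (nat_lit 213) (nat_lit 192) (nat_lit 165)) (PT.lf (nat_lit 25840) (nat_lit 6) (nat_lit 340) (nat_lit 0) (nat_lit 214) (nat_lit 192) (nat_lit 164)))) (PT.nd (nat_lit 156) (PT.nd (nat_lit 78) (PT.lf (nat_lit 25004) (nat_lit 6) (nat_lit 329) (nat_lit 5) (nat_lit 163) (nat_lit 193) (nat_lit 214)) (PT.lf (nat_lit 25916) (nat_lit 6) (nat_lit 341) (nat_lit 5) (nat_lit 164) (nat_lit 193) (nat_lit 213))) (PT.nd (nat_lit 78) (PT.lf (nat_lit 26904) (nat_lit 6) (nat_lit 354) (nat_lit 5) (nat_lit 165) (nat_lit 193) (nat_lit 212)) (PT.lf (nat_lit 27816) (nat_lit 6) (nat_lit 366) (nat_lit 5) (nat_lit 166)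 (nat_lit 193) (nat_lit 211))))) (PT.nd (nat_lit 234) (PT.nd (nat_lit 78) (PT.lf (nat_lit 29336) (nat_lit 6) (nat_lit 386) (nat_lit 5) (nat_lit 167) (nat_lit 193) (nat_lit 210)) (PT.nd (nat_lit 78) (PT.lf (nat_lit 31084) (nat_lit 6) (nat_lit 409) (nat_lit 5) (nat_lit 168) (nat_lit 193) (nat_lit 209)) (PT.lf (nat_lit 32756) (nat_lit 6) (nat_lit 431) (nat_lit 5) (nat_lit 169) (nat_lit 193) (nat_lit 208)))) (PT.nd (nat_lit 156) (PT.nd (nat_lit 78) (PT.lf (nat_lit 34352) (nat_lit 6) (nat_lit 452) (nat_lit 5) (nat_lit 170) (nat_lit 193) (nat_lit 207)) (PT.lf (nat_lit 35872) (nat_lit 6) (nat_lit 472) (nat_lit 5) (nat_lit 171) (nat_lit 193) (nat_lit 206))) (PT.nd (nat_lit 78) (PT.lf (nat_lit 37316) (nat_lit 6) (nat_lit 491) (nat_lit 5) (nat_lit 172) (nat_lit 193) (nat_lit 205)) (PT.lf (nat_lit 38684) (nat_lit 6) (nat_lit 509) (nat_lit 5) (nat_lit 173) (nat_lit 193) (nat_lit 204)))))) (PT.nd (nat_lit 546) (PT.nd (nat_lit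 234) (PT.nd (nat_lit 78) (PT.lf (nat_lit 39976) (nat_lit 6) (nat_lit 526) (nat_lit 5) (nat_lit 174) (nat_lit 193) (nat_lit 203)) (PT.nd (nat_lit 78) (PT.lf (nat_lit 41192) (nat_lit 6) (nat_lit 542) (nat_lit 5) (nat_lit 175) (nat_lit 193) (nat_lit 202)) (PT.lf (nat_lit 42332) (nat_lit 6) (nat_lit 557) (nat_lit 5) (nat_lit 176) (nat_lit 193) (nat_lit 201)))) (PT.nd (nat_lit 156) (PT.nd (nat_lit 78) (PT.lf (nat_lit 43396) (nat_lit 6) (nat_lit 571) (nat_lit 5) (nat_lit 177) (nat_lit 193) (nat_lit 200)) (PT.lf (nat_lit 44384) (nat_lit 6) (nat_lit 584) (nat_lit 5) (nat_lit 178) (nat_lit 193) (nat_lit 199))) (PT.nd (nat_lit 78) (PT.lf (nat_lit 45296) (nat_lit 6) (nat_lit 596) (nat_lit 5) (nat_lit 179) (nat_lit 193) (nat_lit 198)) (PT.lf (nat_lit 46132) (nat_lit 6) (nat_lit 607) (nat_lit 5) (nat_lit 180) (nat_lit 193) (nat_lit 197))))) (PT.nd (nat_lit 312) (PT.nd (nat_lit 156) (PT.nd (nat_lit 78) (PT.lf (nat_lit 46892)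 (nat_lit 6) (nat_lit 617) (nat_lit 5) (nat_lit 181) (nat_lit 193) (nat_lit 196)) (PT.lf (nat_lit 47576) (nat_lit 6) (nat_lit 626) (nat_lit 5) (nat_lit 182) (nat_lit 193) (nat_lit 195))) (PT.nd (nat_lit 78) (PT.lf (nat_lit 48184) (nat_lit 6) (nat_lit 634) (nat_lit 5) (nat_lit 183) (nat_lit 193) (nat_lit 194)) (PT.lf (nat_lit 48716) (nat_lit 3) (nat_lit 641) (nat_lit 4) (nat_lit 184) (nat_lit 193) (nat_lit 193)))) (PT.nd (nat_lit 156) (PT.nd (nat_lit 78) (PT.lf (nat_lit 49096) (nat_lit 6) (nat_lit 646) (nat_lit 4) (nat_lit 185) (nat_lit 193) (nat_lit 192)) (PT.lf (nat_lit 49400) (nat_lit 6) (nat_lit 650) (nat_lit 4) (nat_lit 186) (nat_lit 193) (nat_lit 191))) (PT.nd (nat_lit 78) (PT.lf (nat_lit 49628) (nat_lit 6) (nat_lit 653) (nat_lit 4) (nat_lit 187) (nat_lit 193) (nat_lit 190)) (PT.lf (nat_lit 49552) (nat_lit 6) (nat_lit 652) (nat_lit 4) (nat_lit 188) (nat_lit 193) (nat_lit 189))))))) (PT.nd (nat_lit 1092) (PT.nd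 (nat_lit 546) (PT.nd (nat_lit 234) (PT.nd (nat_lit 78) (PT.lf (nat_lit 49552) (nat_lit 6) (nat_lit 652) (nat_lit 2) (nat_lit 189) (nat_lit 193) (nat_lit 188)) (PT.nd (nat_lit 78) (PT.lf (nat_lit 49628) (nat_lit 6) (nat_lit 653) (nat_lit 2) (nat_lit 190) (nat_lit 193) (nat_lit 187)) (PT.lf (nat_lit 49400) (nat_lit 6) (nat_lit 650) (nat_lit 2) (nat_lit 191) (nat_lit 193) (nat_lit 186)))) (PT.nd (nat_lit 156) (PT.nd (nat_lit 78) (PT.lf (nat_lit 49096) (nat_lit 6) (nat_lit 646) (nat_lit 2) (nat_lit 192) (nat_lit 193) (nat_lit 185)) (PT.lf (nat_lit 48716) (nat_lit 3) (nat_lit 641) (nat_lit 0) (nat_lit 193) (nat_lit 193) (nat_lit 184))) (PT.nd (nat_lit 78) (PT.lf (nat_lit 48184) (nat_lit 6) (nat_lit 634) (nat_lit 0) (nat_lit 194) (nat_lit 193) (nat_lit 183)) (PT.lf (nat_lit 47576) (nat_lit 6) (nat_lit 626) (nat_lit 0) (nat_lit 195) (nat_lit 193) (nat_lit 182))))) (PT.nd (nat_lit 234) (PT.nd (nat_lit 78) (PT.lf (nat_lit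 46892) (nat_lit 6) (nat_lit 617) (nat_lit 0) (nat_lit 196) (nat_lit 193) (nat_lit 181)) (PT.nd (nat_lit 78) (PT.lf (nat_lit 46132) (nat_lit 6) (nat_lit 607) (nat_lit 0) (nat_lit 197) (nat_lit 193) (nat_lit 180)) (PT.lf (nat_lit 45296) (nat_lit 6) (nat_lit 596) (nat_lit 0) (nat_lit 198) (nat_lit 193) (nat_lit 179)))) (PT.nd (nat_lit 156) (PT.nd (nat_lit 78) (PT.lf (nat_lit 44384) (nat_lit 6) (nat_lit 584) (nat_lit 0) (nat_lit 199) (nat_lit 193) (nat_lit 178)) (PT.lf (nat_lit 43396) (nat_lit 6) (nat_lit 571) (nat_lit 0) (nat_lit 200) (nat_lit 193) (nat_lit 177))) (PT.nd (nat_lit 78) (PT.lf (nat_lit 42332) (nat_lit 6) (nat_lit 557) (nat_lit 0) (nat_lit 201) (nat_lit 193) (nat_lit 176)) (PT.lf (nat_lit 41192) (nat_lit 6) (nat_lit 542) (nat_lit 0) (nat_lit 202) (nat_lit 193) (nat_lit 175)))))) (PT.nd (nat_lit 546) (PT.nd (nat_lit 234) (PT.nd (nat_lit 78) (PT.lf (nat_lit 39976) (nat_lit 6) (nat_lit 526) (nat_lit 0) (nat_lit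 203) (nat_lit 193) (nat_lit 174)) (PT.nd (nat_lit 78) (PT.lf (nat_lit 38684) (nat_lit 6) (nat_lit 509) (nat_lit 0) (nat_lit 204) (nat_lit 193) (nat_lit 173)) (PT.lf (nat_lit 37316) (nat_lit 6) (nat_lit 491) (nat_lit 0) (nat_lit 205) (nat_lit 193) (nat_lit 172)))) (PT.nd (nat_lit 156) (PT.nd (nat_lit 78) (PT.lf (nat_lit 35872) (nat_lit 6) (nat_lit 472) (nat_lit 0) (nat_lit 206) (nat_lit 193) (nat_lit 171)) (PT.lf (nat_lit 34352) (nat_lit 6) (nat_lit 452) (nat_lit 0) (nat_lit 207) (nat_lit 193) (nat_lit 170))) (PT.nd (nat_lit 78) (PT.lf (nat_lit 32756) (nat_lit 6) (nat_lit 431) (nat_lit 0) (nat_lit 208) (nat_lit 193) (nat_lit 169)) (PT.lf (nat_lit 31084) (nat_lit 6) (nat_lit 409) (nat_lit 0) (nat_lit 209) (nat_lit 193) (nat_lit 168))))) (PT.nd (nat_lit 312) (PT.nd (nat_lit 156) (PT.nd (nat_lit 78) (PT.lf (nat_lit 29336) (nat_lit 6) (nat_lit 386) (nat_lit 0) (nat_lit 210) (nat_lit 193) (nat_lit 167)) (PT.lf (nat_lit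 27816) (nat_lit 6) (nat_lit 366) (nat_lit 0) (nat_lit 211) (nat_lit 193) (nat_lit 166))) (PT.nd (nat_lit 78) (PT.lf (nat_lit 26904) (nat_lit 6) (nat_lit 354) (nat_lit 0) (nat_lit 212) (nat_lit 193) (nat_lit 165)) (PT.lf (nat_lit 25916) (nat_lit 6) (nat_lit 341) (nat_lit 0) (nat_lit 213) (nat_lit 193) (nat_lit 164)))) (PT.nd (nat_lit 55380) (PT.nd (nat_lit 55302) (PT.lf (nat_lit 25004) (nat_lit 6) (nat_lit 329) (nat_lit 0) (nat_lit 214) (nat_lit 193) (nat_lit 163)) (PT.lf (nat_lit 24168) (nat_lit 6) (nat_lit 318) (nat_lit 5) (nat_lit 162) (nat_lit 194) (nat_lit 214))) (PT.nd (nat_lit 78) (PT.lf (nat_lit 25080) (nat_lit 6) (nat_lit 330) (nat_lit 5) (nat_lit 163) (nat_lit 194) (nat_lit 213)) (PT.lf (nat_lit 25992) (nat_lit 6) (nat_lit 342) (nat_lit 5) (nat_lit 164) (nat_lit 194) (nat_lit 212))))))))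
noncomputable def pc29 : PT := (PT.nd (nat_lit 2262) (PT.nd (nat_lit 1092) (PT.nd (nat_lit 546) (PT.nd (nat_lit 234) (PT.nd (nat_lit 78) (PT.lf (nat_lit 26980) (nat_lit 6) (nat_lit 355) (nat_lit 5) (nat_lit 165) (nat_lit 194) (nat_lit 211)) (PT.nd (nat_lit 78) (PT.lf (nat_lit 27892) (nat_lit 6) (nat_lit 367) (nat_lit 5) (nat_lit 166) (nat_lit 194) (nat_lit 210)) (PT.lf (nat_lit 29412) (nat_lit 6) (nat_lit 387) (nat_lit 5) (nat_lit 167) (nat_lit 194) (nat_lit 209)))) (PT.nd (nat_lit 156) (PT.nd (nat_lit 78) (PT.lf (nat_lit 31160) (nat_lit 6) (nat_lit 410) (nat_lit 5) (nat_lit 168) (nat_lit 194) (nat_lit 208)) (PT.lf (nat_lit 32832) (nat_lit 6) (nat_lit 432) (nat_lit 5) (nat_lit 169) (nat_lit 194) (nat_lit 207))) (PT.nd (nat_lit 78) (PT.lf (nat_lit 34428) (nat_lit 6) (nat_lit 453) (nat_lit 5) (nat_lit 170) (nat_lit 194) (nat_lit 206)) (PT.lf (nat_lit 35948) (nat_lit 6) (nat_lit 473) (nat_lit 5) (nat_lit 171) (nat_lit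 194) (nat_lit 205))))) (PT.nd (nat_lit 234) (PT.nd (nat_lit 78) (PT.lf (nat_lit 37392) (nat_lit 6) (nat_lit 492) (nat_lit 5) (nat_lit 172) (nat_lit 194) (nat_lit 204)) (PT.nd (nat_lit 78) (PT.lf (nat_lit 38760) (nat_lit 6) (nat_lit 510) (nat_lit 5) (nat_lit 173) (nat_lit 194) (nat_lit 203)) (PT.lf (nat_lit 40052) (nat_lit 6) (nat_lit 527) (nat_lit 5) (nat_lit 174) (nat_lit 194) (nat_lit 202)))) (PT.nd (nat_lit 156) (PT.nd (nat_lit 78) (PT.lf (nat_lit 41268) (nat_lit 6) (nat_lit 543) (nat_lit 5) (nat_lit 175) (nat_lit 194) (nat_lit 201)) (PT.lf (nat_lit 42408) (nat_lit 6) (nat_lit 558) (nat_lit 5) (nat_lit 176) (nat_lit 194) (nat_lit 200))) (PT.nd (nat_lit 78) (PT.lf (nat_lit 43472) (nat_lit 6) (nat_lit 572) (nat_lit 5) (nat_lit 177) (nat_lit 194) (nat_lit 199)) (PT.lf (nat_lit 44460) (nat_lit 6) (nat_lit 585) (nat_lit 5) (nat_lit 178) (nat_lit 194) (nat_lit 198)))))) (PT.nd (nat_lit 546) (PT.nd (nat_lit 234) (PT.nd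 (nat_lit 78) (PT.lf (nat_lit 45372) (nat_lit 6) (nat_lit 597) (nat_lit 5) (nat_lit 179) (nat_lit 194) (nat_lit 197)) (PT.nd (nat_lit 78) (PT.lf (nat_lit 46208) (nat_lit 6) (nat_lit 608) (nat_lit 5) (nat_lit 180) (nat_lit 194) (nat_lit 196)) (PT.lf (nat_lit 46968) (nat_lit 6) (nat_lit 618) (nat_lit 5) (nat_lit 181) (nat_lit 194) (nat_lit 195)))) (PT.nd (nat_lit 156) (PT.nd (nat_lit 78) (PT.lf (nat_lit 47652) (nat_lit 3) (nat_lit 627) (nat_lit 4) (nat_lit 182) (nat_lit 194) (nat_lit 194)) (PT.lf (nat_lit 48184) (nat_lit 6) (nat_lit 634) (nat_lit 4) (nat_lit 183) (nat_lit 194) (nat_lit 193))) (PT.nd (nat_lit 78) (PT.lf (nat_lit 48640) (nat_lit 6) (nat_lit 640) (nat_lit 4) (nat_lit 184) (nat_lit 194) (nat_lit 192)) (PT.lf (nat_lit 49020) (nat_lit 6) (nat_lit 645) (nat_lit 4) (nat_lit 185) (nat_lit 194) (nat_lit 191))))) (PT.nd (nat_lit 312) (PT.nd (nat_lit 156) (PT.nd (nat_lit 78) (PT.lf (nat_lit 49324) (nat_lit 6)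 (nat_lit 649) (nat_lit 4) (nat_lit 186) (nat_lit 194) (nat_lit 190)) (PT.lf (nat_lit 49248) (nat_lit 6) (nat_lit 648) (nat_lit 4) (nat_lit 187) (nat_lit 194) (nat_lit 189))) (PT.nd (nat_lit 78) (PT.lf (nat_lit 49172) (nat_lit 3) (nat_lit 647) (nat_lit 2) (nat_lit 188) (nat_lit 194) (nat_lit 188)) (PT.lf (nat_lit 49248) (nat_lit 6) (nat_lit 648) (nat_lit 2) (nat_lit 189) (nat_lit 194) (nat_lit 187)))) (PT.nd (nat_lit 156) (PT.nd (nat_lit 78) (PT.lf (nat_lit 49324) (nat_lit 6) (nat_lit 649) (nat_lit 2) (nat_lit 190) (nat_lit 194) (nat_lit 186)) (PT.lf (nat_lit 49020) (nat_lit 6) (nat_lit 645) (nat_lit 2) (nat_lit 191) (nat_lit 194) (nat_lit 185))) (PT.nd (nat_lit 78) (PT.lf (nat_lit 48640) (nat_lit 6) (nat_lit 640) (nat_lit 2) (nat_lit 192) (nat_lit 194) (nat_lit 184)) (PT.lf (nat_lit 48184) (nat_lit 6) (nat_lit 634) (nat_lit 2) (nat_lit 193) (nat_lit 194) (nat_lit 183))))))) (PT.nd (nat_lit 1170) (PT.nd (nat_lit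 546) (PT.nd (nat_lit 234) (PT.nd (nat_lit 78) (PT.lf (nat_lit 47652) (nat_lit 3) (nat_lit 627) (nat_lit 0) (nat_lit 194) (nat_lit 194) (nat_lit 182)) (PT.nd (nat_lit 78) (PT.lf (nat_lit 46968) (nat_lit 6) (nat_lit 618) (nat_lit 0) (nat_lit 195) (nat_lit 194) (nat_lit 181)) (PT.lf (nat_lit 46208) (nat_lit 6) (nat_lit 608) (nat_lit 0) (nat_lit 196) (nat_lit 194) (nat_lit 180)))) (PT.nd (nat_lit 156) (PT.nd (nat_lit 78) (PT.lf (nat_lit 45372) (nat_lit 6) (nat_lit 597) (nat_lit 0) (nat_lit 197) (nat_lit 194) (nat_lit 179)) (PT.lf (nat_lit 44460) (nat_lit 6) (nat_lit 585) (nat_lit 0) (nat_lit 198) (nat_lit 194) (nat_lit 178))) (PT.nd (nat_lit 78) (PT.lf (nat_lit 43472) (nat_lit 6) (nat_lit 572) (nat_lit 0) (nat_lit 199) (nat_lit 194) (nat_lit 177)) (PT.lf (nat_lit 42408) (nat_lit 6) (nat_lit 558) (nat_lit 0) (nat_lit 200) (nat_lit 194) (nat_lit 176))))) (PT.nd (nat_lit 312) (PT.nd (nat_lit 156) (PT.nd (nat_lit 78) (PT.lf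 (nat_lit 41268) (nat_lit 6) (nat_lit 543) (nat_lit 0) (nat_lit 201) (nat_lit 194) (nat_lit 175)) (PT.lf (nat_lit 40052) (nat_lit 6) (nat_lit 527) (nat_lit 0) (nat_lit 202) (nat_lit 194) (nat_lit 174))) (PT.nd (nat_lit 78) (PT.lf (nat_lit 38760) (nat_lit 6) (nat_lit 510) (nat_lit 0) (nat_lit 203) (nat_lit 194) (nat_lit 173)) (PT.lf (nat_lit 37392) (nat_lit 6) (nat_lit 492) (nat_lit 0) (nat_lit 204) (nat_lit 194) (nat_lit 172)))) (PT.nd (nat_lit 156) (PT.nd (nat_lit 78) (PT.lf (nat_lit 35948) (nat_lit 6) (nat_lit 473) (nat_lit 0) (nat_lit 205) (nat_lit 194) (nat_lit 171)) (PT.lf (nat_lit 34428) (nat_lit 6) (nat_lit 453) (nat_lit 0) (nat_lit 206) (nat_lit 194) (nat_lit 170))) (PT.nd (nat_lit 78) (PT.lf (nat_lit 32832) (nat_lit 6) (nat_lit 432) (nat_lit 0) (nat_lit 207) (nat_lit 194) (nat_lit 169)) (PT.lf (nat_lit 31160) (nat_lit 6) (nat_lit 410) (nat_lit 0) (nat_lit 208) (nat_lit 194) (nat_lit 168)))))) (PT.nd (nat_lit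 55692) (PT.nd (nat_lit 234) (PT.nd (nat_lit 78) (PT.lf (nat_lit 29412) (nat_lit 6) (nat_lit 387) (nat_lit 0) (nat_lit 209) (nat_lit 194) (nat_lit 167)) (PT.nd (nat_lit 78) (PT.lf (nat_lit 27892) (nat_lit 6) (nat_lit 367) (nat_lit 0) (nat_lit 210) (nat_lit 194) (nat_lit 166)) (PT.lf (nat_lit 26980) (nat_lit 6) (nat_lit 355) (nat_lit 0) (nat_lit 211) (nat_lit 194) (nat_lit 165)))) (PT.nd (nat_lit 156) (PT.nd (nat_lit 78) (PT.lf (nat_lit 25992) (nat_lit 6) (nat_lit 342) (nat_lit 0) (nat_lit 212) (nat_lit 194) (nat_lit 164)) (PT.lf (nat_lit 25080) (nat_lit 6) (nat_lit 330) (nat_lit 0) (nat_lit 213) (nat_lit 194) (nat_lit 163))) (PT.nd (nat_lit 55224) (PT.lf (nat_lit 24168) (nat_lit 6) (nat_lit 318) (nat_lit 0) (nat_lit 214) (nat_lit 194) (nat_lit 162)) (PT.lf (nat_lit 23408) (nat_lit 6) (nat_lit 308) (nat_lit 5) (nat_lit 161) (nat_lit 195) (nat_lit 214))))) (PT.nd (nat_lit 312) (PT.nd (nat_lit 156) (PT.nd (nat_lit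 78) (PT.lf (nat_lit 24244) (nat_lit 6) (nat_lit 319) (nat_lit 5) (nat_lit 162) (nat_lit 195) (nat_lit 213)) (PT.lf (nat_lit 25156) (nat_lit 6) (nat_lit 331) (nat_lit 5) (nat_lit 163) (nat_lit 195) (nat_lit 212))) (PT.nd (nat_lit 78) (PT.lf (nat_lit 26068) (nat_lit 6) (nat_lit 343) (nat_lit 5) (nat_lit 164) (nat_lit 195) (nat_lit 211)) (PT.lf (nat_lit 27056) (nat_lit 6) (nat_lit 356) (nat_lit 5) (nat_lit 165) (nat_lit 195) (nat_lit 210)))) (PT.nd (nat_lit 156) (PT.nd (nat_lit 78) (PT.lf (nat_lit 27968) (nat_lit 6) (nat_lit 368) (nat_lit 5) (nat_lit 166) (nat_lit 195) (nat_lit 209)) (PT.lf (nat_lit 29488) (nat_lit 6) (nat_lit 388) (nat_lit 5) (nat_lit 167) (nat_lit 195) (nat_lit 208))) (PT.nd (nat_lit 78) (PT.lf (nat_lit 31236) (nat_lit 6) (nat_lit 411) (nat_lit 5) (nat_lit 168) (nat_lit 195) (nat_lit 207)) (PT.lf (nat_lit 32908) (nat_lit 6) (nat_lit 433) (nat_lit 5) (nat_lit 169) (nat_lit 195) (nat_lit 206))))))))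
noncomputable def pc30 : PT := (PT.nd (nat_lit 2262) (PT.nd (nat_lit 1092) (PT.nd (nat_lit 546) (PT.nd (nat_lit 234) (PT.nd (nat_lit 78) (PT.lf (nat_lit 34504) (nat_lit 6) (nat_lit 454) (nat_lit 5) (nat_lit 170) (nat_lit 195) (nat_lit 205)) (PT.nd (nat_lit 78) (PT.lf (nat_lit 36024) (nat_lit 6) (nat_lit 474) (nat_lit 5) (nat_lit 171) (nat_lit 195) (nat_lit 204)) (PT.lf (nat_lit 37468) (nat_lit 6) (nat_lit 493) (nat_lit 5) (nat_lit 172) (nat_lit 195) (nat_lit 203)))) (PT.nd (nat_lit 156) (PT.nd (nat_lit 78) (PT.lf (nat_lit 38836) (nat_lit 6) (nat_lit 511) (nat_lit 5) (nat_lit 173) (nat_lit 195) (nat_lit 202)) (PT.lf (nat_lit 40128) (nat_lit 6) (nat_lit 528) (nat_lit 5) (nat_lit 174) (nat_lit 195) (nat_lit 201))) (PT.nd (nat_lit 78) (PT.lf (nat_lit 41344) (nat_lit 6) (nat_lit 544) (nat_lit 5) (nat_lit 175) (nat_lit 195) (nat_lit 200)) (PT.lf (nat_lit 42484) (nat_lit 6) (nat_lit 559) (nat_lit 5) (nat_lit 176) (nat_lit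 195) (nat_lit 199))))) (PT.nd (nat_lit 234) (PT.nd (nat_lit 78) (PT.lf (nat_lit 43548) (nat_lit 6) (nat_lit 573) (nat_lit 5) (nat_lit 177) (nat_lit 195) (nat_lit 198)) (PT.nd (nat_lit 78) (PT.lf (nat_lit 44536) (nat_lit 6) (nat_lit 586) (nat_lit 5) (nat_lit 178) (nat_lit 195) (nat_lit 197)) (PT.lf (nat_lit 45448) (nat_lit 6) (nat_lit 598) (nat_lit 5) (nat_lit 179) (nat_lit 195) (nat_lit 196)))) (PT.nd (nat_lit 156) (PT.nd (nat_lit 78) (PT.lf (nat_lit 46284) (nat_lit 3) (nat_lit 609) (nat_lit 4) (nat_lit 180) (nat_lit 195) (nat_lit 195)) (PT.lf (nat_lit 46968) (nat_lit 6) (nat_lit 618) (nat_lit 4) (nat_lit 181) (nat_lit 195) (nat_lit 194))) (PT.nd (nat_lit 78) (PT.lf (nat_lit 47576) (nat_lit 6) (nat_lit 626) (nat_lit 4) (nat_lit 182) (nat_lit 195) (nat_lit 193)) (PT.lf (nat_lit 48108) (nat_lit 6) (nat_lit 633) (nat_lit 4) (nat_lit 183) (nat_lit 195) (nat_lit 192)))))) (PT.nd (nat_lit 546) (PT.nd (nat_lit 234) (PT.nd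 (nat_lit 78) (PT.lf (nat_lit 48564) (nat_lit 6) (nat_lit 639) (nat_lit 4) (nat_lit 184) (nat_lit 195) (nat_lit 191)) (PT.nd (nat_lit 78) (PT.lf (nat_lit 48944) (nat_lit 6) (nat_lit 644) (nat_lit 4) (nat_lit 185) (nat_lit 195) (nat_lit 190)) (PT.lf (nat_lit 48868) (nat_lit 6) (nat_lit 643) (nat_lit 4) (nat_lit 186) (nat_lit 195) (nat_lit 189)))) (PT.nd (nat_lit 156) (PT.nd (nat_lit 78) (PT.lf (nat_lit 48792) (nat_lit 6) (nat_lit 642) (nat_lit 4) (nat_lit 187) (nat_lit 195) (nat_lit 188)) (PT.lf (nat_lit 48792) (nat_lit 6) (nat_lit 642) (nat_lit 2) (nat_lit 188) (nat_lit 195) (nat_lit 187))) (PT.nd (nat_lit 78) (PT.lf (nat_lit 48868) (nat_lit 6) (nat_lit 643) (nat_lit 2) (nat_lit 189) (nat_lit 195) (nat_lit 186)) (PT.lf (nat_lit 48944) (nat_lit 6) (nat_lit 644) (nat_lit 2) (nat_lit 190) (nat_lit 195) (nat_lit 185))))) (PT.nd (nat_lit 312) (PT.nd (nat_lit 156) (PT.nd (nat_lit 78) (PT.lf (nat_lit 48564) (nat_lit 6)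 (nat_lit 639) (nat_lit 2) (nat_lit 191) (nat_lit 195) (nat_lit 184)) (PT.lf (nat_lit 48108) (nat_lit 6) (nat_lit 633) (nat_lit 2) (nat_lit 192) (nat_lit 195) (nat_lit 183))) (PT.nd (nat_lit 78) (PT.lf (nat_lit 47576) (nat_lit 6) (nat_lit 626) (nat_lit 2) (nat_lit 193) (nat_lit 195) (nat_lit 182)) (PT.lf (nat_lit 46968) (nat_lit 6) (nat_lit 618) (nat_lit 2) (nat_lit 194) (nat_lit 195) (nat_lit 181)))) (PT.nd (nat_lit 156) (PT.nd (nat_lit 78) (PT.lf (nat_lit 46284) (nat_lit 3) (nat_lit 609) (nat_lit 0) (nat_lit 195) (nat_lit 195) (nat_lit 180)) (PT.lf (nat_lit 45448) (nat_lit 6) (nat_lit 598) (nat_lit 0) (nat_lit 196) (nat_lit 195) (nat_lit 179))) (PT.nd (nat_lit 78) (PT.lf (nat_lit 44536) (nat_lit 6) (nat_lit 586) (nat_lit 0) (nat_lit 197) (nat_lit 195) (nat_lit 178)) (PT.lf (nat_lit 43548) (nat_lit 6) (nat_lit 573) (nat_lit 0) (nat_lit 198) (nat_lit 195) (nat_lit 177))))))) (PT.nd (nat_lit 1092) (PT.nd (nat_lit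 546) (PT.nd (nat_lit 234) (PT.nd (nat_lit 78) (PT.lf (nat_lit 42484) (nat_lit 6) (nat_lit 559) (nat_lit 0) (nat_lit 199) (nat_lit 195) (nat_lit 176)) (PT.nd (nat_lit 78) (PT.lf (nat_lit 41344) (nat_lit 6) (nat_lit 544) (nat_lit 0) (nat_lit 200) (nat_lit 195) (nat_lit 175)) (PT.lf (nat_lit 40128) (nat_lit 6) (nat_lit 528) (nat_lit 0) (nat_lit 201) (nat_lit 195) (nat_lit 174)))) (PT.nd (nat_lit 156) (PT.nd (nat_lit 78) (PT.lf (nat_lit 38836) (nat_lit 6) (nat_lit 511) (nat_lit 0) (nat_lit 202) (nat_lit 195) (nat_lit 173)) (PT.lf (nat_lit 37468) (nat_lit 6) (nat_lit 493) (nat_lit 0) (nat_lit 203) (nat_lit 195) (nat_lit 172))) (PT.nd (nat_lit 78) (PT.lf (nat_lit 36024) (nat_lit 6) (nat_lit 474) (nat_lit 0) (nat_lit 204) (nat_lit 195) (nat_lit 171)) (PT.lf (nat_lit 34504) (nat_lit 6) (nat_lit 454) (nat_lit 0) (nat_lit 205) (nat_lit 195) (nat_lit 170))))) (PT.nd (nat_lit 234) (PT.nd (nat_lit 78) (PT.lf (nat_lit 32908)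 (nat_lit 6) (nat_lit 433) (nat_lit 0) (nat_lit 206) (nat_lit 195) (nat_lit 169)) (PT.nd (nat_lit 78) (PT.lf (nat_lit 31236) (nat_lit 6) (nat_lit 411) (nat_lit 0) (nat_lit 207) (nat_lit 195) (nat_lit 168)) (PT.lf (nat_lit 29488) (nat_lit 6) (nat_lit 388) (nat_lit 0) (nat_lit 208) (nat_lit 195) (nat_lit 167)))) (PT.nd (nat_lit 156) (PT.nd (nat_lit 78) (PT.lf (nat_lit 27968) (nat_lit 6) (nat_lit 368) (nat_lit 0) (nat_lit 209) (nat_lit 195) (nat_lit 166)) (PT.lf (nat_lit 27056) (nat_lit 6) (nat_lit 356) (nat_lit 0) (nat_lit 210) (nat_lit 195) (nat_lit 165))) (PT.nd (nat_lit 78) (PT.lf (nat_lit 26068) (nat_lit 6) (nat_lit 343) (nat_lit 0) (nat_lit 211) (nat_lit 195) (nat_lit 164)) (PT.lf (nat_lit 25156) (nat_lit 6) (nat_lit 331) (nat_lit 0) (nat_lit 212) (nat_lit 195) (nat_lit 163)))))) (PT.nd (nat_lit 55536) (PT.nd (nat_lit 55224) (PT.nd (nat_lit 78) (PT.lf (nat_lit 24244) (nat_lit 6) (nat_lit 319) (nat_lit 0) (nat_lit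 213) (nat_lit 195) (nat_lit 162)) (PT.nd (nat_lit 55068) (PT.lf (nat_lit 23408) (nat_lit 6) (nat_lit 308) (nat_lit 0) (nat_lit 214) (nat_lit 195) (nat_lit 161)) (PT.lf (nat_lit 21888) (nat_lit 6) (nat_lit 288) (nat_lit 5) (nat_lit 159) (nat_lit 196) (nat_lit 215)))) (PT.nd (nat_lit 156) (PT.nd (nat_lit 78) (PT.lf (nat_lit 22648) (nat_lit 6) (nat_lit 298) (nat_lit 5) (nat_lit 160) (nat_lit 196) (nat_lit 214)) (PT.lf (nat_lit 23484) (nat_lit 6) (nat_lit 309) (nat_lit 5) (nat_lit 161) (nat_lit 196) (nat_lit 213))) (PT.nd (nat_lit 78) (PT.lf (nat_lit 24320) (nat_lit 6) (nat_lit 320) (nat_lit 5) (nat_lit 162) (nat_lit 196) (nat_lit 212)) (PT.lf (nat_lit 25232) (nat_lit 6) (nat_lit 332) (nat_lit 5) (nat_lit 163) (nat_lit 196) (nat_lit 211))))) (PT.nd (nat_lit 312) (PT.nd (nat_lit 156) (PT.nd (nat_lit 78) (PT.lf (nat_lit 26144) (nat_lit 6) (nat_lit 344) (nat_lit 5) (nat_lit 164) (nat_lit 196) (nat_lit 210)) (PT.lf (nat_lit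 27132) (nat_lit 6) (nat_lit 357) (nat_lit 5) (nat_lit 165) (nat_lit 196) (nat_lit 209))) (PT.nd (nat_lit 78) (PT.lf (nat_lit 28044) (nat_lit 6) (nat_lit 369) (nat_lit 5) (nat_lit 166) (nat_lit 196) (nat_lit 208)) (PT.lf (nat_lit 29564) (nat_lit 6) (nat_lit 389) (nat_lit 5) (nat_lit 167) (nat_lit 196) (nat_lit 207)))) (PT.nd (nat_lit 156) (PT.nd (nat_lit 78) (PT.lf (nat_lit 31312) (nat_lit 6) (nat_lit 412) (nat_lit 5) (nat_lit 168) (nat_lit 196) (nat_lit 206)) (PT.lf (nat_lit 32984) (nat_lit 6) (nat_lit 434) (nat_lit 5) (nat_lit 169) (nat_lit 196) (nat_lit 205))) (PT.nd (nat_lit 78) (PT.lf (nat_lit 34580) (nat_lit 6) (nat_lit 455) (nat_lit 5) (nat_lit 170) (nat_lit 196) (nat_lit 204)) (PT.lf (nat_lit 36100) (nat_lit 6) (nat_lit 475) (nat_lit 5) (nat_lit 171) (nat_lit 196) (nat_lit 203))))))))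
noncomputable def pc31 : PT := (PT.nd (nat_lit 2262) (PT.nd (nat_lit 1092) (PT.nd (nat_lit 546) (PT.nd (nat_lit 234) (PT.nd (nat_lit 78) (PT.lf (nat_lit 37544) (nat_lit 6) (nat_lit 494) (nat_lit 5) (nat_lit 172) (nat_lit 196) (nat_lit 202)) (PT.nd (nat_lit 78) (PT.lf (nat_lit 38912) (nat_lit 6) (nat_lit 512) (nat_lit 5) (nat_lit 173) (nat_lit 196) (nat_lit 201)) (PT.lf (nat_lit 40204) (nat_lit 6) (nat_lit 529) (nat_lit 5) (nat_lit 174) (nat_lit 196) (nat_lit 200)))) (PT.nd (nat_lit 156) (PT.nd (nat_lit 78) (PT.lf (nat_lit 41420) (nat_lit 6) (nat_lit 545) (nat_lit 5) (nat_lit 175) (nat_lit 196) (nat_lit 199)) (PT.lf (nat_lit 42560) (nat_lit 6) (nat_lit 560) (nat_lit 5) (nat_lit 176) (nat_lit 196) (nat_lit 198))) (PT.nd (nat_lit 78) (PT.lf (nat_lit 43624) (nat_lit 6) (nat_lit 574) (nat_lit 5) (nat_lit 177) (nat_lit 196) (nat_lit 197)) (PT.lf (nat_lit 44612) (nat_lit 3) (nat_lit 587) (nat_lit 4) (nat_lit 178) (nat_lit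 196) (nat_lit 196))))) (PT.nd (nat_lit 234) (PT.nd (nat_lit 78) (PT.lf (nat_lit 45448) (nat_lit 6) (nat_lit 598) (nat_lit 4) (nat_lit 179) (nat_lit 196) (nat_lit 195)) (PT.nd (nat_lit 78) (PT.lf (nat_lit 46208) (nat_lit 6) (nat_lit 608) (nat_lit 4) (nat_lit 180) (nat_lit 196) (nat_lit 194)) (PT.lf (nat_lit 46892) (nat_lit 6) (nat_lit 617) (nat_lit 4) (nat_lit 181) (nat_lit 196) (nat_lit 193)))) (PT.nd (nat_lit 156) (PT.nd (nat_lit 78) (PT.lf (nat_lit 47500) (nat_lit 6) (nat_lit 625) (nat_lit 4) (nat_lit 182) (nat_lit 196) (nat_lit 192)) (PT.lf (nat_lit 48032) (nat_lit 6) (nat_lit 632) (nat_lit 4) (nat_lit 183) (nat_lit 196) (nat_lit 191))) (PT.nd (nat_lit 78) (PT.lf (nat_lit 48488) (nat_lit 6) (nat_lit 638) (nat_lit 4) (nat_lit 184) (nat_lit 196) (nat_lit 190)) (PT.lf (nat_lit 48412) (nat_lit 6) (nat_lit 637) (nat_lit 4) (nat_lit 185) (nat_lit 196) (nat_lit 189)))))) (PT.nd (nat_lit 546) (PT.nd (nat_lit 234) (PT.nd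 (nat_lit 78) (PT.lf (nat_lit 48336) (nat_lit 6) (nat_lit 636) (nat_lit 4) (nat_lit 186) (nat_lit 196) (nat_lit 188)) (PT.nd (nat_lit 78) (PT.lf (nat_lit 48260) (nat_lit 3) (nat_lit 635) (nat_lit 2) (nat_lit 187) (nat_lit 196) (nat_lit 187)) (PT.lf (nat_lit 48336) (nat_lit 6) (nat_lit 636) (nat_lit 2) (nat_lit 188) (nat_lit 196) (nat_lit 186)))) (PT.nd (nat_lit 156) (PT.nd (nat_lit 78) (PT.lf (nat_lit 48412) (nat_lit 6) (nat_lit 637) (nat_lit 2) (nat_lit 189) (nat_lit 196) (nat_lit 185)) (PT.lf (nat_lit 48488) (nat_lit 6) (nat_lit 638) (nat_lit 2) (nat_lit 190) (nat_lit 196) (nat_lit 184))) (PT.nd (nat_lit 78) (PT.lf (nat_lit 48032) (nat_lit 6) (nat_lit 632) (nat_lit 2) (nat_lit 191) (nat_lit 196) (nat_lit 183)) (PT.lf (nat_lit 47500) (nat_lit 6) (nat_lit 625) (nat_lit 2) (nat_lit 192) (nat_lit 196) (nat_lit 182))))) (PT.nd (nat_lit 312) (PT.nd (nat_lit 156) (PT.nd (nat_lit 78) (PT.lf (nat_lit 46892) (nat_lit 6)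 (nat_lit 617) (nat_lit 2) (nat_lit 193) (nat_lit 196) (nat_lit 181)) (PT.lf (nat_lit 46208) (nat_lit 6) (nat_lit 608) (nat_lit 2) (nat_lit 194) (nat_lit 196) (nat_lit 180))) (PT.nd (nat_lit 78) (PT.lf (nat_lit 45448) (nat_lit 6) (nat_lit 598) (nat_lit 2) (nat_lit 195) (nat_lit 196) (nat_lit 179)) (PT.lf (nat_lit 44612) (nat_lit 3) (nat_lit 587) (nat_lit 0) (nat_lit 196) (nat_lit 196) (nat_lit 178)))) (PT.nd (nat_lit 156) (PT.nd (nat_lit 78) (PT.lf (nat_lit 43624) (nat_lit 6) (nat_lit 574) (nat_lit 0) (nat_lit 197) (nat_lit 196) (nat_lit 177)) (PT.lf (nat_lit 42560) (nat_lit 6) (nat_lit 560) (nat_lit 0) (nat_lit 198) (nat_lit 196) (nat_lit 176))) (PT.nd (nat_lit 78) (PT.lf (nat_lit 41420) (nat_lit 6) (nat_lit 545) (nat_lit 0) (nat_lit 199) (nat_lit 196) (nat_lit 175)) (PT.lf (nat_lit 40204) (nat_lit 6) (nat_lit 529) (nat_lit 0) (nat_lit 200) (nat_lit 196) (nat_lit 174))))))) (PT.nd (nat_lit 56004) (PT.nd (nat_lit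 546) (PT.nd (nat_lit 234) (PT.nd (nat_lit 78) (PT.lf (nat_lit 38912) (nat_lit 6) (nat_lit 512) (nat_lit 0) (nat_lit 201) (nat_lit 196) (nat_lit 173)) (PT.nd (nat_lit 78) (PT.lf (nat_lit 37544) (nat_lit 6) (nat_lit 494) (nat_lit 0) (nat_lit 202) (nat_lit 196) (nat_lit 172)) (PT.lf (nat_lit 36100) (nat_lit 6) (nat_lit 475) (nat_lit 0) (nat_lit 203) (nat_lit 196) (nat_lit 171)))) (PT.nd (nat_lit 156) (PT.nd (nat_lit 78) (PT.lf (nat_lit 34580) (nat_lit 6) (nat_lit 455) (nat_lit 0) (nat_lit 204) (nat_lit 196) (nat_lit 170)) (PT.lf (nat_lit 32984) (nat_lit 6) (nat_lit 434) (nat_lit 0) (nat_lit 205) (nat_lit 196) (nat_lit 169))) (PT.nd (nat_lit 78) (PT.lf (nat_lit 31312) (nat_lit 6) (nat_lit 412) (nat_lit 0) (nat_lit 206) (nat_lit 196) (nat_lit 168)) (PT.lf (nat_lit 29564) (nat_lit 6) (nat_lit 389) (nat_lit 0) (nat_lit 207) (nat_lit 196) (nat_lit 167))))) (PT.nd (nat_lit 312) (PT.nd (nat_lit 156) (PT.nd (nat_lit 78) (PT.lf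 (nat_lit 28044) (nat_lit 6) (nat_lit 369) (nat_lit 0) (nat_lit 208) (nat_lit 196) (nat_lit 166)) (PT.lf (nat_lit 27132) (nat_lit 6) (nat_lit 357) (nat_lit 0) (nat_lit 209) (nat_lit 196) (nat_lit 165))) (PT.nd (nat_lit 78) (PT.lf (nat_lit 26144) (nat_lit 6) (nat_lit 344) (nat_lit 0) (nat_lit 210) (nat_lit 196) (nat_lit 164)) (PT.lf (nat_lit 25232) (nat_lit 6) (nat_lit 332) (nat_lit 0) (nat_lit 211) (nat_lit 196) (nat_lit 163)))) (PT.nd (nat_lit 156) (PT.nd (nat_lit 78) (PT.lf (nat_lit 24320) (nat_lit 6) (nat_lit 320) (nat_lit 0) (nat_lit 212) (nat_lit 196) (nat_lit 162)) (PT.lf (nat_lit 23484) (nat_lit 6) (nat_lit 309) (nat_lit 0) (nat_lit 213) (nat_lit 196) (nat_lit 161))) (PT.nd (nat_lit 78) (PT.lf (nat_lit 22648) (nat_lit 6) (nat_lit 298) (nat_lit 0) (nat_lit 214) (nat_lit 196) (nat_lit 160)) (PT.lf (nat_lit 21888) (nat_lit 6) (nat_lit 288) (nat_lit 0) (nat_lit 215) (nat_lit 196) (nat_lit 159)))))) (PT.nd (nat_lit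 546) (PT.nd (nat_lit 234) (PT.nd (nat_lit 78) (PT.lf (nat_lit 21128) (nat_lit 6) (nat_lit 278) (nat_lit 5) (nat_lit 158) (nat_lit 197) (nat_lit 215)) (PT.nd (nat_lit 78) (PT.lf (nat_lit 21964) (nat_lit 6) (nat_lit 289) (nat_lit 5) (nat_lit 159) (nat_lit 197) (nat_lit 214)) (PT.lf (nat_lit 22724) (nat_lit 6) (nat_lit 299) (nat_lit 5) (nat_lit 160) (nat_lit 197) (nat_lit 213)))) (PT.nd (nat_lit 156) (PT.nd (nat_lit 78) (PT.lf (nat_lit 23560) (nat_lit 6) (nat_lit 310) (nat_lit 5) (nat_lit 161) (nat_lit 197) (nat_lit 212)) (PT.lf (nat_lit 24396) (nat_lit 6) (nat_lit 321) (nat_lit 5) (nat_lit 162) (nat_lit 197) (nat_lit 211))) (PT.nd (nat_lit 78) (PT.lf (nat_lit 25308) (nat_lit 6) (nat_lit 333) (nat_lit 5) (nat_lit 163) (nat_lit 197) (nat_lit 210)) (PT.lf (nat_lit 26220) (nat_lit 6) (nat_lit 345) (nat_lit 5) (nat_lit 164) (nat_lit 197) (nat_lit 209))))) (PT.nd (nat_lit 312) (PT.nd (nat_lit 156) (PT.nd (nat_lit 78) (PT.lf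 (nat_lit 27208) (nat_lit 6) (nat_lit 358) (nat_lit 5) (nat_lit 165) (nat_lit 197) (nat_lit 208)) (PT.lf (nat_lit 28120) (nat_lit 6) (nat_lit 370) (nat_lit 5) (nat_lit 166) (nat_lit 197) (nat_lit 207))) (PT.nd (nat_lit 78) (PT.lf (nat_lit 29640) (nat_lit 6) (nat_lit 390) (nat_lit 5) (nat_lit 167) (nat_lit 197) (nat_lit 206)) (PT.lf (nat_lit 31388) (nat_lit 6) (nat_lit 413) (nat_lit 5) (nat_lit 168) (nat_lit 197) (nat_lit 205)))) (PT.nd (nat_lit 156) (PT.nd (nat_lit 78) (PT.lf (nat_lit 33060) (nat_lit 6) (nat_lit 435) (nat_lit 5) (nat_lit 169) (nat_lit 197) (nat_lit 204)) (PT.lf (nat_lit 34656) (nat_lit 6) (nat_lit 456) (nat_lit 5) (nat_lit 170) (nat_lit 197) (nat_lit 203))) (PT.nd (nat_lit 78) (PT.lf (nat_lit 36176) (nat_lit 6) (nat_lit 476) (nat_lit 5) (nat_lit 171) (nat_lit 197) (nat_lit 202)) (PT.lf (nat_lit 37620) (nat_lit 6) (nat_lit 495) (nat_lit 5) (nat_lit 172) (nat_lit 197) (nat_lit 201))))))))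
noncomputable def pc32 : PT := (PT.nd (nat_lit 2262) (PT.nd (nat_lit 1092) (PT.nd (nat_lit 546) (PT.nd (nat_lit 234) (PT.nd (nat_lit 78) (PT.lf (nat_lit 38988) (nat_lit 6) (nat_lit 513) (nat_lit 5) (nat_lit 173) (nat_lit 197) (nat_lit 200)) (PT.nd (nat_lit 78) (PT.lf (nat_lit 40280) (nat_lit 6) (nat_lit 530) (nat_lit 5) (nat_lit 174) (nat_lit 197) (nat_lit 199)) (PT.lf (nat_lit 41496) (nat_lit 6) (nat_lit 546) (nat_lit 5) (nat_lit 175) (nat_lit 197) (nat_lit 198)))) (PT.nd (nat_lit 156) (PT.nd (nat_lit 78) (PT.lf (nat_lit 42636) (nat_lit 3) (nat_lit 561) (nat_lit 4) (nat_lit 176) (nat_lit 197) (nat_lit 197)) (PT.lf (nat_lit 43624) (nat_lit 6) (nat_lit 574) (nat_lit 4) (nat_lit 177) (nat_lit 197) (nat_lit 196))) (PT.nd (nat_lit 78) (PT.lf (nat_lit 44536) (nat_lit 6) (nat_lit 586) (nat_lit 4) (nat_lit 178) (nat_lit 197) (nat_lit 195)) (PT.lf (nat_lit 45372) (nat_lit 6) (nat_lit 597) (nat_lit 4) (nat_lit 179) (nat_lit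 197) (nat_lit 194))))) (PT.nd (nat_lit 234) (PT.nd (nat_lit 78) (PT.lf (nat_lit 46132) (nat_lit 6) (nat_lit 607) (nat_lit 4) (nat_lit 180) (nat_lit 197) (nat_lit 193)) (PT.nd (nat_lit 78) (PT.lf (nat_lit 46816) (nat_lit 6) (nat_lit 616) (nat_lit 4) (nat_lit 181) (nat_lit 197) (nat_lit 192)) (PT.lf (nat_lit 47424) (nat_lit 6) (nat_lit 624) (nat_lit 4) (nat_lit 182) (nat_lit 197) (nat_lit 191)))) (PT.nd (nat_lit 156) (PT.nd (nat_lit 78) (PT.lf (nat_lit 47956) (nat_lit 6) (nat_lit 631) (nat_lit 4) (nat_lit 183) (nat_lit 197) (nat_lit 190)) (PT.lf (nat_lit 47880) (nat_lit 6) (nat_lit 630) (nat_lit 4) (nat_lit 184) (nat_lit 197) (nat_lit 189))) (PT.nd (nat_lit 78) (PT.lf (nat_lit 47804) (nat_lit 6) (nat_lit 629) (nat_lit 4) (nat_lit 185) (nat_lit 197) (nat_lit 188)) (PT.lf (nat_lit 47728) (nat_lit 6) (nat_lit 628) (nat_lit 4) (nat_lit 186) (nat_lit 197) (nat_lit 187)))))) (PT.nd (nat_lit 546) (PT.nd (nat_lit 234) (PT.nd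 (nat_lit 78) (PT.lf (nat_lit 47728) (nat_lit 6) (nat_lit 628) (nat_lit 2) (nat_lit 187) (nat_lit 197) (nat_lit 186)) (PT.nd (nat_lit 78) (PT.lf (nat_lit 47804) (nat_lit 6) (nat_lit 629) (nat_lit 2) (nat_lit 188) (nat_lit 197) (nat_lit 185)) (PT.lf (nat_lit 47880) (nat_lit 6) (nat_lit 630) (nat_lit 2) (nat_lit 189) (nat_lit 197) (nat_lit 184)))) (PT.nd (nat_lit 156) (PT.nd (nat_lit 78) (PT.lf (nat_lit 47956) (nat_lit 6) (nat_lit 631) (nat_lit 2) (nat_lit 190) (nat_lit 197) (nat_lit 183)) (PT.lf (nat_lit 47424) (nat_lit 6) (nat_lit 624) (nat_lit 2) (nat_lit 191) (nat_lit 197) (nat_lit 182))) (PT.nd (nat_lit 78) (PT.lf (nat_lit 46816) (nat_lit 6) (nat_lit 616) (nat_lit 2) (nat_lit 192) (nat_lit 197) (nat_lit 181)) (PT.lf (nat_lit 46132) (nat_lit 6) (nat_lit 607) (nat_lit 2) (nat_lit 193) (nat_lit 197) (nat_lit 180))))) (PT.nd (nat_lit 312) (PT.nd (nat_lit 156) (PT.nd (nat_lit 78) (PT.lf (nat_lit 45372) (nat_lit 6)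 (nat_lit 597) (nat_lit 2) (nat_lit 194) (nat_lit 197) (nat_lit 179)) (PT.lf (nat_lit 44536) (nat_lit 6) (nat_lit 586) (nat_lit 2) (nat_lit 195) (nat_lit 197) (nat_lit 178))) (PT.nd (nat_lit 78) (PT.lf (nat_lit 43624) (nat_lit 6) (nat_lit 574) (nat_lit 2) (nat_lit 196) (nat_lit 197) (nat_lit 177)) (PT.lf (nat_lit 42636) (nat_lit 3) (nat_lit 561) (nat_lit 0) (nat_lit 197) (nat_lit 197) (nat_lit 176)))) (PT.nd (nat_lit 156) (PT.nd (nat_lit 78) (PT.lf (nat_lit 41496) (nat_lit 6) (nat_lit 546) (nat_lit 0) (nat_lit 198) (nat_lit 197) (nat_lit 175)) (PT.lf (nat_lit 40280) (nat_lit 6) (nat_lit 530) (nat_lit 0) (nat_lit 199) (nat_lit 197) (nat_lit 174))) (PT.nd (nat_lit 78) (PT.lf (nat_lit 38988) (nat_lit 6) (nat_lit 513) (nat_lit 0) (nat_lit 200) (nat_lit 197) (nat_lit 173)) (PT.lf (nat_lit 37620) (nat_lit 6) (nat_lit 495) (nat_lit 0) (nat_lit 201) (nat_lit 197) (nat_lit 172))))))) (PT.nd (nat_lit 55848) (PT.nd (nat_lit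 546) (PT.nd (nat_lit 234) (PT.nd (nat_lit 78) (PT.lf (nat_lit 36176) (nat_lit 6) (nat_lit 476) (nat_lit 0) (nat_lit 202) (nat_lit 197) (nat_lit 171)) (PT.nd (nat_lit 78) (PT.lf (nat_lit 34656) (nat_lit 6) (nat_lit 456) (nat_lit 0) (nat_lit 203) (nat_lit 197) (nat_lit 170)) (PT.lf (nat_lit 33060) (nat_lit 6) (nat_lit 435) (nat_lit 0) (nat_lit 204) (nat_lit 197) (nat_lit 169)))) (PT.nd (nat_lit 156) (PT.nd (nat_lit 78) (PT.lf (nat_lit 31388) (nat_lit 6) (nat_lit 413) (nat_lit 0) (nat_lit 205) (nat_lit 197) (nat_lit 168)) (PT.lf (nat_lit 29640) (nat_lit 6) (nat_lit 390) (nat_lit 0) (nat_lit 206) (nat_lit 197) (nat_lit 167))) (PT.nd (nat_lit 78) (PT.lf (nat_lit 28120) (nat_lit 6) (nat_lit 370) (nat_lit 0) (nat_lit 207) (nat_lit 197) (nat_lit 166)) (PT.lf (nat_lit 27208) (nat_lit 6) (nat_lit 358) (nat_lit 0) (nat_lit 208) (nat_lit 197) (nat_lit 165))))) (PT.nd (nat_lit 234) (PT.nd (nat_lit 78) (PT.lf (nat_lit 26220)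 (nat_lit 6) (nat_lit 345) (nat_lit 0) (nat_lit 209) (nat_lit 197) (nat_lit 164)) (PT.nd (nat_lit 78) (PT.lf (nat_lit 25308) (nat_lit 6) (nat_lit 333) (nat_lit 0) (nat_lit 210) (nat_lit 197) (nat_lit 163)) (PT.lf (nat_lit 24396) (nat_lit 6) (nat_lit 321) (nat_lit 0) (nat_lit 211) (nat_lit 197) (nat_lit 162)))) (PT.nd (nat_lit 156) (PT.nd (nat_lit 78) (PT.lf (nat_lit 23560) (nat_lit 6) (nat_lit 310) (nat_lit 0) (nat_lit 212) (nat_lit 197) (nat_lit 161)) (PT.lf (nat_lit 22724) (nat_lit 6) (nat_lit 299) (nat_lit 0) (nat_lit 213) (nat_lit 197) (nat_lit 160))) (PT.nd (nat_lit 78) (PT.lf (nat_lit 21964) (nat_lit 6) (nat_lit 289) (nat_lit 0) (nat_lit 214) (nat_lit 197) (nat_lit 159)) (PT.lf (nat_lit 21128) (nat_lit 6) (nat_lit 278) (nat_lit 0) (nat_lit 215) (nat_lit 197) (nat_lit 158)))))) (PT.nd (nat_lit 546) (PT.nd (nat_lit 234) (PT.nd (nat_lit 78) (PT.lf (nat_lit 20444) (nat_lit 6) (nat_lit 269) (nat_lit 5) (nat_lit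 157) (nat_lit 198) (nat_lit 215)) (PT.nd (nat_lit 78) (PT.lf (nat_lit 21204) (nat_lit 6) (nat_lit 279) (nat_lit 5) (nat_lit 158) (nat_lit 198) (nat_lit 214)) (PT.lf (nat_lit 22040) (nat_lit 6) (nat_lit 290) (nat_lit 5) (nat_lit 159) (nat_lit 198) (nat_lit 213)))) (PT.nd (nat_lit 156) (PT.nd (nat_lit 78) (PT.lf (nat_lit 22800) (nat_lit 6) (nat_lit 300) (nat_lit 5) (nat_lit 160) (nat_lit 198) (nat_lit 212)) (PT.lf (nat_lit 23636) (nat_lit 6) (nat_lit 311) (nat_lit 5) (nat_lit 161) (nat_lit 198) (nat_lit 211))) (PT.nd (nat_lit 78) (PT.lf (nat_lit 24472) (nat_lit 6) (nat_lit 322) (nat_lit 5) (nat_lit 162) (nat_lit 198) (nat_lit 210)) (PT.lf (nat_lit 25384) (nat_lit 6) (nat_lit 334) (nat_lit 5) (nat_lit 163) (nat_lit 198) (nat_lit 209))))) (PT.nd (nat_lit 312) (PT.nd (nat_lit 156) (PT.nd (nat_lit 78) (PT.lf (nat_lit 26296) (nat_lit 6) (nat_lit 346) (nat_lit 5) (nat_lit 164) (nat_lit 198) (nat_lit 208)) (PT.lf (nat_lit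 27284) (nat_lit 6) (nat_lit 359) (nat_lit 5) (nat_lit 165) (nat_lit 198) (nat_lit 207))) (PT.nd (nat_lit 78) (PT.lf (nat_lit 28196) (nat_lit 6) (nat_lit 371) (nat_lit 5) (nat_lit 166) (nat_lit 198) (nat_lit 206)) (PT.lf (nat_lit 29716) (nat_lit 6) (nat_lit 391) (nat_lit 5) (nat_lit 167) (nat_lit 198) (nat_lit 205)))) (PT.nd (nat_lit 156) (PT.nd (nat_lit 78) (PT.lf (nat_lit 31464) (nat_lit 6) (nat_lit 414) (nat_lit 5) (nat_lit 168) (nat_lit 198) (nat_lit 204)) (PT.lf (nat_lit 33136) (nat_lit 6) (nat_lit 436) (nat_lit 5) (nat_lit 169) (nat_lit 198) (nat_lit 203))) (PT.nd (nat_lit 78) (PT.lf (nat_lit 34732) (nat_lit 6) (nat_lit 457) (nat_lit 5) (nat_lit 170) (nat_lit 198) (nat_lit 202)) (PT.lf (nat_lit 36252) (nat_lit 6) (nat_lit 477) (nat_lit 5) (nat_lit 171) (nat_lit 198) (nat_lit 201))))))))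
noncomputable def pc33 : PT := (PT.nd (nat_lit 2262) (PT.nd (nat_lit 1092) (PT.nd (nat_lit 546) (PT.nd (nat_lit 234) (PT.nd (nat_lit 78) (PT.lf (nat_lit 37696) (nat_lit 6) (nat_lit 496) (nat_lit 5) (nat_lit 172) (nat_lit 198) (nat_lit 200)) (PT.nd (nat_lit 78) (PT.lf (nat_lit 39064) (nat_lit 6) (nat_lit 514) (nat_lit 5) (nat_lit 173) (nat_lit 198) (nat_lit 199)) (PT.lf (nat_lit 40356) (nat_lit 3) (nat_lit 531) (nat_lit 4) (nat_lit 174) (nat_lit 198) (nat_lit 198)))) (PT.nd (nat_lit 156) (PT.nd (nat_lit 78) (PT.lf (nat_lit 41496) (nat_lit 6) (nat_lit 546) (nat_lit 4) (nat_lit 175) (nat_lit 198) (nat_lit 197)) (PT.lf (nat_lit 42560) (nat_lit 6) (nat_lit 560) (nat_lit 4) (nat_lit 176) (nat_lit 198) (nat_lit 196))) (PT.nd (nat_lit 78) (PT.lf (nat_lit 43548) (nat_lit 6) (nat_lit 573) (nat_lit 4) (nat_lit 177) (nat_lit 198) (nat_lit 195)) (PT.lf (nat_lit 44460) (nat_lit 6) (nat_lit 585) (nat_lit 4) (nat_lit 178) (nat_lit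 198) (nat_lit 194))))) (PT.nd (nat_lit 234) (PT.nd (nat_lit 78) (PT.lf (nat_lit 45296) (nat_lit 6) (nat_lit 596) (nat_lit 4) (nat_lit 179) (nat_lit 198) (nat_lit 193)) (PT.nd (nat_lit 78) (PT.lf (nat_lit 46056) (nat_lit 6) (nat_lit 606) (nat_lit 4) (nat_lit 180) (nat_lit 198) (nat_lit 192)) (PT.lf (nat_lit 46740) (nat_lit 6) (nat_lit 615) (nat_lit 4) (nat_lit 181) (nat_lit 198) (nat_lit 191)))) (PT.nd (nat_lit 156) (PT.nd (nat_lit 78) (PT.lf (nat_lit 47348) (nat_lit 6) (nat_lit 623) (nat_lit 4) (nat_lit 182) (nat_lit 198) (nat_lit 190)) (PT.lf (nat_lit 47272) (nat_lit 6) (nat_lit 622) (nat_lit 4) (nat_lit 183) (nat_lit 198) (nat_lit 189))) (PT.nd (nat_lit 78) (PT.lf (nat_lit 47196) (nat_lit 6) (nat_lit 621) (nat_lit 4) (nat_lit 184) (nat_lit 198) (nat_lit 188)) (PT.lf (nat_lit 47120) (nat_lit 6) (nat_lit 620) (nat_lit 4) (nat_lit 185) (nat_lit 198) (nat_lit 187)))))) (PT.nd (nat_lit 546) (PT.nd (nat_lit 234) (PT.nd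 (nat_lit 78) (PT.lf (nat_lit 47044) (nat_lit 3) (nat_lit 619) (nat_lit 2) (nat_lit 186) (nat_lit 198) (nat_lit 186)) (PT.nd (nat_lit 78) (PT.lf (nat_lit 47120) (nat_lit 6) (nat_lit 620) (nat_lit 2) (nat_lit 187) (nat_lit 198) (nat_lit 185)) (PT.lf (nat_lit 47196) (nat_lit 6) (nat_lit 621) (nat_lit 2) (nat_lit 188) (nat_lit 198) (nat_lit 184)))) (PT.nd (nat_lit 156) (PT.nd (nat_lit 78) (PT.lf (nat_lit 47272) (nat_lit 6) (nat_lit 622) (nat_lit 2) (nat_lit 189) (nat_lit 198) (nat_lit 183)) (PT.lf (nat_lit 47348) (nat_lit 6) (nat_lit 623) (nat_lit 2) (nat_lit 190) (nat_lit 198) (nat_lit 182))) (PT.nd (nat_lit 78) (PT.lf (nat_lit 46740) (nat_lit 6) (nat_lit 615) (nat_lit 2) (nat_lit 191) (nat_lit 198) (nat_lit 181)) (PT.lf (nat_lit 46056) (nat_lit 6) (nat_lit 606) (nat_lit 2) (nat_lit 192) (nat_lit 198) (nat_lit 180))))) (PT.nd (nat_lit 312) (PT.nd (nat_lit 156) (PT.nd (nat_lit 78) (PT.lf (nat_lit 45296) (nat_lit 6)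 (nat_lit 596) (nat_lit 2) (nat_lit 193) (nat_lit 198) (nat_lit 179)) (PT.lf (nat_lit 44460) (nat_lit 6) (nat_lit 585) (nat_lit 2) (nat_lit 194) (nat_lit 198) (nat_lit 178))) (PT.nd (nat_lit 78) (PT.lf (nat_lit 43548) (nat_lit 6) (nat_lit 573) (nat_lit 2) (nat_lit 195) (nat_lit 198) (nat_lit 177)) (PT.lf (nat_lit 42560) (nat_lit 6) (nat_lit 560) (nat_lit 2) (nat_lit 196) (nat_lit 198) (nat_lit 176)))) (PT.nd (nat_lit 156) (PT.nd (nat_lit 78) (PT.lf (nat_lit 41496) (nat_lit 6) (nat_lit 546) (nat_lit 2) (nat_lit 197) (nat_lit 198) (nat_lit 175)) (PT.lf (nat_lit 40356) (nat_lit 3) (nat_lit 531) (nat_lit 0) (nat_lit 198) (nat_lit 198) (nat_lit 174))) (PT.nd (nat_lit 78) (PT.lf (nat_lit 39064) (nat_lit 6) (nat_lit 514) (nat_lit 0) (nat_lit 199) (nat_lit 198) (nat_lit 173)) (PT.lf (nat_lit 37696) (nat_lit 6) (nat_lit 496) (nat_lit 0) (nat_lit 200) (nat_lit 198) (nat_lit 172))))))) (PT.nd (nat_lit 1092) (PT.nd (nat_lit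 546) (PT.nd (nat_lit 234) (PT.nd (nat_lit 78) (PT.lf (nat_lit 36252) (nat_lit 6) (nat_lit 477) (nat_lit 0) (nat_lit 201) (nat_lit 198) (nat_lit 171)) (PT.nd (nat_lit 78) (PT.lf (nat_lit 34732) (nat_lit 6) (nat_lit 457) (nat_lit 0) (nat_lit 202) (nat_lit 198) (nat_lit 170)) (PT.lf (nat_lit 33136) (nat_lit 6) (nat_lit 436) (nat_lit 0) (nat_lit 203) (nat_lit 198) (nat_lit 169)))) (PT.nd (nat_lit 156) (PT.nd (nat_lit 78) (PT.lf (nat_lit 31464) (nat_lit 6) (nat_lit 414) (nat_lit 0) (nat_lit 204) (nat_lit 198) (nat_lit 168)) (PT.lf (nat_lit 29716) (nat_lit 6) (nat_lit 391) (nat_lit 0) (nat_lit 205) (nat_lit 198) (nat_lit 167))) (PT.nd (nat_lit 78) (PT.lf (nat_lit 28196) (nat_lit 6) (nat_lit 371) (nat_lit 0) (nat_lit 206) (nat_lit 198) (nat_lit 166)) (PT.lf (nat_lit 27284) (nat_lit 6) (nat_lit 359) (nat_lit 0) (nat_lit 207) (nat_lit 198) (nat_lit 165))))) (PT.nd (nat_lit 234) (PT.nd (nat_lit 78) (PT.lf (nat_lit 26296)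 (nat_lit 6) (nat_lit 346) (nat_lit 0) (nat_lit 208) (nat_lit 198) (nat_lit 164)) (PT.nd (nat_lit 78) (PT.lf (nat_lit 25384) (nat_lit 6) (nat_lit 334) (nat_lit 0) (nat_lit 209) (nat_lit 198) (nat_lit 163)) (PT.lf (nat_lit 24472) (nat_lit 6) (nat_lit 322) (nat_lit 0) (nat_lit 210) (nat_lit 198) (nat_lit 162)))) (PT.nd (nat_lit 156) (PT.nd (nat_lit 78) (PT.lf (nat_lit 23636) (nat_lit 6) (nat_lit 311) (nat_lit 0) (nat_lit 211) (nat_lit 198) (nat_lit 161)) (PT.lf (nat_lit 22800) (nat_lit 6) (nat_lit 300) (nat_lit 0) (nat_lit 212) (nat_lit 198) (nat_lit 160))) (PT.nd (nat_lit 78) (PT.lf (nat_lit 22040) (nat_lit 6) (nat_lit 290) (nat_lit 0) (nat_lit 213) (nat_lit 198) (nat_lit 159)) (PT.lf (nat_lit 21204) (nat_lit 6) (nat_lit 279) (nat_lit 0) (nat_lit 214) (nat_lit 198) (nat_lit 158)))))) (PT.nd (nat_lit 55146) (PT.nd (nat_lit 54834) (PT.nd (nat_lit 54678) (PT.lf (nat_lit 20444) (nat_lit 6) (nat_lit 269) (nat_lit 0) (nat_lit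 215) (nat_lit 198) (nat_lit 157)) (PT.nd (nat_lit 78) (PT.lf (nat_lit 19076) (nat_lit 6) (nat_lit 251) (nat_lit 5) (nat_lit 155) (nat_lit 199) (nat_lit 216)) (PT.lf (nat_lit 19760) (nat_lit 6) (nat_lit 260) (nat_lit 5) (nat_lit 156) (nat_lit 199) (nat_lit 215)))) (PT.nd (nat_lit 156) (PT.nd (nat_lit 78) (PT.lf (nat_lit 20520) (nat_lit 6) (nat_lit 270) (nat_lit 5) (nat_lit 157) (nat_lit 199) (nat_lit 214)) (PT.lf (nat_lit 21280) (nat_lit 6) (nat_lit 280) (nat_lit 5) (nat_lit 158) (nat_lit 199) (nat_lit 213))) (PT.nd (nat_lit 78) (PT.lf (nat_lit 22116) (nat_lit 6) (nat_lit 291) (nat_lit 5) (nat_lit 159) (nat_lit 199) (nat_lit 212)) (PT.lf (nat_lit 22876) (nat_lit 6) (nat_lit 301) (nat_lit 5) (nat_lit 160) (nat_lit 199) (nat_lit 211))))) (PT.nd (nat_lit 312) (PT.nd (nat_lit 156) (PT.nd (nat_lit 78) (PT.lf (nat_lit 23712) (nat_lit 6) (nat_lit 312) (nat_lit 5) (nat_lit 161) (nat_lit 199) (nat_lit 210)) (PT.lf (nat_lit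 24548) (nat_lit 6) (nat_lit 323) (nat_lit 5) (nat_lit 162) (nat_lit 199) (nat_lit 209))) (PT.nd (nat_lit 78) (PT.lf (nat_lit 25460) (nat_lit 6) (nat_lit 335) (nat_lit 5) (nat_lit 163) (nat_lit 199) (nat_lit 208)) (PT.lf (nat_lit 26372) (nat_lit 6) (nat_lit 347) (nat_lit 5) (nat_lit 164) (nat_lit 199) (nat_lit 207)))) (PT.nd (nat_lit 156) (PT.nd (nat_lit 78) (PT.lf (nat_lit 27360) (nat_lit 6) (nat_lit 360) (nat_lit 5) (nat_lit 165) (nat_lit 199) (nat_lit 206)) (PT.lf (nat_lit 28272) (nat_lit 6) (nat_lit 372) (nat_lit 5) (nat_lit 166) (nat_lit 199) (nat_lit 205))) (PT.nd (nat_lit 78) (PT.lf (nat_lit 29792) (nat_lit 6) (nat_lit 392) (nat_lit 5) (nat_lit 167) (nat_lit 199) (nat_lit 204)) (PT.lf (nat_lit 31540) (nat_lit 6) (nat_lit 415) (nat_lit 5) (nat_lit 168) (nat_lit 199) (nat_lit 203))))))))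
noncomputable def pc34 : PT := (PT.nd (nat_lit 2262) (PT.nd (nat_lit 1092) (PT.nd (nat_lit 546) (PT.nd (nat_lit 234) (PT.nd (nat_lit 78) (PT.lf (nat_lit 33212) (nat_lit 6) (nat_lit 437) (nat_lit 5) (nat_lit 169) (nat_lit 199) (nat_lit 202)) (PT.nd (nat_lit 78) (PT.lf (nat_lit 34808) (nat_lit 6) (nat_lit 458) (nat_lit 5) (nat_lit 170) (nat_lit 199) (nat_lit 201)) (PT.lf (nat_lit 36328) (nat_lit 6) (nat_lit 478) (nat_lit 5) (nat_lit 171) (nat_lit 199) (nat_lit 200)))) (PT.nd (nat_lit 156) (PT.nd (nat_lit 78) (PT.lf (nat_lit 37772) (nat_lit 3) (nat_lit 497) (nat_lit 4) (nat_lit 172) (nat_lit 199) (nat_lit 199)) (PT.lf (nat_lit 39064) (nat_lit 6) (nat_lit 514) (nat_lit 4) (nat_lit 173) (nat_lit 199) (nat_lit 198))) (PT.nd (nat_lit 78) (PT.lf (nat_lit 40280) (nat_lit 6) (nat_lit 530) (nat_lit 4) (nat_lit 174) (nat_lit 199) (nat_lit 197)) (PT.lf (nat_lit 41420) (nat_lit 6) (nat_lit 545) (nat_lit 4) (nat_lit 175) (nat_lit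 199) (nat_lit 196))))) (PT.nd (nat_lit 234) (PT.nd (nat_lit 78) (PT.lf (nat_lit 42484) (nat_lit 6) (nat_lit 559) (nat_lit 4) (nat_lit 176) (nat_lit 199) (nat_lit 195)) (PT.nd (nat_lit 78) (PT.lf (nat_lit 43472) (nat_lit 6) (nat_lit 572) (nat_lit 4) (nat_lit 177) (nat_lit 199) (nat_lit 194)) (PT.lf (nat_lit 44384) (nat_lit 6) (nat_lit 584) (nat_lit 4) (nat_lit 178) (nat_lit 199) (nat_lit 193)))) (PT.nd (nat_lit 156) (PT.nd (nat_lit 78) (PT.lf (nat_lit 45220) (nat_lit 6) (nat_lit 595) (nat_lit 4) (nat_lit 179) (nat_lit 199) (nat_lit 192)) (PT.lf (nat_lit 45980) (nat_lit 6) (nat_lit 605) (nat_lit 4) (nat_lit 180) (nat_lit 199) (nat_lit 191))) (PT.nd (nat_lit 78) (PT.lf (nat_lit 46664) (nat_lit 6) (nat_lit 614) (nat_lit 4) (nat_lit 181) (nat_lit 199) (nat_lit 190)) (PT.lf (nat_lit 46588) (nat_lit 6) (nat_lit 613) (nat_lit 4) (nat_lit 182) (nat_lit 199) (nat_lit 189)))))) (PT.nd (nat_lit 546) (PT.nd (nat_lit 234) (PT.nd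 (nat_lit 78) (PT.lf (nat_lit 46512) (nat_lit 6) (nat_lit 612) (nat_lit 4) (nat_lit 183) (nat_lit 199) (nat_lit 188)) (PT.nd (nat_lit 78) (PT.lf (nat_lit 46436) (nat_lit 6) (nat_lit 611) (nat_lit 4) (nat_lit 184) (nat_lit 199) (nat_lit 187)) (PT.lf (nat_lit 46360) (nat_lit 6) (nat_lit 610) (nat_lit 4) (nat_lit 185) (nat_lit 199) (nat_lit 186)))) (PT.nd (nat_lit 156) (PT.nd (nat_lit 78) (PT.lf (nat_lit 46360) (nat_lit 6) (nat_lit 610) (nat_lit 2) (nat_lit 186) (nat_lit 199) (nat_lit 185)) (PT.lf (nat_lit 46436) (nat_lit 6) (nat_lit 611) (nat_lit 2) (nat_lit 187) (nat_lit 199) (nat_lit 184))) (PT.nd (nat_lit 78) (PT.lf (nat_lit 46512) (nat_lit 6) (nat_lit 612) (nat_lit 2) (nat_lit 188) (nat_lit 199) (nat_lit 183)) (PT.lf (nat_lit 46588) (nat_lit 6) (nat_lit 613) (nat_lit 2) (nat_lit 189) (nat_lit 199) (nat_lit 182))))) (PT.nd (nat_lit 312) (PT.nd (nat_lit 156) (PT.nd (nat_lit 78) (PT.lf (nat_lit 46664) (nat_lit 6)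 (nat_lit 614) (nat_lit 2) (nat_lit 190) (nat_lit 199) (nat_lit 181)) (PT.lf (nat_lit 45980) (nat_lit 6) (nat_lit 605) (nat_lit 2) (nat_lit 191) (nat_lit 199) (nat_lit 180))) (PT.nd (nat_lit 78) (PT.lf (nat_lit 45220) (nat_lit 6) (nat_lit 595) (nat_lit 2) (nat_lit 192) (nat_lit 199) (nat_lit 179)) (PT.lf (nat_lit 44384) (nat_lit 6) (nat_lit 584) (nat_lit 2) (nat_lit 193) (nat_lit 199) (nat_lit 178)))) (PT.nd (nat_lit 156) (PT.nd (nat_lit 78) (PT.lf (nat_lit 43472) (nat_lit 6) (nat_lit 572) (nat_lit 2) (nat_lit 194) (nat_lit 199) (nat_lit 177)) (PT.lf (nat_lit 42484) (nat_lit 6) (nat_lit 559) (nat_lit 2) (nat_lit 195) (nat_lit 199) (nat_lit 176))) (PT.nd (nat_lit 78) (PT.lf (nat_lit 41420) (nat_lit 6) (nat_lit 545) (nat_lit 2) (nat_lit 196) (nat_lit 199) (nat_lit 175)) (PT.lf (nat_lit 40280) (nat_lit 6) (nat_lit 530) (nat_lit 2) (nat_lit 197) (nat_lit 199) (nat_lit 174))))))) (PT.nd (nat_lit 1092) (PT.nd (nat_lit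 546) (PT.nd (nat_lit 234) (PT.nd (nat_lit 78) (PT.lf (nat_lit 39064) (nat_lit 6) (nat_lit 514) (nat_lit 2) (nat_lit 198) (nat_lit 199) (nat_lit 173)) (PT.nd (nat_lit 78) (PT.lf (nat_lit 37772) (nat_lit 3) (nat_lit 497) (nat_lit 0) (nat_lit 199) (nat_lit 199) (nat_lit 172)) (PT.lf (nat_lit 36328) (nat_lit 6) (nat_lit 478) (nat_lit 0) (nat_lit 200) (nat_lit 199) (nat_lit 171)))) (PT.nd (nat_lit 156) (PT.nd (nat_lit 78) (PT.lf (nat_lit 34808) (nat_lit 6) (nat_lit 458) (nat_lit 0) (nat_lit 201) (nat_lit 199) (nat_lit 170)) (PT.lf (nat_lit 33212) (nat_lit 6) (nat_lit 437) (nat_lit 0) (nat_lit 202) (nat_lit 199) (nat_lit 169))) (PT.nd (nat_lit 78) (PT.lf (nat_lit 31540) (nat_lit 6) (nat_lit 415) (nat_lit 0) (nat_lit 203) (nat_lit 199) (nat_lit 168)) (PT.lf (nat_lit 29792) (nat_lit 6) (nat_lit 392) (nat_lit 0) (nat_lit 204) (nat_lit 199) (nat_lit 167))))) (PT.nd (nat_lit 234) (PT.nd (nat_lit 78) (PT.lf (nat_lit 28272)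 (nat_lit 6) (nat_lit 372) (nat_lit 0) (nat_lit 205) (nat_lit 199) (nat_lit 166)) (PT.nd (nat_lit 78) (PT.lf (nat_lit 27360) (nat_lit 6) (nat_lit 360) (nat_lit 0) (nat_lit 206) (nat_lit 199) (nat_lit 165)) (PT.lf (nat_lit 26372) (nat_lit 6) (nat_lit 347) (nat_lit 0) (nat_lit 207) (nat_lit 199) (nat_lit 164)))) (PT.nd (nat_lit 156) (PT.nd (nat_lit 78) (PT.lf (nat_lit 25460) (nat_lit 6) (nat_lit 335) (nat_lit 0) (nat_lit 208) (nat_lit 199) (nat_lit 163)) (PT.lf (nat_lit 24548) (nat_lit 6) (nat_lit 323) (nat_lit 0) (nat_lit 209) (nat_lit 199) (nat_lit 162))) (PT.nd (nat_lit 78) (PT.lf (nat_lit 23712) (nat_lit 6) (nat_lit 312) (nat_lit 0) (nat_lit 210) (nat_lit 199) (nat_lit 161)) (PT.lf (nat_lit 22876) (nat_lit 6) (nat_lit 301) (nat_lit 0) (nat_lit 211) (nat_lit 199) (nat_lit 160)))))) (PT.nd (nat_lit 54990) (PT.nd (nat_lit 234) (PT.nd (nat_lit 78) (PT.lf (nat_lit 22116) (nat_lit 6) (nat_lit 291) (nat_lit 0) (nat_lit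 212) (nat_lit 199) (nat_lit 159)) (PT.nd (nat_lit 78) (PT.lf (nat_lit 21280) (nat_lit 6) (nat_lit 280) (nat_lit 0) (nat_lit 213) (nat_lit 199) (nat_lit 158)) (PT.lf (nat_lit 20520) (nat_lit 6) (nat_lit 270) (nat_lit 0) (nat_lit 214) (nat_lit 199) (nat_lit 157)))) (PT.nd (nat_lit 54600) (PT.nd (nat_lit 78) (PT.lf (nat_lit 19760) (nat_lit 6) (nat_lit 260) (nat_lit 0) (nat_lit 215) (nat_lit 199) (nat_lit 156)) (PT.lf (nat_lit 19076) (nat_lit 6) (nat_lit 251) (nat_lit 0) (nat_lit 216) (nat_lit 199) (nat_lit 155))) (PT.nd (nat_lit 78) (PT.lf (nat_lit 18392) (nat_lit 6) (nat_lit 242) (nat_lit 5) (nat_lit 154) (nat_lit 200) (nat_lit 216)) (PT.lf (nat_lit 19152) (nat_lit 6) (nat_lit 252) (nat_lit 5) (nat_lit 155) (nat_lit 200) (nat_lit 215))))) (PT.nd (nat_lit 312) (PT.nd (nat_lit 156) (PT.nd (nat_lit 78) (PT.lf (nat_lit 19836) (nat_lit 6) (nat_lit 261) (nat_lit 5) (nat_lit 156) (nat_lit 200) (nat_lit 214)) (PT.lf (nat_lit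 20596) (nat_lit 6) (nat_lit 271) (nat_lit 5) (nat_lit 157) (nat_lit 200) (nat_lit 213))) (PT.nd (nat_lit 78) (PT.lf (nat_lit 21356) (nat_lit 6) (nat_lit 281) (nat_lit 5) (nat_lit 158) (nat_lit 200) (nat_lit 212)) (PT.lf (nat_lit 22192) (nat_lit 6) (nat_lit 292) (nat_lit 5) (nat_lit 159) (nat_lit 200) (nat_lit 211)))) (PT.nd (nat_lit 156) (PT.nd (nat_lit 78) (PT.lf (nat_lit 22952) (nat_lit 6) (nat_lit 302) (nat_lit 5) (nat_lit 160) (nat_lit 200) (nat_lit 210)) (PT.lf (nat_lit 23788) (nat_lit 6) (nat_lit 313) (nat_lit 5) (nat_lit 161) (nat_lit 200) (nat_lit 209))) (PT.nd (nat_lit 78) (PT.lf (nat_lit 24624) (nat_lit 6) (nat_lit 324) (nat_lit 5) (nat_lit 162) (nat_lit 200) (nat_lit 208)) (PT.lf (nat_lit 25536) (nat_lit 6) (nat_lit 336) (nat_lit 5) (nat_lit 163) (nat_lit 200) (nat_lit 207))))))))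
noncomputable def pc35 : PT := (PT.nd (nat_lit 2262) (PT.nd (nat_lit 1092) (PT.nd (nat_lit 546) (PT.nd (nat_lit 234) (PT.nd (nat_lit 78) (PT.lf (nat_lit 26448) (nat_lit 6) (nat_lit 348) (nat_lit 5) (nat_lit 164) (nat_lit 200) (nat_lit 206)) (PT.nd (nat_lit 78) (PT.lf (nat_lit 27436) (nat_lit 6) (nat_lit 361) (nat_lit 5) (nat_lit 165) (nat_lit 200) (nat_lit 205)) (PT.lf (nat_lit 28348) (nat_lit 6) (nat_lit 373) (nat_lit 5) (nat_lit 166) (nat_lit 200) (nat_lit 204)))) (PT.nd (nat_lit 156) (PT.nd (nat_lit 78) (PT.lf (nat_lit 29868) (nat_lit 6) (nat_lit 393) (nat_lit 5) (nat_lit 167) (nat_lit 200) (nat_lit 203)) (PT.lf (nat_lit 31616) (nat_lit 6) (nat_lit 416) (nat_lit 5) (nat_lit 168) (nat_lit 200) (nat_lit 202))) (PT.nd (nat_lit 78) (PT.lf (nat_lit 33288) (nat_lit 6) (nat_lit 438) (nat_lit 5) (nat_lit 169) (nat_lit 200) (nat_lit 201)) (PT.lf (nat_lit 34884) (nat_lit 3) (nat_lit 459) (nat_lit 4) (nat_lit 170) (nat_lit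 200) (nat_lit 200))))) (PT.nd (nat_lit 234) (PT.nd (nat_lit 78) (PT.lf (nat_lit 36328) (nat_lit 6) (nat_lit 478) (nat_lit 4) (nat_lit 171) (nat_lit 200) (nat_lit 199)) (PT.nd (nat_lit 78) (PT.lf (nat_lit 37696) (nat_lit 6) (nat_lit 496) (nat_lit 4) (nat_lit 172) (nat_lit 200) (nat_lit 198)) (PT.lf (nat_lit 38988) (nat_lit 6) (nat_lit 513) (nat_lit 4) (nat_lit 173) (nat_lit 200) (nat_lit 197)))) (PT.nd (nat_lit 156) (PT.nd (nat_lit 78) (PT.lf (nat_lit 40204) (nat_lit 6) (nat_lit 529) (nat_lit 4) (nat_lit 174) (nat_lit 200) (nat_lit 196)) (PT.lf (nat_lit 41344) (nat_lit 6) (nat_lit 544) (nat_lit 4) (nat_lit 175) (nat_lit 200) (nat_lit 195))) (PT.nd (nat_lit 78) (PT.lf (nat_lit 42408) (nat_lit 6) (nat_lit 558) (nat_lit 4) (nat_lit 176) (nat_lit 200) (nat_lit 194)) (PT.lf (nat_lit 43396) (nat_lit 6) (nat_lit 571) (nat_lit 4) (nat_lit 177) (nat_lit 200) (nat_lit 193)))))) (PT.nd (nat_lit 546) (PT.nd (nat_lit 234) (PT.nd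 (nat_lit 78) (PT.lf (nat_lit 44308) (nat_lit 6) (nat_lit 583) (nat_lit 4) (nat_lit 178) (nat_lit 200) (nat_lit 192)) (PT.nd (nat_lit 78) (PT.lf (nat_lit 45144) (nat_lit 6) (nat_lit 594) (nat_lit 4) (nat_lit 179) (nat_lit 200) (nat_lit 191)) (PT.lf (nat_lit 45904) (nat_lit 6) (nat_lit 604) (nat_lit 4) (nat_lit 180) (nat_lit 200) (nat_lit 190)))) (PT.nd (nat_lit 156) (PT.nd (nat_lit 78) (PT.lf (nat_lit 45828) (nat_lit 6) (nat_lit 603) (nat_lit 4) (nat_lit 181) (nat_lit 200) (nat_lit 189)) (PT.lf (nat_lit 45752) (nat_lit 6) (nat_lit 602) (nat_lit 4) (nat_lit 182) (nat_lit 200) (nat_lit 188))) (PT.nd (nat_lit 78) (PT.lf (nat_lit 45676) (nat_lit 6) (nat_lit 601) (nat_lit 4) (nat_lit 183) (nat_lit 200) (nat_lit 187)) (PT.lf (nat_lit 45600) (nat_lit 6) (nat_lit 600) (nat_lit 4) (nat_lit 184) (nat_lit 200) (nat_lit 186))))) (PT.nd (nat_lit 312) (PT.nd (nat_lit 156) (PT.nd (nat_lit 78) (PT.lf (nat_lit 45524) (nat_lit 3)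 (nat_lit 599) (nat_lit 2) (nat_lit 185) (nat_lit 200) (nat_lit 185)) (PT.lf (nat_lit 45600) (nat_lit 6) (nat_lit 600) (nat_lit 2) (nat_lit 186) (nat_lit 200) (nat_lit 184))) (PT.nd (nat_lit 78) (PT.lf (nat_lit 45676) (nat_lit 6) (nat_lit 601) (nat_lit 2) (nat_lit 187) (nat_lit 200) (nat_lit 183)) (PT.lf (nat_lit 45752) (nat_lit 6) (nat_lit 602) (nat_lit 2) (nat_lit 188) (nat_lit 200) (nat_lit 182)))) (PT.nd (nat_lit 156) (PT.nd (nat_lit 78) (PT.lf (nat_lit 45828) (nat_lit 6) (nat_lit 603) (nat_lit 2) (nat_lit 189) (nat_lit 200) (nat_lit 181)) (PT.lf (nat_lit 45904) (nat_lit 6) (nat_lit 604) (nat_lit 2) (nat_lit 190) (nat_lit 200) (nat_lit 180))) (PT.nd (nat_lit 78) (PT.lf (nat_lit 45144) (nat_lit 6) (nat_lit 594) (nat_lit 2) (nat_lit 191) (nat_lit 200) (nat_lit 179)) (PT.lf (nat_lit 44308) (nat_lit 6) (nat_lit 583) (nat_lit 2) (nat_lit 192) (nat_lit 200) (nat_lit 178))))))) (PT.nd (nat_lit 1170) (PT.nd (nat_lit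 546) (PT.nd (nat_lit 234) (PT.nd (nat_lit 78) (PT.lf (nat_lit 43396) (nat_lit 6) (nat_lit 571) (nat_lit 2) (nat_lit 193) (nat_lit 200) (nat_lit 177)) (PT.nd (nat_lit 78) (PT.lf (nat_lit 42408) (nat_lit 6) (nat_lit 558) (nat_lit 2) (nat_lit 194) (nat_lit 200) (nat_lit 176)) (PT.lf (nat_lit 41344) (nat_lit 6) (nat_lit 544) (nat_lit 2) (nat_lit 195) (nat_lit 200) (nat_lit 175)))) (PT.nd (nat_lit 156) (PT.nd (nat_lit 78) (PT.lf (nat_lit 40204) (nat_lit 6) (nat_lit 529) (nat_lit 2) (nat_lit 196) (nat_lit 200) (nat_lit 174)) (PT.lf (nat_lit 38988) (nat_lit 6) (nat_lit 513) (nat_lit 2) (nat_lit 197) (nat_lit 200) (nat_lit 173))) (PT.nd (nat_lit 78) (PT.lf (nat_lit 37696) (nat_lit 6) (nat_lit 496) (nat_lit 2) (nat_lit 198) (nat_lit 200) (nat_lit 172)) (PT.lf (nat_lit 36328) (nat_lit 6) (nat_lit 478) (nat_lit 2) (nat_lit 199) (nat_lit 200) (nat_lit 171))))) (PT.nd (nat_lit 312) (PT.nd (nat_lit 156) (PT.nd (nat_lit 78) (PT.lf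 (nat_lit 34884) (nat_lit 3) (nat_lit 459) (nat_lit 0) (nat_lit 200) (nat_lit 200) (nat_lit 170)) (PT.lf (nat_lit 33288) (nat_lit 6) (nat_lit 438) (nat_lit 0) (nat_lit 201) (nat_lit 200) (nat_lit 169))) (PT.nd (nat_lit 78) (PT.lf (nat_lit 31616) (nat_lit 6) (nat_lit 416) (nat_lit 0) (nat_lit 202) (nat_lit 200) (nat_lit 168)) (PT.lf (nat_lit 29868) (nat_lit 6) (nat_lit 393) (nat_lit 0) (nat_lit 203) (nat_lit 200) (nat_lit 167)))) (PT.nd (nat_lit 156) (PT.nd (nat_lit 78) (PT.lf (nat_lit 28348) (nat_lit 6) (nat_lit 373) (nat_lit 0) (nat_lit 204) (nat_lit 200) (nat_lit 166)) (PT.lf (nat_lit 27436) (nat_lit 6) (nat_lit 361) (nat_lit 0) (nat_lit 205) (nat_lit 200) (nat_lit 165))) (PT.nd (nat_lit 78) (PT.lf (nat_lit 26448) (nat_lit 6) (nat_lit 348) (nat_lit 0) (nat_lit 206) (nat_lit 200) (nat_lit 164)) (PT.lf (nat_lit 25536) (nat_lit 6) (nat_lit 336) (nat_lit 0) (nat_lit 207) (nat_lit 200) (nat_lit 163)))))) (PT.nd (nat_lit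 546) (PT.nd (nat_lit 234) (PT.nd (nat_lit 78) (PT.lf (nat_lit 24624) (nat_lit 6) (nat_lit 324) (nat_lit 0) (nat_lit 208) (nat_lit 200) (nat_lit 162)) (PT.nd (nat_lit 78) (PT.lf (nat_lit 23788) (nat_lit 6) (nat_lit 313) (nat_lit 0) (nat_lit 209) (nat_lit 200) (nat_lit 161)) (PT.lf (nat_lit 22952) (nat_lit 6) (nat_lit 302) (nat_lit 0) (nat_lit 210) (nat_lit 200) (nat_lit 160)))) (PT.nd (nat_lit 156) (PT.nd (nat_lit 78) (PT.lf (nat_lit 22192) (nat_lit 6) (nat_lit 292) (nat_lit 0) (nat_lit 211) (nat_lit 200) (nat_lit 159)) (PT.lf (nat_lit 21356) (nat_lit 6) (nat_lit 281) (nat_lit 0) (nat_lit 212) (nat_lit 200) (nat_lit 158))) (PT.nd (nat_lit 78) (PT.lf (nat_lit 20596) (nat_lit 6) (nat_lit 271) (nat_lit 0) (nat_lit 213) (nat_lit 200) (nat_lit 157)) (PT.lf (nat_lit 19836) (nat_lit 6) (nat_lit 261) (nat_lit 0) (nat_lit 214) (nat_lit 200) (nat_lit 156))))) (PT.nd (nat_lit 54678) (PT.nd (nat_lit 54522) (PT.nd (nat_lit 78)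 (PT.lf (nat_lit 19152) (nat_lit 6) (nat_lit 252) (nat_lit 0) (nat_lit 215) (nat_lit 200) (nat_lit 155)) (PT.lf (nat_lit 18392) (nat_lit 6) (nat_lit 242) (nat_lit 0) (nat_lit 216) (nat_lit 200) (nat_lit 154))) (PT.nd (nat_lit 78) (PT.lf (nat_lit 17784) (nat_lit 6) (nat_lit 234) (nat_lit 5) (nat_lit 153) (nat_lit 201) (nat_lit 216)) (PT.lf (nat_lit 18468) (nat_lit 6) (nat_lit 243) (nat_lit 5) (nat_lit 154) (nat_lit 201) (nat_lit 215)))) (PT.nd (nat_lit 156) (PT.nd (nat_lit 78) (PT.lf (nat_lit 19228) (nat_lit 6) (nat_lit 253) (nat_lit 5) (nat_lit 155) (nat_lit 201) (nat_lit 214)) (PT.lf (nat_lit 19912) (nat_lit 6) (nat_lit 262) (nat_lit 5) (nat_lit 156) (nat_lit 201) (nat_lit 213))) (PT.nd (nat_lit 78) (PT.lf (nat_lit 20672) (nat_lit 6) (nat_lit 272) (nat_lit 5) (nat_lit 157) (nat_lit 201) (nat_lit 212)) (PT.lf (nat_lit 21432) (nat_lit 6) (nat_lit 282) (nat_lit 5) (nat_lit 158) (nat_lit 201) (nat_lit 211))))))))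
noncomputable def pc36 : PT := (PT.nd (nat_lit 2262) (PT.nd (nat_lit 1092) (PT.nd (nat_lit 546) (PT.nd (nat_lit 234) (PT.nd (nat_lit 78) (PT.lf (nat_lit 22268) (nat_lit 6) (nat_lit 293) (nat_lit 5) (nat_lit 159) (nat_lit 201) (nat_lit 210)) (PT.nd (nat_lit 78) (PT.lf (nat_lit 23028) (nat_lit 6) (nat_lit 303) (nat_lit 5) (nat_lit 160) (nat_lit 201) (nat_lit 209)) (PT.lf (nat_lit 23864) (nat_lit 6) (nat_lit 314) (nat_lit 5) (nat_lit 161) (nat_lit 201) (nat_lit 208)))) (PT.nd (nat_lit 156) (PT.nd (nat_lit 78) (PT.lf (nat_lit 24700) (nat_lit 6) (nat_lit 325) (nat_lit 5) (nat_lit 162) (nat_lit 201) (nat_lit 207)) (PT.lf (nat_lit 25612) (nat_lit 6) (nat_lit 337) (nat_lit 5) (nat_lit 163) (nat_lit 201) (nat_lit 206))) (PT.nd (nat_lit 78) (PT.lf (nat_lit 26524) (nat_lit 6) (nat_lit 349) (nat_lit 5) (nat_lit 164) (nat_lit 201) (nat_lit 205)) (PT.lf (nat_lit 27512) (nat_lit 6) (nat_lit 362) (nat_lit 5) (nat_lit 165) (nat_lit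 201) (nat_lit 204))))) (PT.nd (nat_lit 234) (PT.nd (nat_lit 78) (PT.lf (nat_lit 28424) (nat_lit 6) (nat_lit 374) (nat_lit 5) (nat_lit 166) (nat_lit 201) (nat_lit 203)) (PT.nd (nat_lit 78) (PT.lf (nat_lit 29944) (nat_lit 6) (nat_lit 394) (nat_lit 5) (nat_lit 167) (nat_lit 201) (nat_lit 202)) (PT.lf (nat_lit 31692) (nat_lit 3) (nat_lit 417) (nat_lit 4) (nat_lit 168) (nat_lit 201) (nat_lit 201)))) (PT.nd (nat_lit 156) (PT.nd (nat_lit 78) (PT.lf (nat_lit 33288) (nat_lit 6) (nat_lit 438) (nat_lit 4) (nat_lit 169) (nat_lit 201) (nat_lit 200)) (PT.lf (nat_lit 34808) (nat_lit 6) (nat_lit 458) (nat_lit 4) (nat_lit 170) (nat_lit 201) (nat_lit 199))) (PT.nd (nat_lit 78) (PT.lf (nat_lit 36252) (nat_lit 6) (nat_lit 477) (nat_lit 4) (nat_lit 171) (nat_lit 201) (nat_lit 198)) (PT.lf (nat_lit 37620) (nat_lit 6) (nat_lit 495) (nat_lit 4) (nat_lit 172) (nat_lit 201) (nat_lit 197)))))) (PT.nd (nat_lit 546) (PT.nd (nat_lit 234) (PT.nd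 (nat_lit 78) (PT.lf (nat_lit 38912) (nat_lit 6) (nat_lit 512) (nat_lit 4) (nat_lit 173) (nat_lit 201) (nat_lit 196)) (PT.nd (nat_lit 78) (PT.lf (nat_lit 40128) (nat_lit 6) (nat_lit 528) (nat_lit 4) (nat_lit 174) (nat_lit 201) (nat_lit 195)) (PT.lf (nat_lit 41268) (nat_lit 6) (nat_lit 543) (nat_lit 4) (nat_lit 175) (nat_lit 201) (nat_lit 194)))) (PT.nd (nat_lit 156) (PT.nd (nat_lit 78) (PT.lf (nat_lit 42332) (nat_lit 6) (nat_lit 557) (nat_lit 4) (nat_lit 176) (nat_lit 201) (nat_lit 193)) (PT.lf (nat_lit 43320) (nat_lit 6) (nat_lit 570) (nat_lit 4) (nat_lit 177) (nat_lit 201) (nat_lit 192))) (PT.nd (nat_lit 78) (PT.lf (nat_lit 44232) (nat_lit 6) (nat_lit 582) (nat_lit 4) (nat_lit 178) (nat_lit 201) (nat_lit 191)) (PT.lf (nat_lit 45068) (nat_lit 6) (nat_lit 593) (nat_lit 4) (nat_lit 179) (nat_lit 201) (nat_lit 190))))) (PT.nd (nat_lit 312) (PT.nd (nat_lit 156) (PT.nd (nat_lit 78) (PT.lf (nat_lit 44992) (nat_lit 6)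 (nat_lit 592) (nat_lit 4) (nat_lit 180) (nat_lit 201) (nat_lit 189)) (PT.lf (nat_lit 44916) (nat_lit 6) (nat_lit 591) (nat_lit 4) (nat_lit 181) (nat_lit 201) (nat_lit 188))) (PT.nd (nat_lit 78) (PT.lf (nat_lit 44840) (nat_lit 6) (nat_lit 590) (nat_lit 4) (nat_lit 182) (nat_lit 201) (nat_lit 187)) (PT.lf (nat_lit 44764) (nat_lit 6) (nat_lit 589) (nat_lit 4) (nat_lit 183) (nat_lit 201) (nat_lit 186)))) (PT.nd (nat_lit 156) (PT.nd (nat_lit 78) (PT.lf (nat_lit 44688) (nat_lit 6) (nat_lit 588) (nat_lit 4) (nat_lit 184) (nat_lit 201) (nat_lit 185)) (PT.lf (nat_lit 44688) (nat_lit 6) (nat_lit 588) (nat_lit 2) (nat_lit 185) (nat_lit 201) (nat_lit 184))) (PT.nd (nat_lit 78) (PT.lf (nat_lit 44764) (nat_lit 6) (nat_lit 589) (nat_lit 2) (nat_lit 186) (nat_lit 201) (nat_lit 183)) (PT.lf (nat_lit 44840) (nat_lit 6) (nat_lit 590) (nat_lit 2) (nat_lit 187) (nat_lit 201) (nat_lit 182))))))) (PT.nd (nat_lit 1092) (PT.nd (nat_lit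 546) (PT.nd (nat_lit 234) (PT.nd (nat_lit 78) (PT.lf (nat_lit 44916) (nat_lit 6) (nat_lit 591) (nat_lit 2) (nat_lit 188) (nat_lit 201) (nat_lit 181)) (PT.nd (nat_lit 78) (PT.lf (nat_lit 44992) (nat_lit 6) (nat_lit 592) (nat_lit 2) (nat_lit 189) (nat_lit 201) (nat_lit 180)) (PT.lf (nat_lit 45068) (nat_lit 6) (nat_lit 593) (nat_lit 2) (nat_lit 190) (nat_lit 201) (nat_lit 179)))) (PT.nd (nat_lit 156) (PT.nd (nat_lit 78) (PT.lf (nat_lit 44232) (nat_lit 6) (nat_lit 582) (nat_lit 2) (nat_lit 191) (nat_lit 201) (nat_lit 178)) (PT.lf (nat_lit 43320) (nat_lit 6) (nat_lit 570) (nat_lit 2) (nat_lit 192) (nat_lit 201) (nat_lit 177))) (PT.nd (nat_lit 78) (PT.lf (nat_lit 42332) (nat_lit 6) (nat_lit 557) (nat_lit 2) (nat_lit 193) (nat_lit 201) (nat_lit 176)) (PT.lf (nat_lit 41268) (nat_lit 6) (nat_lit 543) (nat_lit 2) (nat_lit 194) (nat_lit 201) (nat_lit 175))))) (PT.nd (nat_lit 234) (PT.nd (nat_lit 78) (PT.lf (nat_lit 40128)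 (nat_lit 6) (nat_lit 528) (nat_lit 2) (nat_lit 195) (nat_lit 201) (nat_lit 174)) (PT.nd (nat_lit 78) (PT.lf (nat_lit 38912) (nat_lit 6) (nat_lit 512) (nat_lit 2) (nat_lit 196) (nat_lit 201) (nat_lit 173)) (PT.lf (nat_lit 37620) (nat_lit 6) (nat_lit 495) (nat_lit 2) (nat_lit 197) (nat_lit 201) (nat_lit 172)))) (PT.nd (nat_lit 156) (PT.nd (nat_lit 78) (PT.lf (nat_lit 36252) (nat_lit 6) (nat_lit 477) (nat_lit 2) (nat_lit 198) (nat_lit 201) (nat_lit 171)) (PT.lf (nat_lit 34808) (nat_lit 6) (nat_lit 458) (nat_lit 2) (nat_lit 199) (nat_lit 201) (nat_lit 170))) (PT.nd (nat_lit 78) (PT.lf (nat_lit 33288) (nat_lit 6) (nat_lit 438) (nat_lit 2) (nat_lit 200) (nat_lit 201) (nat_lit 169)) (PT.lf (nat_lit 31692) (nat_lit 3) (nat_lit 417) (nat_lit 0) (nat_lit 201) (nat_lit 201) (nat_lit 168)))))) (PT.nd (nat_lit 546) (PT.nd (nat_lit 234) (PT.nd (nat_lit 78) (PT.lf (nat_lit 29944) (nat_lit 6) (nat_lit 394) (nat_lit 0) (nat_lit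 202) (nat_lit 201) (nat_lit 167)) (PT.nd (nat_lit 78) (PT.lf (nat_lit 28424) (nat_lit 6) (nat_lit 374) (nat_lit 0) (nat_lit 203) (nat_lit 201) (nat_lit 166)) (PT.lf (nat_lit 27512) (nat_lit 6) (nat_lit 362) (nat_lit 0) (nat_lit 204) (nat_lit 201) (nat_lit 165)))) (PT.nd (nat_lit 156) (PT.nd (nat_lit 78) (PT.lf (nat_lit 26524) (nat_lit 6) (nat_lit 349) (nat_lit 0) (nat_lit 205) (nat_lit 201) (nat_lit 164)) (PT.lf (nat_lit 25612) (nat_lit 6) (nat_lit 337) (nat_lit 0) (nat_lit 206) (nat_lit 201) (nat_lit 163))) (PT.nd (nat_lit 78) (PT.lf (nat_lit 24700) (nat_lit 6) (nat_lit 325) (nat_lit 0) (nat_lit 207) (nat_lit 201) (nat_lit 162)) (PT.lf (nat_lit 23864) (nat_lit 6) (nat_lit 314) (nat_lit 0) (nat_lit 208) (nat_lit 201) (nat_lit 161))))) (PT.nd (nat_lit 312) (PT.nd (nat_lit 156) (PT.nd (nat_lit 78) (PT.lf (nat_lit 23028) (nat_lit 6) (nat_lit 303) (nat_lit 0) (nat_lit 209) (nat_lit 201) (nat_lit 160)) (PT.lf (nat_lit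 22268) (nat_lit 6) (nat_lit 293) (nat_lit 0) (nat_lit 210) (nat_lit 201) (nat_lit 159))) (PT.nd (nat_lit 78) (PT.lf (nat_lit 21432) (nat_lit 6) (nat_lit 282) (nat_lit 0) (nat_lit 211) (nat_lit 201) (nat_lit 158)) (PT.lf (nat_lit 20672) (nat_lit 6) (nat_lit 272) (nat_lit 0) (nat_lit 212) (nat_lit 201) (nat_lit 157)))) (PT.nd (nat_lit 156) (PT.nd (nat_lit 78) (PT.lf (nat_lit 19912) (nat_lit 6) (nat_lit 262) (nat_lit 0) (nat_lit 213) (nat_lit 201) (nat_lit 156)) (PT.lf (nat_lit 19228) (nat_lit 6) (nat_lit 253) (nat_lit 0) (nat_lit 214) (nat_lit 201) (nat_lit 155))) (PT.nd (nat_lit 78) (PT.lf (nat_lit 18468) (nat_lit 6) (nat_lit 243) (nat_lit 0) (nat_lit 215) (nat_lit 201) (nat_lit 154)) (PT.lf (nat_lit 17784) (nat_lit 6) (nat_lit 234) (nat_lit 0) (nat_lit 216) (nat_lit 201) (nat_lit 153))))))))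
noncomputable def pc37 : PT := (PT.nd (nat_lit 2262) (PT.nd (nat_lit 1092) (PT.nd (nat_lit 546) (PT.nd (nat_lit 234) (PT.nd (nat_lit 78) (PT.lf (nat_lit 16568) (nat_lit 6) (nat_lit 218) (nat_lit 5) (nat_lit 151) (nat_lit 202) (nat_lit 217)) (PT.nd (nat_lit 78) (PT.lf (nat_lit 17176) (nat_lit 6) (nat_lit 226) (nat_lit 5) (nat_lit 152) (nat_lit 202) (nat_lit 216)) (PT.lf (nat_lit 17860) (nat_lit 6) (nat_lit 235) (nat_lit 5) (nat_lit 153) (nat_lit 202) (nat_lit 215)))) (PT.nd (nat_lit 156) (PT.nd (nat_lit 78) (PT.lf (nat_lit 18544) (nat_lit 6) (nat_lit 244) (nat_lit 5) (nat_lit 154) (nat_lit 202) (nat_lit 214)) (PT.lf (nat_lit 19304) (nat_lit 6) (nat_lit 254) (nat_lit 5) (nat_lit 155) (nat_lit 202) (nat_lit 213))) (PT.nd (nat_lit 78) (PT.lf (nat_lit 19988) (nat_lit 6) (nat_lit 263) (nat_lit 5) (nat_lit 156) (nat_lit 202) (nat_lit 212)) (PT.lf (nat_lit 20748) (nat_lit 6) (nat_lit 273) (nat_lit 5) (nat_lit 157) (nat_lit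 202) (nat_lit 211))))) (PT.nd (nat_lit 234) (PT.nd (nat_lit 78) (PT.lf (nat_lit 21508) (nat_lit 6) (nat_lit 283) (nat_lit 5) (nat_lit 158) (nat_lit 202) (nat_lit 210)) (PT.nd (nat_lit 78) (PT.lf (nat_lit 22344) (nat_lit 6) (nat_lit 294) (nat_lit 5) (nat_lit 159) (nat_lit 202) (nat_lit 209)) (PT.lf (nat_lit 23104) (nat_lit 6) (nat_lit 304) (nat_lit 5) (nat_lit 160) (nat_lit 202) (nat_lit 208)))) (PT.nd (nat_lit 156) (PT.nd (nat_lit 78) (PT.lf (nat_lit 23940) (nat_lit 6) (nat_lit 315) (nat_lit 5) (nat_lit 161) (nat_lit 202) (nat_lit 207)) (PT.lf (nat_lit 24776) (nat_lit 6) (nat_lit 326) (nat_lit 5) (nat_lit 162) (nat_lit 202) (nat_lit 206))) (PT.nd (nat_lit 78) (PT.lf (nat_lit 25688) (nat_lit 6) (nat_lit 338) (nat_lit 5) (nat_lit 163) (nat_lit 202) (nat_lit 205)) (PT.lf (nat_lit 26600) (nat_lit 6) (nat_lit 350) (nat_lit 5) (nat_lit 164) (nat_lit 202) (nat_lit 204)))))) (PT.nd (nat_lit 546) (PT.nd (nat_lit 234) (PT.nd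 (nat_lit 78) (PT.lf (nat_lit 27588) (nat_lit 6) (nat_lit 363) (nat_lit 5) (nat_lit 165) (nat_lit 202) (nat_lit 203)) (PT.nd (nat_lit 78) (PT.lf (nat_lit 28500) (nat_lit 3) (nat_lit 375) (nat_lit 4) (nat_lit 166) (nat_lit 202) (nat_lit 202)) (PT.lf (nat_lit 29944) (nat_lit 6) (nat_lit 394) (nat_lit 4) (nat_lit 167) (nat_lit 202) (nat_lit 201)))) (PT.nd (nat_lit 156) (PT.nd (nat_lit 78) (PT.lf (nat_lit 31616) (nat_lit 6) (nat_lit 416) (nat_lit 4) (nat_lit 168) (nat_lit 202) (nat_lit 200)) (PT.lf (nat_lit 33212) (nat_lit 6) (nat_lit 437) (nat_lit 4) (nat_lit 169) (nat_lit 202) (nat_lit 199))) (PT.nd (nat_lit 78) (PT.lf (nat_lit 34732) (nat_lit 6) (nat_lit 457) (nat_lit 4) (nat_lit 170) (nat_lit 202) (nat_lit 198)) (PT.lf (nat_lit 36176) (nat_lit 6) (nat_lit 476) (nat_lit 4) (nat_lit 171) (nat_lit 202) (nat_lit 197))))) (PT.nd (nat_lit 312) (PT.nd (nat_lit 156) (PT.nd (nat_lit 78) (PT.lf (nat_lit 37544) (nat_lit 6)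 (nat_lit 494) (nat_lit 4) (nat_lit 172) (nat_lit 202) (nat_lit 196)) (PT.lf (nat_lit 38836) (nat_lit 6) (nat_lit 511) (nat_lit 4) (nat_lit 173) (nat_lit 202) (nat_lit 195))) (PT.nd (nat_lit 78) (PT.lf (nat_lit 40052) (nat_lit 6) (nat_lit 527) (nat_lit 4) (nat_lit 174) (nat_lit 202) (nat_lit 194)) (PT.lf (nat_lit 41192) (nat_lit 6) (nat_lit 542) (nat_lit 4) (nat_lit 175) (nat_lit 202) (nat_lit 193)))) (PT.nd (nat_lit 156) (PT.nd (nat_lit 78) (PT.lf (nat_lit 42256) (nat_lit 6) (nat_lit 556) (nat_lit 4) (nat_lit 176) (nat_lit 202) (nat_lit 192)) (PT.lf (nat_lit 43244) (nat_lit 6) (nat_lit 569) (nat_lit 4) (nat_lit 177) (nat_lit 202) (nat_lit 191))) (PT.nd (nat_lit 78) (PT.lf (nat_lit 44156) (nat_lit 6) (nat_lit 581) (nat_lit 4) (nat_lit 178) (nat_lit 202) (nat_lit 190)) (PT.lf (nat_lit 44080) (nat_lit 6) (nat_lit 580) (nat_lit 4) (nat_lit 179) (nat_lit 202) (nat_lit 189))))))) (PT.nd (nat_lit 1170) (PT.nd (nat_lit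 546) (PT.nd (nat_lit 234) (PT.nd (nat_lit 78) (PT.lf (nat_lit 44004) (nat_lit 6) (nat_lit 579) (nat_lit 4) (nat_lit 180) (nat_lit 202) (nat_lit 188)) (PT.nd (nat_lit 78) (PT.lf (nat_lit 43928) (nat_lit 6) (nat_lit 578) (nat_lit 4) (nat_lit 181) (nat_lit 202) (nat_lit 187)) (PT.lf (nat_lit 43852) (nat_lit 6) (nat_lit 577) (nat_lit 4) (nat_lit 182) (nat_lit 202) (nat_lit 186)))) (PT.nd (nat_lit 156) (PT.nd (nat_lit 78) (PT.lf (nat_lit 43776) (nat_lit 6) (nat_lit 576) (nat_lit 4) (nat_lit 183) (nat_lit 202) (nat_lit 185)) (PT.lf (nat_lit 43700) (nat_lit 3) (nat_lit 575) (nat_lit 2) (nat_lit 184) (nat_lit 202) (nat_lit 184))) (PT.nd (nat_lit 78) (PT.lf (nat_lit 43776) (nat_lit 6) (nat_lit 576) (nat_lit 2) (nat_lit 185) (nat_lit 202) (nat_lit 183)) (PT.lf (nat_lit 43852) (nat_lit 6) (nat_lit 577) (nat_lit 2) (nat_lit 186) (nat_lit 202) (nat_lit 182))))) (PT.nd (nat_lit 312) (PT.nd (nat_lit 156) (PT.nd (nat_lit 78) (PT.lf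 (nat_lit 43928) (nat_lit 6) (nat_lit 578) (nat_lit 2) (nat_lit 187) (nat_lit 202) (nat_lit 181)) (PT.lf (nat_lit 44004) (nat_lit 6) (nat_lit 579) (nat_lit 2) (nat_lit 188) (nat_lit 202) (nat_lit 180))) (PT.nd (nat_lit 78) (PT.lf (nat_lit 44080) (nat_lit 6) (nat_lit 580) (nat_lit 2) (nat_lit 189) (nat_lit 202) (nat_lit 179)) (PT.lf (nat_lit 44156) (nat_lit 6) (nat_lit 581) (nat_lit 2) (nat_lit 190) (nat_lit 202) (nat_lit 178)))) (PT.nd (nat_lit 156) (PT.nd (nat_lit 78) (PT.lf (nat_lit 43244) (nat_lit 6) (nat_lit 569) (nat_lit 2) (nat_lit 191) (nat_lit 202) (nat_lit 177)) (PT.lf (nat_lit 42256) (nat_lit 6) (nat_lit 556) (nat_lit 2) (nat_lit 192) (nat_lit 202) (nat_lit 176))) (PT.nd (nat_lit 78) (PT.lf (nat_lit 41192) (nat_lit 6) (nat_lit 542) (nat_lit 2) (nat_lit 193) (nat_lit 202) (nat_lit 175)) (PT.lf (nat_lit 40052) (nat_lit 6) (nat_lit 527) (nat_lit 2) (nat_lit 194) (nat_lit 202) (nat_lit 174)))))) (PT.nd (nat_lit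 546) (PT.nd (nat_lit 234) (PT.nd (nat_lit 78) (PT.lf (nat_lit 38836) (nat_lit 6) (nat_lit 511) (nat_lit 2) (nat_lit 195) (nat_lit 202) (nat_lit 173)) (PT.nd (nat_lit 78) (PT.lf (nat_lit 37544) (nat_lit 6) (nat_lit 494) (nat_lit 2) (nat_lit 196) (nat_lit 202) (nat_lit 172)) (PT.lf (nat_lit 36176) (nat_lit 6) (nat_lit 476) (nat_lit 2) (nat_lit 197) (nat_lit 202) (nat_lit 171)))) (PT.nd (nat_lit 156) (PT.nd (nat_lit 78) (PT.lf (nat_lit 34732) (nat_lit 6) (nat_lit 457) (nat_lit 2) (nat_lit 198) (nat_lit 202) (nat_lit 170)) (PT.lf (nat_lit 33212) (nat_lit 6) (nat_lit 437) (nat_lit 2) (nat_lit 199) (nat_lit 202) (nat_lit 169))) (PT.nd (nat_lit 78) (PT.lf (nat_lit 31616) (nat_lit 6) (nat_lit 416) (nat_lit 2) (nat_lit 200) (nat_lit 202) (nat_lit 168)) (PT.lf (nat_lit 29944) (nat_lit 6) (nat_lit 394) (nat_lit 2) (nat_lit 201) (nat_lit 202) (nat_lit 167))))) (PT.nd (nat_lit 312) (PT.nd (nat_lit 156) (PT.nd (nat_lit 78) (PT.lf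 (nat_lit 28500) (nat_lit 3) (nat_lit 375) (nat_lit 0) (nat_lit 202) (nat_lit 202) (nat_lit 166)) (PT.lf (nat_lit 27588) (nat_lit 6) (nat_lit 363) (nat_lit 0) (nat_lit 203) (nat_lit 202) (nat_lit 165))) (PT.nd (nat_lit 78) (PT.lf (nat_lit 26600) (nat_lit 6) (nat_lit 350) (nat_lit 0) (nat_lit 204) (nat_lit 202) (nat_lit 164)) (PT.lf (nat_lit 25688) (nat_lit 6) (nat_lit 338) (nat_lit 0) (nat_lit 205) (nat_lit 202) (nat_lit 163)))) (PT.nd (nat_lit 156) (PT.nd (nat_lit 78) (PT.lf (nat_lit 24776) (nat_lit 6) (nat_lit 326) (nat_lit 0) (nat_lit 206) (nat_lit 202) (nat_lit 162)) (PT.lf (nat_lit 23940) (nat_lit 6) (nat_lit 315) (nat_lit 0) (nat_lit 207) (nat_lit 202) (nat_lit 161))) (PT.nd (nat_lit 78) (PT.lf (nat_lit 23104) (nat_lit 6) (nat_lit 304) (nat_lit 0) (nat_lit 208) (nat_lit 202) (nat_lit 160)) (PT.lf (nat_lit 22344) (nat_lit 6) (nat_lit 294) (nat_lit 0) (nat_lit 209) (nat_lit 202) (nat_lit 159))))))))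
noncomputable def pc38 : PT := (PT.nd (nat_lit 56316) (PT.nd (nat_lit 55146) (PT.nd (nat_lit 546) (PT.nd (nat_lit 234) (PT.nd (nat_lit 78) (PT.lf (nat_lit 21508) (nat_lit 6) (nat_lit 283) (nat_lit 0) (nat_lit 210) (nat_lit 202) (nat_lit 158)) (PT.nd (nat_lit 78) (PT.lf (nat_lit 20748) (nat_lit 6) (nat_lit 273) (nat_lit 0) (nat_lit 211) (nat_lit 202) (nat_lit 157)) (PT.lf (nat_lit 19988) (nat_lit 6) (nat_lit 263) (nat_lit 0) (nat_lit 212) (nat_lit 202) (nat_lit 156)))) (PT.nd (nat_lit 156) (PT.nd (nat_lit 78) (PT.lf (nat_lit 19304) (nat_lit 6) (nat_lit 254) (nat_lit 0) (nat_lit 213) (nat_lit 202) (nat_lit 155)) (PT.lf (nat_lit 18544) (nat_lit 6) (nat_lit 244) (nat_lit 0) (nat_lit 214) (nat_lit 202) (nat_lit 154))) (PT.nd (nat_lit 78) (PT.lf (nat_lit 17860) (nat_lit 6) (nat_lit 235) (nat_lit 0) (nat_lit 215) (nat_lit 202) (nat_lit 153)) (PT.lf (nat_lit 17176) (nat_lit 6) (nat_lit 226) (nat_lit 0) (nat_lit 216) (nat_lit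 202) (nat_lit 152))))) (PT.nd (nat_lit 54288) (PT.nd (nat_lit 54132) (PT.lf (nat_lit 16568) (nat_lit 6) (nat_lit 218) (nat_lit 0) (nat_lit 217) (nat_lit 202) (nat_lit 151)) (PT.nd (nat_lit 78) (PT.lf (nat_lit 15960) (nat_lit 6) (nat_lit 210) (nat_lit 5) (nat_lit 150) (nat_lit 203) (nat_lit 217)) (PT.lf (nat_lit 16644) (nat_lit 6) (nat_lit 219) (nat_lit 5) (nat_lit 151) (nat_lit 203) (nat_lit 216)))) (PT.nd (nat_lit 156) (PT.nd (nat_lit 78) (PT.lf (nat_lit 17252) (nat_lit 6) (nat_lit 227) (nat_lit 5) (nat_lit 152) (nat_lit 203) (nat_lit 215)) (PT.lf (nat_lit 17936) (nat_lit 6) (nat_lit 236) (nat_lit 5) (nat_lit 153) (nat_lit 203) (nat_lit 214))) (PT.nd (nat_lit 78) (PT.lf (nat_lit 18620) (nat_lit 6) (nat_lit 245) (nat_lit 5) (nat_lit 154) (nat_lit 203) (nat_lit 213)) (PT.lf (nat_lit 19380) (nat_lit 6) (nat_lit 255) (nat_lit 5) (nat_lit 155) (nat_lit 203) (nat_lit 212)))))) (PT.nd (nat_lit 546) (PT.nd (nat_lit 234)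 (PT.nd (nat_lit 78) (PT.lf (nat_lit 20064) (nat_lit 6) (nat_lit 264) (nat_lit 5) (nat_lit 156) (nat_lit 203) (nat_lit 211)) (PT.nd (nat_lit 78) (PT.lf (nat_lit 20824) (nat_lit 6) (nat_lit 274) (nat_lit 5) (nat_lit 157) (nat_lit 203) (nat_lit 210)) (PT.lf (nat_lit 21584) (nat_lit 6) (nat_lit 284) (nat_lit 5) (nat_lit 158) (nat_lit 203) (nat_lit 209)))) (PT.nd (nat_lit 156) (PT.nd (nat_lit 78) (PT.lf (nat_lit 22420) (nat_lit 6) (nat_lit 295) (nat_lit 5) (nat_lit 159) (nat_lit 203) (nat_lit 208)) (PT.lf (nat_lit 23180) (nat_lit 6) (nat_lit 305) (nat_lit 5) (nat_lit 160) (nat_lit 203) (nat_lit 207))) (PT.nd (nat_lit 78) (PT.lf (nat_lit 24016) (nat_lit 6) (nat_lit 316) (nat_lit 5) (nat_lit 161) (nat_lit 203) (nat_lit 206)) (PT.lf (nat_lit 24852) (nat_lit 6) (nat_lit 327) (nat_lit 5) (nat_lit 162) (nat_lit 203) (nat_lit 205))))) (PT.nd (nat_lit 312) (PT.nd (nat_lit 156) (PT.nd (nat_lit 78) (PT.lf (nat_lit 25764) (nat_lit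 6) (nat_lit 339) (nat_lit 5) (nat_lit 163) (nat_lit 203) (nat_lit 204)) (PT.lf (nat_lit 26676) (nat_lit 3) (nat_lit 351) (nat_lit 4) (nat_lit 164) (nat_lit 203) (nat_lit 203))) (PT.nd (nat_lit 78) (PT.lf (nat_lit 27588) (nat_lit 6) (nat_lit 363) (nat_lit 4) (nat_lit 165) (nat_lit 203) (nat_lit 202)) (PT.lf (nat_lit 28424) (nat_lit 6) (nat_lit 374) (nat_lit 4) (nat_lit 166) (nat_lit 203) (nat_lit 201)))) (PT.nd (nat_lit 156) (PT.nd (nat_lit 78) (PT.lf (nat_lit 29868) (nat_lit 6) (nat_lit 393) (nat_lit 4) (nat_lit 167) (nat_lit 203) (nat_lit 200)) (PT.lf (nat_lit 31540) (nat_lit 6) (nat_lit 415) (nat_lit 4) (nat_lit 168) (nat_lit 203) (nat_lit 199))) (PT.nd (nat_lit 78) (PT.lf (nat_lit 33136) (nat_lit 6) (nat_lit 436) (nat_lit 4) (nat_lit 169) (nat_lit 203) (nat_lit 198)) (PT.lf (nat_lit 34656) (nat_lit 6) (nat_lit 456) (nat_lit 4) (nat_lit 170) (nat_lit 203) (nat_lit 197))))))) (PT.nd (nat_lit 1092) (PT.nd (nat_lit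 546) (PT.nd (nat_lit 234) (PT.nd (nat_lit 78) (PT.lf (nat_lit 36100) (nat_lit 6) (nat_lit 475) (nat_lit 4) (nat_lit 171) (nat_lit 203) (nat_lit 196)) (PT.nd (nat_lit 78) (PT.lf (nat_lit 37468) (nat_lit 6) (nat_lit 493) (nat_lit 4) (nat_lit 172) (nat_lit 203) (nat_lit 195)) (PT.lf (nat_lit 38760) (nat_lit 6) (nat_lit 510) (nat_lit 4) (nat_lit 173) (nat_lit 203) (nat_lit 194)))) (PT.nd (nat_lit 156) (PT.nd (nat_lit 78) (PT.lf (nat_lit 39976) (nat_lit 6) (nat_lit 526) (nat_lit 4) (nat_lit 174) (nat_lit 203) (nat_lit 193)) (PT.lf (nat_lit 41116) (nat_lit 6) (nat_lit 541) (nat_lit 4) (nat_lit 175) (nat_lit 203) (nat_lit 192))) (PT.nd (nat_lit 78) (PT.lf (nat_lit 42180) (nat_lit 6) (nat_lit 555) (nat_lit 4) (nat_lit 176) (nat_lit 203) (nat_lit 191)) (PT.lf (nat_lit 43168) (nat_lit 6) (nat_lit 568) (nat_lit 4) (nat_lit 177) (nat_lit 203) (nat_lit 190))))) (PT.nd (nat_lit 234) (PT.nd (nat_lit 78) (PT.lf (nat_lit 43092)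 (nat_lit 6) (nat_lit 567) (nat_lit 4) (nat_lit 178) (nat_lit 203) (nat_lit 189)) (PT.nd (nat_lit 78) (PT.lf (nat_lit 43016) (nat_lit 6) (nat_lit 566) (nat_lit 4) (nat_lit 179) (nat_lit 203) (nat_lit 188)) (PT.lf (nat_lit 42940) (nat_lit 6) (nat_lit 565) (nat_lit 4) (nat_lit 180) (nat_lit 203) (nat_lit 187)))) (PT.nd (nat_lit 156) (PT.nd (nat_lit 78) (PT.lf (nat_lit 42864) (nat_lit 6) (nat_lit 564) (nat_lit 4) (nat_lit 181) (nat_lit 203) (nat_lit 186)) (PT.lf (nat_lit 42788) (nat_lit 6) (nat_lit 563) (nat_lit 4) (nat_lit 182) (nat_lit 203) (nat_lit 185))) (PT.nd (nat_lit 78) (PT.lf (nat_lit 42712) (nat_lit 6) (nat_lit 562) (nat_lit 4) (nat_lit 183) (nat_lit 203) (nat_lit 184)) (PT.lf (nat_lit 42712) (nat_lit 6) (nat_lit 562) (nat_lit 2) (nat_lit 184) (nat_lit 203) (nat_lit 183)))))) (PT.nd (nat_lit 546) (PT.nd (nat_lit 234) (PT.nd (nat_lit 78) (PT.lf (nat_lit 42788) (nat_lit 6) (nat_lit 563) (nat_lit 2) (nat_lit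 185) (nat_lit 203) (nat_lit 182)) (PT.nd (nat_lit 78) (PT.lf (nat_lit 42864) (nat_lit 6) (nat_lit 564) (nat_lit 2) (nat_lit 186) (nat_lit 203) (nat_lit 181)) (PT.lf (nat_lit 42940) (nat_lit 6) (nat_lit 565) (nat_lit 2) (nat_lit 187) (nat_lit 203) (nat_lit 180)))) (PT.nd (nat_lit 156) (PT.nd (nat_lit 78) (PT.lf (nat_lit 43016) (nat_lit 6) (nat_lit 566) (nat_lit 2) (nat_lit 188) (nat_lit 203) (nat_lit 179)) (PT.lf (nat_lit 43092) (nat_lit 6) (nat_lit 567) (nat_lit 2) (nat_lit 189) (nat_lit 203) (nat_lit 178))) (PT.nd (nat_lit 78) (PT.lf (nat_lit 43168) (nat_lit 6) (nat_lit 568) (nat_lit 2) (nat_lit 190) (nat_lit 203) (nat_lit 177)) (PT.lf (nat_lit 42180) (nat_lit 6) (nat_lit 555) (nat_lit 2) (nat_lit 191) (nat_lit 203) (nat_lit 176))))) (PT.nd (nat_lit 312) (PT.nd (nat_lit 156) (PT.nd (nat_lit 78) (PT.lf (nat_lit 41116) (nat_lit 6) (nat_lit 541) (nat_lit 2) (nat_lit 192) (nat_lit 203) (nat_lit 175)) (PT.lf (nat_lit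 39976) (nat_lit 6) (nat_lit 526) (nat_lit 2) (nat_lit 193) (nat_lit 203) (nat_lit 174))) (PT.nd (nat_lit 78) (PT.lf (nat_lit 38760) (nat_lit 6) (nat_lit 510) (nat_lit 2) (nat_lit 194) (nat_lit 203) (nat_lit 173)) (PT.lf (nat_lit 37468) (nat_lit 6) (nat_lit 493) (nat_lit 2) (nat_lit 195) (nat_lit 203) (nat_lit 172)))) (PT.nd (nat_lit 156) (PT.nd (nat_lit 78) (PT.lf (nat_lit 36100) (nat_lit 6) (nat_lit 475) (nat_lit 2) (nat_lit 196) (nat_lit 203) (nat_lit 171)) (PT.lf (nat_lit 34656) (nat_lit 6) (nat_lit 456) (nat_lit 2) (nat_lit 197) (nat_lit 203) (nat_lit 170))) (PT.nd (nat_lit 78) (PT.lf (nat_lit 33136) (nat_lit 6) (nat_lit 436) (nat_lit 2) (nat_lit 198) (nat_lit 203) (nat_lit 169)) (PT.lf (nat_lit 31540) (nat_lit 6) (nat_lit 415) (nat_lit 2) (nat_lit 199) (nat_lit 203) (nat_lit 168))))))))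
noncomputable def pc39 : PT := (PT.nd (nat_lit 56238) (PT.nd (nat_lit 1092) (PT.nd (nat_lit 546) (PT.nd (nat_lit 234) (PT.nd (nat_lit 78) (PT.lf (nat_lit 29868) (nat_lit 6) (nat_lit 393) (nat_lit 2) (nat_lit 200) (nat_lit 203) (nat_lit 167)) (PT.nd (nat_lit 78) (PT.lf (nat_lit 28424) (nat_lit 6) (nat_lit 374) (nat_lit 2) (nat_lit 201) (nat_lit 203) (nat_lit 166)) (PT.lf (nat_lit 27588) (nat_lit 6) (nat_lit 363) (nat_lit 2) (nat_lit 202) (nat_lit 203) (nat_lit 165)))) (PT.nd (nat_lit 156) (PT.nd (nat_lit 78) (PT.lf (nat_lit 26676) (nat_lit 3) (nat_lit 351) (nat_lit 0) (nat_lit 203) (nat_lit 203) (nat_lit 164)) (PT.lf (nat_lit 25764) (nat_lit 6) (nat_lit 339) (nat_lit 0) (nat_lit 204) (nat_lit 203) (nat_lit 163))) (PT.nd (nat_lit 78) (PT.lf (nat_lit 24852) (nat_lit 6) (nat_lit 327) (nat_lit 0) (nat_lit 205) (nat_lit 203) (nat_lit 162)) (PT.lf (nat_lit 24016) (nat_lit 6) (nat_lit 316) (nat_lit 0) (nat_lit 206) (nat_lit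 203) (nat_lit 161))))) (PT.nd (nat_lit 234) (PT.nd (nat_lit 78) (PT.lf (nat_lit 23180) (nat_lit 6) (nat_lit 305) (nat_lit 0) (nat_lit 207) (nat_lit 203) (nat_lit 160)) (PT.nd (nat_lit 78) (PT.lf (nat_lit 22420) (nat_lit 6) (nat_lit 295) (nat_lit 0) (nat_lit 208) (nat_lit 203) (nat_lit 159)) (PT.lf (nat_lit 21584) (nat_lit 6) (nat_lit 284) (nat_lit 0) (nat_lit 209) (nat_lit 203) (nat_lit 158)))) (PT.nd (nat_lit 156) (PT.nd (nat_lit 78) (PT.lf (nat_lit 20824) (nat_lit 6) (nat_lit 274) (nat_lit 0) (nat_lit 210) (nat_lit 203) (nat_lit 157)) (PT.lf (nat_lit 20064) (nat_lit 6) (nat_lit 264) (nat_lit 0) (nat_lit 211) (nat_lit 203) (nat_lit 156))) (PT.nd (nat_lit 78) (PT.lf (nat_lit 19380) (nat_lit 6) (nat_lit 255) (nat_lit 0) (nat_lit 212) (nat_lit 203) (nat_lit 155)) (PT.lf (nat_lit 18620) (nat_lit 6) (nat_lit 245) (nat_lit 0) (nat_lit 213) (nat_lit 203) (nat_lit 154)))))) (PT.nd (nat_lit 54522) (PT.nd (nat_lit 234)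 (PT.nd (nat_lit 78) (PT.lf (nat_lit 17936) (nat_lit 6) (nat_lit 236) (nat_lit 0) (nat_lit 214) (nat_lit 203) (nat_lit 153)) (PT.nd (nat_lit 78) (PT.lf (nat_lit 17252) (nat_lit 6) (nat_lit 227) (nat_lit 0) (nat_lit 215) (nat_lit 203) (nat_lit 152)) (PT.lf (nat_lit 16644) (nat_lit 6) (nat_lit 219) (nat_lit 0) (nat_lit 216) (nat_lit 203) (nat_lit 151)))) (PT.nd (nat_lit 54132) (PT.nd (nat_lit 54054) (PT.lf (nat_lit 15960) (nat_lit 6) (nat_lit 210) (nat_lit 0) (nat_lit 217) (nat_lit 203) (nat_lit 150)) (PT.lf (nat_lit 15428) (nat_lit 6) (nat_lit 203) (nat_lit 5) (nat_lit 149) (nat_lit 204) (nat_lit 217))) (PT.nd (nat_lit 78) (PT.lf (nat_lit 16036) (nat_lit 6) (nat_lit 211) (nat_lit 5) (nat_lit 150) (nat_lit 204) (nat_lit 216)) (PT.lf (nat_lit 16720) (nat_lit 6) (nat_lit 220) (nat_lit 5) (nat_lit 151) (nat_lit 204) (nat_lit 215))))) (PT.nd (nat_lit 312) (PT.nd (nat_lit 156) (PT.nd (nat_lit 78) (PT.lf (nat_lit 17328)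 (nat_lit 6) (nat_lit 228) (nat_lit 5) (nat_lit 152) (nat_lit 204) (nat_lit 214)) (PT.lf (nat_lit 18012) (nat_lit 6) (nat_lit 237) (nat_lit 5) (nat_lit 153) (nat_lit 204) (nat_lit 213))) (PT.nd (nat_lit 78) (PT.lf (nat_lit 18696) (nat_lit 6) (nat_lit 246) (nat_lit 5) (nat_lit 154) (nat_lit 204) (nat_lit 212)) (PT.lf (nat_lit 19456) (nat_lit 6) (nat_lit 256) (nat_lit 5) (nat_lit 155) (nat_lit 204) (nat_lit 211)))) (PT.nd (nat_lit 156) (PT.nd (nat_lit 78) (PT.lf (nat_lit 20140) (nat_lit 6) (nat_lit 265) (nat_lit 5) (nat_lit 156) (nat_lit 204) (nat_lit 210)) (PT.lf (nat_lit 20900) (nat_lit 6) (nat_lit 275) (nat_lit 5) (nat_lit 157) (nat_lit 204) (nat_lit 209))) (PT.nd (nat_lit 78) (PT.lf (nat_lit 21660) (nat_lit 6) (nat_lit 285) (nat_lit 5) (nat_lit 158) (nat_lit 204) (nat_lit 208)) (PT.lf (nat_lit 22496) (nat_lit 6) (nat_lit 296) (nat_lit 5) (nat_lit 159) (nat_lit 204) (nat_lit 207))))))) (PT.nd (nat_lit 1170) (PT.nd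 (nat_lit 546) (PT.nd (nat_lit 234) (PT.nd (nat_lit 78) (PT.lf (nat_lit 23256) (nat_lit 6) (nat_lit 306) (nat_lit 5) (nat_lit 160) (nat_lit 204) (nat_lit 206)) (PT.nd (nat_lit 78) (PT.lf (nat_lit 24092) (nat_lit 6) (nat_lit 317) (nat_lit 5) (nat_lit 161) (nat_lit 204) (nat_lit 205)) (PT.lf (nat_lit 24928) (nat_lit 3) (nat_lit 328) (nat_lit 4) (nat_lit 162) (nat_lit 204) (nat_lit 204)))) (PT.nd (nat_lit 156) (PT.nd (nat_lit 78) (PT.lf (nat_lit 25764) (nat_lit 6) (nat_lit 339) (nat_lit 4) (nat_lit 163) (nat_lit 204) (nat_lit 203)) (PT.lf (nat_lit 26600) (nat_lit 6) (nat_lit 350) (nat_lit 4) (nat_lit 164) (nat_lit 204) (nat_lit 202))) (PT.nd (nat_lit 78) (PT.lf (nat_lit 27512) (nat_lit 6) (nat_lit 362) (nat_lit 4) (nat_lit 165) (nat_lit 204) (nat_lit 201)) (PT.lf (nat_lit 28348) (nat_lit 6) (nat_lit 373) (nat_lit 4) (nat_lit 166) (nat_lit 204) (nat_lit 200))))) (PT.nd (nat_lit 312) (PT.nd (nat_lit 156) (PT.nd (nat_lit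 78) (PT.lf (nat_lit 29792) (nat_lit 6) (nat_lit 392) (nat_lit 4) (nat_lit 167) (nat_lit 204) (nat_lit 199)) (PT.lf (nat_lit 31464) (nat_lit 6) (nat_lit 414) (nat_lit 4) (nat_lit 168) (nat_lit 204) (nat_lit 198))) (PT.nd (nat_lit 78) (PT.lf (nat_lit 33060) (nat_lit 6) (nat_lit 435) (nat_lit 4) (nat_lit 169) (nat_lit 204) (nat_lit 197)) (PT.lf (nat_lit 34580) (nat_lit 6) (nat_lit 455) (nat_lit 4) (nat_lit 170) (nat_lit 204) (nat_lit 196)))) (PT.nd (nat_lit 156) (PT.nd (nat_lit 78) (PT.lf (nat_lit 36024) (nat_lit 6) (nat_lit 474) (nat_lit 4) (nat_lit 171) (nat_lit 204) (nat_lit 195)) (PT.lf (nat_lit 37392) (nat_lit 6) (nat_lit 492) (nat_lit 4) (nat_lit 172) (nat_lit 204) (nat_lit 194))) (PT.nd (nat_lit 78) (PT.lf (nat_lit 38684) (nat_lit 6) (nat_lit 509) (nat_lit 4) (nat_lit 173) (nat_lit 204) (nat_lit 193)) (PT.lf (nat_lit 39900) (nat_lit 6) (nat_lit 525) (nat_lit 4) (nat_lit 174) (nat_lit 204) (nat_lit 192))))))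 (PT.nd (nat_lit 546) (PT.nd (nat_lit 234) (PT.nd (nat_lit 78) (PT.lf (nat_lit 41040) (nat_lit 6) (nat_lit 540) (nat_lit 4) (nat_lit 175) (nat_lit 204) (nat_lit 191)) (PT.nd (nat_lit 78) (PT.lf (nat_lit 42104) (nat_lit 6) (nat_lit 554) (nat_lit 4) (nat_lit 176) (nat_lit 204) (nat_lit 190)) (PT.lf (nat_lit 42028) (nat_lit 6) (nat_lit 553) (nat_lit 4) (nat_lit 177) (nat_lit 204) (nat_lit 189)))) (PT.nd (nat_lit 156) (PT.nd (nat_lit 78) (PT.lf (nat_lit 41952) (nat_lit 6) (nat_lit 552) (nat_lit 4) (nat_lit 178) (nat_lit 204) (nat_lit 188)) (PT.lf (nat_lit 41876) (nat_lit 6) (nat_lit 551) (nat_lit 4) (nat_lit 179) (nat_lit 204) (nat_lit 187))) (PT.nd (nat_lit 78) (PT.lf (nat_lit 41800) (nat_lit 6) (nat_lit 550) (nat_lit 4) (nat_lit 180) (nat_lit 204) (nat_lit 186)) (PT.lf (nat_lit 41724) (nat_lit 6) (nat_lit 549) (nat_lit 4) (nat_lit 181) (nat_lit 204) (nat_lit 185))))) (PT.nd (nat_lit 312) (PT.nd (nat_lit 156) (PT.nd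 (nat_lit 78) (PT.lf (nat_lit 41648) (nat_lit 6) (nat_lit 548) (nat_lit 4) (nat_lit 182) (nat_lit 204) (nat_lit 184)) (PT.lf (nat_lit 41572) (nat_lit 3) (nat_lit 547) (nat_lit 2) (nat_lit 183) (nat_lit 204) (nat_lit 183))) (PT.nd (nat_lit 78) (PT.lf (nat_lit 41648) (nat_lit 6) (nat_lit 548) (nat_lit 2) (nat_lit 184) (nat_lit 204) (nat_lit 182)) (PT.lf (nat_lit 41724) (nat_lit 6) (nat_lit 549) (nat_lit 2) (nat_lit 185) (nat_lit 204) (nat_lit 181)))) (PT.nd (nat_lit 156) (PT.nd (nat_lit 78) (PT.lf (nat_lit 41800) (nat_lit 6) (nat_lit 550) (nat_lit 2) (nat_lit 186) (nat_lit 204) (nat_lit 180)) (PT.lf (nat_lit 41876) (nat_lit 6) (nat_lit 551) (nat_lit 2) (nat_lit 187) (nat_lit 204) (nat_lit 179))) (PT.nd (nat_lit 78) (PT.lf (nat_lit 41952) (nat_lit 6) (nat_lit 552) (nat_lit 2) (nat_lit 188) (nat_lit 204) (nat_lit 178)) (PT.lf (nat_lit 42028) (nat_lit 6) (nat_lit 553) (nat_lit 2) (nat_lit 189) (nat_lit 204) (nat_lit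 177))))))))
noncomputable def pc40 : PT := (PT.nd (nat_lit 56082) (PT.nd (nat_lit 1092) (PT.nd (nat_lit 546) (PT.nd (nat_lit 234) (PT.nd (nat_lit 78) (PT.lf (nat_lit 42104) (nat_lit 6) (nat_lit 554) (nat_lit 2) (nat_lit 190) (nat_lit 204) (nat_lit 176)) (PT.nd (nat_lit 78) (PT.lf (nat_lit 41040) (nat_lit 6) (nat_lit 540) (nat_lit 2) (nat_lit 191) (nat_lit 204) (nat_lit 175)) (PT.lf (nat_lit 39900) (nat_lit 6) (nat_lit 525) (nat_lit 2) (nat_lit 192) (nat_lit 204) (nat_lit 174)))) (PT.nd (nat_lit 156) (PT.nd (nat_lit 78) (PT.lf (nat_lit 38684) (nat_lit 6) (nat_lit 509) (nat_lit 2) (nat_lit 193) (nat_lit 204) (nat_lit 173)) (PT.lf (nat_lit 37392) (nat_lit 6) (nat_lit 492) (nat_lit 2) (nat_lit 194) (nat_lit 204) (nat_lit 172))) (PT.nd (nat_lit 78) (PT.lf (nat_lit 36024) (nat_lit 6) (nat_lit 474) (nat_lit 2) (nat_lit 195) (nat_lit 204) (nat_lit 171)) (PT.lf (nat_lit 34580) (nat_lit 6) (nat_lit 455) (nat_lit 2) (nat_lit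 196) (nat_lit 204) (nat_lit 170))))) (PT.nd (nat_lit 234) (PT.nd (nat_lit 78) (PT.lf (nat_lit 33060) (nat_lit 6) (nat_lit 435) (nat_lit 2) (nat_lit 197) (nat_lit 204) (nat_lit 169)) (PT.nd (nat_lit 78) (PT.lf (nat_lit 31464) (nat_lit 6) (nat_lit 414) (nat_lit 2) (nat_lit 198) (nat_lit 204) (nat_lit 168)) (PT.lf (nat_lit 29792) (nat_lit 6) (nat_lit 392) (nat_lit 2) (nat_lit 199) (nat_lit 204) (nat_lit 167)))) (PT.nd (nat_lit 156) (PT.nd (nat_lit 78) (PT.lf (nat_lit 28348) (nat_lit 6) (nat_lit 373) (nat_lit 2) (nat_lit 200) (nat_lit 204) (nat_lit 166)) (PT.lf (nat_lit 27512) (nat_lit 6) (nat_lit 362) (nat_lit 2) (nat_lit 201) (nat_lit 204) (nat_lit 165))) (PT.nd (nat_lit 78) (PT.lf (nat_lit 26600) (nat_lit 6) (nat_lit 350) (nat_lit 2) (nat_lit 202) (nat_lit 204) (nat_lit 164)) (PT.lf (nat_lit 25764) (nat_lit 6) (nat_lit 339) (nat_lit 2) (nat_lit 203) (nat_lit 204) (nat_lit 163)))))) (PT.nd (nat_lit 546) (PT.nd (nat_lit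 234) (PT.nd (nat_lit 78) (PT.lf (nat_lit 24928) (nat_lit 3) (nat_lit 328) (nat_lit 0) (nat_lit 204) (nat_lit 204) (nat_lit 162)) (PT.nd (nat_lit 78) (PT.lf (nat_lit 24092) (nat_lit 6) (nat_lit 317) (nat_lit 0) (nat_lit 205) (nat_lit 204) (nat_lit 161)) (PT.lf (nat_lit 23256) (nat_lit 6) (nat_lit 306) (nat_lit 0) (nat_lit 206) (nat_lit 204) (nat_lit 160)))) (PT.nd (nat_lit 156) (PT.nd (nat_lit 78) (PT.lf (nat_lit 22496) (nat_lit 6) (nat_lit 296) (nat_lit 0) (nat_lit 207) (nat_lit 204) (nat_lit 159)) (PT.lf (nat_lit 21660) (nat_lit 6) (nat_lit 285) (nat_lit 0) (nat_lit 208) (nat_lit 204) (nat_lit 158))) (PT.nd (nat_lit 78) (PT.lf (nat_lit 20900) (nat_lit 6) (nat_lit 275) (nat_lit 0) (nat_lit 209) (nat_lit 204) (nat_lit 157)) (PT.lf (nat_lit 20140) (nat_lit 6) (nat_lit 265) (nat_lit 0) (nat_lit 210) (nat_lit 204) (nat_lit 156))))) (PT.nd (nat_lit 312) (PT.nd (nat_lit 156) (PT.nd (nat_lit 78) (PT.lf (nat_lit 19456)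 (nat_lit 6) (nat_lit 256) (nat_lit 0) (nat_lit 211) (nat_lit 204) (nat_lit 155)) (PT.lf (nat_lit 18696) (nat_lit 6) (nat_lit 246) (nat_lit 0) (nat_lit 212) (nat_lit 204) (nat_lit 154))) (PT.nd (nat_lit 78) (PT.lf (nat_lit 18012) (nat_lit 6) (nat_lit 237) (nat_lit 0) (nat_lit 213) (nat_lit 204) (nat_lit 153)) (PT.lf (nat_lit 17328) (nat_lit 6) (nat_lit 228) (nat_lit 0) (nat_lit 214) (nat_lit 204) (nat_lit 152)))) (PT.nd (nat_lit 156) (PT.nd (nat_lit 78) (PT.lf (nat_lit 16720) (nat_lit 6) (nat_lit 220) (nat_lit 0) (nat_lit 215) (nat_lit 204) (nat_lit 151)) (PT.lf (nat_lit 16036) (nat_lit 6) (nat_lit 211) (nat_lit 0) (nat_lit 216) (nat_lit 204) (nat_lit 150))) (PT.nd (nat_lit 53898) (PT.lf (nat_lit 15428) (nat_lit 6) (nat_lit 203) (nat_lit 0) (nat_lit 217) (nat_lit 204) (nat_lit 149)) (PT.lf (nat_lit 14364) (nat_lit 6) (nat_lit 189) (nat_lit 5) (nat_lit 147) (nat_lit 205) (nat_lit 218))))))) (PT.nd (nat_lit 1092)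 (PT.nd (nat_lit 546) (PT.nd (nat_lit 234) (PT.nd (nat_lit 78) (PT.lf (nat_lit 14896) (nat_lit 6) (nat_lit 196) (nat_lit 5) (nat_lit 148) (nat_lit 205) (nat_lit 217)) (PT.nd (nat_lit 78) (PT.lf (nat_lit 15504) (nat_lit 6) (nat_lit 204) (nat_lit 5) (nat_lit 149) (nat_lit 205) (nat_lit 216)) (PT.lf (nat_lit 16112) (nat_lit 6) (nat_lit 212) (nat_lit 5) (nat_lit 150) (nat_lit 205) (nat_lit 215)))) (PT.nd (nat_lit 156) (PT.nd (nat_lit 78) (PT.lf (nat_lit 16796) (nat_lit 6) (nat_lit 221) (nat_lit 5) (nat_lit 151) (nat_lit 205) (nat_lit 214)) (PT.lf (nat_lit 17404) (nat_lit 6) (nat_lit 229) (nat_lit 5) (nat_lit 152) (nat_lit 205) (nat_lit 213))) (PT.nd (nat_lit 78) (PT.lf (nat_lit 18088) (nat_lit 6) (nat_lit 238) (nat_lit 5) (nat_lit 153) (nat_lit 205) (nat_lit 212)) (PT.lf (nat_lit 18772) (nat_lit 6) (nat_lit 247) (nat_lit 5) (nat_lit 154) (nat_lit 205) (nat_lit 211))))) (PT.nd (nat_lit 234) (PT.nd (nat_lit 78) (PT.lf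 (nat_lit 19532) (nat_lit 6) (nat_lit 257) (nat_lit 5) (nat_lit 155) (nat_lit 205) (nat_lit 210)) (PT.nd (nat_lit 78) (PT.lf (nat_lit 20216) (nat_lit 6) (nat_lit 266) (nat_lit 5) (nat_lit 156) (nat_lit 205) (nat_lit 209)) (PT.lf (nat_lit 20976) (nat_lit 6) (nat_lit 276) (nat_lit 5) (nat_lit 157) (nat_lit 205) (nat_lit 208)))) (PT.nd (nat_lit 156) (PT.nd (nat_lit 78) (PT.lf (nat_lit 21736) (nat_lit 6) (nat_lit 286) (nat_lit 5) (nat_lit 158) (nat_lit 205) (nat_lit 207)) (PT.lf (nat_lit 22572) (nat_lit 6) (nat_lit 297) (nat_lit 5) (nat_lit 159) (nat_lit 205) (nat_lit 206))) (PT.nd (nat_lit 78) (PT.lf (nat_lit 23332) (nat_lit 3) (nat_lit 307) (nat_lit 4) (nat_lit 160) (nat_lit 205) (nat_lit 205)) (PT.lf (nat_lit 24092) (nat_lit 6) (nat_lit 317) (nat_lit 4) (nat_lit 161) (nat_lit 205) (nat_lit 204)))))) (PT.nd (nat_lit 546) (PT.nd (nat_lit 234) (PT.nd (nat_lit 78) (PT.lf (nat_lit 24852) (nat_lit 6) (nat_lit 327) (nat_lit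 4) (nat_lit 162) (nat_lit 205) (nat_lit 203)) (PT.nd (nat_lit 78) (PT.lf (nat_lit 25688) (nat_lit 6) (nat_lit 338) (nat_lit 4) (nat_lit 163) (nat_lit 205) (nat_lit 202)) (PT.lf (nat_lit 26524) (nat_lit 6) (nat_lit 349) (nat_lit 4) (nat_lit 164) (nat_lit 205) (nat_lit 201)))) (PT.nd (nat_lit 156) (PT.nd (nat_lit 78) (PT.lf (nat_lit 27436) (nat_lit 6) (nat_lit 361) (nat_lit 4) (nat_lit 165) (nat_lit 205) (nat_lit 200)) (PT.lf (nat_lit 28272) (nat_lit 6) (nat_lit 372) (nat_lit 4) (nat_lit 166) (nat_lit 205) (nat_lit 199))) (PT.nd (nat_lit 78) (PT.lf (nat_lit 29716) (nat_lit 6) (nat_lit 391) (nat_lit 4) (nat_lit 167) (nat_lit 205) (nat_lit 198)) (PT.lf (nat_lit 31388) (nat_lit 6) (nat_lit 413) (nat_lit 4) (nat_lit 168) (nat_lit 205) (nat_lit 197))))) (PT.nd (nat_lit 312) (PT.nd (nat_lit 156) (PT.nd (nat_lit 78) (PT.lf (nat_lit 32984) (nat_lit 6) (nat_lit 434) (nat_lit 4) (nat_lit 169) (nat_lit 205) (nat_lit 196)) (PT.lf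 (nat_lit 34504) (nat_lit 6) (nat_lit 454) (nat_lit 4) (nat_lit 170) (nat_lit 205) (nat_lit 195))) (PT.nd (nat_lit 78) (PT.lf (nat_lit 35948) (nat_lit 6) (nat_lit 473) (nat_lit 4) (nat_lit 171) (nat_lit 205) (nat_lit 194)) (PT.lf (nat_lit 37316) (nat_lit 6) (nat_lit 491) (nat_lit 4) (nat_lit 172) (nat_lit 205) (nat_lit 193)))) (PT.nd (nat_lit 156) (PT.nd (nat_lit 78) (PT.lf (nat_lit 38608) (nat_lit 6) (nat_lit 508) (nat_lit 4) (nat_lit 173) (nat_lit 205) (nat_lit 192)) (PT.lf (nat_lit 39824) (nat_lit 6) (nat_lit 524) (nat_lit 4) (nat_lit 174) (nat_lit 205) (nat_lit 191))) (PT.nd (nat_lit 78) (PT.lf (nat_lit 40964) (nat_lit 6) (nat_lit 539) (nat_lit 4) (nat_lit 175) (nat_lit 205) (nat_lit 190)) (PT.lf (nat_lit 40888) (nat_lit 6) (nat_lit 538) (nat_lit 4) (nat_lit 176) (nat_lit 205) (nat_lit 189))))))))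
noncomputable def pc41 : PT := (PT.nd (nat_lit 2262) (PT.nd (nat_lit 1092) (PT.nd (nat_lit 546) (PT.nd (nat_lit 234) (PT.nd (nat_lit 78) (PT.lf (nat_lit 40812) (nat_lit 6) (nat_lit 537) (nat_lit 4) (nat_lit 177) (nat_lit 205) (nat_lit 188)) (PT.nd (nat_lit 78) (PT.lf (nat_lit 40736) (nat_lit 6) (nat_lit 536) (nat_lit 4) (nat_lit 178) (nat_lit 205) (nat_lit 187)) (PT.lf (nat_lit 40660) (nat_lit 6) (nat_lit 535) (nat_lit 4) (nat_lit 179) (nat_lit 205) (nat_lit 186)))) (PT.nd (nat_lit 156) (PT.nd (nat_lit 78) (PT.lf (nat_lit 40584) (nat_lit 6) (nat_lit 534) (nat_lit 4) (nat_lit 180) (nat_lit 205) (nat_lit 185)) (PT.lf (nat_lit 40508) (nat_lit 6) (nat_lit 533) (nat_lit 4) (nat_lit 181) (nat_lit 205) (nat_lit 184))) (PT.nd (nat_lit 78) (PT.lf (nat_lit 40432) (nat_lit 6) (nat_lit 532) (nat_lit 4) (nat_lit 182) (nat_lit 205) (nat_lit 183)) (PT.lf (nat_lit 40432) (nat_lit 6) (nat_lit 532) (nat_lit 2) (nat_lit 183) (nat_lit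 205) (nat_lit 182))))) (PT.nd (nat_lit 234) (PT.nd (nat_lit 78) (PT.lf (nat_lit 40508) (nat_lit 6) (nat_lit 533) (nat_lit 2) (nat_lit 184) (nat_lit 205) (nat_lit 181)) (PT.nd (nat_lit 78) (PT.lf (nat_lit 40584) (nat_lit 6) (nat_lit 534) (nat_lit 2) (nat_lit 185) (nat_lit 205) (nat_lit 180)) (PT.lf (nat_lit 40660) (nat_lit 6) (nat_lit 535) (nat_lit 2) (nat_lit 186) (nat_lit 205) (nat_lit 179)))) (PT.nd (nat_lit 156) (PT.nd (nat_lit 78) (PT.lf (nat_lit 40736) (nat_lit 6) (nat_lit 536) (nat_lit 2) (nat_lit 187) (nat_lit 205) (nat_lit 178)) (PT.lf (nat_lit 40812) (nat_lit 6) (nat_lit 537) (nat_lit 2) (nat_lit 188) (nat_lit 205) (nat_lit 177))) (PT.nd (nat_lit 78) (PT.lf (nat_lit 40888) (nat_lit 6) (nat_lit 538) (nat_lit 2) (nat_lit 189) (nat_lit 205) (nat_lit 176)) (PT.lf (nat_lit 40964) (nat_lit 6) (nat_lit 539) (nat_lit 2) (nat_lit 190) (nat_lit 205) (nat_lit 175)))))) (PT.nd (nat_lit 546) (PT.nd (nat_lit 234) (PT.nd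 (nat_lit 78) (PT.lf (nat_lit 39824) (nat_lit 6) (nat_lit 524) (nat_lit 2) (nat_lit 191) (nat_lit 205) (nat_lit 174)) (PT.nd (nat_lit 78) (PT.lf (nat_lit 38608) (nat_lit 6) (nat_lit 508) (nat_lit 2) (nat_lit 192) (nat_lit 205) (nat_lit 173)) (PT.lf (nat_lit 37316) (nat_lit 6) (nat_lit 491) (nat_lit 2) (nat_lit 193) (nat_lit 205) (nat_lit 172)))) (PT.nd (nat_lit 156) (PT.nd (nat_lit 78) (PT.lf (nat_lit 35948) (nat_lit 6) (nat_lit 473) (nat_lit 2) (nat_lit 194) (nat_lit 205) (nat_lit 171)) (PT.lf (nat_lit 34504) (nat_lit 6) (nat_lit 454) (nat_lit 2) (nat_lit 195) (nat_lit 205) (nat_lit 170))) (PT.nd (nat_lit 78) (PT.lf (nat_lit 32984) (nat_lit 6) (nat_lit 434) (nat_lit 2) (nat_lit 196) (nat_lit 205) (nat_lit 169)) (PT.lf (nat_lit 31388) (nat_lit 6) (nat_lit 413) (nat_lit 2) (nat_lit 197) (nat_lit 205) (nat_lit 168))))) (PT.nd (nat_lit 312) (PT.nd (nat_lit 156) (PT.nd (nat_lit 78) (PT.lf (nat_lit 29716) (nat_lit 6)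 (nat_lit 391) (nat_lit 2) (nat_lit 198) (nat_lit 205) (nat_lit 167)) (PT.lf (nat_lit 28272) (nat_lit 6) (nat_lit 372) (nat_lit 2) (nat_lit 199) (nat_lit 205) (nat_lit 166))) (PT.nd (nat_lit 78) (PT.lf (nat_lit 27436) (nat_lit 6) (nat_lit 361) (nat_lit 2) (nat_lit 200) (nat_lit 205) (nat_lit 165)) (PT.lf (nat_lit 26524) (nat_lit 6) (nat_lit 349) (nat_lit 2) (nat_lit 201) (nat_lit 205) (nat_lit 164)))) (PT.nd (nat_lit 156) (PT.nd (nat_lit 78) (PT.lf (nat_lit 25688) (nat_lit 6) (nat_lit 338) (nat_lit 2) (nat_lit 202) (nat_lit 205) (nat_lit 163)) (PT.lf (nat_lit 24852) (nat_lit 6) (nat_lit 327) (nat_lit 2) (nat_lit 203) (nat_lit 205) (nat_lit 162))) (PT.nd (nat_lit 78) (PT.lf (nat_lit 24092) (nat_lit 6) (nat_lit 317) (nat_lit 2) (nat_lit 204) (nat_lit 205) (nat_lit 161)) (PT.lf (nat_lit 23332) (nat_lit 3) (nat_lit 307) (nat_lit 0) (nat_lit 205) (nat_lit 205) (nat_lit 160))))))) (PT.nd (nat_lit 54834) (PT.nd (nat_lit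 546) (PT.nd (nat_lit 234) (PT.nd (nat_lit 78) (PT.lf (nat_lit 22572) (nat_lit 6) (nat_lit 297) (nat_lit 0) (nat_lit 206) (nat_lit 205) (nat_lit 159)) (PT.nd (nat_lit 78) (PT.lf (nat_lit 21736) (nat_lit 6) (nat_lit 286) (nat_lit 0) (nat_lit 207) (nat_lit 205) (nat_lit 158)) (PT.lf (nat_lit 20976) (nat_lit 6) (nat_lit 276) (nat_lit 0) (nat_lit 208) (nat_lit 205) (nat_lit 157)))) (PT.nd (nat_lit 156) (PT.nd (nat_lit 78) (PT.lf (nat_lit 20216) (nat_lit 6) (nat_lit 266) (nat_lit 0) (nat_lit 209) (nat_lit 205) (nat_lit 156)) (PT.lf (nat_lit 19532) (nat_lit 6) (nat_lit 257) (nat_lit 0) (nat_lit 210) (nat_lit 205) (nat_lit 155))) (PT.nd (nat_lit 78) (PT.lf (nat_lit 18772) (nat_lit 6) (nat_lit 247) (nat_lit 0) (nat_lit 211) (nat_lit 205) (nat_lit 154)) (PT.lf (nat_lit 18088) (nat_lit 6) (nat_lit 238) (nat_lit 0) (nat_lit 212) (nat_lit 205) (nat_lit 153))))) (PT.nd (nat_lit 312) (PT.nd (nat_lit 156) (PT.nd (nat_lit 78) (PT.lf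 (nat_lit 17404) (nat_lit 6) (nat_lit 229) (nat_lit 0) (nat_lit 213) (nat_lit 205) (nat_lit 152)) (PT.lf (nat_lit 16796) (nat_lit 6) (nat_lit 221) (nat_lit 0) (nat_lit 214) (nat_lit 205) (nat_lit 151))) (PT.nd (nat_lit 78) (PT.lf (nat_lit 16112) (nat_lit 6) (nat_lit 212) (nat_lit 0) (nat_lit 215) (nat_lit 205) (nat_lit 150)) (PT.lf (nat_lit 15504) (nat_lit 6) (nat_lit 204) (nat_lit 0) (nat_lit 216) (nat_lit 205) (nat_lit 149)))) (PT.nd (nat_lit 53820) (PT.nd (nat_lit 78) (PT.lf (nat_lit 14896) (nat_lit 6) (nat_lit 196) (nat_lit 0) (nat_lit 217) (nat_lit 205) (nat_lit 148)) (PT.lf (nat_lit 14364) (nat_lit 6) (nat_lit 189) (nat_lit 0) (nat_lit 218) (nat_lit 205) (nat_lit 147))) (PT.nd (nat_lit 78) (PT.lf (nat_lit 13832) (nat_lit 6) (nat_lit 182) (nat_lit 5) (nat_lit 146) (nat_lit 206) (nat_lit 218)) (PT.lf (nat_lit 14440) (nat_lit 6) (nat_lit 190) (nat_lit 5) (nat_lit 147) (nat_lit 206) (nat_lit 217)))))) (PT.nd (nat_lit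 546) (PT.nd (nat_lit 234) (PT.nd (nat_lit 78) (PT.lf (nat_lit 14972) (nat_lit 6) (nat_lit 197) (nat_lit 5) (nat_lit 148) (nat_lit 206) (nat_lit 216)) (PT.nd (nat_lit 78) (PT.lf (nat_lit 15580) (nat_lit 6) (nat_lit 205) (nat_lit 5) (nat_lit 149) (nat_lit 206) (nat_lit 215)) (PT.lf (nat_lit 16188) (nat_lit 6) (nat_lit 213) (nat_lit 5) (nat_lit 150) (nat_lit 206) (nat_lit 214)))) (PT.nd (nat_lit 156) (PT.nd (nat_lit 78) (PT.lf (nat_lit 16872) (nat_lit 6) (nat_lit 222) (nat_lit 5) (nat_lit 151) (nat_lit 206) (nat_lit 213)) (PT.lf (nat_lit 17480) (nat_lit 6) (nat_lit 230) (nat_lit 5) (nat_lit 152) (nat_lit 206) (nat_lit 212))) (PT.nd (nat_lit 78) (PT.lf (nat_lit 18164) (nat_lit 6) (nat_lit 239) (nat_lit 5) (nat_lit 153) (nat_lit 206) (nat_lit 211)) (PT.lf (nat_lit 18848) (nat_lit 6) (nat_lit 248) (nat_lit 5) (nat_lit 154) (nat_lit 206) (nat_lit 210))))) (PT.nd (nat_lit 312) (PT.nd (nat_lit 156) (PT.nd (nat_lit 78) (PT.lf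 (nat_lit 19608) (nat_lit 6) (nat_lit 258) (nat_lit 5) (nat_lit 155) (nat_lit 206) (nat_lit 209)) (PT.lf (nat_lit 20292) (nat_lit 6) (nat_lit 267) (nat_lit 5) (nat_lit 156) (nat_lit 206) (nat_lit 208))) (PT.nd (nat_lit 78) (PT.lf (nat_lit 21052) (nat_lit 6) (nat_lit 277) (nat_lit 5) (nat_lit 157) (nat_lit 206) (nat_lit 207)) (PT.lf (nat_lit 21812) (nat_lit 3) (nat_lit 287) (nat_lit 4) (nat_lit 158) (nat_lit 206) (nat_lit 206)))) (PT.nd (nat_lit 156) (PT.nd (nat_lit 78) (PT.lf (nat_lit 22572) (nat_lit 6) (nat_lit 297) (nat_lit 4) (nat_lit 159) (nat_lit 206) (nat_lit 205)) (PT.lf (nat_lit 23256) (nat_lit 6) (nat_lit 306) (nat_lit 4) (nat_lit 160) (nat_lit 206) (nat_lit 204))) (PT.nd (nat_lit 78) (PT.lf (nat_lit 24016) (nat_lit 6) (nat_lit 316) (nat_lit 4) (nat_lit 161) (nat_lit 206) (nat_lit 203)) (PT.lf (nat_lit 24776) (nat_lit 6) (nat_lit 326) (nat_lit 4) (nat_lit 162) (nat_lit 206) (nat_lit 202))))))))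
noncomputable def pc42 : PT := (PT.nd (nat_lit 2262) (PT.nd (nat_lit 1092) (PT.nd (nat_lit 546) (PT.nd (nat_lit 234) (PT.nd (nat_lit 78) (PT.lf (nat_lit 25612) (nat_lit 6) (nat_lit 337) (nat_lit 4) (nat_lit 163) (nat_lit 206) (nat_lit 201)) (PT.nd (nat_lit 78) (PT.lf (nat_lit 26448) (nat_lit 6) (nat_lit 348) (nat_lit 4) (nat_lit 164) (nat_lit 206) (nat_lit 200)) (PT.lf (nat_lit 27360) (nat_lit 6) (nat_lit 360) (nat_lit 4) (nat_lit 165) (nat_lit 206) (nat_lit 199)))) (PT.nd (nat_lit 156) (PT.nd (nat_lit 78) (PT.lf (nat_lit 28196) (nat_lit 6) (nat_lit 371) (nat_lit 4) (nat_lit 166) (nat_lit 206) (nat_lit 198)) (PT.lf (nat_lit 29640) (nat_lit 6) (nat_lit 390) (nat_lit 4) (nat_lit 167) (nat_lit 206) (nat_lit 197))) (PT.nd (nat_lit 78) (PT.lf (nat_lit 31312) (nat_lit 6) (nat_lit 412) (nat_lit 4) (nat_lit 168) (nat_lit 206) (nat_lit 196)) (PT.lf (nat_lit 32908) (nat_lit 6) (nat_lit 433) (nat_lit 4) (nat_lit 169) (nat_lit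 206) (nat_lit 195))))) (PT.nd (nat_lit 234) (PT.nd (nat_lit 78) (PT.lf (nat_lit 34428) (nat_lit 6) (nat_lit 453) (nat_lit 4) (nat_lit 170) (nat_lit 206) (nat_lit 194)) (PT.nd (nat_lit 78) (PT.lf (nat_lit 35872) (nat_lit 6) (nat_lit 472) (nat_lit 4) (nat_lit 171) (nat_lit 206) (nat_lit 193)) (PT.lf (nat_lit 37240) (nat_lit 6) (nat_lit 490) (nat_lit 4) (nat_lit 172) (nat_lit 206) (nat_lit 192)))) (PT.nd (nat_lit 156) (PT.nd (nat_lit 78) (PT.lf (nat_lit 38532) (nat_lit 6) (nat_lit 507) (nat_lit 4) (nat_lit 173) (nat_lit 206) (nat_lit 191)) (PT.lf (nat_lit 39748) (nat_lit 6) (nat_lit 523) (nat_lit 4) (nat_lit 174) (nat_lit 206) (nat_lit 190))) (PT.nd (nat_lit 78) (PT.lf (nat_lit 39672) (nat_lit 6) (nat_lit 522) (nat_lit 4) (nat_lit 175) (nat_lit 206) (nat_lit 189)) (PT.lf (nat_lit 39596) (nat_lit 6) (nat_lit 521) (nat_lit 4) (nat_lit 176) (nat_lit 206) (nat_lit 188)))))) (PT.nd (nat_lit 546) (PT.nd (nat_lit 234) (PT.nd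 (nat_lit 78) (PT.lf (nat_lit 39520) (nat_lit 6) (nat_lit 520) (nat_lit 4) (nat_lit 177) (nat_lit 206) (nat_lit 187)) (PT.nd (nat_lit 78) (PT.lf (nat_lit 39444) (nat_lit 6) (nat_lit 519) (nat_lit 4) (nat_lit 178) (nat_lit 206) (nat_lit 186)) (PT.lf (nat_lit 39368) (nat_lit 6) (nat_lit 518) (nat_lit 4) (nat_lit 179) (nat_lit 206) (nat_lit 185)))) (PT.nd (nat_lit 156) (PT.nd (nat_lit 78) (PT.lf (nat_lit 39292) (nat_lit 6) (nat_lit 517) (nat_lit 4) (nat_lit 180) (nat_lit 206) (nat_lit 184)) (PT.lf (nat_lit 39216) (nat_lit 6) (nat_lit 516) (nat_lit 4) (nat_lit 181) (nat_lit 206) (nat_lit 183))) (PT.nd (nat_lit 78) (PT.lf (nat_lit 39140) (nat_lit 3) (nat_lit 515) (nat_lit 2) (nat_lit 182) (nat_lit 206) (nat_lit 182)) (PT.lf (nat_lit 39216) (nat_lit 6) (nat_lit 516) (nat_lit 2) (nat_lit 183) (nat_lit 206) (nat_lit 181))))) (PT.nd (nat_lit 312) (PT.nd (nat_lit 156) (PT.nd (nat_lit 78) (PT.lf (nat_lit 39292) (nat_lit 6)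 (nat_lit 517) (nat_lit 2) (nat_lit 184) (nat_lit 206) (nat_lit 180)) (PT.lf (nat_lit 39368) (nat_lit 6) (nat_lit 518) (nat_lit 2) (nat_lit 185) (nat_lit 206) (nat_lit 179))) (PT.nd (nat_lit 78) (PT.lf (nat_lit 39444) (nat_lit 6) (nat_lit 519) (nat_lit 2) (nat_lit 186) (nat_lit 206) (nat_lit 178)) (PT.lf (nat_lit 39520) (nat_lit 6) (nat_lit 520) (nat_lit 2) (nat_lit 187) (nat_lit 206) (nat_lit 177)))) (PT.nd (nat_lit 156) (PT.nd (nat_lit 78) (PT.lf (nat_lit 39596) (nat_lit 6) (nat_lit 521) (nat_lit 2) (nat_lit 188) (nat_lit 206) (nat_lit 176)) (PT.lf (nat_lit 39672) (nat_lit 6) (nat_lit 522) (nat_lit 2) (nat_lit 189) (nat_lit 206) (nat_lit 175))) (PT.nd (nat_lit 78) (PT.lf (nat_lit 39748) (nat_lit 6) (nat_lit 523) (nat_lit 2) (nat_lit 190) (nat_lit 206) (nat_lit 174)) (PT.lf (nat_lit 38532) (nat_lit 6) (nat_lit 507) (nat_lit 2) (nat_lit 191) (nat_lit 206) (nat_lit 173))))))) (PT.nd (nat_lit 1092) (PT.nd (nat_lit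 546) (PT.nd (nat_lit 234) (PT.nd (nat_lit 78) (PT.lf (nat_lit 37240) (nat_lit 6) (nat_lit 490) (nat_lit 2) (nat_lit 192) (nat_lit 206) (nat_lit 172)) (PT.nd (nat_lit 78) (PT.lf (nat_lit 35872) (nat_lit 6) (nat_lit 472) (nat_lit 2) (nat_lit 193) (nat_lit 206) (nat_lit 171)) (PT.lf (nat_lit 34428) (nat_lit 6) (nat_lit 453) (nat_lit 2) (nat_lit 194) (nat_lit 206) (nat_lit 170)))) (PT.nd (nat_lit 156) (PT.nd (nat_lit 78) (PT.lf (nat_lit 32908) (nat_lit 6) (nat_lit 433) (nat_lit 2) (nat_lit 195) (nat_lit 206) (nat_lit 169)) (PT.lf (nat_lit 31312) (nat_lit 6) (nat_lit 412) (nat_lit 2) (nat_lit 196) (nat_lit 206) (nat_lit 168))) (PT.nd (nat_lit 78) (PT.lf (nat_lit 29640) (nat_lit 6) (nat_lit 390) (nat_lit 2) (nat_lit 197) (nat_lit 206) (nat_lit 167)) (PT.lf (nat_lit 28196) (nat_lit 6) (nat_lit 371) (nat_lit 2) (nat_lit 198) (nat_lit 206) (nat_lit 166))))) (PT.nd (nat_lit 234) (PT.nd (nat_lit 78) (PT.lf (nat_lit 27360)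 (nat_lit 6) (nat_lit 360) (nat_lit 2) (nat_lit 199) (nat_lit 206) (nat_lit 165)) (PT.nd (nat_lit 78) (PT.lf (nat_lit 26448) (nat_lit 6) (nat_lit 348) (nat_lit 2) (nat_lit 200) (nat_lit 206) (nat_lit 164)) (PT.lf (nat_lit 25612) (nat_lit 6) (nat_lit 337) (nat_lit 2) (nat_lit 201) (nat_lit 206) (nat_lit 163)))) (PT.nd (nat_lit 156) (PT.nd (nat_lit 78) (PT.lf (nat_lit 24776) (nat_lit 6) (nat_lit 326) (nat_lit 2) (nat_lit 202) (nat_lit 206) (nat_lit 162)) (PT.lf (nat_lit 24016) (nat_lit 6) (nat_lit 316) (nat_lit 2) (nat_lit 203) (nat_lit 206) (nat_lit 161))) (PT.nd (nat_lit 78) (PT.lf (nat_lit 23256) (nat_lit 6) (nat_lit 306) (nat_lit 2) (nat_lit 204) (nat_lit 206) (nat_lit 160)) (PT.lf (nat_lit 22572) (nat_lit 6) (nat_lit 297) (nat_lit 2) (nat_lit 205) (nat_lit 206) (nat_lit 159)))))) (PT.nd (nat_lit 546) (PT.nd (nat_lit 234) (PT.nd (nat_lit 78) (PT.lf (nat_lit 21812) (nat_lit 3) (nat_lit 287) (nat_lit 0) (nat_lit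 206) (nat_lit 206) (nat_lit 158)) (PT.nd (nat_lit 78) (PT.lf (nat_lit 21052) (nat_lit 6) (nat_lit 277) (nat_lit 0) (nat_lit 207) (nat_lit 206) (nat_lit 157)) (PT.lf (nat_lit 20292) (nat_lit 6) (nat_lit 267) (nat_lit 0) (nat_lit 208) (nat_lit 206) (nat_lit 156)))) (PT.nd (nat_lit 156) (PT.nd (nat_lit 78) (PT.lf (nat_lit 19608) (nat_lit 6) (nat_lit 258) (nat_lit 0) (nat_lit 209) (nat_lit 206) (nat_lit 155)) (PT.lf (nat_lit 18848) (nat_lit 6) (nat_lit 248) (nat_lit 0) (nat_lit 210) (nat_lit 206) (nat_lit 154))) (PT.nd (nat_lit 78) (PT.lf (nat_lit 18164) (nat_lit 6) (nat_lit 239) (nat_lit 0) (nat_lit 211) (nat_lit 206) (nat_lit 153)) (PT.lf (nat_lit 17480) (nat_lit 6) (nat_lit 230) (nat_lit 0) (nat_lit 212) (nat_lit 206) (nat_lit 152))))) (PT.nd (nat_lit 312) (PT.nd (nat_lit 156) (PT.nd (nat_lit 78) (PT.lf (nat_lit 16872) (nat_lit 6) (nat_lit 222) (nat_lit 0) (nat_lit 213) (nat_lit 206) (nat_lit 151)) (PT.lf (nat_lit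 16188) (nat_lit 6) (nat_lit 213) (nat_lit 0) (nat_lit 214) (nat_lit 206) (nat_lit 150))) (PT.nd (nat_lit 78) (PT.lf (nat_lit 15580) (nat_lit 6) (nat_lit 205) (nat_lit 0) (nat_lit 215) (nat_lit 206) (nat_lit 149)) (PT.lf (nat_lit 14972) (nat_lit 6) (nat_lit 197) (nat_lit 0) (nat_lit 216) (nat_lit 206) (nat_lit 148)))) (PT.nd (nat_lit 53664) (PT.nd (nat_lit 78) (PT.lf (nat_lit 14440) (nat_lit 6) (nat_lit 190) (nat_lit 0) (nat_lit 217) (nat_lit 206) (nat_lit 147)) (PT.lf (nat_lit 13832) (nat_lit 6) (nat_lit 182) (nat_lit 0) (nat_lit 218) (nat_lit 206) (nat_lit 146))) (PT.nd (nat_lit 78) (PT.lf (nat_lit 12844) (nat_lit 6) (nat_lit 169) (nat_lit 5) (nat_lit 144) (nat_lit 207) (nat_lit 219)) (PT.lf (nat_lit 13376) (nat_lit 6) (nat_lit 176) (nat_lit 5) (nat_lit 145) (nat_lit 207) (nat_lit 218))))))))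
noncomputable def pc43 : PT := (PT.nd (nat_lit 2262) (PT.nd (nat_lit 1092) (PT.nd (nat_lit 546) (PT.nd (nat_lit 234) (PT.nd (nat_lit 78) (PT.lf (nat_lit 13908) (nat_lit 6) (nat_lit 183) (nat_lit 5) (nat_lit 146) (nat_lit 207) (nat_lit 217)) (PT.nd (nat_lit 78) (PT.lf (nat_lit 14516) (nat_lit 6) (nat_lit 191) (nat_lit 5) (nat_lit 147) (nat_lit 207) (nat_lit 216)) (PT.lf (nat_lit 15048) (nat_lit 6) (nat_lit 198) (nat_lit 5) (nat_lit 148) (nat_lit 207) (nat_lit 215)))) (PT.nd (nat_lit 156) (PT.nd (nat_lit 78) (PT.lf (nat_lit 15656) (nat_lit 6) (nat_lit 206) (nat_lit 5) (nat_lit 149) (nat_lit 207) (nat_lit 214)) (PT.lf (nat_lit 16264) (nat_lit 6) (nat_lit 214) (nat_lit 5) (nat_lit 150) (nat_lit 207) (nat_lit 213))) (PT.nd (nat_lit 78) (PT.lf (nat_lit 16948) (nat_lit 6) (nat_lit 223) (nat_lit 5) (nat_lit 151) (nat_lit 207) (nat_lit 212)) (PT.lf (nat_lit 17556) (nat_lit 6) (nat_lit 231) (nat_lit 5) (nat_lit 152) (nat_lit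 207) (nat_lit 211))))) (PT.nd (nat_lit 234) (PT.nd (nat_lit 78) (PT.lf (nat_lit 18240) (nat_lit 6) (nat_lit 240) (nat_lit 5) (nat_lit 153) (nat_lit 207) (nat_lit 210)) (PT.nd (nat_lit 78) (PT.lf (nat_lit 18924) (nat_lit 6) (nat_lit 249) (nat_lit 5) (nat_lit 154) (nat_lit 207) (nat_lit 209)) (PT.lf (nat_lit 19684) (nat_lit 6) (nat_lit 259) (nat_lit 5) (nat_lit 155) (nat_lit 207) (nat_lit 208)))) (PT.nd (nat_lit 156) (PT.nd (nat_lit 78) (PT.lf (nat_lit 20368) (nat_lit 3) (nat_lit 268) (nat_lit 4) (nat_lit 156) (nat_lit 207) (nat_lit 207)) (PT.lf (nat_lit 21052) (nat_lit 6) (nat_lit 277) (nat_lit 4) (nat_lit 157) (nat_lit 207) (nat_lit 206))) (PT.nd (nat_lit 78) (PT.lf (nat_lit 21736) (nat_lit 6) (nat_lit 286) (nat_lit 4) (nat_lit 158) (nat_lit 207) (nat_lit 205)) (PT.lf (nat_lit 22496) (nat_lit 6) (nat_lit 296) (nat_lit 4) (nat_lit 159) (nat_lit 207) (nat_lit 204)))))) (PT.nd (nat_lit 546) (PT.nd (nat_lit 234) (PT.nd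 (nat_lit 78) (PT.lf (nat_lit 23180) (nat_lit 6) (nat_lit 305) (nat_lit 4) (nat_lit 160) (nat_lit 207) (nat_lit 203)) (PT.nd (nat_lit 78) (PT.lf (nat_lit 23940) (nat_lit 6) (nat_lit 315) (nat_lit 4) (nat_lit 161) (nat_lit 207) (nat_lit 202)) (PT.lf (nat_lit 24700) (nat_lit 6) (nat_lit 325) (nat_lit 4) (nat_lit 162) (nat_lit 207) (nat_lit 201)))) (PT.nd (nat_lit 156) (PT.nd (nat_lit 78) (PT.lf (nat_lit 25536) (nat_lit 6) (nat_lit 336) (nat_lit 4) (nat_lit 163) (nat_lit 207) (nat_lit 200)) (PT.lf (nat_lit 26372) (nat_lit 6) (nat_lit 347) (nat_lit 4) (nat_lit 164) (nat_lit 207) (nat_lit 199))) (PT.nd (nat_lit 78) (PT.lf (nat_lit 27284) (nat_lit 6) (nat_lit 359) (nat_lit 4) (nat_lit 165) (nat_lit 207) (nat_lit 198)) (PT.lf (nat_lit 28120) (nat_lit 6) (nat_lit 370) (nat_lit 4) (nat_lit 166) (nat_lit 207) (nat_lit 197))))) (PT.nd (nat_lit 312) (PT.nd (nat_lit 156) (PT.nd (nat_lit 78) (PT.lf (nat_lit 29564) (nat_lit 6)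 (nat_lit 389) (nat_lit 4) (nat_lit 167) (nat_lit 207) (nat_lit 196)) (PT.lf (nat_lit 31236) (nat_lit 6) (nat_lit 411) (nat_lit 4) (nat_lit 168) (nat_lit 207) (nat_lit 195))) (PT.nd (nat_lit 78) (PT.lf (nat_lit 32832) (nat_lit 6) (nat_lit 432) (nat_lit 4) (nat_lit 169) (nat_lit 207) (nat_lit 194)) (PT.lf (nat_lit 34352) (nat_lit 6) (nat_lit 452) (nat_lit 4) (nat_lit 170) (nat_lit 207) (nat_lit 193)))) (PT.nd (nat_lit 156) (PT.nd (nat_lit 78) (PT.lf (nat_lit 35796) (nat_lit 6) (nat_lit 471) (nat_lit 4) (nat_lit 171) (nat_lit 207) (nat_lit 192)) (PT.lf (nat_lit 37164) (nat_lit 6) (nat_lit 489) (nat_lit 4) (nat_lit 172) (nat_lit 207) (nat_lit 191))) (PT.nd (nat_lit 78) (PT.lf (nat_lit 38456) (nat_lit 6) (nat_lit 506) (nat_lit 4) (nat_lit 173) (nat_lit 207) (nat_lit 190)) (PT.lf (nat_lit 38380) (nat_lit 6) (nat_lit 505) (nat_lit 4) (nat_lit 174) (nat_lit 207) (nat_lit 189))))))) (PT.nd (nat_lit 1170) (PT.nd (nat_lit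 546) (PT.nd (nat_lit 234) (PT.nd (nat_lit 78) (PT.lf (nat_lit 38304) (nat_lit 6) (nat_lit 504) (nat_lit 4) (nat_lit 175) (nat_lit 207) (nat_lit 188)) (PT.nd (nat_lit 78) (PT.lf (nat_lit 38228) (nat_lit 6) (nat_lit 503) (nat_lit 4) (nat_lit 176) (nat_lit 207) (nat_lit 187)) (PT.lf (nat_lit 38152) (nat_lit 6) (nat_lit 502) (nat_lit 4) (nat_lit 177) (nat_lit 207) (nat_lit 186)))) (PT.nd (nat_lit 156) (PT.nd (nat_lit 78) (PT.lf (nat_lit 38076) (nat_lit 6) (nat_lit 501) (nat_lit 4) (nat_lit 178) (nat_lit 207) (nat_lit 185)) (PT.lf (nat_lit 38000) (nat_lit 6) (nat_lit 500) (nat_lit 4) (nat_lit 179) (nat_lit 207) (nat_lit 184))) (PT.nd (nat_lit 78) (PT.lf (nat_lit 37924) (nat_lit 6) (nat_lit 499) (nat_lit 4) (nat_lit 180) (nat_lit 207) (nat_lit 183)) (PT.lf (nat_lit 37848) (nat_lit 6) (nat_lit 498) (nat_lit 4) (nat_lit 181) (nat_lit 207) (nat_lit 182))))) (PT.nd (nat_lit 312) (PT.nd (nat_lit 156) (PT.nd (nat_lit 78) (PT.lf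 (nat_lit 37848) (nat_lit 6) (nat_lit 498) (nat_lit 2) (nat_lit 182) (nat_lit 207) (nat_lit 181)) (PT.lf (nat_lit 37924) (nat_lit 6) (nat_lit 499) (nat_lit 2) (nat_lit 183) (nat_lit 207) (nat_lit 180))) (PT.nd (nat_lit 78) (PT.lf (nat_lit 38000) (nat_lit 6) (nat_lit 500) (nat_lit 2) (nat_lit 184) (nat_lit 207) (nat_lit 179)) (PT.lf (nat_lit 38076) (nat_lit 6) (nat_lit 501) (nat_lit 2) (nat_lit 185) (nat_lit 207) (nat_lit 178)))) (PT.nd (nat_lit 156) (PT.nd (nat_lit 78) (PT.lf (nat_lit 38152) (nat_lit 6) (nat_lit 502) (nat_lit 2) (nat_lit 186) (nat_lit 207) (nat_lit 177)) (PT.lf (nat_lit 38228) (nat_lit 6) (nat_lit 503) (nat_lit 2) (nat_lit 187) (nat_lit 207) (nat_lit 176))) (PT.nd (nat_lit 78) (PT.lf (nat_lit 38304) (nat_lit 6) (nat_lit 504) (nat_lit 2) (nat_lit 188) (nat_lit 207) (nat_lit 175)) (PT.lf (nat_lit 38380) (nat_lit 6) (nat_lit 505) (nat_lit 2) (nat_lit 189) (nat_lit 207) (nat_lit 174)))))) (PT.nd (nat_lit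 546) (PT.nd (nat_lit 234) (PT.nd (nat_lit 78) (PT.lf (nat_lit 38456) (nat_lit 6) (nat_lit 506) (nat_lit 2) (nat_lit 190) (nat_lit 207) (nat_lit 173)) (PT.nd (nat_lit 78) (PT.lf (nat_lit 37164) (nat_lit 6) (nat_lit 489) (nat_lit 2) (nat_lit 191) (nat_lit 207) (nat_lit 172)) (PT.lf (nat_lit 35796) (nat_lit 6) (nat_lit 471) (nat_lit 2) (nat_lit 192) (nat_lit 207) (nat_lit 171)))) (PT.nd (nat_lit 156) (PT.nd (nat_lit 78) (PT.lf (nat_lit 34352) (nat_lit 6) (nat_lit 452) (nat_lit 2) (nat_lit 193) (nat_lit 207) (nat_lit 170)) (PT.lf (nat_lit 32832) (nat_lit 6) (nat_lit 432) (nat_lit 2) (nat_lit 194) (nat_lit 207) (nat_lit 169))) (PT.nd (nat_lit 78) (PT.lf (nat_lit 31236) (nat_lit 6) (nat_lit 411) (nat_lit 2) (nat_lit 195) (nat_lit 207) (nat_lit 168)) (PT.lf (nat_lit 29564) (nat_lit 6) (nat_lit 389) (nat_lit 2) (nat_lit 196) (nat_lit 207) (nat_lit 167))))) (PT.nd (nat_lit 312) (PT.nd (nat_lit 156) (PT.nd (nat_lit 78) (PT.lf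 (nat_lit 28120) (nat_lit 6) (nat_lit 370) (nat_lit 2) (nat_lit 197) (nat_lit 207) (nat_lit 166)) (PT.lf (nat_lit 27284) (nat_lit 6) (nat_lit 359) (nat_lit 2) (nat_lit 198) (nat_lit 207) (nat_lit 165))) (PT.nd (nat_lit 78) (PT.lf (nat_lit 26372) (nat_lit 6) (nat_lit 347) (nat_lit 2) (nat_lit 199) (nat_lit 207) (nat_lit 164)) (PT.lf (nat_lit 25536) (nat_lit 6) (nat_lit 336) (nat_lit 2) (nat_lit 200) (nat_lit 207) (nat_lit 163)))) (PT.nd (nat_lit 156) (PT.nd (nat_lit 78) (PT.lf (nat_lit 24700) (nat_lit 6) (nat_lit 325) (nat_lit 2) (nat_lit 201) (nat_lit 207) (nat_lit 162)) (PT.lf (nat_lit 23940) (nat_lit 6) (nat_lit 315) (nat_lit 2) (nat_lit 202) (nat_lit 207) (nat_lit 161))) (PT.nd (nat_lit 78) (PT.lf (nat_lit 23180) (nat_lit 6) (nat_lit 305) (nat_lit 2) (nat_lit 203) (nat_lit 207) (nat_lit 160)) (PT.lf (nat_lit 22496) (nat_lit 6) (nat_lit 296) (nat_lit 2) (nat_lit 204) (nat_lit 207) (nat_lit 159))))))))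
noncomputable def pc44 : PT := (PT.nd (nat_lit 55614) (PT.nd (nat_lit 1092) (PT.nd (nat_lit 546) (PT.nd (nat_lit 234) (PT.nd (nat_lit 78) (PT.lf (nat_lit 21736) (nat_lit 6) (nat_lit 286) (nat_lit 2) (nat_lit 205) (nat_lit 207) (nat_lit 158)) (PT.nd (nat_lit 78) (PT.lf (nat_lit 21052) (nat_lit 6) (nat_lit 277) (nat_lit 2) (nat_lit 206) (nat_lit 207) (nat_lit 157)) (PT.lf (nat_lit 20368) (nat_lit 3) (nat_lit 268) (nat_lit 0) (nat_lit 207) (nat_lit 207) (nat_lit 156)))) (PT.nd (nat_lit 156) (PT.nd (nat_lit 78) (PT.lf (nat_lit 19684) (nat_lit 6) (nat_lit 259) (nat_lit 0) (nat_lit 208) (nat_lit 207) (nat_lit 155)) (PT.lf (nat_lit 18924) (nat_lit 6) (nat_lit 249) (nat_lit 0) (nat_lit 209) (nat_lit 207) (nat_lit 154))) (PT.nd (nat_lit 78) (PT.lf (nat_lit 18240) (nat_lit 6) (nat_lit 240) (nat_lit 0) (nat_lit 210) (nat_lit 207) (nat_lit 153)) (PT.lf (nat_lit 17556) (nat_lit 6) (nat_lit 231) (nat_lit 0) (nat_lit 211) (nat_lit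 207) (nat_lit 152))))) (PT.nd (nat_lit 234) (PT.nd (nat_lit 78) (PT.lf (nat_lit 16948) (nat_lit 6) (nat_lit 223) (nat_lit 0) (nat_lit 212) (nat_lit 207) (nat_lit 151)) (PT.nd (nat_lit 78) (PT.lf (nat_lit 16264) (nat_lit 6) (nat_lit 214) (nat_lit 0) (nat_lit 213) (nat_lit 207) (nat_lit 150)) (PT.lf (nat_lit 15656) (nat_lit 6) (nat_lit 206) (nat_lit 0) (nat_lit 214) (nat_lit 207) (nat_lit 149)))) (PT.nd (nat_lit 156) (PT.nd (nat_lit 78) (PT.lf (nat_lit 15048) (nat_lit 6) (nat_lit 198) (nat_lit 0) (nat_lit 215) (nat_lit 207) (nat_lit 148)) (PT.lf (nat_lit 14516) (nat_lit 6) (nat_lit 191) (nat_lit 0) (nat_lit 216) (nat_lit 207) (nat_lit 147))) (PT.nd (nat_lit 78) (PT.lf (nat_lit 13908) (nat_lit 6) (nat_lit 183) (nat_lit 0) (nat_lit 217) (nat_lit 207) (nat_lit 146)) (PT.lf (nat_lit 13376) (nat_lit 6) (nat_lit 176) (nat_lit 0) (nat_lit 218) (nat_lit 207) (nat_lit 145)))))) (PT.nd (nat_lit 53898) (PT.nd (nat_lit 53586)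 (PT.nd (nat_lit 53430) (PT.lf (nat_lit 12844) (nat_lit 6) (nat_lit 169) (nat_lit 0) (nat_lit 219) (nat_lit 207) (nat_lit 144)) (PT.nd (nat_lit 78) (PT.lf (nat_lit 12388) (nat_lit 6) (nat_lit 163) (nat_lit 5) (nat_lit 143) (nat_lit 208) (nat_lit 219)) (PT.lf (nat_lit 12920) (nat_lit 6) (nat_lit 170) (nat_lit 5) (nat_lit 144) (nat_lit 208) (nat_lit 218)))) (PT.nd (nat_lit 156) (PT.nd (nat_lit 78) (PT.lf (nat_lit 13452) (nat_lit 6) (nat_lit 177) (nat_lit 5) (nat_lit 145) (nat_lit 208) (nat_lit 217)) (PT.lf (nat_lit 13984) (nat_lit 6) (nat_lit 184) (nat_lit 5) (nat_lit 146) (nat_lit 208) (nat_lit 216))) (PT.nd (nat_lit 78) (PT.lf (nat_lit 14592) (nat_lit 6) (nat_lit 192) (nat_lit 5) (nat_lit 147) (nat_lit 208) (nat_lit 215)) (PT.lf (nat_lit 15124) (nat_lit 6) (nat_lit 199) (nat_lit 5) (nat_lit 148) (nat_lit 208) (nat_lit 214))))) (PT.nd (nat_lit 312) (PT.nd (nat_lit 156) (PT.nd (nat_lit 78) (PT.lf (nat_lit 15732) (nat_lit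 6) (nat_lit 207) (nat_lit 5) (nat_lit 149) (nat_lit 208) (nat_lit 213)) (PT.lf (nat_lit 16340) (nat_lit 6) (nat_lit 215) (nat_lit 5) (nat_lit 150) (nat_lit 208) (nat_lit 212))) (PT.nd (nat_lit 78) (PT.lf (nat_lit 17024) (nat_lit 6) (nat_lit 224) (nat_lit 5) (nat_lit 151) (nat_lit 208) (nat_lit 211)) (PT.lf (nat_lit 17632) (nat_lit 6) (nat_lit 232) (nat_lit 5) (nat_lit 152) (nat_lit 208) (nat_lit 210)))) (PT.nd (nat_lit 156) (PT.nd (nat_lit 78) (PT.lf (nat_lit 18316) (nat_lit 6) (nat_lit 241) (nat_lit 5) (nat_lit 153) (nat_lit 208) (nat_lit 209)) (PT.lf (nat_lit 19000) (nat_lit 3) (nat_lit 250) (nat_lit 4) (nat_lit 154) (nat_lit 208) (nat_lit 208))) (PT.nd (nat_lit 78) (PT.lf (nat_lit 19684) (nat_lit 6) (nat_lit 259) (nat_lit 4) (nat_lit 155) (nat_lit 208) (nat_lit 207)) (PT.lf (nat_lit 20292) (nat_lit 6) (nat_lit 267) (nat_lit 4) (nat_lit 156) (nat_lit 208) (nat_lit 206))))))) (PT.nd (nat_lit 1092) (PT.nd (nat_lit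 546) (PT.nd (nat_lit 234) (PT.nd (nat_lit 78) (PT.lf (nat_lit 20976) (nat_lit 6) (nat_lit 276) (nat_lit 4) (nat_lit 157) (nat_lit 208) (nat_lit 205)) (PT.nd (nat_lit 78) (PT.lf (nat_lit 21660) (nat_lit 6) (nat_lit 285) (nat_lit 4) (nat_lit 158) (nat_lit 208) (nat_lit 204)) (PT.lf (nat_lit 22420) (nat_lit 6) (nat_lit 295) (nat_lit 4) (nat_lit 159) (nat_lit 208) (nat_lit 203)))) (PT.nd (nat_lit 156) (PT.nd (nat_lit 78) (PT.lf (nat_lit 23104) (nat_lit 6) (nat_lit 304) (nat_lit 4) (nat_lit 160) (nat_lit 208) (nat_lit 202)) (PT.lf (nat_lit 23864) (nat_lit 6) (nat_lit 314) (nat_lit 4) (nat_lit 161) (nat_lit 208) (nat_lit 201))) (PT.nd (nat_lit 78) (PT.lf (nat_lit 24624) (nat_lit 6) (nat_lit 324) (nat_lit 4) (nat_lit 162) (nat_lit 208) (nat_lit 200)) (PT.lf (nat_lit 25460) (nat_lit 6) (nat_lit 335) (nat_lit 4) (nat_lit 163) (nat_lit 208) (nat_lit 199))))) (PT.nd (nat_lit 234) (PT.nd (nat_lit 78) (PT.lf (nat_lit 26296)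 (nat_lit 6) (nat_lit 346) (nat_lit 4) (nat_lit 164) (nat_lit 208) (nat_lit 198)) (PT.nd (nat_lit 78) (PT.lf (nat_lit 27208) (nat_lit 6) (nat_lit 358) (nat_lit 4) (nat_lit 165) (nat_lit 208) (nat_lit 197)) (PT.lf (nat_lit 28044) (nat_lit 6) (nat_lit 369) (nat_lit 4) (nat_lit 166) (nat_lit 208) (nat_lit 196)))) (PT.nd (nat_lit 156) (PT.nd (nat_lit 78) (PT.lf (nat_lit 29488) (nat_lit 6) (nat_lit 388) (nat_lit 4) (nat_lit 167) (nat_lit 208) (nat_lit 195)) (PT.lf (nat_lit 31160) (nat_lit 6) (nat_lit 410) (nat_lit 4) (nat_lit 168) (nat_lit 208) (nat_lit 194))) (PT.nd (nat_lit 78) (PT.lf (nat_lit 32756) (nat_lit 6) (nat_lit 431) (nat_lit 4) (nat_lit 169) (nat_lit 208) (nat_lit 193)) (PT.lf (nat_lit 34276) (nat_lit 6) (nat_lit 451) (nat_lit 4) (nat_lit 170) (nat_lit 208) (nat_lit 192)))))) (PT.nd (nat_lit 546) (PT.nd (nat_lit 234) (PT.nd (nat_lit 78) (PT.lf (nat_lit 35720) (nat_lit 6) (nat_lit 470) (nat_lit 4) (nat_lit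 171) (nat_lit 208) (nat_lit 191)) (PT.nd (nat_lit 78) (PT.lf (nat_lit 37088) (nat_lit 6) (nat_lit 488) (nat_lit 4) (nat_lit 172) (nat_lit 208) (nat_lit 190)) (PT.lf (nat_lit 37012) (nat_lit 6) (nat_lit 487) (nat_lit 4) (nat_lit 173) (nat_lit 208) (nat_lit 189)))) (PT.nd (nat_lit 156) (PT.nd (nat_lit 78) (PT.lf (nat_lit 36936) (nat_lit 6) (nat_lit 486) (nat_lit 4) (nat_lit 174) (nat_lit 208) (nat_lit 188)) (PT.lf (nat_lit 36860) (nat_lit 6) (nat_lit 485) (nat_lit 4) (nat_lit 175) (nat_lit 208) (nat_lit 187))) (PT.nd (nat_lit 78) (PT.lf (nat_lit 36784) (nat_lit 6) (nat_lit 484) (nat_lit 4) (nat_lit 176) (nat_lit 208) (nat_lit 186)) (PT.lf (nat_lit 36708) (nat_lit 6) (nat_lit 483) (nat_lit 4) (nat_lit 177) (nat_lit 208) (nat_lit 185))))) (PT.nd (nat_lit 312) (PT.nd (nat_lit 156) (PT.nd (nat_lit 78) (PT.lf (nat_lit 36632) (nat_lit 6) (nat_lit 482) (nat_lit 4) (nat_lit 178) (nat_lit 208) (nat_lit 184)) (PT.lf (nat_lit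 36556) (nat_lit 6) (nat_lit 481) (nat_lit 4) (nat_lit 179) (nat_lit 208) (nat_lit 183))) (PT.nd (nat_lit 78) (PT.lf (nat_lit 36480) (nat_lit 6) (nat_lit 480) (nat_lit 4) (nat_lit 180) (nat_lit 208) (nat_lit 182)) (PT.lf (nat_lit 36404) (nat_lit 3) (nat_lit 479) (nat_lit 2) (nat_lit 181) (nat_lit 208) (nat_lit 181)))) (PT.nd (nat_lit 156) (PT.nd (nat_lit 78) (PT.lf (nat_lit 36480) (nat_lit 6) (nat_lit 480) (nat_lit 2) (nat_lit 182) (nat_lit 208) (nat_lit 180)) (PT.lf (nat_lit 36556) (nat_lit 6) (nat_lit 481) (nat_lit 2) (nat_lit 183) (nat_lit 208) (nat_lit 179))) (PT.nd (nat_lit 78) (PT.lf (nat_lit 36632) (nat_lit 6) (nat_lit 482) (nat_lit 2) (nat_lit 184) (nat_lit 208) (nat_lit 178)) (PT.lf (nat_lit 36708) (nat_lit 6) (nat_lit 483) (nat_lit 2) (nat_lit 185) (nat_lit 208) (nat_lit 177))))))))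
noncomputable def pc45 : PT := (PT.nd (nat_lit 2262) (PT.nd (nat_lit 1092) (PT.nd (nat_lit 546) (PT.nd (nat_lit 234) (PT.nd (nat_lit 78) (PT.lf (nat_lit 36784) (nat_lit 6) (nat_lit 484) (nat_lit 2) (nat_lit 186) (nat_lit 208) (nat_lit 176)) (PT.nd (nat_lit 78) (PT.lf (nat_lit 36860) (nat_lit 6) (nat_lit 485) (nat_lit 2) (nat_lit 187) (nat_lit 208) (nat_lit 175)) (PT.lf (nat_lit 36936) (nat_lit 6) (nat_lit 486) (nat_lit 2) (nat_lit 188) (nat_lit 208) (nat_lit 174)))) (PT.nd (nat_lit 156) (PT.nd (nat_lit 78) (PT.lf (nat_lit 37012) (nat_lit 6) (nat_lit 487) (nat_lit 2) (nat_lit 189) (nat_lit 208) (nat_lit 173)) (PT.lf (nat_lit 37088) (nat_lit 6) (nat_lit 488) (nat_lit 2) (nat_lit 190) (nat_lit 208) (nat_lit 172))) (PT.nd (nat_lit 78) (PT.lf (nat_lit 35720) (nat_lit 6) (nat_lit 470) (nat_lit 2) (nat_lit 191) (nat_lit 208) (nat_lit 171)) (PT.lf (nat_lit 34276) (nat_lit 6) (nat_lit 451) (nat_lit 2) (nat_lit 192) (nat_lit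 208) (nat_lit 170))))) (PT.nd (nat_lit 234) (PT.nd (nat_lit 78) (PT.lf (nat_lit 32756) (nat_lit 6) (nat_lit 431) (nat_lit 2) (nat_lit 193) (nat_lit 208) (nat_lit 169)) (PT.nd (nat_lit 78) (PT.lf (nat_lit 31160) (nat_lit 6) (nat_lit 410) (nat_lit 2) (nat_lit 194) (nat_lit 208) (nat_lit 168)) (PT.lf (nat_lit 29488) (nat_lit 6) (nat_lit 388) (nat_lit 2) (nat_lit 195) (nat_lit 208) (nat_lit 167)))) (PT.nd (nat_lit 156) (PT.nd (nat_lit 78) (PT.lf (nat_lit 28044) (nat_lit 6) (nat_lit 369) (nat_lit 2) (nat_lit 196) (nat_lit 208) (nat_lit 166)) (PT.lf (nat_lit 27208) (nat_lit 6) (nat_lit 358) (nat_lit 2) (nat_lit 197) (nat_lit 208) (nat_lit 165))) (PT.nd (nat_lit 78) (PT.lf (nat_lit 26296) (nat_lit 6) (nat_lit 346) (nat_lit 2) (nat_lit 198) (nat_lit 208) (nat_lit 164)) (PT.lf (nat_lit 25460) (nat_lit 6) (nat_lit 335) (nat_lit 2) (nat_lit 199) (nat_lit 208) (nat_lit 163)))))) (PT.nd (nat_lit 546) (PT.nd (nat_lit 234) (PT.nd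 (nat_lit 78) (PT.lf (nat_lit 24624) (nat_lit 6) (nat_lit 324) (nat_lit 2) (nat_lit 200) (nat_lit 208) (nat_lit 162)) (PT.nd (nat_lit 78) (PT.lf (nat_lit 23864) (nat_lit 6) (nat_lit 314) (nat_lit 2) (nat_lit 201) (nat_lit 208) (nat_lit 161)) (PT.lf (nat_lit 23104) (nat_lit 6) (nat_lit 304) (nat_lit 2) (nat_lit 202) (nat_lit 208) (nat_lit 160)))) (PT.nd (nat_lit 156) (PT.nd (nat_lit 78) (PT.lf (nat_lit 22420) (nat_lit 6) (nat_lit 295) (nat_lit 2) (nat_lit 203) (nat_lit 208) (nat_lit 159)) (PT.lf (nat_lit 21660) (nat_lit 6) (nat_lit 285) (nat_lit 2) (nat_lit 204) (nat_lit 208) (nat_lit 158))) (PT.nd (nat_lit 78) (PT.lf (nat_lit 20976) (nat_lit 6) (nat_lit 276) (nat_lit 2) (nat_lit 205) (nat_lit 208) (nat_lit 157)) (PT.lf (nat_lit 20292) (nat_lit 6) (nat_lit 267) (nat_lit 2) (nat_lit 206) (nat_lit 208) (nat_lit 156))))) (PT.nd (nat_lit 312) (PT.nd (nat_lit 156) (PT.nd (nat_lit 78) (PT.lf (nat_lit 19684) (nat_lit 6)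 (nat_lit 259) (nat_lit 2) (nat_lit 207) (nat_lit 208) (nat_lit 155)) (PT.lf (nat_lit 19000) (nat_lit 3) (nat_lit 250) (nat_lit 0) (nat_lit 208) (nat_lit 208) (nat_lit 154))) (PT.nd (nat_lit 78) (PT.lf (nat_lit 18316) (nat_lit 6) (nat_lit 241) (nat_lit 0) (nat_lit 209) (nat_lit 208) (nat_lit 153)) (PT.lf (nat_lit 17632) (nat_lit 6) (nat_lit 232) (nat_lit 0) (nat_lit 210) (nat_lit 208) (nat_lit 152)))) (PT.nd (nat_lit 156) (PT.nd (nat_lit 78) (PT.lf (nat_lit 17024) (nat_lit 6) (nat_lit 224) (nat_lit 0) (nat_lit 211) (nat_lit 208) (nat_lit 151)) (PT.lf (nat_lit 16340) (nat_lit 6) (nat_lit 215) (nat_lit 0) (nat_lit 212) (nat_lit 208) (nat_lit 150))) (PT.nd (nat_lit 78) (PT.lf (nat_lit 15732) (nat_lit 6) (nat_lit 207) (nat_lit 0) (nat_lit 213) (nat_lit 208) (nat_lit 149)) (PT.lf (nat_lit 15124) (nat_lit 6) (nat_lit 199) (nat_lit 0) (nat_lit 214) (nat_lit 208) (nat_lit 148))))))) (PT.nd (nat_lit 54366) (PT.nd (nat_lit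 53742) (PT.nd (nat_lit 234) (PT.nd (nat_lit 78) (PT.lf (nat_lit 14592) (nat_lit 6) (nat_lit 192) (nat_lit 0) (nat_lit 215) (nat_lit 208) (nat_lit 147)) (PT.nd (nat_lit 78) (PT.lf (nat_lit 13984) (nat_lit 6) (nat_lit 184) (nat_lit 0) (nat_lit 216) (nat_lit 208) (nat_lit 146)) (PT.lf (nat_lit 13452) (nat_lit 6) (nat_lit 177) (nat_lit 0) (nat_lit 217) (nat_lit 208) (nat_lit 145)))) (PT.nd (nat_lit 53352) (PT.nd (nat_lit 78) (PT.lf (nat_lit 12920) (nat_lit 6) (nat_lit 170) (nat_lit 0) (nat_lit 218) (nat_lit 208) (nat_lit 144)) (PT.lf (nat_lit 12388) (nat_lit 6) (nat_lit 163) (nat_lit 0) (nat_lit 219) (nat_lit 208) (nat_lit 143))) (PT.nd (nat_lit 78) (PT.lf (nat_lit 11476) (nat_lit 6) (nat_lit 151) (nat_lit 5) (nat_lit 141) (nat_lit 209) (nat_lit 220)) (PT.lf (nat_lit 11932) (nat_lit 6) (nat_lit 157) (nat_lit 5) (nat_lit 142) (nat_lit 209) (nat_lit 219))))) (PT.nd (nat_lit 312) (PT.nd (nat_lit 156) (PT.nd (nat_lit 78)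 (PT.lf (nat_lit 12464) (nat_lit 6) (nat_lit 164) (nat_lit 5) (nat_lit 143) (nat_lit 209) (nat_lit 218)) (PT.lf (nat_lit 12996) (nat_lit 6) (nat_lit 171) (nat_lit 5) (nat_lit 144) (nat_lit 209) (nat_lit 217))) (PT.nd (nat_lit 78) (PT.lf (nat_lit 13528) (nat_lit 6) (nat_lit 178) (nat_lit 5) (nat_lit 145) (nat_lit 209) (nat_lit 216)) (PT.lf (nat_lit 14060) (nat_lit 6) (nat_lit 185) (nat_lit 5) (nat_lit 146) (nat_lit 209) (nat_lit 215)))) (PT.nd (nat_lit 156) (PT.nd (nat_lit 78) (PT.lf (nat_lit 14668) (nat_lit 6) (nat_lit 193) (nat_lit 5) (nat_lit 147) (nat_lit 209) (nat_lit 214)) (PT.lf (nat_lit 15200) (nat_lit 6) (nat_lit 200) (nat_lit 5) (nat_lit 148) (nat_lit 209) (nat_lit 213))) (PT.nd (nat_lit 78) (PT.lf (nat_lit 15808) (nat_lit 6) (nat_lit 208) (nat_lit 5) (nat_lit 149) (nat_lit 209) (nat_lit 212)) (PT.lf (nat_lit 16416) (nat_lit 6) (nat_lit 216) (nat_lit 5) (nat_lit 150) (nat_lit 209) (nat_lit 211)))))) (PT.nd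 (nat_lit 546) (PT.nd (nat_lit 234) (PT.nd (nat_lit 78) (PT.lf (nat_lit 17100) (nat_lit 6) (nat_lit 225) (nat_lit 5) (nat_lit 151) (nat_lit 209) (nat_lit 210)) (PT.nd (nat_lit 78) (PT.lf (nat_lit 17708) (nat_lit 3) (nat_lit 233) (nat_lit 4) (nat_lit 152) (nat_lit 209) (nat_lit 209)) (PT.lf (nat_lit 18316) (nat_lit 6) (nat_lit 241) (nat_lit 4) (nat_lit 153) (nat_lit 209) (nat_lit 208)))) (PT.nd (nat_lit 156) (PT.nd (nat_lit 78) (PT.lf (nat_lit 18924) (nat_lit 6) (nat_lit 249) (nat_lit 4) (nat_lit 154) (nat_lit 209) (nat_lit 207)) (PT.lf (nat_lit 19608) (nat_lit 6) (nat_lit 258) (nat_lit 4) (nat_lit 155) (nat_lit 209) (nat_lit 206))) (PT.nd (nat_lit 78) (PT.lf (nat_lit 20216) (nat_lit 6) (nat_lit 266) (nat_lit 4) (nat_lit 156) (nat_lit 209) (nat_lit 205)) (PT.lf (nat_lit 20900) (nat_lit 6) (nat_lit 275) (nat_lit 4) (nat_lit 157) (nat_lit 209) (nat_lit 204))))) (PT.nd (nat_lit 312) (PT.nd (nat_lit 156) (PT.nd (nat_lit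 78) (PT.lf (nat_lit 21584) (nat_lit 6) (nat_lit 284) (nat_lit 4) (nat_lit 158) (nat_lit 209) (nat_lit 203)) (PT.lf (nat_lit 22344) (nat_lit 6) (nat_lit 294) (nat_lit 4) (nat_lit 159) (nat_lit 209) (nat_lit 202))) (PT.nd (nat_lit 78) (PT.lf (nat_lit 23028) (nat_lit 6) (nat_lit 303) (nat_lit 4) (nat_lit 160) (nat_lit 209) (nat_lit 201)) (PT.lf (nat_lit 23788) (nat_lit 6) (nat_lit 313) (nat_lit 4) (nat_lit 161) (nat_lit 209) (nat_lit 200)))) (PT.nd (nat_lit 156) (PT.nd (nat_lit 78) (PT.lf (nat_lit 24548) (nat_lit 6) (nat_lit 323) (nat_lit 4) (nat_lit 162) (nat_lit 209) (nat_lit 199)) (PT.lf (nat_lit 25384) (nat_lit 6) (nat_lit 334) (nat_lit 4) (nat_lit 163) (nat_lit 209) (nat_lit 198))) (PT.nd (nat_lit 78) (PT.lf (nat_lit 26220) (nat_lit 6) (nat_lit 345) (nat_lit 4) (nat_lit 164) (nat_lit 209) (nat_lit 197)) (PT.lf (nat_lit 27132) (nat_lit 6) (nat_lit 357) (nat_lit 4) (nat_lit 165) (nat_lit 209) (nat_lit 196))))))))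
noncomputable def pc46 : PT := (PT.nd (nat_lit 2262) (PT.nd (nat_lit 1092) (PT.nd (nat_lit 546) (PT.nd (nat_lit 234) (PT.nd (nat_lit 78) (PT.lf (nat_lit 27968) (nat_lit 6) (nat_lit 368) (nat_lit 4) (nat_lit 166) (nat_lit 209) (nat_lit 195)) (PT.nd (nat_lit 78) (PT.lf (nat_lit 29412) (nat_lit 6) (nat_lit 387) (nat_lit 4) (nat_lit 167) (nat_lit 209) (nat_lit 194)) (PT.lf (nat_lit 31084) (nat_lit 6) (nat_lit 409) (nat_lit 4) (nat_lit 168) (nat_lit 209) (nat_lit 193)))) (PT.nd (nat_lit 156) (PT.nd (nat_lit 78) (PT.lf (nat_lit 32680) (nat_lit 6) (nat_lit 430) (nat_lit 4) (nat_lit 169) (nat_lit 209) (nat_lit 192)) (PT.lf (nat_lit 34200) (nat_lit 6) (nat_lit 450) (nat_lit 4) (nat_lit 170) (nat_lit 209) (nat_lit 191))) (PT.nd (nat_lit 78) (PT.lf (nat_lit 35644) (nat_lit 6) (nat_lit 469) (nat_lit 4) (nat_lit 171) (nat_lit 209) (nat_lit 190)) (PT.lf (nat_lit 35568) (nat_lit 6) (nat_lit 468) (nat_lit 4) (nat_lit 172) (nat_lit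 209) (nat_lit 189))))) (PT.nd (nat_lit 234) (PT.nd (nat_lit 78) (PT.lf (nat_lit 35492) (nat_lit 6) (nat_lit 467) (nat_lit 4) (nat_lit 173) (nat_lit 209) (nat_lit 188)) (PT.nd (nat_lit 78) (PT.lf (nat_lit 35416) (nat_lit 6) (nat_lit 466) (nat_lit 4) (nat_lit 174) (nat_lit 209) (nat_lit 187)) (PT.lf (nat_lit 35340) (nat_lit 6) (nat_lit 465) (nat_lit 4) (nat_lit 175) (nat_lit 209) (nat_lit 186)))) (PT.nd (nat_lit 156) (PT.nd (nat_lit 78) (PT.lf (nat_lit 35264) (nat_lit 6) (nat_lit 464) (nat_lit 4) (nat_lit 176) (nat_lit 209) (nat_lit 185)) (PT.lf (nat_lit 35188) (nat_lit 6) (nat_lit 463) (nat_lit 4) (nat_lit 177) (nat_lit 209) (nat_lit 184))) (PT.nd (nat_lit 78) (PT.lf (nat_lit 35112) (nat_lit 6) (nat_lit 462) (nat_lit 4) (nat_lit 178) (nat_lit 209) (nat_lit 183)) (PT.lf (nat_lit 35036) (nat_lit 6) (nat_lit 461) (nat_lit 4) (nat_lit 179) (nat_lit 209) (nat_lit 182)))))) (PT.nd (nat_lit 546) (PT.nd (nat_lit 234) (PT.nd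 (nat_lit 78) (PT.lf (nat_lit 34960) (nat_lit 6) (nat_lit 460) (nat_lit 4) (nat_lit 180) (nat_lit 209) (nat_lit 181)) (PT.nd (nat_lit 78) (PT.lf (nat_lit 34960) (nat_lit 6) (nat_lit 460) (nat_lit 2) (nat_lit 181) (nat_lit 209) (nat_lit 180)) (PT.lf (nat_lit 35036) (nat_lit 6) (nat_lit 461) (nat_lit 2) (nat_lit 182) (nat_lit 209) (nat_lit 179)))) (PT.nd (nat_lit 156) (PT.nd (nat_lit 78) (PT.lf (nat_lit 35112) (nat_lit 6) (nat_lit 462) (nat_lit 2) (nat_lit 183) (nat_lit 209) (nat_lit 178)) (PT.lf (nat_lit 35188) (nat_lit 6) (nat_lit 463) (nat_lit 2) (nat_lit 184) (nat_lit 209) (nat_lit 177))) (PT.nd (nat_lit 78) (PT.lf (nat_lit 35264) (nat_lit 6) (nat_lit 464) (nat_lit 2) (nat_lit 185) (nat_lit 209) (nat_lit 176)) (PT.lf (nat_lit 35340) (nat_lit 6) (nat_lit 465) (nat_lit 2) (nat_lit 186) (nat_lit 209) (nat_lit 175))))) (PT.nd (nat_lit 312) (PT.nd (nat_lit 156) (PT.nd (nat_lit 78) (PT.lf (nat_lit 35416) (nat_lit 6)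 (nat_lit 466) (nat_lit 2) (nat_lit 187) (nat_lit 209) (nat_lit 174)) (PT.lf (nat_lit 35492) (nat_lit 6) (nat_lit 467) (nat_lit 2) (nat_lit 188) (nat_lit 209) (nat_lit 173))) (PT.nd (nat_lit 78) (PT.lf (nat_lit 35568) (nat_lit 6) (nat_lit 468) (nat_lit 2) (nat_lit 189) (nat_lit 209) (nat_lit 172)) (PT.lf (nat_lit 35644) (nat_lit 6) (nat_lit 469) (nat_lit 2) (nat_lit 190) (nat_lit 209) (nat_lit 171)))) (PT.nd (nat_lit 156) (PT.nd (nat_lit 78) (PT.lf (nat_lit 34200) (nat_lit 6) (nat_lit 450) (nat_lit 2) (nat_lit 191) (nat_lit 209) (nat_lit 170)) (PT.lf (nat_lit 32680) (nat_lit 6) (nat_lit 430) (nat_lit 2) (nat_lit 192) (nat_lit 209) (nat_lit 169))) (PT.nd (nat_lit 78) (PT.lf (nat_lit 31084) (nat_lit 6) (nat_lit 409) (nat_lit 2) (nat_lit 193) (nat_lit 209) (nat_lit 168)) (PT.lf (nat_lit 29412) (nat_lit 6) (nat_lit 387) (nat_lit 2) (nat_lit 194) (nat_lit 209) (nat_lit 167))))))) (PT.nd (nat_lit 1092) (PT.nd (nat_lit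 546) (PT.nd (nat_lit 234) (PT.nd (nat_lit 78) (PT.lf (nat_lit 27968) (nat_lit 6) (nat_lit 368) (nat_lit 2) (nat_lit 195) (nat_lit 209) (nat_lit 166)) (PT.nd (nat_lit 78) (PT.lf (nat_lit 27132) (nat_lit 6) (nat_lit 357) (nat_lit 2) (nat_lit 196) (nat_lit 209) (nat_lit 165)) (PT.lf (nat_lit 26220) (nat_lit 6) (nat_lit 345) (nat_lit 2) (nat_lit 197) (nat_lit 209) (nat_lit 164)))) (PT.nd (nat_lit 156) (PT.nd (nat_lit 78) (PT.lf (nat_lit 25384) (nat_lit 6) (nat_lit 334) (nat_lit 2) (nat_lit 198) (nat_lit 209) (nat_lit 163)) (PT.lf (nat_lit 24548) (nat_lit 6) (nat_lit 323) (nat_lit 2) (nat_lit 199) (nat_lit 209) (nat_lit 162))) (PT.nd (nat_lit 78) (PT.lf (nat_lit 23788) (nat_lit 6) (nat_lit 313) (nat_lit 2) (nat_lit 200) (nat_lit 209) (nat_lit 161)) (PT.lf (nat_lit 23028) (nat_lit 6) (nat_lit 303) (nat_lit 2) (nat_lit 201) (nat_lit 209) (nat_lit 160))))) (PT.nd (nat_lit 234) (PT.nd (nat_lit 78) (PT.lf (nat_lit 22344)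 (nat_lit 6) (nat_lit 294) (nat_lit 2) (nat_lit 202) (nat_lit 209) (nat_lit 159)) (PT.nd (nat_lit 78) (PT.lf (nat_lit 21584) (nat_lit 6) (nat_lit 284) (nat_lit 2) (nat_lit 203) (nat_lit 209) (nat_lit 158)) (PT.lf (nat_lit 20900) (nat_lit 6) (nat_lit 275) (nat_lit 2) (nat_lit 204) (nat_lit 209) (nat_lit 157)))) (PT.nd (nat_lit 156) (PT.nd (nat_lit 78) (PT.lf (nat_lit 20216) (nat_lit 6) (nat_lit 266) (nat_lit 2) (nat_lit 205) (nat_lit 209) (nat_lit 156)) (PT.lf (nat_lit 19608) (nat_lit 6) (nat_lit 258) (nat_lit 2) (nat_lit 206) (nat_lit 209) (nat_lit 155))) (PT.nd (nat_lit 78) (PT.lf (nat_lit 18924) (nat_lit 6) (nat_lit 249) (nat_lit 2) (nat_lit 207) (nat_lit 209) (nat_lit 154)) (PT.lf (nat_lit 18316) (nat_lit 6) (nat_lit 241) (nat_lit 2) (nat_lit 208) (nat_lit 209) (nat_lit 153)))))) (PT.nd (nat_lit 546) (PT.nd (nat_lit 234) (PT.nd (nat_lit 78) (PT.lf (nat_lit 17708) (nat_lit 3) (nat_lit 233) (nat_lit 0) (nat_lit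 209) (nat_lit 209) (nat_lit 152)) (PT.nd (nat_lit 78) (PT.lf (nat_lit 17100) (nat_lit 6) (nat_lit 225) (nat_lit 0) (nat_lit 210) (nat_lit 209) (nat_lit 151)) (PT.lf (nat_lit 16416) (nat_lit 6) (nat_lit 216) (nat_lit 0) (nat_lit 211) (nat_lit 209) (nat_lit 150)))) (PT.nd (nat_lit 156) (PT.nd (nat_lit 78) (PT.lf (nat_lit 15808) (nat_lit 6) (nat_lit 208) (nat_lit 0) (nat_lit 212) (nat_lit 209) (nat_lit 149)) (PT.lf (nat_lit 15200) (nat_lit 6) (nat_lit 200) (nat_lit 0) (nat_lit 213) (nat_lit 209) (nat_lit 148))) (PT.nd (nat_lit 78) (PT.lf (nat_lit 14668) (nat_lit 6) (nat_lit 193) (nat_lit 0) (nat_lit 214) (nat_lit 209) (nat_lit 147)) (PT.lf (nat_lit 14060) (nat_lit 6) (nat_lit 185) (nat_lit 0) (nat_lit 215) (nat_lit 209) (nat_lit 146))))) (PT.nd (nat_lit 312) (PT.nd (nat_lit 156) (PT.nd (nat_lit 78) (PT.lf (nat_lit 13528) (nat_lit 6) (nat_lit 178) (nat_lit 0) (nat_lit 216) (nat_lit 209) (nat_lit 145)) (PT.lf (nat_lit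 12996) (nat_lit 6) (nat_lit 171) (nat_lit 0) (nat_lit 217) (nat_lit 209) (nat_lit 144))) (PT.nd (nat_lit 78) (PT.lf (nat_lit 12464) (nat_lit 6) (nat_lit 164) (nat_lit 0) (nat_lit 218) (nat_lit 209) (nat_lit 143)) (PT.lf (nat_lit 11932) (nat_lit 6) (nat_lit 157) (nat_lit 0) (nat_lit 219) (nat_lit 209) (nat_lit 142)))) (PT.nd (nat_lit 53196) (PT.nd (nat_lit 53118) (PT.lf (nat_lit 11476) (nat_lit 6) (nat_lit 151) (nat_lit 0) (nat_lit 220) (nat_lit 209) (nat_lit 141)) (PT.lf (nat_lit 11020) (nat_lit 6) (nat_lit 145) (nat_lit 5) (nat_lit 140) (nat_lit 210) (nat_lit 220))) (PT.nd (nat_lit 78) (PT.lf (nat_lit 11552) (nat_lit 6) (nat_lit 152) (nat_lit 5) (nat_lit 141) (nat_lit 210) (nat_lit 219)) (PT.lf (nat_lit 12008) (nat_lit 6) (nat_lit 158) (nat_lit 5) (nat_lit 142) (nat_lit 210) (nat_lit 218))))))))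
noncomputable def pc47 : PT := (PT.nd (nat_lit 2262) (PT.nd (nat_lit 1092) (PT.nd (nat_lit 546) (PT.nd (nat_lit 234) (PT.nd (nat_lit 78) (PT.lf (nat_lit 12540) (nat_lit 6) (nat_lit 165) (nat_lit 5) (nat_lit 143) (nat_lit 210) (nat_lit 217)) (PT.nd (nat_lit 78) (PT.lf (nat_lit 13072) (nat_lit 6) (nat_lit 172) (nat_lit 5) (nat_lit 144) (nat_lit 210) (nat_lit 216)) (PT.lf (nat_lit 13604) (nat_lit 6) (nat_lit 179) (nat_lit 5) (nat_lit 145) (nat_lit 210) (nat_lit 215)))) (PT.nd (nat_lit 156) (PT.nd (nat_lit 78) (PT.lf (nat_lit 14136) (nat_lit 6) (nat_lit 186) (nat_lit 5) (nat_lit 146) (nat_lit 210) (nat_lit 214)) (PT.lf (nat_lit 14744) (nat_lit 6) (nat_lit 194) (nat_lit 5) (nat_lit 147) (nat_lit 210) (nat_lit 213))) (PT.nd (nat_lit 78) (PT.lf (nat_lit 15276) (nat_lit 6) (nat_lit 201) (nat_lit 5) (nat_lit 148) (nat_lit 210) (nat_lit 212)) (PT.lf (nat_lit 15884) (nat_lit 6) (nat_lit 209) (nat_lit 5) (nat_lit 149) (nat_lit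 210) (nat_lit 211))))) (PT.nd (nat_lit 234) (PT.nd (nat_lit 78) (PT.lf (nat_lit 16492) (nat_lit 3) (nat_lit 217) (nat_lit 4) (nat_lit 150) (nat_lit 210) (nat_lit 210)) (PT.nd (nat_lit 78) (PT.lf (nat_lit 17100) (nat_lit 6) (nat_lit 225) (nat_lit 4) (nat_lit 151) (nat_lit 210) (nat_lit 209)) (PT.lf (nat_lit 17632) (nat_lit 6) (nat_lit 232) (nat_lit 4) (nat_lit 152) (nat_lit 210) (nat_lit 208)))) (PT.nd (nat_lit 156) (PT.nd (nat_lit 78) (PT.lf (nat_lit 18240) (nat_lit 6) (nat_lit 240) (nat_lit 4) (nat_lit 153) (nat_lit 210) (nat_lit 207)) (PT.lf (nat_lit 18848) (nat_lit 6) (nat_lit 248) (nat_lit 4) (nat_lit 154) (nat_lit 210) (nat_lit 206))) (PT.nd (nat_lit 78) (PT.lf (nat_lit 19532) (nat_lit 6) (nat_lit 257) (nat_lit 4) (nat_lit 155) (nat_lit 210) (nat_lit 205)) (PT.lf (nat_lit 20140) (nat_lit 6) (nat_lit 265) (nat_lit 4) (nat_lit 156) (nat_lit 210) (nat_lit 204)))))) (PT.nd (nat_lit 546) (PT.nd (nat_lit 234) (PT.nd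 (nat_lit 78) (PT.lf (nat_lit 20824) (nat_lit 6) (nat_lit 274) (nat_lit 4) (nat_lit 157) (nat_lit 210) (nat_lit 203)) (PT.nd (nat_lit 78) (PT.lf (nat_lit 21508) (nat_lit 6) (nat_lit 283) (nat_lit 4) (nat_lit 158) (nat_lit 210) (nat_lit 202)) (PT.lf (nat_lit 22268) (nat_lit 6) (nat_lit 293) (nat_lit 4) (nat_lit 159) (nat_lit 210) (nat_lit 201)))) (PT.nd (nat_lit 156) (PT.nd (nat_lit 78) (PT.lf (nat_lit 22952) (nat_lit 6) (nat_lit 302) (nat_lit 4) (nat_lit 160) (nat_lit 210) (nat_lit 200)) (PT.lf (nat_lit 23712) (nat_lit 6) (nat_lit 312) (nat_lit 4) (nat_lit 161) (nat_lit 210) (nat_lit 199))) (PT.nd (nat_lit 78) (PT.lf (nat_lit 24472) (nat_lit 6) (nat_lit 322) (nat_lit 4) (nat_lit 162) (nat_lit 210) (nat_lit 198)) (PT.lf (nat_lit 25308) (nat_lit 6) (nat_lit 333) (nat_lit 4) (nat_lit 163) (nat_lit 210) (nat_lit 197))))) (PT.nd (nat_lit 312) (PT.nd (nat_lit 156) (PT.nd (nat_lit 78) (PT.lf (nat_lit 26144) (nat_lit 6)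 (nat_lit 344) (nat_lit 4) (nat_lit 164) (nat_lit 210) (nat_lit 196)) (PT.lf (nat_lit 27056) (nat_lit 6) (nat_lit 356) (nat_lit 4) (nat_lit 165) (nat_lit 210) (nat_lit 195))) (PT.nd (nat_lit 78) (PT.lf (nat_lit 27892) (nat_lit 6) (nat_lit 367) (nat_lit 4) (nat_lit 166) (nat_lit 210) (nat_lit 194)) (PT.lf (nat_lit 29336) (nat_lit 6) (nat_lit 386) (nat_lit 4) (nat_lit 167) (nat_lit 210) (nat_lit 193)))) (PT.nd (nat_lit 156) (PT.nd (nat_lit 78) (PT.lf (nat_lit 31008) (nat_lit 6) (nat_lit 408) (nat_lit 4) (nat_lit 168) (nat_lit 210) (nat_lit 192)) (PT.lf (nat_lit 32604) (nat_lit 6) (nat_lit 429) (nat_lit 4) (nat_lit 169) (nat_lit 210) (nat_lit 191))) (PT.nd (nat_lit 78) (PT.lf (nat_lit 34124) (nat_lit 6) (nat_lit 449) (nat_lit 4) (nat_lit 170) (nat_lit 210) (nat_lit 190)) (PT.lf (nat_lit 34048) (nat_lit 6) (nat_lit 448) (nat_lit 4) (nat_lit 171) (nat_lit 210) (nat_lit 189))))))) (PT.nd (nat_lit 1170) (PT.nd (nat_lit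 546) (PT.nd (nat_lit 234) (PT.nd (nat_lit 78) (PT.lf (nat_lit 33972) (nat_lit 6) (nat_lit 447) (nat_lit 4) (nat_lit 172) (nat_lit 210) (nat_lit 188)) (PT.nd (nat_lit 78) (PT.lf (nat_lit 33896) (nat_lit 6) (nat_lit 446) (nat_lit 4) (nat_lit 173) (nat_lit 210) (nat_lit 187)) (PT.lf (nat_lit 33820) (nat_lit 6) (nat_lit 445) (nat_lit 4) (nat_lit 174) (nat_lit 210) (nat_lit 186)))) (PT.nd (nat_lit 156) (PT.nd (nat_lit 78) (PT.lf (nat_lit 33744) (nat_lit 6) (nat_lit 444) (nat_lit 4) (nat_lit 175) (nat_lit 210) (nat_lit 185)) (PT.lf (nat_lit 33668) (nat_lit 6) (nat_lit 443) (nat_lit 4) (nat_lit 176) (nat_lit 210) (nat_lit 184))) (PT.nd (nat_lit 78) (PT.lf (nat_lit 33592) (nat_lit 6) (nat_lit 442) (nat_lit 4) (nat_lit 177) (nat_lit 210) (nat_lit 183)) (PT.lf (nat_lit 33516) (nat_lit 6) (nat_lit 441) (nat_lit 4) (nat_lit 178) (nat_lit 210) (nat_lit 182))))) (PT.nd (nat_lit 312) (PT.nd (nat_lit 156) (PT.nd (nat_lit 78) (PT.lf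 (nat_lit 33440) (nat_lit 6) (nat_lit 440) (nat_lit 4) (nat_lit 179) (nat_lit 210) (nat_lit 181)) (PT.lf (nat_lit 33364) (nat_lit 3) (nat_lit 439) (nat_lit 2) (nat_lit 180) (nat_lit 210) (nat_lit 180))) (PT.nd (nat_lit 78) (PT.lf (nat_lit 33440) (nat_lit 6) (nat_lit 440) (nat_lit 2) (nat_lit 181) (nat_lit 210) (nat_lit 179)) (PT.lf (nat_lit 33516) (nat_lit 6) (nat_lit 441) (nat_lit 2) (nat_lit 182) (nat_lit 210) (nat_lit 178)))) (PT.nd (nat_lit 156) (PT.nd (nat_lit 78) (PT.lf (nat_lit 33592) (nat_lit 6) (nat_lit 442) (nat_lit 2) (nat_lit 183) (nat_lit 210) (nat_lit 177)) (PT.lf (nat_lit 33668) (nat_lit 6) (nat_lit 443) (nat_lit 2) (nat_lit 184) (nat_lit 210) (nat_lit 176))) (PT.nd (nat_lit 78) (PT.lf (nat_lit 33744) (nat_lit 6) (nat_lit 444) (nat_lit 2) (nat_lit 185) (nat_lit 210) (nat_lit 175)) (PT.lf (nat_lit 33820) (nat_lit 6) (nat_lit 445) (nat_lit 2) (nat_lit 186) (nat_lit 210) (nat_lit 174)))))) (PT.nd (nat_lit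 546) (PT.nd (nat_lit 234) (PT.nd (nat_lit 78) (PT.lf (nat_lit 33896) (nat_lit 6) (nat_lit 446) (nat_lit 2) (nat_lit 187) (nat_lit 210) (nat_lit 173)) (PT.nd (nat_lit 78) (PT.lf (nat_lit 33972) (nat_lit 6) (nat_lit 447) (nat_lit 2) (nat_lit 188) (nat_lit 210) (nat_lit 172)) (PT.lf (nat_lit 34048) (nat_lit 6) (nat_lit 448) (nat_lit 2) (nat_lit 189) (nat_lit 210) (nat_lit 171)))) (PT.nd (nat_lit 156) (PT.nd (nat_lit 78) (PT.lf (nat_lit 34124) (nat_lit 6) (nat_lit 449) (nat_lit 2) (nat_lit 190) (nat_lit 210) (nat_lit 170)) (PT.lf (nat_lit 32604) (nat_lit 6) (nat_lit 429) (nat_lit 2) (nat_lit 191) (nat_lit 210) (nat_lit 169))) (PT.nd (nat_lit 78) (PT.lf (nat_lit 31008) (nat_lit 6) (nat_lit 408) (nat_lit 2) (nat_lit 192) (nat_lit 210) (nat_lit 168)) (PT.lf (nat_lit 29336) (nat_lit 6) (nat_lit 386) (nat_lit 2) (nat_lit 193) (nat_lit 210) (nat_lit 167))))) (PT.nd (nat_lit 312) (PT.nd (nat_lit 156) (PT.nd (nat_lit 78) (PT.lf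 (nat_lit 27892) (nat_lit 6) (nat_lit 367) (nat_lit 2) (nat_lit 194) (nat_lit 210) (nat_lit 166)) (PT.lf (nat_lit 27056) (nat_lit 6) (nat_lit 356) (nat_lit 2) (nat_lit 195) (nat_lit 210) (nat_lit 165))) (PT.nd (nat_lit 78) (PT.lf (nat_lit 26144) (nat_lit 6) (nat_lit 344) (nat_lit 2) (nat_lit 196) (nat_lit 210) (nat_lit 164)) (PT.lf (nat_lit 25308) (nat_lit 6) (nat_lit 333) (nat_lit 2) (nat_lit 197) (nat_lit 210) (nat_lit 163)))) (PT.nd (nat_lit 156) (PT.nd (nat_lit 78) (PT.lf (nat_lit 24472) (nat_lit 6) (nat_lit 322) (nat_lit 2) (nat_lit 198) (nat_lit 210) (nat_lit 162)) (PT.lf (nat_lit 23712) (nat_lit 6) (nat_lit 312) (nat_lit 2) (nat_lit 199) (nat_lit 210) (nat_lit 161))) (PT.nd (nat_lit 78) (PT.lf (nat_lit 22952) (nat_lit 6) (nat_lit 302) (nat_lit 2) (nat_lit 200) (nat_lit 210) (nat_lit 160)) (PT.lf (nat_lit 22268) (nat_lit 6) (nat_lit 293) (nat_lit 2) (nat_lit 201) (nat_lit 210) (nat_lit 159))))))))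
noncomputable def pc48 : PT := (PT.nd (nat_lit 55146) (PT.nd (nat_lit 1092) (PT.nd (nat_lit 546) (PT.nd (nat_lit 234) (PT.nd (nat_lit 78) (PT.lf (nat_lit 21508) (nat_lit 6) (nat_lit 283) (nat_lit 2) (nat_lit 202) (nat_lit 210) (nat_lit 158)) (PT.nd (nat_lit 78) (PT.lf (nat_lit 20824) (nat_lit 6) (nat_lit 274) (nat_lit 2) (nat_lit 203) (nat_lit 210) (nat_lit 157)) (PT.lf (nat_lit 20140) (nat_lit 6) (nat_lit 265) (nat_lit 2) (nat_lit 204) (nat_lit 210) (nat_lit 156)))) (PT.nd (nat_lit 156) (PT.nd (nat_lit 78) (PT.lf (nat_lit 19532) (nat_lit 6) (nat_lit 257) (nat_lit 2) (nat_lit 205) (nat_lit 210) (nat_lit 155)) (PT.lf (nat_lit 18848) (nat_lit 6) (nat_lit 248) (nat_lit 2) (nat_lit 206) (nat_lit 210) (nat_lit 154))) (PT.nd (nat_lit 78) (PT.lf (nat_lit 18240) (nat_lit 6) (nat_lit 240) (nat_lit 2) (nat_lit 207) (nat_lit 210) (nat_lit 153)) (PT.lf (nat_lit 17632) (nat_lit 6) (nat_lit 232) (nat_lit 2) (nat_lit 208) (nat_lit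 210) (nat_lit 152))))) (PT.nd (nat_lit 234) (PT.nd (nat_lit 78) (PT.lf (nat_lit 17100) (nat_lit 6) (nat_lit 225) (nat_lit 2) (nat_lit 209) (nat_lit 210) (nat_lit 151)) (PT.nd (nat_lit 78) (PT.lf (nat_lit 16492) (nat_lit 3) (nat_lit 217) (nat_lit 0) (nat_lit 210) (nat_lit 210) (nat_lit 150)) (PT.lf (nat_lit 15884) (nat_lit 6) (nat_lit 209) (nat_lit 0) (nat_lit 211) (nat_lit 210) (nat_lit 149)))) (PT.nd (nat_lit 156) (PT.nd (nat_lit 78) (PT.lf (nat_lit 15276) (nat_lit 6) (nat_lit 201) (nat_lit 0) (nat_lit 212) (nat_lit 210) (nat_lit 148)) (PT.lf (nat_lit 14744) (nat_lit 6) (nat_lit 194) (nat_lit 0) (nat_lit 213) (nat_lit 210) (nat_lit 147))) (PT.nd (nat_lit 78) (PT.lf (nat_lit 14136) (nat_lit 6) (nat_lit 186) (nat_lit 0) (nat_lit 214) (nat_lit 210) (nat_lit 146)) (PT.lf (nat_lit 13604) (nat_lit 6) (nat_lit 179) (nat_lit 0) (nat_lit 215) (nat_lit 210) (nat_lit 145)))))) (PT.nd (nat_lit 53430) (PT.nd (nat_lit 234)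 (PT.nd (nat_lit 78) (PT.lf (nat_lit 13072) (nat_lit 6) (nat_lit 172) (nat_lit 0) (nat_lit 216) (nat_lit 210) (nat_lit 144)) (PT.nd (nat_lit 78) (PT.lf (nat_lit 12540) (nat_lit 6) (nat_lit 165) (nat_lit 0) (nat_lit 217) (nat_lit 210) (nat_lit 143)) (PT.lf (nat_lit 12008) (nat_lit 6) (nat_lit 158) (nat_lit 0) (nat_lit 218) (nat_lit 210) (nat_lit 142)))) (PT.nd (nat_lit 53040) (PT.nd (nat_lit 78) (PT.lf (nat_lit 11552) (nat_lit 6) (nat_lit 152) (nat_lit 0) (nat_lit 219) (nat_lit 210) (nat_lit 141)) (PT.lf (nat_lit 11020) (nat_lit 6) (nat_lit 145) (nat_lit 0) (nat_lit 220) (nat_lit 210) (nat_lit 140))) (PT.nd (nat_lit 78) (PT.lf (nat_lit 10184) (nat_lit 6) (nat_lit 134) (nat_lit 5) (nat_lit 138) (nat_lit 211) (nat_lit 221)) (PT.lf (nat_lit 10640) (nat_lit 6) (nat_lit 140) (nat_lit 5) (nat_lit 139) (nat_lit 211) (nat_lit 220))))) (PT.nd (nat_lit 312) (PT.nd (nat_lit 156) (PT.nd (nat_lit 78) (PT.lf (nat_lit 11096) (nat_lit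 6) (nat_lit 146) (nat_lit 5) (nat_lit 140) (nat_lit 211) (nat_lit 219)) (PT.lf (nat_lit 11628) (nat_lit 6) (nat_lit 153) (nat_lit 5) (nat_lit 141) (nat_lit 211) (nat_lit 218))) (PT.nd (nat_lit 78) (PT.lf (nat_lit 12084) (nat_lit 6) (nat_lit 159) (nat_lit 5) (nat_lit 142) (nat_lit 211) (nat_lit 217)) (PT.lf (nat_lit 12616) (nat_lit 6) (nat_lit 166) (nat_lit 5) (nat_lit 143) (nat_lit 211) (nat_lit 216)))) (PT.nd (nat_lit 156) (PT.nd (nat_lit 78) (PT.lf (nat_lit 13148) (nat_lit 6) (nat_lit 173) (nat_lit 5) (nat_lit 144) (nat_lit 211) (nat_lit 215)) (PT.lf (nat_lit 13680) (nat_lit 6) (nat_lit 180) (nat_lit 5) (nat_lit 145) (nat_lit 211) (nat_lit 214))) (PT.nd (nat_lit 78) (PT.lf (nat_lit 14212) (nat_lit 6) (nat_lit 187) (nat_lit 5) (nat_lit 146) (nat_lit 211) (nat_lit 213)) (PT.lf (nat_lit 14820) (nat_lit 6) (nat_lit 195) (nat_lit 5) (nat_lit 147) (nat_lit 211) (nat_lit 212))))))) (PT.nd (nat_lit 1092) (PT.nd (nat_lit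 546) (PT.nd (nat_lit 234) (PT.nd (nat_lit 78) (PT.lf (nat_lit 15352) (nat_lit 3) (nat_lit 202) (nat_lit 4) (nat_lit 148) (nat_lit 211) (nat_lit 211)) (PT.nd (nat_lit 78) (PT.lf (nat_lit 15884) (nat_lit 6) (nat_lit 209) (nat_lit 4) (nat_lit 149) (nat_lit 211) (nat_lit 210)) (PT.lf (nat_lit 16416) (nat_lit 6) (nat_lit 216) (nat_lit 4) (nat_lit 150) (nat_lit 211) (nat_lit 209)))) (PT.nd (nat_lit 156) (PT.nd (nat_lit 78) (PT.lf (nat_lit 17024) (nat_lit 6) (nat_lit 224) (nat_lit 4) (nat_lit 151) (nat_lit 211) (nat_lit 208)) (PT.lf (nat_lit 17556) (nat_lit 6) (nat_lit 231) (nat_lit 4) (nat_lit 152) (nat_lit 211) (nat_lit 207))) (PT.nd (nat_lit 78) (PT.lf (nat_lit 18164) (nat_lit 6) (nat_lit 239) (nat_lit 4) (nat_lit 153) (nat_lit 211) (nat_lit 206)) (PT.lf (nat_lit 18772) (nat_lit 6) (nat_lit 247) (nat_lit 4) (nat_lit 154) (nat_lit 211) (nat_lit 205))))) (PT.nd (nat_lit 234) (PT.nd (nat_lit 78) (PT.lf (nat_lit 19456)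 (nat_lit 6) (nat_lit 256) (nat_lit 4) (nat_lit 155) (nat_lit 211) (nat_lit 204)) (PT.nd (nat_lit 78) (PT.lf (nat_lit 20064) (nat_lit 6) (nat_lit 264) (nat_lit 4) (nat_lit 156) (nat_lit 211) (nat_lit 203)) (PT.lf (nat_lit 20748) (nat_lit 6) (nat_lit 273) (nat_lit 4) (nat_lit 157) (nat_lit 211) (nat_lit 202)))) (PT.nd (nat_lit 156) (PT.nd (nat_lit 78) (PT.lf (nat_lit 21432) (nat_lit 6) (nat_lit 282) (nat_lit 4) (nat_lit 158) (nat_lit 211) (nat_lit 201)) (PT.lf (nat_lit 22192) (nat_lit 6) (nat_lit 292) (nat_lit 4) (nat_lit 159) (nat_lit 211) (nat_lit 200))) (PT.nd (nat_lit 78) (PT.lf (nat_lit 22876) (nat_lit 6) (nat_lit 301) (nat_lit 4) (nat_lit 160) (nat_lit 211) (nat_lit 199)) (PT.lf (nat_lit 23636) (nat_lit 6) (nat_lit 311) (nat_lit 4) (nat_lit 161) (nat_lit 211) (nat_lit 198)))))) (PT.nd (nat_lit 546) (PT.nd (nat_lit 234) (PT.nd (nat_lit 78) (PT.lf (nat_lit 24396) (nat_lit 6) (nat_lit 321) (nat_lit 4) (nat_lit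 162) (nat_lit 211) (nat_lit 197)) (PT.nd (nat_lit 78) (PT.lf (nat_lit 25232) (nat_lit 6) (nat_lit 332) (nat_lit 4) (nat_lit 163) (nat_lit 211) (nat_lit 196)) (PT.lf (nat_lit 26068) (nat_lit 6) (nat_lit 343) (nat_lit 4) (nat_lit 164) (nat_lit 211) (nat_lit 195)))) (PT.nd (nat_lit 156) (PT.nd (nat_lit 78) (PT.lf (nat_lit 26980) (nat_lit 6) (nat_lit 355) (nat_lit 4) (nat_lit 165) (nat_lit 211) (nat_lit 194)) (PT.lf (nat_lit 27816) (nat_lit 6) (nat_lit 366) (nat_lit 4) (nat_lit 166) (nat_lit 211) (nat_lit 193))) (PT.nd (nat_lit 78) (PT.lf (nat_lit 29260) (nat_lit 6) (nat_lit 385) (nat_lit 4) (nat_lit 167) (nat_lit 211) (nat_lit 192)) (PT.lf (nat_lit 30932) (nat_lit 6) (nat_lit 407) (nat_lit 4) (nat_lit 168) (nat_lit 211) (nat_lit 191))))) (PT.nd (nat_lit 312) (PT.nd (nat_lit 156) (PT.nd (nat_lit 78) (PT.lf (nat_lit 32528) (nat_lit 6) (nat_lit 428) (nat_lit 4) (nat_lit 169) (nat_lit 211) (nat_lit 190)) (PT.lf (nat_lit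 32452) (nat_lit 6) (nat_lit 427) (nat_lit 4) (nat_lit 170) (nat_lit 211) (nat_lit 189))) (PT.nd (nat_lit 78) (PT.lf (nat_lit 32376) (nat_lit 6) (nat_lit 426) (nat_lit 4) (nat_lit 171) (nat_lit 211) (nat_lit 188)) (PT.lf (nat_lit 32300) (nat_lit 6) (nat_lit 425) (nat_lit 4) (nat_lit 172) (nat_lit 211) (nat_lit 187)))) (PT.nd (nat_lit 156) (PT.nd (nat_lit 78) (PT.lf (nat_lit 32224) (nat_lit 6) (nat_lit 424) (nat_lit 4) (nat_lit 173) (nat_lit 211) (nat_lit 186)) (PT.lf (nat_lit 32148) (nat_lit 6) (nat_lit 423) (nat_lit 4) (nat_lit 174) (nat_lit 211) (nat_lit 185))) (PT.nd (nat_lit 78) (PT.lf (nat_lit 32072) (nat_lit 6) (nat_lit 422) (nat_lit 4) (nat_lit 175) (nat_lit 211) (nat_lit 184)) (PT.lf (nat_lit 31996) (nat_lit 6) (nat_lit 421) (nat_lit 4) (nat_lit 176) (nat_lit 211) (nat_lit 183))))))))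
noncomputable def pc49 : PT := (PT.nd (nat_lit 2262) (PT.nd (nat_lit 1092) (PT.nd (nat_lit 546) (PT.nd (nat_lit 234) (PT.nd (nat_lit 78) (PT.lf (nat_lit 31920) (nat_lit 6) (nat_lit 420) (nat_lit 4) (nat_lit 177) (nat_lit 211) (nat_lit 182)) (PT.nd (nat_lit 78) (PT.lf (nat_lit 31844) (nat_lit 6) (nat_lit 419) (nat_lit 4) (nat_lit 178) (nat_lit 211) (nat_lit 181)) (PT.lf (nat_lit 31768) (nat_lit 6) (nat_lit 418) (nat_lit 4) (nat_lit 179) (nat_lit 211) (nat_lit 180)))) (PT.nd (nat_lit 156) (PT.nd (nat_lit 78) (PT.lf (nat_lit 31768) (nat_lit 6) (nat_lit 418) (nat_lit 2) (nat_lit 180) (nat_lit 211) (nat_lit 179)) (PT.lf (nat_lit 31844) (nat_lit 6) (nat_lit 419) (nat_lit 2) (nat_lit 181) (nat_lit 211) (nat_lit 178))) (PT.nd (nat_lit 78) (PT.lf (nat_lit 31920) (nat_lit 6) (nat_lit 420) (nat_lit 2) (nat_lit 182) (nat_lit 211) (nat_lit 177)) (PT.lf (nat_lit 31996) (nat_lit 6) (nat_lit 421) (nat_lit 2) (nat_lit 183) (nat_lit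 211) (nat_lit 176))))) (PT.nd (nat_lit 234) (PT.nd (nat_lit 78) (PT.lf (nat_lit 32072) (nat_lit 6) (nat_lit 422) (nat_lit 2) (nat_lit 184) (nat_lit 211) (nat_lit 175)) (PT.nd (nat_lit 78) (PT.lf (nat_lit 32148) (nat_lit 6) (nat_lit 423) (nat_lit 2) (nat_lit 185) (nat_lit 211) (nat_lit 174)) (PT.lf (nat_lit 32224) (nat_lit 6) (nat_lit 424) (nat_lit 2) (nat_lit 186) (nat_lit 211) (nat_lit 173)))) (PT.nd (nat_lit 156) (PT.nd (nat_lit 78) (PT.lf (nat_lit 32300) (nat_lit 6) (nat_lit 425) (nat_lit 2) (nat_lit 187) (nat_lit 211) (nat_lit 172)) (PT.lf (nat_lit 32376) (nat_lit 6) (nat_lit 426) (nat_lit 2) (nat_lit 188) (nat_lit 211) (nat_lit 171))) (PT.nd (nat_lit 78) (PT.lf (nat_lit 32452) (nat_lit 6) (nat_lit 427) (nat_lit 2) (nat_lit 189) (nat_lit 211) (nat_lit 170)) (PT.lf (nat_lit 32528) (nat_lit 6) (nat_lit 428) (nat_lit 2) (nat_lit 190) (nat_lit 211) (nat_lit 169)))))) (PT.nd (nat_lit 546) (PT.nd (nat_lit 234) (PT.nd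 (nat_lit 78) (PT.lf (nat_lit 30932) (nat_lit 6) (nat_lit 407) (nat_lit 2) (nat_lit 191) (nat_lit 211) (nat_lit 168)) (PT.nd (nat_lit 78) (PT.lf (nat_lit 29260) (nat_lit 6) (nat_lit 385) (nat_lit 2) (nat_lit 192) (nat_lit 211) (nat_lit 167)) (PT.lf (nat_lit 27816) (nat_lit 6) (nat_lit 366) (nat_lit 2) (nat_lit 193) (nat_lit 211) (nat_lit 166)))) (PT.nd (nat_lit 156) (PT.nd (nat_lit 78) (PT.lf (nat_lit 26980) (nat_lit 6) (nat_lit 355) (nat_lit 2) (nat_lit 194) (nat_lit 211) (nat_lit 165)) (PT.lf (nat_lit 26068) (nat_lit 6) (nat_lit 343) (nat_lit 2) (nat_lit 195) (nat_lit 211) (nat_lit 164))) (PT.nd (nat_lit 78) (PT.lf (nat_lit 25232) (nat_lit 6) (nat_lit 332) (nat_lit 2) (nat_lit 196) (nat_lit 211) (nat_lit 163)) (PT.lf (nat_lit 24396) (nat_lit 6) (nat_lit 321) (nat_lit 2) (nat_lit 197) (nat_lit 211) (nat_lit 162))))) (PT.nd (nat_lit 312) (PT.nd (nat_lit 156) (PT.nd (nat_lit 78) (PT.lf (nat_lit 23636) (nat_lit 6)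 (nat_lit 311) (nat_lit 2) (nat_lit 198) (nat_lit 211) (nat_lit 161)) (PT.lf (nat_lit 22876) (nat_lit 6) (nat_lit 301) (nat_lit 2) (nat_lit 199) (nat_lit 211) (nat_lit 160))) (PT.nd (nat_lit 78) (PT.lf (nat_lit 22192) (nat_lit 6) (nat_lit 292) (nat_lit 2) (nat_lit 200) (nat_lit 211) (nat_lit 159)) (PT.lf (nat_lit 21432) (nat_lit 6) (nat_lit 282) (nat_lit 2) (nat_lit 201) (nat_lit 211) (nat_lit 158)))) (PT.nd (nat_lit 156) (PT.nd (nat_lit 78) (PT.lf (nat_lit 20748) (nat_lit 6) (nat_lit 273) (nat_lit 2) (nat_lit 202) (nat_lit 211) (nat_lit 157)) (PT.lf (nat_lit 20064) (nat_lit 6) (nat_lit 264) (nat_lit 2) (nat_lit 203) (nat_lit 211) (nat_lit 156))) (PT.nd (nat_lit 78) (PT.lf (nat_lit 19456) (nat_lit 6) (nat_lit 256) (nat_lit 2) (nat_lit 204) (nat_lit 211) (nat_lit 155)) (PT.lf (nat_lit 18772) (nat_lit 6) (nat_lit 247) (nat_lit 2) (nat_lit 205) (nat_lit 211) (nat_lit 154))))))) (PT.nd (nat_lit 1170) (PT.nd (nat_lit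 546) (PT.nd (nat_lit 234) (PT.nd (nat_lit 78) (PT.lf (nat_lit 18164) (nat_lit 6) (nat_lit 239) (nat_lit 2) (nat_lit 206) (nat_lit 211) (nat_lit 153)) (PT.nd (nat_lit 78) (PT.lf (nat_lit 17556) (nat_lit 6) (nat_lit 231) (nat_lit 2) (nat_lit 207) (nat_lit 211) (nat_lit 152)) (PT.lf (nat_lit 17024) (nat_lit 6) (nat_lit 224) (nat_lit 2) (nat_lit 208) (nat_lit 211) (nat_lit 151)))) (PT.nd (nat_lit 156) (PT.nd (nat_lit 78) (PT.lf (nat_lit 16416) (nat_lit 6) (nat_lit 216) (nat_lit 2) (nat_lit 209) (nat_lit 211) (nat_lit 150)) (PT.lf (nat_lit 15884) (nat_lit 6) (nat_lit 209) (nat_lit 2) (nat_lit 210) (nat_lit 211) (nat_lit 149))) (PT.nd (nat_lit 78) (PT.lf (nat_lit 15352) (nat_lit 3) (nat_lit 202) (nat_lit 0) (nat_lit 211) (nat_lit 211) (nat_lit 148)) (PT.lf (nat_lit 14820) (nat_lit 6) (nat_lit 195) (nat_lit 0) (nat_lit 212) (nat_lit 211) (nat_lit 147))))) (PT.nd (nat_lit 312) (PT.nd (nat_lit 156) (PT.nd (nat_lit 78) (PT.lf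 (nat_lit 14212) (nat_lit 6) (nat_lit 187) (nat_lit 0) (nat_lit 213) (nat_lit 211) (nat_lit 146)) (PT.lf (nat_lit 13680) (nat_lit 6) (nat_lit 180) (nat_lit 0) (nat_lit 214) (nat_lit 211) (nat_lit 145))) (PT.nd (nat_lit 78) (PT.lf (nat_lit 13148) (nat_lit 6) (nat_lit 173) (nat_lit 0) (nat_lit 215) (nat_lit 211) (nat_lit 144)) (PT.lf (nat_lit 12616) (nat_lit 6) (nat_lit 166) (nat_lit 0) (nat_lit 216) (nat_lit 211) (nat_lit 143)))) (PT.nd (nat_lit 156) (PT.nd (nat_lit 78) (PT.lf (nat_lit 12084) (nat_lit 6) (nat_lit 159) (nat_lit 0) (nat_lit 217) (nat_lit 211) (nat_lit 142)) (PT.lf (nat_lit 11628) (nat_lit 6) (nat_lit 153) (nat_lit 0) (nat_lit 218) (nat_lit 211) (nat_lit 141))) (PT.nd (nat_lit 78) (PT.lf (nat_lit 11096) (nat_lit 6) (nat_lit 146) (nat_lit 0) (nat_lit 219) (nat_lit 211) (nat_lit 140)) (PT.lf (nat_lit 10640) (nat_lit 6) (nat_lit 140) (nat_lit 0) (nat_lit 220) (nat_lit 211) (nat_lit 139)))))) (PT.nd (nat_lit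 53274) (PT.nd (nat_lit 52962) (PT.nd (nat_lit 52806) (PT.lf (nat_lit 10184) (nat_lit 6) (nat_lit 134) (nat_lit 0) (nat_lit 221) (nat_lit 211) (nat_lit 138)) (PT.nd (nat_lit 78) (PT.lf (nat_lit 9804) (nat_lit 6) (nat_lit 129) (nat_lit 5) (nat_lit 137) (nat_lit 212) (nat_lit 221)) (PT.lf (nat_lit 10260) (nat_lit 6) (nat_lit 135) (nat_lit 5) (nat_lit 138) (nat_lit 212) (nat_lit 220)))) (PT.nd (nat_lit 156) (PT.nd (nat_lit 78) (PT.lf (nat_lit 10716) (nat_lit 6) (nat_lit 141) (nat_lit 5) (nat_lit 139) (nat_lit 212) (nat_lit 219)) (PT.lf (nat_lit 11172) (nat_lit 6) (nat_lit 147) (nat_lit 5) (nat_lit 140) (nat_lit 212) (nat_lit 218))) (PT.nd (nat_lit 78) (PT.lf (nat_lit 11704) (nat_lit 6) (nat_lit 154) (nat_lit 5) (nat_lit 141) (nat_lit 212) (nat_lit 217)) (PT.lf (nat_lit 12160) (nat_lit 6) (nat_lit 160) (nat_lit 5) (nat_lit 142) (nat_lit 212) (nat_lit 216))))) (PT.nd (nat_lit 312) (PT.nd (nat_lit 156) (PT.nd (nat_lit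 78) (PT.lf (nat_lit 12692) (nat_lit 6) (nat_lit 167) (nat_lit 5) (nat_lit 143) (nat_lit 212) (nat_lit 215)) (PT.lf (nat_lit 13224) (nat_lit 6) (nat_lit 174) (nat_lit 5) (nat_lit 144) (nat_lit 212) (nat_lit 214))) (PT.nd (nat_lit 78) (PT.lf (nat_lit 13756) (nat_lit 6) (nat_lit 181) (nat_lit 5) (nat_lit 145) (nat_lit 212) (nat_lit 213)) (PT.lf (nat_lit 14288) (nat_lit 3) (nat_lit 188) (nat_lit 4) (nat_lit 146) (nat_lit 212) (nat_lit 212)))) (PT.nd (nat_lit 156) (PT.nd (nat_lit 78) (PT.lf (nat_lit 14820) (nat_lit 6) (nat_lit 195) (nat_lit 4) (nat_lit 147) (nat_lit 212) (nat_lit 211)) (PT.lf (nat_lit 15276) (nat_lit 6) (nat_lit 201) (nat_lit 4) (nat_lit 148) (nat_lit 212) (nat_lit 210))) (PT.nd (nat_lit 78) (PT.lf (nat_lit 15808) (nat_lit 6) (nat_lit 208) (nat_lit 4) (nat_lit 149) (nat_lit 212) (nat_lit 209)) (PT.lf (nat_lit 16340) (nat_lit 6) (nat_lit 215) (nat_lit 4) (nat_lit 150) (nat_lit 212) (nat_lit 208))))))))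
noncomputable def pc50 : PT := (PT.nd (nat_lit 2262) (PT.nd (nat_lit 1092) (PT.nd (nat_lit 546) (PT.nd (nat_lit 234) (PT.nd (nat_lit 78) (PT.lf (nat_lit 16948) (nat_lit 6) (nat_lit 223) (nat_lit 4) (nat_lit 151) (nat_lit 212) (nat_lit 207)) (PT.nd (nat_lit 78) (PT.lf (nat_lit 17480) (nat_lit 6) (nat_lit 230) (nat_lit 4) (nat_lit 152) (nat_lit 212) (nat_lit 206)) (PT.lf (nat_lit 18088) (nat_lit 6) (nat_lit 238) (nat_lit 4) (nat_lit 153) (nat_lit 212) (nat_lit 205)))) (PT.nd (nat_lit 156) (PT.nd (nat_lit 78) (PT.lf (nat_lit 18696) (nat_lit 6) (nat_lit 246) (nat_lit 4) (nat_lit 154) (nat_lit 212) (nat_lit 204)) (PT.lf (nat_lit 19380) (nat_lit 6) (nat_lit 255) (nat_lit 4) (nat_lit 155) (nat_lit 212) (nat_lit 203))) (PT.nd (nat_lit 78) (PT.lf (nat_lit 19988) (nat_lit 6) (nat_lit 263) (nat_lit 4) (nat_lit 156) (nat_lit 212) (nat_lit 202)) (PT.lf (nat_lit 20672) (nat_lit 6) (nat_lit 272) (nat_lit 4) (nat_lit 157) (nat_lit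 212) (nat_lit 201))))) (PT.nd (nat_lit 234) (PT.nd (nat_lit 78) (PT.lf (nat_lit 21356) (nat_lit 6) (nat_lit 281) (nat_lit 4) (nat_lit 158) (nat_lit 212) (nat_lit 200)) (PT.nd (nat_lit 78) (PT.lf (nat_lit 22116) (nat_lit 6) (nat_lit 291) (nat_lit 4) (nat_lit 159) (nat_lit 212) (nat_lit 199)) (PT.lf (nat_lit 22800) (nat_lit 6) (nat_lit 300) (nat_lit 4) (nat_lit 160) (nat_lit 212) (nat_lit 198)))) (PT.nd (nat_lit 156) (PT.nd (nat_lit 78) (PT.lf (nat_lit 23560) (nat_lit 6) (nat_lit 310) (nat_lit 4) (nat_lit 161) (nat_lit 212) (nat_lit 197)) (PT.lf (nat_lit 24320) (nat_lit 6) (nat_lit 320) (nat_lit 4) (nat_lit 162) (nat_lit 212) (nat_lit 196))) (PT.nd (nat_lit 78) (PT.lf (nat_lit 25156) (nat_lit 6) (nat_lit 331) (nat_lit 4) (nat_lit 163) (nat_lit 212) (nat_lit 195)) (PT.lf (nat_lit 25992) (nat_lit 6) (nat_lit 342) (nat_lit 4) (nat_lit 164) (nat_lit 212) (nat_lit 194)))))) (PT.nd (nat_lit 546) (PT.nd (nat_lit 234) (PT.nd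 (nat_lit 78) (PT.lf (nat_lit 26904) (nat_lit 6) (nat_lit 354) (nat_lit 4) (nat_lit 165) (nat_lit 212) (nat_lit 193)) (PT.nd (nat_lit 78) (PT.lf (nat_lit 27740) (nat_lit 6) (nat_lit 365) (nat_lit 4) (nat_lit 166) (nat_lit 212) (nat_lit 192)) (PT.lf (nat_lit 29184) (nat_lit 6) (nat_lit 384) (nat_lit 4) (nat_lit 167) (nat_lit 212) (nat_lit 191)))) (PT.nd (nat_lit 156) (PT.nd (nat_lit 78) (PT.lf (nat_lit 30856) (nat_lit 6) (nat_lit 406) (nat_lit 4) (nat_lit 168) (nat_lit 212) (nat_lit 190)) (PT.lf (nat_lit 30780) (nat_lit 6) (nat_lit 405) (nat_lit 4) (nat_lit 169) (nat_lit 212) (nat_lit 189))) (PT.nd (nat_lit 78) (PT.lf (nat_lit 30704) (nat_lit 6) (nat_lit 404) (nat_lit 4) (nat_lit 170) (nat_lit 212) (nat_lit 188)) (PT.lf (nat_lit 30628) (nat_lit 6) (nat_lit 403) (nat_lit 4) (nat_lit 171) (nat_lit 212) (nat_lit 187))))) (PT.nd (nat_lit 312) (PT.nd (nat_lit 156) (PT.nd (nat_lit 78) (PT.lf (nat_lit 30552) (nat_lit 6)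 (nat_lit 402) (nat_lit 4) (nat_lit 172) (nat_lit 212) (nat_lit 186)) (PT.lf (nat_lit 30476) (nat_lit 6) (nat_lit 401) (nat_lit 4) (nat_lit 173) (nat_lit 212) (nat_lit 185))) (PT.nd (nat_lit 78) (PT.lf (nat_lit 30400) (nat_lit 6) (nat_lit 400) (nat_lit 4) (nat_lit 174) (nat_lit 212) (nat_lit 184)) (PT.lf (nat_lit 30324) (nat_lit 6) (nat_lit 399) (nat_lit 4) (nat_lit 175) (nat_lit 212) (nat_lit 183)))) (PT.nd (nat_lit 156) (PT.nd (nat_lit 78) (PT.lf (nat_lit 30248) (nat_lit 6) (nat_lit 398) (nat_lit 4) (nat_lit 176) (nat_lit 212) (nat_lit 182)) (PT.lf (nat_lit 30172) (nat_lit 6) (nat_lit 397) (nat_lit 4) (nat_lit 177) (nat_lit 212) (nat_lit 181))) (PT.nd (nat_lit 78) (PT.lf (nat_lit 30096) (nat_lit 6) (nat_lit 396) (nat_lit 4) (nat_lit 178) (nat_lit 212) (nat_lit 180)) (PT.lf (nat_lit 30020) (nat_lit 3) (nat_lit 395) (nat_lit 2) (nat_lit 179) (nat_lit 212) (nat_lit 179))))))) (PT.nd (nat_lit 1092) (PT.nd (nat_lit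 546) (PT.nd (nat_lit 234) (PT.nd (nat_lit 78) (PT.lf (nat_lit 30096) (nat_lit 6) (nat_lit 396) (nat_lit 2) (nat_lit 180) (nat_lit 212) (nat_lit 178)) (PT.nd (nat_lit 78) (PT.lf (nat_lit 30172) (nat_lit 6) (nat_lit 397) (nat_lit 2) (nat_lit 181) (nat_lit 212) (nat_lit 177)) (PT.lf (nat_lit 30248) (nat_lit 6) (nat_lit 398) (nat_lit 2) (nat_lit 182) (nat_lit 212) (nat_lit 176)))) (PT.nd (nat_lit 156) (PT.nd (nat_lit 78) (PT.lf (nat_lit 30324) (nat_lit 6) (nat_lit 399) (nat_lit 2) (nat_lit 183) (nat_lit 212) (nat_lit 175)) (PT.lf (nat_lit 30400) (nat_lit 6) (nat_lit 400) (nat_lit 2) (nat_lit 184) (nat_lit 212) (nat_lit 174))) (PT.nd (nat_lit 78) (PT.lf (nat_lit 30476) (nat_lit 6) (nat_lit 401) (nat_lit 2) (nat_lit 185) (nat_lit 212) (nat_lit 173)) (PT.lf (nat_lit 30552) (nat_lit 6) (nat_lit 402) (nat_lit 2) (nat_lit 186) (nat_lit 212) (nat_lit 172))))) (PT.nd (nat_lit 234) (PT.nd (nat_lit 78) (PT.lf (nat_lit 30628)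 (nat_lit 6) (nat_lit 403) (nat_lit 2) (nat_lit 187) (nat_lit 212) (nat_lit 171)) (PT.nd (nat_lit 78) (PT.lf (nat_lit 30704) (nat_lit 6) (nat_lit 404) (nat_lit 2) (nat_lit 188) (nat_lit 212) (nat_lit 170)) (PT.lf (nat_lit 30780) (nat_lit 6) (nat_lit 405) (nat_lit 2) (nat_lit 189) (nat_lit 212) (nat_lit 169)))) (PT.nd (nat_lit 156) (PT.nd (nat_lit 78) (PT.lf (nat_lit 30856) (nat_lit 6) (nat_lit 406) (nat_lit 2) (nat_lit 190) (nat_lit 212) (nat_lit 168)) (PT.lf (nat_lit 29184) (nat_lit 6) (nat_lit 384) (nat_lit 2) (nat_lit 191) (nat_lit 212) (nat_lit 167))) (PT.nd (nat_lit 78) (PT.lf (nat_lit 27740) (nat_lit 6) (nat_lit 365) (nat_lit 2) (nat_lit 192) (nat_lit 212) (nat_lit 166)) (PT.lf (nat_lit 26904) (nat_lit 6) (nat_lit 354) (nat_lit 2) (nat_lit 193) (nat_lit 212) (nat_lit 165)))))) (PT.nd (nat_lit 546) (PT.nd (nat_lit 234) (PT.nd (nat_lit 78) (PT.lf (nat_lit 25992) (nat_lit 6) (nat_lit 342) (nat_lit 2) (nat_lit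 194) (nat_lit 212) (nat_lit 164)) (PT.nd (nat_lit 78) (PT.lf (nat_lit 25156) (nat_lit 6) (nat_lit 331) (nat_lit 2) (nat_lit 195) (nat_lit 212) (nat_lit 163)) (PT.lf (nat_lit 24320) (nat_lit 6) (nat_lit 320) (nat_lit 2) (nat_lit 196) (nat_lit 212) (nat_lit 162)))) (PT.nd (nat_lit 156) (PT.nd (nat_lit 78) (PT.lf (nat_lit 23560) (nat_lit 6) (nat_lit 310) (nat_lit 2) (nat_lit 197) (nat_lit 212) (nat_lit 161)) (PT.lf (nat_lit 22800) (nat_lit 6) (nat_lit 300) (nat_lit 2) (nat_lit 198) (nat_lit 212) (nat_lit 160))) (PT.nd (nat_lit 78) (PT.lf (nat_lit 22116) (nat_lit 6) (nat_lit 291) (nat_lit 2) (nat_lit 199) (nat_lit 212) (nat_lit 159)) (PT.lf (nat_lit 21356) (nat_lit 6) (nat_lit 281) (nat_lit 2) (nat_lit 200) (nat_lit 212) (nat_lit 158))))) (PT.nd (nat_lit 312) (PT.nd (nat_lit 156) (PT.nd (nat_lit 78) (PT.lf (nat_lit 20672) (nat_lit 6) (nat_lit 272) (nat_lit 2) (nat_lit 201) (nat_lit 212) (nat_lit 157)) (PT.lf (nat_lit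 19988) (nat_lit 6) (nat_lit 263) (nat_lit 2) (nat_lit 202) (nat_lit 212) (nat_lit 156))) (PT.nd (nat_lit 78) (PT.lf (nat_lit 19380) (nat_lit 6) (nat_lit 255) (nat_lit 2) (nat_lit 203) (nat_lit 212) (nat_lit 155)) (PT.lf (nat_lit 18696) (nat_lit 6) (nat_lit 246) (nat_lit 2) (nat_lit 204) (nat_lit 212) (nat_lit 154)))) (PT.nd (nat_lit 156) (PT.nd (nat_lit 78) (PT.lf (nat_lit 18088) (nat_lit 6) (nat_lit 238) (nat_lit 2) (nat_lit 205) (nat_lit 212) (nat_lit 153)) (PT.lf (nat_lit 17480) (nat_lit 6) (nat_lit 230) (nat_lit 2) (nat_lit 206) (nat_lit 212) (nat_lit 152))) (PT.nd (nat_lit 78) (PT.lf (nat_lit 16948) (nat_lit 6) (nat_lit 223) (nat_lit 2) (nat_lit 207) (nat_lit 212) (nat_lit 151)) (PT.lf (nat_lit 16340) (nat_lit 6) (nat_lit 215) (nat_lit 2) (nat_lit 208) (nat_lit 212) (nat_lit 150))))))))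
noncomputable def pc51 : PT := (PT.nd (nat_lit 54834) (PT.nd (nat_lit 53664) (PT.nd (nat_lit 546) (PT.nd (nat_lit 234) (PT.nd (nat_lit 78) (PT.lf (nat_lit 15808) (nat_lit 6) (nat_lit 208) (nat_lit 2) (nat_lit 209) (nat_lit 212) (nat_lit 149)) (PT.nd (nat_lit 78) (PT.lf (nat_lit 15276) (nat_lit 6) (nat_lit 201) (nat_lit 2) (nat_lit 210) (nat_lit 212) (nat_lit 148)) (PT.lf (nat_lit 14820) (nat_lit 6) (nat_lit 195) (nat_lit 2) (nat_lit 211) (nat_lit 212) (nat_lit 147)))) (PT.nd (nat_lit 156) (PT.nd (nat_lit 78) (PT.lf (nat_lit 14288) (nat_lit 3) (nat_lit 188) (nat_lit 0) (nat_lit 212) (nat_lit 212) (nat_lit 146)) (PT.lf (nat_lit 13756) (nat_lit 6) (nat_lit 181) (nat_lit 0) (nat_lit 213) (nat_lit 212) (nat_lit 145))) (PT.nd (nat_lit 78) (PT.lf (nat_lit 13224) (nat_lit 6) (nat_lit 174) (nat_lit 0) (nat_lit 214) (nat_lit 212) (nat_lit 144)) (PT.lf (nat_lit 12692) (nat_lit 6) (nat_lit 167) (nat_lit 0) (nat_lit 215) (nat_lit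 212) (nat_lit 143))))) (PT.nd (nat_lit 234) (PT.nd (nat_lit 78) (PT.lf (nat_lit 12160) (nat_lit 6) (nat_lit 160) (nat_lit 0) (nat_lit 216) (nat_lit 212) (nat_lit 142)) (PT.nd (nat_lit 78) (PT.lf (nat_lit 11704) (nat_lit 6) (nat_lit 154) (nat_lit 0) (nat_lit 217) (nat_lit 212) (nat_lit 141)) (PT.lf (nat_lit 11172) (nat_lit 6) (nat_lit 147) (nat_lit 0) (nat_lit 218) (nat_lit 212) (nat_lit 140)))) (PT.nd (nat_lit 156) (PT.nd (nat_lit 78) (PT.lf (nat_lit 10716) (nat_lit 6) (nat_lit 141) (nat_lit 0) (nat_lit 219) (nat_lit 212) (nat_lit 139)) (PT.lf (nat_lit 10260) (nat_lit 6) (nat_lit 135) (nat_lit 0) (nat_lit 220) (nat_lit 212) (nat_lit 138))) (PT.nd (nat_lit 52650) (PT.lf (nat_lit 9804) (nat_lit 6) (nat_lit 129) (nat_lit 0) (nat_lit 221) (nat_lit 212) (nat_lit 137)) (PT.lf (nat_lit 9044) (nat_lit 6) (nat_lit 119) (nat_lit 5) (nat_lit 135) (nat_lit 213) (nat_lit 222)))))) (PT.nd (nat_lit 546) (PT.nd (nat_lit 234) (PT.nd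 (nat_lit 78) (PT.lf (nat_lit 9424) (nat_lit 6) (nat_lit 124) (nat_lit 5) (nat_lit 136) (nat_lit 213) (nat_lit 221)) (PT.nd (nat_lit 78) (PT.lf (nat_lit 9880) (nat_lit 6) (nat_lit 130) (nat_lit 5) (nat_lit 137) (nat_lit 213) (nat_lit 220)) (PT.lf (nat_lit 10336) (nat_lit 6) (nat_lit 136) (nat_lit 5) (nat_lit 138) (nat_lit 213) (nat_lit 219)))) (PT.nd (nat_lit 156) (PT.nd (nat_lit 78) (PT.lf (nat_lit 10792) (nat_lit 6) (nat_lit 142) (nat_lit 5) (nat_lit 139) (nat_lit 213) (nat_lit 218)) (PT.lf (nat_lit 11248) (nat_lit 6) (nat_lit 148) (nat_lit 5) (nat_lit 140) (nat_lit 213) (nat_lit 217))) (PT.nd (nat_lit 78) (PT.lf (nat_lit 11780) (nat_lit 6) (nat_lit 155) (nat_lit 5) (nat_lit 141) (nat_lit 213) (nat_lit 216)) (PT.lf (nat_lit 12236) (nat_lit 6) (nat_lit 161) (nat_lit 5) (nat_lit 142) (nat_lit 213) (nat_lit 215))))) (PT.nd (nat_lit 312) (PT.nd (nat_lit 156) (PT.nd (nat_lit 78) (PT.lf (nat_lit 12768) (nat_lit 6) (nat_lit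 168) (nat_lit 5) (nat_lit 143) (nat_lit 213) (nat_lit 214)) (PT.lf (nat_lit 13300) (nat_lit 3) (nat_lit 175) (nat_lit 4) (nat_lit 144) (nat_lit 213) (nat_lit 213))) (PT.nd (nat_lit 78) (PT.lf (nat_lit 13756) (nat_lit 6) (nat_lit 181) (nat_lit 4) (nat_lit 145) (nat_lit 213) (nat_lit 212)) (PT.lf (nat_lit 14212) (nat_lit 6) (nat_lit 187) (nat_lit 4) (nat_lit 146) (nat_lit 213) (nat_lit 211)))) (PT.nd (nat_lit 156) (PT.nd (nat_lit 78) (PT.lf (nat_lit 14744) (nat_lit 6) (nat_lit 194) (nat_lit 4) (nat_lit 147) (nat_lit 213) (nat_lit 210)) (PT.lf (nat_lit 15200) (nat_lit 6) (nat_lit 200) (nat_lit 4) (nat_lit 148) (nat_lit 213) (nat_lit 209))) (PT.nd (nat_lit 78) (PT.lf (nat_lit 15732) (nat_lit 6) (nat_lit 207) (nat_lit 4) (nat_lit 149) (nat_lit 213) (nat_lit 208)) (PT.lf (nat_lit 16264) (nat_lit 6) (nat_lit 214) (nat_lit 4) (nat_lit 150) (nat_lit 213) (nat_lit 207))))))) (PT.nd (nat_lit 1170) (PT.nd (nat_lit 546) (PT.nd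 (nat_lit 234) (PT.nd (nat_lit 78) (PT.lf (nat_lit 16872) (nat_lit 6) (nat_lit 222) (nat_lit 4) (nat_lit 151) (nat_lit 213) (nat_lit 206)) (PT.nd (nat_lit 78) (PT.lf (nat_lit 17404) (nat_lit 6) (nat_lit 229) (nat_lit 4) (nat_lit 152) (nat_lit 213) (nat_lit 205)) (PT.lf (nat_lit 18012) (nat_lit 6) (nat_lit 237) (nat_lit 4) (nat_lit 153) (nat_lit 213) (nat_lit 204)))) (PT.nd (nat_lit 156) (PT.nd (nat_lit 78) (PT.lf (nat_lit 18620) (nat_lit 6) (nat_lit 245) (nat_lit 4) (nat_lit 154) (nat_lit 213) (nat_lit 203)) (PT.lf (nat_lit 19304) (nat_lit 6) (nat_lit 254) (nat_lit 4) (nat_lit 155) (nat_lit 213) (nat_lit 202))) (PT.nd (nat_lit 78) (PT.lf (nat_lit 19912) (nat_lit 6) (nat_lit 262) (nat_lit 4) (nat_lit 156) (nat_lit 213) (nat_lit 201)) (PT.lf (nat_lit 20596) (nat_lit 6) (nat_lit 271) (nat_lit 4) (nat_lit 157) (nat_lit 213) (nat_lit 200))))) (PT.nd (nat_lit 312) (PT.nd (nat_lit 156) (PT.nd (nat_lit 78) (PT.lf (nat_lit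 21280) (nat_lit 6) (nat_lit 280) (nat_lit 4) (nat_lit 158) (nat_lit 213) (nat_lit 199)) (PT.lf (nat_lit 22040) (nat_lit 6) (nat_lit 290) (nat_lit 4) (nat_lit 159) (nat_lit 213) (nat_lit 198))) (PT.nd (nat_lit 78) (PT.lf (nat_lit 22724) (nat_lit 6) (nat_lit 299) (nat_lit 4) (nat_lit 160) (nat_lit 213) (nat_lit 197)) (PT.lf (nat_lit 23484) (nat_lit 6) (nat_lit 309) (nat_lit 4) (nat_lit 161) (nat_lit 213) (nat_lit 196)))) (PT.nd (nat_lit 156) (PT.nd (nat_lit 78) (PT.lf (nat_lit 24244) (nat_lit 6) (nat_lit 319) (nat_lit 4) (nat_lit 162) (nat_lit 213) (nat_lit 195)) (PT.lf (nat_lit 25080) (nat_lit 6) (nat_lit 330) (nat_lit 4) (nat_lit 163) (nat_lit 213) (nat_lit 194))) (PT.nd (nat_lit 78) (PT.lf (nat_lit 25916) (nat_lit 6) (nat_lit 341) (nat_lit 4) (nat_lit 164) (nat_lit 213) (nat_lit 193)) (PT.lf (nat_lit 26828) (nat_lit 6) (nat_lit 353) (nat_lit 4) (nat_lit 165) (nat_lit 213) (nat_lit 192)))))) (PT.nd (nat_lit 546)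 (PT.nd (nat_lit 234) (PT.nd (nat_lit 78) (PT.lf (nat_lit 27664) (nat_lit 6) (nat_lit 364) (nat_lit 4) (nat_lit 166) (nat_lit 213) (nat_lit 191)) (PT.nd (nat_lit 78) (PT.lf (nat_lit 29108) (nat_lit 6) (nat_lit 383) (nat_lit 4) (nat_lit 167) (nat_lit 213) (nat_lit 190)) (PT.lf (nat_lit 29032) (nat_lit 6) (nat_lit 382) (nat_lit 4) (nat_lit 168) (nat_lit 213) (nat_lit 189)))) (PT.nd (nat_lit 156) (PT.nd (nat_lit 78) (PT.lf (nat_lit 28956) (nat_lit 6) (nat_lit 381) (nat_lit 4) (nat_lit 169) (nat_lit 213) (nat_lit 188)) (PT.lf (nat_lit 28880) (nat_lit 6) (nat_lit 380) (nat_lit 4) (nat_lit 170) (nat_lit 213) (nat_lit 187))) (PT.nd (nat_lit 78) (PT.lf (nat_lit 28804) (nat_lit 6) (nat_lit 379) (nat_lit 4) (nat_lit 171) (nat_lit 213) (nat_lit 186)) (PT.lf (nat_lit 28728) (nat_lit 6) (nat_lit 378) (nat_lit 4) (nat_lit 172) (nat_lit 213) (nat_lit 185))))) (PT.nd (nat_lit 936) (PT.nd (nat_lit 780) (PT.nd (nat_lit 78) (PT.lf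 (nat_lit 28652) (nat_lit 6) (nat_lit 377) (nat_lit 4) (nat_lit 173) (nat_lit 213) (nat_lit 184)) (PT.lf (nat_lit 28576) (nat_lit 6) (nat_lit 376) (nat_lit 4) (nat_lit 174) (nat_lit 213) (nat_lit 183))) (PT.nd (nat_lit 78) (PT.lf (nat_lit 28576) (nat_lit 6) (nat_lit 376) (nat_lit 2) (nat_lit 183) (nat_lit 213) (nat_lit 174)) (PT.lf (nat_lit 28652) (nat_lit 6) (nat_lit 377) (nat_lit 2) (nat_lit 184) (nat_lit 213) (nat_lit 173)))) (PT.nd (nat_lit 156) (PT.nd (nat_lit 78) (PT.lf (nat_lit 28728) (nat_lit 6) (nat_lit 378) (nat_lit 2) (nat_lit 185) (nat_lit 213) (nat_lit 172)) (PT.lf (nat_lit 28804) (nat_lit 6) (nat_lit 379) (nat_lit 2) (nat_lit 186) (nat_lit 213) (nat_lit 171))) (PT.nd (nat_lit 78) (PT.lf (nat_lit 28880) (nat_lit 6) (nat_lit 380) (nat_lit 2) (nat_lit 187) (nat_lit 213) (nat_lit 170)) (PT.lf (nat_lit 28956) (nat_lit 6) (nat_lit 381) (nat_lit 2) (nat_lit 188) (nat_lit 213) (nat_lit 169))))))))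
noncomputable def pc52 : PT := (PT.nd (nat_lit 2262) (PT.nd (nat_lit 1092) (PT.nd (nat_lit 546) (PT.nd (nat_lit 234) (PT.nd (nat_lit 78) (PT.lf (nat_lit 29032) (nat_lit 6) (nat_lit 382) (nat_lit 2) (nat_lit 189) (nat_lit 213) (nat_lit 168)) (PT.nd (nat_lit 78) (PT.lf (nat_lit 29108) (nat_lit 6) (nat_lit 383) (nat_lit 2) (nat_lit 190) (nat_lit 213) (nat_lit 167)) (PT.lf (nat_lit 27664) (nat_lit 6) (nat_lit 364) (nat_lit 2) (nat_lit 191) (nat_lit 213) (nat_lit 166)))) (PT.nd (nat_lit 156) (PT.nd (nat_lit 78) (PT.lf (nat_lit 26828) (nat_lit 6) (nat_lit 353) (nat_lit 2) (nat_lit 192) (nat_lit 213) (nat_lit 165)) (PT.lf (nat_lit 25916) (nat_lit 6) (nat_lit 341) (nat_lit 2) (nat_lit 193) (nat_lit 213) (nat_lit 164))) (PT.nd (nat_lit 78) (PT.lf (nat_lit 25080) (nat_lit 6) (nat_lit 330) (nat_lit 2) (nat_lit 194) (nat_lit 213) (nat_lit 163)) (PT.lf (nat_lit 24244) (nat_lit 6) (nat_lit 319) (nat_lit 2) (nat_lit 195) (nat_lit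 213) (nat_lit 162))))) (PT.nd (nat_lit 234) (PT.nd (nat_lit 78) (PT.lf (nat_lit 23484) (nat_lit 6) (nat_lit 309) (nat_lit 2) (nat_lit 196) (nat_lit 213) (nat_lit 161)) (PT.nd (nat_lit 78) (PT.lf (nat_lit 22724) (nat_lit 6) (nat_lit 299) (nat_lit 2) (nat_lit 197) (nat_lit 213) (nat_lit 160)) (PT.lf (nat_lit 22040) (nat_lit 6) (nat_lit 290) (nat_lit 2) (nat_lit 198) (nat_lit 213) (nat_lit 159)))) (PT.nd (nat_lit 156) (PT.nd (nat_lit 78) (PT.lf (nat_lit 21280) (nat_lit 6) (nat_lit 280) (nat_lit 2) (nat_lit 199) (nat_lit 213) (nat_lit 158)) (PT.lf (nat_lit 20596) (nat_lit 6) (nat_lit 271) (nat_lit 2) (nat_lit 200) (nat_lit 213) (nat_lit 157))) (PT.nd (nat_lit 78) (PT.lf (nat_lit 19912) (nat_lit 6) (nat_lit 262) (nat_lit 2) (nat_lit 201) (nat_lit 213) (nat_lit 156)) (PT.lf (nat_lit 19304) (nat_lit 6) (nat_lit 254) (nat_lit 2) (nat_lit 202) (nat_lit 213) (nat_lit 155)))))) (PT.nd (nat_lit 546) (PT.nd (nat_lit 234) (PT.nd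 (nat_lit 78) (PT.lf (nat_lit 18620) (nat_lit 6) (nat_lit 245) (nat_lit 2) (nat_lit 203) (nat_lit 213) (nat_lit 154)) (PT.nd (nat_lit 78) (PT.lf (nat_lit 18012) (nat_lit 6) (nat_lit 237) (nat_lit 2) (nat_lit 204) (nat_lit 213) (nat_lit 153)) (PT.lf (nat_lit 17404) (nat_lit 6) (nat_lit 229) (nat_lit 2) (nat_lit 205) (nat_lit 213) (nat_lit 152)))) (PT.nd (nat_lit 156) (PT.nd (nat_lit 78) (PT.lf (nat_lit 16872) (nat_lit 6) (nat_lit 222) (nat_lit 2) (nat_lit 206) (nat_lit 213) (nat_lit 151)) (PT.lf (nat_lit 16264) (nat_lit 6) (nat_lit 214) (nat_lit 2) (nat_lit 207) (nat_lit 213) (nat_lit 150))) (PT.nd (nat_lit 78) (PT.lf (nat_lit 15732) (nat_lit 6) (nat_lit 207) (nat_lit 2) (nat_lit 208) (nat_lit 213) (nat_lit 149)) (PT.lf (nat_lit 15200) (nat_lit 6) (nat_lit 200) (nat_lit 2) (nat_lit 209) (nat_lit 213) (nat_lit 148))))) (PT.nd (nat_lit 312) (PT.nd (nat_lit 156) (PT.nd (nat_lit 78) (PT.lf (nat_lit 14744) (nat_lit 6)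 (nat_lit 194) (nat_lit 2) (nat_lit 210) (nat_lit 213) (nat_lit 147)) (PT.lf (nat_lit 14212) (nat_lit 6) (nat_lit 187) (nat_lit 2) (nat_lit 211) (nat_lit 213) (nat_lit 146))) (PT.nd (nat_lit 78) (PT.lf (nat_lit 13756) (nat_lit 6) (nat_lit 181) (nat_lit 2) (nat_lit 212) (nat_lit 213) (nat_lit 145)) (PT.lf (nat_lit 13300) (nat_lit 3) (nat_lit 175) (nat_lit 0) (nat_lit 213) (nat_lit 213) (nat_lit 144)))) (PT.nd (nat_lit 156) (PT.nd (nat_lit 78) (PT.lf (nat_lit 12768) (nat_lit 6) (nat_lit 168) (nat_lit 0) (nat_lit 214) (nat_lit 213) (nat_lit 143)) (PT.lf (nat_lit 12236) (nat_lit 6) (nat_lit 161) (nat_lit 0) (nat_lit 215) (nat_lit 213) (nat_lit 142))) (PT.nd (nat_lit 78) (PT.lf (nat_lit 11780) (nat_lit 6) (nat_lit 155) (nat_lit 0) (nat_lit 216) (nat_lit 213) (nat_lit 141)) (PT.lf (nat_lit 11248) (nat_lit 6) (nat_lit 148) (nat_lit 0) (nat_lit 217) (nat_lit 213) (nat_lit 140))))))) (PT.nd (nat_lit 53508) (PT.nd (nat_lit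 52962) (PT.nd (nat_lit 234) (PT.nd (nat_lit 78) (PT.lf (nat_lit 10792) (nat_lit 6) (nat_lit 142) (nat_lit 0) (nat_lit 218) (nat_lit 213) (nat_lit 139)) (PT.nd (nat_lit 78) (PT.lf (nat_lit 10336) (nat_lit 6) (nat_lit 136) (nat_lit 0) (nat_lit 219) (nat_lit 213) (nat_lit 138)) (PT.lf (nat_lit 9880) (nat_lit 6) (nat_lit 130) (nat_lit 0) (nat_lit 220) (nat_lit 213) (nat_lit 137)))) (PT.nd (nat_lit 52572) (PT.nd (nat_lit 78) (PT.lf (nat_lit 9424) (nat_lit 6) (nat_lit 124) (nat_lit 0) (nat_lit 221) (nat_lit 213) (nat_lit 136)) (PT.lf (nat_lit 9044) (nat_lit 6) (nat_lit 119) (nat_lit 0) (nat_lit 222) (nat_lit 213) (nat_lit 135))) (PT.nd (nat_lit 78) (PT.lf (nat_lit 8664) (nat_lit 6) (nat_lit 114) (nat_lit 5) (nat_lit 134) (nat_lit 214) (nat_lit 222)) (PT.lf (nat_lit 9120) (nat_lit 6) (nat_lit 120) (nat_lit 5) (nat_lit 135) (nat_lit 214) (nat_lit 221))))) (PT.nd (nat_lit 234) (PT.nd (nat_lit 78) (PT.lf (nat_lit 9500) (nat_lit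 6) (nat_lit 125) (nat_lit 5) (nat_lit 136) (nat_lit 214) (nat_lit 220)) (PT.nd (nat_lit 78) (PT.lf (nat_lit 9956) (nat_lit 6) (nat_lit 131) (nat_lit 5) (nat_lit 137) (nat_lit 214) (nat_lit 219)) (PT.lf (nat_lit 10412) (nat_lit 6) (nat_lit 137) (nat_lit 5) (nat_lit 138) (nat_lit 214) (nat_lit 218)))) (PT.nd (nat_lit 156) (PT.nd (nat_lit 78) (PT.lf (nat_lit 10868) (nat_lit 6) (nat_lit 143) (nat_lit 5) (nat_lit 139) (nat_lit 214) (nat_lit 217)) (PT.lf (nat_lit 11324) (nat_lit 6) (nat_lit 149) (nat_lit 5) (nat_lit 140) (nat_lit 214) (nat_lit 216))) (PT.nd (nat_lit 78) (PT.lf (nat_lit 11856) (nat_lit 6) (nat_lit 156) (nat_lit 5) (nat_lit 141) (nat_lit 214) (nat_lit 215)) (PT.lf (nat_lit 12312) (nat_lit 3) (nat_lit 162) (nat_lit 4) (nat_lit 142) (nat_lit 214) (nat_lit 214)))))) (PT.nd (nat_lit 546) (PT.nd (nat_lit 234) (PT.nd (nat_lit 78) (PT.lf (nat_lit 12768) (nat_lit 6) (nat_lit 168) (nat_lit 4) (nat_lit 143) (nat_lit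 214) (nat_lit 213)) (PT.nd (nat_lit 78) (PT.lf (nat_lit 13224) (nat_lit 6) (nat_lit 174) (nat_lit 4) (nat_lit 144) (nat_lit 214) (nat_lit 212)) (PT.lf (nat_lit 13680) (nat_lit 6) (nat_lit 180) (nat_lit 4) (nat_lit 145) (nat_lit 214) (nat_lit 211)))) (PT.nd (nat_lit 156) (PT.nd (nat_lit 78) (PT.lf (nat_lit 14136) (nat_lit 6) (nat_lit 186) (nat_lit 4) (nat_lit 146) (nat_lit 214) (nat_lit 210)) (PT.lf (nat_lit 14668) (nat_lit 6) (nat_lit 193) (nat_lit 4) (nat_lit 147) (nat_lit 214) (nat_lit 209))) (PT.nd (nat_lit 78) (PT.lf (nat_lit 15124) (nat_lit 6) (nat_lit 199) (nat_lit 4) (nat_lit 148) (nat_lit 214) (nat_lit 208)) (PT.lf (nat_lit 15656) (nat_lit 6) (nat_lit 206) (nat_lit 4) (nat_lit 149) (nat_lit 214) (nat_lit 207))))) (PT.nd (nat_lit 312) (PT.nd (nat_lit 156) (PT.nd (nat_lit 78) (PT.lf (nat_lit 16188) (nat_lit 6) (nat_lit 213) (nat_lit 4) (nat_lit 150) (nat_lit 214) (nat_lit 206)) (PT.lf (nat_lit 16796) (nat_lit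 6) (nat_lit 221) (nat_lit 4) (nat_lit 151) (nat_lit 214) (nat_lit 205))) (PT.nd (nat_lit 78) (PT.lf (nat_lit 17328) (nat_lit 6) (nat_lit 228) (nat_lit 4) (nat_lit 152) (nat_lit 214) (nat_lit 204)) (PT.lf (nat_lit 17936) (nat_lit 6) (nat_lit 236) (nat_lit 4) (nat_lit 153) (nat_lit 214) (nat_lit 203)))) (PT.nd (nat_lit 156) (PT.nd (nat_lit 78) (PT.lf (nat_lit 18544) (nat_lit 6) (nat_lit 244) (nat_lit 4) (nat_lit 154) (nat_lit 214) (nat_lit 202)) (PT.lf (nat_lit 19228) (nat_lit 6) (nat_lit 253) (nat_lit 4) (nat_lit 155) (nat_lit 214) (nat_lit 201))) (PT.nd (nat_lit 78) (PT.lf (nat_lit 19836) (nat_lit 6) (nat_lit 261) (nat_lit 4) (nat_lit 156) (nat_lit 214) (nat_lit 200)) (PT.lf (nat_lit 20520) (nat_lit 6) (nat_lit 270) (nat_lit 4) (nat_lit 157) (nat_lit 214) (nat_lit 199))))))))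
noncomputable def pc53 : PT := (PT.nd (nat_lit 4212) (PT.nd (nat_lit 3042) (PT.nd (nat_lit 546) (PT.nd (nat_lit 234) (PT.nd (nat_lit 78) (PT.lf (nat_lit 21204) (nat_lit 6) (nat_lit 279) (nat_lit 4) (nat_lit 158) (nat_lit 214) (nat_lit 198)) (PT.nd (nat_lit 78) (PT.lf (nat_lit 21964) (nat_lit 6) (nat_lit 289) (nat_lit 4) (nat_lit 159) (nat_lit 214) (nat_lit 197)) (PT.lf (nat_lit 22648) (nat_lit 6) (nat_lit 298) (nat_lit 4) (nat_lit 160) (nat_lit 214) (nat_lit 196)))) (PT.nd (nat_lit 156) (PT.nd (nat_lit 78) (PT.lf (nat_lit 23408) (nat_lit 6) (nat_lit 308) (nat_lit 4) (nat_lit 161) (nat_lit 214) (nat_lit 195)) (PT.lf (nat_lit 24168) (nat_lit 6) (nat_lit 318) (nat_lit 4) (nat_lit 162) (nat_lit 214) (nat_lit 194))) (PT.nd (nat_lit 78) (PT.lf (nat_lit 25004) (nat_lit 6) (nat_lit 329) (nat_lit 4) (nat_lit 163) (nat_lit 214) (nat_lit 193)) (PT.lf (nat_lit 25840) (nat_lit 6) (nat_lit 340) (nat_lit 4) (nat_lit 164) (nat_lit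 214) (nat_lit 192))))) (PT.nd (nat_lit 2184) (PT.nd (nat_lit 2028) (PT.lf (nat_lit 26752) (nat_lit 6) (nat_lit 352) (nat_lit 4) (nat_lit 165) (nat_lit 214) (nat_lit 191)) (PT.nd (nat_lit 78) (PT.lf (nat_lit 26752) (nat_lit 6) (nat_lit 352) (nat_lit 2) (nat_lit 191) (nat_lit 214) (nat_lit 165)) (PT.lf (nat_lit 25840) (nat_lit 6) (nat_lit 340) (nat_lit 2) (nat_lit 192) (nat_lit 214) (nat_lit 164)))) (PT.nd (nat_lit 156) (PT.nd (nat_lit 78) (PT.lf (nat_lit 25004) (nat_lit 6) (nat_lit 329) (nat_lit 2) (nat_lit 193) (nat_lit 214) (nat_lit 163)) (PT.lf (nat_lit 24168) (nat_lit 6) (nat_lit 318) (nat_lit 2) (nat_lit 194) (nat_lit 214) (nat_lit 162))) (PT.nd (nat_lit 78) (PT.lf (nat_lit 23408) (nat_lit 6) (nat_lit 308) (nat_lit 2) (nat_lit 195) (nat_lit 214) (nat_lit 161)) (PT.lf (nat_lit 22648) (nat_lit 6) (nat_lit 298) (nat_lit 2) (nat_lit 196) (nat_lit 214) (nat_lit 160)))))) (PT.nd (nat_lit 546) (PT.nd (nat_lit 234)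 (PT.nd (nat_lit 78) (PT.lf (nat_lit 21964) (nat_lit 6) (nat_lit 289) (nat_lit 2) (nat_lit 197) (nat_lit 214) (nat_lit 159)) (PT.nd (nat_lit 78) (PT.lf (nat_lit 21204) (nat_lit 6) (nat_lit 279) (nat_lit 2) (nat_lit 198) (nat_lit 214) (nat_lit 158)) (PT.lf (nat_lit 20520) (nat_lit 6) (nat_lit 270) (nat_lit 2) (nat_lit 199) (nat_lit 214) (nat_lit 157)))) (PT.nd (nat_lit 156) (PT.nd (nat_lit 78) (PT.lf (nat_lit 19836) (nat_lit 6) (nat_lit 261) (nat_lit 2) (nat_lit 200) (nat_lit 214) (nat_lit 156)) (PT.lf (nat_lit 19228) (nat_lit 6) (nat_lit 253) (nat_lit 2) (nat_lit 201) (nat_lit 214) (nat_lit 155))) (PT.nd (nat_lit 78) (PT.lf (nat_lit 18544) (nat_lit 6) (nat_lit 244) (nat_lit 2) (nat_lit 202) (nat_lit 214) (nat_lit 154)) (PT.lf (nat_lit 17936) (nat_lit 6) (nat_lit 236) (nat_lit 2) (nat_lit 203) (nat_lit 214) (nat_lit 153))))) (PT.nd (nat_lit 312) (PT.nd (nat_lit 156) (PT.nd (nat_lit 78) (PT.lf (nat_lit 17328) (nat_lit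 6) (nat_lit 228) (nat_lit 2) (nat_lit 204) (nat_lit 214) (nat_lit 152)) (PT.lf (nat_lit 16796) (nat_lit 6) (nat_lit 221) (nat_lit 2) (nat_lit 205) (nat_lit 214) (nat_lit 151))) (PT.nd (nat_lit 78) (PT.lf (nat_lit 16188) (nat_lit 6) (nat_lit 213) (nat_lit 2) (nat_lit 206) (nat_lit 214) (nat_lit 150)) (PT.lf (nat_lit 15656) (nat_lit 6) (nat_lit 206) (nat_lit 2) (nat_lit 207) (nat_lit 214) (nat_lit 149)))) (PT.nd (nat_lit 156) (PT.nd (nat_lit 78) (PT.lf (nat_lit 15124) (nat_lit 6) (nat_lit 199) (nat_lit 2) (nat_lit 208) (nat_lit 214) (nat_lit 148)) (PT.lf (nat_lit 14668) (nat_lit 6) (nat_lit 193) (nat_lit 2) (nat_lit 209) (nat_lit 214) (nat_lit 147))) (PT.nd (nat_lit 78) (PT.lf (nat_lit 14136) (nat_lit 6) (nat_lit 186) (nat_lit 2) (nat_lit 210) (nat_lit 214) (nat_lit 146)) (PT.lf (nat_lit 13680) (nat_lit 6) (nat_lit 180) (nat_lit 2) (nat_lit 211) (nat_lit 214) (nat_lit 145))))))) (PT.nd (nat_lit 53430) (PT.nd (nat_lit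 546) (PT.nd (nat_lit 234) (PT.nd (nat_lit 78) (PT.lf (nat_lit 13224) (nat_lit 6) (nat_lit 174) (nat_lit 2) (nat_lit 212) (nat_lit 214) (nat_lit 144)) (PT.nd (nat_lit 78) (PT.lf (nat_lit 12768) (nat_lit 6) (nat_lit 168) (nat_lit 2) (nat_lit 213) (nat_lit 214) (nat_lit 143)) (PT.lf (nat_lit 12312) (nat_lit 3) (nat_lit 162) (nat_lit 0) (nat_lit 214) (nat_lit 214) (nat_lit 142)))) (PT.nd (nat_lit 156) (PT.nd (nat_lit 78) (PT.lf (nat_lit 11856) (nat_lit 6) (nat_lit 156) (nat_lit 0) (nat_lit 215) (nat_lit 214) (nat_lit 141)) (PT.lf (nat_lit 11324) (nat_lit 6) (nat_lit 149) (nat_lit 0) (nat_lit 216) (nat_lit 214) (nat_lit 140))) (PT.nd (nat_lit 78) (PT.lf (nat_lit 10868) (nat_lit 6) (nat_lit 143) (nat_lit 0) (nat_lit 217) (nat_lit 214) (nat_lit 139)) (PT.lf (nat_lit 10412) (nat_lit 6) (nat_lit 137) (nat_lit 0) (nat_lit 218) (nat_lit 214) (nat_lit 138))))) (PT.nd (nat_lit 52572) (PT.nd (nat_lit 156) (PT.nd (nat_lit 78)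 (PT.lf (nat_lit 9956) (nat_lit 6) (nat_lit 131) (nat_lit 0) (nat_lit 219) (nat_lit 214) (nat_lit 137)) (PT.lf (nat_lit 9500) (nat_lit 6) (nat_lit 125) (nat_lit 0) (nat_lit 220) (nat_lit 214) (nat_lit 136))) (PT.nd (nat_lit 78) (PT.lf (nat_lit 9120) (nat_lit 6) (nat_lit 120) (nat_lit 0) (nat_lit 221) (nat_lit 214) (nat_lit 135)) (PT.lf (nat_lit 8664) (nat_lit 6) (nat_lit 114) (nat_lit 0) (nat_lit 222) (nat_lit 214) (nat_lit 134)))) (PT.nd (nat_lit 156) (PT.nd (nat_lit 78) (PT.lf (nat_lit 7980) (nat_lit 6) (nat_lit 105) (nat_lit 5) (nat_lit 132) (nat_lit 215) (nat_lit 223)) (PT.lf (nat_lit 8360) (nat_lit 6) (nat_lit 110) (nat_lit 5) (nat_lit 133) (nat_lit 215) (nat_lit 222))) (PT.nd (nat_lit 78) (PT.lf (nat_lit 8740) (nat_lit 6) (nat_lit 115) (nat_lit 5) (nat_lit 134) (nat_lit 215) (nat_lit 221)) (PT.lf (nat_lit 9196) (nat_lit 6) (nat_lit 121) (nat_lit 5) (nat_lit 135) (nat_lit 215) (nat_lit 220)))))) (PT.nd (nat_lit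 546) (PT.nd (nat_lit 234) (PT.nd (nat_lit 78) (PT.lf (nat_lit 9576) (nat_lit 6) (nat_lit 126) (nat_lit 5) (nat_lit 136) (nat_lit 215) (nat_lit 219)) (PT.nd (nat_lit 78) (PT.lf (nat_lit 10032) (nat_lit 6) (nat_lit 132) (nat_lit 5) (nat_lit 137) (nat_lit 215) (nat_lit 218)) (PT.lf (nat_lit 10488) (nat_lit 6) (nat_lit 138) (nat_lit 5) (nat_lit 138) (nat_lit 215) (nat_lit 217)))) (PT.nd (nat_lit 156) (PT.nd (nat_lit 78) (PT.lf (nat_lit 10944) (nat_lit 6) (nat_lit 144) (nat_lit 5) (nat_lit 139) (nat_lit 215) (nat_lit 216)) (PT.lf (nat_lit 11400) (nat_lit 3) (nat_lit 150) (nat_lit 4) (nat_lit 140) (nat_lit 215) (nat_lit 215))) (PT.nd (nat_lit 78) (PT.lf (nat_lit 11856) (nat_lit 6) (nat_lit 156) (nat_lit 4) (nat_lit 141) (nat_lit 215) (nat_lit 214)) (PT.lf (nat_lit 12236) (nat_lit 6) (nat_lit 161) (nat_lit 4) (nat_lit 142) (nat_lit 215) (nat_lit 213))))) (PT.nd (nat_lit 312) (PT.nd (nat_lit 156) (PT.nd (nat_lit 78) (PT.lf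 (nat_lit 12692) (nat_lit 6) (nat_lit 167) (nat_lit 4) (nat_lit 143) (nat_lit 215) (nat_lit 212)) (PT.lf (nat_lit 13148) (nat_lit 6) (nat_lit 173) (nat_lit 4) (nat_lit 144) (nat_lit 215) (nat_lit 211))) (PT.nd (nat_lit 78) (PT.lf (nat_lit 13604) (nat_lit 6) (nat_lit 179) (nat_lit 4) (nat_lit 145) (nat_lit 215) (nat_lit 210)) (PT.lf (nat_lit 14060) (nat_lit 6) (nat_lit 185) (nat_lit 4) (nat_lit 146) (nat_lit 215) (nat_lit 209)))) (PT.nd (nat_lit 156) (PT.nd (nat_lit 78) (PT.lf (nat_lit 14592) (nat_lit 6) (nat_lit 192) (nat_lit 4) (nat_lit 147) (nat_lit 215) (nat_lit 208)) (PT.lf (nat_lit 15048) (nat_lit 6) (nat_lit 198) (nat_lit 4) (nat_lit 148) (nat_lit 215) (nat_lit 207))) (PT.nd (nat_lit 78) (PT.lf (nat_lit 15580) (nat_lit 6) (nat_lit 205) (nat_lit 4) (nat_lit 149) (nat_lit 215) (nat_lit 206)) (PT.lf (nat_lit 16112) (nat_lit 6) (nat_lit 212) (nat_lit 4) (nat_lit 150) (nat_lit 215) (nat_lit 205))))))))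
noncomputable def pc54 : PT := (PT.nd (nat_lit 5070) (PT.nd (nat_lit 3900) (PT.nd (nat_lit 546) (PT.nd (nat_lit 234) (PT.nd (nat_lit 78) (PT.lf (nat_lit 16720) (nat_lit 6) (nat_lit 220) (nat_lit 4) (nat_lit 151) (nat_lit 215) (nat_lit 204)) (PT.nd (nat_lit 78) (PT.lf (nat_lit 17252) (nat_lit 6) (nat_lit 227) (nat_lit 4) (nat_lit 152) (nat_lit 215) (nat_lit 203)) (PT.lf (nat_lit 17860) (nat_lit 6) (nat_lit 235) (nat_lit 4) (nat_lit 153) (nat_lit 215) (nat_lit 202)))) (PT.nd (nat_lit 156) (PT.nd (nat_lit 78) (PT.lf (nat_lit 18468) (nat_lit 6) (nat_lit 243) (nat_lit 4) (nat_lit 154) (nat_lit 215) (nat_lit 201)) (PT.lf (nat_lit 19152) (nat_lit 6) (nat_lit 252) (nat_lit 4) (nat_lit 155) (nat_lit 215) (nat_lit 200))) (PT.nd (nat_lit 78) (PT.lf (nat_lit 19760) (nat_lit 6) (nat_lit 260) (nat_lit 4) (nat_lit 156) (nat_lit 215) (nat_lit 199)) (PT.lf (nat_lit 20444) (nat_lit 6) (nat_lit 269) (nat_lit 4) (nat_lit 157) (nat_lit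 215) (nat_lit 198))))) (PT.nd (nat_lit 3042) (PT.nd (nat_lit 78) (PT.lf (nat_lit 21128) (nat_lit 6) (nat_lit 278) (nat_lit 4) (nat_lit 158) (nat_lit 215) (nat_lit 197)) (PT.nd (nat_lit 2886) (PT.lf (nat_lit 21888) (nat_lit 6) (nat_lit 288) (nat_lit 4) (nat_lit 159) (nat_lit 215) (nat_lit 196)) (PT.lf (nat_lit 21888) (nat_lit 6) (nat_lit 288) (nat_lit 2) (nat_lit 196) (nat_lit 215) (nat_lit 159)))) (PT.nd (nat_lit 156) (PT.nd (nat_lit 78) (PT.lf (nat_lit 21128) (nat_lit 6) (nat_lit 278) (nat_lit 2) (nat_lit 197) (nat_lit 215) (nat_lit 158)) (PT.lf (nat_lit 20444) (nat_lit 6) (nat_lit 269) (nat_lit 2) (nat_lit 198) (nat_lit 215) (nat_lit 157))) (PT.nd (nat_lit 78) (PT.lf (nat_lit 19760) (nat_lit 6) (nat_lit 260) (nat_lit 2) (nat_lit 199) (nat_lit 215) (nat_lit 156)) (PT.lf (nat_lit 19152) (nat_lit 6) (nat_lit 252) (nat_lit 2) (nat_lit 200) (nat_lit 215) (nat_lit 155)))))) (PT.nd (nat_lit 546) (PT.nd (nat_lit 234)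 (PT.nd (nat_lit 78) (PT.lf (nat_lit 18468) (nat_lit 6) (nat_lit 243) (nat_lit 2) (nat_lit 201) (nat_lit 215) (nat_lit 154)) (PT.nd (nat_lit 78) (PT.lf (nat_lit 17860) (nat_lit 6) (nat_lit 235) (nat_lit 2) (nat_lit 202) (nat_lit 215) (nat_lit 153)) (PT.lf (nat_lit 17252) (nat_lit 6) (nat_lit 227) (nat_lit 2) (nat_lit 203) (nat_lit 215) (nat_lit 152)))) (PT.nd (nat_lit 156) (PT.nd (nat_lit 78) (PT.lf (nat_lit 16720) (nat_lit 6) (nat_lit 220) (nat_lit 2) (nat_lit 204) (nat_lit 215) (nat_lit 151)) (PT.lf (nat_lit 16112) (nat_lit 6) (nat_lit 212) (nat_lit 2) (nat_lit 205) (nat_lit 215) (nat_lit 150))) (PT.nd (nat_lit 78) (PT.lf (nat_lit 15580) (nat_lit 6) (nat_lit 205) (nat_lit 2) (nat_lit 206) (nat_lit 215) (nat_lit 149)) (PT.lf (nat_lit 15048) (nat_lit 6) (nat_lit 198) (nat_lit 2) (nat_lit 207) (nat_lit 215) (nat_lit 148))))) (PT.nd (nat_lit 312) (PT.nd (nat_lit 156) (PT.nd (nat_lit 78) (PT.lf (nat_lit 14592) (nat_lit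 6) (nat_lit 192) (nat_lit 2) (nat_lit 208) (nat_lit 215) (nat_lit 147)) (PT.lf (nat_lit 14060) (nat_lit 6) (nat_lit 185) (nat_lit 2) (nat_lit 209) (nat_lit 215) (nat_lit 146))) (PT.nd (nat_lit 78) (PT.lf (nat_lit 13604) (nat_lit 6) (nat_lit 179) (nat_lit 2) (nat_lit 210) (nat_lit 215) (nat_lit 145)) (PT.lf (nat_lit 13148) (nat_lit 6) (nat_lit 173) (nat_lit 2) (nat_lit 211) (nat_lit 215) (nat_lit 144)))) (PT.nd (nat_lit 156) (PT.nd (nat_lit 78) (PT.lf (nat_lit 12692) (nat_lit 6) (nat_lit 167) (nat_lit 2) (nat_lit 212) (nat_lit 215) (nat_lit 143)) (PT.lf (nat_lit 12236) (nat_lit 6) (nat_lit 161) (nat_lit 2) (nat_lit 213) (nat_lit 215) (nat_lit 142))) (PT.nd (nat_lit 78) (PT.lf (nat_lit 11856) (nat_lit 6) (nat_lit 156) (nat_lit 2) (nat_lit 214) (nat_lit 215) (nat_lit 141)) (PT.lf (nat_lit 11400) (nat_lit 3) (nat_lit 150) (nat_lit 0) (nat_lit 215) (nat_lit 215) (nat_lit 140))))))) (PT.nd (nat_lit 53196) (PT.nd (nat_lit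 546) (PT.nd (nat_lit 234) (PT.nd (nat_lit 78) (PT.lf (nat_lit 10944) (nat_lit 6) (nat_lit 144) (nat_lit 0) (nat_lit 216) (nat_lit 215) (nat_lit 139)) (PT.nd (nat_lit 78) (PT.lf (nat_lit 10488) (nat_lit 6) (nat_lit 138) (nat_lit 0) (nat_lit 217) (nat_lit 215) (nat_lit 138)) (PT.lf (nat_lit 10032) (nat_lit 6) (nat_lit 132) (nat_lit 0) (nat_lit 218) (nat_lit 215) (nat_lit 137)))) (PT.nd (nat_lit 156) (PT.nd (nat_lit 78) (PT.lf (nat_lit 9576) (nat_lit 6) (nat_lit 126) (nat_lit 0) (nat_lit 219) (nat_lit 215) (nat_lit 136)) (PT.lf (nat_lit 9196) (nat_lit 6) (nat_lit 121) (nat_lit 0) (nat_lit 220) (nat_lit 215) (nat_lit 135))) (PT.nd (nat_lit 78) (PT.lf (nat_lit 8740) (nat_lit 6) (nat_lit 115) (nat_lit 0) (nat_lit 221) (nat_lit 215) (nat_lit 134)) (PT.lf (nat_lit 8360) (nat_lit 6) (nat_lit 110) (nat_lit 0) (nat_lit 222) (nat_lit 215) (nat_lit 133))))) (PT.nd (nat_lit 52338) (PT.nd (nat_lit 52182) (PT.lf (nat_lit 7980)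 (nat_lit 6) (nat_lit 105) (nat_lit 0) (nat_lit 223) (nat_lit 215) (nat_lit 132)) (PT.nd (nat_lit 78) (PT.lf (nat_lit 7676) (nat_lit 6) (nat_lit 101) (nat_lit 5) (nat_lit 131) (nat_lit 216) (nat_lit 223)) (PT.lf (nat_lit 8056) (nat_lit 6) (nat_lit 106) (nat_lit 5) (nat_lit 132) (nat_lit 216) (nat_lit 222)))) (PT.nd (nat_lit 156) (PT.nd (nat_lit 78) (PT.lf (nat_lit 8436) (nat_lit 6) (nat_lit 111) (nat_lit 5) (nat_lit 133) (nat_lit 216) (nat_lit 221)) (PT.lf (nat_lit 8816) (nat_lit 6) (nat_lit 116) (nat_lit 5) (nat_lit 134) (nat_lit 216) (nat_lit 220))) (PT.nd (nat_lit 78) (PT.lf (nat_lit 9272) (nat_lit 6) (nat_lit 122) (nat_lit 5) (nat_lit 135) (nat_lit 216) (nat_lit 219)) (PT.lf (nat_lit 9652) (nat_lit 6) (nat_lit 127) (nat_lit 5) (nat_lit 136) (nat_lit 216) (nat_lit 218)))))) (PT.nd (nat_lit 546) (PT.nd (nat_lit 234) (PT.nd (nat_lit 78) (PT.lf (nat_lit 10108) (nat_lit 6) (nat_lit 133) (nat_lit 5) (nat_lit 137)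 (nat_lit 216) (nat_lit 217)) (PT.nd (nat_lit 78) (PT.lf (nat_lit 10564) (nat_lit 3) (nat_lit 139) (nat_lit 4) (nat_lit 138) (nat_lit 216) (nat_lit 216)) (PT.lf (nat_lit 10944) (nat_lit 6) (nat_lit 144) (nat_lit 4) (nat_lit 139) (nat_lit 216) (nat_lit 215)))) (PT.nd (nat_lit 156) (PT.nd (nat_lit 78) (PT.lf (nat_lit 11324) (nat_lit 6) (nat_lit 149) (nat_lit 4) (nat_lit 140) (nat_lit 216) (nat_lit 214)) (PT.lf (nat_lit 11780) (nat_lit 6) (nat_lit 155) (nat_lit 4) (nat_lit 141) (nat_lit 216) (nat_lit 213))) (PT.nd (nat_lit 78) (PT.lf (nat_lit 12160) (nat_lit 6) (nat_lit 160) (nat_lit 4) (nat_lit 142) (nat_lit 216) (nat_lit 212)) (PT.lf (nat_lit 12616) (nat_lit 6) (nat_lit 166) (nat_lit 4) (nat_lit 143) (nat_lit 216) (nat_lit 211))))) (PT.nd (nat_lit 312) (PT.nd (nat_lit 156) (PT.nd (nat_lit 78) (PT.lf (nat_lit 13072) (nat_lit 6) (nat_lit 172) (nat_lit 4) (nat_lit 144) (nat_lit 216) (nat_lit 210)) (PT.lf (nat_lit 13528)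 (nat_lit 6) (nat_lit 178) (nat_lit 4) (nat_lit 145) (nat_lit 216) (nat_lit 209))) (PT.nd (nat_lit 78) (PT.lf (nat_lit 13984) (nat_lit 6) (nat_lit 184) (nat_lit 4) (nat_lit 146) (nat_lit 216) (nat_lit 208)) (PT.lf (nat_lit 14516) (nat_lit 6) (nat_lit 191) (nat_lit 4) (nat_lit 147) (nat_lit 216) (nat_lit 207)))) (PT.nd (nat_lit 156) (PT.nd (nat_lit 78) (PT.lf (nat_lit 14972) (nat_lit 6) (nat_lit 197) (nat_lit 4) (nat_lit 148) (nat_lit 216) (nat_lit 206)) (PT.lf (nat_lit 15504) (nat_lit 6) (nat_lit 204) (nat_lit 4) (nat_lit 149) (nat_lit 216) (nat_lit 205))) (PT.nd (nat_lit 78) (PT.lf (nat_lit 16036) (nat_lit 6) (nat_lit 211) (nat_lit 4) (nat_lit 150) (nat_lit 216) (nat_lit 204)) (PT.lf (nat_lit 16644) (nat_lit 6) (nat_lit 219) (nat_lit 4) (nat_lit 151) (nat_lit 216) (nat_lit 203))))))))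
noncomputable def pc55 : PT := (PT.nd (nat_lit 57564) (PT.nd (nat_lit 4446) (PT.nd (nat_lit 3900) (PT.nd (nat_lit 234) (PT.nd (nat_lit 78) (PT.lf (nat_lit 17176) (nat_lit 6) (nat_lit 226) (nat_lit 4) (nat_lit 152) (nat_lit 216) (nat_lit 202)) (PT.nd (nat_lit 78) (PT.lf (nat_lit 17784) (nat_lit 6) (nat_lit 234) (nat_lit 4) (nat_lit 153) (nat_lit 216) (nat_lit 201)) (PT.lf (nat_lit 18392) (nat_lit 6) (nat_lit 242) (nat_lit 4) (nat_lit 154) (nat_lit 216) (nat_lit 200)))) (PT.nd (nat_lit 3510) (PT.nd (nat_lit 3432) (PT.lf (nat_lit 19076) (nat_lit 6) (nat_lit 251) (nat_lit 4) (nat_lit 155) (nat_lit 216) (nat_lit 199)) (PT.lf (nat_lit 19076) (nat_lit 6) (nat_lit 251) (nat_lit 2) (nat_lit 199) (nat_lit 216) (nat_lit 155))) (PT.nd (nat_lit 78) (PT.lf (nat_lit 18392) (nat_lit 6) (nat_lit 242) (nat_lit 2) (nat_lit 200) (nat_lit 216) (nat_lit 154)) (PT.lf (nat_lit 17784) (nat_lit 6) (nat_lit 234) (nat_lit 2) (nat_lit 201)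 (nat_lit 216) (nat_lit 153))))) (PT.nd (nat_lit 234) (PT.nd (nat_lit 78) (PT.lf (nat_lit 17176) (nat_lit 6) (nat_lit 226) (nat_lit 2) (nat_lit 202) (nat_lit 216) (nat_lit 152)) (PT.nd (nat_lit 78) (PT.lf (nat_lit 16644) (nat_lit 6) (nat_lit 219) (nat_lit 2) (nat_lit 203) (nat_lit 216) (nat_lit 151)) (PT.lf (nat_lit 16036) (nat_lit 6) (nat_lit 211) (nat_lit 2) (nat_lit 204) (nat_lit 216) (nat_lit 150)))) (PT.nd (nat_lit 156) (PT.nd (nat_lit 78) (PT.lf (nat_lit 15504) (nat_lit 6) (nat_lit 204) (nat_lit 2) (nat_lit 205) (nat_lit 216) (nat_lit 149)) (PT.lf (nat_lit 14972) (nat_lit 6) (nat_lit 197) (nat_lit 2) (nat_lit 206) (nat_lit 216) (nat_lit 148))) (PT.nd (nat_lit 78) (PT.lf (nat_lit 14516) (nat_lit 6) (nat_lit 191) (nat_lit 2) (nat_lit 207) (nat_lit 216) (nat_lit 147)) (PT.lf (nat_lit 13984) (nat_lit 6) (nat_lit 184) (nat_lit 2) (nat_lit 208) (nat_lit 216) (nat_lit 146)))))) (PT.nd (nat_lit 546) (PT.nd (nat_lit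 234) (PT.nd (nat_lit 78) (PT.lf (nat_lit 13528) (nat_lit 6) (nat_lit 178) (nat_lit 2) (nat_lit 209) (nat_lit 216) (nat_lit 145)) (PT.nd (nat_lit 78) (PT.lf (nat_lit 13072) (nat_lit 6) (nat_lit 172) (nat_lit 2) (nat_lit 210) (nat_lit 216) (nat_lit 144)) (PT.lf (nat_lit 12616) (nat_lit 6) (nat_lit 166) (nat_lit 2) (nat_lit 211) (nat_lit 216) (nat_lit 143)))) (PT.nd (nat_lit 156) (PT.nd (nat_lit 78) (PT.lf (nat_lit 12160) (nat_lit 6) (nat_lit 160) (nat_lit 2) (nat_lit 212) (nat_lit 216) (nat_lit 142)) (PT.lf (nat_lit 11780) (nat_lit 6) (nat_lit 155) (nat_lit 2) (nat_lit 213) (nat_lit 216) (nat_lit 141))) (PT.nd (nat_lit 78) (PT.lf (nat_lit 11324) (nat_lit 6) (nat_lit 149) (nat_lit 2) (nat_lit 214) (nat_lit 216) (nat_lit 140)) (PT.lf (nat_lit 10944) (nat_lit 6) (nat_lit 144) (nat_lit 2) (nat_lit 215) (nat_lit 216) (nat_lit 139))))) (PT.nd (nat_lit 312) (PT.nd (nat_lit 156) (PT.nd (nat_lit 78) (PT.lf (nat_lit 10564)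 (nat_lit 3) (nat_lit 139) (nat_lit 0) (nat_lit 216) (nat_lit 216) (nat_lit 138)) (PT.lf (nat_lit 10108) (nat_lit 6) (nat_lit 133) (nat_lit 0) (nat_lit 217) (nat_lit 216) (nat_lit 137))) (PT.nd (nat_lit 78) (PT.lf (nat_lit 9652) (nat_lit 6) (nat_lit 127) (nat_lit 0) (nat_lit 218) (nat_lit 216) (nat_lit 136)) (PT.lf (nat_lit 9272) (nat_lit 6) (nat_lit 122) (nat_lit 0) (nat_lit 219) (nat_lit 216) (nat_lit 135)))) (PT.nd (nat_lit 156) (PT.nd (nat_lit 78) (PT.lf (nat_lit 8816) (nat_lit 6) (nat_lit 116) (nat_lit 0) (nat_lit 220) (nat_lit 216) (nat_lit 134)) (PT.lf (nat_lit 8436) (nat_lit 6) (nat_lit 111) (nat_lit 0) (nat_lit 221) (nat_lit 216) (nat_lit 133))) (PT.nd (nat_lit 78) (PT.lf (nat_lit 8056) (nat_lit 6) (nat_lit 106) (nat_lit 0) (nat_lit 222) (nat_lit 216) (nat_lit 132)) (PT.lf (nat_lit 7676) (nat_lit 6) (nat_lit 101) (nat_lit 0) (nat_lit 223) (nat_lit 216) (nat_lit 131))))))) (PT.nd (nat_lit 1170) (PT.nd (nat_lit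 546) (PT.nd (nat_lit 234) (PT.nd (nat_lit 78) (PT.lf (nat_lit 7068) (nat_lit 6) (nat_lit 93) (nat_lit 5) (nat_lit 129) (nat_lit 217) (nat_lit 224)) (PT.nd (nat_lit 78) (PT.lf (nat_lit 7372) (nat_lit 6) (nat_lit 97) (nat_lit 5) (nat_lit 130) (nat_lit 217) (nat_lit 223)) (PT.lf (nat_lit 7752) (nat_lit 6) (nat_lit 102) (nat_lit 5) (nat_lit 131) (nat_lit 217) (nat_lit 222)))) (PT.nd (nat_lit 156) (PT.nd (nat_lit 78) (PT.lf (nat_lit 8132) (nat_lit 6) (nat_lit 107) (nat_lit 5) (nat_lit 132) (nat_lit 217) (nat_lit 221)) (PT.lf (nat_lit 8512) (nat_lit 6) (nat_lit 112) (nat_lit 5) (nat_lit 133) (nat_lit 217) (nat_lit 220))) (PT.nd (nat_lit 78) (PT.lf (nat_lit 8892) (nat_lit 6) (nat_lit 117) (nat_lit 5) (nat_lit 134) (nat_lit 217) (nat_lit 219)) (PT.lf (nat_lit 9348) (nat_lit 6) (nat_lit 123) (nat_lit 5) (nat_lit 135) (nat_lit 217) (nat_lit 218))))) (PT.nd (nat_lit 312) (PT.nd (nat_lit 156) (PT.nd (nat_lit 78) (PT.lf (nat_lit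 9728) (nat_lit 3) (nat_lit 128) (nat_lit 4) (nat_lit 136) (nat_lit 217) (nat_lit 217)) (PT.lf (nat_lit 10108) (nat_lit 6) (nat_lit 133) (nat_lit 4) (nat_lit 137) (nat_lit 217) (nat_lit 216))) (PT.nd (nat_lit 78) (PT.lf (nat_lit 10488) (nat_lit 6) (nat_lit 138) (nat_lit 4) (nat_lit 138) (nat_lit 217) (nat_lit 215)) (PT.lf (nat_lit 10868) (nat_lit 6) (nat_lit 143) (nat_lit 4) (nat_lit 139) (nat_lit 217) (nat_lit 214)))) (PT.nd (nat_lit 156) (PT.nd (nat_lit 78) (PT.lf (nat_lit 11248) (nat_lit 6) (nat_lit 148) (nat_lit 4) (nat_lit 140) (nat_lit 217) (nat_lit 213)) (PT.lf (nat_lit 11704) (nat_lit 6) (nat_lit 154) (nat_lit 4) (nat_lit 141) (nat_lit 217) (nat_lit 212))) (PT.nd (nat_lit 78) (PT.lf (nat_lit 12084) (nat_lit 6) (nat_lit 159) (nat_lit 4) (nat_lit 142) (nat_lit 217) (nat_lit 211)) (PT.lf (nat_lit 12540) (nat_lit 6) (nat_lit 165) (nat_lit 4) (nat_lit 143) (nat_lit 217) (nat_lit 210)))))) (PT.nd (nat_lit 546)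 (PT.nd (nat_lit 234) (PT.nd (nat_lit 78) (PT.lf (nat_lit 12996) (nat_lit 6) (nat_lit 171) (nat_lit 4) (nat_lit 144) (nat_lit 217) (nat_lit 209)) (PT.nd (nat_lit 78) (PT.lf (nat_lit 13452) (nat_lit 6) (nat_lit 177) (nat_lit 4) (nat_lit 145) (nat_lit 217) (nat_lit 208)) (PT.lf (nat_lit 13908) (nat_lit 6) (nat_lit 183) (nat_lit 4) (nat_lit 146) (nat_lit 217) (nat_lit 207)))) (PT.nd (nat_lit 156) (PT.nd (nat_lit 78) (PT.lf (nat_lit 14440) (nat_lit 6) (nat_lit 190) (nat_lit 4) (nat_lit 147) (nat_lit 217) (nat_lit 206)) (PT.lf (nat_lit 14896) (nat_lit 6) (nat_lit 196) (nat_lit 4) (nat_lit 148) (nat_lit 217) (nat_lit 205))) (PT.nd (nat_lit 78) (PT.lf (nat_lit 15428) (nat_lit 6) (nat_lit 203) (nat_lit 4) (nat_lit 149) (nat_lit 217) (nat_lit 204)) (PT.lf (nat_lit 15960) (nat_lit 6) (nat_lit 210) (nat_lit 4) (nat_lit 150) (nat_lit 217) (nat_lit 203))))) (PT.nd (nat_lit 4212) (PT.nd (nat_lit 4056) (PT.nd (nat_lit 3978) (PT.lf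 (nat_lit 16568) (nat_lit 6) (nat_lit 218) (nat_lit 4) (nat_lit 151) (nat_lit 217) (nat_lit 202)) (PT.lf (nat_lit 16568) (nat_lit 6) (nat_lit 218) (nat_lit 2) (nat_lit 202) (nat_lit 217) (nat_lit 151))) (PT.nd (nat_lit 78) (PT.lf (nat_lit 15960) (nat_lit 6) (nat_lit 210) (nat_lit 2) (nat_lit 203) (nat_lit 217) (nat_lit 150)) (PT.lf (nat_lit 15428) (nat_lit 6) (nat_lit 203) (nat_lit 2) (nat_lit 204) (nat_lit 217) (nat_lit 149)))) (PT.nd (nat_lit 156) (PT.nd (nat_lit 78) (PT.lf (nat_lit 14896) (nat_lit 6) (nat_lit 196) (nat_lit 2) (nat_lit 205) (nat_lit 217) (nat_lit 148)) (PT.lf (nat_lit 14440) (nat_lit 6) (nat_lit 190) (nat_lit 2) (nat_lit 206) (nat_lit 217) (nat_lit 147))) (PT.nd (nat_lit 78) (PT.lf (nat_lit 13908) (nat_lit 6) (nat_lit 183) (nat_lit 2) (nat_lit 207) (nat_lit 217) (nat_lit 146)) (PT.lf (nat_lit 13452) (nat_lit 6) (nat_lit 177) (nat_lit 2) (nat_lit 208) (nat_lit 217) (nat_lit 145))))))))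
noncomputable def pc56 : PT := (PT.nd (nat_lit 53976) (PT.nd (nat_lit 1092) (PT.nd (nat_lit 546) (PT.nd (nat_lit 234) (PT.nd (nat_lit 78) (PT.lf (nat_lit 12996) (nat_lit 6) (nat_lit 171) (nat_lit 2) (nat_lit 209) (nat_lit 217) (nat_lit 144)) (PT.nd (nat_lit 78) (PT.lf (nat_lit 12540) (nat_lit 6) (nat_lit 165) (nat_lit 2) (nat_lit 210) (nat_lit 217) (nat_lit 143)) (PT.lf (nat_lit 12084) (nat_lit 6) (nat_lit 159) (nat_lit 2) (nat_lit 211) (nat_lit 217) (nat_lit 142)))) (PT.nd (nat_lit 156) (PT.nd (nat_lit 78) (PT.lf (nat_lit 11704) (nat_lit 6) (nat_lit 154) (nat_lit 2) (nat_lit 212) (nat_lit 217) (nat_lit 141)) (PT.lf (nat_lit 11248) (nat_lit 6) (nat_lit 148) (nat_lit 2) (nat_lit 213) (nat_lit 217) (nat_lit 140))) (PT.nd (nat_lit 78) (PT.lf (nat_lit 10868) (nat_lit 6) (nat_lit 143) (nat_lit 2) (nat_lit 214) (nat_lit 217) (nat_lit 139)) (PT.lf (nat_lit 10488) (nat_lit 6) (nat_lit 138) (nat_lit 2) (nat_lit 215) (nat_lit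 217) (nat_lit 138))))) (PT.nd (nat_lit 234) (PT.nd (nat_lit 78) (PT.lf (nat_lit 10108) (nat_lit 6) (nat_lit 133) (nat_lit 2) (nat_lit 216) (nat_lit 217) (nat_lit 137)) (PT.nd (nat_lit 78) (PT.lf (nat_lit 9728) (nat_lit 3) (nat_lit 128) (nat_lit 0) (nat_lit 217) (nat_lit 217) (nat_lit 136)) (PT.lf (nat_lit 9348) (nat_lit 6) (nat_lit 123) (nat_lit 0) (nat_lit 218) (nat_lit 217) (nat_lit 135)))) (PT.nd (nat_lit 156) (PT.nd (nat_lit 78) (PT.lf (nat_lit 8892) (nat_lit 6) (nat_lit 117) (nat_lit 0) (nat_lit 219) (nat_lit 217) (nat_lit 134)) (PT.lf (nat_lit 8512) (nat_lit 6) (nat_lit 112) (nat_lit 0) (nat_lit 220) (nat_lit 217) (nat_lit 133))) (PT.nd (nat_lit 78) (PT.lf (nat_lit 8132) (nat_lit 6) (nat_lit 107) (nat_lit 0) (nat_lit 221) (nat_lit 217) (nat_lit 132)) (PT.lf (nat_lit 7752) (nat_lit 6) (nat_lit 102) (nat_lit 0) (nat_lit 222) (nat_lit 217) (nat_lit 131)))))) (PT.nd (nat_lit 52260) (PT.nd (nat_lit 51948) (PT.nd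 (nat_lit 78) (PT.lf (nat_lit 7372) (nat_lit 6) (nat_lit 97) (nat_lit 0) (nat_lit 223) (nat_lit 217) (nat_lit 130)) (PT.nd (nat_lit 51792) (PT.lf (nat_lit 7068) (nat_lit 6) (nat_lit 93) (nat_lit 0) (nat_lit 224) (nat_lit 217) (nat_lit 129)) (PT.lf (nat_lit 6460) (nat_lit 6) (nat_lit 85) (nat_lit 5) (nat_lit 127) (nat_lit 218) (nat_lit 225)))) (PT.nd (nat_lit 156) (PT.nd (nat_lit 78) (PT.lf (nat_lit 6764) (nat_lit 6) (nat_lit 89) (nat_lit 5) (nat_lit 128) (nat_lit 218) (nat_lit 224)) (PT.lf (nat_lit 7144) (nat_lit 6) (nat_lit 94) (nat_lit 5) (nat_lit 129) (nat_lit 218) (nat_lit 223))) (PT.nd (nat_lit 78) (PT.lf (nat_lit 7448) (nat_lit 6) (nat_lit 98) (nat_lit 5) (nat_lit 130) (nat_lit 218) (nat_lit 222)) (PT.lf (nat_lit 7828) (nat_lit 6) (nat_lit 103) (nat_lit 5) (nat_lit 131) (nat_lit 218) (nat_lit 221))))) (PT.nd (nat_lit 312) (PT.nd (nat_lit 156) (PT.nd (nat_lit 78) (PT.lf (nat_lit 8208) (nat_lit 6) (nat_lit 108)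 (nat_lit 5) (nat_lit 132) (nat_lit 218) (nat_lit 220)) (PT.lf (nat_lit 8588) (nat_lit 6) (nat_lit 113) (nat_lit 5) (nat_lit 133) (nat_lit 218) (nat_lit 219))) (PT.nd (nat_lit 78) (PT.lf (nat_lit 8968) (nat_lit 3) (nat_lit 118) (nat_lit 4) (nat_lit 134) (nat_lit 218) (nat_lit 218)) (PT.lf (nat_lit 9348) (nat_lit 6) (nat_lit 123) (nat_lit 4) (nat_lit 135) (nat_lit 218) (nat_lit 217)))) (PT.nd (nat_lit 156) (PT.nd (nat_lit 78) (PT.lf (nat_lit 9652) (nat_lit 6) (nat_lit 127) (nat_lit 4) (nat_lit 136) (nat_lit 218) (nat_lit 216)) (PT.lf (nat_lit 10032) (nat_lit 6) (nat_lit 132) (nat_lit 4) (nat_lit 137) (nat_lit 218) (nat_lit 215))) (PT.nd (nat_lit 78) (PT.lf (nat_lit 10412) (nat_lit 6) (nat_lit 137) (nat_lit 4) (nat_lit 138) (nat_lit 218) (nat_lit 214)) (PT.lf (nat_lit 10792) (nat_lit 6) (nat_lit 142) (nat_lit 4) (nat_lit 139) (nat_lit 218) (nat_lit 213))))))) (PT.nd (nat_lit 5538) (PT.nd (nat_lit 546) (PT.nd (nat_lit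 234) (PT.nd (nat_lit 78) (PT.lf (nat_lit 11172) (nat_lit 6) (nat_lit 147) (nat_lit 4) (nat_lit 140) (nat_lit 218) (nat_lit 212)) (PT.nd (nat_lit 78) (PT.lf (nat_lit 11628) (nat_lit 6) (nat_lit 153) (nat_lit 4) (nat_lit 141) (nat_lit 218) (nat_lit 211)) (PT.lf (nat_lit 12008) (nat_lit 6) (nat_lit 158) (nat_lit 4) (nat_lit 142) (nat_lit 218) (nat_lit 210)))) (PT.nd (nat_lit 156) (PT.nd (nat_lit 78) (PT.lf (nat_lit 12464) (nat_lit 6) (nat_lit 164) (nat_lit 4) (nat_lit 143) (nat_lit 218) (nat_lit 209)) (PT.lf (nat_lit 12920) (nat_lit 6) (nat_lit 170) (nat_lit 4) (nat_lit 144) (nat_lit 218) (nat_lit 208))) (PT.nd (nat_lit 78) (PT.lf (nat_lit 13376) (nat_lit 6) (nat_lit 176) (nat_lit 4) (nat_lit 145) (nat_lit 218) (nat_lit 207)) (PT.lf (nat_lit 13832) (nat_lit 6) (nat_lit 182) (nat_lit 4) (nat_lit 146) (nat_lit 218) (nat_lit 206))))) (PT.nd (nat_lit 4680) (PT.nd (nat_lit 4524) (PT.lf (nat_lit 14364) (nat_lit 6) (nat_lit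 189) (nat_lit 4) (nat_lit 147) (nat_lit 218) (nat_lit 205)) (PT.nd (nat_lit 78) (PT.lf (nat_lit 14364) (nat_lit 6) (nat_lit 189) (nat_lit 2) (nat_lit 205) (nat_lit 218) (nat_lit 147)) (PT.lf (nat_lit 13832) (nat_lit 6) (nat_lit 182) (nat_lit 2) (nat_lit 206) (nat_lit 218) (nat_lit 146)))) (PT.nd (nat_lit 156) (PT.nd (nat_lit 78) (PT.lf (nat_lit 13376) (nat_lit 6) (nat_lit 176) (nat_lit 2) (nat_lit 207) (nat_lit 218) (nat_lit 145)) (PT.lf (nat_lit 12920) (nat_lit 6) (nat_lit 170) (nat_lit 2) (nat_lit 208) (nat_lit 218) (nat_lit 144))) (PT.nd (nat_lit 78) (PT.lf (nat_lit 12464) (nat_lit 6) (nat_lit 164) (nat_lit 2) (nat_lit 209) (nat_lit 218) (nat_lit 143)) (PT.lf (nat_lit 12008) (nat_lit 6) (nat_lit 158) (nat_lit 2) (nat_lit 210) (nat_lit 218) (nat_lit 142)))))) (PT.nd (nat_lit 546) (PT.nd (nat_lit 234) (PT.nd (nat_lit 78) (PT.lf (nat_lit 11628) (nat_lit 6) (nat_lit 153) (nat_lit 2) (nat_lit 211) (nat_lit 218) (nat_lit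 141)) (PT.nd (nat_lit 78) (PT.lf (nat_lit 11172) (nat_lit 6) (nat_lit 147) (nat_lit 2) (nat_lit 212) (nat_lit 218) (nat_lit 140)) (PT.lf (nat_lit 10792) (nat_lit 6) (nat_lit 142) (nat_lit 2) (nat_lit 213) (nat_lit 218) (nat_lit 139)))) (PT.nd (nat_lit 156) (PT.nd (nat_lit 78) (PT.lf (nat_lit 10412) (nat_lit 6) (nat_lit 137) (nat_lit 2) (nat_lit 214) (nat_lit 218) (nat_lit 138)) (PT.lf (nat_lit 10032) (nat_lit 6) (nat_lit 132) (nat_lit 2) (nat_lit 215) (nat_lit 218) (nat_lit 137))) (PT.nd (nat_lit 78) (PT.lf (nat_lit 9652) (nat_lit 6) (nat_lit 127) (nat_lit 2) (nat_lit 216) (nat_lit 218) (nat_lit 136)) (PT.lf (nat_lit 9348) (nat_lit 6) (nat_lit 123) (nat_lit 2) (nat_lit 217) (nat_lit 218) (nat_lit 135))))) (PT.nd (nat_lit 312) (PT.nd (nat_lit 156) (PT.nd (nat_lit 78) (PT.lf (nat_lit 8968) (nat_lit 3) (nat_lit 118) (nat_lit 0) (nat_lit 218) (nat_lit 218) (nat_lit 134)) (PT.lf (nat_lit 8588) (nat_lit 6) (nat_lit 113)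 (nat_lit 0) (nat_lit 219) (nat_lit 218) (nat_lit 133))) (PT.nd (nat_lit 78) (PT.lf (nat_lit 8208) (nat_lit 6) (nat_lit 108) (nat_lit 0) (nat_lit 220) (nat_lit 218) (nat_lit 132)) (PT.lf (nat_lit 7828) (nat_lit 6) (nat_lit 103) (nat_lit 0) (nat_lit 221) (nat_lit 218) (nat_lit 131)))) (PT.nd (nat_lit 156) (PT.nd (nat_lit 78) (PT.lf (nat_lit 7448) (nat_lit 6) (nat_lit 98) (nat_lit 0) (nat_lit 222) (nat_lit 218) (nat_lit 130)) (PT.lf (nat_lit 7144) (nat_lit 6) (nat_lit 94) (nat_lit 0) (nat_lit 223) (nat_lit 218) (nat_lit 129))) (PT.nd (nat_lit 78) (PT.lf (nat_lit 6764) (nat_lit 6) (nat_lit 89) (nat_lit 0) (nat_lit 224) (nat_lit 218) (nat_lit 128)) (PT.lf (nat_lit 6460) (nat_lit 6) (nat_lit 85) (nat_lit 0) (nat_lit 225) (nat_lit 218) (nat_lit 127))))))))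
noncomputable def pc57 : PT := (PT.nd (nat_lit 7098) (PT.nd (nat_lit 1092) (PT.nd (nat_lit 546) (PT.nd (nat_lit 234) (PT.nd (nat_lit 78) (PT.lf (nat_lit 6156) (nat_lit 6) (nat_lit 81) (nat_lit 5) (nat_lit 126) (nat_lit 219) (nat_lit 225)) (PT.nd (nat_lit 78) (PT.lf (nat_lit 6536) (nat_lit 6) (nat_lit 86) (nat_lit 5) (nat_lit 127) (nat_lit 219) (nat_lit 224)) (PT.lf (nat_lit 6840) (nat_lit 6) (nat_lit 90) (nat_lit 5) (nat_lit 128) (nat_lit 219) (nat_lit 223)))) (PT.nd (nat_lit 156) (PT.nd (nat_lit 78) (PT.lf (nat_lit 7220) (nat_lit 6) (nat_lit 95) (nat_lit 5) (nat_lit 129) (nat_lit 219) (nat_lit 222)) (PT.lf (nat_lit 7524) (nat_lit 6) (nat_lit 99) (nat_lit 5) (nat_lit 130) (nat_lit 219) (nat_lit 221))) (PT.nd (nat_lit 78) (PT.lf (nat_lit 7904) (nat_lit 6) (nat_lit 104) (nat_lit 5) (nat_lit 131) (nat_lit 219) (nat_lit 220)) (PT.lf (nat_lit 8284) (nat_lit 3) (nat_lit 109) (nat_lit 4) (nat_lit 132) (nat_lit 219) (nat_lit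 219))))) (PT.nd (nat_lit 234) (PT.nd (nat_lit 78) (PT.lf (nat_lit 8588) (nat_lit 6) (nat_lit 113) (nat_lit 4) (nat_lit 133) (nat_lit 219) (nat_lit 218)) (PT.nd (nat_lit 78) (PT.lf (nat_lit 8892) (nat_lit 6) (nat_lit 117) (nat_lit 4) (nat_lit 134) (nat_lit 219) (nat_lit 217)) (PT.lf (nat_lit 9272) (nat_lit 6) (nat_lit 122) (nat_lit 4) (nat_lit 135) (nat_lit 219) (nat_lit 216)))) (PT.nd (nat_lit 156) (PT.nd (nat_lit 78) (PT.lf (nat_lit 9576) (nat_lit 6) (nat_lit 126) (nat_lit 4) (nat_lit 136) (nat_lit 219) (nat_lit 215)) (PT.lf (nat_lit 9956) (nat_lit 6) (nat_lit 131) (nat_lit 4) (nat_lit 137) (nat_lit 219) (nat_lit 214))) (PT.nd (nat_lit 78) (PT.lf (nat_lit 10336) (nat_lit 6) (nat_lit 136) (nat_lit 4) (nat_lit 138) (nat_lit 219) (nat_lit 213)) (PT.lf (nat_lit 10716) (nat_lit 6) (nat_lit 141) (nat_lit 4) (nat_lit 139) (nat_lit 219) (nat_lit 212)))))) (PT.nd (nat_lit 5382) (PT.nd (nat_lit 234) (PT.nd (nat_lit 78)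 (PT.lf (nat_lit 11096) (nat_lit 6) (nat_lit 146) (nat_lit 4) (nat_lit 140) (nat_lit 219) (nat_lit 211)) (PT.nd (nat_lit 78) (PT.lf (nat_lit 11552) (nat_lit 6) (nat_lit 152) (nat_lit 4) (nat_lit 141) (nat_lit 219) (nat_lit 210)) (PT.lf (nat_lit 11932) (nat_lit 6) (nat_lit 157) (nat_lit 4) (nat_lit 142) (nat_lit 219) (nat_lit 209)))) (PT.nd (nat_lit 4992) (PT.nd (nat_lit 78) (PT.lf (nat_lit 12388) (nat_lit 6) (nat_lit 163) (nat_lit 4) (nat_lit 143) (nat_lit 219) (nat_lit 208)) (PT.lf (nat_lit 12844) (nat_lit 6) (nat_lit 169) (nat_lit 4) (nat_lit 144) (nat_lit 219) (nat_lit 207))) (PT.nd (nat_lit 78) (PT.lf (nat_lit 12844) (nat_lit 6) (nat_lit 169) (nat_lit 2) (nat_lit 207) (nat_lit 219) (nat_lit 144)) (PT.lf (nat_lit 12388) (nat_lit 6) (nat_lit 163) (nat_lit 2) (nat_lit 208) (nat_lit 219) (nat_lit 143))))) (PT.nd (nat_lit 312) (PT.nd (nat_lit 156) (PT.nd (nat_lit 78) (PT.lf (nat_lit 11932) (nat_lit 6) (nat_lit 157)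 (nat_lit 2) (nat_lit 209) (nat_lit 219) (nat_lit 142)) (PT.lf (nat_lit 11552) (nat_lit 6) (nat_lit 152) (nat_lit 2) (nat_lit 210) (nat_lit 219) (nat_lit 141))) (PT.nd (nat_lit 78) (PT.lf (nat_lit 11096) (nat_lit 6) (nat_lit 146) (nat_lit 2) (nat_lit 211) (nat_lit 219) (nat_lit 140)) (PT.lf (nat_lit 10716) (nat_lit 6) (nat_lit 141) (nat_lit 2) (nat_lit 212) (nat_lit 219) (nat_lit 139)))) (PT.nd (nat_lit 156) (PT.nd (nat_lit 78) (PT.lf (nat_lit 10336) (nat_lit 6) (nat_lit 136) (nat_lit 2) (nat_lit 213) (nat_lit 219) (nat_lit 138)) (PT.lf (nat_lit 9956) (nat_lit 6) (nat_lit 131) (nat_lit 2) (nat_lit 214) (nat_lit 219) (nat_lit 137))) (PT.nd (nat_lit 78) (PT.lf (nat_lit 9576) (nat_lit 6) (nat_lit 126) (nat_lit 2) (nat_lit 215) (nat_lit 219) (nat_lit 136)) (PT.lf (nat_lit 9272) (nat_lit 6) (nat_lit 122) (nat_lit 2) (nat_lit 216) (nat_lit 219) (nat_lit 135))))))) (PT.nd (nat_lit 52572) (PT.nd (nat_lit 546) (PT.nd (nat_lit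 234) (PT.nd (nat_lit 78) (PT.lf (nat_lit 8892) (nat_lit 6) (nat_lit 117) (nat_lit 2) (nat_lit 217) (nat_lit 219) (nat_lit 134)) (PT.nd (nat_lit 78) (PT.lf (nat_lit 8588) (nat_lit 6) (nat_lit 113) (nat_lit 2) (nat_lit 218) (nat_lit 219) (nat_lit 133)) (PT.lf (nat_lit 8284) (nat_lit 3) (nat_lit 109) (nat_lit 0) (nat_lit 219) (nat_lit 219) (nat_lit 132)))) (PT.nd (nat_lit 156) (PT.nd (nat_lit 78) (PT.lf (nat_lit 7904) (nat_lit 6) (nat_lit 104) (nat_lit 0) (nat_lit 220) (nat_lit 219) (nat_lit 131)) (PT.lf (nat_lit 7524) (nat_lit 6) (nat_lit 99) (nat_lit 0) (nat_lit 221) (nat_lit 219) (nat_lit 130))) (PT.nd (nat_lit 78) (PT.lf (nat_lit 7220) (nat_lit 6) (nat_lit 95) (nat_lit 0) (nat_lit 222) (nat_lit 219) (nat_lit 129)) (PT.lf (nat_lit 6840) (nat_lit 6) (nat_lit 90) (nat_lit 0) (nat_lit 223) (nat_lit 219) (nat_lit 128))))) (PT.nd (nat_lit 51714) (PT.nd (nat_lit 51558) (PT.nd (nat_lit 78) (PT.lf (nat_lit 6536) (nat_lit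 6) (nat_lit 86) (nat_lit 0) (nat_lit 224) (nat_lit 219) (nat_lit 127)) (PT.lf (nat_lit 6156) (nat_lit 6) (nat_lit 81) (nat_lit 0) (nat_lit 225) (nat_lit 219) (nat_lit 126))) (PT.nd (nat_lit 78) (PT.lf (nat_lit 5624) (nat_lit 6) (nat_lit 74) (nat_lit 5) (nat_lit 124) (nat_lit 220) (nat_lit 226)) (PT.lf (nat_lit 5928) (nat_lit 6) (nat_lit 78) (nat_lit 5) (nat_lit 125) (nat_lit 220) (nat_lit 225)))) (PT.nd (nat_lit 156) (PT.nd (nat_lit 78) (PT.lf (nat_lit 6232) (nat_lit 6) (nat_lit 82) (nat_lit 5) (nat_lit 126) (nat_lit 220) (nat_lit 224)) (PT.lf (nat_lit 6612) (nat_lit 6) (nat_lit 87) (nat_lit 5) (nat_lit 127) (nat_lit 220) (nat_lit 223))) (PT.nd (nat_lit 78) (PT.lf (nat_lit 6916) (nat_lit 6) (nat_lit 91) (nat_lit 5) (nat_lit 128) (nat_lit 220) (nat_lit 222)) (PT.lf (nat_lit 7296) (nat_lit 6) (nat_lit 96) (nat_lit 5) (nat_lit 129) (nat_lit 220) (nat_lit 221)))))) (PT.nd (nat_lit 546) (PT.nd (nat_lit 234) (PT.nd (nat_lit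 78) (PT.lf (nat_lit 7600) (nat_lit 3) (nat_lit 100) (nat_lit 4) (nat_lit 130) (nat_lit 220) (nat_lit 220)) (PT.nd (nat_lit 78) (PT.lf (nat_lit 7904) (nat_lit 6) (nat_lit 104) (nat_lit 4) (nat_lit 131) (nat_lit 220) (nat_lit 219)) (PT.lf (nat_lit 8208) (nat_lit 6) (nat_lit 108) (nat_lit 4) (nat_lit 132) (nat_lit 220) (nat_lit 218)))) (PT.nd (nat_lit 156) (PT.nd (nat_lit 78) (PT.lf (nat_lit 8512) (nat_lit 6) (nat_lit 112) (nat_lit 4) (nat_lit 133) (nat_lit 220) (nat_lit 217)) (PT.lf (nat_lit 8816) (nat_lit 6) (nat_lit 116) (nat_lit 4) (nat_lit 134) (nat_lit 220) (nat_lit 216))) (PT.nd (nat_lit 78) (PT.lf (nat_lit 9196) (nat_lit 6) (nat_lit 121) (nat_lit 4) (nat_lit 135) (nat_lit 220) (nat_lit 215)) (PT.lf (nat_lit 9500) (nat_lit 6) (nat_lit 125) (nat_lit 4) (nat_lit 136) (nat_lit 220) (nat_lit 214))))) (PT.nd (nat_lit 312) (PT.nd (nat_lit 156) (PT.nd (nat_lit 78) (PT.lf (nat_lit 9880) (nat_lit 6) (nat_lit 130) (nat_lit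 4) (nat_lit 137) (nat_lit 220) (nat_lit 213)) (PT.lf (nat_lit 10260) (nat_lit 6) (nat_lit 135) (nat_lit 4) (nat_lit 138) (nat_lit 220) (nat_lit 212))) (PT.nd (nat_lit 78) (PT.lf (nat_lit 10640) (nat_lit 6) (nat_lit 140) (nat_lit 4) (nat_lit 139) (nat_lit 220) (nat_lit 211)) (PT.lf (nat_lit 11020) (nat_lit 6) (nat_lit 145) (nat_lit 4) (nat_lit 140) (nat_lit 220) (nat_lit 210)))) (PT.nd (nat_lit 5382) (PT.nd (nat_lit 5304) (PT.lf (nat_lit 11476) (nat_lit 6) (nat_lit 151) (nat_lit 4) (nat_lit 141) (nat_lit 220) (nat_lit 209)) (PT.lf (nat_lit 11476) (nat_lit 6) (nat_lit 151) (nat_lit 2) (nat_lit 209) (nat_lit 220) (nat_lit 141))) (PT.nd (nat_lit 78) (PT.lf (nat_lit 11020) (nat_lit 6) (nat_lit 145) (nat_lit 2) (nat_lit 210) (nat_lit 220) (nat_lit 140)) (PT.lf (nat_lit 10640) (nat_lit 6) (nat_lit 140) (nat_lit 2) (nat_lit 211) (nat_lit 220) (nat_lit 139))))))))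
noncomputable def pc58 : PT := (PT.nd (nat_lit 53430) (PT.nd (nat_lit 1092) (PT.nd (nat_lit 546) (PT.nd (nat_lit 234) (PT.nd (nat_lit 78) (PT.lf (nat_lit 10260) (nat_lit 6) (nat_lit 135) (nat_lit 2) (nat_lit 212) (nat_lit 220) (nat_lit 138)) (PT.nd (nat_lit 78) (PT.lf (nat_lit 9880) (nat_lit 6) (nat_lit 130) (nat_lit 2) (nat_lit 213) (nat_lit 220) (nat_lit 137)) (PT.lf (nat_lit 9500) (nat_lit 6) (nat_lit 125) (nat_lit 2) (nat_lit 214) (nat_lit 220) (nat_lit 136)))) (PT.nd (nat_lit 156) (PT.nd (nat_lit 78) (PT.lf (nat_lit 9196) (nat_lit 6) (nat_lit 121) (nat_lit 2) (nat_lit 215) (nat_lit 220) (nat_lit 135)) (PT.lf (nat_lit 8816) (nat_lit 6) (nat_lit 116) (nat_lit 2) (nat_lit 216) (nat_lit 220) (nat_lit 134))) (PT.nd (nat_lit 78) (PT.lf (nat_lit 8512) (nat_lit 6) (nat_lit 112) (nat_lit 2) (nat_lit 217) (nat_lit 220) (nat_lit 133)) (PT.lf (nat_lit 8208) (nat_lit 6) (nat_lit 108) (nat_lit 2) (nat_lit 218) (nat_lit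 220) (nat_lit 132))))) (PT.nd (nat_lit 234) (PT.nd (nat_lit 78) (PT.lf (nat_lit 7904) (nat_lit 6) (nat_lit 104) (nat_lit 2) (nat_lit 219) (nat_lit 220) (nat_lit 131)) (PT.nd (nat_lit 78) (PT.lf (nat_lit 7600) (nat_lit 3) (nat_lit 100) (nat_lit 0) (nat_lit 220) (nat_lit 220) (nat_lit 130)) (PT.lf (nat_lit 7296) (nat_lit 6) (nat_lit 96) (nat_lit 0) (nat_lit 221) (nat_lit 220) (nat_lit 129)))) (PT.nd (nat_lit 156) (PT.nd (nat_lit 78) (PT.lf (nat_lit 6916) (nat_lit 6) (nat_lit 91) (nat_lit 0) (nat_lit 222) (nat_lit 220) (nat_lit 128)) (PT.lf (nat_lit 6612) (nat_lit 6) (nat_lit 87) (nat_lit 0) (nat_lit 223) (nat_lit 220) (nat_lit 127))) (PT.nd (nat_lit 78) (PT.lf (nat_lit 6232) (nat_lit 6) (nat_lit 82) (nat_lit 0) (nat_lit 224) (nat_lit 220) (nat_lit 126)) (PT.lf (nat_lit 5928) (nat_lit 6) (nat_lit 78) (nat_lit 0) (nat_lit 225) (nat_lit 220) (nat_lit 125)))))) (PT.nd (nat_lit 51714) (PT.nd (nat_lit 51402) (PT.nd (nat_lit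 51246) (PT.lf (nat_lit 5624) (nat_lit 6) (nat_lit 74) (nat_lit 0) (nat_lit 226) (nat_lit 220) (nat_lit 124)) (PT.nd (nat_lit 78) (PT.lf (nat_lit 5092) (nat_lit 6) (nat_lit 67) (nat_lit 5) (nat_lit 122) (nat_lit 221) (nat_lit 227)) (PT.lf (nat_lit 5396) (nat_lit 6) (nat_lit 71) (nat_lit 5) (nat_lit 123) (nat_lit 221) (nat_lit 226)))) (PT.nd (nat_lit 156) (PT.nd (nat_lit 78) (PT.lf (nat_lit 5700) (nat_lit 6) (nat_lit 75) (nat_lit 5) (nat_lit 124) (nat_lit 221) (nat_lit 225)) (PT.lf (nat_lit 6004) (nat_lit 6) (nat_lit 79) (nat_lit 5) (nat_lit 125) (nat_lit 221) (nat_lit 224))) (PT.nd (nat_lit 78) (PT.lf (nat_lit 6308) (nat_lit 6) (nat_lit 83) (nat_lit 5) (nat_lit 126) (nat_lit 221) (nat_lit 223)) (PT.lf (nat_lit 6688) (nat_lit 6) (nat_lit 88) (nat_lit 5) (nat_lit 127) (nat_lit 221) (nat_lit 222))))) (PT.nd (nat_lit 312) (PT.nd (nat_lit 156) (PT.nd (nat_lit 78) (PT.lf (nat_lit 6992) (nat_lit 3) (nat_lit 92) (nat_lit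 4) (nat_lit 128) (nat_lit 221) (nat_lit 221)) (PT.lf (nat_lit 7296) (nat_lit 6) (nat_lit 96) (nat_lit 4) (nat_lit 129) (nat_lit 221) (nat_lit 220))) (PT.nd (nat_lit 78) (PT.lf (nat_lit 7524) (nat_lit 6) (nat_lit 99) (nat_lit 4) (nat_lit 130) (nat_lit 221) (nat_lit 219)) (PT.lf (nat_lit 7828) (nat_lit 6) (nat_lit 103) (nat_lit 4) (nat_lit 131) (nat_lit 221) (nat_lit 218)))) (PT.nd (nat_lit 156) (PT.nd (nat_lit 78) (PT.lf (nat_lit 8132) (nat_lit 6) (nat_lit 107) (nat_lit 4) (nat_lit 132) (nat_lit 221) (nat_lit 217)) (PT.lf (nat_lit 8436) (nat_lit 6) (nat_lit 111) (nat_lit 4) (nat_lit 133) (nat_lit 221) (nat_lit 216))) (PT.nd (nat_lit 78) (PT.lf (nat_lit 8740) (nat_lit 6) (nat_lit 115) (nat_lit 4) (nat_lit 134) (nat_lit 221) (nat_lit 215)) (PT.lf (nat_lit 9120) (nat_lit 6) (nat_lit 120) (nat_lit 4) (nat_lit 135) (nat_lit 221) (nat_lit 214))))))) (PT.nd (nat_lit 6708) (PT.nd (nat_lit 6162) (PT.nd (nat_lit 5850) (PT.nd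 (nat_lit 78) (PT.lf (nat_lit 9424) (nat_lit 6) (nat_lit 124) (nat_lit 4) (nat_lit 136) (nat_lit 221) (nat_lit 213)) (PT.nd (nat_lit 78) (PT.lf (nat_lit 9804) (nat_lit 6) (nat_lit 129) (nat_lit 4) (nat_lit 137) (nat_lit 221) (nat_lit 212)) (PT.lf (nat_lit 10184) (nat_lit 6) (nat_lit 134) (nat_lit 4) (nat_lit 138) (nat_lit 221) (nat_lit 211)))) (PT.nd (nat_lit 156) (PT.nd (nat_lit 78) (PT.lf (nat_lit 10184) (nat_lit 6) (nat_lit 134) (nat_lit 2) (nat_lit 211) (nat_lit 221) (nat_lit 138)) (PT.lf (nat_lit 9804) (nat_lit 6) (nat_lit 129) (nat_lit 2) (nat_lit 212) (nat_lit 221) (nat_lit 137))) (PT.nd (nat_lit 78) (PT.lf (nat_lit 9424) (nat_lit 6) (nat_lit 124) (nat_lit 2) (nat_lit 213) (nat_lit 221) (nat_lit 136)) (PT.lf (nat_lit 9120) (nat_lit 6) (nat_lit 120) (nat_lit 2) (nat_lit 214) (nat_lit 221) (nat_lit 135))))) (PT.nd (nat_lit 234) (PT.nd (nat_lit 78) (PT.lf (nat_lit 8740) (nat_lit 6) (nat_lit 115) (nat_lit 2)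 (nat_lit 215) (nat_lit 221) (nat_lit 134)) (PT.nd (nat_lit 78) (PT.lf (nat_lit 8436) (nat_lit 6) (nat_lit 111) (nat_lit 2) (nat_lit 216) (nat_lit 221) (nat_lit 133)) (PT.lf (nat_lit 8132) (nat_lit 6) (nat_lit 107) (nat_lit 2) (nat_lit 217) (nat_lit 221) (nat_lit 132)))) (PT.nd (nat_lit 156) (PT.nd (nat_lit 78) (PT.lf (nat_lit 7828) (nat_lit 6) (nat_lit 103) (nat_lit 2) (nat_lit 218) (nat_lit 221) (nat_lit 131)) (PT.lf (nat_lit 7524) (nat_lit 6) (nat_lit 99) (nat_lit 2) (nat_lit 219) (nat_lit 221) (nat_lit 130))) (PT.nd (nat_lit 78) (PT.lf (nat_lit 7296) (nat_lit 6) (nat_lit 96) (nat_lit 2) (nat_lit 220) (nat_lit 221) (nat_lit 129)) (PT.lf (nat_lit 6992) (nat_lit 3) (nat_lit 92) (nat_lit 0) (nat_lit 221) (nat_lit 221) (nat_lit 128)))))) (PT.nd (nat_lit 51558) (PT.nd (nat_lit 234) (PT.nd (nat_lit 78) (PT.lf (nat_lit 6688) (nat_lit 6) (nat_lit 88) (nat_lit 0) (nat_lit 222) (nat_lit 221) (nat_lit 127)) (PT.nd (nat_lit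 78) (PT.lf (nat_lit 6308) (nat_lit 6) (nat_lit 83) (nat_lit 0) (nat_lit 223) (nat_lit 221) (nat_lit 126)) (PT.lf (nat_lit 6004) (nat_lit 6) (nat_lit 79) (nat_lit 0) (nat_lit 224) (nat_lit 221) (nat_lit 125)))) (PT.nd (nat_lit 156) (PT.nd (nat_lit 78) (PT.lf (nat_lit 5700) (nat_lit 6) (nat_lit 75) (nat_lit 0) (nat_lit 225) (nat_lit 221) (nat_lit 124)) (PT.lf (nat_lit 5396) (nat_lit 6) (nat_lit 71) (nat_lit 0) (nat_lit 226) (nat_lit 221) (nat_lit 123))) (PT.nd (nat_lit 51090) (PT.lf (nat_lit 5092) (nat_lit 6) (nat_lit 67) (nat_lit 0) (nat_lit 227) (nat_lit 221) (nat_lit 122)) (PT.lf (nat_lit 4864) (nat_lit 6) (nat_lit 64) (nat_lit 5) (nat_lit 121) (nat_lit 222) (nat_lit 227))))) (PT.nd (nat_lit 312) (PT.nd (nat_lit 156) (PT.nd (nat_lit 78) (PT.lf (nat_lit 5168) (nat_lit 6) (nat_lit 68) (nat_lit 5) (nat_lit 122) (nat_lit 222) (nat_lit 226)) (PT.lf (nat_lit 5472) (nat_lit 6) (nat_lit 72) (nat_lit 5) (nat_lit 123) (nat_lit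 222) (nat_lit 225))) (PT.nd (nat_lit 78) (PT.lf (nat_lit 5776) (nat_lit 6) (nat_lit 76) (nat_lit 5) (nat_lit 124) (nat_lit 222) (nat_lit 224)) (PT.lf (nat_lit 6080) (nat_lit 6) (nat_lit 80) (nat_lit 5) (nat_lit 125) (nat_lit 222) (nat_lit 223)))) (PT.nd (nat_lit 156) (PT.nd (nat_lit 78) (PT.lf (nat_lit 6384) (nat_lit 3) (nat_lit 84) (nat_lit 4) (nat_lit 126) (nat_lit 222) (nat_lit 222)) (PT.lf (nat_lit 6688) (nat_lit 6) (nat_lit 88) (nat_lit 4) (nat_lit 127) (nat_lit 222) (nat_lit 221))) (PT.nd (nat_lit 78) (PT.lf (nat_lit 6916) (nat_lit 6) (nat_lit 91) (nat_lit 4) (nat_lit 128) (nat_lit 222) (nat_lit 220)) (PT.lf (nat_lit 7220) (nat_lit 6) (nat_lit 95) (nat_lit 4) (nat_lit 129) (nat_lit 222) (nat_lit 219))))))))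
noncomputable def pc59 : PT := (PT.nd (nat_lit 59124) (PT.nd (nat_lit 7098) (PT.nd (nat_lit 6552) (PT.nd (nat_lit 234) (PT.nd (nat_lit 78) (PT.lf (nat_lit 7448) (nat_lit 6) (nat_lit 98) (nat_lit 4) (nat_lit 130) (nat_lit 222) (nat_lit 218)) (PT.nd (nat_lit 78) (PT.lf (nat_lit 7752) (nat_lit 6) (nat_lit 102) (nat_lit 4) (nat_lit 131) (nat_lit 222) (nat_lit 217)) (PT.lf (nat_lit 8056) (nat_lit 6) (nat_lit 106) (nat_lit 4) (nat_lit 132) (nat_lit 222) (nat_lit 216)))) (PT.nd (nat_lit 156) (PT.nd (nat_lit 78) (PT.lf (nat_lit 8360) (nat_lit 6) (nat_lit 110) (nat_lit 4) (nat_lit 133) (nat_lit 222) (nat_lit 215)) (PT.lf (nat_lit 8664) (nat_lit 6) (nat_lit 114) (nat_lit 4) (nat_lit 134) (nat_lit 222) (nat_lit 214))) (PT.nd (nat_lit 6084) (PT.lf (nat_lit 9044) (nat_lit 6) (nat_lit 119) (nat_lit 4) (nat_lit 135) (nat_lit 222) (nat_lit 213)) (PT.lf (nat_lit 9044) (nat_lit 6) (nat_lit 119) (nat_lit 2) (nat_lit 213) (nat_lit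 222) (nat_lit 135))))) (PT.nd (nat_lit 234) (PT.nd (nat_lit 78) (PT.lf (nat_lit 8664) (nat_lit 6) (nat_lit 114) (nat_lit 2) (nat_lit 214) (nat_lit 222) (nat_lit 134)) (PT.nd (nat_lit 78) (PT.lf (nat_lit 8360) (nat_lit 6) (nat_lit 110) (nat_lit 2) (nat_lit 215) (nat_lit 222) (nat_lit 133)) (PT.lf (nat_lit 8056) (nat_lit 6) (nat_lit 106) (nat_lit 2) (nat_lit 216) (nat_lit 222) (nat_lit 132)))) (PT.nd (nat_lit 156) (PT.nd (nat_lit 78) (PT.lf (nat_lit 7752) (nat_lit 6) (nat_lit 102) (nat_lit 2) (nat_lit 217) (nat_lit 222) (nat_lit 131)) (PT.lf (nat_lit 7448) (nat_lit 6) (nat_lit 98) (nat_lit 2) (nat_lit 218) (nat_lit 222) (nat_lit 130))) (PT.nd (nat_lit 78) (PT.lf (nat_lit 7220) (nat_lit 6) (nat_lit 95) (nat_lit 2) (nat_lit 219) (nat_lit 222) (nat_lit 129)) (PT.lf (nat_lit 6916) (nat_lit 6) (nat_lit 91) (nat_lit 2) (nat_lit 220) (nat_lit 222) (nat_lit 128)))))) (PT.nd (nat_lit 51402) (PT.nd (nat_lit 234) (PT.nd (nat_lit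 78) (PT.lf (nat_lit 6688) (nat_lit 6) (nat_lit 88) (nat_lit 2) (nat_lit 221) (nat_lit 222) (nat_lit 127)) (PT.nd (nat_lit 78) (PT.lf (nat_lit 6384) (nat_lit 3) (nat_lit 84) (nat_lit 0) (nat_lit 222) (nat_lit 222) (nat_lit 126)) (PT.lf (nat_lit 6080) (nat_lit 6) (nat_lit 80) (nat_lit 0) (nat_lit 223) (nat_lit 222) (nat_lit 125)))) (PT.nd (nat_lit 156) (PT.nd (nat_lit 78) (PT.lf (nat_lit 5776) (nat_lit 6) (nat_lit 76) (nat_lit 0) (nat_lit 224) (nat_lit 222) (nat_lit 124)) (PT.lf (nat_lit 5472) (nat_lit 6) (nat_lit 72) (nat_lit 0) (nat_lit 225) (nat_lit 222) (nat_lit 123))) (PT.nd (nat_lit 78) (PT.lf (nat_lit 5168) (nat_lit 6) (nat_lit 68) (nat_lit 0) (nat_lit 226) (nat_lit 222) (nat_lit 122)) (PT.lf (nat_lit 4864) (nat_lit 6) (nat_lit 64) (nat_lit 0) (nat_lit 227) (nat_lit 222) (nat_lit 121))))) (PT.nd (nat_lit 312) (PT.nd (nat_lit 156) (PT.nd (nat_lit 78) (PT.lf (nat_lit 4408) (nat_lit 6) (nat_lit 58) (nat_lit 5)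 (nat_lit 119) (nat_lit 223) (nat_lit 228)) (PT.lf (nat_lit 4636) (nat_lit 6) (nat_lit 61) (nat_lit 5) (nat_lit 120) (nat_lit 223) (nat_lit 227))) (PT.nd (nat_lit 78) (PT.lf (nat_lit 4940) (nat_lit 6) (nat_lit 65) (nat_lit 5) (nat_lit 121) (nat_lit 223) (nat_lit 226)) (PT.lf (nat_lit 5244) (nat_lit 6) (nat_lit 69) (nat_lit 5) (nat_lit 122) (nat_lit 223) (nat_lit 225)))) (PT.nd (nat_lit 156) (PT.nd (nat_lit 78) (PT.lf (nat_lit 5548) (nat_lit 6) (nat_lit 73) (nat_lit 5) (nat_lit 123) (nat_lit 223) (nat_lit 224)) (PT.lf (nat_lit 5852) (nat_lit 3) (nat_lit 77) (nat_lit 4) (nat_lit 124) (nat_lit 223) (nat_lit 223))) (PT.nd (nat_lit 78) (PT.lf (nat_lit 6080) (nat_lit 6) (nat_lit 80) (nat_lit 4) (nat_lit 125) (nat_lit 223) (nat_lit 222)) (PT.lf (nat_lit 6308) (nat_lit 6) (nat_lit 83) (nat_lit 4) (nat_lit 126) (nat_lit 223) (nat_lit 221))))))) (PT.nd (nat_lit 7566) (PT.nd (nat_lit 6942) (PT.nd (nat_lit 234) (PT.nd (nat_lit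 78) (PT.lf (nat_lit 6612) (nat_lit 6) (nat_lit 87) (nat_lit 4) (nat_lit 127) (nat_lit 223) (nat_lit 220)) (PT.nd (nat_lit 78) (PT.lf (nat_lit 6840) (nat_lit 6) (nat_lit 90) (nat_lit 4) (nat_lit 128) (nat_lit 223) (nat_lit 219)) (PT.lf (nat_lit 7144) (nat_lit 6) (nat_lit 94) (nat_lit 4) (nat_lit 129) (nat_lit 223) (nat_lit 218)))) (PT.nd (nat_lit 156) (PT.nd (nat_lit 78) (PT.lf (nat_lit 7372) (nat_lit 6) (nat_lit 97) (nat_lit 4) (nat_lit 130) (nat_lit 223) (nat_lit 217)) (PT.lf (nat_lit 7676) (nat_lit 6) (nat_lit 101) (nat_lit 4) (nat_lit 131) (nat_lit 223) (nat_lit 216))) (PT.nd (nat_lit 6474) (PT.lf (nat_lit 7980) (nat_lit 6) (nat_lit 105) (nat_lit 4) (nat_lit 132) (nat_lit 223) (nat_lit 215)) (PT.lf (nat_lit 7980) (nat_lit 6) (nat_lit 105) (nat_lit 2) (nat_lit 215) (nat_lit 223) (nat_lit 132))))) (PT.nd (nat_lit 312) (PT.nd (nat_lit 156) (PT.nd (nat_lit 78) (PT.lf (nat_lit 7676) (nat_lit 6) (nat_lit 101) (nat_lit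 2) (nat_lit 216) (nat_lit 223) (nat_lit 131)) (PT.lf (nat_lit 7372) (nat_lit 6) (nat_lit 97) (nat_lit 2) (nat_lit 217) (nat_lit 223) (nat_lit 130))) (PT.nd (nat_lit 78) (PT.lf (nat_lit 7144) (nat_lit 6) (nat_lit 94) (nat_lit 2) (nat_lit 218) (nat_lit 223) (nat_lit 129)) (PT.lf (nat_lit 6840) (nat_lit 6) (nat_lit 90) (nat_lit 2) (nat_lit 219) (nat_lit 223) (nat_lit 128)))) (PT.nd (nat_lit 156) (PT.nd (nat_lit 78) (PT.lf (nat_lit 6612) (nat_lit 6) (nat_lit 87) (nat_lit 2) (nat_lit 220) (nat_lit 223) (nat_lit 127)) (PT.lf (nat_lit 6308) (nat_lit 6) (nat_lit 83) (nat_lit 2) (nat_lit 221) (nat_lit 223) (nat_lit 126))) (PT.nd (nat_lit 78) (PT.lf (nat_lit 6080) (nat_lit 6) (nat_lit 80) (nat_lit 2) (nat_lit 222) (nat_lit 223) (nat_lit 125)) (PT.lf (nat_lit 5852) (nat_lit 3) (nat_lit 77) (nat_lit 0) (nat_lit 223) (nat_lit 223) (nat_lit 124)))))) (PT.nd (nat_lit 51168) (PT.nd (nat_lit 234) (PT.nd (nat_lit 78) (PT.lf (nat_lit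 5548) (nat_lit 6) (nat_lit 73) (nat_lit 0) (nat_lit 224) (nat_lit 223) (nat_lit 123)) (PT.nd (nat_lit 78) (PT.lf (nat_lit 5244) (nat_lit 6) (nat_lit 69) (nat_lit 0) (nat_lit 225) (nat_lit 223) (nat_lit 122)) (PT.lf (nat_lit 4940) (nat_lit 6) (nat_lit 65) (nat_lit 0) (nat_lit 226) (nat_lit 223) (nat_lit 121)))) (PT.nd (nat_lit 50778) (PT.nd (nat_lit 78) (PT.lf (nat_lit 4636) (nat_lit 6) (nat_lit 61) (nat_lit 0) (nat_lit 227) (nat_lit 223) (nat_lit 120)) (PT.lf (nat_lit 4408) (nat_lit 6) (nat_lit 58) (nat_lit 0) (nat_lit 228) (nat_lit 223) (nat_lit 119))) (PT.nd (nat_lit 78) (PT.lf (nat_lit 3952) (nat_lit 6) (nat_lit 52) (nat_lit 5) (nat_lit 117) (nat_lit 224) (nat_lit 229)) (PT.lf (nat_lit 4180) (nat_lit 6) (nat_lit 55) (nat_lit 5) (nat_lit 118) (nat_lit 224) (nat_lit 228))))) (PT.nd (nat_lit 312) (PT.nd (nat_lit 156) (PT.nd (nat_lit 78) (PT.lf (nat_lit 4484) (nat_lit 6) (nat_lit 59) (nat_lit 5) (nat_lit 119) (nat_lit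 224) (nat_lit 227)) (PT.lf (nat_lit 4712) (nat_lit 6) (nat_lit 62) (nat_lit 5) (nat_lit 120) (nat_lit 224) (nat_lit 226))) (PT.nd (nat_lit 78) (PT.lf (nat_lit 5016) (nat_lit 6) (nat_lit 66) (nat_lit 5) (nat_lit 121) (nat_lit 224) (nat_lit 225)) (PT.lf (nat_lit 5320) (nat_lit 3) (nat_lit 70) (nat_lit 4) (nat_lit 122) (nat_lit 224) (nat_lit 224)))) (PT.nd (nat_lit 156) (PT.nd (nat_lit 78) (PT.lf (nat_lit 5548) (nat_lit 6) (nat_lit 73) (nat_lit 4) (nat_lit 123) (nat_lit 224) (nat_lit 223)) (PT.lf (nat_lit 5776) (nat_lit 6) (nat_lit 76) (nat_lit 4) (nat_lit 124) (nat_lit 224) (nat_lit 222))) (PT.nd (nat_lit 78) (PT.lf (nat_lit 6004) (nat_lit 6) (nat_lit 79) (nat_lit 4) (nat_lit 125) (nat_lit 224) (nat_lit 221)) (PT.lf (nat_lit 6232) (nat_lit 6) (nat_lit 82) (nat_lit 4) (nat_lit 126) (nat_lit 224) (nat_lit 220))))))))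
noncomputable def pc60 : PT := (PT.nd (nat_lit 66534) (PT.nd (nat_lit 7878) (PT.nd (nat_lit 7332) (PT.nd (nat_lit 7020) (PT.nd (nat_lit 78) (PT.lf (nat_lit 6536) (nat_lit 6) (nat_lit 86) (nat_lit 4) (nat_lit 127) (nat_lit 224) (nat_lit 219)) (PT.nd (nat_lit 78) (PT.lf (nat_lit 6764) (nat_lit 6) (nat_lit 89) (nat_lit 4) (nat_lit 128) (nat_lit 224) (nat_lit 218)) (PT.lf (nat_lit 7068) (nat_lit 6) (nat_lit 93) (nat_lit 4) (nat_lit 129) (nat_lit 224) (nat_lit 217)))) (PT.nd (nat_lit 156) (PT.nd (nat_lit 78) (PT.lf (nat_lit 7068) (nat_lit 6) (nat_lit 93) (nat_lit 2) (nat_lit 217) (nat_lit 224) (nat_lit 129)) (PT.lf (nat_lit 6764) (nat_lit 6) (nat_lit 89) (nat_lit 2) (nat_lit 218) (nat_lit 224) (nat_lit 128))) (PT.nd (nat_lit 78) (PT.lf (nat_lit 6536) (nat_lit 6) (nat_lit 86) (nat_lit 2) (nat_lit 219) (nat_lit 224) (nat_lit 127)) (PT.lf (nat_lit 6232) (nat_lit 6) (nat_lit 82) (nat_lit 2) (nat_lit 220) (nat_lit 224) (nat_lit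 126))))) (PT.nd (nat_lit 234) (PT.nd (nat_lit 78) (PT.lf (nat_lit 6004) (nat_lit 6) (nat_lit 79) (nat_lit 2) (nat_lit 221) (nat_lit 224) (nat_lit 125)) (PT.nd (nat_lit 78) (PT.lf (nat_lit 5776) (nat_lit 6) (nat_lit 76) (nat_lit 2) (nat_lit 222) (nat_lit 224) (nat_lit 124)) (PT.lf (nat_lit 5548) (nat_lit 6) (nat_lit 73) (nat_lit 2) (nat_lit 223) (nat_lit 224) (nat_lit 123)))) (PT.nd (nat_lit 156) (PT.nd (nat_lit 78) (PT.lf (nat_lit 5320) (nat_lit 3) (nat_lit 70) (nat_lit 0) (nat_lit 224) (nat_lit 224) (nat_lit 122)) (PT.lf (nat_lit 5016) (nat_lit 6) (nat_lit 66) (nat_lit 0) (nat_lit 225) (nat_lit 224) (nat_lit 121))) (PT.nd (nat_lit 78) (PT.lf (nat_lit 4712) (nat_lit 6) (nat_lit 62) (nat_lit 0) (nat_lit 226) (nat_lit 224) (nat_lit 120)) (PT.lf (nat_lit 4484) (nat_lit 6) (nat_lit 59) (nat_lit 0) (nat_lit 227) (nat_lit 224) (nat_lit 119)))))) (PT.nd (nat_lit 51012) (PT.nd (nat_lit 50700) (PT.nd (nat_lit 78) (PT.lf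 (nat_lit 4180) (nat_lit 6) (nat_lit 55) (nat_lit 0) (nat_lit 228) (nat_lit 224) (nat_lit 118)) (PT.nd (nat_lit 50544) (PT.lf (nat_lit 3952) (nat_lit 6) (nat_lit 52) (nat_lit 0) (nat_lit 229) (nat_lit 224) (nat_lit 117)) (PT.lf (nat_lit 3724) (nat_lit 6) (nat_lit 49) (nat_lit 5) (nat_lit 116) (nat_lit 225) (nat_lit 229)))) (PT.nd (nat_lit 156) (PT.nd (nat_lit 78) (PT.lf (nat_lit 4028) (nat_lit 6) (nat_lit 53) (nat_lit 5) (nat_lit 117) (nat_lit 225) (nat_lit 228)) (PT.lf (nat_lit 4256) (nat_lit 6) (nat_lit 56) (nat_lit 5) (nat_lit 118) (nat_lit 225) (nat_lit 227))) (PT.nd (nat_lit 78) (PT.lf (nat_lit 4560) (nat_lit 6) (nat_lit 60) (nat_lit 5) (nat_lit 119) (nat_lit 225) (nat_lit 226)) (PT.lf (nat_lit 4788) (nat_lit 3) (nat_lit 63) (nat_lit 4) (nat_lit 120) (nat_lit 225) (nat_lit 225))))) (PT.nd (nat_lit 312) (PT.nd (nat_lit 156) (PT.nd (nat_lit 78) (PT.lf (nat_lit 5016) (nat_lit 6) (nat_lit 66) (nat_lit 4) (nat_lit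 121) (nat_lit 225) (nat_lit 224)) (PT.lf (nat_lit 5244) (nat_lit 6) (nat_lit 69) (nat_lit 4) (nat_lit 122) (nat_lit 225) (nat_lit 223))) (PT.nd (nat_lit 78) (PT.lf (nat_lit 5472) (nat_lit 6) (nat_lit 72) (nat_lit 4) (nat_lit 123) (nat_lit 225) (nat_lit 222)) (PT.lf (nat_lit 5700) (nat_lit 6) (nat_lit 75) (nat_lit 4) (nat_lit 124) (nat_lit 225) (nat_lit 221)))) (PT.nd (nat_lit 156) (PT.nd (nat_lit 78) (PT.lf (nat_lit 5928) (nat_lit 6) (nat_lit 78) (nat_lit 4) (nat_lit 125) (nat_lit 225) (nat_lit 220)) (PT.lf (nat_lit 6156) (nat_lit 6) (nat_lit 81) (nat_lit 4) (nat_lit 126) (nat_lit 225) (nat_lit 219))) (PT.nd (nat_lit 7098) (PT.lf (nat_lit 6460) (nat_lit 6) (nat_lit 85) (nat_lit 4) (nat_lit 127) (nat_lit 225) (nat_lit 218)) (PT.lf (nat_lit 6460) (nat_lit 6) (nat_lit 85) (nat_lit 2) (nat_lit 218) (nat_lit 225) (nat_lit 127))))))) (PT.nd (nat_lit 51402) (PT.nd (nat_lit 546) (PT.nd (nat_lit 234) (PT.nd (nat_lit 78)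 (PT.lf (nat_lit 6156) (nat_lit 6) (nat_lit 81) (nat_lit 2) (nat_lit 219) (nat_lit 225) (nat_lit 126)) (PT.nd (nat_lit 78) (PT.lf (nat_lit 5928) (nat_lit 6) (nat_lit 78) (nat_lit 2) (nat_lit 220) (nat_lit 225) (nat_lit 125)) (PT.lf (nat_lit 5700) (nat_lit 6) (nat_lit 75) (nat_lit 2) (nat_lit 221) (nat_lit 225) (nat_lit 124)))) (PT.nd (nat_lit 156) (PT.nd (nat_lit 78) (PT.lf (nat_lit 5472) (nat_lit 6) (nat_lit 72) (nat_lit 2) (nat_lit 222) (nat_lit 225) (nat_lit 123)) (PT.lf (nat_lit 5244) (nat_lit 6) (nat_lit 69) (nat_lit 2) (nat_lit 223) (nat_lit 225) (nat_lit 122))) (PT.nd (nat_lit 78) (PT.lf (nat_lit 5016) (nat_lit 6) (nat_lit 66) (nat_lit 2) (nat_lit 224) (nat_lit 225) (nat_lit 121)) (PT.lf (nat_lit 4788) (nat_lit 3) (nat_lit 63) (nat_lit 0) (nat_lit 225) (nat_lit 225) (nat_lit 120))))) (PT.nd (nat_lit 234) (PT.nd (nat_lit 78) (PT.lf (nat_lit 4560) (nat_lit 6) (nat_lit 60) (nat_lit 0) (nat_lit 226) (nat_lit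 225) (nat_lit 119)) (PT.nd (nat_lit 78) (PT.lf (nat_lit 4256) (nat_lit 6) (nat_lit 56) (nat_lit 0) (nat_lit 227) (nat_lit 225) (nat_lit 118)) (PT.lf (nat_lit 4028) (nat_lit 6) (nat_lit 53) (nat_lit 0) (nat_lit 228) (nat_lit 225) (nat_lit 117)))) (PT.nd (nat_lit 50466) (PT.nd (nat_lit 50388) (PT.lf (nat_lit 3724) (nat_lit 6) (nat_lit 49) (nat_lit 0) (nat_lit 229) (nat_lit 225) (nat_lit 116)) (PT.lf (nat_lit 3268) (nat_lit 6) (nat_lit 43) (nat_lit 5) (nat_lit 114) (nat_lit 226) (nat_lit 230))) (PT.nd (nat_lit 78) (PT.lf (nat_lit 3572) (nat_lit 6) (nat_lit 47) (nat_lit 5) (nat_lit 115) (nat_lit 226) (nat_lit 229)) (PT.lf (nat_lit 3800) (nat_lit 6) (nat_lit 50) (nat_lit 5) (nat_lit 116) (nat_lit 226) (nat_lit 228)))))) (PT.nd (nat_lit 546) (PT.nd (nat_lit 234) (PT.nd (nat_lit 78) (PT.lf (nat_lit 4104) (nat_lit 6) (nat_lit 54) (nat_lit 5) (nat_lit 117) (nat_lit 226) (nat_lit 227)) (PT.nd (nat_lit 78) (PT.lf (nat_lit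 4332) (nat_lit 3) (nat_lit 57) (nat_lit 4) (nat_lit 118) (nat_lit 226) (nat_lit 226)) (PT.lf (nat_lit 4560) (nat_lit 6) (nat_lit 60) (nat_lit 4) (nat_lit 119) (nat_lit 226) (nat_lit 225)))) (PT.nd (nat_lit 156) (PT.nd (nat_lit 78) (PT.lf (nat_lit 4712) (nat_lit 6) (nat_lit 62) (nat_lit 4) (nat_lit 120) (nat_lit 226) (nat_lit 224)) (PT.lf (nat_lit 4940) (nat_lit 6) (nat_lit 65) (nat_lit 4) (nat_lit 121) (nat_lit 226) (nat_lit 223))) (PT.nd (nat_lit 78) (PT.lf (nat_lit 5168) (nat_lit 6) (nat_lit 68) (nat_lit 4) (nat_lit 122) (nat_lit 226) (nat_lit 222)) (PT.lf (nat_lit 5396) (nat_lit 6) (nat_lit 71) (nat_lit 4) (nat_lit 123) (nat_lit 226) (nat_lit 221))))) (PT.nd (nat_lit 7722) (PT.nd (nat_lit 7566) (PT.nd (nat_lit 7488) (PT.lf (nat_lit 5624) (nat_lit 6) (nat_lit 74) (nat_lit 4) (nat_lit 124) (nat_lit 226) (nat_lit 220)) (PT.lf (nat_lit 5624) (nat_lit 6) (nat_lit 74) (nat_lit 2) (nat_lit 220) (nat_lit 226) (nat_lit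 124))) (PT.nd (nat_lit 78) (PT.lf (nat_lit 5396) (nat_lit 6) (nat_lit 71) (nat_lit 2) (nat_lit 221) (nat_lit 226) (nat_lit 123)) (PT.lf (nat_lit 5168) (nat_lit 6) (nat_lit 68) (nat_lit 2) (nat_lit 222) (nat_lit 226) (nat_lit 122)))) (PT.nd (nat_lit 156) (PT.nd (nat_lit 78) (PT.lf (nat_lit 4940) (nat_lit 6) (nat_lit 65) (nat_lit 2) (nat_lit 223) (nat_lit 226) (nat_lit 121)) (PT.lf (nat_lit 4712) (nat_lit 6) (nat_lit 62) (nat_lit 2) (nat_lit 224) (nat_lit 226) (nat_lit 120))) (PT.nd (nat_lit 78) (PT.lf (nat_lit 4560) (nat_lit 6) (nat_lit 60) (nat_lit 2) (nat_lit 225) (nat_lit 226) (nat_lit 119)) (PT.lf (nat_lit 4332) (nat_lit 3) (nat_lit 57) (nat_lit 0) (nat_lit 226) (nat_lit 226) (nat_lit 118))))))))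
noncomputable def pc61 : PT := (PT.nd (nat_lit 109824) (PT.nd (nat_lit 51168) (PT.nd (nat_lit 50622) (PT.nd (nat_lit 234) (PT.nd (nat_lit 78) (PT.lf (nat_lit 4104) (nat_lit 6) (nat_lit 54) (nat_lit 0) (nat_lit 227) (nat_lit 226) (nat_lit 117)) (PT.nd (nat_lit 78) (PT.lf (nat_lit 3800) (nat_lit 6) (nat_lit 50) (nat_lit 0) (nat_lit 228) (nat_lit 226) (nat_lit 116)) (PT.lf (nat_lit 3572) (nat_lit 6) (nat_lit 47) (nat_lit 0) (nat_lit 229) (nat_lit 226) (nat_lit 115)))) (PT.nd (nat_lit 50232) (PT.nd (nat_lit 50154) (PT.lf (nat_lit 3268) (nat_lit 6) (nat_lit 43) (nat_lit 0) (nat_lit 230) (nat_lit 226) (nat_lit 114)) (PT.lf (nat_lit 2888) (nat_lit 6) (nat_lit 38) (nat_lit 5) (nat_lit 112) (nat_lit 227) (nat_lit 231))) (PT.nd (nat_lit 78) (PT.lf (nat_lit 3116) (nat_lit 6) (nat_lit 41) (nat_lit 5) (nat_lit 113) (nat_lit 227) (nat_lit 230)) (PT.lf (nat_lit 3344) (nat_lit 6) (nat_lit 44) (nat_lit 5) (nat_lit 114) (nat_lit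 227) (nat_lit 229))))) (PT.nd (nat_lit 234) (PT.nd (nat_lit 78) (PT.lf (nat_lit 3648) (nat_lit 6) (nat_lit 48) (nat_lit 5) (nat_lit 115) (nat_lit 227) (nat_lit 228)) (PT.nd (nat_lit 78) (PT.lf (nat_lit 3876) (nat_lit 3) (nat_lit 51) (nat_lit 4) (nat_lit 116) (nat_lit 227) (nat_lit 227)) (PT.lf (nat_lit 4104) (nat_lit 6) (nat_lit 54) (nat_lit 4) (nat_lit 117) (nat_lit 227) (nat_lit 226)))) (PT.nd (nat_lit 156) (PT.nd (nat_lit 78) (PT.lf (nat_lit 4256) (nat_lit 6) (nat_lit 56) (nat_lit 4) (nat_lit 118) (nat_lit 227) (nat_lit 225)) (PT.lf (nat_lit 4484) (nat_lit 6) (nat_lit 59) (nat_lit 4) (nat_lit 119) (nat_lit 227) (nat_lit 224))) (PT.nd (nat_lit 78) (PT.lf (nat_lit 4636) (nat_lit 6) (nat_lit 61) (nat_lit 4) (nat_lit 120) (nat_lit 227) (nat_lit 223)) (PT.lf (nat_lit 4864) (nat_lit 6) (nat_lit 64) (nat_lit 4) (nat_lit 121) (nat_lit 227) (nat_lit 222)))))) (PT.nd (nat_lit 8190) (PT.nd (nat_lit 7878) (PT.nd (nat_lit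 7722) (PT.lf (nat_lit 5092) (nat_lit 6) (nat_lit 67) (nat_lit 4) (nat_lit 122) (nat_lit 227) (nat_lit 221)) (PT.nd (nat_lit 78) (PT.lf (nat_lit 5092) (nat_lit 6) (nat_lit 67) (nat_lit 2) (nat_lit 221) (nat_lit 227) (nat_lit 122)) (PT.lf (nat_lit 4864) (nat_lit 6) (nat_lit 64) (nat_lit 2) (nat_lit 222) (nat_lit 227) (nat_lit 121)))) (PT.nd (nat_lit 156) (PT.nd (nat_lit 78) (PT.lf (nat_lit 4636) (nat_lit 6) (nat_lit 61) (nat_lit 2) (nat_lit 223) (nat_lit 227) (nat_lit 120)) (PT.lf (nat_lit 4484) (nat_lit 6) (nat_lit 59) (nat_lit 2) (nat_lit 224) (nat_lit 227) (nat_lit 119))) (PT.nd (nat_lit 78) (PT.lf (nat_lit 4256) (nat_lit 6) (nat_lit 56) (nat_lit 2) (nat_lit 225) (nat_lit 227) (nat_lit 118)) (PT.lf (nat_lit 4104) (nat_lit 6) (nat_lit 54) (nat_lit 2) (nat_lit 226) (nat_lit 227) (nat_lit 117))))) (PT.nd (nat_lit 312) (PT.nd (nat_lit 156) (PT.nd (nat_lit 78) (PT.lf (nat_lit 3876) (nat_lit 3) (nat_lit 51) (nat_lit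 0) (nat_lit 227) (nat_lit 227) (nat_lit 116)) (PT.lf (nat_lit 3648) (nat_lit 6) (nat_lit 48) (nat_lit 0) (nat_lit 228) (nat_lit 227) (nat_lit 115))) (PT.nd (nat_lit 78) (PT.lf (nat_lit 3344) (nat_lit 6) (nat_lit 44) (nat_lit 0) (nat_lit 229) (nat_lit 227) (nat_lit 114)) (PT.lf (nat_lit 3116) (nat_lit 6) (nat_lit 41) (nat_lit 0) (nat_lit 230) (nat_lit 227) (nat_lit 113)))) (PT.nd (nat_lit 49998) (PT.nd (nat_lit 49920) (PT.lf (nat_lit 2888) (nat_lit 6) (nat_lit 38) (nat_lit 0) (nat_lit 231) (nat_lit 227) (nat_lit 112)) (PT.lf (nat_lit 2508) (nat_lit 6) (nat_lit 33) (nat_lit 5) (nat_lit 110) (nat_lit 228) (nat_lit 232))) (PT.nd (nat_lit 78) (PT.lf (nat_lit 2736) (nat_lit 6) (nat_lit 36) (nat_lit 5) (nat_lit 111) (nat_lit 228) (nat_lit 231)) (PT.lf (nat_lit 2964) (nat_lit 6) (nat_lit 39) (nat_lit 5) (nat_lit 112) (nat_lit 228) (nat_lit 230))))))) (PT.nd (nat_lit 9204) (PT.nd (nat_lit 8580) (PT.nd (nat_lit 234) (PT.nd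 (nat_lit 78) (PT.lf (nat_lit 3192) (nat_lit 6) (nat_lit 42) (nat_lit 5) (nat_lit 113) (nat_lit 228) (nat_lit 229)) (PT.nd (nat_lit 78) (PT.lf (nat_lit 3420) (nat_lit 3) (nat_lit 45) (nat_lit 4) (nat_lit 114) (nat_lit 228) (nat_lit 228)) (PT.lf (nat_lit 3648) (nat_lit 6) (nat_lit 48) (nat_lit 4) (nat_lit 115) (nat_lit 228) (nat_lit 227)))) (PT.nd (nat_lit 156) (PT.nd (nat_lit 78) (PT.lf (nat_lit 3800) (nat_lit 6) (nat_lit 50) (nat_lit 4) (nat_lit 116) (nat_lit 228) (nat_lit 226)) (PT.lf (nat_lit 4028) (nat_lit 6) (nat_lit 53) (nat_lit 4) (nat_lit 117) (nat_lit 228) (nat_lit 225))) (PT.nd (nat_lit 78) (PT.lf (nat_lit 4180) (nat_lit 6) (nat_lit 55) (nat_lit 4) (nat_lit 118) (nat_lit 228) (nat_lit 224)) (PT.lf (nat_lit 4408) (nat_lit 6) (nat_lit 58) (nat_lit 4) (nat_lit 119) (nat_lit 228) (nat_lit 223))))) (PT.nd (nat_lit 312) (PT.nd (nat_lit 156) (PT.nd (nat_lit 78) (PT.lf (nat_lit 4408) (nat_lit 6) (nat_lit 58) (nat_lit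 2) (nat_lit 223) (nat_lit 228) (nat_lit 119)) (PT.lf (nat_lit 4180) (nat_lit 6) (nat_lit 55) (nat_lit 2) (nat_lit 224) (nat_lit 228) (nat_lit 118))) (PT.nd (nat_lit 78) (PT.lf (nat_lit 4028) (nat_lit 6) (nat_lit 53) (nat_lit 2) (nat_lit 225) (nat_lit 228) (nat_lit 117)) (PT.lf (nat_lit 3800) (nat_lit 6) (nat_lit 50) (nat_lit 2) (nat_lit 226) (nat_lit 228) (nat_lit 116)))) (PT.nd (nat_lit 156) (PT.nd (nat_lit 78) (PT.lf (nat_lit 3648) (nat_lit 6) (nat_lit 48) (nat_lit 2) (nat_lit 227) (nat_lit 228) (nat_lit 115)) (PT.lf (nat_lit 3420) (nat_lit 3) (nat_lit 45) (nat_lit 0) (nat_lit 228) (nat_lit 228) (nat_lit 114))) (PT.nd (nat_lit 78) (PT.lf (nat_lit 3192) (nat_lit 6) (nat_lit 42) (nat_lit 0) (nat_lit 229) (nat_lit 228) (nat_lit 113)) (PT.lf (nat_lit 2964) (nat_lit 6) (nat_lit 39) (nat_lit 0) (nat_lit 230) (nat_lit 228) (nat_lit 112)))))) (PT.nd (nat_lit 50232) (PT.nd (nat_lit 49920) (PT.nd (nat_lit 78) (PT.lf (nat_lit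 2736) (nat_lit 6) (nat_lit 36) (nat_lit 0) (nat_lit 231) (nat_lit 228) (nat_lit 111)) (PT.nd (nat_lit 49764) (PT.lf (nat_lit 2508) (nat_lit 6) (nat_lit 33) (nat_lit 0) (nat_lit 232) (nat_lit 228) (nat_lit 110)) (PT.lf (nat_lit 2356) (nat_lit 6) (nat_lit 31) (nat_lit 5) (nat_lit 109) (nat_lit 229) (nat_lit 232)))) (PT.nd (nat_lit 156) (PT.nd (nat_lit 78) (PT.lf (nat_lit 2584) (nat_lit 6) (nat_lit 34) (nat_lit 5) (nat_lit 110) (nat_lit 229) (nat_lit 231)) (PT.lf (nat_lit 2812) (nat_lit 6) (nat_lit 37) (nat_lit 5) (nat_lit 111) (nat_lit 229) (nat_lit 230))) (PT.nd (nat_lit 78) (PT.lf (nat_lit 3040) (nat_lit 3) (nat_lit 40) (nat_lit 4) (nat_lit 112) (nat_lit 229) (nat_lit 229)) (PT.lf (nat_lit 3192) (nat_lit 6) (nat_lit 42) (nat_lit 4) (nat_lit 113) (nat_lit 229) (nat_lit 228))))) (PT.nd (nat_lit 8580) (PT.nd (nat_lit 156) (PT.nd (nat_lit 78) (PT.lf (nat_lit 3344) (nat_lit 6) (nat_lit 44) (nat_lit 4) (nat_lit 114)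 (nat_lit 229) (nat_lit 227)) (PT.lf (nat_lit 3572) (nat_lit 6) (nat_lit 47) (nat_lit 4) (nat_lit 115) (nat_lit 229) (nat_lit 226))) (PT.nd (nat_lit 78) (PT.lf (nat_lit 3724) (nat_lit 6) (nat_lit 49) (nat_lit 4) (nat_lit 116) (nat_lit 229) (nat_lit 225)) (PT.lf (nat_lit 3952) (nat_lit 6) (nat_lit 52) (nat_lit 4) (nat_lit 117) (nat_lit 229) (nat_lit 224)))) (PT.nd (nat_lit 156) (PT.nd (nat_lit 78) (PT.lf (nat_lit 3952) (nat_lit 6) (nat_lit 52) (nat_lit 2) (nat_lit 224) (nat_lit 229) (nat_lit 117)) (PT.lf (nat_lit 3724) (nat_lit 6) (nat_lit 49) (nat_lit 2) (nat_lit 225) (nat_lit 229) (nat_lit 116))) (PT.nd (nat_lit 78) (PT.lf (nat_lit 3572) (nat_lit 6) (nat_lit 47) (nat_lit 2) (nat_lit 226) (nat_lit 229) (nat_lit 115)) (PT.lf (nat_lit 3344) (nat_lit 6) (nat_lit 44) (nat_lit 2) (nat_lit 227) (nat_lit 229) (nat_lit 114))))))))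
noncomputable def pc62 : PT := (PT.nd (nat_lit 118638) (PT.nd (nat_lit 59280) (PT.nd (nat_lit 50076) (PT.nd (nat_lit 234) (PT.nd (nat_lit 78) (PT.lf (nat_lit 3192) (nat_lit 6) (nat_lit 42) (nat_lit 2) (nat_lit 228) (nat_lit 229) (nat_lit 113)) (PT.nd (nat_lit 78) (PT.lf (nat_lit 3040) (nat_lit 3) (nat_lit 40) (nat_lit 0) (nat_lit 229) (nat_lit 229) (nat_lit 112)) (PT.lf (nat_lit 2812) (nat_lit 6) (nat_lit 37) (nat_lit 0) (nat_lit 230) (nat_lit 229) (nat_lit 111)))) (PT.nd (nat_lit 49686) (PT.nd (nat_lit 78) (PT.lf (nat_lit 2584) (nat_lit 6) (nat_lit 34) (nat_lit 0) (nat_lit 231) (nat_lit 229) (nat_lit 110)) (PT.lf (nat_lit 2356) (nat_lit 6) (nat_lit 31) (nat_lit 0) (nat_lit 232) (nat_lit 229) (nat_lit 109))) (PT.nd (nat_lit 78) (PT.lf (nat_lit 2052) (nat_lit 6) (nat_lit 27) (nat_lit 5) (nat_lit 107) (nat_lit 230) (nat_lit 233)) (PT.lf (nat_lit 2204) (nat_lit 6) (nat_lit 29) (nat_lit 5) (nat_lit 108) (nat_lit 230)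 (nat_lit 232))))) (PT.nd (nat_lit 234) (PT.nd (nat_lit 78) (PT.lf (nat_lit 2432) (nat_lit 6) (nat_lit 32) (nat_lit 5) (nat_lit 109) (nat_lit 230) (nat_lit 231)) (PT.nd (nat_lit 78) (PT.lf (nat_lit 2660) (nat_lit 3) (nat_lit 35) (nat_lit 4) (nat_lit 110) (nat_lit 230) (nat_lit 230)) (PT.lf (nat_lit 2812) (nat_lit 6) (nat_lit 37) (nat_lit 4) (nat_lit 111) (nat_lit 230) (nat_lit 229)))) (PT.nd (nat_lit 156) (PT.nd (nat_lit 78) (PT.lf (nat_lit 2964) (nat_lit 6) (nat_lit 39) (nat_lit 4) (nat_lit 112) (nat_lit 230) (nat_lit 228)) (PT.lf (nat_lit 3116) (nat_lit 6) (nat_lit 41) (nat_lit 4) (nat_lit 113) (nat_lit 230) (nat_lit 227))) (PT.nd (nat_lit 8736) (PT.lf (nat_lit 3268) (nat_lit 6) (nat_lit 43) (nat_lit 4) (nat_lit 114) (nat_lit 230) (nat_lit 226)) (PT.lf (nat_lit 3268) (nat_lit 6) (nat_lit 43) (nat_lit 2) (nat_lit 226) (nat_lit 230) (nat_lit 114)))))) (PT.nd (nat_lit 49842) (PT.nd (nat_lit 234) (PT.nd (nat_lit 78)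 (PT.lf (nat_lit 3116) (nat_lit 6) (nat_lit 41) (nat_lit 2) (nat_lit 227) (nat_lit 230) (nat_lit 113)) (PT.nd (nat_lit 78) (PT.lf (nat_lit 2964) (nat_lit 6) (nat_lit 39) (nat_lit 2) (nat_lit 228) (nat_lit 230) (nat_lit 112)) (PT.lf (nat_lit 2812) (nat_lit 6) (nat_lit 37) (nat_lit 2) (nat_lit 229) (nat_lit 230) (nat_lit 111)))) (PT.nd (nat_lit 156) (PT.nd (nat_lit 78) (PT.lf (nat_lit 2660) (nat_lit 3) (nat_lit 35) (nat_lit 0) (nat_lit 230) (nat_lit 230) (nat_lit 110)) (PT.lf (nat_lit 2432) (nat_lit 6) (nat_lit 32) (nat_lit 0) (nat_lit 231) (nat_lit 230) (nat_lit 109))) (PT.nd (nat_lit 78) (PT.lf (nat_lit 2204) (nat_lit 6) (nat_lit 29) (nat_lit 0) (nat_lit 232) (nat_lit 230) (nat_lit 108)) (PT.lf (nat_lit 2052) (nat_lit 6) (nat_lit 27) (nat_lit 0) (nat_lit 233) (nat_lit 230) (nat_lit 107))))) (PT.nd (nat_lit 312) (PT.nd (nat_lit 156) (PT.nd (nat_lit 78) (PT.lf (nat_lit 1748) (nat_lit 6) (nat_lit 23) (nat_lit 5) (nat_lit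 105) (nat_lit 231) (nat_lit 234)) (PT.lf (nat_lit 1900) (nat_lit 6) (nat_lit 25) (nat_lit 5) (nat_lit 106) (nat_lit 231) (nat_lit 233))) (PT.nd (nat_lit 78) (PT.lf (nat_lit 2128) (nat_lit 6) (nat_lit 28) (nat_lit 5) (nat_lit 107) (nat_lit 231) (nat_lit 232)) (PT.lf (nat_lit 2280) (nat_lit 3) (nat_lit 30) (nat_lit 4) (nat_lit 108) (nat_lit 231) (nat_lit 231)))) (PT.nd (nat_lit 156) (PT.nd (nat_lit 78) (PT.lf (nat_lit 2432) (nat_lit 6) (nat_lit 32) (nat_lit 4) (nat_lit 109) (nat_lit 231) (nat_lit 230)) (PT.lf (nat_lit 2584) (nat_lit 6) (nat_lit 34) (nat_lit 4) (nat_lit 110) (nat_lit 231) (nat_lit 229))) (PT.nd (nat_lit 78) (PT.lf (nat_lit 2736) (nat_lit 6) (nat_lit 36) (nat_lit 4) (nat_lit 111) (nat_lit 231) (nat_lit 228)) (PT.lf (nat_lit 2888) (nat_lit 6) (nat_lit 38) (nat_lit 4) (nat_lit 112) (nat_lit 231) (nat_lit 227))))))) (PT.nd (nat_lit 50154) (PT.nd (nat_lit 546) (PT.nd (nat_lit 234) (PT.nd (nat_lit 78) (PT.lf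 (nat_lit 2888) (nat_lit 6) (nat_lit 38) (nat_lit 2) (nat_lit 227) (nat_lit 231) (nat_lit 112)) (PT.nd (nat_lit 78) (PT.lf (nat_lit 2736) (nat_lit 6) (nat_lit 36) (nat_lit 2) (nat_lit 228) (nat_lit 231) (nat_lit 111)) (PT.lf (nat_lit 2584) (nat_lit 6) (nat_lit 34) (nat_lit 2) (nat_lit 229) (nat_lit 231) (nat_lit 110)))) (PT.nd (nat_lit 156) (PT.nd (nat_lit 78) (PT.lf (nat_lit 2432) (nat_lit 6) (nat_lit 32) (nat_lit 2) (nat_lit 230) (nat_lit 231) (nat_lit 109)) (PT.lf (nat_lit 2280) (nat_lit 3) (nat_lit 30) (nat_lit 0) (nat_lit 231) (nat_lit 231) (nat_lit 108))) (PT.nd (nat_lit 78) (PT.lf (nat_lit 2128) (nat_lit 6) (nat_lit 28) (nat_lit 0) (nat_lit 232) (nat_lit 231) (nat_lit 107)) (PT.lf (nat_lit 1900) (nat_lit 6) (nat_lit 25) (nat_lit 0) (nat_lit 233) (nat_lit 231) (nat_lit 106))))) (PT.nd (nat_lit 49296) (PT.nd (nat_lit 49140) (PT.lf (nat_lit 1748) (nat_lit 6) (nat_lit 23) (nat_lit 0) (nat_lit 234) (nat_lit 231)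 (nat_lit 105)) (PT.nd (nat_lit 78) (PT.lf (nat_lit 1444) (nat_lit 6) (nat_lit 19) (nat_lit 5) (nat_lit 103) (nat_lit 232) (nat_lit 235)) (PT.lf (nat_lit 1596) (nat_lit 6) (nat_lit 21) (nat_lit 5) (nat_lit 104) (nat_lit 232) (nat_lit 234)))) (PT.nd (nat_lit 156) (PT.nd (nat_lit 78) (PT.lf (nat_lit 1824) (nat_lit 6) (nat_lit 24) (nat_lit 5) (nat_lit 105) (nat_lit 232) (nat_lit 233)) (PT.lf (nat_lit 1976) (nat_lit 3) (nat_lit 26) (nat_lit 4) (nat_lit 106) (nat_lit 232) (nat_lit 232))) (PT.nd (nat_lit 78) (PT.lf (nat_lit 2128) (nat_lit 6) (nat_lit 28) (nat_lit 4) (nat_lit 107) (nat_lit 232) (nat_lit 231)) (PT.lf (nat_lit 2204) (nat_lit 6) (nat_lit 29) (nat_lit 4) (nat_lit 108) (nat_lit 232) (nat_lit 230)))))) (PT.nd (nat_lit 9672) (PT.nd (nat_lit 9360) (PT.nd (nat_lit 78) (PT.lf (nat_lit 2356) (nat_lit 6) (nat_lit 31) (nat_lit 4) (nat_lit 109) (nat_lit 232) (nat_lit 229)) (PT.nd (nat_lit 9204) (PT.lf (nat_lit 2508)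 (nat_lit 6) (nat_lit 33) (nat_lit 4) (nat_lit 110) (nat_lit 232) (nat_lit 228)) (PT.lf (nat_lit 2508) (nat_lit 6) (nat_lit 33) (nat_lit 2) (nat_lit 228) (nat_lit 232) (nat_lit 110)))) (PT.nd (nat_lit 156) (PT.nd (nat_lit 78) (PT.lf (nat_lit 2356) (nat_lit 6) (nat_lit 31) (nat_lit 2) (nat_lit 229) (nat_lit 232) (nat_lit 109)) (PT.lf (nat_lit 2204) (nat_lit 6) (nat_lit 29) (nat_lit 2) (nat_lit 230) (nat_lit 232) (nat_lit 108))) (PT.nd (nat_lit 78) (PT.lf (nat_lit 2128) (nat_lit 6) (nat_lit 28) (nat_lit 2) (nat_lit 231) (nat_lit 232) (nat_lit 107)) (PT.lf (nat_lit 1976) (nat_lit 3) (nat_lit 26) (nat_lit 0) (nat_lit 232) (nat_lit 232) (nat_lit 106))))) (PT.nd (nat_lit 49218) (PT.nd (nat_lit 156) (PT.nd (nat_lit 78) (PT.lf (nat_lit 1824) (nat_lit 6) (nat_lit 24) (nat_lit 0) (nat_lit 233) (nat_lit 232) (nat_lit 105)) (PT.lf (nat_lit 1596) (nat_lit 6) (nat_lit 21) (nat_lit 0) (nat_lit 234) (nat_lit 232) (nat_lit 104)))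 (PT.nd (nat_lit 48984) (PT.lf (nat_lit 1444) (nat_lit 6) (nat_lit 19) (nat_lit 0) (nat_lit 235) (nat_lit 232) (nat_lit 103)) (PT.lf (nat_lit 1292) (nat_lit 6) (nat_lit 17) (nat_lit 5) (nat_lit 102) (nat_lit 233) (nat_lit 235)))) (PT.nd (nat_lit 156) (PT.nd (nat_lit 78) (PT.lf (nat_lit 1520) (nat_lit 6) (nat_lit 20) (nat_lit 5) (nat_lit 103) (nat_lit 233) (nat_lit 234)) (PT.lf (nat_lit 1672) (nat_lit 3) (nat_lit 22) (nat_lit 4) (nat_lit 104) (nat_lit 233) (nat_lit 233))) (PT.nd (nat_lit 78) (PT.lf (nat_lit 1824) (nat_lit 6) (nat_lit 24) (nat_lit 4) (nat_lit 105) (nat_lit 233) (nat_lit 232)) (PT.lf (nat_lit 1900) (nat_lit 6) (nat_lit 25) (nat_lit 4) (nat_lit 106) (nat_lit 233) (nat_lit 231))))))))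
noncomputable def pc63 : PT := (PT.nd (nat_lit 128778) (PT.nd (nat_lit 69108) (PT.nd (nat_lit 58812) (PT.nd (nat_lit 9750) (PT.nd (nat_lit 9594) (PT.lf (nat_lit 2052) (nat_lit 6) (nat_lit 27) (nat_lit 4) (nat_lit 107) (nat_lit 233) (nat_lit 230)) (PT.nd (nat_lit 78) (PT.lf (nat_lit 2052) (nat_lit 6) (nat_lit 27) (nat_lit 2) (nat_lit 230) (nat_lit 233) (nat_lit 107)) (PT.lf (nat_lit 1900) (nat_lit 6) (nat_lit 25) (nat_lit 2) (nat_lit 231) (nat_lit 233) (nat_lit 106)))) (PT.nd (nat_lit 156) (PT.nd (nat_lit 78) (PT.lf (nat_lit 1824) (nat_lit 6) (nat_lit 24) (nat_lit 2) (nat_lit 232) (nat_lit 233) (nat_lit 105)) (PT.lf (nat_lit 1672) (nat_lit 3) (nat_lit 22) (nat_lit 0) (nat_lit 233) (nat_lit 233) (nat_lit 104))) (PT.nd (nat_lit 78) (PT.lf (nat_lit 1520) (nat_lit 6) (nat_lit 20) (nat_lit 0) (nat_lit 234) (nat_lit 233) (nat_lit 103)) (PT.lf (nat_lit 1292) (nat_lit 6) (nat_lit 17) (nat_lit 0) (nat_lit 235) (nat_lit 233)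 (nat_lit 102))))) (PT.nd (nat_lit 234) (PT.nd (nat_lit 78) (PT.lf (nat_lit 988) (nat_lit 6) (nat_lit 13) (nat_lit 5) (nat_lit 100) (nat_lit 234) (nat_lit 236)) (PT.nd (nat_lit 78) (PT.lf (nat_lit 1216) (nat_lit 6) (nat_lit 16) (nat_lit 5) (nat_lit 101) (nat_lit 234) (nat_lit 235)) (PT.lf (nat_lit 1368) (nat_lit 3) (nat_lit 18) (nat_lit 4) (nat_lit 102) (nat_lit 234) (nat_lit 234)))) (PT.nd (nat_lit 156) (PT.nd (nat_lit 78) (PT.lf (nat_lit 1520) (nat_lit 6) (nat_lit 20) (nat_lit 4) (nat_lit 103) (nat_lit 234) (nat_lit 233)) (PT.lf (nat_lit 1596) (nat_lit 6) (nat_lit 21) (nat_lit 4) (nat_lit 104) (nat_lit 234) (nat_lit 232))) (PT.nd (nat_lit 9828) (PT.lf (nat_lit 1748) (nat_lit 6) (nat_lit 23) (nat_lit 4) (nat_lit 105) (nat_lit 234) (nat_lit 231)) (PT.lf (nat_lit 1748) (nat_lit 6) (nat_lit 23) (nat_lit 2) (nat_lit 231) (nat_lit 234) (nat_lit 105)))))) (PT.nd (nat_lit 49062) (PT.nd (nat_lit 234) (PT.nd (nat_lit 78)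 (PT.lf (nat_lit 1596) (nat_lit 6) (nat_lit 21) (nat_lit 2) (nat_lit 232) (nat_lit 234) (nat_lit 104)) (PT.nd (nat_lit 78) (PT.lf (nat_lit 1520) (nat_lit 6) (nat_lit 20) (nat_lit 2) (nat_lit 233) (nat_lit 234) (nat_lit 103)) (PT.lf (nat_lit 1368) (nat_lit 3) (nat_lit 18) (nat_lit 0) (nat_lit 234) (nat_lit 234) (nat_lit 102)))) (PT.nd (nat_lit 48672) (PT.nd (nat_lit 78) (PT.lf (nat_lit 1216) (nat_lit 6) (nat_lit 16) (nat_lit 0) (nat_lit 235) (nat_lit 234) (nat_lit 101)) (PT.lf (nat_lit 988) (nat_lit 6) (nat_lit 13) (nat_lit 0) (nat_lit 236) (nat_lit 234) (nat_lit 100))) (PT.nd (nat_lit 78) (PT.lf (nat_lit 760) (nat_lit 6) (nat_lit 10) (nat_lit 5) (nat_lit 98) (nat_lit 235) (nat_lit 237)) (PT.lf (nat_lit 912) (nat_lit 6) (nat_lit 12) (nat_lit 5) (nat_lit 99) (nat_lit 235) (nat_lit 236))))) (PT.nd (nat_lit 10296) (PT.nd (nat_lit 156) (PT.nd (nat_lit 78) (PT.lf (nat_lit 1064) (nat_lit 3) (nat_lit 14) (nat_lit 4) (nat_lit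 100) (nat_lit 235) (nat_lit 235)) (PT.lf (nat_lit 1216) (nat_lit 6) (nat_lit 16) (nat_lit 4) (nat_lit 101) (nat_lit 235) (nat_lit 234))) (PT.nd (nat_lit 78) (PT.lf (nat_lit 1292) (nat_lit 6) (nat_lit 17) (nat_lit 4) (nat_lit 102) (nat_lit 235) (nat_lit 233)) (PT.lf (nat_lit 1444) (nat_lit 6) (nat_lit 19) (nat_lit 4) (nat_lit 103) (nat_lit 235) (nat_lit 232)))) (PT.nd (nat_lit 156) (PT.nd (nat_lit 78) (PT.lf (nat_lit 1444) (nat_lit 6) (nat_lit 19) (nat_lit 2) (nat_lit 232) (nat_lit 235) (nat_lit 103)) (PT.lf (nat_lit 1292) (nat_lit 6) (nat_lit 17) (nat_lit 2) (nat_lit 233) (nat_lit 235) (nat_lit 102))) (PT.nd (nat_lit 78) (PT.lf (nat_lit 1216) (nat_lit 6) (nat_lit 16) (nat_lit 2) (nat_lit 234) (nat_lit 235) (nat_lit 101)) (PT.lf (nat_lit 1064) (nat_lit 3) (nat_lit 14) (nat_lit 0) (nat_lit 235) (nat_lit 235) (nat_lit 100))))))) (PT.nd (nat_lit 107952) (PT.nd (nat_lit 59202) (PT.nd (nat_lit 48516) (PT.nd (nat_lit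 78) (PT.lf (nat_lit 912) (nat_lit 6) (nat_lit 12) (nat_lit 0) (nat_lit 236) (nat_lit 235) (nat_lit 99)) (PT.nd (nat_lit 48360) (PT.lf (nat_lit 760) (nat_lit 6) (nat_lit 10) (nat_lit 0) (nat_lit 237) (nat_lit 235) (nat_lit 98)) (PT.lf (nat_lit 532) (nat_lit 6) (nat_lit 7) (nat_lit 5) (nat_lit 96) (nat_lit 236) (nat_lit 238)))) (PT.nd (nat_lit 156) (PT.nd (nat_lit 78) (PT.lf (nat_lit 684) (nat_lit 6) (nat_lit 9) (nat_lit 5) (nat_lit 97) (nat_lit 236) (nat_lit 237)) (PT.lf (nat_lit 836) (nat_lit 3) (nat_lit 11) (nat_lit 4) (nat_lit 98) (nat_lit 236) (nat_lit 236))) (PT.nd (nat_lit 78) (PT.lf (nat_lit 912) (nat_lit 6) (nat_lit 12) (nat_lit 4) (nat_lit 99) (nat_lit 236) (nat_lit 235)) (PT.lf (nat_lit 988) (nat_lit 6) (nat_lit 13) (nat_lit 4) (nat_lit 100) (nat_lit 236) (nat_lit 234))))) (PT.nd (nat_lit 312) (PT.nd (nat_lit 156) (PT.nd (nat_lit 78) (PT.lf (nat_lit 988) (nat_lit 6) (nat_lit 13) (nat_lit 2) (nat_lit 234)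 (nat_lit 236) (nat_lit 100)) (PT.lf (nat_lit 912) (nat_lit 6) (nat_lit 12) (nat_lit 2) (nat_lit 235) (nat_lit 236) (nat_lit 99))) (PT.nd (nat_lit 78) (PT.lf (nat_lit 836) (nat_lit 3) (nat_lit 11) (nat_lit 0) (nat_lit 236) (nat_lit 236) (nat_lit 98)) (PT.lf (nat_lit 684) (nat_lit 6) (nat_lit 9) (nat_lit 0) (nat_lit 237) (nat_lit 236) (nat_lit 97)))) (PT.nd (nat_lit 48282) (PT.nd (nat_lit 48204) (PT.lf (nat_lit 532) (nat_lit 6) (nat_lit 7) (nat_lit 0) (nat_lit 238) (nat_lit 236) (nat_lit 96)) (PT.lf (nat_lit 456) (nat_lit 6) (nat_lit 6) (nat_lit 5) (nat_lit 95) (nat_lit 237) (nat_lit 238))) (PT.nd (nat_lit 78) (PT.lf (nat_lit 608) (nat_lit 3) (nat_lit 8) (nat_lit 4) (nat_lit 96) (nat_lit 237) (nat_lit 237)) (PT.lf (nat_lit 684) (nat_lit 6) (nat_lit 9) (nat_lit 4) (nat_lit 97) (nat_lit 237) (nat_lit 236)))))) (PT.nd (nat_lit 70122) (PT.nd (nat_lit 10842) (PT.nd (nat_lit 10686) (PT.lf (nat_lit 760) (nat_lit 6) (nat_lit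 10) (nat_lit 4) (nat_lit 98) (nat_lit 237) (nat_lit 235)) (PT.nd (nat_lit 78) (PT.lf (nat_lit 760) (nat_lit 6) (nat_lit 10) (nat_lit 2) (nat_lit 235) (nat_lit 237) (nat_lit 98)) (PT.lf (nat_lit 684) (nat_lit 6) (nat_lit 9) (nat_lit 2) (nat_lit 236) (nat_lit 237) (nat_lit 97)))) (PT.nd (nat_lit 48282) (PT.nd (nat_lit 78) (PT.lf (nat_lit 608) (nat_lit 3) (nat_lit 8) (nat_lit 0) (nat_lit 237) (nat_lit 237) (nat_lit 96)) (PT.lf (nat_lit 456) (nat_lit 6) (nat_lit 6) (nat_lit 0) (nat_lit 238) (nat_lit 237) (nat_lit 95))) (PT.nd (nat_lit 78) (PT.lf (nat_lit 456) (nat_lit 6) (nat_lit 6) (nat_lit 4) (nat_lit 95) (nat_lit 238) (nat_lit 237)) (PT.lf (nat_lit 532) (nat_lit 6) (nat_lit 7) (nat_lit 4) (nat_lit 96) (nat_lit 238) (nat_lit 236))))) (PT.nd (nat_lit 297336) (PT.nd (nat_lit 284856) (PT.nd (nat_lit 78) (PT.lf (nat_lit 532) (nat_lit 6) (nat_lit 7) (nat_lit 2) (nat_lit 236) (nat_lit 238) (nat_lit 96)) (PT.lf (nat_lit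 456) (nat_lit 6) (nat_lit 6) (nat_lit 2) (nat_lit 237) (nat_lit 238) (nat_lit 95))) (PT.nd (nat_lit 78) (PT.lf (nat_lit 76) (nat_lit 6) (nat_lit 1) (nat_lit 5) (nat_lit 83) (nat_lit 243) (nat_lit 244)) (PT.lf (nat_lit 152) (nat_lit 3) (nat_lit 2) (nat_lit 4) (nat_lit 84) (nat_lit 243) (nat_lit 243)))) (PT.nd (nat_lit 46878) (PT.nd (nat_lit 78) (PT.lf (nat_lit 152) (nat_lit 3) (nat_lit 2) (nat_lit 0) (nat_lit 243) (nat_lit 243) (nat_lit 84)) (PT.lf (nat_lit 76) (nat_lit 6) (nat_lit 1) (nat_lit 0) (nat_lit 244) (nat_lit 243) (nat_lit 83))) (PT.nd (nat_lit 12480) (PT.lf (nat_lit 76) (nat_lit 6) (nat_lit 1) (nat_lit 4) (nat_lit 83) (nat_lit 244) (nat_lit 243)) (PT.lf (nat_lit 76) (nat_lit 6) (nat_lit 1) (nat_lit 2) (nat_lit 243) (nat_lit 244) (nat_lit 83))))))))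
noncomputable def xc0 : XT := (XT.nd (nat_lit 237432) (nat_lit 0) (nat_lit 0) (XT.nd (nat_lit 177762) (nat_lit 0) (nat_lit 0) (XT.nd (nat_lit 118482) (nat_lit 0) (nat_lit 0) (XT.nd (nat_lit 59280) (nat_lit 0) (nat_lit 0) (XT.nd (nat_lit 59124) (nat_lit 0) (nat_lit 76) (XT.lf (nat_lit 0) (nat_lit 5280870816) (nat_lit 76) (nat_lit 10605830796) (nat_lit 76) (nat_lit 10341344706) (nat_lit 8) (nat_lit 4) (nat_lit 9) (nat_lit 5) (nat_lit 9) (nat_lit 4) (nat_lit 533) (nat_lit 304) (nat_lit 303)) (XT.nd (nat_lit 78) (nat_lit 0) (nat_lit 0) (XT.lf (nat_lit 0) (nat_lit 1265671282) (nat_lit 152) (nat_lit 9962195882) (nat_lit 0) (nat_lit 1265671282) (nat_lit 9) (nat_lit 5) (nat_lit 11) (nat_lit 4) (nat_lit 9) (nat_lit 4) (nat_lit 530) (nat_lit 305) (nat_lit 305)) (XT.lf (nat_lit 0) (nat_lit 7012684613) (nat_lit 152) (nat_lit 11636384511) (nat_lit 0) (nat_lit 6742908801) (nat_lit 9) (nat_lit 5) (nat_lit 11) (nat_lit 4) (nat_lit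 9) (nat_lit 4) (nat_lit 531) (nat_lit 305) (nat_lit 304)))) (XT.nd (nat_lit 59046) (nat_lit 0) (nat_lit 228) (XT.nd (nat_lit 78) (nat_lit 76) (nat_lit 0) (XT.lf (nat_lit 0) (nat_lit 11522340997) (nat_lit 152) (nat_lit 3295792552) (nat_lit 0) (nat_lit 10988079095) (nat_lit 9) (nat_lit 5) (nat_lit 11) (nat_lit 4) (nat_lit 9) (nat_lit 4) (nat_lit 532) (nat_lit 305) (nat_lit 303)) (XT.lf (nat_lit 0) (nat_lit 5168439953) (nat_lit 76) (nat_lit 10927197197) (nat_lit 76) (nat_lit 10133635207) (nat_lit 8) (nat_lit 4) (nat_lit 9) (nat_lit 5) (nat_lit 9) (nat_lit 4) (nat_lit 533) (nat_lit 305) (nat_lit 302))) (XT.nd (nat_lit 78) (nat_lit 0) (nat_lit 0) (XT.lf (nat_lit 0) (nat_lit 6093541681) (nat_lit 76) (nat_lit 3003443327) (nat_lit 76) (nat_lit 3003443327) (nat_lit 11) (nat_lit 4) (nat_lit 12) (nat_lit 5) (nat_lit 12) (nat_lit 4) (nat_lit 528) (nat_lit 306) (nat_lit 306)) (XT.lf (nat_lit 0) (nat_lit 21042204433) (nat_lit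 76) (nat_lit 1914445190) (nat_lit 76) (nat_lit 1633770435) (nat_lit 11) (nat_lit 4) (nat_lit 12) (nat_lit 5) (nat_lit 12) (nat_lit 4) (nat_lit 529) (nat_lit 306) (nat_lit 305))))) (XT.nd (nat_lit 234) (nat_lit 76) (nat_lit 0) (XT.nd (nat_lit 78) (nat_lit 0) (nat_lit 0) (XT.lf (nat_lit 0) (nat_lit 2775554113) (nat_lit 152) (nat_lit 19981539759) (nat_lit 0) (nat_lit 2230606974) (nat_lit 9) (nat_lit 5) (nat_lit 11) (nat_lit 4) (nat_lit 9) (nat_lit 4) (nat_lit 530) (nat_lit 306) (nat_lit 304)) (XT.nd (nat_lit 78) (nat_lit 0) (nat_lit 0) (XT.lf (nat_lit 0) (nat_lit 7226543436) (nat_lit 152) (nat_lit 11749559950) (nat_lit 0) (nat_lit 6417110206) (nat_lit 9) (nat_lit 5) (nat_lit 11) (nat_lit 4) (nat_lit 9) (nat_lit 4) (nat_lit 531) (nat_lit 306) (nat_lit 303)) (XT.lf (nat_lit 0) (nat_lit 11706442246) (nat_lit 152) (nat_lit 3463896859) (nat_lit 0) (nat_lit 10637708928) (nat_lit 9) (nat_lit 5) (nat_lit 11) (nat_lit 4) (nat_lit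 9) (nat_lit 4) (nat_lit 532) (nat_lit 306) (nat_lit 302)))) (XT.nd (nat_lit 58890) (nat_lit 0) (nat_lit 228) (XT.nd (nat_lit 58812) (nat_lit 0) (nat_lit 304) (XT.lf (nat_lit 0) (nat_lit 4943534134) (nat_lit 76) (nat_lit 11305569935) (nat_lit 76) (nat_lit 9982620844) (nat_lit 8) (nat_lit 4) (nat_lit 9) (nat_lit 5) (nat_lit 9) (nat_lit 4) (nat_lit 533) (nat_lit 306) (nat_lit 301)) (XT.lf (nat_lit 0) (nat_lit 4557913542) (nat_lit 152) (nat_lit 2607606883) (nat_lit 0) (nat_lit 4557913542) (nat_lit 12) (nat_lit 5) (nat_lit 14) (nat_lit 4) (nat_lit 12) (nat_lit 4) (nat_lit 526) (nat_lit 307) (nat_lit 307))) (XT.nd (nat_lit 78) (nat_lit 0) (nat_lit 0) (XT.lf (nat_lit 0) (nat_lit 3393395353) (nat_lit 76) (nat_lit 10356527653) (nat_lit 76) (nat_lit 10070239403) (nat_lit 11) (nat_lit 4) (nat_lit 12) (nat_lit 5) (nat_lit 12) (nat_lit 4) (nat_lit 527) (nat_lit 307) (nat_lit 306)) (XT.lf (nat_lit 0) (nat_lit 12130429551) (nat_lit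 76) (nat_lit 6319005765) (nat_lit 76) (nat_lit 5752042761) (nat_lit 11) (nat_lit 4) (nat_lit 12) (nat_lit 5) (nat_lit 12) (nat_lit 4) (nat_lit 528) (nat_lit 307) (nat_lit 305)))))) (XT.nd (nat_lit 59124) (nat_lit 0) (nat_lit 76) (XT.nd (nat_lit 234) (nat_lit 76) (nat_lit 0) (XT.nd (nat_lit 78) (nat_lit 152) (nat_lit 0) (XT.lf (nat_lit 0) (nat_lit 20930007668) (nat_lit 76) (nat_lit 2251888675) (nat_lit 76) (nat_lit 1409754343) (nat_lit 11) (nat_lit 4) (nat_lit 12) (nat_lit 5) (nat_lit 12) (nat_lit 4) (nat_lit 529) (nat_lit 307) (nat_lit 304)) (XT.nd (nat_lit 78) (nat_lit 0) (nat_lit 0) (XT.lf (nat_lit 0) (nat_lit 2963337388) (nat_lit 152) (nat_lit 20153006152) (nat_lit 0) (nat_lit 1873229403) (nat_lit 9) (nat_lit 5) (nat_lit 11) (nat_lit 4) (nat_lit 9) (nat_lit 4) (nat_lit 530) (nat_lit 307) (nat_lit 303)) (XT.lf (nat_lit 0) (nat_lit 7384569137) (nat_lit 152) (nat_lit 11975955211) (nat_lit 0) (nat_lit 6035161064)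 (nat_lit 9) (nat_lit 5) (nat_lit 11) (nat_lit 4) (nat_lit 9) (nat_lit 4) (nat_lit 531) (nat_lit 307) (nat_lit 302)))) (XT.nd (nat_lit 58734) (nat_lit 0) (nat_lit 304) (XT.nd (nat_lit 78) (nat_lit 76) (nat_lit 0) (XT.lf (nat_lit 0) (nat_lit 11835293855) (nat_lit 152) (nat_lit 3744143951) (nat_lit 0) (nat_lit 10231670009) (nat_lit 9) (nat_lit 5) (nat_lit 11) (nat_lit 4) (nat_lit 9) (nat_lit 4) (nat_lit 532) (nat_lit 307) (nat_lit 301)) (XT.lf (nat_lit 0) (nat_lit 4606065163) (nat_lit 76) (nat_lit 11741097391) (nat_lit 76) (nat_lit 9888242396) (nat_lit 8) (nat_lit 4) (nat_lit 9) (nat_lit 5) (nat_lit 9) (nat_lit 4) (nat_lit 533) (nat_lit 307) (nat_lit 300))) (XT.nd (nat_lit 78) (nat_lit 0) (nat_lit 0) (XT.lf (nat_lit 0) (nat_lit 150170826) (nat_lit 152) (nat_lit 11061818946) (nat_lit 0) (nat_lit 150170826) (nat_lit 12) (nat_lit 5) (nat_lit 14) (nat_lit 4) (nat_lit 12) (nat_lit 4) (nat_lit 524) (nat_lit 308) (nat_lit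 308)) (XT.lf (nat_lit 0) (nat_lit 4824690637) (nat_lit 152) (nat_lit 13724334077) (nat_lit 0) (nat_lit 4532676623) (nat_lit 12) (nat_lit 5) (nat_lit 14) (nat_lit 4) (nat_lit 12) (nat_lit 4) (nat_lit 525) (nat_lit 308) (nat_lit 307))))) (XT.nd (nat_lit 234) (nat_lit 152) (nat_lit 0) (XT.nd (nat_lit 78) (nat_lit 76) (nat_lit 0) (XT.lf (nat_lit 0) (nat_lit 9376776880) (nat_lit 152) (nat_lit 5272242770) (nat_lit 0) (nat_lit 8798474615) (nat_lit 12) (nat_lit 5) (nat_lit 14) (nat_lit 4) (nat_lit 12) (nat_lit 4) (nat_lit 526) (nat_lit 308) (nat_lit 306)) (XT.nd (nat_lit 78) (nat_lit 0) (nat_lit 0) (XT.lf (nat_lit 0) (nat_lit 3278954653) (nat_lit 76) (nat_lit 10700720008) (nat_lit 76) (nat_lit 9841742989) (nat_lit 11) (nat_lit 4) (nat_lit 12) (nat_lit 5) (nat_lit 12) (nat_lit 4) (nat_lit 527) (nat_lit 308) (nat_lit 305)) (XT.lf (nat_lit 0) (nat_lit 11960445898) (nat_lit 76) (nat_lit 6688522494) (nat_lit 76) (nat_lit 5554374147)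 (nat_lit 11) (nat_lit 4) (nat_lit 12) (nat_lit 5) (nat_lit 12) (nat_lit 4) (nat_lit 528) (nat_lit 308) (nat_lit 304)))) (XT.nd (nat_lit 156) (nat_lit 0) (nat_lit 0) (XT.nd (nat_lit 78) (nat_lit 152) (nat_lit 0) (XT.lf (nat_lit 0) (nat_lit 20705570140) (nat_lit 76) (nat_lit 2646233222) (nat_lit 76) (nat_lit 1242309063) (nat_lit 11) (nat_lit 4) (nat_lit 12) (nat_lit 5) (nat_lit 12) (nat_lit 4) (nat_lit 529) (nat_lit 308) (nat_lit 303)) (XT.lf (nat_lit 0) (nat_lit 3094766028) (nat_lit 152) (nat_lit 20438858186) (nat_lit 0) (nat_lit 1459069706) (nat_lit 9) (nat_lit 5) (nat_lit 11) (nat_lit 4) (nat_lit 9) (nat_lit 4) (nat_lit 530) (nat_lit 308) (nat_lit 302))) (XT.nd (nat_lit 78) (nat_lit 0) (nat_lit 0) (XT.lf (nat_lit 0) (nat_lit 7486823685) (nat_lit 152) (nat_lit 12315659076) (nat_lit 0) (nat_lit 5596911590) (nat_lit 9) (nat_lit 5) (nat_lit 11) (nat_lit 4) (nat_lit 9) (nat_lit 4) (nat_lit 531) (nat_lit 308) (nat_lit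 301)) (XT.lf (nat_lit 0) (nat_lit 11908946353) (nat_lit 152) (nat_lit 4136643728) (nat_lit 0) (nat_lit 9769803108) (nat_lit 9) (nat_lit 5) (nat_lit 11) (nat_lit 4) (nat_lit 9) (nat_lit 4) (nat_lit 532) (nat_lit 308) (nat_lit 300))))))) (XT.nd (nat_lit 117780) (nat_lit 0) (nat_lit 0) (XT.nd (nat_lit 58968) (nat_lit 0) (nat_lit 0) (XT.nd (nat_lit 58656) (nat_lit 0) (nat_lit 228) (XT.nd (nat_lit 58500) (nat_lit 0) (nat_lit 456) (XT.lf (nat_lit 0) (nat_lit 4155900699) (nat_lit 76) (nat_lit 12233950361) (nat_lit 76) (nat_lit 9850462851) (nat_lit 8) (nat_lit 4) (nat_lit 9) (nat_lit 5) (nat_lit 9) (nat_lit 4) (nat_lit 533) (nat_lit 308) (nat_lit 299)) (XT.nd (nat_lit 78) (nat_lit 0) (nat_lit 0) (XT.lf (nat_lit 0) (nat_lit 2727445488) (nat_lit 152) (nat_lit 4143587954) (nat_lit 152) (nat_lit 4143587954) (nat_lit 14) (nat_lit 4) (nat_lit 16) (nat_lit 5) (nat_lit 16) (nat_lit 4) (nat_lit 522) (nat_lit 309) (nat_lit 309))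 (XT.lf (nat_lit 0) (nat_lit 14328146979) (nat_lit 152) (nat_lit 4174383941) (nat_lit 152) (nat_lit 3870572560) (nat_lit 14) (nat_lit 4) (nat_lit 16) (nat_lit 5) (nat_lit 16) (nat_lit 4) (nat_lit 523) (nat_lit 309) (nat_lit 308)))) (XT.nd (nat_lit 156) (nat_lit 76) (nat_lit 0) (XT.nd (nat_lit 78) (nat_lit 0) (nat_lit 0) (XT.lf (nat_lit 0) (nat_lit 542995837) (nat_lit 76) (nat_lit 23668278) (nat_lit 152) (nat_lit 22158292867) (nat_lit 12) (nat_lit 5) (nat_lit 13) (nat_lit 5) (nat_lit 14) (nat_lit 4) (nat_lit 524) (nat_lit 309) (nat_lit 307)) (XT.lf (nat_lit 0) (nat_lit 5059795211) (nat_lit 152) (nat_lit 13839532662) (nat_lit 0) (nat_lit 4183638651) (nat_lit 12) (nat_lit 5) (nat_lit 14) (nat_lit 4) (nat_lit 12) (nat_lit 4) (nat_lit 525) (nat_lit 309) (nat_lit 306))) (XT.nd (nat_lit 78) (nat_lit 76) (nat_lit 0) (XT.lf (nat_lit 0) (nat_lit 9581426337) (nat_lit 152) (nat_lit 5443352142) (nat_lit 0) (nat_lit 8424595023)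 (nat_lit 12) (nat_lit 5) (nat_lit 14) (nat_lit 4) (nat_lit 12) (nat_lit 4) (nat_lit 526) (nat_lit 309) (nat_lit 305)) (XT.lf (nat_lit 0) (nat_lit 3050028374) (nat_lit 76) (nat_lit 11102951445) (nat_lit 76) (nat_lit 9670948804) (nat_lit 11) (nat_lit 4) (nat_lit 12) (nat_lit 5) (nat_lit 12) (nat_lit 4) (nat_lit 527) (nat_lit 309) (nat_lit 304))))) (XT.nd (nat_lit 234) (nat_lit 76) (nat_lit 0) (XT.nd (nat_lit 78) (nat_lit 152) (nat_lit 0) (XT.lf (nat_lit 0) (nat_lit 11677065744) (nat_lit 76) (nat_lit 7115581749) (nat_lit 76) (nat_lit 5413803296) (nat_lit 11) (nat_lit 4) (nat_lit 12) (nat_lit 5) (nat_lit 12) (nat_lit 4) (nat_lit 528) (nat_lit 309) (nat_lit 303)) (XT.nd (nat_lit 78) (nat_lit 152) (nat_lit 0) (XT.lf (nat_lit 0) (nat_lit 20368803834) (nat_lit 76) (nat_lit 3097633474) (nat_lit 76) (nat_lit 1131368931) (nat_lit 11) (nat_lit 4) (nat_lit 12) (nat_lit 5) (nat_lit 12) (nat_lit 4) (nat_lit 529) (nat_lit 309)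 (nat_lit 302)) (XT.lf (nat_lit 0) (nat_lit 3169891576) (nat_lit 152) (nat_lit 20839207959) (nat_lit 0) (nat_lit 987965466) (nat_lit 9) (nat_lit 5) (nat_lit 11) (nat_lit 4) (nat_lit 9) (nat_lit 4) (nat_lit 530) (nat_lit 309) (nat_lit 301)))) (XT.nd (nat_lit 156) (nat_lit 76) (nat_lit 0) (XT.nd (nat_lit 78) (nat_lit 0) (nat_lit 0) (XT.lf (nat_lit 0) (nat_lit 7533347182) (nat_lit 152) (nat_lit 12768804762) (nat_lit 0) (nat_lit 5102189923) (nat_lit 9) (nat_lit 5) (nat_lit 11) (nat_lit 4) (nat_lit 9) (nat_lit 4) (nat_lit 531) (nat_lit 309) (nat_lit 300)) (XT.lf (nat_lit 0) (nat_lit 11927428623) (nat_lit 152) (nat_lit 4641550113) (nat_lit 0) (nat_lit 9251927099) (nat_lit 9) (nat_lit 5) (nat_lit 11) (nat_lit 4) (nat_lit 9) (nat_lit 4) (nat_lit 532) (nat_lit 309) (nat_lit 299))) (XT.nd (nat_lit 58344) (nat_lit 0) (nat_lit 608) (XT.lf (nat_lit 0) (nat_lit 3592864206) (nat_lit 76) (nat_lit 12784322119) (nat_lit 76) (nat_lit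 9869267395) (nat_lit 8) (nat_lit 4) (nat_lit 9) (nat_lit 5) (nat_lit 9) (nat_lit 4) (nat_lit 533) (nat_lit 309) (nat_lit 298)) (XT.lf (nat_lit 0) (nat_lit 2366109982) (nat_lit 152) (nat_lit 5949371409) (nat_lit 0) (nat_lit 2366109982) (nat_lit 16) (nat_lit 5) (nat_lit 18) (nat_lit 4) (nat_lit 16) (nat_lit 4) (nat_lit 520) (nat_lit 310) (nat_lit 310)))))) (XT.nd (nat_lit 546) (nat_lit 228) (nat_lit 0) (XT.nd (nat_lit 234) (nat_lit 228) (nat_lit 0) (XT.nd (nat_lit 78) (nat_lit 152) (nat_lit 0) (XT.lf (nat_lit 0) (nat_lit 9344158731) (nat_lit 152) (nat_lit 3314518709) (nat_lit 0) (nat_lit 9034271123) (nat_lit 16) (nat_lit 5) (nat_lit 18) (nat_lit 4) (nat_lit 16) (nat_lit 4) (nat_lit 521) (nat_lit 310) (nat_lit 309)) (XT.nd (nat_lit 78) (nat_lit 0) (nat_lit 0) (XT.lf (nat_lit 0) (nat_lit 5397232040) (nat_lit 152) (nat_lit 8623173043) (nat_lit 152) (nat_lit 8009474054) (nat_lit 14) (nat_lit 4) (nat_lit 16) (nat_lit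 5) (nat_lit 16) (nat_lit 4) (nat_lit 522) (nat_lit 310) (nat_lit 308)) (XT.lf (nat_lit 0) (nat_lit 14213959675) (nat_lit 152) (nat_lit 4535978649) (nat_lit 152) (nat_lit 3624425365) (nat_lit 14) (nat_lit 4) (nat_lit 16) (nat_lit 5) (nat_lit 16) (nat_lit 4) (nat_lit 523) (nat_lit 310) (nat_lit 307)))) (XT.nd (nat_lit 156) (nat_lit 76) (nat_lit 0) (XT.nd (nat_lit 78) (nat_lit 0) (nat_lit 0) (XT.lf (nat_lit 0) (nat_lit 367821992) (nat_lit 76) (nat_lit 410093498) (nat_lit 152) (nat_lit 21948908136) (nat_lit 12) (nat_lit 5) (nat_lit 13) (nat_lit 5) (nat_lit 14) (nat_lit 4) (nat_lit 524) (nat_lit 310) (nat_lit 306)) (XT.lf (nat_lit 0) (nat_lit 5238082541) (nat_lit 152) (nat_lit 14069975009) (nat_lit 0) (nat_lit 3777439846) (nat_lit 12) (nat_lit 5) (nat_lit 14) (nat_lit 4) (nat_lit 12) (nat_lit 4) (nat_lit 525) (nat_lit 310) (nat_lit 305))) (XT.nd (nat_lit 78) (nat_lit 76) (nat_lit 0) (XT.lf (nat_lit 0) (nat_lit 9729855710)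 (nat_lit 152) (nat_lit 5728608986) (nat_lit 0) (nat_lit 7994041687) (nat_lit 12) (nat_lit 5) (nat_lit 14) (nat_lit 4) (nat_lit 12) (nat_lit 4) (nat_lit 526) (nat_lit 310) (nat_lit 304)) (XT.lf (nat_lit 0) (nat_lit 2706526742) (nat_lit 76) (nat_lit 11563379703) (nat_lit 76) (nat_lit 9557789869) (nat_lit 11) (nat_lit 4) (nat_lit 12) (nat_lit 5) (nat_lit 12) (nat_lit 4) (nat_lit 527) (nat_lit 310) (nat_lit 303))))) (XT.nd (nat_lit 234) (nat_lit 76) (nat_lit 0) (XT.nd (nat_lit 78) (nat_lit 152) (nat_lit 0) (XT.lf (nat_lit 0) (nat_lit 11280177959) (nat_lit 76) (nat_lit 7600351005) (nat_lit 76) (nat_lit 5330275080) (nat_lit 11) (nat_lit 4) (nat_lit 12) (nat_lit 5) (nat_lit 12) (nat_lit 4) (nat_lit 528) (nat_lit 310) (nat_lit 302)) (XT.nd (nat_lit 78) (nat_lit 152) (nat_lit 0) (XT.lf (nat_lit 0) (nat_lit 19919576684) (nat_lit 76) (nat_lit 3606266453) (nat_lit 76) (nat_lit 1076890441) (nat_lit 11) (nat_lit 4) (nat_lit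 12) (nat_lit 5) (nat_lit 12) (nat_lit 4) (nat_lit 529) (nat_lit 310) (nat_lit 301)) (XT.lf (nat_lit 0) (nat_lit 3188743492) (nat_lit 152) (nat_lit 21354212472) (nat_lit 0) (nat_lit 459731937) (nat_lit 9) (nat_lit 5) (nat_lit 11) (nat_lit 4) (nat_lit 9) (nat_lit 4) (nat_lit 530) (nat_lit 310) (nat_lit 300)))) (XT.nd (nat_lit 156) (nat_lit 76) (nat_lit 0) (XT.nd (nat_lit 78) (nat_lit 0) (nat_lit 0) (XT.lf (nat_lit 0) (nat_lit 7524157871) (nat_lit 152) (nat_lit 13335569974) (nat_lit 0) (nat_lit 4550802053) (nat_lit 9) (nat_lit 5) (nat_lit 11) (nat_lit 4) (nat_lit 9) (nat_lit 4) (nat_lit 531) (nat_lit 310) (nat_lit 299)) (XT.lf (nat_lit 0) (nat_lit 11890747914) (nat_lit 152) (nat_lit 5259061108) (nat_lit 0) (nat_lit 8677838894) (nat_lit 9) (nat_lit 5) (nat_lit 11) (nat_lit 4) (nat_lit 9) (nat_lit 4) (nat_lit 532) (nat_lit 310) (nat_lit 298))) (XT.nd (nat_lit 58188) (nat_lit 0) (nat_lit 760) (XT.lf (nat_lit 0) (nat_lit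 2916734885) (nat_lit 76) (nat_lit 13392428499) (nat_lit 76) (nat_lit 9944663401) (nat_lit 8) (nat_lit 4) (nat_lit 9) (nat_lit 5) (nat_lit 9) (nat_lit 4) (nat_lit 533) (nat_lit 310) (nat_lit 297)) (XT.lf (nat_lit 0) (nat_lit 6326142691) (nat_lit 152) (nat_lit 2017919202) (nat_lit 152) (nat_lit 2017919202) (nat_lit 18) (nat_lit 4) (nat_lit 20) (nat_lit 5) (nat_lit 20) (nat_lit 4) (nat_lit 518) (nat_lit 311) (nat_lit 311))))))))
noncomputable def xc1 : XT := (XT.nd (nat_lit 60138) (nat_lit 0) (nat_lit 0) (XT.nd (nat_lit 1092) (nat_lit 76) (nat_lit 0) (XT.nd (nat_lit 546) (nat_lit 228) (nat_lit 0) (XT.nd (nat_lit 234) (nat_lit 304) (nat_lit 0) (XT.nd (nat_lit 78) (nat_lit 0) (nat_lit 0) (XT.lf (nat_lit 0) (nat_lit 463823128) (nat_lit 152) (nat_lit 20429592320) (nat_lit 0) (nat_lit 147737767) (nat_lit 16) (nat_lit 5) (nat_lit 18) (nat_lit 4) (nat_lit 16) (nat_lit 4) (nat_lit 519) (nat_lit 311) (nat_lit 310)) (XT.nd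 (nat_lit 78) (nat_lit 0) (nat_lit 0) (XT.lf (nat_lit 0) (nat_lit 5016506774) (nat_lit 152) (nat_lit 11956783601) (nat_lit 0) (nat_lit 4390533804) (nat_lit 16) (nat_lit 5) (nat_lit 18) (nat_lit 4) (nat_lit 16) (nat_lit 4) (nat_lit 520) (nat_lit 311) (nat_lit 309)) (XT.lf (nat_lit 0) (nat_lit 9597270491) (nat_lit 152) (nat_lit 3429462220) (nat_lit 0) (nat_lit 8667486141) (nat_lit 16) (nat_lit 5) (nat_lit 18) (nat_lit 4) (nat_lit 16) (nat_lit 4) (nat_lit 521) (nat_lit 311) (nat_lit 308)))) (XT.nd (nat_lit 156) (nat_lit 152) (nat_lit 0) (XT.nd (nat_lit 78) (nat_lit 0) (nat_lit 0) (XT.lf (nat_lit 0) (nat_lit 5224232623) (nat_lit 152) (nat_lit 9017597220) (nat_lit 152) (nat_lit 7789958575) (nat_lit 14) (nat_lit 4) (nat_lit 16) (nat_lit 5) (nat_lit 16) (nat_lit 4) (nat_lit 522) (nat_lit 311) (nat_lit 307)) (XT.lf (nat_lit 0) (nat_lit 13985540289) (nat_lit 152) (nat_lit 4955498486) (nat_lit 152) (nat_lit 3435845827) (nat_lit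 14) (nat_lit 4) (nat_lit 16) (nat_lit 5) (nat_lit 16) (nat_lit 4) (nat_lit 523) (nat_lit 311) (nat_lit 306))) (XT.nd (nat_lit 78) (nat_lit 0) (nat_lit 0) (XT.lf (nat_lit 0) (nat_lit 77108525) (nat_lit 76) (nat_lit 855094164) (nat_lit 152) (nat_lit 21797758689) (nat_lit 12) (nat_lit 5) (nat_lit 13) (nat_lit 5) (nat_lit 14) (nat_lit 4) (nat_lit 524) (nat_lit 311) (nat_lit 305)) (XT.lf (nat_lit 0) (nat_lit 5359622544) (nat_lit 152) (nat_lit 14415751486) (nat_lit 0) (nat_lit 3313920913) (nat_lit 12) (nat_lit 5) (nat_lit 14) (nat_lit 4) (nat_lit 12) (nat_lit 4) (nat_lit 525) (nat_lit 311) (nat_lit 304))))) (XT.nd (nat_lit 234) (nat_lit 152) (nat_lit 0) (XT.nd (nat_lit 78) (nat_lit 76) (nat_lit 0) (XT.lf (nat_lit 0) (nat_lit 9822123207) (nat_lit 152) (nat_lit 6128125166) (nat_lit 0) (nat_lit 7506645763) (nat_lit 12) (nat_lit 5) (nat_lit 14) (nat_lit 4) (nat_lit 12) (nat_lit 4) (nat_lit 526) (nat_lit 311) (nat_lit 303))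 (XT.nd (nat_lit 78) (nat_lit 0) (nat_lit 0) (XT.lf (nat_lit 0) (nat_lit 2248315049) (nat_lit 76) (nat_lit 12082185342) (nat_lit 76) (nat_lit 9502221809) (nat_lit 11) (nat_lit 4) (nat_lit 12) (nat_lit 5) (nat_lit 12) (nat_lit 4) (nat_lit 527) (nat_lit 311) (nat_lit 302)) (XT.lf (nat_lit 0) (nat_lit 10769626902) (nat_lit 76) (nat_lit 8143020367) (nat_lit 76) (nat_lit 5303756745) (nat_lit 11) (nat_lit 4) (nat_lit 12) (nat_lit 5) (nat_lit 12) (nat_lit 4) (nat_lit 528) (nat_lit 311) (nat_lit 301)))) (XT.nd (nat_lit 156) (nat_lit 0) (nat_lit 0) (XT.nd (nat_lit 78) (nat_lit 152) (nat_lit 0) (XT.lf (nat_lit 0) (nat_lit 19357712524) (nat_lit 76) (nat_lit 4172331622) (nat_lit 76) (nat_lit 1078852228) (nat_lit 11) (nat_lit 4) (nat_lit 12) (nat_lit 5) (nat_lit 12) (nat_lit 4) (nat_lit 529) (nat_lit 311) (nat_lit 300)) (XT.lf (nat_lit 0) (nat_lit 3024646698) (nat_lit 76) (nat_lit 127510351) (nat_lit 152) (nat_lit 21857391216)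 (nat_lit 9) (nat_lit 5) (nat_lit 10) (nat_lit 5) (nat_lit 11) (nat_lit 4) (nat_lit 530) (nat_lit 311) (nat_lit 299))) (XT.nd (nat_lit 78) (nat_lit 0) (nat_lit 0) (XT.lf (nat_lit 0) (nat_lit 7459252150) (nat_lit 152) (nat_lit 14016176972) (nat_lit 0) (nat_lit 3942531750) (nat_lit 9) (nat_lit 5) (nat_lit 11) (nat_lit 4) (nat_lit 9) (nat_lit 4) (nat_lit 531) (nat_lit 311) (nat_lit 298)) (XT.lf (nat_lit 0) (nat_lit 11798889841) (nat_lit 152) (nat_lit 5989418874) (nat_lit 0) (nat_lit 8047313362) (nat_lit 9) (nat_lit 5) (nat_lit 11) (nat_lit 4) (nat_lit 9) (nat_lit 4) (nat_lit 532) (nat_lit 311) (nat_lit 297)))))) (XT.nd (nat_lit 58500) (nat_lit 0) (nat_lit 228) (XT.nd (nat_lit 58188) (nat_lit 0) (nat_lit 608) (XT.nd (nat_lit 58032) (nat_lit 0) (nat_lit 760) (XT.lf (nat_lit 0) (nat_lit 2127247589) (nat_lit 76) (nat_lit 14058507973) (nat_lit 76) (nat_lit 10076680436) (nat_lit 8) (nat_lit 4) (nat_lit 9) (nat_lit 5) (nat_lit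 9) (nat_lit 4) (nat_lit 533) (nat_lit 311) (nat_lit 296)) (XT.nd (nat_lit 78) (nat_lit 152) (nat_lit 0) (XT.lf (nat_lit 0) (nat_lit 3769733723) (nat_lit 152) (nat_lit 2515677663) (nat_lit 0) (nat_lit 3769733723) (nat_lit 20) (nat_lit 5) (nat_lit 22) (nat_lit 4) (nat_lit 20) (nat_lit 4) (nat_lit 516) (nat_lit 312) (nat_lit 312)) (XT.lf (nat_lit 0) (nat_lit 3718205553) (nat_lit 152) (nat_lit 8512374751) (nat_lit 152) (nat_lit 8183519542) (nat_lit 18) (nat_lit 4) (nat_lit 20) (nat_lit 5) (nat_lit 20) (nat_lit 4) (nat_lit 517) (nat_lit 312) (nat_lit 311)))) (XT.nd (nat_lit 156) (nat_lit 0) (nat_lit 0) (XT.nd (nat_lit 78) (nat_lit 152) (nat_lit 0) (XT.lf (nat_lit 0) (nat_lit 12594762232) (nat_lit 152) (nat_lit 4390550621) (nat_lit 152) (nat_lit 3739288344) (nat_lit 18) (nat_lit 4) (nat_lit 20) (nat_lit 5) (nat_lit 20) (nat_lit 4) (nat_lit 518) (nat_lit 312) (nat_lit 310)) (XT.lf (nat_lit 0) (nat_lit 494095061) (nat_lit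 76) (nat_lit 229391423) (nat_lit 152) (nat_lit 20318932639) (nat_lit 16) (nat_lit 5) (nat_lit 17) (nat_lit 5) (nat_lit 18) (nat_lit 4) (nat_lit 519) (nat_lit 312) (nat_lit 309))) (XT.nd (nat_lit 78) (nat_lit 0) (nat_lit 0) (XT.lf (nat_lit 0) (nat_lit 5243505719) (nat_lit 152) (nat_lit 12130928711) (nat_lit 0) (nat_lit 3991314301) (nat_lit 16) (nat_lit 5) (nat_lit 18) (nat_lit 4) (nat_lit 16) (nat_lit 4) (nat_lit 520) (nat_lit 312) (nat_lit 308)) (XT.lf (nat_lit 0) (nat_lit 9793705662) (nat_lit 152) (nat_lit 3659394317) (nat_lit 0) (nat_lit 8243659950) (nat_lit 16) (nat_lit 5) (nat_lit 18) (nat_lit 4) (nat_lit 16) (nat_lit 4) (nat_lit 521) (nat_lit 312) (nat_lit 307))))) (XT.nd (nat_lit 234) (nat_lit 152) (nat_lit 0) (XT.nd (nat_lit 78) (nat_lit 76) (nat_lit 0) (XT.lf (nat_lit 0) (nat_lit 4935824880) (nat_lit 152) (nat_lit 9470603114) (nat_lit 152) (nat_lit 7628543387) (nat_lit 14) (nat_lit 4) (nat_lit 16) (nat_lit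 5) (nat_lit 16) (nat_lit 4) (nat_lit 522) (nat_lit 312) (nat_lit 306)) (XT.nd (nat_lit 78) (nat_lit 76) (nat_lit 0) (XT.lf (nat_lit 0) (nat_lit 13642799244) (nat_lit 152) (nat_lit 5433107970) (nat_lit 152) (nat_lit 3304759993) (nat_lit 14) (nat_lit 4) (nat_lit 16) (nat_lit 5) (nat_lit 16) (nat_lit 4) (nat_lit 523) (nat_lit 312) (nat_lit 305)) (XT.lf (nat_lit 0) (nat_lit 1031723985) (nat_lit 228) (nat_lit 324940281) (nat_lit 76) (nat_lit 21377664452) (nat_lit 13) (nat_lit 5) (nat_lit 16) (nat_lit 5) (nat_lit 14) (nat_lit 4) (nat_lit 524) (nat_lit 312) (nat_lit 304)))) (XT.nd (nat_lit 156) (nat_lit 76) (nat_lit 0) (XT.nd (nat_lit 78) (nat_lit 0) (nat_lit 0) (XT.lf (nat_lit 0) (nat_lit 5424462884) (nat_lit 152) (nat_lit 14876997693) (nat_lit 0) (nat_lit 2792900080) (nat_lit 12) (nat_lit 5) (nat_lit 14) (nat_lit 4) (nat_lit 12) (nat_lit 4) (nat_lit 525) (nat_lit 312) (nat_lit 303)) (XT.lf (nat_lit 0) (nat_lit 9858265010)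 (nat_lit 152) (nat_lit 6642057357) (nat_lit 0) (nat_lit 6962216116) (nat_lit 12) (nat_lit 5) (nat_lit 14) (nat_lit 4) (nat_lit 12) (nat_lit 4) (nat_lit 526) (nat_lit 312) (nat_lit 302))) (XT.nd (nat_lit 78) (nat_lit 0) (nat_lit 0) (XT.lf (nat_lit 0) (nat_lit 1675213606) (nat_lit 76) (nat_lit 12659571814) (nat_lit 76) (nat_lit 9504222832) (nat_lit 11) (nat_lit 4) (nat_lit 12) (nat_lit 5) (nat_lit 12) (nat_lit 4) (nat_lit 527) (nat_lit 312) (nat_lit 301)) (XT.lf (nat_lit 0) (nat_lit 10145212356) (nat_lit 76) (nat_lit 8743802646) (nat_lit 76) (nat_lit 5334237891) (nat_lit 11) (nat_lit 4) (nat_lit 12) (nat_lit 5) (nat_lit 12) (nat_lit 4) (nat_lit 528) (nat_lit 312) (nat_lit 300))))))) (XT.nd (nat_lit 58890) (nat_lit 0) (nat_lit 0) (XT.nd (nat_lit 58344) (nat_lit 0) (nat_lit 456) (XT.nd (nat_lit 234) (nat_lit 76) (nat_lit 0) (XT.nd (nat_lit 78) (nat_lit 152) (nat_lit 0) (XT.lf (nat_lit 0) (nat_lit 18682991014) (nat_lit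 76) (nat_lit 4796050967) (nat_lit 76) (nat_lit 1137255063) (nat_lit 11) (nat_lit 4) (nat_lit 12) (nat_lit 5) (nat_lit 12) (nat_lit 4) (nat_lit 529) (nat_lit 312) (nat_lit 299)) (XT.nd (nat_lit 78) (nat_lit 0) (nat_lit 0) (XT.lf (nat_lit 0) (nat_lit 2283499639) (nat_lit 76) (nat_lit 779193334) (nat_lit 152) (nat_lit 21954904312) (nat_lit 9) (nat_lit 5) (nat_lit 10) (nat_lit 5) (nat_lit 11) (nat_lit 4) (nat_lit 530) (nat_lit 312) (nat_lit 298)) (XT.lf (nat_lit 0) (nat_lit 7338604564) (nat_lit 152) (nat_lit 14810892661) (nat_lit 0) (nat_lit 3277140476) (nat_lit 9) (nat_lit 5) (nat_lit 11) (nat_lit 4) (nat_lit 9) (nat_lit 4) (nat_lit 531) (nat_lit 312) (nat_lit 297)))) (XT.nd (nat_lit 57954) (nat_lit 0) (nat_lit 912) (XT.nd (nat_lit 78) (nat_lit 76) (nat_lit 0) (XT.lf (nat_lit 0) (nat_lit 11651818381) (nat_lit 152) (nat_lit 6832909826) (nat_lit 0) (nat_lit 7360103236) (nat_lit 9) (nat_lit 5) (nat_lit 11) (nat_lit 4)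 (nat_lit 9) (nat_lit 4) (nat_lit 532) (nat_lit 312) (nat_lit 296)) (XT.lf (nat_lit 0) (nat_lit 1224092714) (nat_lit 76) (nat_lit 14782821749) (nat_lit 76) (nat_lit 10265370273) (nat_lit 8) (nat_lit 4) (nat_lit 9) (nat_lit 5) (nat_lit 9) (nat_lit 4) (nat_lit 533) (nat_lit 312) (nat_lit 295))) (XT.nd (nat_lit 78) (nat_lit 152) (nat_lit 0) (XT.lf (nat_lit 0) (nat_lit 8426405558) (nat_lit 152) (nat_lit 667286801) (nat_lit 152) (nat_lit 667286801) (nat_lit 22) (nat_lit 4) (nat_lit 24) (nat_lit 5) (nat_lit 24) (nat_lit 4) (nat_lit 514) (nat_lit 313) (nat_lit 313)) (XT.lf (nat_lit 0) (nat_lit 3236226026) (nat_lit 152) (nat_lit 13676220254) (nat_lit 0) (nat_lit 2900793713) (nat_lit 20) (nat_lit 5) (nat_lit 22) (nat_lit 4) (nat_lit 20) (nat_lit 4) (nat_lit 515) (nat_lit 313) (nat_lit 312))))) (XT.nd (nat_lit 234) (nat_lit 304) (nat_lit 0) (XT.nd (nat_lit 78) (nat_lit 152) (nat_lit 0) (XT.lf (nat_lit 0) (nat_lit 7842981242)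 (nat_lit 152) (nat_lit 5089259425) (nat_lit 0) (nat_lit 7178693719) (nat_lit 20) (nat_lit 5) (nat_lit 22) (nat_lit 4) (nat_lit 20) (nat_lit 4) (nat_lit 516) (nat_lit 313) (nat_lit 311)) (XT.nd (nat_lit 78) (nat_lit 0) (nat_lit 0) (XT.lf (nat_lit 0) (nat_lit 3602008788) (nat_lit 152) (nat_lit 8900038220) (nat_lit 152) (nat_lit 7913343630) (nat_lit 18) (nat_lit 4) (nat_lit 20) (nat_lit 5) (nat_lit 20) (nat_lit 4) (nat_lit 517) (nat_lit 313) (nat_lit 310)) (XT.lf (nat_lit 0) (nat_lit 12422170221) (nat_lit 152) (nat_lit 4803564097) (nat_lit 152) (nat_lit 3500784146) (nat_lit 18) (nat_lit 4) (nat_lit 20) (nat_lit 5) (nat_lit 20) (nat_lit 4) (nat_lit 518) (nat_lit 313) (nat_lit 309)))) (XT.nd (nat_lit 156) (nat_lit 152) (nat_lit 0) (XT.nd (nat_lit 78) (nat_lit 0) (nat_lit 0) (XT.lf (nat_lit 0) (nat_lit 259255241) (nat_lit 76) (nat_lit 667439214) (nat_lit 152) (nat_lit 20118259684) (nat_lit 16) (nat_lit 5) (nat_lit 17)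 (nat_lit 5) (nat_lit 18) (nat_lit 4) (nat_lit 519) (nat_lit 313) (nat_lit 308)) (XT.lf (nat_lit 0) (nat_lit 5413305819) (nat_lit 152) (nat_lit 12421246438) (nat_lit 0) (nat_lit 3534404897) (nat_lit 16) (nat_lit 5) (nat_lit 18) (nat_lit 4) (nat_lit 16) (nat_lit 4) (nat_lit 520) (nat_lit 313) (nat_lit 307))) (XT.nd (nat_lit 78) (nat_lit 152) (nat_lit 0) (XT.lf (nat_lit 0) (nat_lit 9933541278) (nat_lit 152) (nat_lit 4004405171) (nat_lit 0) (nat_lit 7762626341) (nat_lit 16) (nat_lit 5) (nat_lit 18) (nat_lit 4) (nat_lit 16) (nat_lit 4) (nat_lit 521) (nat_lit 313) (nat_lit 306)) (XT.lf (nat_lit 0) (nat_lit 4531895711) (nat_lit 152) (nat_lit 9982368377) (nat_lit 152) (nat_lit 7525165190) (nat_lit 14) (nat_lit 4) (nat_lit 16) (nat_lit 5) (nat_lit 16) (nat_lit 4) (nat_lit 522) (nat_lit 313) (nat_lit 305)))))) (XT.nd (nat_lit 546) (nat_lit 228) (nat_lit 0) (XT.nd (nat_lit 234) (nat_lit 76) (nat_lit 0) (XT.nd (nat_lit 78)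 (nat_lit 152) (nat_lit 0) (XT.lf (nat_lit 0) (nat_lit 13185602131) (nat_lit 152) (nat_lit 5968994398) (nat_lit 152) (nat_lit 3231116457) (nat_lit 14) (nat_lit 4) (nat_lit 16) (nat_lit 5) (nat_lit 16) (nat_lit 4) (nat_lit 523) (nat_lit 313) (nat_lit 304)) (XT.nd (nat_lit 78) (nat_lit 76) (nat_lit 0) (XT.lf (nat_lit 0) (nat_lit 1075632373) (nat_lit 228) (nat_lit 840271874) (nat_lit 76) (nat_lit 20824040829) (nat_lit 13) (nat_lit 5) (nat_lit 16) (nat_lit 5) (nat_lit 14) (nat_lit 4) (nat_lit 524) (nat_lit 313) (nat_lit 303)) (XT.lf (nat_lit 0) (nat_lit 5432628987) (nat_lit 152) (nat_lit 15453894511) (nat_lit 0) (nat_lit 2214173025) (nat_lit 12) (nat_lit 5) (nat_lit 14) (nat_lit 4) (nat_lit 12) (nat_lit 4) (nat_lit 525) (nat_lit 313) (nat_lit 302)))) (XT.nd (nat_lit 156) (nat_lit 0) (nat_lit 0) (XT.nd (nat_lit 78) (nat_lit 76) (nat_lit 0) (XT.lf (nat_lit 0) (nat_lit 9838295293) (nat_lit 152) (nat_lit 7270607099) (nat_lit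 0) (nat_lit 6360539243) (nat_lit 12) (nat_lit 5) (nat_lit 14) (nat_lit 4) (nat_lit 12) (nat_lit 4) (nat_lit 526) (nat_lit 313) (nat_lit 301)) (XT.lf (nat_lit 0) (nat_lit 986997665) (nat_lit 76) (nat_lit 13295765546) (nat_lit 76) (nat_lit 9563793723) (nat_lit 11) (nat_lit 4) (nat_lit 12) (nat_lit 5) (nat_lit 12) (nat_lit 4) (nat_lit 527) (nat_lit 313) (nat_lit 300))) (XT.nd (nat_lit 78) (nat_lit 0) (nat_lit 0) (XT.lf (nat_lit 0) (nat_lit 9406689452) (nat_lit 76) (nat_lit 9402933444) (nat_lit 76) (nat_lit 5421730471) (nat_lit 11) (nat_lit 4) (nat_lit 12) (nat_lit 5) (nat_lit 12) (nat_lit 4) (nat_lit 528) (nat_lit 313) (nat_lit 299)) (XT.lf (nat_lit 0) (nat_lit 17895147558) (nat_lit 76) (nat_lit 5477669084) (nat_lit 76) (nat_lit 1252121848) (nat_lit 11) (nat_lit 4) (nat_lit 12) (nat_lit 5) (nat_lit 12) (nat_lit 4) (nat_lit 529) (nat_lit 313) (nat_lit 298))))) (XT.nd (nat_lit 57954) (nat_lit 0) (nat_lit 912) (XT.nd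 (nat_lit 156) (nat_lit 76) (nat_lit 0) (XT.nd (nat_lit 78) (nat_lit 0) (nat_lit 0) (XT.lf (nat_lit 0) (nat_lit 1427828649) (nat_lit 76) (nat_lit 1489462977) (nat_lit 152) (nat_lit 22109606982) (nat_lit 9) (nat_lit 5) (nat_lit 10) (nat_lit 5) (nat_lit 11) (nat_lit 4) (nat_lit 530) (nat_lit 313) (nat_lit 297)) (XT.lf (nat_lit 0) (nat_lit 7162167801) (nat_lit 152) (nat_lit 15720028694) (nat_lit 0) (nat_lit 2554367295) (nat_lit 9) (nat_lit 5) (nat_lit 11) (nat_lit 4) (nat_lit 9) (nat_lit 4) (nat_lit 531) (nat_lit 313) (nat_lit 296))) (XT.nd (nat_lit 78) (nat_lit 76) (nat_lit 0) (XT.lf (nat_lit 0) (nat_lit 11449475859) (nat_lit 152) (nat_lit 7789864744) (nat_lit 0) (nat_lit 6615939022) (nat_lit 9) (nat_lit 5) (nat_lit 11) (nat_lit 4) (nat_lit 9) (nat_lit 4) (nat_lit 532) (nat_lit 313) (nat_lit 295)) (XT.lf (nat_lit 0) (nat_lit 206916081) (nat_lit 76) (nat_lit 15565653872) (nat_lit 76) (nat_lit 10510806906) (nat_lit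 8) (nat_lit 4) (nat_lit 9) (nat_lit 5) (nat_lit 9) (nat_lit 4) (nat_lit 533) (nat_lit 313) (nat_lit 294)))) (XT.nd (nat_lit 156) (nat_lit 152) (nat_lit 0) (XT.nd (nat_lit 78) (nat_lit 152) (nat_lit 0) (XT.lf (nat_lit 0) (nat_lit 4488028494) (nat_lit 152) (nat_lit 502112632) (nat_lit 0) (nat_lit 4488028494) (nat_lit 24) (nat_lit 5) (nat_lit 26) (nat_lit 4) (nat_lit 24) (nat_lit 4) (nat_lit 512) (nat_lit 314) (nat_lit 314)) (XT.lf (nat_lit 0) (nat_lit 7858126457) (nat_lit 152) (nat_lit 5863474318) (nat_lit 152) (nat_lit 5514490539) (nat_lit 22) (nat_lit 4) (nat_lit 24) (nat_lit 5) (nat_lit 24) (nat_lit 4) (nat_lit 513) (nat_lit 314) (nat_lit 313))) (XT.nd (nat_lit 78) (nat_lit 152) (nat_lit 0) (XT.lf (nat_lit 0) (nat_lit 16795432060) (nat_lit 152) (nat_lit 1709146415) (nat_lit 152) (nat_lit 1018021676) (nat_lit 22) (nat_lit 4) (nat_lit 24) (nat_lit 5) (nat_lit 24) (nat_lit 4) (nat_lit 514) (nat_lit 314) (nat_lit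 312)) (XT.lf (nat_lit 0) (nat_lit 3513891579) (nat_lit 152) (nat_lit 13793186534) (nat_lit 0) (nat_lit 2507463097) (nat_lit 20) (nat_lit 5) (nat_lit 22) (nat_lit 4) (nat_lit 20) (nat_lit 4) (nat_lit 515) (nat_lit 314) (nat_lit 311))))))))
noncomputable def xc2 : XT := (XT.nd (nat_lit 59670) (nat_lit 0) (nat_lit 0) (XT.nd (nat_lit 1092) (nat_lit 152) (nat_lit 0) (XT.nd (nat_lit 546) (nat_lit 228) (nat_lit 0) (XT.nd (nat_lit 234) (nat_lit 304) (nat_lit 0) (XT.nd (nat_lit 78) (nat_lit 152) (nat_lit 0) (XT.lf (nat_lit 0) (nat_lit 8089354130) (nat_lit 152) (nat_lit 5262994430) (nat_lit 0) (nat_lit 6760518580) (nat_lit 20) (nat_lit 5) (nat_lit 22) (nat_lit 4) (nat_lit 20) (nat_lit 4) (nat_lit 516) (nat_lit 314) (nat_lit 310)) (XT.nd (nat_lit 78) (nat_lit 0) (nat_lit 0) (XT.lf (nat_lit 0) (nat_lit 3369569691) (nat_lit 152) (nat_lit 9346661973) (nat_lit 152) (nat_lit 7701741063) (nat_lit 18) (nat_lit 4) (nat_lit 20) (nat_lit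 5) (nat_lit 20) (nat_lit 4) (nat_lit 517) (nat_lit 314) (nat_lit 309)) (XT.lf (nat_lit 0) (nat_lit 12134441667) (nat_lit 152) (nat_lit 5275040799) (nat_lit 152) (nat_lit 3320232280) (nat_lit 18) (nat_lit 4) (nat_lit 20) (nat_lit 5) (nat_lit 20) (nat_lit 4) (nat_lit 518) (nat_lit 314) (nat_lit 308)))) (XT.nd (nat_lit 156) (nat_lit 152) (nat_lit 0) (XT.nd (nat_lit 78) (nat_lit 76) (nat_lit 0) (XT.lf (nat_lit 0) (nat_lit 1073152482) (nat_lit 228) (nat_lit 90851886) (nat_lit 76) (nat_lit 19884762375) (nat_lit 17) (nat_lit 5) (nat_lit 20) (nat_lit 5) (nat_lit 18) (nat_lit 4) (nat_lit 519) (nat_lit 314) (nat_lit 307)) (XT.lf (nat_lit 0) (nat_lit 5525973662) (nat_lit 152) (nat_lit 12827850635) (nat_lit 0) (nat_lit 3019626412) (nat_lit 16) (nat_lit 5) (nat_lit 18) (nat_lit 4) (nat_lit 16) (nat_lit 4) (nat_lit 520) (nat_lit 314) (nat_lit 306))) (XT.nd (nat_lit 78) (nat_lit 152) (nat_lit 0) (XT.lf (nat_lit 0) (nat_lit 10016832175)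 (nat_lit 152) (nat_lit 4464630079) (nat_lit 0) (nat_lit 7224196675) (nat_lit 16) (nat_lit 5) (nat_lit 18) (nat_lit 4) (nat_lit 16) (nat_lit 4) (nat_lit 521) (nat_lit 314) (nat_lit 305)) (XT.lf (nat_lit 0) (nat_lit 4012286713) (nat_lit 152) (nat_lit 10553093699) (nat_lit 152) (nat_lit 7479783444) (nat_lit 14) (nat_lit 4) (nat_lit 16) (nat_lit 5) (nat_lit 16) (nat_lit 4) (nat_lit 522) (nat_lit 314) (nat_lit 304))))) (XT.nd (nat_lit 234) (nat_lit 76) (nat_lit 0) (XT.nd (nat_lit 78) (nat_lit 152) (nat_lit 0) (XT.lf (nat_lit 0) (nat_lit 12613769658) (nat_lit 152) (nat_lit 6563367922) (nat_lit 152) (nat_lit 3214886339) (nat_lit 14) (nat_lit 4) (nat_lit 16) (nat_lit 5) (nat_lit 16) (nat_lit 4) (nat_lit 523) (nat_lit 314) (nat_lit 303)) (XT.nd (nat_lit 78) (nat_lit 76) (nat_lit 0) (XT.lf (nat_lit 0) (nat_lit 1063444434) (nat_lit 228) (nat_lit 1470099636) (nat_lit 76) (nat_lit 20213278598) (nat_lit 13) (nat_lit 5) (nat_lit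 16) (nat_lit 5) (nat_lit 14) (nat_lit 4) (nat_lit 524) (nat_lit 314) (nat_lit 302)) (XT.lf (nat_lit 0) (nat_lit 5384124056) (nat_lit 152) (nat_lit 16146668172) (nat_lit 0) (nat_lit 1577512797) (nat_lit 12) (nat_lit 5) (nat_lit 14) (nat_lit 4) (nat_lit 12) (nat_lit 4) (nat_lit 525) (nat_lit 314) (nat_lit 301)))) (XT.nd (nat_lit 156) (nat_lit 0) (nat_lit 0) (XT.nd (nat_lit 78) (nat_lit 76) (nat_lit 0) (XT.lf (nat_lit 0) (nat_lit 9762206225) (nat_lit 152) (nat_lit 8014020883) (nat_lit 0) (nat_lit 5701379193) (nat_lit 12) (nat_lit 5) (nat_lit 14) (nat_lit 4) (nat_lit 12) (nat_lit 4) (nat_lit 526) (nat_lit 314) (nat_lit 300)) (XT.lf (nat_lit 0) (nat_lit 183397340) (nat_lit 76) (nat_lit 13991016026) (nat_lit 76) (nat_lit 9680957844) (nat_lit 11) (nat_lit 4) (nat_lit 12) (nat_lit 5) (nat_lit 12) (nat_lit 4) (nat_lit 527) (nat_lit 314) (nat_lit 299))) (XT.nd (nat_lit 78) (nat_lit 0) (nat_lit 0) (XT.lf (nat_lit 0) (nat_lit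 8553768573) (nat_lit 76) (nat_lit 10120671243) (nat_lit 76) (nat_lit 5566268797) (nat_lit 11) (nat_lit 4) (nat_lit 12) (nat_lit 5) (nat_lit 12) (nat_lit 4) (nat_lit 528) (nat_lit 314) (nat_lit 298)) (XT.lf (nat_lit 0) (nat_lit 16993873196) (nat_lit 76) (nat_lit 6217453275) (nat_lit 76) (nat_lit 1423497628) (nat_lit 11) (nat_lit 4) (nat_lit 12) (nat_lit 5) (nat_lit 12) (nat_lit 4) (nat_lit 529) (nat_lit 314) (nat_lit 297)))))) (XT.nd (nat_lit 58032) (nat_lit 0) (nat_lit 608) (XT.nd (nat_lit 234) (nat_lit 0) (nat_lit 0) (XT.nd (nat_lit 78) (nat_lit 0) (nat_lit 0) (XT.lf (nat_lit 0) (nat_lit 457298171) (nat_lit 76) (nat_lit 2258597817) (nat_lit 152) (nat_lit 22321559893) (nat_lit 9) (nat_lit 5) (nat_lit 10) (nat_lit 5) (nat_lit 11) (nat_lit 4) (nat_lit 530) (nat_lit 314) (nat_lit 296)) (XT.nd (nat_lit 78) (nat_lit 0) (nat_lit 0) (XT.lf (nat_lit 0) (nat_lit 6929872670) (nat_lit 152) (nat_lit 16743941596) (nat_lit 0)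 (nat_lit 1773928765) (nat_lit 9) (nat_lit 5) (nat_lit 11) (nat_lit 4) (nat_lit 9) (nat_lit 4) (nat_lit 531) (nat_lit 314) (nat_lit 295)) (XT.lf (nat_lit 0) (nat_lit 11191782926) (nat_lit 152) (nat_lit 8860658905) (nat_lit 0) (nat_lit 5814528892) (nat_lit 9) (nat_lit 5) (nat_lit 11) (nat_lit 4) (nat_lit 9) (nat_lit 4) (nat_lit 532) (nat_lit 314) (nat_lit 294)))) (XT.nd (nat_lit 57642) (nat_lit 0) (nat_lit 1140) (XT.nd (nat_lit 57564) (nat_lit 0) (nat_lit 1140) (XT.lf (nat_lit 0) (nat_lit 15488633777) (nat_lit 152) (nat_lit 912553840) (nat_lit 0) (nat_lit 9894409029) (nat_lit 9) (nat_lit 5) (nat_lit 11) (nat_lit 4) (nat_lit 9) (nat_lit 4) (nat_lit 533) (nat_lit 314) (nat_lit 293)) (XT.lf (nat_lit 0) (nat_lit 29794348) (nat_lit 152) (nat_lit 9147604905) (nat_lit 0) (nat_lit 29794348) (nat_lit 24) (nat_lit 5) (nat_lit 26) (nat_lit 4) (nat_lit 24) (nat_lit 4) (nat_lit 510) (nat_lit 315) (nat_lit 315))) (XT.nd (nat_lit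 78) (nat_lit 0) (nat_lit 0) (XT.lf (nat_lit 0) (nat_lit 4666082999) (nat_lit 152) (nat_lit 9706151011) (nat_lit 0) (nat_lit 4310119544) (nat_lit 24) (nat_lit 5) (nat_lit 26) (nat_lit 4) (nat_lit 24) (nat_lit 4) (nat_lit 511) (nat_lit 315) (nat_lit 314)) (XT.lf (nat_lit 0) (nat_lit 9299974614) (nat_lit 152) (nat_lit 1061984314) (nat_lit 0) (nat_lit 8595027380) (nat_lit 24) (nat_lit 5) (nat_lit 26) (nat_lit 4) (nat_lit 24) (nat_lit 4) (nat_lit 512) (nat_lit 315) (nat_lit 313))))) (XT.nd (nat_lit 234) (nat_lit 228) (nat_lit 0) (XT.nd (nat_lit 78) (nat_lit 152) (nat_lit 0) (XT.lf (nat_lit 0) (nat_lit 7742220765) (nat_lit 152) (nat_lit 6271127621) (nat_lit 152) (nat_lit 5224039428) (nat_lit 22) (nat_lit 4) (nat_lit 24) (nat_lit 5) (nat_lit 24) (nat_lit 4) (nat_lit 513) (nat_lit 315) (nat_lit 312)) (XT.nd (nat_lit 78) (nat_lit 152) (nat_lit 0) (XT.lf (nat_lit 0) (nat_lit 16623272392) (nat_lit 152) (nat_lit 2141887005)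 (nat_lit 152) (nat_lit 759366499) (nat_lit 22) (nat_lit 4) (nat_lit 24) (nat_lit 5) (nat_lit 24) (nat_lit 4) (nat_lit 514) (nat_lit 315) (nat_lit 311)) (XT.lf (nat_lit 0) (nat_lit 3733899260) (nat_lit 152) (nat_lit 14027164963) (nat_lit 0) (nat_lit 2056079931) (nat_lit 20) (nat_lit 5) (nat_lit 22) (nat_lit 4) (nat_lit 20) (nat_lit 4) (nat_lit 515) (nat_lit 315) (nat_lit 310)))) (XT.nd (nat_lit 156) (nat_lit 76) (nat_lit 0) (XT.nd (nat_lit 78) (nat_lit 152) (nat_lit 0) (XT.lf (nat_lit 0) (nat_lit 8278682727) (nat_lit 152) (nat_lit 5552628471) (nat_lit 0) (nat_lit 6284778038) (nat_lit 20) (nat_lit 5) (nat_lit 22) (nat_lit 4) (nat_lit 20) (nat_lit 4) (nat_lit 516) (nat_lit 315) (nat_lit 309)) (XT.lf (nat_lit 0) (nat_lit 3020797109) (nat_lit 152) (nat_lit 9852421158) (nat_lit 152) (nat_lit 7548628860) (nat_lit 18) (nat_lit 4) (nat_lit 20) (nat_lit 5) (nat_lit 20) (nat_lit 4) (nat_lit 517) (nat_lit 315) (nat_lit 308)))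 (XT.nd (nat_lit 78) (nat_lit 76) (nat_lit 0) (XT.lf (nat_lit 0) (nat_lit 11731463734) (nat_lit 152) (nat_lit 5805165620) (nat_lit 152) (nat_lit 3197561941) (nat_lit 18) (nat_lit 4) (nat_lit 20) (nat_lit 5) (nat_lit 20) (nat_lit 4) (nat_lit 518) (nat_lit 315) (nat_lit 307)) (XT.lf (nat_lit 0) (nat_lit 1164760435) (nat_lit 228) (nat_lit 552641893) (nat_lit 76) (nat_lit 19336419251) (nat_lit 17) (nat_lit 5) (nat_lit 20) (nat_lit 5) (nat_lit 18) (nat_lit 4) (nat_lit 519) (nat_lit 315) (nat_lit 306))))))) (XT.nd (nat_lit 58422) (nat_lit 0) (nat_lit 380) (XT.nd (nat_lit 546) (nat_lit 228) (nat_lit 0) (XT.nd (nat_lit 234) (nat_lit 152) (nat_lit 0) (XT.nd (nat_lit 78) (nat_lit 152) (nat_lit 0) (XT.lf (nat_lit 0) (nat_lit 5581553431) (nat_lit 152) (nat_lit 13350900753) (nat_lit 0) (nat_lit 2446776972) (nat_lit 16) (nat_lit 5) (nat_lit 18) (nat_lit 4) (nat_lit 16) (nat_lit 4) (nat_lit 520) (nat_lit 315) (nat_lit 305)) (XT.nd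 (nat_lit 78) (nat_lit 152) (nat_lit 0) (XT.lf (nat_lit 0) (nat_lit 10043611017) (nat_lit 152) (nat_lit 5040249522) (nat_lit 0) (nat_lit 6628159803) (nat_lit 16) (nat_lit 5) (nat_lit 18) (nat_lit 4) (nat_lit 16) (nat_lit 4) (nat_lit 521) (nat_lit 315) (nat_lit 304)) (XT.lf (nat_lit 0) (nat_lit 3376794116) (nat_lit 152) (nat_lit 11183002895) (nat_lit 152) (nat_lit 7492380353) (nat_lit 14) (nat_lit 4) (nat_lit 16) (nat_lit 5) (nat_lit 16) (nat_lit 4) (nat_lit 522) (nat_lit 315) (nat_lit 303)))) (XT.nd (nat_lit 156) (nat_lit 76) (nat_lit 0) (XT.nd (nat_lit 78) (nat_lit 76) (nat_lit 0) (XT.lf (nat_lit 0) (nat_lit 11927077577) (nat_lit 152) (nat_lit 7216461630) (nat_lit 152) (nat_lit 3256063276) (nat_lit 14) (nat_lit 4) (nat_lit 16) (nat_lit 5) (nat_lit 16) (nat_lit 4) (nat_lit 523) (nat_lit 315) (nat_lit 302)) (XT.lf (nat_lit 0) (nat_lit 995155388) (nat_lit 228) (nat_lit 2214670558) (nat_lit 76) (nat_lit 19545138245)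 (nat_lit 13) (nat_lit 5) (nat_lit 16) (nat_lit 5) (nat_lit 14) (nat_lit 4) (nat_lit 524) (nat_lit 315) (nat_lit 301))) (XT.nd (nat_lit 78) (nat_lit 0) (nat_lit 0) (XT.lf (nat_lit 0) (nat_lit 5278929069) (nat_lit 152) (nat_lit 16955590355) (nat_lit 0) (nat_lit 882669724) (nat_lit 12) (nat_lit 5) (nat_lit 14) (nat_lit 4) (nat_lit 12) (nat_lit 4) (nat_lit 525) (nat_lit 315) (nat_lit 300)) (XT.lf (nat_lit 0) (nat_lit 9629967967) (nat_lit 152) (nat_lit 8872590244) (nat_lit 0) (nat_lit 4984477472) (nat_lit 12) (nat_lit 5) (nat_lit 14) (nat_lit 4) (nat_lit 12) (nat_lit 4) (nat_lit 526) (nat_lit 315) (nat_lit 299))))) (XT.nd (nat_lit 234) (nat_lit 152) (nat_lit 0) (XT.nd (nat_lit 78) (nat_lit 76) (nat_lit 0) (XT.lf (nat_lit 0) (nat_lit 14014471359) (nat_lit 152) (nat_lit 726251014) (nat_lit 0) (nat_lit 9124636599) (nat_lit 12) (nat_lit 5) (nat_lit 14) (nat_lit 4) (nat_lit 12) (nat_lit 4) (nat_lit 527) (nat_lit 315) (nat_lit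 298)) (XT.nd (nat_lit 78) (nat_lit 0) (nat_lit 0) (XT.lf (nat_lit 0) (nat_lit 7586115242) (nat_lit 76) (nat_lit 10897297508) (nat_lit 76) (nat_lit 5767909549) (nat_lit 11) (nat_lit 4) (nat_lit 12) (nat_lit 5) (nat_lit 12) (nat_lit 4) (nat_lit 528) (nat_lit 315) (nat_lit 297)) (XT.lf (nat_lit 0) (nat_lit 15978814490) (nat_lit 76) (nat_lit 7015693650) (nat_lit 76) (nat_lit 1651449611) (nat_lit 11) (nat_lit 4) (nat_lit 12) (nat_lit 5) (nat_lit 12) (nat_lit 4) (nat_lit 529) (nat_lit 315) (nat_lit 296)))) (XT.nd (nat_lit 156) (nat_lit 0) (nat_lit 0) (XT.nd (nat_lit 78) (nat_lit 76) (nat_lit 0) (XT.lf (nat_lit 0) (nat_lit 2462507539) (nat_lit 152) (nat_lit 620229866) (nat_lit 76) (nat_lit 21966454227) (nat_lit 10) (nat_lit 5) (nat_lit 12) (nat_lit 5) (nat_lit 11) (nat_lit 4) (nat_lit 530) (nat_lit 315) (nat_lit 295)) (XT.lf (nat_lit 0) (nat_lit 6641628075) (nat_lit 152) (nat_lit 17883032900) (nat_lit 0) (nat_lit 935518832)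 (nat_lit 9) (nat_lit 5) (nat_lit 11) (nat_lit 4) (nat_lit 9) (nat_lit 4) (nat_lit 531) (nat_lit 315) (nat_lit 294))) (XT.nd (nat_lit 78) (nat_lit 0) (nat_lit 0) (XT.lf (nat_lit 0) (nat_lit 10878638524) (nat_lit 152) (nat_lit 10045712228) (nat_lit 0) (nat_lit 4955558567) (nat_lit 9) (nat_lit 5) (nat_lit 11) (nat_lit 4) (nat_lit 9) (nat_lit 4) (nat_lit 532) (nat_lit 315) (nat_lit 293)) (XT.lf (nat_lit 0) (nat_lit 15151077801) (nat_lit 152) (nat_lit 2142667966) (nat_lit 0) (nat_lit 9015281457) (nat_lit 9) (nat_lit 5) (nat_lit 11) (nat_lit 4) (nat_lit 9) (nat_lit 4) (nat_lit 533) (nat_lit 315) (nat_lit 292)))))) (XT.nd (nat_lit 546) (nat_lit 608) (nat_lit 0) (XT.nd (nat_lit 234) (nat_lit 152) (nat_lit 0) (XT.nd (nat_lit 78) (nat_lit 152) (nat_lit 0) (XT.lf (nat_lit 0) (nat_lit 321536852) (nat_lit 152) (nat_lit 4312441090) (nat_lit 152) (nat_lit 4312441090) (nat_lit 26) (nat_lit 4) (nat_lit 28) (nat_lit 5) (nat_lit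 28) (nat_lit 4) (nat_lit 508) (nat_lit 316) (nat_lit 316)) (XT.nd (nat_lit 78) (nat_lit 152) (nat_lit 0) (XT.lf (nat_lit 0) (nat_lit 9528275956) (nat_lit 152) (nat_lit 4496394448) (nat_lit 152) (nat_lit 4126050070) (nat_lit 26) (nat_lit 4) (nat_lit 28) (nat_lit 5) (nat_lit 28) (nat_lit 4) (nat_lit 509) (nat_lit 316) (nat_lit 315)) (XT.lf (nat_lit 0) (nat_lit 58714996) (nat_lit 76) (nat_lit 333434557) (nat_lit 152) (nat_lit 18022854363) (nat_lit 24) (nat_lit 5) (nat_lit 25) (nat_lit 5) (nat_lit 26) (nat_lit 4) (nat_lit 510) (nat_lit 316) (nat_lit 314)))) (XT.nd (nat_lit 156) (nat_lit 152) (nat_lit 0) (XT.nd (nat_lit 78) (nat_lit 0) (nat_lit 0) (XT.lf (nat_lit 0) (nat_lit 4964433149) (nat_lit 152) (nat_lit 9822824291) (nat_lit 0) (nat_lit 3896403192) (nat_lit 24) (nat_lit 5) (nat_lit 26) (nat_lit 4) (nat_lit 24) (nat_lit 4) (nat_lit 511) (nat_lit 316) (nat_lit 313)) (XT.lf (nat_lit 0) (nat_lit 9566907285) (nat_lit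 152) (nat_lit 1235284113) (nat_lit 0) (nat_lit 8156736368) (nat_lit 24) (nat_lit 5) (nat_lit 26) (nat_lit 4) (nat_lit 24) (nat_lit 4) (nat_lit 512) (nat_lit 316) (nat_lit 312))) (XT.nd (nat_lit 78) (nat_lit 0) (nat_lit 0) (XT.lf (nat_lit 0) (nat_lit 7510363927) (nat_lit 152) (nat_lit 6737610311) (nat_lit 152) (nat_lit 4992007081) (nat_lit 22) (nat_lit 4) (nat_lit 24) (nat_lit 5) (nat_lit 24) (nat_lit 4) (nat_lit 513) (nat_lit 316) (nat_lit 311)) (XT.lf (nat_lit 0) (nat_lit 16336264598) (nat_lit 152) (nat_lit 2632965076) (nat_lit 152) (nat_lit 558506636) (nat_lit 22) (nat_lit 4) (nat_lit 24) (nat_lit 5) (nat_lit 24) (nat_lit 4) (nat_lit 514) (nat_lit 316) (nat_lit 310))))) (XT.nd (nat_lit 312) (nat_lit 304) (nat_lit 0) (XT.nd (nat_lit 156) (nat_lit 152) (nat_lit 0) (XT.nd (nat_lit 78) (nat_lit 0) (nat_lit 0) (XT.lf (nat_lit 0) (nat_lit 3896335346) (nat_lit 152) (nat_lit 14378247298) (nat_lit 0) (nat_lit 1546467202)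 (nat_lit 20) (nat_lit 5) (nat_lit 22) (nat_lit 4) (nat_lit 20) (nat_lit 4) (nat_lit 515) (nat_lit 316) (nat_lit 309)) (XT.lf (nat_lit 0) (nat_lit 8411041281) (nat_lit 152) (nat_lit 5958275132) (nat_lit 0) (nat_lit 5751285529) (nat_lit 20) (nat_lit 5) (nat_lit 22) (nat_lit 4) (nat_lit 20) (nat_lit 4) (nat_lit 516) (nat_lit 316) (nat_lit 308))) (XT.nd (nat_lit 78) (nat_lit 0) (nat_lit 0) (XT.lf (nat_lit 0) (nat_lit 2555554268) (nat_lit 152) (nat_lit 10417514111) (nat_lit 152) (nat_lit 7453946977) (nat_lit 18) (nat_lit 4) (nat_lit 20) (nat_lit 5) (nat_lit 20) (nat_lit 4) (nat_lit 517) (nat_lit 316) (nat_lit 307)) (XT.lf (nat_lit 0) (nat_lit 11213078393) (nat_lit 152) (nat_lit 6394146450) (nat_lit 152) (nat_lit 3132725022) (nat_lit 18) (nat_lit 4) (nat_lit 20) (nat_lit 5) (nat_lit 20) (nat_lit 4) (nat_lit 518) (nat_lit 316) (nat_lit 306)))) (XT.nd (nat_lit 156) (nat_lit 152) (nat_lit 0) (XT.nd (nat_lit 78) (nat_lit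 76) (nat_lit 0) (XT.lf (nat_lit 0) (nat_lit 1199870984) (nat_lit 228) (nat_lit 1129696053) (nat_lit 76) (nat_lit 18730587261) (nat_lit 17) (nat_lit 5) (nat_lit 20) (nat_lit 5) (nat_lit 18) (nat_lit 4) (nat_lit 519) (nat_lit 316) (nat_lit 305)) (XT.lf (nat_lit 0) (nat_lit 5580066923) (nat_lit 152) (nat_lit 13990601909) (nat_lit 0) (nat_lit 1815631930) (nat_lit 16) (nat_lit 5) (nat_lit 18) (nat_lit 4) (nat_lit 16) (nat_lit 4) (nat_lit 520) (nat_lit 316) (nat_lit 304))) (XT.nd (nat_lit 78) (nat_lit 152) (nat_lit 0) (XT.lf (nat_lit 0) (nat_lit 10013888306) (nat_lit 152) (nat_lit 5731489233) (nat_lit 0) (nat_lit 5974281985) (nat_lit 16) (nat_lit 5) (nat_lit 18) (nat_lit 4) (nat_lit 16) (nat_lit 4) (nat_lit 521) (nat_lit 316) (nat_lit 303)) (XT.lf (nat_lit 0) (nat_lit 2625168709) (nat_lit 152) (nat_lit 11872342988) (nat_lit 152) (nat_lit 7562960856) (nat_lit 14) (nat_lit 4) (nat_lit 16) (nat_lit 5) (nat_lit 16) (nat_lit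 4) (nat_lit 522) (nat_lit 316) (nat_lit 302))))))))
noncomputable def xc3 : XT := (XT.nd (nat_lit 59358) (nat_lit 0) (nat_lit 0) (XT.nd (nat_lit 58266) (nat_lit 0) (nat_lit 380) (XT.nd (nat_lit 546) (nat_lit 152) (nat_lit 0) (XT.nd (nat_lit 234) (nat_lit 76) (nat_lit 0) (XT.nd (nat_lit 78) (nat_lit 152) (nat_lit 0) (XT.lf (nat_lit 0) (nat_lit 11125256597) (nat_lit 152) (nat_lit 7928531636) (nat_lit 152) (nat_lit 3354663413) (nat_lit 14) (nat_lit 4) (nat_lit 16) (nat_lit 5) (nat_lit 16) (nat_lit 4) (nat_lit 523) (nat_lit 316) (nat_lit 301)) (XT.nd (nat_lit 78) (nat_lit 76) (nat_lit 0) (XT.lf (nat_lit 0) (nat_lit 870738456) (nat_lit 228) (nat_lit 3074276629) (nat_lit 76) (nat_lit 18819357754) (nat_lit 13) (nat_lit 5) (nat_lit 16) (nat_lit 5) (nat_lit 14) (nat_lit 4) (nat_lit 524) (nat_lit 316) (nat_lit 300)) (XT.lf (nat_lit 0) (nat_lit 5117002774) (nat_lit 152) (nat_lit 17880978281) (nat_lit 0) (nat_lit 129371319)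 (nat_lit 12) (nat_lit 5) (nat_lit 14) (nat_lit 4) (nat_lit 12) (nat_lit 4) (nat_lit 525) (nat_lit 316) (nat_lit 299)))) (XT.nd (nat_lit 156) (nat_lit 76) (nat_lit 0) (XT.nd (nat_lit 78) (nat_lit 0) (nat_lit 0) (XT.lf (nat_lit 0) (nat_lit 9441528660) (nat_lit 152) (nat_lit 9846651875) (nat_lit 0) (nat_lit 4209552941) (nat_lit 12) (nat_lit 5) (nat_lit 14) (nat_lit 4) (nat_lit 12) (nat_lit 4) (nat_lit 526) (nat_lit 316) (nat_lit 298)) (XT.lf (nat_lit 0) (nat_lit 13800038904) (nat_lit 152) (nat_lit 1748031964) (nat_lit 0) (nat_lit 8328509984) (nat_lit 12) (nat_lit 5) (nat_lit 14) (nat_lit 4) (nat_lit 12) (nat_lit 4) (nat_lit 527) (nat_lit 316) (nat_lit 297))) (XT.nd (nat_lit 78) (nat_lit 0) (nat_lit 0) (XT.lf (nat_lit 0) (nat_lit 6503349986) (nat_lit 76) (nat_lit 11733116801) (nat_lit 76) (nat_lit 6026731802) (nat_lit 11) (nat_lit 4) (nat_lit 12) (nat_lit 5) (nat_lit 12) (nat_lit 4) (nat_lit 528) (nat_lit 316) (nat_lit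 296)) (XT.lf (nat_lit 0) (nat_lit 14849573375) (nat_lit 76) (nat_lit 7872703246) (nat_lit 76) (nat_lit 1936067189) (nat_lit 11) (nat_lit 4) (nat_lit 12) (nat_lit 5) (nat_lit 12) (nat_lit 4) (nat_lit 529) (nat_lit 316) (nat_lit 295))))) (XT.nd (nat_lit 234) (nat_lit 0) (nat_lit 0) (XT.nd (nat_lit 78) (nat_lit 76) (nat_lit 0) (XT.lf (nat_lit 0) (nat_lit 2156664915) (nat_lit 152) (nat_lit 1805909258) (nat_lit 76) (nat_lit 21099543535) (nat_lit 10) (nat_lit 5) (nat_lit 12) (nat_lit 5) (nat_lit 11) (nat_lit 4) (nat_lit 530) (nat_lit 316) (nat_lit 294)) (XT.nd (nat_lit 78) (nat_lit 0) (nat_lit 0) (XT.lf (nat_lit 0) (nat_lit 6297320979) (nat_lit 152) (nat_lit 19137749309) (nat_lit 0) (nat_lit 38808708) (nat_lit 9) (nat_lit 5) (nat_lit 11) (nat_lit 4) (nat_lit 9) (nat_lit 4) (nat_lit 531) (nat_lit 316) (nat_lit 293)) (XT.lf (nat_lit 0) (nat_lit 10509919853) (nat_lit 152) (nat_lit 11345489441) (nat_lit 0) (nat_lit 4038691196)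 (nat_lit 9) (nat_lit 5) (nat_lit 11) (nat_lit 4) (nat_lit 9) (nat_lit 4) (nat_lit 532) (nat_lit 316) (nat_lit 292)))) (XT.nd (nat_lit 57330) (nat_lit 0) (nat_lit 1292) (XT.nd (nat_lit 57252) (nat_lit 0) (nat_lit 1444) (XT.lf (nat_lit 0) (nat_lit 14758426213) (nat_lit 152) (nat_lit 3486622437) (nat_lit 0) (nat_lit 8078652079) (nat_lit 9) (nat_lit 5) (nat_lit 11) (nat_lit 4) (nat_lit 9) (nat_lit 4) (nat_lit 533) (nat_lit 316) (nat_lit 291)) (XT.lf (nat_lit 0) (nat_lit 179846866) (nat_lit 152) (nat_lit 8336899780) (nat_lit 0) (nat_lit 179846866) (nat_lit 28) (nat_lit 5) (nat_lit 30) (nat_lit 4) (nat_lit 28) (nat_lit 4) (nat_lit 506) (nat_lit 317) (nat_lit 317))) (XT.nd (nat_lit 78) (nat_lit 152) (nat_lit 0) (XT.lf (nat_lit 0) (nat_lit 4970912894) (nat_lit 152) (nat_lit 8076177550) (nat_lit 0) (nat_lit 4593161628) (nat_lit 28) (nat_lit 5) (nat_lit 30) (nat_lit 4) (nat_lit 28) (nat_lit 4) (nat_lit 507) (nat_lit 317)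 (nat_lit 316)) (XT.lf (nat_lit 0) (nat_lit 584703041) (nat_lit 152) (nat_lit 9028444196) (nat_lit 152) (nat_lit 8280348553) (nat_lit 26) (nat_lit 4) (nat_lit 28) (nat_lit 5) (nat_lit 28) (nat_lit 4) (nat_lit 508) (nat_lit 317) (nat_lit 315)))))) (XT.nd (nat_lit 546) (nat_lit 456) (nat_lit 0) (XT.nd (nat_lit 234) (nat_lit 304) (nat_lit 0) (XT.nd (nat_lit 78) (nat_lit 152) (nat_lit 0) (XT.lf (nat_lit 0) (nat_lit 9412679153) (nat_lit 152) (nat_lit 4925261122) (nat_lit 152) (nat_lit 3814082755) (nat_lit 26) (nat_lit 4) (nat_lit 28) (nat_lit 5) (nat_lit 28) (nat_lit 4) (nat_lit 509) (nat_lit 317) (nat_lit 314)) (XT.nd (nat_lit 78) (nat_lit 76) (nat_lit 0) (XT.lf (nat_lit 0) (nat_lit 668135125) (nat_lit 228) (nat_lit 117508867) (nat_lit 76) (nat_lit 17631265924) (nat_lit 25) (nat_lit 5) (nat_lit 28) (nat_lit 5) (nat_lit 26) (nat_lit 4) (nat_lit 510) (nat_lit 317) (nat_lit 313)) (XT.lf (nat_lit 0) (nat_lit 5205286994)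 (nat_lit 152) (nat_lit 10056216604) (nat_lit 0) (nat_lit 3424771700) (nat_lit 24) (nat_lit 5) (nat_lit 26) (nat_lit 4) (nat_lit 24) (nat_lit 4) (nat_lit 511) (nat_lit 317) (nat_lit 312)))) (XT.nd (nat_lit 156) (nat_lit 152) (nat_lit 0) (XT.nd (nat_lit 78) (nat_lit 152) (nat_lit 0) (XT.lf (nat_lit 0) (nat_lit 9776959680) (nat_lit 152) (nat_lit 1524192621) (nat_lit 0) (nat_lit 7661012072) (nat_lit 24) (nat_lit 5) (nat_lit 26) (nat_lit 4) (nat_lit 24) (nat_lit 4) (nat_lit 512) (nat_lit 317) (nat_lit 311)) (XT.lf (nat_lit 0) (nat_lit 7162465020) (nat_lit 152) (nat_lit 7263105323) (nat_lit 152) (nat_lit 4818302506) (nat_lit 22) (nat_lit 4) (nat_lit 24) (nat_lit 5) (nat_lit 24) (nat_lit 4) (nat_lit 513) (nat_lit 317) (nat_lit 310))) (XT.nd (nat_lit 78) (nat_lit 152) (nat_lit 0) (XT.lf (nat_lit 0) (nat_lit 15934296125) (nat_lit 152) (nat_lit 3182573206) (nat_lit 152) (nat_lit 415363321) (nat_lit 22) (nat_lit 4) (nat_lit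 24) (nat_lit 5) (nat_lit 24) (nat_lit 4) (nat_lit 514) (nat_lit 317) (nat_lit 309)) (XT.lf (nat_lit 0) (nat_lit 4001263539) (nat_lit 152) (nat_lit 14846571217) (nat_lit 0) (nat_lit 978425062) (nat_lit 20) (nat_lit 5) (nat_lit 22) (nat_lit 4) (nat_lit 20) (nat_lit 4) (nat_lit 515) (nat_lit 317) (nat_lit 308))))) (XT.nd (nat_lit 234) (nat_lit 304) (nat_lit 0) (XT.nd (nat_lit 78) (nat_lit 152) (nat_lit 0) (XT.lf (nat_lit 0) (nat_lit 8486481696) (nat_lit 152) (nat_lit 6480093488) (nat_lit 0) (nat_lit 5159831839) (nat_lit 20) (nat_lit 5) (nat_lit 22) (nat_lit 4) (nat_lit 20) (nat_lit 4) (nat_lit 516) (nat_lit 317) (nat_lit 307)) (XT.nd (nat_lit 78) (nat_lit 0) (nat_lit 0) (XT.lf (nat_lit 0) (nat_lit 1973658720) (nat_lit 152) (nat_lit 11042162436) (nat_lit 152) (nat_lit 7417658284) (nat_lit 18) (nat_lit 4) (nat_lit 20) (nat_lit 5) (nat_lit 20) (nat_lit 4) (nat_lit 517) (nat_lit 317) (nat_lit 306)) (XT.lf (nat_lit 0)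 (nat_lit 10579082355) (nat_lit 152) (nat_lit 7042214265) (nat_lit 152) (nat_lit 3125696098) (nat_lit 18) (nat_lit 4) (nat_lit 20) (nat_lit 5) (nat_lit 20) (nat_lit 4) (nat_lit 518) (nat_lit 317) (nat_lit 305)))) (XT.nd (nat_lit 156) (nat_lit 152) (nat_lit 0) (XT.nd (nat_lit 78) (nat_lit 76) (nat_lit 0) (XT.lf (nat_lit 0) (nat_lit 1178497898) (nat_lit 228) (nat_lit 1822240662) (nat_lit 76) (nat_lit 18067028822) (nat_lit 17) (nat_lit 5) (nat_lit 20) (nat_lit 5) (nat_lit 18) (nat_lit 4) (nat_lit 519) (nat_lit 317) (nat_lit 304)) (XT.lf (nat_lit 0) (nat_lit 5521513554) (nat_lit 152) (nat_lit 14747204969) (nat_lit 0) (nat_lit 1125943779) (nat_lit 16) (nat_lit 5) (nat_lit 18) (nat_lit 4) (nat_lit 16) (nat_lit 4) (nat_lit 520) (nat_lit 317) (nat_lit 303))) (XT.nd (nat_lit 78) (nat_lit 152) (nat_lit 0) (XT.lf (nat_lit 0) (nat_lit 9927652385) (nat_lit 152) (nat_lit 6538620286) (nat_lit 0) (nat_lit 5262306798) (nat_lit 16)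 (nat_lit 5) (nat_lit 18) (nat_lit 4) (nat_lit 16) (nat_lit 4) (nat_lit 521) (nat_lit 317) (nat_lit 302)) (XT.lf (nat_lit 0) (nat_lit 1757115735) (nat_lit 152) (nat_lit 12621384308) (nat_lit 152) (nat_lit 7691552631) (nat_lit 14) (nat_lit 4) (nat_lit 16) (nat_lit 5) (nat_lit 16) (nat_lit 4) (nat_lit 522) (nat_lit 317) (nat_lit 301))))))) (XT.nd (nat_lit 58110) (nat_lit 0) (nat_lit 532) (XT.nd (nat_lit 546) (nat_lit 152) (nat_lit 0) (XT.nd (nat_lit 234) (nat_lit 76) (nat_lit 0) (XT.nd (nat_lit 78) (nat_lit 152) (nat_lit 0) (XT.lf (nat_lit 0) (nat_lit 10207992277) (nat_lit 152) (nat_lit 8699857184) (nat_lit 152) (nat_lit 3510725419) (nat_lit 14) (nat_lit 4) (nat_lit 16) (nat_lit 5) (nat_lit 16) (nat_lit 4) (nat_lit 523) (nat_lit 317) (nat_lit 300)) (XT.nd (nat_lit 78) (nat_lit 76) (nat_lit 0) (XT.lf (nat_lit 0) (nat_lit 690144846) (nat_lit 228) (nat_lit 4049254949) (nat_lit 76) (nat_lit 18035652505) (nat_lit 13) (nat_lit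 5) (nat_lit 16) (nat_lit 5) (nat_lit 14) (nat_lit 4) (nat_lit 524) (nat_lit 317) (nat_lit 299)) (XT.lf (nat_lit 0) (nat_lit 4211022715) (nat_lit 76) (nat_lit 691750256) (nat_lit 152) (nat_lit 18235935895) (nat_lit 12) (nat_lit 5) (nat_lit 13) (nat_lit 5) (nat_lit 14) (nat_lit 4) (nat_lit 525) (nat_lit 317) (nat_lit 298)))) (XT.nd (nat_lit 156) (nat_lit 76) (nat_lit 0) (XT.nd (nat_lit 78) (nat_lit 0) (nat_lit 0) (XT.lf (nat_lit 0) (nat_lit 9196814407) (nat_lit 152) (nat_lit 10936587762) (nat_lit 0) (nat_lit 3376301709) (nat_lit 12) (nat_lit 5) (nat_lit 14) (nat_lit 4) (nat_lit 12) (nat_lit 4) (nat_lit 526) (nat_lit 317) (nat_lit 297)) (XT.lf (nat_lit 0) (nat_lit 13529841172) (nat_lit 152) (nat_lit 2884751496) (nat_lit 0) (nat_lit 7474472395) (nat_lit 12) (nat_lit 5) (nat_lit 14) (nat_lit 4) (nat_lit 12) (nat_lit 4) (nat_lit 527) (nat_lit 317) (nat_lit 296))) (XT.nd (nat_lit 78) (nat_lit 0) (nat_lit 0) (XT.lf (nat_lit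 0) (nat_lit 5305048191) (nat_lit 76) (nat_lit 12628456891) (nat_lit 76) (nat_lit 6342837056) (nat_lit 11) (nat_lit 4) (nat_lit 12) (nat_lit 5) (nat_lit 12) (nat_lit 4) (nat_lit 528) (nat_lit 317) (nat_lit 295)) (XT.lf (nat_lit 0) (nat_lit 13605707013) (nat_lit 76) (nat_lit 8788818143) (nat_lit 76) (nat_lit 2277461977) (nat_lit 11) (nat_lit 4) (nat_lit 12) (nat_lit 5) (nat_lit 12) (nat_lit 4) (nat_lit 529) (nat_lit 317) (nat_lit 294))))) (XT.nd (nat_lit 234) (nat_lit 0) (nat_lit 0) (XT.nd (nat_lit 78) (nat_lit 76) (nat_lit 0) (XT.lf (nat_lit 0) (nat_lit 1795279094) (nat_lit 152) (nat_lit 3106202524) (nat_lit 76) (nat_lit 20174816940) (nat_lit 10) (nat_lit 5) (nat_lit 12) (nat_lit 5) (nat_lit 11) (nat_lit 4) (nat_lit 530) (nat_lit 317) (nat_lit 293)) (XT.nd (nat_lit 78) (nat_lit 0) (nat_lit 0) (XT.lf (nat_lit 0) (nat_lit 4974112547) (nat_lit 76) (nat_lit 928733767) (nat_lit 152) (nat_lit 19585879057) (nat_lit 9)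 (nat_lit 5) (nat_lit 10) (nat_lit 5) (nat_lit 11) (nat_lit 4) (nat_lit 531) (nat_lit 317) (nat_lit 292)) (XT.lf (nat_lit 0) (nat_lit 10085482316) (nat_lit 152) (nat_lit 12760500259) (nat_lit 0) (nat_lit 3063567223) (nat_lit 9) (nat_lit 5) (nat_lit 11) (nat_lit 4) (nat_lit 9) (nat_lit 4) (nat_lit 532) (nat_lit 317) (nat_lit 291)))) (XT.nd (nat_lit 57174) (nat_lit 0) (nat_lit 1444) (XT.nd (nat_lit 57096) (nat_lit 0) (nat_lit 1596) (XT.lf (nat_lit 0) (nat_lit 14310525032) (nat_lit 152) (nat_lit 4944944293) (nat_lit 0) (nat_lit 7084153589) (nat_lit 9) (nat_lit 5) (nat_lit 11) (nat_lit 4) (nat_lit 9) (nat_lit 4) (nat_lit 533) (nat_lit 317) (nat_lit 290)) (XT.lf (nat_lit 0) (nat_lit 141737456) (nat_lit 152) (nat_lit 4157230607) (nat_lit 152) (nat_lit 4157230607) (nat_lit 30) (nat_lit 4) (nat_lit 32) (nat_lit 5) (nat_lit 32) (nat_lit 4) (nat_lit 504) (nat_lit 318) (nat_lit 318))) (XT.nd (nat_lit 78) (nat_lit 152) (nat_lit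 0) (XT.lf (nat_lit 0) (nat_lit 9136326083) (nat_lit 152) (nat_lit 4203431979) (nat_lit 152) (nat_lit 3810419562) (nat_lit 30) (nat_lit 4) (nat_lit 32) (nat_lit 5) (nat_lit 32) (nat_lit 4) (nat_lit 505) (nat_lit 318) (nat_lit 317)) (XT.lf (nat_lit 0) (nat_lit 660951944) (nat_lit 76) (nat_lit 51558279) (nat_lit 152) (nat_lit 16681333256) (nat_lit 28) (nat_lit 5) (nat_lit 29) (nat_lit 5) (nat_lit 30) (nat_lit 4) (nat_lit 506) (nat_lit 318) (nat_lit 316)))))) (XT.nd (nat_lit 546) (nat_lit 456) (nat_lit 0) (XT.nd (nat_lit 234) (nat_lit 304) (nat_lit 0) (XT.nd (nat_lit 78) (nat_lit 152) (nat_lit 0) (XT.lf (nat_lit 0) (nat_lit 5291213703) (nat_lit 152) (nat_lit 8192539895) (nat_lit 0) (nat_lit 4157811769) (nat_lit 28) (nat_lit 5) (nat_lit 30) (nat_lit 4) (nat_lit 28) (nat_lit 4) (nat_lit 507) (nat_lit 318) (nat_lit 315)) (XT.nd (nat_lit 78) (nat_lit 0) (nat_lit 0) (XT.lf (nat_lit 0) (nat_lit 409568161) (nat_lit 152) (nat_lit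 9491192861) (nat_lit 152) (nat_lit 7994708203) (nat_lit 26) (nat_lit 4) (nat_lit 28) (nat_lit 5) (nat_lit 28) (nat_lit 4) (nat_lit 508) (nat_lit 318) (nat_lit 314)) (XT.lf (nat_lit 0) (nat_lit 9181440215) (nat_lit 152) (nat_lit 5412818274) (nat_lit 152) (nat_lit 3560370162) (nat_lit 26) (nat_lit 4) (nat_lit 28) (nat_lit 5) (nat_lit 28) (nat_lit 4) (nat_lit 509) (nat_lit 318) (nat_lit 313)))) (XT.nd (nat_lit 156) (nat_lit 152) (nat_lit 0) (XT.nd (nat_lit 78) (nat_lit 76) (nat_lit 0) (XT.lf (nat_lit 0) (nat_lit 887629037) (nat_lit 228) (nat_lit 408421235) (nat_lit 76) (nat_lit 17124056175) (nat_lit 25) (nat_lit 5) (nat_lit 28) (nat_lit 5) (nat_lit 26) (nat_lit 4) (nat_lit 510) (nat_lit 318) (nat_lit 312)) (XT.lf (nat_lit 0) (nat_lit 5388738988) (nat_lit 152) (nat_lit 10406419477) (nat_lit 0) (nat_lit 2895040114) (nat_lit 24) (nat_lit 5) (nat_lit 26) (nat_lit 4) (nat_lit 24) (nat_lit 4) (nat_lit 511) (nat_lit 318)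 (nat_lit 311))) (XT.nd (nat_lit 78) (nat_lit 152) (nat_lit 0) (XT.lf (nat_lit 0) (nat_lit 9930214174) (nat_lit 152) (nat_lit 1928823136) (nat_lit 0) (nat_lit 7107660091) (nat_lit 24) (nat_lit 5) (nat_lit 26) (nat_lit 4) (nat_lit 24) (nat_lit 4) (nat_lit 512) (nat_lit 318) (nat_lit 310)) (XT.lf (nat_lit 0) (nat_lit 6698387613) (nat_lit 152) (nat_lit 7847818734) (nat_lit 152) (nat_lit 4702857583) (nat_lit 22) (nat_lit 4) (nat_lit 24) (nat_lit 5) (nat_lit 24) (nat_lit 4) (nat_lit 513) (nat_lit 318) (nat_lit 309))))) (XT.nd (nat_lit 312) (nat_lit 152) (nat_lit 0) (XT.nd (nat_lit 156) (nat_lit 152) (nat_lit 0) (XT.nd (nat_lit 78) (nat_lit 152) (nat_lit 0) (XT.lf (nat_lit 0) (nat_lit 15417209340) (nat_lit 152) (nat_lit 3790926928) (nat_lit 152) (nat_lit 329880417) (nat_lit 22) (nat_lit 4) (nat_lit 24) (nat_lit 5) (nat_lit 24) (nat_lit 4) (nat_lit 514) (nat_lit 318) (nat_lit 308)) (XT.lf (nat_lit 0) (nat_lit 4048724985)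 (nat_lit 152) (nat_lit 15432320378) (nat_lit 0) (nat_lit 351730750) (nat_lit 20) (nat_lit 5) (nat_lit 22) (nat_lit 4) (nat_lit 20) (nat_lit 4) (nat_lit 515) (nat_lit 318) (nat_lit 307))) (XT.nd (nat_lit 78) (nat_lit 152) (nat_lit 0) (XT.lf (nat_lit 0) (nat_lit 8505033558) (nat_lit 152) (nat_lit 7118288175) (nat_lit 0) (nat_lit 4510185028) (nat_lit 20) (nat_lit 5) (nat_lit 22) (nat_lit 4) (nat_lit 20) (nat_lit 4) (nat_lit 516) (nat_lit 318) (nat_lit 306)) (XT.lf (nat_lit 0) (nat_lit 1274882271) (nat_lit 152) (nat_lit 11726611095) (nat_lit 152) (nat_lit 7439748551) (nat_lit 18) (nat_lit 4) (nat_lit 20) (nat_lit 5) (nat_lit 20) (nat_lit 4) (nat_lit 517) (nat_lit 318) (nat_lit 305)))) (XT.nd (nat_lit 156) (nat_lit 76) (nat_lit 0) (XT.nd (nat_lit 78) (nat_lit 76) (nat_lit 0) (XT.lf (nat_lit 0) (nat_lit 9829226995) (nat_lit 152) (nat_lit 7749623206) (nat_lit 152) (nat_lit 3176472412) (nat_lit 18) (nat_lit 4) (nat_lit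 20) (nat_lit 5) (nat_lit 20) (nat_lit 4) (nat_lit 518) (nat_lit 318) (nat_lit 304)) (XT.lf (nat_lit 0) (nat_lit 1100632793) (nat_lit 228) (nat_lit 2630547305) (nat_lit 76) (nat_lit 17345483717) (nat_lit 17) (nat_lit 5) (nat_lit 20) (nat_lit 5) (nat_lit 18) (nat_lit 4) (nat_lit 519) (nat_lit 318) (nat_lit 303))) (XT.nd (nat_lit 78) (nat_lit 0) (nat_lit 0) (XT.lf (nat_lit 0) (nat_lit 5405870363) (nat_lit 152) (nat_lit 15621006637) (nat_lit 0) (nat_lit 377442052) (nat_lit 16) (nat_lit 5) (nat_lit 18) (nat_lit 4) (nat_lit 16) (nat_lit 4) (nat_lit 520) (nat_lit 318) (nat_lit 302)) (XT.lf (nat_lit 0) (nat_lit 9784869437) (nat_lit 152) (nat_lit 7461959203) (nat_lit 0) (nat_lit 4491955036) (nat_lit 16) (nat_lit 5) (nat_lit 18) (nat_lit 4) (nat_lit 16) (nat_lit 4) (nat_lit 521) (nat_lit 318) (nat_lit 301))))))))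
noncomputable def xc4 : XT := (XT.nd (nat_lit 59046) (nat_lit 0) (nat_lit 0) (XT.nd (nat_lit 57954) (nat_lit 0) (nat_lit 684) (XT.nd (nat_lit 546) (nat_lit 152) (nat_lit 0) (XT.nd (nat_lit 234) (nat_lit 152) (nat_lit 0) (XT.nd (nat_lit 78) (nat_lit 76) (nat_lit 0) (XT.lf (nat_lit 0) (nat_lit 772294783) (nat_lit 152) (nat_lit 13430420596) (nat_lit 152) (nat_lit 7878206107) (nat_lit 14) (nat_lit 4) (nat_lit 16) (nat_lit 5) (nat_lit 16) (nat_lit 4) (nat_lit 522) (nat_lit 318) (nat_lit 300)) (XT.nd (nat_lit 78) (nat_lit 76) (nat_lit 0) (XT.lf (nat_lit 0) (nat_lit 9174924907) (nat_lit 152) (nat_lit 9530740755) (nat_lit 152) (nat_lit 3724310494) (nat_lit 14) (nat_lit 4) (nat_lit 16) (nat_lit 5) (nat_lit 16) (nat_lit 4) (nat_lit 523) (nat_lit 318) (nat_lit 299)) (XT.lf (nat_lit 0) (nat_lit 453303737) (nat_lit 228) (nat_lit 5139987862) (nat_lit 76) (nat_lit 17193715162) (nat_lit 13) (nat_lit 5) (nat_lit 16) (nat_lit 5)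 (nat_lit 14) (nat_lit 4) (nat_lit 524) (nat_lit 318) (nat_lit 298)))) (XT.nd (nat_lit 156) (nat_lit 76) (nat_lit 0) (XT.nd (nat_lit 78) (nat_lit 0) (nat_lit 0) (XT.lf (nat_lit 0) (nat_lit 3058457025) (nat_lit 76) (nat_lit 1574445301) (nat_lit 152) (nat_lit 18518425815) (nat_lit 12) (nat_lit 5) (nat_lit 13) (nat_lit 5) (nat_lit 14) (nat_lit 4) (nat_lit 525) (nat_lit 318) (nat_lit 297)) (XT.lf (nat_lit 0) (nat_lit 8895729243) (nat_lit 152) (nat_lit 12142825331) (nat_lit 0) (nat_lit 2484397011) (nat_lit 12) (nat_lit 5) (nat_lit 14) (nat_lit 4) (nat_lit 12) (nat_lit 4) (nat_lit 526) (nat_lit 318) (nat_lit 296))) (XT.nd (nat_lit 78) (nat_lit 76) (nat_lit 0) (XT.lf (nat_lit 0) (nat_lit 13203772205) (nat_lit 152) (nat_lit 4136855384) (nat_lit 0) (nat_lit 6562188915) (nat_lit 12) (nat_lit 5) (nat_lit 14) (nat_lit 4) (nat_lit 12) (nat_lit 4) (nat_lit 527) (nat_lit 318) (nat_lit 295)) (XT.lf (nat_lit 0) (nat_lit 3990739935)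 (nat_lit 76) (nat_lit 13583668894) (nat_lit 76) (nat_lit 6716349273) (nat_lit 11) (nat_lit 4) (nat_lit 12) (nat_lit 5) (nat_lit 12) (nat_lit 4) (nat_lit 528) (nat_lit 318) (nat_lit 294))))) (XT.nd (nat_lit 234) (nat_lit 0) (nat_lit 0) (XT.nd (nat_lit 78) (nat_lit 152) (nat_lit 0) (XT.lf (nat_lit 0) (nat_lit 12246727613) (nat_lit 76) (nat_lit 9764397604) (nat_lit 76) (nat_lit 2675767855) (nat_lit 11) (nat_lit 4) (nat_lit 12) (nat_lit 5) (nat_lit 12) (nat_lit 4) (nat_lit 529) (nat_lit 318) (nat_lit 293)) (XT.nd (nat_lit 78) (nat_lit 76) (nat_lit 0) (XT.lf (nat_lit 0) (nat_lit 1378208356) (nat_lit 152) (nat_lit 4521619583) (nat_lit 76) (nat_lit 19191911802) (nat_lit 10) (nat_lit 5) (nat_lit 12) (nat_lit 5) (nat_lit 11) (nat_lit 4) (nat_lit 530) (nat_lit 318) (nat_lit 292)) (XT.lf (nat_lit 0) (nat_lit 3496057803) (nat_lit 76) (nat_lit 1956602915) (nat_lit 152) (nat_lit 20052171810) (nat_lit 9) (nat_lit 5) (nat_lit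 10) (nat_lit 5) (nat_lit 11) (nat_lit 4) (nat_lit 531) (nat_lit 318) (nat_lit 291)))) (XT.nd (nat_lit 57018) (nat_lit 0) (nat_lit 1748) (XT.nd (nat_lit 78) (nat_lit 0) (nat_lit 0) (XT.lf (nat_lit 0) (nat_lit 9605159469) (nat_lit 152) (nat_lit 14291299589) (nat_lit 0) (nat_lit 2029804246) (nat_lit 9) (nat_lit 5) (nat_lit 11) (nat_lit 4) (nat_lit 9) (nat_lit 4) (nat_lit 532) (nat_lit 318) (nat_lit 290)) (XT.lf (nat_lit 0) (nat_lit 13807198612) (nat_lit 152) (nat_lit 6518205424) (nat_lit 0) (nat_lit 6031395988) (nat_lit 9) (nat_lit 5) (nat_lit 11) (nat_lit 4) (nat_lit 9) (nat_lit 4) (nat_lit 533) (nat_lit 318) (nat_lit 289))) (XT.nd (nat_lit 78) (nat_lit 228) (nat_lit 0) (XT.lf (nat_lit 0) (nat_lit 7970432442) (nat_lit 152) (nat_lit 127688624) (nat_lit 152) (nat_lit 127688624) (nat_lit 35) (nat_lit 4) (nat_lit 37) (nat_lit 5) (nat_lit 37) (nat_lit 4) (nat_lit 502) (nat_lit 319) (nat_lit 319)) (XT.lf (nat_lit 0) (nat_lit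 4340460008) (nat_lit 228) (nat_lit 8399435865) (nat_lit 0) (nat_lit 3939587343) (nat_lit 32) (nat_lit 5) (nat_lit 35) (nat_lit 4) (nat_lit 32) (nat_lit 4) (nat_lit 503) (nat_lit 319) (nat_lit 318)))))) (XT.nd (nat_lit 546) (nat_lit 532) (nat_lit 0) (XT.nd (nat_lit 234) (nat_lit 228) (nat_lit 0) (XT.nd (nat_lit 78) (nat_lit 152) (nat_lit 0) (XT.lf (nat_lit 0) (nat_lit 225269770) (nat_lit 152) (nat_lit 8740836813) (nat_lit 152) (nat_lit 7946951732) (nat_lit 30) (nat_lit 4) (nat_lit 32) (nat_lit 5) (nat_lit 32) (nat_lit 4) (nat_lit 504) (nat_lit 319) (nat_lit 317)) (XT.nd (nat_lit 78) (nat_lit 152) (nat_lit 0) (XT.lf (nat_lit 0) (nat_lit 9021057075) (nat_lit 152) (nat_lit 4654810452) (nat_lit 152) (nat_lit 3475619079) (nat_lit 30) (nat_lit 4) (nat_lit 32) (nat_lit 5) (nat_lit 32) (nat_lit 4) (nat_lit 505) (nat_lit 319) (nat_lit 316)) (XT.lf (nat_lit 0) (nat_lit 483500837) (nat_lit 76) (nat_lit 526619694) (nat_lit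 152) (nat_lit 16385650967) (nat_lit 28) (nat_lit 5) (nat_lit 29) (nat_lit 5) (nat_lit 30) (nat_lit 4) (nat_lit 506) (nat_lit 319) (nat_lit 315)))) (XT.nd (nat_lit 156) (nat_lit 76) (nat_lit 0) (XT.nd (nat_lit 78) (nat_lit 152) (nat_lit 0) (XT.lf (nat_lit 0) (nat_lit 5554189666) (nat_lit 152) (nat_lit 8425310217) (nat_lit 0) (nat_lit 3664692591) (nat_lit 28) (nat_lit 5) (nat_lit 30) (nat_lit 4) (nat_lit 28) (nat_lit 4) (nat_lit 507) (nat_lit 319) (nat_lit 314)) (XT.lf (nat_lit 0) (nat_lit 117600385) (nat_lit 152) (nat_lit 10013309645) (nat_lit 152) (nat_lit 7767849116) (nat_lit 26) (nat_lit 4) (nat_lit 28) (nat_lit 5) (nat_lit 28) (nat_lit 4) (nat_lit 508) (nat_lit 319) (nat_lit 313))) (XT.nd (nat_lit 78) (nat_lit 76) (nat_lit 0) (XT.lf (nat_lit 0) (nat_lit 8834468459) (nat_lit 152) (nat_lit 5959257105) (nat_lit 152) (nat_lit 3364812797) (nat_lit 26) (nat_lit 4) (nat_lit 28) (nat_lit 5) (nat_lit 28) (nat_lit 4)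 (nat_lit 509) (nat_lit 319) (nat_lit 312)) (XT.lf (nat_lit 0) (nat_lit 1050336147) (nat_lit 228) (nat_lit 814906249) (nat_lit 76) (nat_lit 16559359989) (nat_lit 25) (nat_lit 5) (nat_lit 28) (nat_lit 5) (nat_lit 26) (nat_lit 4) (nat_lit 510) (nat_lit 319) (nat_lit 311))))) (XT.nd (nat_lit 234) (nat_lit 304) (nat_lit 0) (XT.nd (nat_lit 78) (nat_lit 152) (nat_lit 0) (XT.lf (nat_lit 0) (nat_lit 5514861071) (nat_lit 152) (nat_lit 10873570245) (nat_lit 0) (nat_lit 2307000698) (nat_lit 24) (nat_lit 5) (nat_lit 26) (nat_lit 4) (nat_lit 24) (nat_lit 4) (nat_lit 511) (nat_lit 319) (nat_lit 310)) (XT.nd (nat_lit 78) (nat_lit 152) (nat_lit 0) (XT.lf (nat_lit 0) (nat_lit 10026730865) (nat_lit 152) (nat_lit 2449334338) (nat_lit 0) (nat_lit 6496463424) (nat_lit 24) (nat_lit 5) (nat_lit 26) (nat_lit 4) (nat_lit 24) (nat_lit 4) (nat_lit 512) (nat_lit 319) (nat_lit 309)) (XT.lf (nat_lit 0) (nat_lit 6117949714) (nat_lit 152) (nat_lit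 8491979843) (nat_lit 152) (nat_lit 4645627040) (nat_lit 22) (nat_lit 4) (nat_lit 24) (nat_lit 5) (nat_lit 24) (nat_lit 4) (nat_lit 513) (nat_lit 319) (nat_lit 308)))) (XT.nd (nat_lit 156) (nat_lit 152) (nat_lit 0) (XT.nd (nat_lit 78) (nat_lit 152) (nat_lit 0) (XT.lf (nat_lit 0) (nat_lit 14784801462) (nat_lit 152) (nat_lit 4458264813) (nat_lit 152) (nat_lit 302024403) (nat_lit 22) (nat_lit 4) (nat_lit 24) (nat_lit 5) (nat_lit 24) (nat_lit 4) (nat_lit 514) (nat_lit 319) (nat_lit 307)) (XT.lf (nat_lit 0) (nat_lit 3702636415) (nat_lit 76) (nat_lit 338298340) (nat_lit 152) (nat_lit 15799622602) (nat_lit 20) (nat_lit 5) (nat_lit 21) (nat_lit 5) (nat_lit 22) (nat_lit 4) (nat_lit 515) (nat_lit 319) (nat_lit 306))) (XT.nd (nat_lit 78) (nat_lit 152) (nat_lit 0) (XT.lf (nat_lit 0) (nat_lit 8466704140) (nat_lit 152) (nat_lit 7873109465) (nat_lit 0) (nat_lit 3802090330) (nat_lit 20) (nat_lit 5) (nat_lit 22) (nat_lit 4) (nat_lit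 20) (nat_lit 4) (nat_lit 516) (nat_lit 319) (nat_lit 305)) (XT.lf (nat_lit 0) (nat_lit 458950891) (nat_lit 152) (nat_lit 12471128499) (nat_lit 152) (nat_lit 7520226439) (nat_lit 18) (nat_lit 4) (nat_lit 20) (nat_lit 5) (nat_lit 20) (nat_lit 4) (nat_lit 517) (nat_lit 319) (nat_lit 304))))))) (XT.nd (nat_lit 1092) (nat_lit 0) (nat_lit 0) (XT.nd (nat_lit 546) (nat_lit 304) (nat_lit 0) (XT.nd (nat_lit 234) (nat_lit 228) (nat_lit 0) (XT.nd (nat_lit 78) (nat_lit 152) (nat_lit 0) (XT.lf (nat_lit 0) (nat_lit 8963218250) (nat_lit 152) (nat_lit 8516650691) (nat_lit 152) (nat_lit 3285073877) (nat_lit 18) (nat_lit 4) (nat_lit 20) (nat_lit 5) (nat_lit 20) (nat_lit 4) (nat_lit 518) (nat_lit 319) (nat_lit 303)) (XT.nd (nat_lit 78) (nat_lit 76) (nat_lit 0) (XT.lf (nat_lit 0) (nat_lit 966245137) (nat_lit 228) (nat_lit 3554932965) (nat_lit 76) (nat_lit 16565668986) (nat_lit 17) (nat_lit 5) (nat_lit 20) (nat_lit 5) (nat_lit 18) (nat_lit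 4) (nat_lit 519) (nat_lit 319) (nat_lit 302)) (XT.lf (nat_lit 0) (nat_lit 4800038574) (nat_lit 76) (nat_lit 435883469) (nat_lit 152) (nat_lit 16179296157) (nat_lit 16) (nat_lit 5) (nat_lit 17) (nat_lit 5) (nat_lit 18) (nat_lit 4) (nat_lit 520) (nat_lit 319) (nat_lit 301)))) (XT.nd (nat_lit 156) (nat_lit 228) (nat_lit 0) (XT.nd (nat_lit 78) (nat_lit 0) (nat_lit 0) (XT.lf (nat_lit 0) (nat_lit 9585483467) (nat_lit 152) (nat_lit 8501868079) (nat_lit 0) (nat_lit 3662924600) (nat_lit 16) (nat_lit 5) (nat_lit 18) (nat_lit 4) (nat_lit 16) (nat_lit 4) (nat_lit 521) (nat_lit 319) (nat_lit 300)) (XT.lf (nat_lit 0) (nat_lit 13972229274) (nat_lit 152) (nat_lit 325356534) (nat_lit 0) (nat_lit 7795454634) (nat_lit 16) (nat_lit 5) (nat_lit 18) (nat_lit 4) (nat_lit 16) (nat_lit 4) (nat_lit 522) (nat_lit 319) (nat_lit 299))) (XT.nd (nat_lit 78) (nat_lit 76) (nat_lit 0) (XT.lf (nat_lit 0) (nat_lit 8025649363) (nat_lit 152) (nat_lit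 10421508186) (nat_lit 152) (nat_lit 3995502396) (nat_lit 14) (nat_lit 4) (nat_lit 16) (nat_lit 5) (nat_lit 16) (nat_lit 4) (nat_lit 523) (nat_lit 319) (nat_lit 298)) (XT.lf (nat_lit 0) (nat_lit 160122250) (nat_lit 228) (nat_lit 6346903107) (nat_lit 76) (nat_lit 16293215555) (nat_lit 13) (nat_lit 5) (nat_lit 16) (nat_lit 5) (nat_lit 14) (nat_lit 4) (nat_lit 524) (nat_lit 319) (nat_lit 297))))) (XT.nd (nat_lit 234) (nat_lit 228) (nat_lit 0) (XT.nd (nat_lit 78) (nat_lit 0) (nat_lit 0) (XT.lf (nat_lit 0) (nat_lit 1789093188) (nat_lit 76) (nat_lit 2517340694) (nat_lit 152) (nat_lit 18858798290) (nat_lit 12) (nat_lit 5) (nat_lit 13) (nat_lit 5) (nat_lit 14) (nat_lit 4) (nat_lit 525) (nat_lit 319) (nat_lit 296)) (XT.nd (nat_lit 78) (nat_lit 0) (nat_lit 0) (XT.lf (nat_lit 0) (nat_lit 8538155093) (nat_lit 152) (nat_lit 13465837615) (nat_lit 0) (nat_lit 1533489080) (nat_lit 12) (nat_lit 5) (nat_lit 14) (nat_lit 4) (nat_lit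 12) (nat_lit 4) (nat_lit 526) (nat_lit 319) (nat_lit 295)) (XT.lf (nat_lit 0) (nat_lit 12821704130) (nat_lit 152) (nat_lit 5504834647) (nat_lit 0) (nat_lit 5591301786) (nat_lit 12) (nat_lit 5) (nat_lit 14) (nat_lit 4) (nat_lit 12) (nat_lit 4) (nat_lit 527) (nat_lit 319) (nat_lit 294)))) (XT.nd (nat_lit 156) (nat_lit 152) (nat_lit 0) (XT.nd (nat_lit 78) (nat_lit 0) (nat_lit 0) (XT.lf (nat_lit 0) (nat_lit 2559909803) (nat_lit 76) (nat_lit 14599127402) (nat_lit 76) (nat_lit 7147414930) (nat_lit 11) (nat_lit 4) (nat_lit 12) (nat_lit 5) (nat_lit 12) (nat_lit 4) (nat_lit 528) (nat_lit 319) (nat_lit 293)) (XT.lf (nat_lit 0) (nat_lit 10772102242) (nat_lit 76) (nat_lit 10799824209) (nat_lit 76) (nat_lit 3131141022) (nat_lit 11) (nat_lit 4) (nat_lit 12) (nat_lit 5) (nat_lit 12) (nat_lit 4) (nat_lit 529) (nat_lit 319) (nat_lit 292))) (XT.nd (nat_lit 78) (nat_lit 76) (nat_lit 0) (XT.lf (nat_lit 0) (nat_lit 905289144) (nat_lit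 152) (nat_lit 6052715500) (nat_lit 76) (nat_lit 18150442670) (nat_lit 10) (nat_lit 5) (nat_lit 12) (nat_lit 5) (nat_lit 11) (nat_lit 4) (nat_lit 530) (nat_lit 319) (nat_lit 291)) (XT.lf (nat_lit 0) (nat_lit 1901646253) (nat_lit 76) (nat_lit 3044686075) (nat_lit 152) (nat_lit 20575879562) (nat_lit 9) (nat_lit 5) (nat_lit 10) (nat_lit 5) (nat_lit 11) (nat_lit 4) (nat_lit 531) (nat_lit 319) (nat_lit 290)))))) (XT.nd (nat_lit 57252) (nat_lit 0) (nat_lit 1140) (XT.nd (nat_lit 56940) (nat_lit 0) (nat_lit 1596) (XT.nd (nat_lit 78) (nat_lit 0) (nat_lit 0) (XT.lf (nat_lit 0) (nat_lit 9068762948) (nat_lit 152) (nat_lit 15938487745) (nat_lit 0) (nat_lit 936996869) (nat_lit 9) (nat_lit 5) (nat_lit 11) (nat_lit 4) (nat_lit 9) (nat_lit 4) (nat_lit 532) (nat_lit 319) (nat_lit 289)) (XT.nd (nat_lit 56784) (nat_lit 0) (nat_lit 2128) (XT.lf (nat_lit 0) (nat_lit 13248249569) (nat_lit 152) (nat_lit 8207022796) (nat_lit 0) (nat_lit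 4919966430) (nat_lit 9) (nat_lit 5) (nat_lit 11) (nat_lit 4) (nat_lit 9) (nat_lit 4) (nat_lit 533) (nat_lit 319) (nat_lit 288)) (XT.lf (nat_lit 0) (nat_lit 3570763692) (nat_lit 228) (nat_lit 862471564) (nat_lit 0) (nat_lit 3570763692) (nat_lit 37) (nat_lit 5) (nat_lit 40) (nat_lit 4) (nat_lit 37) (nat_lit 4) (nat_lit 500) (nat_lit 320) (nat_lit 320)))) (XT.nd (nat_lit 156) (nat_lit 304) (nat_lit 0) (XT.nd (nat_lit 78) (nat_lit 76) (nat_lit 0) (XT.lf (nat_lit 0) (nat_lit 7037658577) (nat_lit 152) (nat_lit 4803403763) (nat_lit 152) (nat_lit 4386335842) (nat_lit 35) (nat_lit 4) (nat_lit 37) (nat_lit 5) (nat_lit 37) (nat_lit 4) (nat_lit 501) (nat_lit 320) (nat_lit 319)) (XT.lf (nat_lit 0) (nat_lit 127140614) (nat_lit 228) (nat_lit 569133997) (nat_lit 76) (nat_lit 15755979432) (nat_lit 34) (nat_lit 5) (nat_lit 37) (nat_lit 5) (nat_lit 35) (nat_lit 4) (nat_lit 502) (nat_lit 320) (nat_lit 318))) (XT.nd (nat_lit 78) (nat_lit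 152) (nat_lit 0) (XT.lf (nat_lit 0) (nat_lit 4684055033) (nat_lit 228) (nat_lit 8515468244) (nat_lit 0) (nat_lit 3481279833) (nat_lit 32) (nat_lit 5) (nat_lit 35) (nat_lit 4) (nat_lit 32) (nat_lit 4) (nat_lit 503) (nat_lit 320) (nat_lit 317)) (XT.lf (nat_lit 0) (nat_lit 50631517) (nat_lit 152) (nat_lit 9226245731) (nat_lit 152) (nat_lit 7638164240) (nat_lit 30) (nat_lit 4) (nat_lit 32) (nat_lit 5) (nat_lit 32) (nat_lit 4) (nat_lit 504) (nat_lit 320) (nat_lit 316))))) (XT.nd (nat_lit 312) (nat_lit 304) (nat_lit 0) (XT.nd (nat_lit 156) (nat_lit 0) (nat_lit 0) (XT.nd (nat_lit 78) (nat_lit 152) (nat_lit 0) (XT.lf (nat_lit 0) (nat_lit 8790473856) (nat_lit 152) (nat_lit 5164731993) (nat_lit 152) (nat_lit 3198899236) (nat_lit 30) (nat_lit 4) (nat_lit 32) (nat_lit 5) (nat_lit 32) (nat_lit 4) (nat_lit 505) (nat_lit 320) (nat_lit 315)) (XT.lf (nat_lit 0) (nat_lit 189378288) (nat_lit 76) (nat_lit 1060896673) (nat_lit 152)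 (nat_lit 16148744207) (nat_lit 28) (nat_lit 5) (nat_lit 29) (nat_lit 5) (nat_lit 30) (nat_lit 4) (nat_lit 506) (nat_lit 320) (nat_lit 314))) (XT.nd (nat_lit 78) (nat_lit 0) (nat_lit 0) (XT.lf (nat_lit 0) (nat_lit 5759943908) (nat_lit 152) (nat_lit 8774579799) (nat_lit 0) (nat_lit 3113610714) (nat_lit 28) (nat_lit 5) (nat_lit 30) (nat_lit 4) (nat_lit 28) (nat_lit 4) (nat_lit 507) (nat_lit 320) (nat_lit 313)) (XT.lf (nat_lit 0) (nat_lit 10305575923) (nat_lit 152) (nat_lit 287494139) (nat_lit 0) (nat_lit 7310258950) (nat_lit 28) (nat_lit 5) (nat_lit 30) (nat_lit 4) (nat_lit 28) (nat_lit 4) (nat_lit 508) (nat_lit 320) (nat_lit 312)))) (XT.nd (nat_lit 156) (nat_lit 76) (nat_lit 0) (XT.nd (nat_lit 78) (nat_lit 76) (nat_lit 0) (XT.lf (nat_lit 0) (nat_lit 8371627818) (nat_lit 152) (nat_lit 6564791903) (nat_lit 152) (nat_lit 3227333970) (nat_lit 26) (nat_lit 4) (nat_lit 28) (nat_lit 5) (nat_lit 28) (nat_lit 4) (nat_lit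 509) (nat_lit 320) (nat_lit 311)) (XT.lf (nat_lit 0) (nat_lit 1156320262) (nat_lit 228) (nat_lit 1337123315) (nat_lit 76) (nat_lit 15936955916) (nat_lit 25) (nat_lit 5) (nat_lit 28) (nat_lit 5) (nat_lit 26) (nat_lit 4) (nat_lit 510) (nat_lit 320) (nat_lit 310))) (XT.nd (nat_lit 78) (nat_lit 0) (nat_lit 0) (XT.lf (nat_lit 0) (nat_lit 5583702704) (nat_lit 152) (nat_lit 11457852104) (nat_lit 0) (nat_lit 1660422846) (nat_lit 24) (nat_lit 5) (nat_lit 26) (nat_lit 4) (nat_lit 24) (nat_lit 4) (nat_lit 511) (nat_lit 320) (nat_lit 309)) (XT.lf (nat_lit 0) (nat_lit 10066547604) (nat_lit 152) (nat_lit 3085930347) (nat_lit 0) (nat_lit 5827182386) (nat_lit 24) (nat_lit 5) (nat_lit 26) (nat_lit 4) (nat_lit 24) (nat_lit 4) (nat_lit 512) (nat_lit 320) (nat_lit 308))))))))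
noncomputable def xc5 : XT := (XT.nd (nat_lit 58734) (nat_lit 0) (nat_lit 0) (XT.nd (nat_lit 1092) (nat_lit 228) (nat_lit 0) (XT.nd (nat_lit 546) (nat_lit 380) (nat_lit 0) (XT.nd (nat_lit 234) (nat_lit 228) (nat_lit 0) (XT.nd (nat_lit 78) (nat_lit 152) (nat_lit 0) (XT.lf (nat_lit 0) (nat_lit 5420923700) (nat_lit 152) (nat_lit 9195841261) (nat_lit 152) (nat_lit 4646588434) (nat_lit 22) (nat_lit 4) (nat_lit 24) (nat_lit 5) (nat_lit 24) (nat_lit 4) (nat_lit 513) (nat_lit 320) (nat_lit 307)) (XT.nd (nat_lit 78) (nat_lit 152) (nat_lit 0) (XT.lf (nat_lit 0) (nat_lit 14036824489) (nat_lit 152) (nat_lit 5184848562) (nat_lit 152) (nat_lit 331784353) (nat_lit 22) (nat_lit 4) (nat_lit 24) (nat_lit 5) (nat_lit 24) (nat_lit 4) (nat_lit 514) (nat_lit 320) (nat_lit 306)) (XT.lf (nat_lit 0) (nat_lit 2885440911) (nat_lit 76) (nat_lit 1092954838) (nat_lit 152) (nat_lit 15871200733) (nat_lit 20) (nat_lit 5) (nat_lit 21) (nat_lit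 5) (nat_lit 22) (nat_lit 4) (nat_lit 515) (nat_lit 320) (nat_lit 305)))) (XT.nd (nat_lit 156) (nat_lit 228) (nat_lit 0) (XT.nd (nat_lit 78) (nat_lit 0) (nat_lit 0) (XT.lf (nat_lit 0) (nat_lit 8371478412) (nat_lit 152) (nat_lit 8744853367) (nat_lit 0) (nat_lit 3035270061) (nat_lit 20) (nat_lit 5) (nat_lit 22) (nat_lit 4) (nat_lit 20) (nat_lit 4) (nat_lit 516) (nat_lit 320) (nat_lit 304)) (XT.lf (nat_lit 0) (nat_lit 12804631701) (nat_lit 152) (nat_lit 468232824) (nat_lit 0) (nat_lit 7187748596) (nat_lit 20) (nat_lit 5) (nat_lit 22) (nat_lit 4) (nat_lit 20) (nat_lit 4) (nat_lit 517) (nat_lit 320) (nat_lit 303))) (XT.nd (nat_lit 78) (nat_lit 76) (nat_lit 0) (XT.lf (nat_lit 0) (nat_lit 7980716511) (nat_lit 152) (nat_lit 9343597514) (nat_lit 152) (nat_lit 3451543080) (nat_lit 18) (nat_lit 4) (nat_lit 20) (nat_lit 5) (nat_lit 20) (nat_lit 4) (nat_lit 518) (nat_lit 320) (nat_lit 302)) (XT.lf (nat_lit 0) (nat_lit 775282226)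 (nat_lit 228) (nat_lit 4595760147) (nat_lit 76) (nat_lit 15727278819) (nat_lit 17) (nat_lit 5) (nat_lit 20) (nat_lit 5) (nat_lit 18) (nat_lit 4) (nat_lit 519) (nat_lit 320) (nat_lit 301))))) (XT.nd (nat_lit 234) (nat_lit 304) (nat_lit 0) (XT.nd (nat_lit 78) (nat_lit 0) (nat_lit 0) (XT.lf (nat_lit 0) (nat_lit 3697206388) (nat_lit 76) (nat_lit 1314438524) (nat_lit 152) (nat_lit 16415718248) (nat_lit 16) (nat_lit 5) (nat_lit 17) (nat_lit 5) (nat_lit 18) (nat_lit 4) (nat_lit 520) (nat_lit 320) (nat_lit 300)) (XT.nd (nat_lit 78) (nat_lit 0) (nat_lit 0) (XT.lf (nat_lit 0) (nat_lit 9329416287) (nat_lit 152) (nat_lit 9658754720) (nat_lit 0) (nat_lit 2774890382) (nat_lit 16) (nat_lit 5) (nat_lit 18) (nat_lit 4) (nat_lit 16) (nat_lit 4) (nat_lit 521) (nat_lit 320) (nat_lit 299)) (XT.lf (nat_lit 0) (nat_lit 13690587694) (nat_lit 152) (nat_lit 1528923231) (nat_lit 0) (nat_lit 6886830639) (nat_lit 16) (nat_lit 5) (nat_lit 18)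 (nat_lit 4) (nat_lit 16) (nat_lit 4) (nat_lit 522) (nat_lit 320) (nat_lit 298)))) (XT.nd (nat_lit 156) (nat_lit 152) (nat_lit 0) (XT.nd (nat_lit 78) (nat_lit 0) (nat_lit 0) (XT.lf (nat_lit 0) (nat_lit 6759714947) (nat_lit 152) (nat_lit 11372508796) (nat_lit 152) (nat_lit 4324407476) (nat_lit 14) (nat_lit 4) (nat_lit 16) (nat_lit 5) (nat_lit 16) (nat_lit 4) (nat_lit 523) (nat_lit 320) (nat_lit 297)) (XT.lf (nat_lit 0) (nat_lit 15143014218) (nat_lit 152) (nat_lit 7479687655) (nat_lit 152) (nat_lit 192033135) (nat_lit 14) (nat_lit 4) (nat_lit 16) (nat_lit 5) (nat_lit 16) (nat_lit 4) (nat_lit 524) (nat_lit 320) (nat_lit 296))) (XT.nd (nat_lit 78) (nat_lit 0) (nat_lit 0) (XT.lf (nat_lit 0) (nat_lit 402433414) (nat_lit 76) (nat_lit 3520806196) (nat_lit 152) (nat_lit 19257186800) (nat_lit 12) (nat_lit 5) (nat_lit 13) (nat_lit 5) (nat_lit 14) (nat_lit 4) (nat_lit 525) (nat_lit 320) (nat_lit 295)) (XT.lf (nat_lit 0) (nat_lit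 8123951733) (nat_lit 152) (nat_lit 14906143443) (nat_lit 0) (nat_lit 523205010) (nat_lit 12) (nat_lit 5) (nat_lit 14) (nat_lit 4) (nat_lit 12) (nat_lit 4) (nat_lit 526) (nat_lit 320) (nat_lit 294)))))) (XT.nd (nat_lit 57096) (nat_lit 0) (nat_lit 1748) (XT.nd (nat_lit 234) (nat_lit 152) (nat_lit 0) (XT.nd (nat_lit 78) (nat_lit 76) (nat_lit 0) (XT.lf (nat_lit 0) (nat_lit 12383487119) (nat_lit 152) (nat_lit 6989225749) (nat_lit 0) (nat_lit 4561430268) (nat_lit 12) (nat_lit 5) (nat_lit 14) (nat_lit 4) (nat_lit 12) (nat_lit 4) (nat_lit 527) (nat_lit 320) (nat_lit 293)) (XT.nd (nat_lit 78) (nat_lit 0) (nat_lit 0) (XT.lf (nat_lit 0) (nat_lit 1011996685) (nat_lit 76) (nat_lit 15675230635) (nat_lit 76) (nat_lit 7636203070) (nat_lit 11) (nat_lit 4) (nat_lit 12) (nat_lit 5) (nat_lit 12) (nat_lit 4) (nat_lit 528) (nat_lit 320) (nat_lit 292)) (XT.lf (nat_lit 0) (nat_lit 9181252615) (nat_lit 76) (nat_lit 11895504006) (nat_lit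 76) (nat_lit 3643760054) (nat_lit 11) (nat_lit 4) (nat_lit 12) (nat_lit 5) (nat_lit 12) (nat_lit 4) (nat_lit 529) (nat_lit 320) (nat_lit 291)))) (XT.nd (nat_lit 156) (nat_lit 0) (nat_lit 0) (XT.nd (nat_lit 78) (nat_lit 76) (nat_lit 0) (XT.lf (nat_lit 0) (nat_lit 376336000) (nat_lit 152) (nat_lit 7700090706) (nat_lit 76) (nat_lit 17050001124) (nat_lit 10) (nat_lit 5) (nat_lit 12) (nat_lit 5) (nat_lit 11) (nat_lit 4) (nat_lit 530) (nat_lit 320) (nat_lit 290)) (XT.lf (nat_lit 0) (nat_lit 190252637) (nat_lit 76) (nat_lit 4193409944) (nat_lit 152) (nat_lit 21157207690) (nat_lit 9) (nat_lit 5) (nat_lit 10) (nat_lit 5) (nat_lit 11) (nat_lit 4) (nat_lit 531) (nat_lit 320) (nat_lit 289))) (XT.nd (nat_lit 78) (nat_lit 0) (nat_lit 0) (XT.lf (nat_lit 0) (nat_lit 8259354276) (nat_lit 76) (nat_lit 218144464) (nat_lit 152) (nat_lit 17485982555) (nat_lit 9) (nat_lit 5) (nat_lit 10) (nat_lit 5) (nat_lit 11) (nat_lit 4) (nat_lit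 532) (nat_lit 320) (nat_lit 288)) (XT.lf (nat_lit 0) (nat_lit 12633458708) (nat_lit 152) (nat_lit 10012058691) (nat_lit 0) (nat_lit 3749429060) (nat_lit 9) (nat_lit 5) (nat_lit 11) (nat_lit 4) (nat_lit 9) (nat_lit 4) (nat_lit 533) (nat_lit 320) (nat_lit 287))))) (XT.nd (nat_lit 234) (nat_lit 380) (nat_lit 0) (XT.nd (nat_lit 78) (nat_lit 228) (nat_lit 0) (XT.lf (nat_lit 0) (nat_lit 6173400745) (nat_lit 152) (nat_lit 808956856) (nat_lit 152) (nat_lit 808956856) (nat_lit 40) (nat_lit 4) (nat_lit 42) (nat_lit 5) (nat_lit 42) (nat_lit 4) (nat_lit 498) (nat_lit 321) (nat_lit 321)) (XT.nd (nat_lit 78) (nat_lit 0) (nat_lit 0) (XT.lf (nat_lit 0) (nat_lit 2940030545) (nat_lit 228) (nat_lit 10338652702) (nat_lit 0) (nat_lit 2514621266) (nat_lit 37) (nat_lit 5) (nat_lit 40) (nat_lit 4) (nat_lit 37) (nat_lit 4) (nat_lit 499) (nat_lit 321) (nat_lit 320)) (XT.lf (nat_lit 0) (nat_lit 7534460212) (nat_lit 228) (nat_lit 1782211552)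 (nat_lit 0) (nat_lit 6691983012) (nat_lit 37) (nat_lit 5) (nat_lit 40) (nat_lit 4) (nat_lit 37) (nat_lit 4) (nat_lit 500) (nat_lit 321) (nat_lit 319)))) (XT.nd (nat_lit 156) (nat_lit 152) (nat_lit 0) (XT.nd (nat_lit 78) (nat_lit 76) (nat_lit 0) (XT.lf (nat_lit 0) (nat_lit 6922737428) (nat_lit 152) (nat_lit 5278671938) (nat_lit 152) (nat_lit 4027304620) (nat_lit 35) (nat_lit 4) (nat_lit 37) (nat_lit 5) (nat_lit 37) (nat_lit 4) (nat_lit 501) (nat_lit 321) (nat_lit 318)) (XT.lf (nat_lit 0) (nat_lit 449669496) (nat_lit 228) (nat_lit 743907600) (nat_lit 76) (nat_lit 15260588928) (nat_lit 34) (nat_lit 5) (nat_lit 37) (nat_lit 5) (nat_lit 35) (nat_lit 4) (nat_lit 502) (nat_lit 321) (nat_lit 317))) (XT.nd (nat_lit 78) (nat_lit 0) (nat_lit 0) (XT.lf (nat_lit 0) (nat_lit 4970507163) (nat_lit 228) (nat_lit 8747578504) (nat_lit 0) (nat_lit 2965357751) (nat_lit 32) (nat_lit 5) (nat_lit 35) (nat_lit 4) (nat_lit 32) (nat_lit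 4) (nat_lit 503) (nat_lit 321) (nat_lit 316)) (XT.lf (nat_lit 0) (nat_lit 9531931534) (nat_lit 228) (nat_lit 237354021) (nat_lit 0) (nat_lit 7149030856) (nat_lit 32) (nat_lit 5) (nat_lit 35) (nat_lit 4) (nat_lit 32) (nat_lit 4) (nat_lit 504) (nat_lit 321) (nat_lit 315))))))) (XT.nd (nat_lit 1092) (nat_lit 684) (nat_lit 0) (XT.nd (nat_lit 546) (nat_lit 456) (nat_lit 0) (XT.nd (nat_lit 234) (nat_lit 304) (nat_lit 0) (XT.nd (nat_lit 78) (nat_lit 152) (nat_lit 0) (XT.lf (nat_lit 0) (nat_lit 8444486001) (nat_lit 152) (nat_lit 5733396571) (nat_lit 152) (nat_lit 2980151516) (nat_lit 30) (nat_lit 4) (nat_lit 32) (nat_lit 5) (nat_lit 32) (nat_lit 4) (nat_lit 505) (nat_lit 321) (nat_lit 314)) (XT.nd (nat_lit 78) (nat_lit 76) (nat_lit 0) (XT.lf (nat_lit 0) (nat_lit 1434506016) (nat_lit 228) (nat_lit 218625624) (nat_lit 76) (nat_lit 15750427353) (nat_lit 29) (nat_lit 5) (nat_lit 32) (nat_lit 5) (nat_lit 30) (nat_lit 4) (nat_lit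 506) (nat_lit 321) (nat_lit 313)) (XT.lf (nat_lit 0) (nat_lit 5908557119) (nat_lit 152) (nat_lit 9240485609) (nat_lit 0) (nat_lit 2504350027) (nat_lit 28) (nat_lit 5) (nat_lit 30) (nat_lit 4) (nat_lit 28) (nat_lit 4) (nat_lit 507) (nat_lit 321) (nat_lit 312)))) (XT.nd (nat_lit 156) (nat_lit 152) (nat_lit 0) (XT.nd (nat_lit 78) (nat_lit 152) (nat_lit 0) (XT.lf (nat_lit 0) (nat_lit 10424458927) (nat_lit 152) (nat_lit 806618177) (nat_lit 0) (nat_lit 6678110876) (nat_lit 28) (nat_lit 5) (nat_lit 30) (nat_lit 4) (nat_lit 28) (nat_lit 4) (nat_lit 508) (nat_lit 321) (nat_lit 311)) (XT.lf (nat_lit 0) (nat_lit 7792736787) (nat_lit 152) (nat_lit 7229660133) (nat_lit 152) (nat_lit 3147879768) (nat_lit 26) (nat_lit 4) (nat_lit 28) (nat_lit 5) (nat_lit 28) (nat_lit 4) (nat_lit 509) (nat_lit 321) (nat_lit 310))) (XT.nd (nat_lit 78) (nat_lit 76) (nat_lit 0) (XT.lf (nat_lit 0) (nat_lit 1205622945) (nat_lit 228) (nat_lit 1975277223)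 (nat_lit 76) (nat_lit 15256599877) (nat_lit 25) (nat_lit 5) (nat_lit 28) (nat_lit 5) (nat_lit 26) (nat_lit 4) (nat_lit 510) (nat_lit 321) (nat_lit 309)) (XT.lf (nat_lit 0) (nat_lit 5595290884) (nat_lit 152) (nat_lit 12159494184) (nat_lit 0) (nat_lit 955053000) (nat_lit 24) (nat_lit 5) (nat_lit 26) (nat_lit 4) (nat_lit 24) (nat_lit 4) (nat_lit 511) (nat_lit 321) (nat_lit 308))))) (XT.nd (nat_lit 234) (nat_lit 304) (nat_lit 0) (XT.nd (nat_lit 78) (nat_lit 152) (nat_lit 0) (XT.lf (nat_lit 0) (nat_lit 10049680005) (nat_lit 152) (nat_lit 3838860810) (nat_lit 0) (nat_lit 5099554513) (nat_lit 24) (nat_lit 5) (nat_lit 26) (nat_lit 4) (nat_lit 24) (nat_lit 4) (nat_lit 512) (nat_lit 321) (nat_lit 307)) (XT.nd (nat_lit 78) (nat_lit 0) (nat_lit 0) (XT.lf (nat_lit 0) (nat_lit 4607036228) (nat_lit 152) (nat_lit 9959679014) (nat_lit 152) (nat_lit 4705742141) (nat_lit 22) (nat_lit 4) (nat_lit 24) (nat_lit 5) (nat_lit 24) (nat_lit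 4) (nat_lit 513) (nat_lit 321) (nat_lit 306)) (XT.lf (nat_lit 0) (nat_lit 13172985097) (nat_lit 152) (nat_lit 5970963108) (nat_lit 152) (nat_lit 419171940) (nat_lit 22) (nat_lit 4) (nat_lit 24) (nat_lit 5) (nat_lit 24) (nat_lit 4) (nat_lit 514) (nat_lit 321) (nat_lit 305)))) (XT.nd (nat_lit 156) (nat_lit 152) (nat_lit 0) (XT.nd (nat_lit 78) (nat_lit 0) (nat_lit 0) (XT.lf (nat_lit 0) (nat_lit 1950909053) (nat_lit 76) (nat_lit 1907860370) (nat_lit 152) (nat_lit 16001173891) (nat_lit 20) (nat_lit 5) (nat_lit 21) (nat_lit 5) (nat_lit 22) (nat_lit 4) (nat_lit 515) (nat_lit 321) (nat_lit 304)) (XT.lf (nat_lit 0) (nat_lit 8219319031) (nat_lit 152) (nat_lit 9733861740) (nat_lit 0) (nat_lit 2209423509) (nat_lit 20) (nat_lit 5) (nat_lit 22) (nat_lit 4) (nat_lit 20) (nat_lit 4) (nat_lit 516) (nat_lit 321) (nat_lit 303))) (XT.nd (nat_lit 78) (nat_lit 152) (nat_lit 0) (XT.lf (nat_lit 0) (nat_lit 12625764332) (nat_lit 152) (nat_lit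 1505692757) (nat_lit 0) (nat_lit 6340697482) (nat_lit 20) (nat_lit 5) (nat_lit 22) (nat_lit 4) (nat_lit 20) (nat_lit 4) (nat_lit 517) (nat_lit 321) (nat_lit 302)) (XT.lf (nat_lit 0) (nat_lit 6881336482) (nat_lit 152) (nat_lit 10230787967) (nat_lit 152) (nat_lit 3675945305) (nat_lit 18) (nat_lit 4) (nat_lit 20) (nat_lit 5) (nat_lit 20) (nat_lit 4) (nat_lit 518) (nat_lit 321) (nat_lit 301)))))) (XT.nd (nat_lit 546) (nat_lit 304) (nat_lit 0) (XT.nd (nat_lit 234) (nat_lit 228) (nat_lit 0) (XT.nd (nat_lit 78) (nat_lit 76) (nat_lit 0) (XT.lf (nat_lit 0) (nat_lit 527669174) (nat_lit 228) (nat_lit 5753437019) (nat_lit 76) (nat_lit 14829984437) (nat_lit 17) (nat_lit 5) (nat_lit 20) (nat_lit 5) (nat_lit 18) (nat_lit 4) (nat_lit 519) (nat_lit 321) (nat_lit 300)) (XT.nd (nat_lit 78) (nat_lit 0) (nat_lit 0) (XT.lf (nat_lit 0) (nat_lit 2476916209) (nat_lit 76) (nat_lit 2253551636) (nat_lit 152) (nat_lit 16710340512) (nat_lit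 16) (nat_lit 5) (nat_lit 17) (nat_lit 5) (nat_lit 18) (nat_lit 4) (nat_lit 520) (nat_lit 321) (nat_lit 299)) (XT.lf (nat_lit 0) (nat_lit 9016567476) (nat_lit 152) (nat_lit 10933072808) (nat_lit 0) (nat_lit 1827504131) (nat_lit 16) (nat_lit 5) (nat_lit 18) (nat_lit 4) (nat_lit 16) (nat_lit 4) (nat_lit 521) (nat_lit 321) (nat_lit 298)))) (XT.nd (nat_lit 156) (nat_lit 76) (nat_lit 0) (XT.nd (nat_lit 78) (nat_lit 152) (nat_lit 0) (XT.lf (nat_lit 0) (nat_lit 13352665943) (nat_lit 152) (nat_lit 2849006080) (nat_lit 0) (nat_lit 5919258333) (nat_lit 16) (nat_lit 5) (nat_lit 18) (nat_lit 4) (nat_lit 16) (nat_lit 4) (nat_lit 522) (nat_lit 321) (nat_lit 297)) (XT.lf (nat_lit 0) (nat_lit 5376625215) (nat_lit 152) (nat_lit 12384115527) (nat_lit 152) (nat_lit 4711154716) (nat_lit 14) (nat_lit 4) (nat_lit 16) (nat_lit 5) (nat_lit 16) (nat_lit 4) (nat_lit 523) (nat_lit 321) (nat_lit 296))) (XT.nd (nat_lit 78) (nat_lit 76) (nat_lit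 0) (XT.lf (nat_lit 0) (nat_lit 13715352254) (nat_lit 152) (nat_lit 8511477899) (nat_lit 152) (nat_lit 603661009) (nat_lit 14) (nat_lit 4) (nat_lit 16) (nat_lit 5) (nat_lit 16) (nat_lit 4) (nat_lit 524) (nat_lit 321) (nat_lit 295)) (XT.lf (nat_lit 0) (nat_lit 3490324582) (nat_lit 228) (nat_lit 1087612290) (nat_lit 76) (nat_lit 18618836836) (nat_lit 13) (nat_lit 5) (nat_lit 16) (nat_lit 5) (nat_lit 14) (nat_lit 4) (nat_lit 525) (nat_lit 321) (nat_lit 294))))) (XT.nd (nat_lit 312) (nat_lit 152) (nat_lit 0) (XT.nd (nat_lit 156) (nat_lit 76) (nat_lit 0) (XT.nd (nat_lit 78) (nat_lit 0) (nat_lit 0) (XT.lf (nat_lit 0) (nat_lit 7102435683) (nat_lit 76) (nat_lit 554118753) (nat_lit 152) (nat_lit 15913786594) (nat_lit 12) (nat_lit 5) (nat_lit 13) (nat_lit 5) (nat_lit 14) (nat_lit 4) (nat_lit 526) (nat_lit 321) (nat_lit 293)) (XT.lf (nat_lit 0) (nat_lit 11888949321) (nat_lit 152) (nat_lit 8590610804) (nat_lit 0) (nat_lit 3472170490)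 (nat_lit 12) (nat_lit 5) (nat_lit 14) (nat_lit 4) (nat_lit 12) (nat_lit 4) (nat_lit 527) (nat_lit 321) (nat_lit 292))) (XT.nd (nat_lit 78) (nat_lit 76) (nat_lit 0) (XT.lf (nat_lit 0) (nat_lit 16163037796) (nat_lit 152) (nat_lit 645034277) (nat_lit 0) (nat_lit 7533542579) (nat_lit 12) (nat_lit 5) (nat_lit 14) (nat_lit 4) (nat_lit 12) (nat_lit 4) (nat_lit 528) (nat_lit 321) (nat_lit 291)) (XT.lf (nat_lit 0) (nat_lit 7473554870) (nat_lit 76) (nat_lit 13051866674) (nat_lit 76) (nat_lit 4213825980) (nat_lit 11) (nat_lit 4) (nat_lit 12) (nat_lit 5) (nat_lit 12) (nat_lit 4) (nat_lit 529) (nat_lit 321) (nat_lit 290)))) (XT.nd (nat_lit 156) (nat_lit 76) (nat_lit 0) (XT.nd (nat_lit 78) (nat_lit 76) (nat_lit 0) (XT.lf (nat_lit 0) (nat_lit 15679895561) (nat_lit 76) (nat_lit 9254131171) (nat_lit 76) (nat_lit 211634127) (nat_lit 11) (nat_lit 4) (nat_lit 12) (nat_lit 5) (nat_lit 12) (nat_lit 4) (nat_lit 530) (nat_lit 321) (nat_lit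 289)) (XT.lf (nat_lit 0) (nat_lit 3775070964) (nat_lit 152) (nat_lit 1617301098) (nat_lit 76) (nat_lit 20168230124) (nat_lit 10) (nat_lit 5) (nat_lit 12) (nat_lit 5) (nat_lit 11) (nat_lit 4) (nat_lit 531) (nat_lit 321) (nat_lit 288))) (XT.nd (nat_lit 78) (nat_lit 0) (nat_lit 0) (XT.lf (nat_lit 0) (nat_lit 6389817590) (nat_lit 76) (nat_lit 1446459190) (nat_lit 152) (nat_lit 18147592434) (nat_lit 9) (nat_lit 5) (nat_lit 10) (nat_lit 5) (nat_lit 11) (nat_lit 4) (nat_lit 532) (nat_lit 321) (nat_lit 287)) (XT.lf (nat_lit 0) (nat_lit 11962584933) (nat_lit 152) (nat_lit 11934020965) (nat_lit 0) (nat_lit 2519324843) (nat_lit 9) (nat_lit 5) (nat_lit 11) (nat_lit 4) (nat_lit 9) (nat_lit 4) (nat_lit 533) (nat_lit 321) (nat_lit 286))))))))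
noncomputable def xc6 : XT := (XT.nd (nat_lit 2184) (nat_lit 380) (nat_lit 0) (XT.nd (nat_lit 1092) (nat_lit 912) (nat_lit 0) (XT.nd (nat_lit 546) (nat_lit 608) (nat_lit 0) (XT.nd (nat_lit 234) (nat_lit 456) (nat_lit 0) (XT.nd (nat_lit 78) (nat_lit 152) (nat_lit 0) (XT.lf (nat_lit 0) (nat_lit 2523339806) (nat_lit 228) (nat_lit 2540012915) (nat_lit 0) (nat_lit 2523339806) (nat_lit 42) (nat_lit 5) (nat_lit 45) (nat_lit 4) (nat_lit 42) (nat_lit 4) (nat_lit 496) (nat_lit 322) (nat_lit 322)) (XT.nd (nat_lit 78) (nat_lit 0) (nat_lit 0) (XT.lf (nat_lit 0) (nat_lit 3541661952) (nat_lit 152) (nat_lit 6138460841) (nat_lit 152) (nat_lit 5695865027) (nat_lit 40) (nat_lit 4) (nat_lit 42) (nat_lit 5) (nat_lit 42) (nat_lit 4) (nat_lit 497) (nat_lit 322) (nat_lit 321)) (XT.lf (nat_lit 0) (nat_lit 12290092580) (nat_lit 152) (nat_lit 2084852293) (nat_lit 152) (nat_lit 1208339014) (nat_lit 40) (nat_lit 4) (nat_lit 42) (nat_lit 5)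 (nat_lit 42) (nat_lit 4) (nat_lit 498) (nat_lit 322) (nat_lit 320)))) (XT.nd (nat_lit 156) (nat_lit 228) (nat_lit 0) (XT.nd (nat_lit 78) (nat_lit 0) (nat_lit 0) (XT.lf (nat_lit 0) (nat_lit 3308345579) (nat_lit 228) (nat_lit 10454334918) (nat_lit 0) (nat_lit 2031950915) (nat_lit 37) (nat_lit 5) (nat_lit 40) (nat_lit 4) (nat_lit 37) (nat_lit 4) (nat_lit 499) (nat_lit 322) (nat_lit 319)) (XT.lf (nat_lit 0) (nat_lit 7870935588) (nat_lit 228) (nat_lit 1954039282) (nat_lit 0) (nat_lit 6185650805) (nat_lit 37) (nat_lit 5) (nat_lit 40) (nat_lit 4) (nat_lit 37) (nat_lit 4) (nat_lit 500) (nat_lit 322) (nat_lit 318))) (XT.nd (nat_lit 78) (nat_lit 76) (nat_lit 0) (XT.lf (nat_lit 0) (nat_lit 6692850064) (nat_lit 152) (nat_lit 5812326746) (nat_lit 152) (nat_lit 3726169299) (nat_lit 35) (nat_lit 4) (nat_lit 37) (nat_lit 5) (nat_lit 37) (nat_lit 4) (nat_lit 501) (nat_lit 322) (nat_lit 317)) (XT.lf (nat_lit 0) (nat_lit 715685194)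 (nat_lit 228) (nat_lit 1033485770) (nat_lit 76) (nat_lit 14708218274) (nat_lit 34) (nat_lit 5) (nat_lit 37) (nat_lit 5) (nat_lit 35) (nat_lit 4) (nat_lit 502) (nat_lit 322) (nat_lit 316))))) (XT.nd (nat_lit 234) (nat_lit 304) (nat_lit 0) (XT.nd (nat_lit 78) (nat_lit 152) (nat_lit 0) (XT.lf (nat_lit 0) (nat_lit 5199928730) (nat_lit 228) (nat_lit 9095857670) (nat_lit 0) (nat_lit 2391618774) (nat_lit 32) (nat_lit 5) (nat_lit 35) (nat_lit 4) (nat_lit 32) (nat_lit 4) (nat_lit 503) (nat_lit 322) (nat_lit 315)) (XT.nd (nat_lit 78) (nat_lit 152) (nat_lit 0) (XT.lf (nat_lit 0) (nat_lit 9730893188) (nat_lit 228) (nat_lit 639761852) (nat_lit 0) (nat_lit 6552238854) (nat_lit 32) (nat_lit 5) (nat_lit 35) (nat_lit 4) (nat_lit 32) (nat_lit 4) (nat_lit 504) (nat_lit 322) (nat_lit 314)) (XT.lf (nat_lit 0) (nat_lit 7982957828) (nat_lit 152) (nat_lit 6361027191) (nat_lit 152) (nat_lit 2819290134) (nat_lit 30) (nat_lit 4) (nat_lit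 32) (nat_lit 5) (nat_lit 32) (nat_lit 4) (nat_lit 505) (nat_lit 322) (nat_lit 313)))) (XT.nd (nat_lit 156) (nat_lit 152) (nat_lit 0) (XT.nd (nat_lit 78) (nat_lit 76) (nat_lit 0) (XT.lf (nat_lit 0) (nat_lit 1563435926) (nat_lit 228) (nat_lit 739559939) (nat_lit 76) (nat_lit 15106385891) (nat_lit 29) (nat_lit 5) (nat_lit 32) (nat_lit 5) (nat_lit 30) (nat_lit 4) (nat_lit 506) (nat_lit 322) (nat_lit 312)) (XT.lf (nat_lit 0) (nat_lit 6000087577) (nat_lit 152) (nat_lit 9823210356) (nat_lit 0) (nat_lit 1836671605) (nat_lit 28) (nat_lit 5) (nat_lit 30) (nat_lit 4) (nat_lit 28) (nat_lit 4) (nat_lit 507) (nat_lit 322) (nat_lit 311))) (XT.nd (nat_lit 78) (nat_lit 152) (nat_lit 0) (XT.lf (nat_lit 0) (nat_lit 10486842124) (nat_lit 152) (nat_lit 1441517656) (nat_lit 0) (nat_lit 5987993839) (nat_lit 28) (nat_lit 5) (nat_lit 30) (nat_lit 4) (nat_lit 28) (nat_lit 4) (nat_lit 508) (nat_lit 322) (nat_lit 310)) (XT.lf (nat_lit 0)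 (nat_lit 7097568349) (nat_lit 152) (nat_lit 7954122528) (nat_lit 152) (nat_lit 3126419033) (nat_lit 26) (nat_lit 4) (nat_lit 28) (nat_lit 5) (nat_lit 28) (nat_lit 4) (nat_lit 509) (nat_lit 322) (nat_lit 309)))))) (XT.nd (nat_lit 546) (nat_lit 456) (nat_lit 0) (XT.nd (nat_lit 234) (nat_lit 304) (nat_lit 0) (XT.nd (nat_lit 78) (nat_lit 76) (nat_lit 0) (XT.lf (nat_lit 0) (nat_lit 1198263530) (nat_lit 228) (nat_lit 2729618231) (nat_lit 76) (nat_lit 14518025065) (nat_lit 25) (nat_lit 5) (nat_lit 28) (nat_lit 5) (nat_lit 26) (nat_lit 4) (nat_lit 510) (nat_lit 322) (nat_lit 308)) (XT.nd (nat_lit 78) (nat_lit 0) (nat_lit 0) (XT.lf (nat_lit 0) (nat_lit 5549630154) (nat_lit 152) (nat_lit 12978771639) (nat_lit 0) (nat_lit 190614544) (nat_lit 24) (nat_lit 5) (nat_lit 26) (nat_lit 4) (nat_lit 24) (nat_lit 4) (nat_lit 511) (nat_lit 322) (nat_lit 307)) (XT.lf (nat_lit 0) (nat_lit 9976121453) (nat_lit 152) (nat_lit 4708420993)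 (nat_lit 0) (nat_lit 4313294462) (nat_lit 24) (nat_lit 5) (nat_lit 26) (nat_lit 4) (nat_lit 24) (nat_lit 4) (nat_lit 512) (nat_lit 322) (nat_lit 306)))) (XT.nd (nat_lit 156) (nat_lit 152) (nat_lit 0) (XT.nd (nat_lit 78) (nat_lit 0) (nat_lit 0) (XT.lf (nat_lit 0) (nat_lit 3675968127) (nat_lit 152) (nat_lit 10783792646) (nat_lit 152) (nat_lit 4823111359) (nat_lit 22) (nat_lit 4) (nat_lit 24) (nat_lit 5) (nat_lit 24) (nat_lit 4) (nat_lit 513) (nat_lit 322) (nat_lit 305)) (XT.lf (nat_lit 0) (nat_lit 12192944524) (nat_lit 152) (nat_lit 6816916734) (nat_lit 152) (nat_lit 564221433) (nat_lit 22) (nat_lit 4) (nat_lit 24) (nat_lit 5) (nat_lit 24) (nat_lit 4) (nat_lit 514) (nat_lit 322) (nat_lit 304))) (XT.nd (nat_lit 78) (nat_lit 0) (nat_lit 0) (XT.lf (nat_lit 0) (nat_lit 898674358) (nat_lit 76) (nat_lit 2783334507) (nat_lit 152) (nat_lit 16189593044) (nat_lit 20) (nat_lit 5) (nat_lit 21) (nat_lit 5) (nat_lit 22) (nat_lit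 4) (nat_lit 515) (nat_lit 322) (nat_lit 303)) (XT.lf (nat_lit 0) (nat_lit 8010166326) (nat_lit 152) (nat_lit 10840522432) (nat_lit 0) (nat_lit 1324226811) (nat_lit 20) (nat_lit 5) (nat_lit 22) (nat_lit 4) (nat_lit 20) (nat_lit 4) (nat_lit 516) (nat_lit 322) (nat_lit 302))))) (XT.nd (nat_lit 234) (nat_lit 228) (nat_lit 0) (XT.nd (nat_lit 78) (nat_lit 228) (nat_lit 0) (XT.lf (nat_lit 0) (nat_lit 12390427325) (nat_lit 152) (nat_lit 2659854978) (nat_lit 0) (nat_lit 5434711998) (nat_lit 20) (nat_lit 5) (nat_lit 22) (nat_lit 4) (nat_lit 20) (nat_lit 4) (nat_lit 517) (nat_lit 322) (nat_lit 301)) (XT.nd (nat_lit 78) (nat_lit 76) (nat_lit 0) (XT.lf (nat_lit 0) (nat_lit 5664647033) (nat_lit 152) (nat_lit 11178569969) (nat_lit 152) (nat_lit 3958368552) (nat_lit 18) (nat_lit 4) (nat_lit 20) (nat_lit 5) (nat_lit 20) (nat_lit 4) (nat_lit 518) (nat_lit 322) (nat_lit 300)) (XT.lf (nat_lit 0) (nat_lit 223308878) (nat_lit 228) (nat_lit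 7028417571) (nat_lit 76) (nat_lit 13873433958) (nat_lit 17) (nat_lit 5) (nat_lit 20) (nat_lit 5) (nat_lit 18) (nat_lit 4) (nat_lit 519) (nat_lit 322) (nat_lit 299)))) (XT.nd (nat_lit 156) (nat_lit 152) (nat_lit 0) (XT.nd (nat_lit 78) (nat_lit 0) (nat_lit 0) (XT.lf (nat_lit 0) (nat_lit 1138689494) (nat_lit 76) (nat_lit 3253591086) (nat_lit 152) (nat_lit 17063278488) (nat_lit 16) (nat_lit 5) (nat_lit 17) (nat_lit 5) (nat_lit 18) (nat_lit 4) (nat_lit 520) (nat_lit 322) (nat_lit 298)) (XT.lf (nat_lit 0) (nat_lit 8646814350) (nat_lit 152) (nat_lit 12325322074) (nat_lit 0) (nat_lit 820394323) (nat_lit 16) (nat_lit 5) (nat_lit 18) (nat_lit 4) (nat_lit 16) (nat_lit 4) (nat_lit 521) (nat_lit 322) (nat_lit 297))) (XT.nd (nat_lit 78) (nat_lit 152) (nat_lit 0) (XT.lf (nat_lit 0) (nat_lit 12958331503) (nat_lit 152) (nat_lit 4286122759) (nat_lit 0) (nat_lit 4892358275) (nat_lit 16) (nat_lit 5) (nat_lit 18) (nat_lit 4) (nat_lit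 16) (nat_lit 4) (nat_lit 522) (nat_lit 322) (nat_lit 296)) (XT.lf (nat_lit 0) (nat_lit 3875837779) (nat_lit 152) (nat_lit 13456725088) (nat_lit 152) (nat_lit 5155895781) (nat_lit 14) (nat_lit 4) (nat_lit 16) (nat_lit 5) (nat_lit 16) (nat_lit 4) (nat_lit 523) (nat_lit 322) (nat_lit 295))))))) (XT.nd (nat_lit 57330) (nat_lit 0) (nat_lit 1140) (XT.nd (nat_lit 546) (nat_lit 152) (nat_lit 0) (XT.nd (nat_lit 234) (nat_lit 76) (nat_lit 0) (XT.nd (nat_lit 78) (nat_lit 152) (nat_lit 0) (XT.lf (nat_lit 0) (nat_lit 12170866550) (nat_lit 152) (nat_lit 9603875217) (nat_lit 152) (nat_lit 1072794853) (nat_lit 14) (nat_lit 4) (nat_lit 16) (nat_lit 5) (nat_lit 16) (nat_lit 4) (nat_lit 524) (nat_lit 322) (nat_lit 294)) (XT.nd (nat_lit 78) (nat_lit 76) (nat_lit 0) (XT.lf (nat_lit 0) (nat_lit 3003742667) (nat_lit 228) (nat_lit 2689256506) (nat_lit 76) (nat_lit 17521356830) (nat_lit 13) (nat_lit 5) (nat_lit 16) (nat_lit 5) (nat_lit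 14) (nat_lit 4) (nat_lit 525) (nat_lit 322) (nat_lit 293)) (XT.lf (nat_lit 0) (nat_lit 5436631417) (nat_lit 76) (nat_lit 1699387514) (nat_lit 152) (nat_lit 16452587291) (nat_lit 12) (nat_lit 5) (nat_lit 13) (nat_lit 5) (nat_lit 14) (nat_lit 4) (nat_lit 526) (nat_lit 322) (nat_lit 292)))) (XT.nd (nat_lit 156) (nat_lit 76) (nat_lit 0) (XT.nd (nat_lit 78) (nat_lit 0) (nat_lit 0) (XT.lf (nat_lit 0) (nat_lit 11337896799) (nat_lit 152) (nat_lit 10309617806) (nat_lit 0) (nat_lit 2323095291) (nat_lit 12) (nat_lit 5) (nat_lit 14) (nat_lit 4) (nat_lit 12) (nat_lit 4) (nat_lit 527) (nat_lit 322) (nat_lit 291)) (XT.lf (nat_lit 0) (nat_lit 15589356674) (nat_lit 152) (nat_lit 2405583817) (nat_lit 0) (nat_lit 6366009689) (nat_lit 12) (nat_lit 5) (nat_lit 14) (nat_lit 4) (nat_lit 12) (nat_lit 4) (nat_lit 528) (nat_lit 322) (nat_lit 290))) (XT.nd (nat_lit 78) (nat_lit 0) (nat_lit 0) (XT.lf (nat_lit 0) (nat_lit 5648339321) (nat_lit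 76) (nat_lit 14269365690) (nat_lit 76) (nat_lit 4841562355) (nat_lit 11) (nat_lit 4) (nat_lit 12) (nat_lit 5) (nat_lit 12) (nat_lit 4) (nat_lit 529) (nat_lit 322) (nat_lit 289)) (XT.lf (nat_lit 0) (nat_lit 13814219980) (nat_lit 76) (nat_lit 10490077621) (nat_lit 76) (nat_lit 861826884) (nat_lit 11) (nat_lit 4) (nat_lit 12) (nat_lit 5) (nat_lit 12) (nat_lit 4) (nat_lit 530) (nat_lit 322) (nat_lit 288))))) (XT.nd (nat_lit 56472) (nat_lit 0) (nat_lit 2356) (XT.nd (nat_lit 78) (nat_lit 76) (nat_lit 0) (XT.lf (nat_lit 0) (nat_lit 3111678285) (nat_lit 152) (nat_lit 3539177660) (nat_lit 76) (nat_lit 18930732239) (nat_lit 10) (nat_lit 5) (nat_lit 12) (nat_lit 5) (nat_lit 11) (nat_lit 4) (nat_lit 531) (nat_lit 322) (nat_lit 287)) (XT.nd (nat_lit 78) (nat_lit 0) (nat_lit 0) (XT.lf (nat_lit 0) (nat_lit 4402704349) (nat_lit 76) (nat_lit 2735976805) (nat_lit 152) (nat_lit 18866861446) (nat_lit 9) (nat_lit 5) (nat_lit 10) (nat_lit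 5) (nat_lit 11) (nat_lit 4) (nat_lit 532) (nat_lit 322) (nat_lit 286)) (XT.lf (nat_lit 0) (nat_lit 11235365158) (nat_lit 152) (nat_lit 13973663329) (nat_lit 0) (nat_lit 1229171387) (nat_lit 9) (nat_lit 5) (nat_lit 11) (nat_lit 4) (nat_lit 9) (nat_lit 4) (nat_lit 533) (nat_lit 322) (nat_lit 285)))) (XT.nd (nat_lit 156) (nat_lit 152) (nat_lit 0) (XT.nd (nat_lit 78) (nat_lit 228) (nat_lit 0) (XT.lf (nat_lit 0) (nat_lit 3800041985) (nat_lit 228) (nat_lit 1795102588) (nat_lit 228) (nat_lit 1795102588) (nat_lit 45) (nat_lit 4) (nat_lit 48) (nat_lit 5) (nat_lit 48) (nat_lit 4) (nat_lit 494) (nat_lit 323) (nat_lit 323)) (XT.lf (nat_lit 0) (nat_lit 913444066) (nat_lit 228) (nat_lit 13600171782) (nat_lit 0) (nat_lit 461996336) (nat_lit 42) (nat_lit 5) (nat_lit 45) (nat_lit 4) (nat_lit 42) (nat_lit 4) (nat_lit 495) (nat_lit 323) (nat_lit 322))) (XT.nd (nat_lit 78) (nat_lit 152) (nat_lit 0) (XT.lf (nat_lit 0) (nat_lit 5465489432)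 (nat_lit 228) (nat_lit 5137110296) (nat_lit 0) (nat_lit 4571445888) (nat_lit 42) (nat_lit 5) (nat_lit 45) (nat_lit 4) (nat_lit 42) (nat_lit 4) (nat_lit 496) (nat_lit 323) (nat_lit 321)) (XT.lf (nat_lit 0) (nat_lit 3427109954) (nat_lit 152) (nat_lit 6639080958) (nat_lit 152) (nat_lit 5311119949) (nat_lit 40) (nat_lit 4) (nat_lit 42) (nat_lit 5) (nat_lit 42) (nat_lit 4) (nat_lit 497) (nat_lit 323) (nat_lit 320)))))) (XT.nd (nat_lit 546) (nat_lit 608) (nat_lit 0) (XT.nd (nat_lit 234) (nat_lit 380) (nat_lit 0) (XT.nd (nat_lit 78) (nat_lit 228) (nat_lit 0) (XT.lf (nat_lit 0) (nat_lit 12119943612) (nat_lit 152) (nat_lit 2609337867) (nat_lit 152) (nat_lit 855967579) (nat_lit 40) (nat_lit 4) (nat_lit 42) (nat_lit 5) (nat_lit 42) (nat_lit 4) (nat_lit 498) (nat_lit 323) (nat_lit 319)) (XT.nd (nat_lit 78) (nat_lit 0) (nat_lit 0) (XT.lf (nat_lit 0) (nat_lit 3619710805) (nat_lit 228) (nat_lit 10685744715) (nat_lit 0) (nat_lit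 1491830208) (nat_lit 37) (nat_lit 5) (nat_lit 40) (nat_lit 4) (nat_lit 37) (nat_lit 4) (nat_lit 499) (nat_lit 323) (nat_lit 318)) (XT.lf (nat_lit 0) (nat_lit 8151085463) (nat_lit 228) (nat_lit 2240493700) (nat_lit 0) (nat_lit 5622332201) (nat_lit 37) (nat_lit 5) (nat_lit 40) (nat_lit 4) (nat_lit 37) (nat_lit 4) (nat_lit 500) (nat_lit 323) (nat_lit 317)))) (XT.nd (nat_lit 156) (nat_lit 152) (nat_lit 0) (XT.nd (nat_lit 78) (nat_lit 76) (nat_lit 0) (XT.lf (nat_lit 0) (nat_lit 6347906331) (nat_lit 152) (nat_lit 6404577465) (nat_lit 152) (nat_lit 3482811787) (nat_lit 35) (nat_lit 4) (nat_lit 37) (nat_lit 5) (nat_lit 37) (nat_lit 4) (nat_lit 501) (nat_lit 323) (nat_lit 316)) (XT.lf (nat_lit 0) (nat_lit 925292030) (nat_lit 228) (nat_lit 1437982067) (nat_lit 76) (nat_lit 14098650854) (nat_lit 34) (nat_lit 5) (nat_lit 37) (nat_lit 5) (nat_lit 35) (nat_lit 4) (nat_lit 502) (nat_lit 323) (nat_lit 315))) (XT.nd (nat_lit 78)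 (nat_lit 0) (nat_lit 0) (XT.lf (nat_lit 0) (nat_lit 5372409704) (nat_lit 228) (nat_lit 9560442321) (nat_lit 0) (nat_lit 1759837905) (nat_lit 32) (nat_lit 5) (nat_lit 35) (nat_lit 4) (nat_lit 32) (nat_lit 4) (nat_lit 503) (nat_lit 323) (nat_lit 314)) (XT.lf (nat_lit 0) (nat_lit 9873511503) (nat_lit 228) (nat_lit 1157413821) (nat_lit 0) (nat_lit 5897856980) (nat_lit 32) (nat_lit 5) (nat_lit 35) (nat_lit 4) (nat_lit 32) (nat_lit 4) (nat_lit 504) (nat_lit 323) (nat_lit 313))))) (XT.nd (nat_lit 312) (nat_lit 304) (nat_lit 0) (XT.nd (nat_lit 156) (nat_lit 76) (nat_lit 0) (XT.nd (nat_lit 78) (nat_lit 76) (nat_lit 0) (XT.lf (nat_lit 0) (nat_lit 7405708345) (nat_lit 152) (nat_lit 7047869984) (nat_lit 152) (nat_lit 2716252007) (nat_lit 30) (nat_lit 4) (nat_lit 32) (nat_lit 5) (nat_lit 32) (nat_lit 4) (nat_lit 505) (nat_lit 323) (nat_lit 312)) (XT.lf (nat_lit 0) (nat_lit 1635885683) (nat_lit 228) (nat_lit 1376112674) (nat_lit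 76) (nat_lit 14404515975) (nat_lit 29) (nat_lit 5) (nat_lit 32) (nat_lit 5) (nat_lit 30) (nat_lit 4) (nat_lit 506) (nat_lit 323) (nat_lit 311))) (XT.nd (nat_lit 78) (nat_lit 0) (nat_lit 0) (XT.lf (nat_lit 0) (nat_lit 6034571177) (nat_lit 152) (nat_lit 10522982558) (nat_lit 0) (nat_lit 1110313613) (nat_lit 28) (nat_lit 5) (nat_lit 30) (nat_lit 4) (nat_lit 28) (nat_lit 4) (nat_lit 507) (nat_lit 323) (nat_lit 310)) (XT.lf (nat_lit 0) (nat_lit 10492749979) (nat_lit 152) (nat_lit 2192441558) (nat_lit 0) (nat_lit 5239637206) (nat_lit 28) (nat_lit 5) (nat_lit 30) (nat_lit 4) (nat_lit 28) (nat_lit 4) (nat_lit 508) (nat_lit 323) (nat_lit 309)))) (XT.nd (nat_lit 156) (nat_lit 76) (nat_lit 0) (XT.nd (nat_lit 78) (nat_lit 76) (nat_lit 0) (XT.lf (nat_lit 0) (nat_lit 6285849890) (nat_lit 152) (nat_lit 8738463190) (nat_lit 152) (nat_lit 3162943349) (nat_lit 26) (nat_lit 4) (nat_lit 28) (nat_lit 5) (nat_lit 28) (nat_lit 4) (nat_lit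 509) (nat_lit 323) (nat_lit 308)) (XT.lf (nat_lit 0) (nat_lit 1134239130) (nat_lit 228) (nat_lit 3600442157) (nat_lit 76) (nat_lit 13720941843) (nat_lit 25) (nat_lit 5) (nat_lit 28) (nat_lit 5) (nat_lit 26) (nat_lit 4) (nat_lit 510) (nat_lit 323) (nat_lit 307))) (XT.nd (nat_lit 78) (nat_lit 0) (nat_lit 0) (XT.lf (nat_lit 0) (nat_lit 4809261253) (nat_lit 76) (nat_lit 641607094) (nat_lit 152) (nat_lit 13278564397) (nat_lit 24) (nat_lit 5) (nat_lit 25) (nat_lit 5) (nat_lit 26) (nat_lit 4) (nat_lit 511) (nat_lit 323) (nat_lit 306)) (XT.lf (nat_lit 0) (nat_lit 9845843102) (nat_lit 152) (nat_lit 5694951900) (nat_lit 0) (nat_lit 3468093895) (nat_lit 24) (nat_lit 5) (nat_lit 26) (nat_lit 4) (nat_lit 24) (nat_lit 4) (nat_lit 512) (nat_lit 323) (nat_lit 305))))))))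
noncomputable def xc7 : XT := (XT.nd (nat_lit 58266) (nat_lit 0) (nat_lit 228) (XT.nd (nat_lit 1092) (nat_lit 228) (nat_lit 0) (XT.nd (nat_lit 546) (nat_lit 456) (nat_lit 0) (XT.nd (nat_lit 234) (nat_lit 228) (nat_lit 0) (XT.nd (nat_lit 78) (nat_lit 76) (nat_lit 0) (XT.lf (nat_lit 0) (nat_lit 2627354272) (nat_lit 152) (nat_lit 11668505337) (nat_lit 152) (nat_lit 4998742116) (nat_lit 22) (nat_lit 4) (nat_lit 24) (nat_lit 5) (nat_lit 24) (nat_lit 4) (nat_lit 513) (nat_lit 323) (nat_lit 304)) (XT.nd (nat_lit 78) (nat_lit 76) (nat_lit 0) (XT.lf (nat_lit 0) (nat_lit 11096318442) (nat_lit 152) (nat_lit 7723041184) (nat_lit 152) (nat_lit 766989712) (nat_lit 22) (nat_lit 4) (nat_lit 24) (nat_lit 5) (nat_lit 24) (nat_lit 4) (nat_lit 514) (nat_lit 323) (nat_lit 303)) (XT.lf (nat_lit 0) (nat_lit 3449808657) (nat_lit 228) (nat_lit 268112737) (nat_lit 76) (nat_lit 16166620169) (nat_lit 21) (nat_lit 5) (nat_lit 24) (nat_lit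 5) (nat_lit 22) (nat_lit 4) (nat_lit 515) (nat_lit 323) (nat_lit 302)))) (XT.nd (nat_lit 156) (nat_lit 152) (nat_lit 0) (XT.nd (nat_lit 78) (nat_lit 0) (nat_lit 0) (XT.lf (nat_lit 0) (nat_lit 7743938277) (nat_lit 152) (nat_lit 12065269427) (nat_lit 0) (nat_lit 379332832) (nat_lit 20) (nat_lit 5) (nat_lit 22) (nat_lit 4) (nat_lit 20) (nat_lit 4) (nat_lit 516) (nat_lit 323) (nat_lit 301)) (XT.lf (nat_lit 0) (nat_lit 12098528391) (nat_lit 152) (nat_lit 3931172099) (nat_lit 0) (nat_lit 4469436856) (nat_lit 20) (nat_lit 5) (nat_lit 22) (nat_lit 4) (nat_lit 20) (nat_lit 4) (nat_lit 517) (nat_lit 323) (nat_lit 300))) (XT.nd (nat_lit 78) (nat_lit 0) (nat_lit 0) (XT.lf (nat_lit 0) (nat_lit 4330171032) (nat_lit 152) (nat_lit 12187315199) (nat_lit 152) (nat_lit 4298923576) (nat_lit 18) (nat_lit 4) (nat_lit 20) (nat_lit 5) (nat_lit 20) (nat_lit 4) (nat_lit 518) (nat_lit 323) (nat_lit 299)) (XT.lf (nat_lit 0) (nat_lit 12718408744)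 (nat_lit 152) (nat_lit 8282358273) (nat_lit 152) (nat_lit 139750877) (nat_lit 18) (nat_lit 4) (nat_lit 20) (nat_lit 5) (nat_lit 20) (nat_lit 4) (nat_lit 519) (nat_lit 323) (nat_lit 298))))) (XT.nd (nat_lit 234) (nat_lit 304) (nat_lit 0) (XT.nd (nat_lit 78) (nat_lit 76) (nat_lit 0) (XT.lf (nat_lit 0) (nat_lit 3999015148) (nat_lit 228) (nat_lit 313827945) (nat_lit 76) (nat_lit 17158736685) (nat_lit 17) (nat_lit 5) (nat_lit 20) (nat_lit 5) (nat_lit 18) (nat_lit 4) (nat_lit 520) (nat_lit 323) (nat_lit 297)) (XT.nd (nat_lit 78) (nat_lit 0) (nat_lit 0) (XT.lf (nat_lit 0) (nat_lit 7971521537) (nat_lit 76) (nat_lit 250114278) (nat_lit 152) (nat_lit 13587558129) (nat_lit 16) (nat_lit 5) (nat_lit 17) (nat_lit 5) (nat_lit 18) (nat_lit 4) (nat_lit 521) (nat_lit 323) (nat_lit 296)) (XT.lf (nat_lit 0) (nat_lit 12507429733) (nat_lit 152) (nat_lit 5840836844) (nat_lit 0) (nat_lit 3805727761) (nat_lit 16) (nat_lit 5) (nat_lit 18)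 (nat_lit 4) (nat_lit 16) (nat_lit 4) (nat_lit 522) (nat_lit 323) (nat_lit 295)))) (XT.nd (nat_lit 156) (nat_lit 152) (nat_lit 0) (XT.nd (nat_lit 78) (nat_lit 0) (nat_lit 0) (XT.lf (nat_lit 0) (nat_lit 2256764094) (nat_lit 152) (nat_lit 14590758110) (nat_lit 152) (nat_lit 5658805080) (nat_lit 14) (nat_lit 4) (nat_lit 16) (nat_lit 5) (nat_lit 16) (nat_lit 4) (nat_lit 523) (nat_lit 323) (nat_lit 294)) (XT.lf (nat_lit 0) (nat_lit 10508951428) (nat_lit 152) (nat_lit 10757308001) (nat_lit 152) (nat_lit 1599618640) (nat_lit 14) (nat_lit 4) (nat_lit 16) (nat_lit 5) (nat_lit 16) (nat_lit 4) (nat_lit 524) (nat_lit 323) (nat_lit 293))) (XT.nd (nat_lit 78) (nat_lit 76) (nat_lit 0) (XT.lf (nat_lit 0) (nat_lit 2460690184) (nat_lit 228) (nat_lit 4408405315) (nat_lit 76) (nat_lit 16364136948) (nat_lit 13) (nat_lit 5) (nat_lit 16) (nat_lit 5) (nat_lit 14) (nat_lit 4) (nat_lit 525) (nat_lit 323) (nat_lit 292)) (XT.lf (nat_lit 0)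 (nat_lit 3652601670) (nat_lit 76) (nat_lit 2906097276) (nat_lit 152) (nat_lit 17049472819) (nat_lit 12) (nat_lit 5) (nat_lit 13) (nat_lit 5) (nat_lit 14) (nat_lit 4) (nat_lit 526) (nat_lit 323) (nat_lit 291)))))) (XT.nd (nat_lit 56628) (nat_lit 0) (nat_lit 2356) (XT.nd (nat_lit 234) (nat_lit 152) (nat_lit 0) (XT.nd (nat_lit 78) (nat_lit 76) (nat_lit 0) (XT.lf (nat_lit 0) (nat_lit 10730113455) (nat_lit 152) (nat_lit 12146920876) (nat_lit 0) (nat_lit 1113754053) (nat_lit 12) (nat_lit 5) (nat_lit 14) (nat_lit 4) (nat_lit 12) (nat_lit 4) (nat_lit 527) (nat_lit 323) (nat_lit 290)) (XT.nd (nat_lit 78) (nat_lit 76) (nat_lit 0) (XT.lf (nat_lit 0) (nat_lit 14959388428) (nat_lit 152) (nat_lit 4283614865) (nat_lit 0) (nat_lit 5138572677) (nat_lit 12) (nat_lit 5) (nat_lit 14) (nat_lit 4) (nat_lit 12) (nat_lit 4) (nat_lit 528) (nat_lit 323) (nat_lit 289)) (XT.lf (nat_lit 0) (nat_lit 3704890197) (nat_lit 76) (nat_lit 15548478503)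 (nat_lit 76) (nat_lit 5527215349) (nat_lit 11) (nat_lit 4) (nat_lit 12) (nat_lit 5) (nat_lit 12) (nat_lit 4) (nat_lit 529) (nat_lit 323) (nat_lit 288)))) (XT.nd (nat_lit 156) (nat_lit 76) (nat_lit 0) (XT.nd (nat_lit 78) (nat_lit 76) (nat_lit 0) (XT.lf (nat_lit 0) (nat_lit 11831104159) (nat_lit 76) (nat_lit 11787276154) (nat_lit 76) (nat_lit 1569495939) (nat_lit 11) (nat_lit 4) (nat_lit 12) (nat_lit 5) (nat_lit 12) (nat_lit 4) (nat_lit 530) (nat_lit 323) (nat_lit 287)) (XT.lf (nat_lit 0) (nat_lit 2391989146) (nat_lit 152) (nat_lit 5578625922) (nat_lit 76) (nat_lit 17633246131) (nat_lit 10) (nat_lit 5) (nat_lit 12) (nat_lit 5) (nat_lit 11) (nat_lit 4) (nat_lit 531) (nat_lit 323) (nat_lit 286))) (XT.nd (nat_lit 78) (nat_lit 0) (nat_lit 0) (XT.lf (nat_lit 0) (nat_lit 2297235293) (nat_lit 76) (nat_lit 4087203001) (nat_lit 152) (nat_lit 19644071659) (nat_lit 9) (nat_lit 5) (nat_lit 10) (nat_lit 5) (nat_lit 11) (nat_lit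 4) (nat_lit 532) (nat_lit 323) (nat_lit 285)) (XT.lf (nat_lit 0) (nat_lit 10329161369) (nat_lit 76) (nat_lit 123152416) (nat_lit 152) (nat_lit 16009432814) (nat_lit 9) (nat_lit 5) (nat_lit 10) (nat_lit 5) (nat_lit 11) (nat_lit 4) (nat_lit 533) (nat_lit 323) (nat_lit 284))))) (XT.nd (nat_lit 234) (nat_lit 380) (nat_lit 0) (XT.nd (nat_lit 78) (nat_lit 228) (nat_lit 0) (XT.lf (nat_lit 0) (nat_lit 1219448260) (nat_lit 228) (nat_lit 4762580667) (nat_lit 0) (nat_lit 1219448260) (nat_lit 48) (nat_lit 5) (nat_lit 51) (nat_lit 4) (nat_lit 48) (nat_lit 4) (nat_lit 492) (nat_lit 324) (nat_lit 324)) (XT.nd (nat_lit 78) (nat_lit 228) (nat_lit 0) (XT.lf (nat_lit 0) (nat_lit 6995601132) (nat_lit 228) (nat_lit 1068498916) (nat_lit 0) (nat_lit 6525914913) (nat_lit 48) (nat_lit 5) (nat_lit 51) (nat_lit 4) (nat_lit 48) (nat_lit 4) (nat_lit 493) (nat_lit 324) (nat_lit 323)) (XT.lf (nat_lit 0) (nat_lit 7543568995) (nat_lit 228) (nat_lit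 4083873504) (nat_lit 228) (nat_lit 3153710600) (nat_lit 45) (nat_lit 4) (nat_lit 48) (nat_lit 5) (nat_lit 48) (nat_lit 4) (nat_lit 494) (nat_lit 324) (nat_lit 322)))) (XT.nd (nat_lit 156) (nat_lit 152) (nat_lit 0) (XT.nd (nat_lit 78) (nat_lit 0) (nat_lit 0) (XT.lf (nat_lit 0) (nat_lit 1261151885) (nat_lit 152) (nat_lit 47146391) (nat_lit 228) (nat_lit 13668642117) (nat_lit 42) (nat_lit 5) (nat_lit 44) (nat_lit 5) (nat_lit 45) (nat_lit 4) (nat_lit 495) (nat_lit 324) (nat_lit 321)) (XT.lf (nat_lit 0) (nat_lit 5828039584) (nat_lit 228) (nat_lit 5308386079) (nat_lit 0) (nat_lit 4039601890) (nat_lit 42) (nat_lit 5) (nat_lit 45) (nat_lit 4) (nat_lit 42) (nat_lit 4) (nat_lit 496) (nat_lit 324) (nat_lit 320))) (XT.nd (nat_lit 78) (nat_lit 0) (nat_lit 0) (XT.lf (nat_lit 0) (nat_lit 3197961036) (nat_lit 152) (nat_lit 7197921700) (nat_lit 152) (nat_lit 4984074728) (nat_lit 40) (nat_lit 4) (nat_lit 42) (nat_lit 5) (nat_lit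 42) (nat_lit 4) (nat_lit 497) (nat_lit 324) (nat_lit 319)) (XT.lf (nat_lit 0) (nat_lit 11836287860) (nat_lit 152) (nat_lit 3191576116) (nat_lit 152) (nat_lit 560661222) (nat_lit 40) (nat_lit 4) (nat_lit 42) (nat_lit 5) (nat_lit 42) (nat_lit 4) (nat_lit 498) (nat_lit 324) (nat_lit 318))))))) (XT.nd (nat_lit 1092) (nat_lit 912) (nat_lit 0) (XT.nd (nat_lit 546) (nat_lit 456) (nat_lit 0) (XT.nd (nat_lit 234) (nat_lit 380) (nat_lit 0) (XT.nd (nat_lit 78) (nat_lit 152) (nat_lit 0) (XT.lf (nat_lit 0) (nat_lit 3874248327) (nat_lit 228) (nat_lit 11032972843) (nat_lit 0) (nat_lit 894047335) (nat_lit 37) (nat_lit 5) (nat_lit 40) (nat_lit 4) (nat_lit 37) (nat_lit 4) (nat_lit 499) (nat_lit 324) (nat_lit 317)) (XT.nd (nat_lit 78) (nat_lit 152) (nat_lit 0) (XT.lf (nat_lit 0) (nat_lit 8375019700) (nat_lit 228) (nat_lit 2641687143) (nat_lit 0) (nat_lit 5001806291) (nat_lit 37) (nat_lit 5) (nat_lit 40) (nat_lit 4) (nat_lit 37) (nat_lit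 4) (nat_lit 500) (nat_lit 324) (nat_lit 316)) (XT.lf (nat_lit 0) (nat_lit 5887770959) (nat_lit 152) (nat_lit 7055656350) (nat_lit 152) (nat_lit 3297136650) (nat_lit 35) (nat_lit 4) (nat_lit 37) (nat_lit 5) (nat_lit 37) (nat_lit 4) (nat_lit 501) (nat_lit 324) (nat_lit 315)))) (XT.nd (nat_lit 156) (nat_lit 152) (nat_lit 0) (XT.nd (nat_lit 78) (nat_lit 152) (nat_lit 0) (XT.lf (nat_lit 0) (nat_lit 1078572202) (nat_lit 228) (nat_lit 1957555116) (nat_lit 76) (nat_lit 13431647621) (nat_lit 34) (nat_lit 5) (nat_lit 37) (nat_lit 5) (nat_lit 35) (nat_lit 4) (nat_lit 502) (nat_lit 324) (nat_lit 314)) (XT.lf (nat_lit 0) (nat_lit 5488017726) (nat_lit 228) (nat_lit 10141514648) (nat_lit 0) (nat_lit 1069767389) (nat_lit 32) (nat_lit 5) (nat_lit 35) (nat_lit 4) (nat_lit 32) (nat_lit 4) (nat_lit 503) (nat_lit 324) (nat_lit 313))) (XT.nd (nat_lit 78) (nat_lit 152) (nat_lit 0) (XT.lf (nat_lit 0) (nat_lit 9959842406) (nat_lit 228)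 (nat_lit 1790512930) (nat_lit 0) (nat_lit 5185628615) (nat_lit 32) (nat_lit 5) (nat_lit 35) (nat_lit 4) (nat_lit 32) (nat_lit 4) (nat_lit 504) (nat_lit 324) (nat_lit 312)) (XT.lf (nat_lit 0) (nat_lit 6712511182) (nat_lit 152) (nat_lit 7794194300) (nat_lit 152) (nat_lit 2670996730) (nat_lit 30) (nat_lit 4) (nat_lit 32) (nat_lit 5) (nat_lit 32) (nat_lit 4) (nat_lit 505) (nat_lit 324) (nat_lit 311))))) (XT.nd (nat_lit 234) (nat_lit 304) (nat_lit 0) (XT.nd (nat_lit 78) (nat_lit 76) (nat_lit 0) (XT.lf (nat_lit 0) (nat_lit 1651883699) (nat_lit 228) (nat_lit 2128533457) (nat_lit 76) (nat_lit 13644542362) (nat_lit 29) (nat_lit 5) (nat_lit 32) (nat_lit 5) (nat_lit 30) (nat_lit 4) (nat_lit 506) (nat_lit 324) (nat_lit 310)) (XT.nd (nat_lit 78) (nat_lit 0) (nat_lit 0) (XT.lf (nat_lit 0) (nat_lit 6012021443) (nat_lit 152) (nat_lit 11340076637) (nat_lit 0) (nat_lit 324991205) (nat_lit 28) (nat_lit 5) (nat_lit 30) (nat_lit 4)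 (nat_lit 28) (nat_lit 4) (nat_lit 507) (nat_lit 324) (nat_lit 309)) (XT.lf (nat_lit 0) (nat_lit 10442184807) (nat_lit 152) (nat_lit 3059684361) (nat_lit 0) (nat_lit 4432747501) (nat_lit 28) (nat_lit 5) (nat_lit 30) (nat_lit 4) (nat_lit 28) (nat_lit 4) (nat_lit 508) (nat_lit 324) (nat_lit 308)))) (XT.nd (nat_lit 156) (nat_lit 76) (nat_lit 0) (XT.nd (nat_lit 78) (nat_lit 76) (nat_lit 0) (XT.lf (nat_lit 0) (nat_lit 5357263087) (nat_lit 152) (nat_lit 9582989705) (nat_lit 152) (nat_lit 3257467038) (nat_lit 26) (nat_lit 4) (nat_lit 28) (nat_lit 5) (nat_lit 28) (nat_lit 4) (nat_lit 509) (nat_lit 324) (nat_lit 307)) (XT.lf (nat_lit 0) (nat_lit 1013524639) (nat_lit 228) (nat_lit 4588090503) (nat_lit 76) (nat_lit 12865037630) (nat_lit 25) (nat_lit 5) (nat_lit 28) (nat_lit 5) (nat_lit 26) (nat_lit 4) (nat_lit 510) (nat_lit 324) (nat_lit 306))) (XT.nd (nat_lit 78) (nat_lit 0) (nat_lit 0) (XT.lf (nat_lit 0) (nat_lit 3759599492)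 (nat_lit 76) (nat_lit 1536846620) (nat_lit 152) (nat_lit 13444695678) (nat_lit 24) (nat_lit 5) (nat_lit 25) (nat_lit 5) (nat_lit 26) (nat_lit 4) (nat_lit 511) (nat_lit 324) (nat_lit 305)) (XT.lf (nat_lit 0) (nat_lit 9658793862) (nat_lit 152) (nat_lit 6798840407) (nat_lit 0) (nat_lit 2563621361) (nat_lit 24) (nat_lit 5) (nat_lit 26) (nat_lit 4) (nat_lit 24) (nat_lit 4) (nat_lit 512) (nat_lit 324) (nat_lit 304)))))) (XT.nd (nat_lit 546) (nat_lit 456) (nat_lit 0) (XT.nd (nat_lit 234) (nat_lit 228) (nat_lit 0) (XT.nd (nat_lit 78) (nat_lit 76) (nat_lit 0) (XT.lf (nat_lit 0) (nat_lit 1460783441) (nat_lit 152) (nat_lit 12614164035) (nat_lit 152) (nat_lit 5232703285) (nat_lit 22) (nat_lit 4) (nat_lit 24) (nat_lit 5) (nat_lit 24) (nat_lit 4) (nat_lit 513) (nat_lit 324) (nat_lit 303)) (XT.nd (nat_lit 78) (nat_lit 76) (nat_lit 0) (XT.lf (nat_lit 0) (nat_lit 9882676801) (nat_lit 152) (nat_lit 8689691802) (nat_lit 152) (nat_lit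 1027556297) (nat_lit 22) (nat_lit 4) (nat_lit 24) (nat_lit 5) (nat_lit 24) (nat_lit 4) (nat_lit 514) (nat_lit 324) (nat_lit 302)) (XT.lf (nat_lit 0) (nat_lit 3166917803) (nat_lit 228) (nat_lit 1540132870) (nat_lit 76) (nat_lit 15191619875) (nat_lit 21) (nat_lit 5) (nat_lit 24) (nat_lit 5) (nat_lit 22) (nat_lit 4) (nat_lit 515) (nat_lit 324) (nat_lit 301)))) (XT.nd (nat_lit 156) (nat_lit 152) (nat_lit 0) (XT.nd (nat_lit 78) (nat_lit 0) (nat_lit 0) (XT.lf (nat_lit 0) (nat_lit 6790703205) (nat_lit 76) (nat_lit 633943254) (nat_lit 152) (nat_lit 12778755742) (nat_lit 20) (nat_lit 5) (nat_lit 21) (nat_lit 5) (nat_lit 22) (nat_lit 4) (nat_lit 516) (nat_lit 324) (nat_lit 300)) (XT.lf (nat_lit 0) (nat_lit 11749953061) (nat_lit 152) (nat_lit 5320142676) (nat_lit 0) (nat_lit 3444493517) (nat_lit 20) (nat_lit 5) (nat_lit 22) (nat_lit 4) (nat_lit 20) (nat_lit 4) (nat_lit 517) (nat_lit 324) (nat_lit 299))) (XT.nd (nat_lit 78)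 (nat_lit 0) (nat_lit 0) (XT.lf (nat_lit 0) (nat_lit 2877385155) (nat_lit 152) (nat_lit 13257419244) (nat_lit 152) (nat_lit 4697743927) (nat_lit 18) (nat_lit 4) (nat_lit 20) (nat_lit 5) (nat_lit 20) (nat_lit 4) (nat_lit 518) (nat_lit 324) (nat_lit 298)) (XT.lf (nat_lit 0) (nat_lit 11221155600) (nat_lit 152) (nat_lit 9372450625) (nat_lit 152) (nat_lit 563544159) (nat_lit 18) (nat_lit 4) (nat_lit 20) (nat_lit 5) (nat_lit 20) (nat_lit 4) (nat_lit 519) (nat_lit 324) (nat_lit 297))))) (XT.nd (nat_lit 312) (nat_lit 152) (nat_lit 0) (XT.nd (nat_lit 156) (nat_lit 152) (nat_lit 0) (XT.nd (nat_lit 78) (nat_lit 76) (nat_lit 0) (XT.lf (nat_lit 0) (nat_lit 3556617828) (nat_lit 228) (nat_lit 1868882716) (nat_lit 76) (nat_lit 16063254221) (nat_lit 17) (nat_lit 5) (nat_lit 20) (nat_lit 5) (nat_lit 18) (nat_lit 4) (nat_lit 520) (nat_lit 324) (nat_lit 296)) (XT.lf (nat_lit 0) (nat_lit 6352169174) (nat_lit 76) (nat_lit 1392867016)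 (nat_lit 152) (nat_lit 14082020926) (nat_lit 16) (nat_lit 5) (nat_lit 17) (nat_lit 5) (nat_lit 18) (nat_lit 4) (nat_lit 521) (nat_lit 324) (nat_lit 295))) (XT.nd (nat_lit 78) (nat_lit 152) (nat_lit 0) (XT.lf (nat_lit 0) (nat_lit 11999783807) (nat_lit 152) (nat_lit 7513758028) (nat_lit 0) (nat_lit 2658940660) (nat_lit 16) (nat_lit 5) (nat_lit 18) (nat_lit 4) (nat_lit 16) (nat_lit 4) (nat_lit 522) (nat_lit 324) (nat_lit 294)) (XT.lf (nat_lit 0) (nat_lit 518769231) (nat_lit 152) (nat_lit 15786659311) (nat_lit 152) (nat_lit 6220079833) (nat_lit 14) (nat_lit 4) (nat_lit 16) (nat_lit 5) (nat_lit 16) (nat_lit 4) (nat_lit 523) (nat_lit 324) (nat_lit 293)))) (XT.nd (nat_lit 156) (nat_lit 76) (nat_lit 0) (XT.nd (nat_lit 78) (nat_lit 76) (nat_lit 0) (XT.lf (nat_lit 0) (nat_lit 8728955154) (nat_lit 152) (nat_lit 11972228577) (nat_lit 152) (nat_lit 2184338970) (nat_lit 14) (nat_lit 4) (nat_lit 16) (nat_lit 5) (nat_lit 16) (nat_lit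 4) (nat_lit 524) (nat_lit 324) (nat_lit 292)) (XT.lf (nat_lit 0) (nat_lit 1860954171) (nat_lit 228) (nat_lit 6245732895) (nat_lit 76) (nat_lit 15146723379) (nat_lit 13) (nat_lit 5) (nat_lit 16) (nat_lit 5) (nat_lit 14) (nat_lit 4) (nat_lit 525) (nat_lit 324) (nat_lit 291))) (XT.nd (nat_lit 78) (nat_lit 0) (nat_lit 0) (XT.lf (nat_lit 0) (nat_lit 1749646822) (nat_lit 76) (nat_lit 4174721261) (nat_lit 152) (nat_lit 17704677252) (nat_lit 12) (nat_lit 5) (nat_lit 13) (nat_lit 5) (nat_lit 14) (nat_lit 4) (nat_lit 526) (nat_lit 324) (nat_lit 290)) (XT.lf (nat_lit 0) (nat_lit 9907984428) (nat_lit 76) (nat_lit 158404984) (nat_lit 152) (nat_lit 13945864009) (nat_lit 12) (nat_lit 5) (nat_lit 13) (nat_lit 5) (nat_lit 14) (nat_lit 4) (nat_lit 527) (nat_lit 324) (nat_lit 289))))))))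
noncomputable def xc8 : XT := (XT.nd (nat_lit 58110) (nat_lit 0) (nat_lit 0) (XT.nd (nat_lit 57018) (nat_lit 0) (nat_lit 1140) (XT.nd (nat_lit 56472) (nat_lit 0) (nat_lit 2356) (XT.nd (nat_lit 234) (nat_lit 152) (nat_lit 0) (XT.nd (nat_lit 78) (nat_lit 76) (nat_lit 0) (XT.lf (nat_lit 0) (nat_lit 14272886012) (nat_lit 152) (nat_lit 6279863903) (nat_lit 0) (nat_lit 3850750193) (nat_lit 12) (nat_lit 5) (nat_lit 14) (nat_lit 4) (nat_lit 12) (nat_lit 4) (nat_lit 528) (nat_lit 324) (nat_lit 288)) (XT.nd (nat_lit 78) (nat_lit 0) (nat_lit 0) (XT.lf (nat_lit 0) (nat_lit 1642445362) (nat_lit 76) (nat_lit 16889706726) (nat_lit 76) (nat_lit 6271053847) (nat_lit 11) (nat_lit 4) (nat_lit 12) (nat_lit 5) (nat_lit 12) (nat_lit 4) (nat_lit 529) (nat_lit 324) (nat_lit 287)) (XT.lf (nat_lit 0) (nat_lit 9729770405) (nat_lit 76) (nat_lit 13146235475) (nat_lit 76) (nat_lit 2334918810) (nat_lit 11) (nat_lit 4) (nat_lit 12) (nat_lit 5)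 (nat_lit 12) (nat_lit 4) (nat_lit 530) (nat_lit 324) (nat_lit 286)))) (XT.nd (nat_lit 156) (nat_lit 0) (nat_lit 0) (XT.nd (nat_lit 78) (nat_lit 76) (nat_lit 0) (XT.lf (nat_lit 0) (nat_lit 1615721316) (nat_lit 152) (nat_lit 7736445669) (nat_lit 76) (nat_lit 16275262982) (nat_lit 10) (nat_lit 5) (nat_lit 12) (nat_lit 5) (nat_lit 11) (nat_lit 4) (nat_lit 531) (nat_lit 324) (nat_lit 285)) (XT.lf (nat_lit 0) (nat_lit 72584749) (nat_lit 76) (nat_lit 5500667672) (nat_lit 152) (nat_lit 20479527860) (nat_lit 9) (nat_lit 5) (nat_lit 10) (nat_lit 5) (nat_lit 11) (nat_lit 4) (nat_lit 532) (nat_lit 324) (nat_lit 284))) (XT.nd (nat_lit 56004) (nat_lit 0) (nat_lit 3192) (XT.lf (nat_lit 0) (nat_lit 8067104443) (nat_lit 76) (nat_lit 1553707920) (nat_lit 152) (nat_lit 16865614013) (nat_lit 9) (nat_lit 5) (nat_lit 10) (nat_lit 5) (nat_lit 11) (nat_lit 4) (nat_lit 533) (nat_lit 324) (nat_lit 283)) (XT.lf (nat_lit 0) (nat_lit 969371678)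 (nat_lit 228) (nat_lit 3025279448) (nat_lit 228) (nat_lit 3025279448) (nat_lit 51) (nat_lit 4) (nat_lit 54) (nat_lit 5) (nat_lit 54) (nat_lit 4) (nat_lit 490) (nat_lit 325) (nat_lit 325))))) (XT.nd (nat_lit 234) (nat_lit 608) (nat_lit 0) (XT.nd (nat_lit 78) (nat_lit 228) (nat_lit 0) (XT.lf (nat_lit 0) (nat_lit 10536512436) (nat_lit 228) (nat_lit 2086030242) (nat_lit 228) (nat_lit 1597368701) (nat_lit 51) (nat_lit 4) (nat_lit 54) (nat_lit 5) (nat_lit 54) (nat_lit 4) (nat_lit 491) (nat_lit 325) (nat_lit 324)) (XT.nd (nat_lit 78) (nat_lit 0) (nat_lit 0) (XT.lf (nat_lit 0) (nat_lit 2885167210) (nat_lit 228) (nat_lit 9582050583) (nat_lit 0) (nat_lit 1936401049) (nat_lit 48) (nat_lit 5) (nat_lit 51) (nat_lit 4) (nat_lit 48) (nat_lit 4) (nat_lit 492) (nat_lit 325) (nat_lit 323)) (XT.lf (nat_lit 0) (nat_lit 7409705885) (nat_lit 228) (nat_lit 1181161936) (nat_lit 0) (nat_lit 6000463039) (nat_lit 48) (nat_lit 5) (nat_lit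 51) (nat_lit 4) (nat_lit 48) (nat_lit 4) (nat_lit 493) (nat_lit 325) (nat_lit 322)))) (XT.nd (nat_lit 156) (nat_lit 152) (nat_lit 0) (XT.nd (nat_lit 78) (nat_lit 228) (nat_lit 0) (XT.lf (nat_lit 0) (nat_lit 7374001903) (nat_lit 228) (nat_lit 4634909176) (nat_lit 228) (nat_lit 2774218599) (nat_lit 45) (nat_lit 4) (nat_lit 48) (nat_lit 5) (nat_lit 48) (nat_lit 4) (nat_lit 494) (nat_lit 325) (nat_lit 321)) (XT.lf (nat_lit 0) (nat_lit 1029357789) (nat_lit 152) (nat_lit 620466062) (nat_lit 228) (nat_lit 13329711279) (nat_lit 42) (nat_lit 5) (nat_lit 44) (nat_lit 5) (nat_lit 45) (nat_lit 4) (nat_lit 495) (nat_lit 325) (nat_lit 320))) (XT.nd (nat_lit 78) (nat_lit 152) (nat_lit 0) (XT.lf (nat_lit 0) (nat_lit 6134472246) (nat_lit 228) (nat_lit 5593920346) (nat_lit 0) (nat_lit 3450939054) (nat_lit 42) (nat_lit 5) (nat_lit 45) (nat_lit 4) (nat_lit 42) (nat_lit 4) (nat_lit 496) (nat_lit 325) (nat_lit 319)) (XT.lf (nat_lit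 0) (nat_lit 2854125335) (nat_lit 152) (nat_lit 7815202221) (nat_lit 152) (nat_lit 4714601109) (nat_lit 40) (nat_lit 4) (nat_lit 42) (nat_lit 5) (nat_lit 42) (nat_lit 4) (nat_lit 497) (nat_lit 325) (nat_lit 318)))))) (XT.nd (nat_lit 546) (nat_lit 608) (nat_lit 0) (XT.nd (nat_lit 234) (nat_lit 380) (nat_lit 0) (XT.nd (nat_lit 78) (nat_lit 228) (nat_lit 0) (XT.lf (nat_lit 0) (nat_lit 11439014086) (nat_lit 152) (nat_lit 3831795368) (nat_lit 152) (nat_lit 322304138) (nat_lit 40) (nat_lit 4) (nat_lit 42) (nat_lit 5) (nat_lit 42) (nat_lit 4) (nat_lit 498) (nat_lit 325) (nat_lit 317)) (XT.nd (nat_lit 78) (nat_lit 0) (nat_lit 0) (XT.lf (nat_lit 0) (nat_lit 4072057963) (nat_lit 228) (nat_lit 11496155470) (nat_lit 0) (nat_lit 238367869) (nat_lit 37) (nat_lit 5) (nat_lit 40) (nat_lit 4) (nat_lit 37) (nat_lit 4) (nat_lit 499) (nat_lit 325) (nat_lit 316)) (XT.lf (nat_lit 0) (nat_lit 8542826116) (nat_lit 228) (nat_lit 3157776941)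 (nat_lit 0) (nat_lit 4323829731) (nat_lit 37) (nat_lit 5) (nat_lit 40) (nat_lit 4) (nat_lit 37) (nat_lit 4) (nat_lit 500) (nat_lit 325) (nat_lit 315)))) (XT.nd (nat_lit 156) (nat_lit 152) (nat_lit 0) (XT.nd (nat_lit 78) (nat_lit 76) (nat_lit 0) (XT.lf (nat_lit 0) (nat_lit 5312263501) (nat_lit 152) (nat_lit 7765818725) (nat_lit 152) (nat_lit 3169071075) (nat_lit 35) (nat_lit 4) (nat_lit 37) (nat_lit 5) (nat_lit 37) (nat_lit 4) (nat_lit 501) (nat_lit 325) (nat_lit 314)) (XT.lf (nat_lit 0) (nat_lit 1175585819) (nat_lit 228) (nat_lit 2592408673) (nat_lit 76) (nat_lit 12706947007) (nat_lit 34) (nat_lit 5) (nat_lit 37) (nat_lit 5) (nat_lit 35) (nat_lit 4) (nat_lit 502) (nat_lit 325) (nat_lit 313))) (XT.nd (nat_lit 78) (nat_lit 0) (nat_lit 0) (XT.lf (nat_lit 0) (nat_lit 5546798130) (nat_lit 228) (nat_lit 10839302521) (nat_lit 0) (nat_lit 321136609) (nat_lit 32) (nat_lit 5) (nat_lit 35) (nat_lit 4) (nat_lit 32) (nat_lit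 4) (nat_lit 503) (nat_lit 325) (nat_lit 312)) (XT.lf (nat_lit 0) (nat_lit 9989919755) (nat_lit 228) (nat_lit 2539307452) (nat_lit 0) (nat_lit 4415274454) (nat_lit 32) (nat_lit 5) (nat_lit 35) (nat_lit 4) (nat_lit 32) (nat_lit 4) (nat_lit 504) (nat_lit 325) (nat_lit 311))))) (XT.nd (nat_lit 234) (nat_lit 304) (nat_lit 0) (XT.nd (nat_lit 78) (nat_lit 152) (nat_lit 0) (XT.lf (nat_lit 0) (nat_lit 5903094495) (nat_lit 152) (nat_lit 8600292814) (nat_lit 152) (nat_lit 2683506554) (nat_lit 30) (nat_lit 4) (nat_lit 32) (nat_lit 5) (nat_lit 32) (nat_lit 4) (nat_lit 505) (nat_lit 325) (nat_lit 310)) (XT.nd (nat_lit 78) (nat_lit 76) (nat_lit 0) (XT.lf (nat_lit 0) (nat_lit 1611436246) (nat_lit 228) (nat_lit 2997117355) (nat_lit 76) (nat_lit 12826167022) (nat_lit 29) (nat_lit 5) (nat_lit 32) (nat_lit 5) (nat_lit 30) (nat_lit 4) (nat_lit 506) (nat_lit 325) (nat_lit 309)) (XT.lf (nat_lit 0) (nat_lit 5409339129) (nat_lit 76) (nat_lit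 526508846) (nat_lit 152) (nat_lit 11751722619) (nat_lit 28) (nat_lit 5) (nat_lit 29) (nat_lit 5) (nat_lit 30) (nat_lit 4) (nat_lit 507) (nat_lit 325) (nat_lit 308)))) (XT.nd (nat_lit 156) (nat_lit 152) (nat_lit 0) (XT.nd (nat_lit 78) (nat_lit 152) (nat_lit 0) (XT.lf (nat_lit 0) (nat_lit 10335126780) (nat_lit 152) (nat_lit 4043586162) (nat_lit 0) (nat_lit 3567008300) (nat_lit 28) (nat_lit 5) (nat_lit 30) (nat_lit 4) (nat_lit 28) (nat_lit 4) (nat_lit 508) (nat_lit 325) (nat_lit 307)) (XT.lf (nat_lit 0) (nat_lit 4311443790) (nat_lit 152) (nat_lit 10488033259) (nat_lit 152) (nat_lit 3410027170) (nat_lit 26) (nat_lit 4) (nat_lit 28) (nat_lit 5) (nat_lit 28) (nat_lit 4) (nat_lit 509) (nat_lit 325) (nat_lit 306))) (XT.nd (nat_lit 78) (nat_lit 76) (nat_lit 0) (XT.lf (nat_lit 0) (nat_lit 836072717) (nat_lit 228) (nat_lit 5692950579) (nat_lit 76) (nat_lit 11949976776) (nat_lit 25) (nat_lit 5) (nat_lit 28) (nat_lit 5) (nat_lit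 26) (nat_lit 4) (nat_lit 510) (nat_lit 325) (nat_lit 305)) (XT.lf (nat_lit 0) (nat_lit 2592126907) (nat_lit 76) (nat_lit 2492921940) (nat_lit 152) (nat_lit 13669124299) (nat_lit 24) (nat_lit 5) (nat_lit 25) (nat_lit 5) (nat_lit 26) (nat_lit 4) (nat_lit 511) (nat_lit 325) (nat_lit 304))))))) (XT.nd (nat_lit 1092) (nat_lit 304) (nat_lit 0) (XT.nd (nat_lit 546) (nat_lit 380) (nat_lit 0) (XT.nd (nat_lit 234) (nat_lit 304) (nat_lit 0) (XT.nd (nat_lit 78) (nat_lit 152) (nat_lit 0) (XT.lf (nat_lit 0) (nat_lit 9414900381) (nat_lit 152) (nat_lit 8020519410) (nat_lit 0) (nat_lit 1599522165) (nat_lit 24) (nat_lit 5) (nat_lit 26) (nat_lit 4) (nat_lit 24) (nat_lit 4) (nat_lit 512) (nat_lit 325) (nat_lit 303)) (XT.nd (nat_lit 78) (nat_lit 0) (nat_lit 0) (XT.lf (nat_lit 0) (nat_lit 175798157) (nat_lit 152) (nat_lit 13621139586) (nat_lit 152) (nat_lit 5525086616) (nat_lit 22) (nat_lit 4) (nat_lit 24) (nat_lit 5) (nat_lit 24) (nat_lit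 4) (nat_lit 513) (nat_lit 325) (nat_lit 302)) (XT.lf (nat_lit 0) (nat_lit 8551543663) (nat_lit 152) (nat_lit 9717247667) (nat_lit 152) (nat_lit 1346023369) (nat_lit 22) (nat_lit 4) (nat_lit 24) (nat_lit 5) (nat_lit 24) (nat_lit 4) (nat_lit 514) (nat_lit 325) (nat_lit 301)))) (XT.nd (nat_lit 156) (nat_lit 152) (nat_lit 0) (XT.nd (nat_lit 78) (nat_lit 76) (nat_lit 0) (XT.lf (nat_lit 0) (nat_lit 2827390574) (nat_lit 228) (nat_lit 2929671149) (nat_lit 76) (nat_lit 14157049378) (nat_lit 21) (nat_lit 5) (nat_lit 24) (nat_lit 5) (nat_lit 22) (nat_lit 4) (nat_lit 515) (nat_lit 325) (nat_lit 300)) (XT.lf (nat_lit 0) (nat_lit 5337415542) (nat_lit 76) (nat_lit 1713525914) (nat_lit 152) (nat_lit 13168589425) (nat_lit 20) (nat_lit 5) (nat_lit 21) (nat_lit 5) (nat_lit 22) (nat_lit 4) (nat_lit 516) (nat_lit 325) (nat_lit 299))) (XT.nd (nat_lit 78) (nat_lit 152) (nat_lit 0) (XT.lf (nat_lit 0) (nat_lit 11344564637) (nat_lit 152)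 (nat_lit 6827311404) (nat_lit 0) (nat_lit 2359480041) (nat_lit 20) (nat_lit 5) (nat_lit 22) (nat_lit 4) (nat_lit 20) (nat_lit 4) (nat_lit 517) (nat_lit 325) (nat_lit 298)) (XT.lf (nat_lit 0) (nat_lit 1305719682) (nat_lit 152) (nat_lit 14389301751) (nat_lit 152) (nat_lit 5154986005) (nat_lit 18) (nat_lit 4) (nat_lit 20) (nat_lit 5) (nat_lit 20) (nat_lit 4) (nat_lit 518) (nat_lit 325) (nat_lit 297))))) (XT.nd (nat_lit 234) (nat_lit 228) (nat_lit 0) (XT.nd (nat_lit 78) (nat_lit 152) (nat_lit 0) (XT.lf (nat_lit 0) (nat_lit 9605894767) (nat_lit 152) (nat_lit 10523929513) (nat_lit 152) (nat_lit 1045269502) (nat_lit 18) (nat_lit 4) (nat_lit 20) (nat_lit 5) (nat_lit 20) (nat_lit 4) (nat_lit 519) (nat_lit 325) (nat_lit 296)) (XT.nd (nat_lit 78) (nat_lit 76) (nat_lit 0) (XT.lf (nat_lit 0) (nat_lit 3057522004) (nat_lit 228) (nat_lit 3542018762) (nat_lit 76) (nat_lit 14907697860) (nat_lit 17) (nat_lit 5) (nat_lit 20) (nat_lit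 5) (nat_lit 18) (nat_lit 4) (nat_lit 520) (nat_lit 325) (nat_lit 295)) (XT.lf (nat_lit 0) (nat_lit 4614021823) (nat_lit 76) (nat_lit 2597409420) (nat_lit 152) (nat_lit 14634803974) (nat_lit 16) (nat_lit 5) (nat_lit 17) (nat_lit 5) (nat_lit 18) (nat_lit 4) (nat_lit 521) (nat_lit 325) (nat_lit 294)))) (XT.nd (nat_lit 156) (nat_lit 228) (nat_lit 0) (XT.nd (nat_lit 78) (nat_lit 0) (nat_lit 0) (XT.lf (nat_lit 0) (nat_lit 11435194651) (nat_lit 152) (nat_lit 9305542356) (nat_lit 0) (nat_lit 1451547252) (nat_lit 16) (nat_lit 5) (nat_lit 18) (nat_lit 4) (nat_lit 16) (nat_lit 4) (nat_lit 522) (nat_lit 325) (nat_lit 293)) (XT.lf (nat_lit 0) (nat_lit 15714761858) (nat_lit 152) (nat_lit 1321269403) (nat_lit 0) (nat_lit 5509804330) (nat_lit 16) (nat_lit 5) (nat_lit 18) (nat_lit 4) (nat_lit 16) (nat_lit 4) (nat_lit 523) (nat_lit 325) (nat_lit 292))) (XT.nd (nat_lit 78) (nat_lit 76) (nat_lit 0) (XT.lf (nat_lit 0) (nat_lit 6830179692)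 (nat_lit 152) (nat_lit 13249113385) (nat_lit 152) (nat_lit 2827185143) (nat_lit 14) (nat_lit 4) (nat_lit 16) (nat_lit 5) (nat_lit 16) (nat_lit 4) (nat_lit 524) (nat_lit 325) (nat_lit 291)) (XT.lf (nat_lit 0) (nat_lit 1204299437) (nat_lit 228) (nat_lit 8201959765) (nat_lit 76) (nat_lit 13868638706) (nat_lit 13) (nat_lit 5) (nat_lit 16) (nat_lit 5) (nat_lit 14) (nat_lit 4) (nat_lit 525) (nat_lit 325) (nat_lit 290)))))) (XT.nd (nat_lit 546) (nat_lit 76) (nat_lit 0) (XT.nd (nat_lit 234) (nat_lit 152) (nat_lit 0) (XT.nd (nat_lit 78) (nat_lit 76) (nat_lit 0) (XT.lf (nat_lit 0) (nat_lit 5234549949) (nat_lit 228) (nat_lit 269399207) (nat_lit 76) (nat_lit 18147250513) (nat_lit 13) (nat_lit 5) (nat_lit 16) (nat_lit 5) (nat_lit 14) (nat_lit 4) (nat_lit 526) (nat_lit 325) (nat_lit 289)) (XT.nd (nat_lit 78) (nat_lit 0) (nat_lit 0) (XT.lf (nat_lit 0) (nat_lit 7845748313) (nat_lit 76) (nat_lit 1507417413) (nat_lit 152) (nat_lit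 14681713673) (nat_lit 12) (nat_lit 5) (nat_lit 13) (nat_lit 5) (nat_lit 14) (nat_lit 4) (nat_lit 527) (nat_lit 325) (nat_lit 288)) (XT.lf (nat_lit 0) (nat_lit 13529580208) (nat_lit 152) (nat_lit 8395113775) (nat_lit 0) (nat_lit 2502037210) (nat_lit 12) (nat_lit 5) (nat_lit 14) (nat_lit 4) (nat_lit 12) (nat_lit 4) (nat_lit 528) (nat_lit 325) (nat_lit 287)))) (XT.nd (nat_lit 156) (nat_lit 76) (nat_lit 0) (XT.nd (nat_lit 78) (nat_lit 76) (nat_lit 0) (XT.lf (nat_lit 0) (nat_lit 17757277111) (nat_lit 152) (nat_lit 532724359) (nat_lit 0) (nat_lit 6537070328) (nat_lit 12) (nat_lit 5) (nat_lit 14) (nat_lit 4) (nat_lit 12) (nat_lit 4) (nat_lit 529) (nat_lit 325) (nat_lit 286)) (XT.lf (nat_lit 0) (nat_lit 7509394665) (nat_lit 76) (nat_lit 14567488510) (nat_lit 76) (nat_lit 3158395663) (nat_lit 11) (nat_lit 4) (nat_lit 12) (nat_lit 5) (nat_lit 12) (nat_lit 4) (nat_lit 530) (nat_lit 325) (nat_lit 285))) (XT.nd (nat_lit 78)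 (nat_lit 0) (nat_lit 0) (XT.lf (nat_lit 0) (nat_lit 782570374) (nat_lit 152) (nat_lit 10013483104) (nat_lit 76) (nat_lit 14856250249) (nat_lit 10) (nat_lit 5) (nat_lit 12) (nat_lit 5) (nat_lit 11) (nat_lit 4) (nat_lit 531) (nat_lit 325) (nat_lit 284)) (XT.lf (nat_lit 0) (nat_lit 4719557530) (nat_lit 152) (nat_lit 2242320437) (nat_lit 76) (nat_lit 19116190092) (nat_lit 10) (nat_lit 5) (nat_lit 12) (nat_lit 5) (nat_lit 11) (nat_lit 4) (nat_lit 532) (nat_lit 325) (nat_lit 283))))) (XT.nd (nat_lit 56082) (nat_lit 0) (nat_lit 2736) (XT.nd (nat_lit 55926) (nat_lit 0) (nat_lit 3192) (XT.nd (nat_lit 55848) (nat_lit 0) (nat_lit 3648) (XT.lf (nat_lit 0) (nat_lit 5685727076) (nat_lit 76) (nat_lit 3046721083) (nat_lit 152) (nat_lit 17779962457) (nat_lit 9) (nat_lit 5) (nat_lit 10) (nat_lit 5) (nat_lit 11) (nat_lit 4) (nat_lit 533) (nat_lit 325) (nat_lit 282)) (XT.lf (nat_lit 0) (nat_lit 6278023536) (nat_lit 228) (nat_lit 283812057)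 (nat_lit 228) (nat_lit 283812057) (nat_lit 57) (nat_lit 4) (nat_lit 60) (nat_lit 5) (nat_lit 60) (nat_lit 4) (nat_lit 488) (nat_lit 326) (nat_lit 326))) (XT.nd (nat_lit 78) (nat_lit 228) (nat_lit 0) (XT.lf (nat_lit 0) (nat_lit 3923430506) (nat_lit 228) (nat_lit 6515370413) (nat_lit 0) (nat_lit 3424995734) (nat_lit 54) (nat_lit 5) (nat_lit 57) (nat_lit 4) (nat_lit 54) (nat_lit 4) (nat_lit 489) (nat_lit 326) (nat_lit 325)) (XT.lf (nat_lit 0) (nat_lit 1882434185) (nat_lit 228) (nat_lit 6572593044) (nat_lit 228) (nat_lit 5585496730) (nat_lit 51) (nat_lit 4) (nat_lit 54) (nat_lit 5) (nat_lit 54) (nat_lit 4) (nat_lit 490) (nat_lit 326) (nat_lit 324)))) (XT.nd (nat_lit 156) (nat_lit 228) (nat_lit 0) (XT.nd (nat_lit 78) (nat_lit 228) (nat_lit 0) (XT.lf (nat_lit 0) (nat_lit 10424998193) (nat_lit 228) (nat_lit 2631201033) (nat_lit 228) (nat_lit 1165024776) (nat_lit 51) (nat_lit 4) (nat_lit 54) (nat_lit 5) (nat_lit 54) (nat_lit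 4) (nat_lit 491) (nat_lit 326) (nat_lit 323)) (XT.lf (nat_lit 0) (nat_lit 3275388123) (nat_lit 228) (nat_lit 9752740635) (nat_lit 0) (nat_lit 1377483735) (nat_lit 48) (nat_lit 5) (nat_lit 51) (nat_lit 4) (nat_lit 48) (nat_lit 4) (nat_lit 492) (nat_lit 326) (nat_lit 322))) (XT.nd (nat_lit 78) (nat_lit 228) (nat_lit 0) (XT.lf (nat_lit 0) (nat_lit 7768391568) (nat_lit 228) (nat_lit 1406532157) (nat_lit 0) (nat_lit 5419039449) (nat_lit 48) (nat_lit 5) (nat_lit 51) (nat_lit 4) (nat_lit 48) (nat_lit 4) (nat_lit 493) (nat_lit 326) (nat_lit 321)) (XT.lf (nat_lit 0) (nat_lit 7091316199) (nat_lit 228) (nat_lit 5243528286) (nat_lit 228) (nat_lit 2451580354) (nat_lit 45) (nat_lit 4) (nat_lit 48) (nat_lit 5) (nat_lit 48) (nat_lit 4) (nat_lit 494) (nat_lit 326) (nat_lit 320))))))))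
noncomputable def xc9 : XT := (XT.nd (nat_lit 2184) (nat_lit 532) (nat_lit 0) (XT.nd (nat_lit 1092) (nat_lit 912) (nat_lit 0) (XT.nd (nat_lit 546) (nat_lit 532) (nat_lit 0) (XT.nd (nat_lit 234) (nat_lit 380) (nat_lit 0) (XT.nd (nat_lit 78) (nat_lit 152) (nat_lit 0) (XT.lf (nat_lit 0) (nat_lit 683067453) (nat_lit 152) (nat_lit 1252047818) (nat_lit 228) (nat_lit 13048342928) (nat_lit 42) (nat_lit 5) (nat_lit 44) (nat_lit 5) (nat_lit 45) (nat_lit 4) (nat_lit 495) (nat_lit 326) (nat_lit 319)) (XT.nd (nat_lit 78) (nat_lit 152) (nat_lit 0) (XT.lf (nat_lit 0) (nat_lit 6384907587) (nat_lit 228) (nat_lit 5993825071) (nat_lit 0) (nat_lit 2805226532) (nat_lit 42) (nat_lit 5) (nat_lit 45) (nat_lit 4) (nat_lit 42) (nat_lit 4) (nat_lit 496) (nat_lit 326) (nat_lit 318)) (XT.lf (nat_lit 0) (nat_lit 2395468014) (nat_lit 152) (nat_lit 8491164590) (nat_lit 152) (nat_lit 4502593417) (nat_lit 40) (nat_lit 4) (nat_lit 42) (nat_lit 5)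 (nat_lit 42) (nat_lit 4) (nat_lit 497) (nat_lit 326) (nat_lit 317)))) (XT.nd (nat_lit 156) (nat_lit 152) (nat_lit 0) (XT.nd (nat_lit 78) (nat_lit 228) (nat_lit 0) (XT.lf (nat_lit 0) (nat_lit 10927966498) (nat_lit 152) (nat_lit 4530246690) (nat_lit 152) (nat_lit 140802852) (nat_lit 40) (nat_lit 4) (nat_lit 42) (nat_lit 5) (nat_lit 42) (nat_lit 4) (nat_lit 498) (nat_lit 326) (nat_lit 316)) (XT.lf (nat_lit 0) (nat_lit 3734561348) (nat_lit 152) (nat_lit 481783999) (nat_lit 228) (nat_lit 11596818296) (nat_lit 37) (nat_lit 5) (nat_lit 39) (nat_lit 5) (nat_lit 40) (nat_lit 4) (nat_lit 499) (nat_lit 326) (nat_lit 315))) (XT.nd (nat_lit 78) (nat_lit 152) (nat_lit 0) (XT.lf (nat_lit 0) (nat_lit 8654570517) (nat_lit 228) (nat_lit 3788965482) (nat_lit 0) (nat_lit 3588136648) (nat_lit 37) (nat_lit 5) (nat_lit 40) (nat_lit 4) (nat_lit 37) (nat_lit 4) (nat_lit 500) (nat_lit 326) (nat_lit 314)) (XT.lf (nat_lit 0) (nat_lit 4621158270)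 (nat_lit 152) (nat_lit 8535343085) (nat_lit 152) (nat_lit 3098564838) (nat_lit 35) (nat_lit 4) (nat_lit 37) (nat_lit 5) (nat_lit 37) (nat_lit 4) (nat_lit 501) (nat_lit 326) (nat_lit 313))))) (XT.nd (nat_lit 234) (nat_lit 304) (nat_lit 0) (XT.nd (nat_lit 78) (nat_lit 152) (nat_lit 0) (XT.lf (nat_lit 0) (nat_lit 1216370926) (nat_lit 228) (nat_lit 3342791698) (nat_lit 76) (nat_lit 11924264814) (nat_lit 34) (nat_lit 5) (nat_lit 37) (nat_lit 5) (nat_lit 35) (nat_lit 4) (nat_lit 502) (nat_lit 326) (nat_lit 312)) (XT.nd (nat_lit 78) (nat_lit 0) (nat_lit 0) (XT.lf (nat_lit 0) (nat_lit 5059162302) (nat_lit 152) (nat_lit 492811324) (nat_lit 228) (nat_lit 11164467917) (nat_lit 32) (nat_lit 5) (nat_lit 34) (nat_lit 5) (nat_lit 35) (nat_lit 4) (nat_lit 503) (nat_lit 326) (nat_lit 311)) (XT.lf (nat_lit 0) (nat_lit 9963755342) (nat_lit 228) (nat_lit 3404091034) (nat_lit 0) (nat_lit 3586492397) (nat_lit 32) (nat_lit 5) (nat_lit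 35) (nat_lit 4) (nat_lit 32) (nat_lit 4) (nat_lit 504) (nat_lit 326) (nat_lit 310)))) (XT.nd (nat_lit 156) (nat_lit 76) (nat_lit 0) (XT.nd (nat_lit 78) (nat_lit 76) (nat_lit 0) (XT.lf (nat_lit 0) (nat_lit 4977140865) (nat_lit 152) (nat_lit 9466481644) (nat_lit 152) (nat_lit 2753786386) (nat_lit 30) (nat_lit 4) (nat_lit 32) (nat_lit 5) (nat_lit 32) (nat_lit 4) (nat_lit 505) (nat_lit 326) (nat_lit 309)) (XT.lf (nat_lit 0) (nat_lit 1514527464) (nat_lit 228) (nat_lit 3982204989) (nat_lit 76) (nat_lit 11949069025) (nat_lit 29) (nat_lit 5) (nat_lit 32) (nat_lit 5) (nat_lit 30) (nat_lit 4) (nat_lit 506) (nat_lit 326) (nat_lit 308))) (XT.nd (nat_lit 78) (nat_lit 0) (nat_lit 0) (XT.lf (nat_lit 0) (nat_lit 4362407785) (nat_lit 76) (nat_lit 1442723561) (nat_lit 152) (nat_lit 11894201831) (nat_lit 28) (nat_lit 5) (nat_lit 29) (nat_lit 5) (nat_lit 30) (nat_lit 4) (nat_lit 507) (nat_lit 326) (nat_lit 307)) (XT.lf (nat_lit 0)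 (nat_lit 10171533914) (nat_lit 152) (nat_lit 5144532803) (nat_lit 0) (nat_lit 2642080094) (nat_lit 28) (nat_lit 5) (nat_lit 30) (nat_lit 4) (nat_lit 28) (nat_lit 4) (nat_lit 508) (nat_lit 326) (nat_lit 306)))))) (XT.nd (nat_lit 546) (nat_lit 380) (nat_lit 0) (XT.nd (nat_lit 234) (nat_lit 228) (nat_lit 0) (XT.nd (nat_lit 78) (nat_lit 152) (nat_lit 0) (XT.lf (nat_lit 0) (nat_lit 3147981873) (nat_lit 152) (nat_lit 11453948771) (nat_lit 152) (nat_lit 3620683570) (nat_lit 26) (nat_lit 4) (nat_lit 28) (nat_lit 5) (nat_lit 28) (nat_lit 4) (nat_lit 509) (nat_lit 326) (nat_lit 305)) (XT.nd (nat_lit 78) (nat_lit 76) (nat_lit 0) (XT.lf (nat_lit 0) (nat_lit 601813776) (nat_lit 228) (nat_lit 6915455666) (nat_lit 76) (nat_lit 10975400434) (nat_lit 25) (nat_lit 5) (nat_lit 28) (nat_lit 5) (nat_lit 26) (nat_lit 4) (nat_lit 510) (nat_lit 326) (nat_lit 304)) (XT.lf (nat_lit 0) (nat_lit 1306385665) (nat_lit 76) (nat_lit 3510207985)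 (nat_lit 152) (nat_lit 13951938271) (nat_lit 24) (nat_lit 5) (nat_lit 25) (nat_lit 5) (nat_lit 26) (nat_lit 4) (nat_lit 511) (nat_lit 326) (nat_lit 303)))) (XT.nd (nat_lit 156) (nat_lit 228) (nat_lit 0) (XT.nd (nat_lit 78) (nat_lit 0) (nat_lit 0) (XT.lf (nat_lit 0) (nat_lit 9114067013) (nat_lit 152) (nat_lit 9360467999) (nat_lit 0) (nat_lit 575418229) (nat_lit 24) (nat_lit 5) (nat_lit 26) (nat_lit 4) (nat_lit 24) (nat_lit 4) (nat_lit 512) (nat_lit 326) (nat_lit 302)) (XT.lf (nat_lit 0) (nat_lit 13469695061) (nat_lit 152) (nat_lit 1211998672) (nat_lit 0) (nat_lit 4655874949) (nat_lit 24) (nat_lit 5) (nat_lit 26) (nat_lit 4) (nat_lit 24) (nat_lit 4) (nat_lit 513) (nat_lit 326) (nat_lit 301))) (XT.nd (nat_lit 78) (nat_lit 76) (nat_lit 0) (XT.lf (nat_lit 0) (nat_lit 7102397014) (nat_lit 152) (nat_lit 10806111742) (nat_lit 152) (nat_lit 1722515818) (nat_lit 22) (nat_lit 4) (nat_lit 24) (nat_lit 5) (nat_lit 24) (nat_lit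 4) (nat_lit 514) (nat_lit 326) (nat_lit 300)) (XT.lf (nat_lit 0) (nat_lit 2431093823) (nat_lit 228) (nat_lit 4437272490) (nat_lit 76) (nat_lit 13062502964) (nat_lit 21) (nat_lit 5) (nat_lit 24) (nat_lit 5) (nat_lit 22) (nat_lit 4) (nat_lit 515) (nat_lit 326) (nat_lit 299))))) (XT.nd (nat_lit 234) (nat_lit 304) (nat_lit 0) (XT.nd (nat_lit 78) (nat_lit 0) (nat_lit 0) (XT.lf (nat_lit 0) (nat_lit 3765383726) (nat_lit 76) (nat_lit 2854797376) (nat_lit 152) (nat_lit 13616801708) (nat_lit 20) (nat_lit 5) (nat_lit 21) (nat_lit 5) (nat_lit 22) (nat_lit 4) (nat_lit 516) (nat_lit 326) (nat_lit 298)) (XT.nd (nat_lit 78) (nat_lit 0) (nat_lit 0) (XT.lf (nat_lit 0) (nat_lit 10882204144) (nat_lit 152) (nat_lit 8453269328) (nat_lit 0) (nat_lit 1213970934) (nat_lit 20) (nat_lit 5) (nat_lit 22) (nat_lit 4) (nat_lit 20) (nat_lit 4) (nat_lit 517) (nat_lit 326) (nat_lit 297)) (XT.lf (nat_lit 0) (nat_lit 15200467413) (nat_lit 152) (nat_lit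 380386588) (nat_lit 0) (nat_lit 5287889938) (nat_lit 20) (nat_lit 5) (nat_lit 22) (nat_lit 4) (nat_lit 20) (nat_lit 4) (nat_lit 518) (nat_lit 326) (nat_lit 296)))) (XT.nd (nat_lit 156) (nat_lit 76) (nat_lit 0) (XT.nd (nat_lit 78) (nat_lit 76) (nat_lit 0) (XT.lf (nat_lit 0) (nat_lit 7871992810) (nat_lit 152) (nat_lit 11737246496) (nat_lit 152) (nat_lit 1585115820) (nat_lit 18) (nat_lit 4) (nat_lit 20) (nat_lit 5) (nat_lit 20) (nat_lit 4) (nat_lit 519) (nat_lit 326) (nat_lit 295)) (XT.lf (nat_lit 0) (nat_lit 2501531950) (nat_lit 228) (nat_lit 5333892213) (nat_lit 76) (nat_lit 13691614443) (nat_lit 17) (nat_lit 5) (nat_lit 20) (nat_lit 5) (nat_lit 18) (nat_lit 4) (nat_lit 520) (nat_lit 326) (nat_lit 294))) (XT.nd (nat_lit 78) (nat_lit 0) (nat_lit 0) (XT.lf (nat_lit 0) (nat_lit 2756397857) (nat_lit 76) (nat_lit 3864213859) (nat_lit 152) (nat_lit 15246124050) (nat_lit 16) (nat_lit 5) (nat_lit 17) (nat_lit 5) (nat_lit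 18) (nat_lit 4) (nat_lit 521) (nat_lit 326) (nat_lit 293)) (XT.lf (nat_lit 0) (nat_lit 10813440855) (nat_lit 152) (nat_lit 11216892490) (nat_lit 0) (nat_lit 183074048) (nat_lit 16) (nat_lit 5) (nat_lit 18) (nat_lit 4) (nat_lit 16) (nat_lit 4) (nat_lit 522) (nat_lit 326) (nat_lit 292))))))) (XT.nd (nat_lit 56706) (nat_lit 0) (nat_lit 1748) (XT.nd (nat_lit 546) (nat_lit 228) (nat_lit 0) (XT.nd (nat_lit 234) (nat_lit 76) (nat_lit 0) (XT.nd (nat_lit 78) (nat_lit 228) (nat_lit 0) (XT.lf (nat_lit 0) (nat_lit 15070744009) (nat_lit 152) (nat_lit 3273257335) (nat_lit 0) (nat_lit 4223406487) (nat_lit 16) (nat_lit 5) (nat_lit 18) (nat_lit 4) (nat_lit 16) (nat_lit 4) (nat_lit 523) (nat_lit 326) (nat_lit 291)) (XT.nd (nat_lit 78) (nat_lit 76) (nat_lit 0) (XT.lf (nat_lit 0) (nat_lit 4811880423) (nat_lit 152) (nat_lit 14588463164) (nat_lit 152) (nat_lit 3528409256) (nat_lit 14) (nat_lit 4) (nat_lit 16) (nat_lit 5) (nat_lit 16)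 (nat_lit 4) (nat_lit 524) (nat_lit 326) (nat_lit 290)) (XT.lf (nat_lit 0) (nat_lit 490468470) (nat_lit 228) (nat_lit 10277853073) (nat_lit 76) (nat_lit 12529381718) (nat_lit 13) (nat_lit 5) (nat_lit 16) (nat_lit 5) (nat_lit 14) (nat_lit 4) (nat_lit 525) (nat_lit 326) (nat_lit 289)))) (XT.nd (nat_lit 156) (nat_lit 0) (nat_lit 0) (XT.nd (nat_lit 78) (nat_lit 76) (nat_lit 0) (XT.lf (nat_lit 0) (nat_lit 4499342969) (nat_lit 228) (nat_lit 2384382935) (nat_lit 76) (nat_lit 16790710173) (nat_lit 13) (nat_lit 5) (nat_lit 16) (nat_lit 5) (nat_lit 14) (nat_lit 4) (nat_lit 526) (nat_lit 326) (nat_lit 288)) (XT.lf (nat_lit 0) (nat_lit 5663824318) (nat_lit 76) (nat_lit 2919011055) (nat_lit 152) (nat_lit 15475986365) (nat_lit 12) (nat_lit 5) (nat_lit 13) (nat_lit 5) (nat_lit 14) (nat_lit 4) (nat_lit 527) (nat_lit 326) (nat_lit 287))) (XT.nd (nat_lit 78) (nat_lit 0) (nat_lit 0) (XT.lf (nat_lit 0) (nat_lit 12729179524) (nat_lit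 152) (nat_lit 10630193990) (nat_lit 0) (nat_lit 1091904820) (nat_lit 12) (nat_lit 5) (nat_lit 14) (nat_lit 4) (nat_lit 12) (nat_lit 4) (nat_lit 528) (nat_lit 326) (nat_lit 286)) (XT.lf (nat_lit 0) (nat_lit 16936381007) (nat_lit 152) (nat_lit 2805430930) (nat_lit 0) (nat_lit 5110220240) (nat_lit 12) (nat_lit 5) (nat_lit 14) (nat_lit 4) (nat_lit 12) (nat_lit 4) (nat_lit 529) (nat_lit 326) (nat_lit 285))))) (XT.nd (nat_lit 234) (nat_lit 76) (nat_lit 0) (XT.nd (nat_lit 78) (nat_lit 76) (nat_lit 0) (XT.lf (nat_lit 0) (nat_lit 5169106204) (nat_lit 76) (nat_lit 16051592612) (nat_lit 76) (nat_lit 4040249429) (nat_lit 11) (nat_lit 4) (nat_lit 12) (nat_lit 5) (nat_lit 12) (nat_lit 4) (nat_lit 530) (nat_lit 326) (nat_lit 284)) (XT.nd (nat_lit 78) (nat_lit 76) (nat_lit 0) (XT.lf (nat_lit 0) (nat_lit 13267137726) (nat_lit 76) (nat_lit 12302117450) (nat_lit 76) (nat_lit 109222880) (nat_lit 11) (nat_lit 4) (nat_lit 12) (nat_lit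 5) (nat_lit 12) (nat_lit 4) (nat_lit 531) (nat_lit 326) (nat_lit 283)) (XT.lf (nat_lit 0) (nat_lit 3809517653) (nat_lit 152) (nat_lit 4675660467) (nat_lit 76) (nat_lit 17619475108) (nat_lit 10) (nat_lit 5) (nat_lit 12) (nat_lit 5) (nat_lit 11) (nat_lit 4) (nat_lit 532) (nat_lit 326) (nat_lit 282)))) (XT.nd (nat_lit 55770) (nat_lit 0) (nat_lit 3648) (XT.nd (nat_lit 55692) (nat_lit 0) (nat_lit 3876) (XT.lf (nat_lit 0) (nat_lit 3184095392) (nat_lit 76) (nat_lit 4602777402) (nat_lit 152) (nat_lit 18752836716) (nat_lit 9) (nat_lit 5) (nat_lit 10) (nat_lit 5) (nat_lit 11) (nat_lit 4) (nat_lit 533) (nat_lit 326) (nat_lit 281)) (XT.lf (nat_lit 0) (nat_lit 2245612573) (nat_lit 228) (nat_lit 2186424495) (nat_lit 0) (nat_lit 2245612573) (nat_lit 60) (nat_lit 5) (nat_lit 63) (nat_lit 4) (nat_lit 60) (nat_lit 4) (nat_lit 486) (nat_lit 327) (nat_lit 327))) (XT.nd (nat_lit 78) (nat_lit 0) (nat_lit 0) (XT.lf (nat_lit 0) (nat_lit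 4006216215) (nat_lit 228) (nat_lit 5016974781) (nat_lit 228) (nat_lit 4498403244) (nat_lit 57) (nat_lit 4) (nat_lit 60) (nat_lit 5) (nat_lit 60) (nat_lit 4) (nat_lit 487) (nat_lit 327) (nat_lit 326)) (XT.lf (nat_lit 0) (nat_lit 12501056120) (nat_lit 228) (nat_lit 1108934100) (nat_lit 228) (nat_lit 81959094) (nat_lit 57) (nat_lit 4) (nat_lit 60) (nat_lit 5) (nat_lit 60) (nat_lit 4) (nat_lit 488) (nat_lit 327) (nat_lit 325)))))) (XT.nd (nat_lit 546) (nat_lit 760) (nat_lit 0) (XT.nd (nat_lit 234) (nat_lit 684) (nat_lit 0) (XT.nd (nat_lit 78) (nat_lit 228) (nat_lit 0) (XT.lf (nat_lit 0) (nat_lit 4366498689) (nat_lit 228) (nat_lit 6627623161) (nat_lit 0) (nat_lit 2870998907) (nat_lit 54) (nat_lit 5) (nat_lit 57) (nat_lit 4) (nat_lit 54) (nat_lit 4) (nat_lit 489) (nat_lit 327) (nat_lit 324)) (XT.nd (nat_lit 78) (nat_lit 0) (nat_lit 0) (XT.lf (nat_lit 0) (nat_lit 1713484586) (nat_lit 228) (nat_lit 7151803893) (nat_lit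 228) (nat_lit 5177224168) (nat_lit 51) (nat_lit 4) (nat_lit 54) (nat_lit 5) (nat_lit 54) (nat_lit 4) (nat_lit 490) (nat_lit 327) (nat_lit 323)) (XT.lf (nat_lit 0) (nat_lit 10201925975) (nat_lit 228) (nat_lit 3233094865) (nat_lit 228) (nat_lit 788828921) (nat_lit 51) (nat_lit 4) (nat_lit 54) (nat_lit 5) (nat_lit 54) (nat_lit 4) (nat_lit 491) (nat_lit 327) (nat_lit 322)))) (XT.nd (nat_lit 156) (nat_lit 456) (nat_lit 0) (XT.nd (nat_lit 78) (nat_lit 0) (nat_lit 0) (XT.lf (nat_lit 0) (nat_lit 3609712289) (nat_lit 228) (nat_lit 10037298430) (nat_lit 0) (nat_lit 761925398) (nat_lit 48) (nat_lit 5) (nat_lit 51) (nat_lit 4) (nat_lit 48) (nat_lit 4) (nat_lit 492) (nat_lit 327) (nat_lit 321)) (XT.lf (nat_lit 0) (nat_lit 8071798840) (nat_lit 228) (nat_lit 1744697961) (nat_lit 0) (nat_lit 4781416135) (nat_lit 48) (nat_lit 5) (nat_lit 51) (nat_lit 4) (nat_lit 48) (nat_lit 4) (nat_lit 493) (nat_lit 327) (nat_lit 320))) (XT.nd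 (nat_lit 78) (nat_lit 228) (nat_lit 0) (XT.lf (nat_lit 0) (nat_lit 6695401026) (nat_lit 228) (nat_lit 5909969508) (nat_lit 228) (nat_lit 2185669339) (nat_lit 45) (nat_lit 4) (nat_lit 48) (nat_lit 5) (nat_lit 48) (nat_lit 4) (nat_lit 494) (nat_lit 327) (nat_lit 319)) (XT.lf (nat_lit 0) (nat_lit 222145079) (nat_lit 152) (nat_lit 1942139340) (nat_lit 228) (nat_lit 12824426725) (nat_lit 42) (nat_lit 5) (nat_lit 44) (nat_lit 5) (nat_lit 45) (nat_lit 4) (nat_lit 495) (nat_lit 327) (nat_lit 318))))) (XT.nd (nat_lit 312) (nat_lit 380) (nat_lit 0) (XT.nd (nat_lit 156) (nat_lit 228) (nat_lit 0) (XT.nd (nat_lit 78) (nat_lit 152) (nat_lit 0) (XT.lf (nat_lit 0) (nat_lit 6579443817) (nat_lit 228) (nat_lit 6508257081) (nat_lit 0) (nat_lit 2102211102) (nat_lit 42) (nat_lit 5) (nat_lit 45) (nat_lit 4) (nat_lit 42) (nat_lit 4) (nat_lit 496) (nat_lit 327) (nat_lit 317)) (XT.lf (nat_lit 0) (nat_lit 1821809207) (nat_lit 152) (nat_lit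 9226073892) (nat_lit 152) (nat_lit 4347968512) (nat_lit 40) (nat_lit 4) (nat_lit 42) (nat_lit 5) (nat_lit 42) (nat_lit 4) (nat_lit 497) (nat_lit 327) (nat_lit 316))) (XT.nd (nat_lit 78) (nat_lit 228) (nat_lit 0) (XT.lf (nat_lit 0) (nat_lit 10302944685) (nat_lit 152) (nat_lit 5287203985) (nat_lit 152) (nat_lit 16086188) (nat_lit 40) (nat_lit 4) (nat_lit 42) (nat_lit 5) (nat_lit 42) (nat_lit 4) (nat_lit 498) (nat_lit 327) (nat_lit 315)) (XT.lf (nat_lit 0) (nat_lit 3041676557) (nat_lit 152) (nat_lit 1264313861) (nat_lit 228) (nat_lit 11515051225) (nat_lit 37) (nat_lit 5) (nat_lit 39) (nat_lit 5) (nat_lit 40) (nat_lit 4) (nat_lit 499) (nat_lit 327) (nat_lit 314)))) (XT.nd (nat_lit 156) (nat_lit 228) (nat_lit 0) (XT.nd (nat_lit 78) (nat_lit 152) (nat_lit 0) (XT.lf (nat_lit 0) (nat_lit 8710296725) (nat_lit 228) (nat_lit 4535500291) (nat_lit 0) (nat_lit 2794438535) (nat_lit 37) (nat_lit 5) (nat_lit 40) (nat_lit 4) (nat_lit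 37) (nat_lit 4) (nat_lit 500) (nat_lit 327) (nat_lit 313)) (XT.lf (nat_lit 0) (nat_lit 3814184242) (nat_lit 152) (nat_lit 9364531205) (nat_lit 152) (nat_lit 3085590292) (nat_lit 35) (nat_lit 4) (nat_lit 37) (nat_lit 5) (nat_lit 37) (nat_lit 4) (nat_lit 501) (nat_lit 327) (nat_lit 312))) (XT.nd (nat_lit 78) (nat_lit 152) (nat_lit 0) (XT.lf (nat_lit 0) (nat_lit 1200943518) (nat_lit 228) (nat_lit 4208998460) (nat_lit 76) (nat_lit 11083294109) (nat_lit 34) (nat_lit 5) (nat_lit 37) (nat_lit 5) (nat_lit 35) (nat_lit 4) (nat_lit 502) (nat_lit 327) (nat_lit 311)) (XT.lf (nat_lit 0) (nat_lit 4131863508) (nat_lit 152) (nat_lit 1370983845) (nat_lit 228) (nat_lit 11224082847) (nat_lit 32) (nat_lit 5) (nat_lit 34) (nat_lit 5) (nat_lit 35) (nat_lit 4) (nat_lit 503) (nat_lit 327) (nat_lit 310))))))))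
noncomputable def xc10 : XT := (XT.nd (nat_lit 2184) (nat_lit 152) (nat_lit 0) (XT.nd (nat_lit 1092) (nat_lit 684) (nat_lit 0) (XT.nd (nat_lit 546) (nat_lit 380) (nat_lit 0) (XT.nd (nat_lit 234) (nat_lit 304) (nat_lit 0) (XT.nd (nat_lit 78) (nat_lit 228) (nat_lit 0) (XT.lf (nat_lit 0) (nat_lit 9881338908) (nat_lit 228) (nat_lit 4385202805) (nat_lit 0) (nat_lit 2698957432) (nat_lit 32) (nat_lit 5) (nat_lit 35) (nat_lit 4) (nat_lit 32) (nat_lit 4) (nat_lit 504) (nat_lit 327) (nat_lit 309)) (XT.nd (nat_lit 78) (nat_lit 76) (nat_lit 0) (XT.lf (nat_lit 0) (nat_lit 3934287176) (nat_lit 152) (nat_lit 10393100471) (nat_lit 152) (nat_lit 2881863785) (nat_lit 30) (nat_lit 4) (nat_lit 32) (nat_lit 5) (nat_lit 32) (nat_lit 4) (nat_lit 505) (nat_lit 327) (nat_lit 308)) (XT.lf (nat_lit 0) (nat_lit 1361119348) (nat_lit 228) (nat_lit 5084182669) (nat_lit 76) (nat_lit 11012904410) (nat_lit 29) (nat_lit 5) (nat_lit 32) (nat_lit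 5) (nat_lit 30) (nat_lit 4) (nat_lit 506) (nat_lit 327) (nat_lit 307)))) (XT.nd (nat_lit 156) (nat_lit 228) (nat_lit 0) (XT.nd (nat_lit 78) (nat_lit 0) (nat_lit 0) (XT.lf (nat_lit 0) (nat_lit 3197988919) (nat_lit 76) (nat_lit 2419693275) (nat_lit 152) (nat_lit 12094742215) (nat_lit 28) (nat_lit 5) (nat_lit 29) (nat_lit 5) (nat_lit 30) (nat_lit 4) (nat_lit 507) (nat_lit 327) (nat_lit 306)) (XT.lf (nat_lit 0) (nat_lit 9951342054) (nat_lit 152) (nat_lit 6362956029) (nat_lit 0) (nat_lit 1657600169) (nat_lit 28) (nat_lit 5) (nat_lit 30) (nat_lit 4) (nat_lit 28) (nat_lit 4) (nat_lit 508) (nat_lit 327) (nat_lit 305))) (XT.nd (nat_lit 78) (nat_lit 76) (nat_lit 0) (XT.lf (nat_lit 0) (nat_lit 1866421076) (nat_lit 152) (nat_lit 12481115031) (nat_lit 152) (nat_lit 3889518851) (nat_lit 26) (nat_lit 4) (nat_lit 28) (nat_lit 5) (nat_lit 28) (nat_lit 4) (nat_lit 509) (nat_lit 327) (nat_lit 304)) (XT.lf (nat_lit 0) (nat_lit 310655948)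 (nat_lit 228) (nat_lit 8256085177) (nat_lit 76) (nat_lit 9940926418) (nat_lit 25) (nat_lit 5) (nat_lit 28) (nat_lit 5) (nat_lit 26) (nat_lit 4) (nat_lit 510) (nat_lit 327) (nat_lit 303))))) (XT.nd (nat_lit 234) (nat_lit 304) (nat_lit 0) (XT.nd (nat_lit 78) (nat_lit 76) (nat_lit 0) (XT.lf (nat_lit 0) (nat_lit 4491612362) (nat_lit 228) (nat_lit 96841472) (nat_lit 76) (nat_lit 14195757171) (nat_lit 25) (nat_lit 5) (nat_lit 28) (nat_lit 5) (nat_lit 26) (nat_lit 4) (nat_lit 511) (nat_lit 327) (nat_lit 302)) (XT.nd (nat_lit 78) (nat_lit 0) (nat_lit 0) (XT.lf (nat_lit 0) (nat_lit 8243667454) (nat_lit 76) (nat_lit 515857621) (nat_lit 152) (nat_lit 10306703314) (nat_lit 24) (nat_lit 5) (nat_lit 25) (nat_lit 5) (nat_lit 26) (nat_lit 4) (nat_lit 512) (nat_lit 327) (nat_lit 301)) (XT.lf (nat_lit 0) (nat_lit 13087031366) (nat_lit 152) (nat_lit 2715391942) (nat_lit 0) (nat_lit 3551987712) (nat_lit 24) (nat_lit 5) (nat_lit 26)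 (nat_lit 4) (nat_lit 24) (nat_lit 4) (nat_lit 513) (nat_lit 327) (nat_lit 300)))) (XT.nd (nat_lit 156) (nat_lit 76) (nat_lit 0) (XT.nd (nat_lit 78) (nat_lit 76) (nat_lit 0) (XT.lf (nat_lit 0) (nat_lit 5534668563) (nat_lit 152) (nat_lit 11956711032) (nat_lit 152) (nat_lit 2157181288) (nat_lit 22) (nat_lit 4) (nat_lit 24) (nat_lit 5) (nat_lit 24) (nat_lit 4) (nat_lit 514) (nat_lit 327) (nat_lit 299)) (XT.lf (nat_lit 0) (nat_lit 1977872140) (nat_lit 228) (nat_lit 6063528109) (nat_lit 76) (nat_lit 11907551400) (nat_lit 21) (nat_lit 5) (nat_lit 24) (nat_lit 5) (nat_lit 22) (nat_lit 4) (nat_lit 515) (nat_lit 327) (nat_lit 298))) (XT.nd (nat_lit 78) (nat_lit 0) (nat_lit 0) (XT.lf (nat_lit 0) (nat_lit 2073991273) (nat_lit 76) (nat_lit 4058205200) (nat_lit 152) (nat_lit 14123568359) (nat_lit 20) (nat_lit 5) (nat_lit 21) (nat_lit 5) (nat_lit 22) (nat_lit 4) (nat_lit 516) (nat_lit 327) (nat_lit 297)) (XT.lf (nat_lit 0) (nat_lit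 10362690265) (nat_lit 152) (nat_lit 10198654080) (nat_lit 0) (nat_lit 7516976) (nat_lit 20) (nat_lit 5) (nat_lit 22) (nat_lit 4) (nat_lit 20) (nat_lit 4) (nat_lit 517) (nat_lit 327) (nat_lit 296)))))) (XT.nd (nat_lit 546) (nat_lit 228) (nat_lit 0) (XT.nd (nat_lit 234) (nat_lit 228) (nat_lit 0) (XT.nd (nat_lit 78) (nat_lit 228) (nat_lit 0) (XT.lf (nat_lit 0) (nat_lit 14657702623) (nat_lit 152) (nat_lit 2167951339) (nat_lit 0) (nat_lit 4062976133) (nat_lit 20) (nat_lit 5) (nat_lit 22) (nat_lit 4) (nat_lit 20) (nat_lit 4) (nat_lit 518) (nat_lit 327) (nat_lit 295)) (XT.nd (nat_lit 78) (nat_lit 76) (nat_lit 0) (XT.lf (nat_lit 0) (nat_lit 6018769766) (nat_lit 152) (nat_lit 13012877385) (nat_lit 152) (nat_lit 2183294817) (nat_lit 18) (nat_lit 4) (nat_lit 20) (nat_lit 5) (nat_lit 20) (nat_lit 4) (nat_lit 519) (nat_lit 327) (nat_lit 294)) (XT.lf (nat_lit 0) (nat_lit 1888429633) (nat_lit 228) (nat_lit 7245205766) (nat_lit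 76) (nat_lit 12414527075) (nat_lit 17) (nat_lit 5) (nat_lit 20) (nat_lit 5) (nat_lit 18) (nat_lit 4) (nat_lit 520) (nat_lit 327) (nat_lit 293)))) (XT.nd (nat_lit 156) (nat_lit 152) (nat_lit 0) (XT.nd (nat_lit 78) (nat_lit 0) (nat_lit 0) (XT.lf (nat_lit 0) (nat_lit 778568798) (nat_lit 76) (nat_lit 5193777120) (nat_lit 152) (nat_lit 15916220887) (nat_lit 16) (nat_lit 5) (nat_lit 17) (nat_lit 5) (nat_lit 18) (nat_lit 4) (nat_lit 521) (nat_lit 327) (nat_lit 292)) (XT.lf (nat_lit 0) (nat_lit 8979605391) (nat_lit 76) (nat_lit 1162219102) (nat_lit 152) (nat_lit 12093884775) (nat_lit 16) (nat_lit 5) (nat_lit 17) (nat_lit 5) (nat_lit 18) (nat_lit 4) (nat_lit 522) (nat_lit 327) (nat_lit 291))) (XT.nd (nat_lit 78) (nat_lit 152) (nat_lit 0) (XT.lf (nat_lit 0) (nat_lit 14369754246) (nat_lit 152) (nat_lit 5344763803) (nat_lit 0) (nat_lit 2875782873) (nat_lit 16) (nat_lit 5) (nat_lit 18) (nat_lit 4) (nat_lit 16) (nat_lit 4) (nat_lit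 523) (nat_lit 327) (nat_lit 290)) (XT.lf (nat_lit 0) (nat_lit 2673265858) (nat_lit 152) (nat_lit 15990803149) (nat_lit 152) (nat_lit 4288286299) (nat_lit 14) (nat_lit 4) (nat_lit 16) (nat_lit 5) (nat_lit 16) (nat_lit 4) (nat_lit 524) (nat_lit 327) (nat_lit 289))))) (XT.nd (nat_lit 234) (nat_lit 76) (nat_lit 0) (XT.nd (nat_lit 78) (nat_lit 152) (nat_lit 0) (XT.lf (nat_lit 0) (nat_lit 10845724115) (nat_lit 152) (nat_lit 12191523793) (nat_lit 152) (nat_lit 284550593) (nat_lit 14) (nat_lit 4) (nat_lit 16) (nat_lit 5) (nat_lit 16) (nat_lit 4) (nat_lit 525) (nat_lit 327) (nat_lit 288)) (XT.nd (nat_lit 78) (nat_lit 76) (nat_lit 0) (XT.lf (nat_lit 0) (nat_lit 3707098961) (nat_lit 228) (nat_lit 4619080698) (nat_lit 76) (nat_lit 15372811208) (nat_lit 13) (nat_lit 5) (nat_lit 16) (nat_lit 5) (nat_lit 14) (nat_lit 4) (nat_lit 526) (nat_lit 327) (nat_lit 287)) (XT.lf (nat_lit 0) (nat_lit 3361356789) (nat_lit 76) (nat_lit 4393739473)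 (nat_lit 152) (nat_lit 16328993564) (nat_lit 12) (nat_lit 5) (nat_lit 13) (nat_lit 5) (nat_lit 14) (nat_lit 4) (nat_lit 527) (nat_lit 327) (nat_lit 286)))) (XT.nd (nat_lit 156) (nat_lit 76) (nat_lit 0) (XT.nd (nat_lit 78) (nat_lit 0) (nat_lit 0) (XT.lf (nat_lit 0) (nat_lit 11488618767) (nat_lit 76) (nat_lit 385252625) (nat_lit 152) (nat_lit 12603229739) (nat_lit 12) (nat_lit 5) (nat_lit 13) (nat_lit 5) (nat_lit 14) (nat_lit 4) (nat_lit 528) (nat_lit 327) (nat_lit 285)) (XT.lf (nat_lit 0) (nat_lit 16058478012) (nat_lit 152) (nat_lit 5198106575) (nat_lit 0) (nat_lit 3621725550) (nat_lit 12) (nat_lit 5) (nat_lit 14) (nat_lit 4) (nat_lit 12) (nat_lit 4) (nat_lit 529) (nat_lit 327) (nat_lit 284))) (XT.nd (nat_lit 78) (nat_lit 0) (nat_lit 0) (XT.lf (nat_lit 0) (nat_lit 2707987263) (nat_lit 76) (nat_lit 17599129784) (nat_lit 76) (nat_lit 4980825934) (nat_lit 11) (nat_lit 4) (nat_lit 12) (nat_lit 5) (nat_lit 12) (nat_lit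 4) (nat_lit 530) (nat_lit 327) (nat_lit 283)) (XT.lf (nat_lit 0) (nat_lit 10770091434) (nat_lit 76) (nat_lit 13866035416) (nat_lit 76) (nat_lit 1069740010) (nat_lit 11) (nat_lit 4) (nat_lit 12) (nat_lit 5) (nat_lit 12) (nat_lit 4) (nat_lit 531) (nat_lit 327) (nat_lit 282))))))) (XT.nd (nat_lit 56550) (nat_lit 0) (nat_lit 1292) (XT.nd (nat_lit 56004) (nat_lit 0) (nat_lit 2660) (XT.nd (nat_lit 55692) (nat_lit 0) (nat_lit 3572) (XT.nd (nat_lit 78) (nat_lit 76) (nat_lit 0) (XT.lf (nat_lit 0) (nat_lit 2842304643) (nat_lit 152) (nat_lit 7229341552) (nat_lit 76) (nat_lit 16060909442) (nat_lit 10) (nat_lit 5) (nat_lit 12) (nat_lit 5) (nat_lit 11) (nat_lit 4) (nat_lit 532) (nat_lit 327) (nat_lit 281)) (XT.nd (nat_lit 55536) (nat_lit 0) (nat_lit 4104) (XT.lf (nat_lit 0) (nat_lit 561228360) (nat_lit 76) (nat_lit 6222487094) (nat_lit 152) (nat_lit 19784618307) (nat_lit 9) (nat_lit 5) (nat_lit 10) (nat_lit 5) (nat_lit 11) (nat_lit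 4) (nat_lit 533) (nat_lit 327) (nat_lit 280)) (XT.lf (nat_lit 0) (nat_lit 2653356227) (nat_lit 228) (nat_lit 1931481501) (nat_lit 228) (nat_lit 1931481501) (nat_lit 63) (nat_lit 4) (nat_lit 66) (nat_lit 5) (nat_lit 66) (nat_lit 4) (nat_lit 484) (nat_lit 328) (nat_lit 328)))) (XT.nd (nat_lit 156) (nat_lit 304) (nat_lit 0) (XT.nd (nat_lit 78) (nat_lit 0) (nat_lit 0) (XT.lf (nat_lit 0) (nat_lit 538136489) (nat_lit 228) (nat_lit 12645731663) (nat_lit 0) (nat_lit 9193521) (nat_lit 60) (nat_lit 5) (nat_lit 63) (nat_lit 4) (nat_lit 60) (nat_lit 4) (nat_lit 485) (nat_lit 328) (nat_lit 327)) (XT.lf (nat_lit 0) (nat_lit 4987634738) (nat_lit 228) (nat_lit 4428204122) (nat_lit 0) (nat_lit 3940120232) (nat_lit 60) (nat_lit 5) (nat_lit 63) (nat_lit 4) (nat_lit 60) (nat_lit 4) (nat_lit 486) (nat_lit 328) (nat_lit 326))) (XT.nd (nat_lit 78) (nat_lit 76) (nat_lit 0) (XT.lf (nat_lit 0) (nat_lit 3895134490) (nat_lit 228) (nat_lit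 5591849413) (nat_lit 228) (nat_lit 4035931439) (nat_lit 57) (nat_lit 4) (nat_lit 60) (nat_lit 5) (nat_lit 60) (nat_lit 4) (nat_lit 487) (nat_lit 328) (nat_lit 325)) (XT.lf (nat_lit 0) (nat_lit 343684038) (nat_lit 304) (nat_lit 1360110988) (nat_lit 76) (nat_lit 11990071357) (nat_lit 56) (nat_lit 5) (nat_lit 60) (nat_lit 5) (nat_lit 57) (nat_lit 4) (nat_lit 488) (nat_lit 328) (nat_lit 324))))) (XT.nd (nat_lit 234) (nat_lit 532) (nat_lit 0) (XT.nd (nat_lit 78) (nat_lit 228) (nat_lit 0) (XT.lf (nat_lit 0) (nat_lit 4754374035) (nat_lit 228) (nat_lit 6852172679) (nat_lit 0) (nat_lit 2261222772) (nat_lit 54) (nat_lit 5) (nat_lit 57) (nat_lit 4) (nat_lit 54) (nat_lit 4) (nat_lit 489) (nat_lit 328) (nat_lit 323)) (XT.nd (nat_lit 78) (nat_lit 0) (nat_lit 0) (XT.lf (nat_lit 0) (nat_lit 1431828305) (nat_lit 228) (nat_lit 7788418584) (nat_lit 228) (nat_lit 4825581103) (nat_lit 51) (nat_lit 4) (nat_lit 54) (nat_lit 5) (nat_lit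 54) (nat_lit 4) (nat_lit 490) (nat_lit 328) (nat_lit 322)) (XT.lf (nat_lit 0) (nat_lit 9867208303) (nat_lit 228) (nat_lit 3891947775) (nat_lit 228) (nat_lit 468633608) (nat_lit 51) (nat_lit 4) (nat_lit 54) (nat_lit 5) (nat_lit 54) (nat_lit 4) (nat_lit 491) (nat_lit 328) (nat_lit 321)))) (XT.nd (nat_lit 156) (nat_lit 304) (nat_lit 0) (XT.nd (nat_lit 78) (nat_lit 0) (nat_lit 0) (XT.lf (nat_lit 0) (nat_lit 3888270814) (nat_lit 228) (nat_lit 10435835558) (nat_lit 0) (nat_lit 89484640) (nat_lit 48) (nat_lit 5) (nat_lit 51) (nat_lit 4) (nat_lit 48) (nat_lit 4) (nat_lit 492) (nat_lit 328) (nat_lit 320)) (XT.lf (nat_lit 0) (nat_lit 8320046686) (nat_lit 228) (nat_lit 2195791960) (nat_lit 0) (nat_lit 4087343048) (nat_lit 48) (nat_lit 5) (nat_lit 51) (nat_lit 4) (nat_lit 48) (nat_lit 4) (nat_lit 493) (nat_lit 328) (nat_lit 319))) (XT.nd (nat_lit 78) (nat_lit 76) (nat_lit 0) (XT.lf (nat_lit 0) (nat_lit 6186101122) (nat_lit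 228) (nat_lit 6634494192) (nat_lit 228) (nat_lit 1976381275) (nat_lit 45) (nat_lit 4) (nat_lit 48) (nat_lit 5) (nat_lit 48) (nat_lit 4) (nat_lit 494) (nat_lit 328) (nat_lit 318)) (XT.lf (nat_lit 0) (nat_lit 2339716904) (nat_lit 304) (nat_lit 348952691) (nat_lit 76) (nat_lit 12306580512) (nat_lit 44) (nat_lit 5) (nat_lit 48) (nat_lit 5) (nat_lit 45) (nat_lit 4) (nat_lit 495) (nat_lit 328) (nat_lit 317)))))) (XT.nd (nat_lit 546) (nat_lit 608) (nat_lit 0) (XT.nd (nat_lit 234) (nat_lit 380) (nat_lit 0) (XT.nd (nat_lit 78) (nat_lit 228) (nat_lit 0) (XT.lf (nat_lit 0) (nat_lit 6718157225) (nat_lit 228) (nat_lit 7137418112) (nat_lit 0) (nat_lit 1341617072) (nat_lit 42) (nat_lit 5) (nat_lit 45) (nat_lit 4) (nat_lit 42) (nat_lit 4) (nat_lit 496) (nat_lit 328) (nat_lit 316)) (XT.nd (nat_lit 78) (nat_lit 76) (nat_lit 0) (XT.lf (nat_lit 0) (nat_lit 1132923950) (nat_lit 152) (nat_lit 10020218326) (nat_lit 152) (nat_lit 4250665756)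 (nat_lit 40) (nat_lit 4) (nat_lit 42) (nat_lit 5) (nat_lit 42) (nat_lit 4) (nat_lit 497) (nat_lit 328) (nat_lit 315)) (XT.lf (nat_lit 0) (nat_lit 51214152) (nat_lit 228) (nat_lit 6051406272) (nat_lit 76) (nat_lit 9512145713) (nat_lit 39) (nat_lit 5) (nat_lit 42) (nat_lit 5) (nat_lit 40) (nat_lit 4) (nat_lit 498) (nat_lit 328) (nat_lit 314)))) (XT.nd (nat_lit 156) (nat_lit 228) (nat_lit 0) (XT.nd (nat_lit 78) (nat_lit 0) (nat_lit 0) (XT.lf (nat_lit 0) (nat_lit 2233099313) (nat_lit 152) (nat_lit 2106360804) (nat_lit 228) (nat_lit 11490789636) (nat_lit 37) (nat_lit 5) (nat_lit 39) (nat_lit 5) (nat_lit 40) (nat_lit 4) (nat_lit 499) (nat_lit 328) (nat_lit 313)) (XT.lf (nat_lit 0) (nat_lit 8710026593) (nat_lit 228) (nat_lit 5397674127) (nat_lit 0) (nat_lit 1942424138) (nat_lit 37) (nat_lit 5) (nat_lit 40) (nat_lit 4) (nat_lit 37) (nat_lit 4) (nat_lit 500) (nat_lit 328) (nat_lit 312))) (XT.nd (nat_lit 78) (nat_lit 76)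 (nat_lit 0) (XT.lf (nat_lit 0) (nat_lit 2891024958) (nat_lit 152) (nat_lit 10253708257) (nat_lit 152) (nat_lit 3130142348) (nat_lit 35) (nat_lit 4) (nat_lit 37) (nat_lit 5) (nat_lit 37) (nat_lit 4) (nat_lit 501) (nat_lit 328) (nat_lit 311)) (XT.lf (nat_lit 0) (nat_lit 1129297544) (nat_lit 228) (nat_lit 5191368648) (nat_lit 76) (nat_lit 10183705099) (nat_lit 34) (nat_lit 5) (nat_lit 37) (nat_lit 5) (nat_lit 35) (nat_lit 4) (nat_lit 502) (nat_lit 328) (nat_lit 310))))) (XT.nd (nat_lit 312) (nat_lit 228) (nat_lit 0) (XT.nd (nat_lit 156) (nat_lit 228) (nat_lit 0) (XT.nd (nat_lit 78) (nat_lit 0) (nat_lit 0) (XT.lf (nat_lit 0) (nat_lit 3087829706) (nat_lit 152) (nat_lit 2309457597) (nat_lit 228) (nat_lit 11341462295) (nat_lit 32) (nat_lit 5) (nat_lit 34) (nat_lit 5) (nat_lit 35) (nat_lit 4) (nat_lit 503) (nat_lit 328) (nat_lit 309)) (XT.lf (nat_lit 0) (nat_lit 9742638133) (nat_lit 228) (nat_lit 5483027516) (nat_lit 0)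 (nat_lit 1752321505) (nat_lit 32) (nat_lit 5) (nat_lit 35) (nat_lit 4) (nat_lit 32) (nat_lit 4) (nat_lit 504) (nat_lit 328) (nat_lit 308))) (XT.nd (nat_lit 78) (nat_lit 76) (nat_lit 0) (XT.lf (nat_lit 0) (nat_lit 2774124463) (nat_lit 152) (nat_lit 11380512676) (nat_lit 152) (nat_lit 3067788979) (nat_lit 30) (nat_lit 4) (nat_lit 32) (nat_lit 5) (nat_lit 32) (nat_lit 4) (nat_lit 505) (nat_lit 328) (nat_lit 307)) (XT.lf (nat_lit 0) (nat_lit 1151151740) (nat_lit 228) (nat_lit 6303482542) (nat_lit 76) (nat_lit 10017306054) (nat_lit 29) (nat_lit 5) (nat_lit 32) (nat_lit 5) (nat_lit 30) (nat_lit 4) (nat_lit 506) (nat_lit 328) (nat_lit 306)))) (XT.nd (nat_lit 156) (nat_lit 152) (nat_lit 0) (XT.nd (nat_lit 78) (nat_lit 0) (nat_lit 0) (XT.lf (nat_lit 0) (nat_lit 1915625895) (nat_lit 76) (nat_lit 3457801114) (nat_lit 152) (nat_lit 12353422414) (nat_lit 28) (nat_lit 5) (nat_lit 29) (nat_lit 5) (nat_lit 30) (nat_lit 4) (nat_lit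 507) (nat_lit 328) (nat_lit 305)) (XT.lf (nat_lit 0) (nat_lit 9674464852) (nat_lit 152) (nat_lit 7699333653) (nat_lit 0) (nat_lit 613182453) (nat_lit 28) (nat_lit 5) (nat_lit 30) (nat_lit 4) (nat_lit 28) (nat_lit 4) (nat_lit 508) (nat_lit 328) (nat_lit 304))) (XT.nd (nat_lit 78) (nat_lit 0) (nat_lit 0) (XT.lf (nat_lit 0) (nat_lit 466258828) (nat_lit 152) (nat_lit 13569934851) (nat_lit 152) (nat_lit 4216638437) (nat_lit 26) (nat_lit 4) (nat_lit 28) (nat_lit 5) (nat_lit 28) (nat_lit 4) (nat_lit 509) (nat_lit 328) (nat_lit 303)) (XT.lf (nat_lit 0) (nat_lit 8808382363) (nat_lit 152) (nat_lit 9677598160) (nat_lit 152) (nat_lit 38013497) (nat_lit 26) (nat_lit 4) (nat_lit 28) (nat_lit 5) (nat_lit 28) (nat_lit 4) (nat_lit 510) (nat_lit 328) (nat_lit 302))))))))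
noncomputable def xc11 : XT := (XT.nd (nat_lit 57486) (nat_lit 0) (nat_lit 836) (XT.nd (nat_lit 1092) (nat_lit 304) (nat_lit 0) (XT.nd (nat_lit 546) (nat_lit 456) (nat_lit 0) (XT.nd (nat_lit 234) (nat_lit 304) (nat_lit 0) (XT.nd (nat_lit 78) (nat_lit 76) (nat_lit 0) (XT.lf (nat_lit 0) (nat_lit 4118596823) (nat_lit 228) (nat_lit 1600693834) (nat_lit 76) (nat_lit 13081753504) (nat_lit 25) (nat_lit 5) (nat_lit 28) (nat_lit 5) (nat_lit 26) (nat_lit 4) (nat_lit 511) (nat_lit 328) (nat_lit 301)) (XT.nd (nat_lit 78) (nat_lit 0) (nat_lit 0) (XT.lf (nat_lit 0) (nat_lit 6675550237) (nat_lit 76) (nat_lit 1676420546) (nat_lit 152) (nat_lit 10731786292) (nat_lit 24) (nat_lit 5) (nat_lit 25) (nat_lit 5) (nat_lit 26) (nat_lit 4) (nat_lit 512) (nat_lit 328) (nat_lit 300)) (XT.lf (nat_lit 0) (nat_lit 12647655196) (nat_lit 152) (nat_lit 4337276842) (nat_lit 0) (nat_lit 2387648767) (nat_lit 24) (nat_lit 5) (nat_lit 26) (nat_lit 4)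 (nat_lit 24) (nat_lit 4) (nat_lit 513) (nat_lit 328) (nat_lit 299)))) (XT.nd (nat_lit 156) (nat_lit 76) (nat_lit 0) (XT.nd (nat_lit 78) (nat_lit 76) (nat_lit 0) (XT.lf (nat_lit 0) (nat_lit 3847743514) (nat_lit 152) (nat_lit 13169496753) (nat_lit 152) (nat_lit 2650190236) (nat_lit 22) (nat_lit 4) (nat_lit 24) (nat_lit 5) (nat_lit 24) (nat_lit 4) (nat_lit 514) (nat_lit 328) (nat_lit 298)) (XT.lf (nat_lit 0) (nat_lit 1467547790) (nat_lit 228) (nat_lit 7809075753) (nat_lit 76) (nat_lit 10691741762) (nat_lit 21) (nat_lit 5) (nat_lit 24) (nat_lit 5) (nat_lit 22) (nat_lit 4) (nat_lit 515) (nat_lit 328) (nat_lit 297))) (XT.nd (nat_lit 78) (nat_lit 0) (nat_lit 0) (XT.lf (nat_lit 0) (nat_lit 262574893) (nat_lit 76) (nat_lit 5324221310) (nat_lit 152) (nat_lit 14689088111) (nat_lit 20) (nat_lit 5) (nat_lit 21) (nat_lit 5) (nat_lit 22) (nat_lit 4) (nat_lit 516) (nat_lit 328) (nat_lit 296)) (XT.lf (nat_lit 0) (nat_lit 8517006671)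 (nat_lit 76) (nat_lit 1277104405) (nat_lit 152) (nat_lit 10795337527) (nat_lit 20) (nat_lit 5) (nat_lit 21) (nat_lit 5) (nat_lit 22) (nat_lit 4) (nat_lit 517) (nat_lit 328) (nat_lit 295))))) (XT.nd (nat_lit 234) (nat_lit 228) (nat_lit 0) (XT.nd (nat_lit 78) (nat_lit 228) (nat_lit 0) (XT.lf (nat_lit 0) (nat_lit 14058036615) (nat_lit 152) (nat_lit 4074800322) (nat_lit 0) (nat_lit 2777006316) (nat_lit 20) (nat_lit 5) (nat_lit 22) (nat_lit 4) (nat_lit 20) (nat_lit 4) (nat_lit 518) (nat_lit 328) (nat_lit 294)) (XT.nd (nat_lit 78) (nat_lit 76) (nat_lit 0) (XT.lf (nat_lit 0) (nat_lit 4045498882) (nat_lit 152) (nat_lit 14351322428) (nat_lit 152) (nat_lit 2840041072) (nat_lit 18) (nat_lit 4) (nat_lit 20) (nat_lit 5) (nat_lit 20) (nat_lit 4) (nat_lit 519) (nat_lit 328) (nat_lit 293)) (XT.lf (nat_lit 0) (nat_lit 1217974620) (nat_lit 228) (nat_lit 9276708954) (nat_lit 76) (nat_lit 11075934937) (nat_lit 17) (nat_lit 5) (nat_lit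 20) (nat_lit 5) (nat_lit 18) (nat_lit 4) (nat_lit 520) (nat_lit 328) (nat_lit 292)))) (XT.nd (nat_lit 156) (nat_lit 152) (nat_lit 0) (XT.nd (nat_lit 78) (nat_lit 76) (nat_lit 0) (XT.lf (nat_lit 0) (nat_lit 5274951504) (nat_lit 228) (nat_lit 1302925777) (nat_lit 76) (nat_lit 15333688173) (nat_lit 17) (nat_lit 5) (nat_lit 20) (nat_lit 5) (nat_lit 18) (nat_lit 4) (nat_lit 521) (nat_lit 328) (nat_lit 291)) (XT.lf (nat_lit 0) (nat_lit 6841277014) (nat_lit 76) (nat_lit 2572869295) (nat_lit 152) (nat_lit 12845171034) (nat_lit 16) (nat_lit 5) (nat_lit 17) (nat_lit 5) (nat_lit 18) (nat_lit 4) (nat_lit 522) (nat_lit 328) (nat_lit 290))) (XT.nd (nat_lit 78) (nat_lit 152) (nat_lit 0) (XT.lf (nat_lit 0) (nat_lit 13611517671) (nat_lit 152) (nat_lit 7536601161) (nat_lit 0) (nat_lit 1466405008) (nat_lit 16) (nat_lit 5) (nat_lit 18) (nat_lit 4) (nat_lit 16) (nat_lit 4) (nat_lit 523) (nat_lit 328) (nat_lit 289)) (XT.lf (nat_lit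 0) (nat_lit 413497324) (nat_lit 152) (nat_lit 17456683277) (nat_lit 152) (nat_lit 5107114264) (nat_lit 14) (nat_lit 4) (nat_lit 16) (nat_lit 5) (nat_lit 16) (nat_lit 4) (nat_lit 524) (nat_lit 328) (nat_lit 288)))))) (XT.nd (nat_lit 546) (nat_lit 76) (nat_lit 0) (XT.nd (nat_lit 234) (nat_lit 76) (nat_lit 0) (XT.nd (nat_lit 78) (nat_lit 152) (nat_lit 0) (XT.lf (nat_lit 0) (nat_lit 8547913609) (nat_lit 152) (nat_lit 13674630354) (nat_lit 152) (nat_lit 1124613939) (nat_lit 14) (nat_lit 4) (nat_lit 16) (nat_lit 5) (nat_lit 16) (nat_lit 4) (nat_lit 525) (nat_lit 328) (nat_lit 287)) (XT.nd (nat_lit 78) (nat_lit 76) (nat_lit 0) (XT.lf (nat_lit 0) (nat_lit 2857507241) (nat_lit 228) (nat_lit 6974368848) (nat_lit 76) (nat_lit 13892997581) (nat_lit 13) (nat_lit 5) (nat_lit 16) (nat_lit 5) (nat_lit 14) (nat_lit 4) (nat_lit 526) (nat_lit 328) (nat_lit 286)) (XT.lf (nat_lit 0) (nat_lit 937442795) (nat_lit 76) (nat_lit 5932180995)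 (nat_lit 152) (nat_lit 17241069784) (nat_lit 12) (nat_lit 5) (nat_lit 13) (nat_lit 5) (nat_lit 14) (nat_lit 4) (nat_lit 527) (nat_lit 328) (nat_lit 285)))) (XT.nd (nat_lit 156) (nat_lit 76) (nat_lit 0) (XT.nd (nat_lit 78) (nat_lit 0) (nat_lit 0) (XT.lf (nat_lit 0) (nat_lit 9028111338) (nat_lit 76) (nat_lit 1940301861) (nat_lit 152) (nat_lit 13535694658) (nat_lit 12) (nat_lit 5) (nat_lit 13) (nat_lit 5) (nat_lit 14) (nat_lit 4) (nat_lit 528) (nat_lit 328) (nat_lit 284)) (XT.lf (nat_lit 0) (nat_lit 15123223849) (nat_lit 152) (nat_lit 7711689598) (nat_lit 0) (nat_lit 2071002535) (nat_lit 12) (nat_lit 5) (nat_lit 14) (nat_lit 4) (nat_lit 12) (nat_lit 4) (nat_lit 529) (nat_lit 328) (nat_lit 283))) (XT.nd (nat_lit 78) (nat_lit 0) (nat_lit 0) (XT.lf (nat_lit 0) (nat_lit 125072695) (nat_lit 76) (nat_lit 19210706902) (nat_lit 76) (nat_lit 5980494032) (nat_lit 11) (nat_lit 4) (nat_lit 12) (nat_lit 5) (nat_lit 12) (nat_lit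 4) (nat_lit 530) (nat_lit 328) (nat_lit 282)) (XT.lf (nat_lit 0) (nat_lit 8151953973) (nat_lit 76) (nat_lit 15493672136) (nat_lit 76) (nat_lit 2088957739) (nat_lit 11) (nat_lit 4) (nat_lit 12) (nat_lit 5) (nat_lit 12) (nat_lit 4) (nat_lit 531) (nat_lit 328) (nat_lit 281))))) (XT.nd (nat_lit 55536) (nat_lit 0) (nat_lit 3800) (XT.nd (nat_lit 78) (nat_lit 0) (nat_lit 0) (XT.lf (nat_lit 0) (nat_lit 1817539201) (nat_lit 152) (nat_lit 9904365137) (nat_lit 76) (nat_lit 14439881893) (nat_lit 10) (nat_lit 5) (nat_lit 12) (nat_lit 5) (nat_lit 11) (nat_lit 4) (nat_lit 532) (nat_lit 328) (nat_lit 280)) (XT.nd (nat_lit 55380) (nat_lit 0) (nat_lit 4256) (XT.lf (nat_lit 0) (nat_lit 5736762091) (nat_lit 152) (nat_lit 2155260318) (nat_lit 76) (nat_lit 18705988603) (nat_lit 10) (nat_lit 5) (nat_lit 12) (nat_lit 5) (nat_lit 11) (nat_lit 4) (nat_lit 533) (nat_lit 328) (nat_lit 279)) (XT.lf (nat_lit 0) (nat_lit 385160754) (nat_lit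 304) (nat_lit 5591008358) (nat_lit 0) (nat_lit 385160754) (nat_lit 66) (nat_lit 5) (nat_lit 70) (nat_lit 4) (nat_lit 66) (nat_lit 4) (nat_lit 482) (nat_lit 329) (nat_lit 329)))) (XT.nd (nat_lit 156) (nat_lit 228) (nat_lit 0) (XT.nd (nat_lit 78) (nat_lit 228) (nat_lit 0) (XT.lf (nat_lit 0) (nat_lit 5199997573) (nat_lit 304) (nat_lit 3026443902) (nat_lit 0) (nat_lit 4649685309) (nat_lit 66) (nat_lit 5) (nat_lit 70) (nat_lit 4) (nat_lit 66) (nat_lit 4) (nat_lit 483) (nat_lit 329) (nat_lit 328)) (XT.lf (nat_lit 0) (nat_lit 5251948726) (nat_lit 228) (nat_lit 4435591147) (nat_lit 228) (nat_lit 3345757055) (nat_lit 63) (nat_lit 4) (nat_lit 66) (nat_lit 5) (nat_lit 66) (nat_lit 4) (nat_lit 484) (nat_lit 329) (nat_lit 327))) (XT.nd (nat_lit 78) (nat_lit 0) (nat_lit 0) (XT.lf (nat_lit 0) (nat_lit 432986265) (nat_lit 152) (nat_lit 582738153) (nat_lit 228) (nat_lit 12178594397) (nat_lit 60) (nat_lit 5) (nat_lit 62) (nat_lit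 5) (nat_lit 63) (nat_lit 4) (nat_lit 485) (nat_lit 329) (nat_lit 326)) (XT.lf (nat_lit 0) (nat_lit 5429543676) (nat_lit 228) (nat_lit 4594291224) (nat_lit 0) (nat_lit 3334103875) (nat_lit 60) (nat_lit 5) (nat_lit 63) (nat_lit 4) (nat_lit 60) (nat_lit 4) (nat_lit 486) (nat_lit 329) (nat_lit 325))))))) (XT.nd (nat_lit 1092) (nat_lit 1216) (nat_lit 0) (XT.nd (nat_lit 546) (nat_lit 836) (nat_lit 0) (XT.nd (nat_lit 234) (nat_lit 456) (nat_lit 0) (XT.nd (nat_lit 78) (nat_lit 228) (nat_lit 0) (XT.lf (nat_lit 0) (nat_lit 3672927480) (nat_lit 228) (nat_lit 6223252580) (nat_lit 228) (nat_lit 3629378006) (nat_lit 57) (nat_lit 4) (nat_lit 60) (nat_lit 5) (nat_lit 60) (nat_lit 4) (nat_lit 487) (nat_lit 329) (nat_lit 324)) (XT.nd (nat_lit 78) (nat_lit 152) (nat_lit 0) (XT.lf (nat_lit 0) (nat_lit 713691550) (nat_lit 304) (nat_lit 1640879184) (nat_lit 76) (nat_lit 11342518303) (nat_lit 56) (nat_lit 5) (nat_lit 60) (nat_lit 5)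 (nat_lit 57) (nat_lit 4) (nat_lit 488) (nat_lit 329) (nat_lit 323)) (XT.lf (nat_lit 0) (nat_lit 5087208651) (nat_lit 228) (nat_lit 7189107024) (nat_lit 0) (nat_lit 1595428201) (nat_lit 54) (nat_lit 5) (nat_lit 57) (nat_lit 4) (nat_lit 54) (nat_lit 4) (nat_lit 489) (nat_lit 329) (nat_lit 322)))) (XT.nd (nat_lit 156) (nat_lit 228) (nat_lit 0) (XT.nd (nat_lit 78) (nat_lit 0) (nat_lit 0) (XT.lf (nat_lit 0) (nat_lit 1037354889) (nat_lit 228) (nat_lit 8482686771) (nat_lit 228) (nat_lit 4530429636) (nat_lit 51) (nat_lit 4) (nat_lit 54) (nat_lit 5) (nat_lit 54) (nat_lit 4) (nat_lit 490) (nat_lit 329) (nat_lit 321)) (XT.lf (nat_lit 0) (nat_lit 9420713916) (nat_lit 228) (nat_lit 4608018136) (nat_lit 228) (nat_lit 204313271) (nat_lit 51) (nat_lit 4) (nat_lit 54) (nat_lit 5) (nat_lit 54) (nat_lit 4) (nat_lit 491) (nat_lit 329) (nat_lit 320))) (XT.nd (nat_lit 78) (nat_lit 0) (nat_lit 0) (XT.lf (nat_lit 0) (nat_lit 3466775275)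 (nat_lit 152) (nat_lit 648608860) (nat_lit 228) (nat_lit 10304110648) (nat_lit 48) (nat_lit 5) (nat_lit 50) (nat_lit 5) (nat_lit 51) (nat_lit 4) (nat_lit 492) (nat_lit 329) (nat_lit 319)) (XT.lf (nat_lit 0) (nat_lit 8513232456) (nat_lit 228) (nat_lit 2759991055) (nat_lit 0) (nat_lit 3336548002) (nat_lit 48) (nat_lit 5) (nat_lit 51) (nat_lit 4) (nat_lit 48) (nat_lit 4) (nat_lit 493) (nat_lit 329) (nat_lit 318))))) (XT.nd (nat_lit 234) (nat_lit 380) (nat_lit 0) (XT.nd (nat_lit 78) (nat_lit 228) (nat_lit 0) (XT.lf (nat_lit 0) (nat_lit 5563216763) (nat_lit 228) (nat_lit 7417386465) (nat_lit 228) (nat_lit 1823634090) (nat_lit 45) (nat_lit 4) (nat_lit 48) (nat_lit 5) (nat_lit 48) (nat_lit 4) (nat_lit 494) (nat_lit 329) (nat_lit 317)) (XT.nd (nat_lit 78) (nat_lit 152) (nat_lit 0) (XT.lf (nat_lit 0) (nat_lit 2461374101) (nat_lit 304) (nat_lit 1030666808) (nat_lit 76) (nat_lit 11511038890) (nat_lit 44) (nat_lit 5) (nat_lit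 48) (nat_lit 5) (nat_lit 45) (nat_lit 4) (nat_lit 495) (nat_lit 329) (nat_lit 316)) (XT.lf (nat_lit 0) (nat_lit 6801102209) (nat_lit 228) (nat_lit 7881554894) (nat_lit 0) (nat_lit 523146171) (nat_lit 42) (nat_lit 5) (nat_lit 45) (nat_lit 4) (nat_lit 42) (nat_lit 4) (nat_lit 496) (nat_lit 329) (nat_lit 315)))) (XT.nd (nat_lit 156) (nat_lit 152) (nat_lit 0) (XT.nd (nat_lit 78) (nat_lit 76) (nat_lit 0) (XT.lf (nat_lit 0) (nat_lit 328542092) (nat_lit 152) (nat_lit 10873909321) (nat_lit 152) (nat_lit 4210646992) (nat_lit 40) (nat_lit 4) (nat_lit 42) (nat_lit 5) (nat_lit 42) (nat_lit 4) (nat_lit 497) (nat_lit 329) (nat_lit 314)) (XT.lf (nat_lit 0) (nat_lit 62338215) (nat_lit 228) (nat_lit 6915090398) (nat_lit 76) (nat_lit 8647196625) (nat_lit 39) (nat_lit 5) (nat_lit 42) (nat_lit 5) (nat_lit 40) (nat_lit 4) (nat_lit 498) (nat_lit 329) (nat_lit 313))) (XT.nd (nat_lit 78) (nat_lit 0) (nat_lit 0) (XT.lf (nat_lit 0) (nat_lit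 1308512529) (nat_lit 152) (nat_lit 3008255045) (nat_lit 228) (nat_lit 11524024012) (nat_lit 37) (nat_lit 5) (nat_lit 39) (nat_lit 5) (nat_lit 40) (nat_lit 4) (nat_lit 499) (nat_lit 329) (nat_lit 312)) (XT.lf (nat_lit 0) (nat_lit 8653760016) (nat_lit 228) (nat_lit 6375825097) (nat_lit 0) (nat_lit 1031759334) (nat_lit 37) (nat_lit 5) (nat_lit 40) (nat_lit 4) (nat_lit 37) (nat_lit 4) (nat_lit 500) (nat_lit 329) (nat_lit 311)))))) (XT.nd (nat_lit 546) (nat_lit 532) (nat_lit 0) (XT.nd (nat_lit 234) (nat_lit 304) (nat_lit 0) (XT.nd (nat_lit 78) (nat_lit 228) (nat_lit 0) (XT.lf (nat_lit 0) (nat_lit 1851318394) (nat_lit 152) (nat_lit 11203222937) (nat_lit 152) (nat_lit 3232238477) (nat_lit 35) (nat_lit 4) (nat_lit 37) (nat_lit 5) (nat_lit 37) (nat_lit 4) (nat_lit 501) (nat_lit 329) (nat_lit 310)) (XT.nd (nat_lit 78) (nat_lit 152) (nat_lit 0) (XT.lf (nat_lit 0) (nat_lit 1001404908) (nat_lit 228) (nat_lit 6290287504) (nat_lit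 76) (nat_lit 9225145004) (nat_lit 34) (nat_lit 5) (nat_lit 37) (nat_lit 5) (nat_lit 35) (nat_lit 4) (nat_lit 502) (nat_lit 329) (nat_lit 309)) (XT.lf (nat_lit 0) (nat_lit 1926651471) (nat_lit 152) (nat_lit 3308600610) (nat_lit 228) (nat_lit 11516652291) (nat_lit 32) (nat_lit 5) (nat_lit 34) (nat_lit 5) (nat_lit 35) (nat_lit 4) (nat_lit 503) (nat_lit 329) (nat_lit 308)))) (XT.nd (nat_lit 156) (nat_lit 152) (nat_lit 0) (XT.nd (nat_lit 78) (nat_lit 152) (nat_lit 0) (XT.lf (nat_lit 0) (nat_lit 9547598625) (nat_lit 228) (nat_lit 6697995685) (nat_lit 0) (nat_lit 746213386) (nat_lit 32) (nat_lit 5) (nat_lit 35) (nat_lit 4) (nat_lit 32) (nat_lit 4) (nat_lit 504) (nat_lit 329) (nat_lit 307)) (XT.lf (nat_lit 0) (nat_lit 1496197761) (nat_lit 152) (nat_lit 12429105479) (nat_lit 152) (nat_lit 3311634880) (nat_lit 30) (nat_lit 4) (nat_lit 32) (nat_lit 5) (nat_lit 32) (nat_lit 4) (nat_lit 505) (nat_lit 329) (nat_lit 306))) (XT.nd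 (nat_lit 78) (nat_lit 76) (nat_lit 0) (XT.lf (nat_lit 0) (nat_lit 884542297) (nat_lit 228) (nat_lit 7640582765) (nat_lit 76) (nat_lit 8961883526) (nat_lit 29) (nat_lit 5) (nat_lit 32) (nat_lit 5) (nat_lit 30) (nat_lit 4) (nat_lit 506) (nat_lit 329) (nat_lit 305)) (XT.lf (nat_lit 0) (nat_lit 514815826) (nat_lit 76) (nat_lit 4557454180) (nat_lit 152) (nat_lit 12670343872) (nat_lit 28) (nat_lit 5) (nat_lit 29) (nat_lit 5) (nat_lit 30) (nat_lit 4) (nat_lit 507) (nat_lit 329) (nat_lit 304))))) (XT.nd (nat_lit 312) (nat_lit 304) (nat_lit 0) (XT.nd (nat_lit 156) (nat_lit 228) (nat_lit 0) (XT.nd (nat_lit 78) (nat_lit 0) (nat_lit 0) (XT.lf (nat_lit 0) (nat_lit 8845912320) (nat_lit 76) (nat_lit 498115503) (nat_lit 152) (nat_lit 8659308337) (nat_lit 28) (nat_lit 5) (nat_lit 29) (nat_lit 5) (nat_lit 30) (nat_lit 4) (nat_lit 508) (nat_lit 329) (nat_lit 303)) (XT.lf (nat_lit 0) (nat_lit 13674618386) (nat_lit 152) (nat_lit 1039242963)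 (nat_lit 0) (nat_lit 3555953780) (nat_lit 28) (nat_lit 5) (nat_lit 30) (nat_lit 4) (nat_lit 28) (nat_lit 4) (nat_lit 509) (nat_lit 329) (nat_lit 302))) (XT.nd (nat_lit 78) (nat_lit 76) (nat_lit 0) (XT.lf (nat_lit 0) (nat_lit 7244831911) (nat_lit 152) (nat_lit 10848059850) (nat_lit 152) (nat_lit 448720490) (nat_lit 26) (nat_lit 4) (nat_lit 28) (nat_lit 5) (nat_lit 28) (nat_lit 4) (nat_lit 510) (nat_lit 329) (nat_lit 301)) (XT.lf (nat_lit 0) (nat_lit 3688918831) (nat_lit 228) (nat_lit 3222894649) (nat_lit 76) (nat_lit 11907394147) (nat_lit 25) (nat_lit 5) (nat_lit 28) (nat_lit 5) (nat_lit 26) (nat_lit 4) (nat_lit 511) (nat_lit 329) (nat_lit 300)))) (XT.nd (nat_lit 156) (nat_lit 228) (nat_lit 0) (XT.nd (nat_lit 78) (nat_lit 0) (nat_lit 0) (XT.lf (nat_lit 0) (nat_lit 4988380002) (nat_lit 76) (nat_lit 2899078662) (nat_lit 152) (nat_lit 11215163222) (nat_lit 24) (nat_lit 5) (nat_lit 25) (nat_lit 5) (nat_lit 26) (nat_lit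 4) (nat_lit 512) (nat_lit 329) (nat_lit 299)) (XT.lf (nat_lit 0) (nat_lit 12151394247) (nat_lit 152) (nat_lit 6078289405) (nat_lit 0) (nat_lit 1162401511) (nat_lit 24) (nat_lit 5) (nat_lit 26) (nat_lit 4) (nat_lit 24) (nat_lit 4) (nat_lit 513) (nat_lit 329) (nat_lit 298))) (XT.nd (nat_lit 78) (nat_lit 76) (nat_lit 0) (XT.lf (nat_lit 0) (nat_lit 2040960327) (nat_lit 152) (nat_lit 14444944506) (nat_lit 152) (nat_lit 3201735998) (nat_lit 22) (nat_lit 4) (nat_lit 24) (nat_lit 5) (nat_lit 24) (nat_lit 4) (nat_lit 514) (nat_lit 329) (nat_lit 297)) (XT.lf (nat_lit 0) (nat_lit 899920646) (nat_lit 228) (nat_lit 9674599952) (nat_lit 76) (nat_lit 9414597263) (nat_lit 21) (nat_lit 5) (nat_lit 24) (nat_lit 5) (nat_lit 22) (nat_lit 4) (nat_lit 515) (nat_lit 329) (nat_lit 296))))))))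
noncomputable def xc12 : XT := (XT.nd (nat_lit 57330) (nat_lit 0) (nat_lit 760) (XT.nd (nat_lit 1092) (nat_lit 152) (nat_lit 0) (XT.nd (nat_lit 546) (nat_lit 304) (nat_lit 0) (XT.nd (nat_lit 234) (nat_lit 304) (nat_lit 0) (XT.nd (nat_lit 78) (nat_lit 76) (nat_lit 0) (XT.lf (nat_lit 0) (nat_lit 4994606404) (nat_lit 228) (nat_lit 1647678986) (nat_lit 76) (nat_lit 13654846956) (nat_lit 21) (nat_lit 5) (nat_lit 24) (nat_lit 5) (nat_lit 22) (nat_lit 4) (nat_lit 516) (nat_lit 329) (nat_lit 295)) (XT.nd (nat_lit 78) (nat_lit 0) (nat_lit 0) (XT.lf (nat_lit 0) (nat_lit 6543841658) (nat_lit 76) (nat_lit 2624563678) (nat_lit 152) (nat_lit 11442965757) (nat_lit 20) (nat_lit 5) (nat_lit 21) (nat_lit 5) (nat_lit 22) (nat_lit 4) (nat_lit 517) (nat_lit 329) (nat_lit 294)) (XT.lf (nat_lit 0) (nat_lit 13401234226) (nat_lit 152) (nat_lit 6101681323) (nat_lit 0) (nat_lit 1429476185) (nat_lit 20) (nat_lit 5) (nat_lit 22) (nat_lit 4)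 (nat_lit 20) (nat_lit 4) (nat_lit 518) (nat_lit 329) (nat_lit 293)))) (XT.nd (nat_lit 156) (nat_lit 76) (nat_lit 0) (XT.nd (nat_lit 78) (nat_lit 76) (nat_lit 0) (XT.lf (nat_lit 0) (nat_lit 1951406326) (nat_lit 152) (nat_lit 15753106505) (nat_lit 152) (nat_lit 3555612133) (nat_lit 18) (nat_lit 4) (nat_lit 20) (nat_lit 5) (nat_lit 20) (nat_lit 4) (nat_lit 519) (nat_lit 329) (nat_lit 292)) (XT.lf (nat_lit 0) (nat_lit 489903986) (nat_lit 228) (nat_lit 11429198447) (nat_lit 76) (nat_lit 9675313091) (nat_lit 17) (nat_lit 5) (nat_lit 20) (nat_lit 5) (nat_lit 18) (nat_lit 4) (nat_lit 520) (nat_lit 329) (nat_lit 291))) (XT.nd (nat_lit 78) (nat_lit 76) (nat_lit 0) (XT.lf (nat_lit 0) (nat_lit 4525425561) (nat_lit 228) (nat_lit 3494415581) (nat_lit 76) (nat_lit 13915954182) (nat_lit 17) (nat_lit 5) (nat_lit 20) (nat_lit 5) (nat_lit 18) (nat_lit 4) (nat_lit 521) (nat_lit 329) (nat_lit 290)) (XT.lf (nat_lit 0) (nat_lit 4581919734)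 (nat_lit 76) (nat_lit 4046996768) (nat_lit 152) (nat_lit 13655348462) (nat_lit 16) (nat_lit 5) (nat_lit 17) (nat_lit 5) (nat_lit 18) (nat_lit 4) (nat_lit 522) (nat_lit 329) (nat_lit 289))))) (XT.nd (nat_lit 234) (nat_lit 152) (nat_lit 0) (XT.nd (nat_lit 78) (nat_lit 152) (nat_lit 0) (XT.lf (nat_lit 0) (nat_lit 12790421700) (nat_lit 76) (nat_lit 5349972) (nat_lit 152) (nat_lit 9844313718) (nat_lit 16) (nat_lit 5) (nat_lit 17) (nat_lit 5) (nat_lit 18) (nat_lit 4) (nat_lit 523) (nat_lit 329) (nat_lit 288)) (XT.nd (nat_lit 78) (nat_lit 152) (nat_lit 0) (XT.lf (nat_lit 0) (nat_lit 17031146624) (nat_lit 152) (nat_lit 1942496604) (nat_lit 0) (nat_lit 4029682478) (nat_lit 16) (nat_lit 5) (nat_lit 18) (nat_lit 4) (nat_lit 16) (nat_lit 4) (nat_lit 524) (nat_lit 329) (nat_lit 287)) (XT.lf (nat_lit 0) (nat_lit 6128808873) (nat_lit 152) (nat_lit 15221514141) (nat_lit 152) (nat_lit 2023532935) (nat_lit 14) (nat_lit 4) (nat_lit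 16) (nat_lit 5) (nat_lit 16) (nat_lit 4) (nat_lit 525) (nat_lit 329) (nat_lit 286)))) (XT.nd (nat_lit 156) (nat_lit 76) (nat_lit 0) (XT.nd (nat_lit 78) (nat_lit 0) (nat_lit 0) (XT.lf (nat_lit 0) (nat_lit 1950234635) (nat_lit 228) (nat_lit 9451171028) (nat_lit 76) (nat_lit 12350688972) (nat_lit 13) (nat_lit 5) (nat_lit 16) (nat_lit 5) (nat_lit 14) (nat_lit 4) (nat_lit 526) (nat_lit 329) (nat_lit 285)) (XT.lf (nat_lit 0) (nat_lit 5936516551) (nat_lit 228) (nat_lit 1587767620) (nat_lit 76) (nat_lit 16614150323) (nat_lit 13) (nat_lit 5) (nat_lit 16) (nat_lit 5) (nat_lit 14) (nat_lit 4) (nat_lit 527) (nat_lit 329) (nat_lit 284))) (XT.nd (nat_lit 78) (nat_lit 0) (nat_lit 0) (XT.lf (nat_lit 0) (nat_lit 6445924410) (nat_lit 76) (nat_lit 3559341867) (nat_lit 152) (nat_lit 14527186495) (nat_lit 12) (nat_lit 5) (nat_lit 13) (nat_lit 5) (nat_lit 14) (nat_lit 4) (nat_lit 528) (nat_lit 329) (nat_lit 283)) (XT.lf (nat_lit 0)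 (nat_lit 14130251753) (nat_lit 152) (nat_lit 10347165717) (nat_lit 0) (nat_lit 457443068) (nat_lit 12) (nat_lit 5) (nat_lit 14) (nat_lit 4) (nat_lit 12) (nat_lit 4) (nat_lit 529) (nat_lit 329) (nat_lit 282)))))) (XT.nd (nat_lit 55692) (nat_lit 0) (nat_lit 3344) (XT.nd (nat_lit 234) (nat_lit 0) (nat_lit 0) (XT.nd (nat_lit 78) (nat_lit 152) (nat_lit 0) (XT.lf (nat_lit 0) (nat_lit 18323060846) (nat_lit 152) (nat_lit 2546804712) (nat_lit 0) (nat_lit 4475750635) (nat_lit 12) (nat_lit 5) (nat_lit 14) (nat_lit 4) (nat_lit 12) (nat_lit 4) (nat_lit 530) (nat_lit 329) (nat_lit 281)) (XT.nd (nat_lit 78) (nat_lit 76) (nat_lit 0) (XT.lf (nat_lit 0) (nat_lit 5411698625) (nat_lit 76) (nat_lit 17185665899) (nat_lit 76) (nat_lit 3167275761) (nat_lit 11) (nat_lit 4) (nat_lit 12) (nat_lit 5) (nat_lit 12) (nat_lit 4) (nat_lit 531) (nat_lit 329) (nat_lit 280)) (XT.lf (nat_lit 0) (nat_lit 734819458) (nat_lit 152) (nat_lit 12701780251)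 (nat_lit 76) (nat_lit 12755756761) (nat_lit 10) (nat_lit 5) (nat_lit 12) (nat_lit 5) (nat_lit 11) (nat_lit 4) (nat_lit 532) (nat_lit 329) (nat_lit 279)))) (XT.nd (nat_lit 55302) (nat_lit 0) (nat_lit 4256) (XT.nd (nat_lit 55224) (nat_lit 0) (nat_lit 4788) (XT.lf (nat_lit 0) (nat_lit 4635861902) (nat_lit 152) (nat_lit 4986111200) (nat_lit 76) (nat_lit 17006974600) (nat_lit 10) (nat_lit 5) (nat_lit 12) (nat_lit 5) (nat_lit 11) (nat_lit 4) (nat_lit 533) (nat_lit 329) (nat_lit 278)) (XT.lf (nat_lit 0) (nat_lit 2529095881) (nat_lit 304) (nat_lit 1153702434) (nat_lit 0) (nat_lit 2529095881) (nat_lit 73) (nat_lit 5) (nat_lit 77) (nat_lit 4) (nat_lit 73) (nat_lit 4) (nat_lit 480) (nat_lit 330) (nat_lit 330))) (XT.nd (nat_lit 78) (nat_lit 304) (nat_lit 0) (XT.lf (nat_lit 0) (nat_lit 5902604233) (nat_lit 228) (nat_lit 3620854441) (nat_lit 228) (nat_lit 3048309562) (nat_lit 70) (nat_lit 4) (nat_lit 73) (nat_lit 5) (nat_lit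 73) (nat_lit 4) (nat_lit 481) (nat_lit 330) (nat_lit 329)) (XT.lf (nat_lit 0) (nat_lit 1298905885) (nat_lit 304) (nat_lit 11237143120) (nat_lit 0) (nat_lit 187275112) (nat_lit 66) (nat_lit 5) (nat_lit 70) (nat_lit 4) (nat_lit 66) (nat_lit 4) (nat_lit 482) (nat_lit 330) (nat_lit 328))))) (XT.nd (nat_lit 234) (nat_lit 456) (nat_lit 0) (XT.nd (nat_lit 78) (nat_lit 456) (nat_lit 0) (XT.lf (nat_lit 0) (nat_lit 5696489663) (nat_lit 304) (nat_lit 3135615797) (nat_lit 0) (nat_lit 4045337062) (nat_lit 66) (nat_lit 5) (nat_lit 70) (nat_lit 4) (nat_lit 66) (nat_lit 4) (nat_lit 483) (nat_lit 330) (nat_lit 327)) (XT.nd (nat_lit 78) (nat_lit 228) (nat_lit 0) (XT.lf (nat_lit 0) (nat_lit 5087636065) (nat_lit 228) (nat_lit 5063866045) (nat_lit 228) (nat_lit 2883770476) (nat_lit 63) (nat_lit 4) (nat_lit 66) (nat_lit 5) (nat_lit 66) (nat_lit 4) (nat_lit 484) (nat_lit 330) (nat_lit 326)) (XT.lf (nat_lit 0) (nat_lit 207680007) (nat_lit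 152) (nat_lit 1231105692) (nat_lit 228) (nat_lit 11758115070) (nat_lit 60) (nat_lit 5) (nat_lit 62) (nat_lit 5) (nat_lit 63) (nat_lit 4) (nat_lit 485) (nat_lit 330) (nat_lit 325)))) (XT.nd (nat_lit 156) (nat_lit 228) (nat_lit 0) (XT.nd (nat_lit 78) (nat_lit 228) (nat_lit 0) (XT.lf (nat_lit 0) (nat_lit 5817125259) (nat_lit 228) (nat_lit 4871175428) (nat_lit 0) (nat_lit 2672938421) (nat_lit 60) (nat_lit 5) (nat_lit 63) (nat_lit 4) (nat_lit 60) (nat_lit 4) (nat_lit 486) (nat_lit 330) (nat_lit 324)) (XT.lf (nat_lit 0) (nat_lit 3339508044) (nat_lit 228) (nat_lit 6911431892) (nat_lit 228) (nat_lit 3278583512) (nat_lit 57) (nat_lit 4) (nat_lit 60) (nat_lit 5) (nat_lit 60) (nat_lit 4) (nat_lit 487) (nat_lit 330) (nat_lit 323))) (XT.nd (nat_lit 78) (nat_lit 152) (nat_lit 0) (XT.lf (nat_lit 0) (nat_lit 1029283448) (nat_lit 304) (nat_lit 2032775756) (nat_lit 76) (nat_lit 10639569978) (nat_lit 56) (nat_lit 5) (nat_lit 60)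 (nat_lit 5) (nat_lit 57) (nat_lit 4) (nat_lit 488) (nat_lit 330) (nat_lit 322)) (XT.lf (nat_lit 0) (nat_lit 5365133061) (nat_lit 228) (nat_lit 7638558328) (nat_lit 0) (nat_lit 873354099) (nat_lit 54) (nat_lit 5) (nat_lit 57) (nat_lit 4) (nat_lit 54) (nat_lit 4) (nat_lit 489) (nat_lit 330) (nat_lit 321))))))) (XT.nd (nat_lit 1092) (nat_lit 912) (nat_lit 0) (XT.nd (nat_lit 546) (nat_lit 760) (nat_lit 0) (XT.nd (nat_lit 234) (nat_lit 456) (nat_lit 0) (XT.nd (nat_lit 78) (nat_lit 228) (nat_lit 0) (XT.lf (nat_lit 0) (nat_lit 529909642) (nat_lit 228) (nat_lit 9234880715) (nat_lit 228) (nat_lit 4291654022) (nat_lit 51) (nat_lit 4) (nat_lit 54) (nat_lit 5) (nat_lit 54) (nat_lit 4) (nat_lit 490) (nat_lit 330) (nat_lit 320)) (XT.nd (nat_lit 78) (nat_lit 152) (nat_lit 0) (XT.lf (nat_lit 0) (nat_lit 4180191) (nat_lit 304) (nat_lit 5377378518) (nat_lit 76) (nat_lit 8858059473) (nat_lit 50) (nat_lit 5) (nat_lit 54) (nat_lit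 5) (nat_lit 51) (nat_lit 4) (nat_lit 491) (nat_lit 330) (nat_lit 319)) (XT.lf (nat_lit 0) (nat_lit 2841807984) (nat_lit 152) (nat_lit 1446087043) (nat_lit 228) (nat_lit 10138819643) (nat_lit 48) (nat_lit 5) (nat_lit 50) (nat_lit 5) (nat_lit 51) (nat_lit 4) (nat_lit 492) (nat_lit 330) (nat_lit 318)))) (XT.nd (nat_lit 156) (nat_lit 228) (nat_lit 0) (XT.nd (nat_lit 78) (nat_lit 228) (nat_lit 0) (XT.lf (nat_lit 0) (nat_lit 8651431912) (nat_lit 228) (nat_lit 3437516500) (nat_lit 0) (nat_lit 2528736568) (nat_lit 48) (nat_lit 5) (nat_lit 51) (nat_lit 4) (nat_lit 48) (nat_lit 4) (nat_lit 493) (nat_lit 330) (nat_lit 317)) (XT.lf (nat_lit 0) (nat_lit 4826503680) (nat_lit 228) (nat_lit 8258953344) (nat_lit 228) (nat_lit 1727367882) (nat_lit 45) (nat_lit 4) (nat_lit 48) (nat_lit 5) (nat_lit 48) (nat_lit 4) (nat_lit 494) (nat_lit 330) (nat_lit 316))) (XT.nd (nat_lit 78) (nat_lit 152) (nat_lit 0) (XT.lf (nat_lit 0) (nat_lit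 2527861406) (nat_lit 304) (nat_lit 1826178085) (nat_lit 76) (nat_lit 10658192649) (nat_lit 44) (nat_lit 5) (nat_lit 48) (nat_lit 5) (nat_lit 45) (nat_lit 4) (nat_lit 495) (nat_lit 330) (nat_lit 315)) (XT.lf (nat_lit 0) (nat_lit 6472416401) (nat_lit 152) (nat_lit 358220699) (nat_lit 228) (nat_lit 8385064354) (nat_lit 42) (nat_lit 5) (nat_lit 44) (nat_lit 5) (nat_lit 45) (nat_lit 4) (nat_lit 496) (nat_lit 330) (nat_lit 314))))) (XT.nd (nat_lit 234) (nat_lit 380) (nat_lit 0) (XT.nd (nat_lit 78) (nat_lit 380) (nat_lit 0) (XT.lf (nat_lit 0) (nat_lit 11199671244) (nat_lit 228) (nat_lit 583892190) (nat_lit 0) (nat_lit 3640086112) (nat_lit 42) (nat_lit 5) (nat_lit 45) (nat_lit 4) (nat_lit 42) (nat_lit 4) (nat_lit 497) (nat_lit 330) (nat_lit 313)) (XT.nd (nat_lit 78) (nat_lit 152) (nat_lit 0) (XT.lf (nat_lit 0) (nat_lit 17501336) (nat_lit 228) (nat_lit 7894576810) (nat_lit 76) (nat_lit 7723739971) (nat_lit 39) (nat_lit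 5) (nat_lit 42) (nat_lit 5) (nat_lit 40) (nat_lit 4) (nat_lit 498) (nat_lit 330) (nat_lit 312)) (XT.lf (nat_lit 0) (nat_lit 267553621) (nat_lit 152) (nat_lit 3970350266) (nat_lit 228) (nat_lit 11614767389) (nat_lit 37) (nat_lit 5) (nat_lit 39) (nat_lit 5) (nat_lit 40) (nat_lit 4) (nat_lit 499) (nat_lit 330) (nat_lit 311)))) (XT.nd (nat_lit 156) (nat_lit 228) (nat_lit 0) (XT.nd (nat_lit 78) (nat_lit 152) (nat_lit 0) (XT.lf (nat_lit 0) (nat_lit 8541474927) (nat_lit 228) (nat_lit 7470336789) (nat_lit 0) (nat_lit 62086998) (nat_lit 37) (nat_lit 5) (nat_lit 40) (nat_lit 4) (nat_lit 37) (nat_lit 4) (nat_lit 500) (nat_lit 330) (nat_lit 310)) (XT.lf (nat_lit 0) (nat_lit 694656823) (nat_lit 152) (nat_lit 12213447605) (nat_lit 152) (nat_lit 3391918716) (nat_lit 35) (nat_lit 4) (nat_lit 37) (nat_lit 5) (nat_lit 37) (nat_lit 4) (nat_lit 501) (nat_lit 330) (nat_lit 309))) (XT.nd (nat_lit 78) (nat_lit 152) (nat_lit 0) (XT.lf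 (nat_lit 0) (nat_lit 817215456) (nat_lit 228) (nat_lit 7506185978) (nat_lit 76) (nat_lit 8207237918) (nat_lit 34) (nat_lit 5) (nat_lit 37) (nat_lit 5) (nat_lit 35) (nat_lit 4) (nat_lit 502) (nat_lit 330) (nat_lit 308)) (XT.lf (nat_lit 0) (nat_lit 647873439) (nat_lit 152) (nat_lit 4368804704) (nat_lit 228) (nat_lit 11749721537) (nat_lit 32) (nat_lit 5) (nat_lit 34) (nat_lit 5) (nat_lit 35) (nat_lit 4) (nat_lit 503) (nat_lit 330) (nat_lit 307)))))) (XT.nd (nat_lit 546) (nat_lit 456) (nat_lit 0) (XT.nd (nat_lit 234) (nat_lit 228) (nat_lit 0) (XT.nd (nat_lit 78) (nat_lit 228) (nat_lit 0) (XT.lf (nat_lit 0) (nat_lit 8974236653) (nat_lit 152) (nat_lit 324010936) (nat_lit 228) (nat_lit 7708676529) (nat_lit 32) (nat_lit 5) (nat_lit 34) (nat_lit 5) (nat_lit 35) (nat_lit 4) (nat_lit 504) (nat_lit 330) (nat_lit 306)) (XT.nd (nat_lit 78) (nat_lit 76) (nat_lit 0) (XT.lf (nat_lit 0) (nat_lit 100005922) (nat_lit 152) (nat_lit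 13539290093) (nat_lit 152) (nat_lit 3613497113) (nat_lit 30) (nat_lit 4) (nat_lit 32) (nat_lit 5) (nat_lit 32) (nat_lit 4) (nat_lit 505) (nat_lit 330) (nat_lit 305)) (XT.lf (nat_lit 0) (nat_lit 561186469) (nat_lit 228) (nat_lit 9096007691) (nat_lit 76) (nat_lit 7846222935) (nat_lit 29) (nat_lit 5) (nat_lit 32) (nat_lit 5) (nat_lit 30) (nat_lit 4) (nat_lit 506) (nat_lit 330) (nat_lit 304)))) (XT.nd (nat_lit 156) (nat_lit 152) (nat_lit 0) (XT.nd (nat_lit 78) (nat_lit 76) (nat_lit 0) (XT.lf (nat_lit 0) (nat_lit 4720618150) (nat_lit 228) (nat_lit 991809991) (nat_lit 76) (nat_lit 12047165312) (nat_lit 29) (nat_lit 5) (nat_lit 32) (nat_lit 5) (nat_lit 30) (nat_lit 4) (nat_lit 507) (nat_lit 330) (nat_lit 303)) (XT.lf (nat_lit 0) (nat_lit 7281949307) (nat_lit 76) (nat_lit 1679150681) (nat_lit 152) (nat_lit 9059846313) (nat_lit 28) (nat_lit 5) (nat_lit 29) (nat_lit 5) (nat_lit 30) (nat_lit 4) (nat_lit 508) (nat_lit 330)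 (nat_lit 302))) (XT.nd (nat_lit 78) (nat_lit 152) (nat_lit 0) (XT.lf (nat_lit 0) (nat_lit 13259633363) (nat_lit 152) (nat_lit 2656805536) (nat_lit 0) (nat_lit 2371632461) (nat_lit 28) (nat_lit 5) (nat_lit 30) (nat_lit 4) (nat_lit 28) (nat_lit 4) (nat_lit 509) (nat_lit 330) (nat_lit 301)) (XT.lf (nat_lit 0) (nat_lit 5562402520) (nat_lit 152) (nat_lit 12080669865) (nat_lit 152) (nat_lit 917497634) (nat_lit 26) (nat_lit 4) (nat_lit 28) (nat_lit 5) (nat_lit 28) (nat_lit 4) (nat_lit 510) (nat_lit 330) (nat_lit 300))))) (XT.nd (nat_lit 312) (nat_lit 152) (nat_lit 0) (XT.nd (nat_lit 156) (nat_lit 152) (nat_lit 0) (XT.nd (nat_lit 78) (nat_lit 76) (nat_lit 0) (XT.lf (nat_lit 0) (nat_lit 3202409884) (nat_lit 228) (nat_lit 4964080075) (nat_lit 76) (nat_lit 10672218569) (nat_lit 25) (nat_lit 5) (nat_lit 28) (nat_lit 5) (nat_lit 26) (nat_lit 4) (nat_lit 511) (nat_lit 330) (nat_lit 299)) (XT.lf (nat_lit 0) (nat_lit 3181495115)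 (nat_lit 76) (nat_lit 4184311442) (nat_lit 152) (nat_lit 11757023663) (nat_lit 24) (nat_lit 5) (nat_lit 25) (nat_lit 5) (nat_lit 26) (nat_lit 4) (nat_lit 512) (nat_lit 330) (nat_lit 298))) (XT.nd (nat_lit 78) (nat_lit 152) (nat_lit 0) (XT.lf (nat_lit 0) (nat_lit 11472985684) (nat_lit 76) (nat_lit 125885555) (nat_lit 152) (nat_lit 7814044157) (nat_lit 24) (nat_lit 5) (nat_lit 25) (nat_lit 5) (nat_lit 26) (nat_lit 4) (nat_lit 513) (nat_lit 330) (nat_lit 297)) (XT.lf (nat_lit 0) (nat_lit 113610460) (nat_lit 152) (nat_lit 15783554468) (nat_lit 152) (nat_lit 3812034867) (nat_lit 22) (nat_lit 4) (nat_lit 24) (nat_lit 5) (nat_lit 24) (nat_lit 4) (nat_lit 514) (nat_lit 330) (nat_lit 296)))) (XT.nd (nat_lit 156) (nat_lit 76) (nat_lit 0) (XT.nd (nat_lit 78) (nat_lit 0) (nat_lit 0) (XT.lf (nat_lit 0) (nat_lit 274768110) (nat_lit 228) (nat_lit 11660832282) (nat_lit 76) (nat_lit 8075617061) (nat_lit 21) (nat_lit 5) (nat_lit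 24) (nat_lit 5) (nat_lit 22) (nat_lit 4) (nat_lit 515) (nat_lit 330) (nat_lit 295)) (XT.lf (nat_lit 0) (nat_lit 4347044214) (nat_lit 228) (nat_lit 3674387752) (nat_lit 76) (nat_lit 12298252305) (nat_lit 21) (nat_lit 5) (nat_lit 24) (nat_lit 5) (nat_lit 22) (nat_lit 4) (nat_lit 516) (nat_lit 330) (nat_lit 294))) (XT.nd (nat_lit 78) (nat_lit 0) (nat_lit 0) (XT.lf (nat_lit 0) (nat_lit 4449988856) (nat_lit 76) (nat_lit 4035289362) (nat_lit 152) (nat_lit 12149360159) (nat_lit 20) (nat_lit 5) (nat_lit 21) (nat_lit 5) (nat_lit 22) (nat_lit 4) (nat_lit 517) (nat_lit 330) (nat_lit 293)) (XT.lf (nat_lit 0) (nat_lit 12687037887) (nat_lit 152) (nat_lit 8249389197) (nat_lit 0) (nat_lit 19857296) (nat_lit 20) (nat_lit 5) (nat_lit 22) (nat_lit 4) (nat_lit 20) (nat_lit 4) (nat_lit 518) (nat_lit 330) (nat_lit 292))))))))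
noncomputable def xc13 : XT := (XT.nd (nat_lit 57174) (nat_lit 0) (nat_lit 760) (XT.nd (nat_lit 1092) (nat_lit 76) (nat_lit 0) (XT.nd (nat_lit 546) (nat_lit 228) (nat_lit 0) (XT.nd (nat_lit 234) (nat_lit 228) (nat_lit 0) (XT.nd (nat_lit 78) (nat_lit 228) (nat_lit 0) (XT.lf (nat_lit 0) (nat_lit 16956166420) (nat_lit 152) (nat_lit 260862390) (nat_lit 0) (nat_lit 4067675701) (nat_lit 20) (nat_lit 5) (nat_lit 22) (nat_lit 4) (nat_lit 20) (nat_lit 4) (nat_lit 519) (nat_lit 330) (nat_lit 291)) (XT.nd (nat_lit 78) (nat_lit 76) (nat_lit 0) (XT.lf (nat_lit 0) (nat_lit 7914057719) (nat_lit 152) (nat_lit 13405463803) (nat_lit 152) (nat_lit 300002369) (nat_lit 18) (nat_lit 4) (nat_lit 20) (nat_lit 5) (nat_lit 20) (nat_lit 4) (nat_lit 520) (nat_lit 330) (nat_lit 290)) (XT.lf (nat_lit 0) (nat_lit 3718419173) (nat_lit 228) (nat_lit 5806971090) (nat_lit 76) (nat_lit 12435976751) (nat_lit 17) (nat_lit 5) (nat_lit 20) (nat_lit 5)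 (nat_lit 18) (nat_lit 4) (nat_lit 521) (nat_lit 330) (nat_lit 289)))) (XT.nd (nat_lit 156) (nat_lit 152) (nat_lit 0) (XT.nd (nat_lit 78) (nat_lit 0) (nat_lit 0) (XT.lf (nat_lit 0) (nat_lit 2200647530) (nat_lit 76) (nat_lit 5585179611) (nat_lit 152) (nat_lit 14524734776) (nat_lit 16) (nat_lit 5) (nat_lit 17) (nat_lit 5) (nat_lit 18) (nat_lit 4) (nat_lit 522) (nat_lit 330) (nat_lit 288)) (XT.lf (nat_lit 0) (nat_lit 10371910233) (nat_lit 76) (nat_lit 1560312479) (nat_lit 152) (nat_lit 10734572356) (nat_lit 16) (nat_lit 5) (nat_lit 17) (nat_lit 5) (nat_lit 18) (nat_lit 4) (nat_lit 523) (nat_lit 330) (nat_lit 287))) (XT.nd (nat_lit 78) (nat_lit 152) (nat_lit 0) (XT.lf (nat_lit 0) (nat_lit 16137336577) (nat_lit 152) (nat_lit 4414428808) (nat_lit 0) (nat_lit 2478878686) (nat_lit 16) (nat_lit 5) (nat_lit 18) (nat_lit 4) (nat_lit 16) (nat_lit 4) (nat_lit 524) (nat_lit 330) (nat_lit 286)) (XT.lf (nat_lit 0) (nat_lit 3587461236)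 (nat_lit 152) (nat_lit 16832781774) (nat_lit 152) (nat_lit 2981660098) (nat_lit 14) (nat_lit 4) (nat_lit 16) (nat_lit 5) (nat_lit 16) (nat_lit 4) (nat_lit 525) (nat_lit 330) (nat_lit 285))))) (XT.nd (nat_lit 234) (nat_lit 76) (nat_lit 0) (XT.nd (nat_lit 78) (nat_lit 76) (nat_lit 0) (XT.lf (nat_lit 0) (nat_lit 984925349) (nat_lit 228) (nat_lit 12050458533) (nat_lit 76) (nat_lit 10745280554) (nat_lit 13) (nat_lit 5) (nat_lit 16) (nat_lit 5) (nat_lit 14) (nat_lit 4) (nat_lit 526) (nat_lit 330) (nat_lit 284)) (XT.nd (nat_lit 78) (nat_lit 76) (nat_lit 0) (XT.lf (nat_lit 0) (nat_lit 4951846352) (nat_lit 228) (nat_lit 4222460522) (nat_lit 76) (nat_lit 14993087840) (nat_lit 13) (nat_lit 5) (nat_lit 16) (nat_lit 5) (nat_lit 14) (nat_lit 4) (nat_lit 527) (nat_lit 330) (nat_lit 283)) (XT.lf (nat_lit 0) (nat_lit 3741045358) (nat_lit 76) (nat_lit 5243007563) (nat_lit 152) (nat_lit 15578094072) (nat_lit 12) (nat_lit 5) (nat_lit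 13) (nat_lit 5) (nat_lit 14) (nat_lit 4) (nat_lit 528) (nat_lit 330) (nat_lit 282)))) (XT.nd (nat_lit 156) (nat_lit 76) (nat_lit 0) (XT.nd (nat_lit 78) (nat_lit 0) (nat_lit 0) (XT.lf (nat_lit 0) (nat_lit 11851402643) (nat_lit 76) (nat_lit 1235793269) (nat_lit 152) (nat_lit 11877798772) (nat_lit 12) (nat_lit 5) (nat_lit 13) (nat_lit 5) (nat_lit 14) (nat_lit 4) (nat_lit 529) (nat_lit 330) (nat_lit 281)) (XT.lf (nat_lit 0) (nat_lit 17253418082) (nat_lit 152) (nat_lit 5339286798) (nat_lit 0) (nat_lit 2783580214) (nat_lit 12) (nat_lit 5) (nat_lit 14) (nat_lit 4) (nat_lit 12) (nat_lit 4) (nat_lit 530) (nat_lit 330) (nat_lit 280))) (XT.nd (nat_lit 78) (nat_lit 0) (nat_lit 0) (XT.lf (nat_lit 0) (nat_lit 2548250777) (nat_lit 76) (nat_lit 18942680234) (nat_lit 76) (nat_lit 4305116946) (nat_lit 11) (nat_lit 4) (nat_lit 12) (nat_lit 5) (nat_lit 12) (nat_lit 4) (nat_lit 531) (nat_lit 330) (nat_lit 279)) (XT.lf (nat_lit 0) (nat_lit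 10598868080) (nat_lit 76) (nat_lit 15213678390) (nat_lit 76) (nat_lit 411678417) (nat_lit 11) (nat_lit 4) (nat_lit 12) (nat_lit 5) (nat_lit 12) (nat_lit 4) (nat_lit 532) (nat_lit 330) (nat_lit 278)))))) (XT.nd (nat_lit 55536) (nat_lit 0) (nat_lit 3344) (XT.nd (nat_lit 55224) (nat_lit 0) (nat_lit 4256) (XT.nd (nat_lit 55068) (nat_lit 0) (nat_lit 4788) (XT.lf (nat_lit 0) (nat_lit 3476939295) (nat_lit 152) (nat_lit 7939795032) (nat_lit 76) (nat_lit 15244494514) (nat_lit 10) (nat_lit 5) (nat_lit 12) (nat_lit 5) (nat_lit 11) (nat_lit 4) (nat_lit 533) (nat_lit 330) (nat_lit 277)) (XT.nd (nat_lit 78) (nat_lit 304) (nat_lit 0) (XT.lf (nat_lit 0) (nat_lit 2976794098) (nat_lit 228) (nat_lit 1545751926) (nat_lit 228) (nat_lit 1545751926) (nat_lit 77) (nat_lit 4) (nat_lit 80) (nat_lit 5) (nat_lit 80) (nat_lit 4) (nat_lit 478) (nat_lit 331) (nat_lit 331)) (XT.lf (nat_lit 0) (nat_lit 1238078108) (nat_lit 304) (nat_lit 10387097598)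 (nat_lit 0) (nat_lit 654082331) (nat_lit 73) (nat_lit 5) (nat_lit 77) (nat_lit 4) (nat_lit 73) (nat_lit 4) (nat_lit 479) (nat_lit 331) (nat_lit 330)))) (XT.nd (nat_lit 156) (nat_lit 304) (nat_lit 0) (XT.nd (nat_lit 78) (nat_lit 228) (nat_lit 0) (XT.lf (nat_lit 0) (nat_lit 5609886386) (nat_lit 304) (nat_lit 2361212392) (nat_lit 0) (nat_lit 4453345730) (nat_lit 73) (nat_lit 5) (nat_lit 77) (nat_lit 4) (nat_lit 73) (nat_lit 4) (nat_lit 480) (nat_lit 331) (nat_lit 329)) (XT.lf (nat_lit 0) (nat_lit 5794628110) (nat_lit 228) (nat_lit 4248156339) (nat_lit 228) (nat_lit 2530297173) (nat_lit 70) (nat_lit 4) (nat_lit 73) (nat_lit 5) (nat_lit 73) (nat_lit 4) (nat_lit 481) (nat_lit 331) (nat_lit 328))) (XT.nd (nat_lit 78) (nat_lit 0) (nat_lit 0) (XT.lf (nat_lit 0) (nat_lit 1319750744) (nat_lit 228) (nat_lit 456448351) (nat_lit 304) (nat_lit 10949059158) (nat_lit 66) (nat_lit 5) (nat_lit 69) (nat_lit 5) (nat_lit 70) (nat_lit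 4) (nat_lit 482) (nat_lit 331) (nat_lit 327)) (XT.lf (nat_lit 0) (nat_lit 6139356282) (nat_lit 304) (nat_lit 3354002399) (nat_lit 0) (nat_lit 3386715833) (nat_lit 66) (nat_lit 5) (nat_lit 70) (nat_lit 4) (nat_lit 66) (nat_lit 4) (nat_lit 483) (nat_lit 331) (nat_lit 326))))) (XT.nd (nat_lit 234) (nat_lit 456) (nat_lit 0) (XT.nd (nat_lit 78) (nat_lit 228) (nat_lit 0) (XT.lf (nat_lit 0) (nat_lit 4813710033) (nat_lit 228) (nat_lit 5748034082) (nat_lit 228) (nat_lit 2476822096) (nat_lit 63) (nat_lit 4) (nat_lit 66) (nat_lit 5) (nat_lit 66) (nat_lit 4) (nat_lit 484) (nat_lit 331) (nat_lit 325)) (XT.nd (nat_lit 78) (nat_lit 152) (nat_lit 0) (XT.lf (nat_lit 0) (nat_lit 1808260813) (nat_lit 304) (nat_lit 126928610) (nat_lit 76) (nat_lit 11265603634) (nat_lit 62) (nat_lit 5) (nat_lit 66) (nat_lit 5) (nat_lit 63) (nat_lit 4) (nat_lit 485) (nat_lit 331) (nat_lit 324)) (XT.lf (nat_lit 0) (nat_lit 6150531480) (nat_lit 228) (nat_lit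 5258965316) (nat_lit 0) (nat_lit 1956364591) (nat_lit 60) (nat_lit 5) (nat_lit 63) (nat_lit 4) (nat_lit 60) (nat_lit 4) (nat_lit 486) (nat_lit 331) (nat_lit 323)))) (XT.nd (nat_lit 156) (nat_lit 152) (nat_lit 0) (XT.nd (nat_lit 78) (nat_lit 76) (nat_lit 0) (XT.lf (nat_lit 0) (nat_lit 2894745429) (nat_lit 228) (nat_lit 7656657222) (nat_lit 228) (nat_lit 2983410390) (nat_lit 57) (nat_lit 4) (nat_lit 60) (nat_lit 5) (nat_lit 60) (nat_lit 4) (nat_lit 487) (nat_lit 331) (nat_lit 322)) (XT.lf (nat_lit 0) (nat_lit 1290583495) (nat_lit 304) (nat_lit 2535954389) (nat_lit 76) (nat_lit 9880950715) (nat_lit 56) (nat_lit 5) (nat_lit 60) (nat_lit 5) (nat_lit 57) (nat_lit 4) (nat_lit 488) (nat_lit 331) (nat_lit 321))) (XT.nd (nat_lit 78) (nat_lit 0) (nat_lit 0) (XT.lf (nat_lit 0) (nat_lit 5588256255) (nat_lit 228) (nat_lit 8200702846) (nat_lit 0) (nat_lit 94717298) (nat_lit 54) (nat_lit 5) (nat_lit 57) (nat_lit 4) (nat_lit 54)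 (nat_lit 4) (nat_lit 489) (nat_lit 331) (nat_lit 320)) (XT.lf (nat_lit 0) (nat_lit 9955177887) (nat_lit 228) (nat_lit 89516801) (nat_lit 0) (nat_lit 4019043116) (nat_lit 54) (nat_lit 5) (nat_lit 57) (nat_lit 4) (nat_lit 54) (nat_lit 4) (nat_lit 490) (nat_lit 331) (nat_lit 319))))))) (XT.nd (nat_lit 1092) (nat_lit 912) (nat_lit 0) (XT.nd (nat_lit 546) (nat_lit 760) (nat_lit 0) (XT.nd (nat_lit 234) (nat_lit 456) (nat_lit 0) (XT.nd (nat_lit 78) (nat_lit 152) (nat_lit 0) (XT.lf (nat_lit 0) (nat_lit 155034892) (nat_lit 304) (nat_lit 6056881752) (nat_lit 76) (nat_lit 8035575449) (nat_lit 50) (nat_lit 5) (nat_lit 54) (nat_lit 5) (nat_lit 51) (nat_lit 4) (nat_lit 491) (nat_lit 331) (nat_lit 318)) (XT.nd (nat_lit 78) (nat_lit 0) (nat_lit 0) (XT.lf (nat_lit 0) (nat_lit 2103208982) (nat_lit 152) (nat_lit 2302073441) (nat_lit 228) (nat_lit 10029982854) (nat_lit 48) (nat_lit 5) (nat_lit 50) (nat_lit 5) (nat_lit 51) (nat_lit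 4) (nat_lit 492) (nat_lit 331) (nat_lit 317)) (XT.lf (nat_lit 0) (nat_lit 8734699247) (nat_lit 228) (nat_lit 4228633991) (nat_lit 0) (nat_lit 1663591958) (nat_lit 48) (nat_lit 5) (nat_lit 51) (nat_lit 4) (nat_lit 48) (nat_lit 4) (nat_lit 493) (nat_lit 331) (nat_lit 316)))) (XT.nd (nat_lit 156) (nat_lit 152) (nat_lit 0) (XT.nd (nat_lit 78) (nat_lit 76) (nat_lit 0) (XT.lf (nat_lit 0) (nat_lit 3975672966) (nat_lit 228) (nat_lit 9159524854) (nat_lit 228) (nat_lit 1687544900) (nat_lit 45) (nat_lit 4) (nat_lit 48) (nat_lit 5) (nat_lit 48) (nat_lit 4) (nat_lit 494) (nat_lit 331) (nat_lit 315)) (XT.lf (nat_lit 0) (nat_lit 2539204893) (nat_lit 304) (nat_lit 2735798486) (nat_lit 76) (nat_lit 9747707339) (nat_lit 44) (nat_lit 5) (nat_lit 48) (nat_lit 5) (nat_lit 45) (nat_lit 4) (nat_lit 495) (nat_lit 331) (nat_lit 314))) (XT.nd (nat_lit 78) (nat_lit 0) (nat_lit 0) (XT.lf (nat_lit 0) (nat_lit 5502414132) (nat_lit 152) (nat_lit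 1305859527) (nat_lit 228) (nat_lit 8418587169) (nat_lit 42) (nat_lit 5) (nat_lit 44) (nat_lit 5) (nat_lit 45) (nat_lit 4) (nat_lit 496) (nat_lit 331) (nat_lit 313)) (XT.lf (nat_lit 0) (nat_lit 11143845159) (nat_lit 228) (nat_lit 1606666861) (nat_lit 0) (nat_lit 2684972681) (nat_lit 42) (nat_lit 5) (nat_lit 45) (nat_lit 4) (nat_lit 42) (nat_lit 4) (nat_lit 497) (nat_lit 331) (nat_lit 312))))) (XT.nd (nat_lit 234) (nat_lit 380) (nat_lit 0) (XT.nd (nat_lit 78) (nat_lit 228) (nat_lit 0) (XT.lf (nat_lit 0) (nat_lit 6657540464) (nat_lit 152) (nat_lit 8906376470) (nat_lit 152) (nat_lit 84421268) (nat_lit 40) (nat_lit 4) (nat_lit 42) (nat_lit 5) (nat_lit 42) (nat_lit 4) (nat_lit 498) (nat_lit 331) (nat_lit 311)) (XT.nd (nat_lit 78) (nat_lit 152) (nat_lit 0) (XT.lf (nat_lit 0) (nat_lit 4108617807) (nat_lit 228) (nat_lit 878510685) (nat_lit 76) (nat_lit 10878649396) (nat_lit 39) (nat_lit 5) (nat_lit 42) (nat_lit 5) (nat_lit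 40) (nat_lit 4) (nat_lit 499) (nat_lit 331) (nat_lit 310)) (XT.lf (nat_lit 0) (nat_lit 7399665265) (nat_lit 152) (nat_lit 979823695) (nat_lit 228) (nat_lit 7708176396) (nat_lit 37) (nat_lit 5) (nat_lit 39) (nat_lit 5) (nat_lit 40) (nat_lit 4) (nat_lit 500) (nat_lit 331) (nat_lit 309)))) (XT.nd (nat_lit 156) (nat_lit 152) (nat_lit 0) (XT.nd (nat_lit 78) (nat_lit 228) (nat_lit 0) (XT.lf (nat_lit 0) (nat_lit 12709127013) (nat_lit 228) (nat_lit 571814238) (nat_lit 0) (nat_lit 3033594274) (nat_lit 37) (nat_lit 5) (nat_lit 40) (nat_lit 4) (nat_lit 37) (nat_lit 4) (nat_lit 501) (nat_lit 331) (nat_lit 308)) (XT.lf (nat_lit 0) (nat_lit 576656957) (nat_lit 228) (nat_lit 8839540893) (nat_lit 76) (nat_lit 7129584661) (nat_lit 34) (nat_lit 5) (nat_lit 37) (nat_lit 5) (nat_lit 35) (nat_lit 4) (nat_lit 502) (nat_lit 331) (nat_lit 307))) (XT.nd (nat_lit 78) (nat_lit 152) (nat_lit 0) (XT.lf (nat_lit 0) (nat_lit 4746342817) (nat_lit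 228) (nat_lit 739182524) (nat_lit 76) (nat_lit 11296618606) (nat_lit 34) (nat_lit 5) (nat_lit 37) (nat_lit 5) (nat_lit 35) (nat_lit 4) (nat_lit 503) (nat_lit 331) (nat_lit 306)) (XT.lf (nat_lit 0) (nat_lit 7532450665) (nat_lit 152) (nat_lit 1465237969) (nat_lit 228) (nat_lit 8025589686) (nat_lit 32) (nat_lit 5) (nat_lit 34) (nat_lit 5) (nat_lit 35) (nat_lit 4) (nat_lit 504) (nat_lit 331) (nat_lit 305)))))) (XT.nd (nat_lit 546) (nat_lit 380) (nat_lit 0) (XT.nd (nat_lit 234) (nat_lit 304) (nat_lit 0) (XT.nd (nat_lit 78) (nat_lit 228) (nat_lit 0) (XT.lf (nat_lit 0) (nat_lit 13305690415) (nat_lit 228) (nat_lit 1396440617) (nat_lit 0) (nat_lit 2567682585) (nat_lit 32) (nat_lit 5) (nat_lit 35) (nat_lit 4) (nat_lit 32) (nat_lit 4) (nat_lit 505) (nat_lit 331) (nat_lit 304)) (XT.nd (nat_lit 78) (nat_lit 0) (nat_lit 0) (XT.lf (nat_lit 0) (nat_lit 180957449) (nat_lit 228) (nat_lit 10670328076) (nat_lit 76) (nat_lit 6669886767)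 (nat_lit 29) (nat_lit 5) (nat_lit 32) (nat_lit 5) (nat_lit 30) (nat_lit 4) (nat_lit 506) (nat_lit 331) (nat_lit 303)) (XT.lf (nat_lit 0) (nat_lit 4315924911) (nat_lit 228) (nat_lit 2609707816) (nat_lit 76) (nat_lit 10852210252) (nat_lit 29) (nat_lit 5) (nat_lit 32) (nat_lit 5) (nat_lit 30) (nat_lit 4) (nat_lit 507) (nat_lit 331) (nat_lit 302)))) (XT.nd (nat_lit 156) (nat_lit 228) (nat_lit 0) (XT.nd (nat_lit 78) (nat_lit 0) (nat_lit 0) (XT.lf (nat_lit 0) (nat_lit 5599259723) (nat_lit 76) (nat_lit 2922237361) (nat_lit 152) (nat_lit 9518401884) (nat_lit 28) (nat_lit 5) (nat_lit 29) (nat_lit 5) (nat_lit 30) (nat_lit 4) (nat_lit 508) (nat_lit 331) (nat_lit 301)) (XT.lf (nat_lit 0) (nat_lit 12788048610) (nat_lit 152) (nat_lit 4393178297) (nat_lit 0) (nat_lit 1126441607) (nat_lit 28) (nat_lit 5) (nat_lit 30) (nat_lit 4) (nat_lit 28) (nat_lit 4) (nat_lit 509) (nat_lit 331) (nat_lit 300))) (XT.nd (nat_lit 78) (nat_lit 76)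 (nat_lit 0) (XT.lf (nat_lit 0) (nat_lit 3760434414) (nat_lit 152) (nat_lit 13375911581) (nat_lit 152) (nat_lit 1444528766) (nat_lit 26) (nat_lit 4) (nat_lit 28) (nat_lit 5) (nat_lit 28) (nat_lit 4) (nat_lit 510) (nat_lit 331) (nat_lit 299)) (XT.lf (nat_lit 0) (nat_lit 2658879195) (nat_lit 228) (nat_lit 6824932929) (nat_lit 76) (nat_lit 9375742387) (nat_lit 25) (nat_lit 5) (nat_lit 28) (nat_lit 5) (nat_lit 26) (nat_lit 4) (nat_lit 511) (nat_lit 331) (nat_lit 298))))) (XT.nd (nat_lit 312) (nat_lit 152) (nat_lit 0) (XT.nd (nat_lit 156) (nat_lit 152) (nat_lit 0) (XT.nd (nat_lit 78) (nat_lit 0) (nat_lit 0) (XT.lf (nat_lit 0) (nat_lit 1254186992) (nat_lit 76) (nat_lit 5532622901) (nat_lit 152) (nat_lit 12357580111) (nat_lit 24) (nat_lit 5) (nat_lit 25) (nat_lit 5) (nat_lit 26) (nat_lit 4) (nat_lit 512) (nat_lit 331) (nat_lit 297)) (XT.lf (nat_lit 0) (nat_lit 9504770195) (nat_lit 76) (nat_lit 1492336221) (nat_lit 152)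 (nat_lit 8437828520) (nat_lit 24) (nat_lit 5) (nat_lit 25) (nat_lit 5) (nat_lit 26) (nat_lit 4) (nat_lit 513) (nat_lit 331) (nat_lit 296))) (XT.nd (nat_lit 78) (nat_lit 152) (nat_lit 0) (XT.lf (nat_lit 0) (nat_lit 15263353379) (nat_lit 152) (nat_lit 1909683224) (nat_lit 0) (nat_lit 2558827972) (nat_lit 24) (nat_lit 5) (nat_lit 26) (nat_lit 4) (nat_lit 24) (nat_lit 4) (nat_lit 514) (nat_lit 331) (nat_lit 295)) (XT.lf (nat_lit 0) (nat_lit 6263382156) (nat_lit 152) (nat_lit 13357657749) (nat_lit 152) (nat_lit 413579141) (nat_lit 22) (nat_lit 4) (nat_lit 24) (nat_lit 5) (nat_lit 24) (nat_lit 4) (nat_lit 515) (nat_lit 331) (nat_lit 294)))) (XT.nd (nat_lit 156) (nat_lit 0) (nat_lit 0) (XT.nd (nat_lit 78) (nat_lit 76) (nat_lit 0) (XT.lf (nat_lit 0) (nat_lit 3642150879) (nat_lit 228) (nat_lit 5821789910) (nat_lit 76) (nat_lit 10879642243) (nat_lit 21) (nat_lit 5) (nat_lit 24) (nat_lit 5) (nat_lit 22) (nat_lit 4) (nat_lit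 516) (nat_lit 331) (nat_lit 293)) (XT.lf (nat_lit 0) (nat_lit 2234627144) (nat_lit 76) (nat_lit 5509834681) (nat_lit 152) (nat_lit 12914797751) (nat_lit 20) (nat_lit 5) (nat_lit 21) (nat_lit 5) (nat_lit 22) (nat_lit 4) (nat_lit 517) (nat_lit 331) (nat_lit 292))) (XT.nd (nat_lit 78) (nat_lit 0) (nat_lit 0) (XT.lf (nat_lit 0) (nat_lit 10453017991) (nat_lit 76) (nat_lit 1471704813) (nat_lit 152) (nat_lit 9056616651) (nat_lit 20) (nat_lit 5) (nat_lit 21) (nat_lit 5) (nat_lit 22) (nat_lit 4) (nat_lit 518) (nat_lit 331) (nat_lit 291)) (XT.lf (nat_lit 0) (nat_lit 16163236988) (nat_lit 152) (nat_lit 2568443099) (nat_lit 0) (nat_lit 2578695611) (nat_lit 20) (nat_lit 5) (nat_lit 22) (nat_lit 4) (nat_lit 20) (nat_lit 4) (nat_lit 519) (nat_lit 331) (nat_lit 290))))))))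
noncomputable def xc14 : XT := (XT.nd (nat_lit 57018) (nat_lit 0) (nat_lit 760) (XT.nd (nat_lit 55926) (nat_lit 0) (nat_lit 3344) (XT.nd (nat_lit 546) (nat_lit 304) (nat_lit 0) (XT.nd (nat_lit 234) (nat_lit 228) (nat_lit 0) (XT.nd (nat_lit 78) (nat_lit 76) (nat_lit 0) (XT.lf (nat_lit 0) (nat_lit 5537858093) (nat_lit 152) (nat_lit 14952659988) (nat_lit 152) (nat_lit 1155402225) (nat_lit 18) (nat_lit 4) (nat_lit 20) (nat_lit 5) (nat_lit 20) (nat_lit 4) (nat_lit 520) (nat_lit 331) (nat_lit 289)) (XT.nd (nat_lit 78) (nat_lit 0) (nat_lit 0) (XT.lf (nat_lit 0) (nat_lit 2853615866) (nat_lit 228) (nat_lit 8241499189) (nat_lit 76) (nat_lit 10893175498) (nat_lit 17) (nat_lit 5) (nat_lit 20) (nat_lit 5) (nat_lit 18) (nat_lit 4) (nat_lit 521) (nat_lit 331) (nat_lit 288)) (XT.lf (nat_lit 0) (nat_lit 6886517955) (nat_lit 228) (nat_lit 299493320) (nat_lit 76) (nat_lit 15152167833) (nat_lit 17) (nat_lit 5) (nat_lit 20) (nat_lit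 5) (nat_lit 18) (nat_lit 4) (nat_lit 522) (nat_lit 331) (nat_lit 287)))) (XT.nd (nat_lit 156) (nat_lit 152) (nat_lit 0) (XT.nd (nat_lit 78) (nat_lit 0) (nat_lit 0) (XT.lf (nat_lit 0) (nat_lit 7831280191) (nat_lit 76) (nat_lit 3179604552) (nat_lit 152) (nat_lit 11683971555) (nat_lit 16) (nat_lit 5) (nat_lit 17) (nat_lit 5) (nat_lit 18) (nat_lit 4) (nat_lit 523) (nat_lit 331) (nat_lit 286)) (XT.lf (nat_lit 0) (nat_lit 15185715248) (nat_lit 152) (nat_lit 7008691763) (nat_lit 0) (nat_lit 864907353) (nat_lit 16) (nat_lit 5) (nat_lit 18) (nat_lit 4) (nat_lit 16) (nat_lit 4) (nat_lit 524) (nat_lit 331) (nat_lit 285))) (XT.nd (nat_lit 78) (nat_lit 0) (nat_lit 0) (XT.lf (nat_lit 0) (nat_lit 922874092) (nat_lit 152) (nat_lit 18509065123) (nat_lit 152) (nat_lit 3999371164) (nat_lit 14) (nat_lit 4) (nat_lit 16) (nat_lit 5) (nat_lit 16) (nat_lit 4) (nat_lit 525) (nat_lit 331) (nat_lit 284)) (XT.lf (nat_lit 0) (nat_lit 9037083227)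 (nat_lit 152) (nat_lit 14734191161) (nat_lit 152) (nat_lit 39314787) (nat_lit 14) (nat_lit 4) (nat_lit 16) (nat_lit 5) (nat_lit 16) (nat_lit 4) (nat_lit 526) (nat_lit 331) (nat_lit 283))))) (XT.nd (nat_lit 234) (nat_lit 152) (nat_lit 0) (XT.nd (nat_lit 78) (nat_lit 76) (nat_lit 0) (XT.lf (nat_lit 0) (nat_lit 3909140548) (nat_lit 228) (nat_lit 6979963854) (nat_lit 76) (nat_lit 13308602919) (nat_lit 13) (nat_lit 5) (nat_lit 16) (nat_lit 5) (nat_lit 14) (nat_lit 4) (nat_lit 527) (nat_lit 331) (nat_lit 282)) (XT.nd (nat_lit 78) (nat_lit 0) (nat_lit 0) (XT.lf (nat_lit 0) (nat_lit 912413448) (nat_lit 76) (nat_lit 6991959208) (nat_lit 152) (nat_lit 16688829508) (nat_lit 12) (nat_lit 5) (nat_lit 13) (nat_lit 5) (nat_lit 14) (nat_lit 4) (nat_lit 528) (nat_lit 331) (nat_lit 281)) (XT.lf (nat_lit 0) (nat_lit 8988964055) (nat_lit 76) (nat_lit 3000087875) (nat_lit 152) (nat_lit 13007370215) (nat_lit 12) (nat_lit 5) (nat_lit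 13) (nat_lit 5) (nat_lit 14) (nat_lit 4) (nat_lit 529) (nat_lit 331) (nat_lit 280)))) (XT.nd (nat_lit 156) (nat_lit 152) (nat_lit 0) (XT.nd (nat_lit 78) (nat_lit 0) (nat_lit 0) (XT.lf (nat_lit 0) (nat_lit 16125619783) (nat_lit 152) (nat_lit 8255109004) (nat_lit 0) (nat_lit 1027579810) (nat_lit 12) (nat_lit 5) (nat_lit 14) (nat_lit 4) (nat_lit 12) (nat_lit 4) (nat_lit 530) (nat_lit 331) (nat_lit 279)) (XT.lf (nat_lit 0) (nat_lit 20328745281) (nat_lit 152) (nat_lit 433748203) (nat_lit 0) (nat_lit 5066268623) (nat_lit 12) (nat_lit 5) (nat_lit 14) (nat_lit 4) (nat_lit 12) (nat_lit 4) (nat_lit 531) (nat_lit 331) (nat_lit 278))) (XT.nd (nat_lit 78) (nat_lit 76) (nat_lit 0) (XT.lf (nat_lit 0) (nat_lit 7578564305) (nat_lit 76) (nat_lit 17051238909) (nat_lit 76) (nat_lit 1627549815) (nat_lit 11) (nat_lit 4) (nat_lit 12) (nat_lit 5) (nat_lit 12) (nat_lit 4) (nat_lit 532) (nat_lit 331) (nat_lit 277)) (XT.lf (nat_lit 0) (nat_lit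 2259539792) (nat_lit 152) (nat_lit 11017470122) (nat_lit 76) (nat_lit 13417857176) (nat_lit 10) (nat_lit 5) (nat_lit 12) (nat_lit 5) (nat_lit 11) (nat_lit 4) (nat_lit 533) (nat_lit 331) (nat_lit 276)))))) (XT.nd (nat_lit 546) (nat_lit 912) (nat_lit 0) (XT.nd (nat_lit 234) (nat_lit 836) (nat_lit 0) (XT.nd (nat_lit 78) (nat_lit 228) (nat_lit 0) (XT.lf (nat_lit 0) (nat_lit 438593198) (nat_lit 304) (nat_lit 5053086618) (nat_lit 0) (nat_lit 438593198) (nat_lit 80) (nat_lit 5) (nat_lit 84) (nat_lit 4) (nat_lit 80) (nat_lit 4) (nat_lit 476) (nat_lit 332) (nat_lit 332)) (XT.nd (nat_lit 78) (nat_lit 228) (nat_lit 0) (XT.lf (nat_lit 0) (nat_lit 5218455217) (nat_lit 304) (nat_lit 2167938563) (nat_lit 0) (nat_lit 4610866011) (nat_lit 80) (nat_lit 5) (nat_lit 84) (nat_lit 4) (nat_lit 80) (nat_lit 4) (nat_lit 477) (nat_lit 332) (nat_lit 331)) (XT.lf (nat_lit 0) (nat_lit 5900385543) (nat_lit 228) (nat_lit 3720065183) (nat_lit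 228) (nat_lit 2516800283) (nat_lit 77) (nat_lit 4) (nat_lit 80) (nat_lit 5) (nat_lit 80) (nat_lit 4) (nat_lit 478) (nat_lit 332) (nat_lit 330)))) (XT.nd (nat_lit 156) (nat_lit 532) (nat_lit 0) (XT.nd (nat_lit 78) (nat_lit 0) (nat_lit 0) (XT.lf (nat_lit 0) (nat_lit 1768505472) (nat_lit 304) (nat_lit 10495788794) (nat_lit 0) (nat_lit 16289123) (nat_lit 73) (nat_lit 5) (nat_lit 77) (nat_lit 4) (nat_lit 73) (nat_lit 4) (nat_lit 479) (nat_lit 332) (nat_lit 329)) (XT.lf (nat_lit 0) (nat_lit 6108645953) (nat_lit 304) (nat_lit 2522656062) (nat_lit 0) (nat_lit 3795111095) (nat_lit 73) (nat_lit 5) (nat_lit 77) (nat_lit 4) (nat_lit 73) (nat_lit 4) (nat_lit 480) (nat_lit 332) (nat_lit 328))) (XT.nd (nat_lit 78) (nat_lit 304) (nat_lit 0) (XT.lf (nat_lit 0) (nat_lit 5578633521) (nat_lit 228) (nat_lit 4930461255) (nat_lit 228) (nat_lit 2066614132) (nat_lit 70) (nat_lit 4) (nat_lit 73) (nat_lit 5) (nat_lit 73) (nat_lit 4) (nat_lit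 481) (nat_lit 332) (nat_lit 327)) (XT.lf (nat_lit 0) (nat_lit 1042685616) (nat_lit 228) (nat_lit 1158331496) (nat_lit 304) (nat_lit 10527473216) (nat_lit 66) (nat_lit 5) (nat_lit 69) (nat_lit 5) (nat_lit 70) (nat_lit 4) (nat_lit 482) (nat_lit 332) (nat_lit 326))))) (XT.nd (nat_lit 234) (nat_lit 608) (nat_lit 0) (XT.nd (nat_lit 78) (nat_lit 304) (nat_lit 0) (XT.lf (nat_lit 0) (nat_lit 6528771102) (nat_lit 304) (nat_lit 3681689350) (nat_lit 0) (nat_lit 2673563339) (nat_lit 66) (nat_lit 5) (nat_lit 70) (nat_lit 4) (nat_lit 66) (nat_lit 4) (nat_lit 483) (nat_lit 332) (nat_lit 325)) (XT.nd (nat_lit 78) (nat_lit 76) (nat_lit 0) (XT.lf (nat_lit 0) (nat_lit 4430063211) (nat_lit 228) (nat_lit 6488363557) (nat_lit 228) (nat_lit 2124752326) (nat_lit 63) (nat_lit 4) (nat_lit 66) (nat_lit 5) (nat_lit 66) (nat_lit 4) (nat_lit 484) (nat_lit 332) (nat_lit 324)) (XT.lf (nat_lit 0) (nat_lit 2125529136) (nat_lit 304) (nat_lit 568477148)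 (nat_lit 76) (nat_lit 10511966231) (nat_lit 62) (nat_lit 5) (nat_lit 66) (nat_lit 5) (nat_lit 63) (nat_lit 4) (nat_lit 485) (nat_lit 332) (nat_lit 323)))) (XT.nd (nat_lit 156) (nat_lit 228) (nat_lit 0) (XT.nd (nat_lit 78) (nat_lit 228) (nat_lit 0) (XT.lf (nat_lit 0) (nat_lit 6429893086) (nat_lit 228) (nat_lit 5757812963) (nat_lit 0) (nat_lit 1184101375) (nat_lit 60) (nat_lit 5) (nat_lit 63) (nat_lit 4) (nat_lit 60) (nat_lit 4) (nat_lit 486) (nat_lit 332) (nat_lit 322)) (XT.lf (nat_lit 0) (nat_lit 2338465219) (nat_lit 228) (nat_lit 8459220816) (nat_lit 228) (nat_lit 2743742886) (nat_lit 57) (nat_lit 4) (nat_lit 60) (nat_lit 5) (nat_lit 60) (nat_lit 4) (nat_lit 487) (nat_lit 332) (nat_lit 321))) (XT.nd (nat_lit 78) (nat_lit 152) (nat_lit 0) (XT.lf (nat_lit 0) (nat_lit 1497694161) (nat_lit 304) (nat_lit 3150612408) (nat_lit 76) (nat_lit 9066363017) (nat_lit 56) (nat_lit 5) (nat_lit 60) (nat_lit 5) (nat_lit 57) (nat_lit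 4) (nat_lit 488) (nat_lit 332) (nat_lit 320)) (XT.lf (nat_lit 0) (nat_lit 5010907109) (nat_lit 152) (nat_lit 750632224) (nat_lit 228) (nat_lit 8130002405) (nat_lit 54) (nat_lit 5) (nat_lit 56) (nat_lit 5) (nat_lit 57) (nat_lit 4) (nat_lit 489) (nat_lit 332) (nat_lit 319))))))) (XT.nd (nat_lit 1092) (nat_lit 1064) (nat_lit 0) (XT.nd (nat_lit 546) (nat_lit 608) (nat_lit 0) (XT.nd (nat_lit 234) (nat_lit 456) (nat_lit 0) (XT.nd (nat_lit 78) (nat_lit 456) (nat_lit 0) (XT.lf (nat_lit 0) (nat_lit 10094866639) (nat_lit 228) (nat_lit 813920145) (nat_lit 0) (nat_lit 3163495895) (nat_lit 54) (nat_lit 5) (nat_lit 57) (nat_lit 4) (nat_lit 54) (nat_lit 4) (nat_lit 490) (nat_lit 332) (nat_lit 318)) (XT.nd (nat_lit 78) (nat_lit 152) (nat_lit 0) (XT.lf (nat_lit 0) (nat_lit 250989592) (nat_lit 304) (nat_lit 6849781046) (nat_lit 76) (nat_lit 7155926036) (nat_lit 50) (nat_lit 5) (nat_lit 54) (nat_lit 5) (nat_lit 51) (nat_lit 4) (nat_lit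 491) (nat_lit 332) (nat_lit 317)) (XT.lf (nat_lit 0) (nat_lit 1250688625) (nat_lit 152) (nat_lit 3216903735) (nat_lit 228) (nat_lit 9977557600) (nat_lit 48) (nat_lit 5) (nat_lit 50) (nat_lit 5) (nat_lit 51) (nat_lit 4) (nat_lit 492) (nat_lit 332) (nat_lit 316)))) (XT.nd (nat_lit 156) (nat_lit 228) (nat_lit 0) (XT.nd (nat_lit 78) (nat_lit 228) (nat_lit 0) (XT.lf (nat_lit 0) (nat_lit 8763067117) (nat_lit 228) (nat_lit 5133653771) (nat_lit 0) (nat_lit 740774898) (nat_lit 48) (nat_lit 5) (nat_lit 51) (nat_lit 4) (nat_lit 48) (nat_lit 4) (nat_lit 493) (nat_lit 332) (nat_lit 315)) (XT.lf (nat_lit 0) (nat_lit 3010390961) (nat_lit 228) (nat_lit 10119454161) (nat_lit 228) (nat_lit 1704149526) (nat_lit 45) (nat_lit 4) (nat_lit 48) (nat_lit 5) (nat_lit 48) (nat_lit 4) (nat_lit 494) (nat_lit 332) (nat_lit 314))) (XT.nd (nat_lit 78) (nat_lit 152) (nat_lit 0) (XT.lf (nat_lit 0) (nat_lit 2495409009) (nat_lit 304) (nat_lit 3759884725)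 (nat_lit 76) (nat_lit 8779225907) (nat_lit 44) (nat_lit 5) (nat_lit 48) (nat_lit 5) (nat_lit 45) (nat_lit 4) (nat_lit 495) (nat_lit 332) (nat_lit 313)) (XT.lf (nat_lit 0) (nat_lit 4417371766) (nat_lit 152) (nat_lit 2313189599) (nat_lit 228) (nat_lit 8508793245) (nat_lit 42) (nat_lit 5) (nat_lit 44) (nat_lit 5) (nat_lit 45) (nat_lit 4) (nat_lit 496) (nat_lit 332) (nat_lit 312))))) (XT.nd (nat_lit 234) (nat_lit 380) (nat_lit 0) (XT.nd (nat_lit 78) (nat_lit 228) (nat_lit 0) (XT.lf (nat_lit 0) (nat_lit 11032818153) (nat_lit 228) (nat_lit 2744491897) (nat_lit 0) (nat_lit 1671341125) (nat_lit 42) (nat_lit 5) (nat_lit 45) (nat_lit 4) (nat_lit 42) (nat_lit 4) (nat_lit 497) (nat_lit 332) (nat_lit 311)) (XT.nd (nat_lit 78) (nat_lit 76) (nat_lit 0) (XT.lf (nat_lit 0) (nat_lit 5458073274) (nat_lit 152) (nat_lit 9960779451) (nat_lit 152) (nat_lit 243338968) (nat_lit 40) (nat_lit 4) (nat_lit 42) (nat_lit 5) (nat_lit 42) (nat_lit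 4) (nat_lit 498) (nat_lit 332) (nat_lit 310)) (XT.lf (nat_lit 0) (nat_lit 3925574987) (nat_lit 228) (nat_lit 2136762787) (nat_lit 76) (nat_lit 9817844459) (nat_lit 39) (nat_lit 5) (nat_lit 42) (nat_lit 5) (nat_lit 40) (nat_lit 4) (nat_lit 499) (nat_lit 332) (nat_lit 309)))) (XT.nd (nat_lit 156) (nat_lit 228) (nat_lit 0) (XT.nd (nat_lit 78) (nat_lit 0) (nat_lit 0) (XT.lf (nat_lit 0) (nat_lit 6079030825) (nat_lit 152) (nat_lit 2083145435) (nat_lit 228) (nat_lit 7940584751) (nat_lit 37) (nat_lit 5) (nat_lit 39) (nat_lit 5) (nat_lit 40) (nat_lit 4) (nat_lit 500) (nat_lit 332) (nat_lit 308)) (XT.lf (nat_lit 0) (nat_lit 12459043358) (nat_lit 228) (nat_lit 1945536598) (nat_lit 0) (nat_lit 1925712441) (nat_lit 37) (nat_lit 5) (nat_lit 40) (nat_lit 4) (nat_lit 37) (nat_lit 4) (nat_lit 501) (nat_lit 332) (nat_lit 307))) (XT.nd (nat_lit 78) (nat_lit 0) (nat_lit 0) (XT.lf (nat_lit 0) (nat_lit 279635075) (nat_lit 228) (nat_lit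 10290875133) (nat_lit 76) (nat_lit 5991762626) (nat_lit 34) (nat_lit 5) (nat_lit 37) (nat_lit 5) (nat_lit 35) (nat_lit 4) (nat_lit 502) (nat_lit 332) (nat_lit 306)) (XT.lf (nat_lit 0) (nat_lit 4424251912) (nat_lit 228) (nat_lit 2234834482) (nat_lit 76) (nat_lit 10140054717) (nat_lit 34) (nat_lit 5) (nat_lit 37) (nat_lit 5) (nat_lit 35) (nat_lit 4) (nat_lit 503) (nat_lit 332) (nat_lit 305)))))) (XT.nd (nat_lit 546) (nat_lit 456) (nat_lit 0) (XT.nd (nat_lit 234) (nat_lit 304) (nat_lit 0) (XT.nd (nat_lit 78) (nat_lit 152) (nat_lit 0) (XT.lf (nat_lit 0) (nat_lit 5972896126) (nat_lit 152) (nat_lit 2667998467) (nat_lit 228) (nat_lit 8400080309) (nat_lit 32) (nat_lit 5) (nat_lit 34) (nat_lit 5) (nat_lit 35) (nat_lit 4) (nat_lit 504) (nat_lit 332) (nat_lit 304)) (XT.nd (nat_lit 78) (nat_lit 152) (nat_lit 0) (XT.lf (nat_lit 0) (nat_lit 12916589473) (nat_lit 228) (nat_lit 3009416303) (nat_lit 0) (nat_lit 1362155811) (nat_lit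 32) (nat_lit 5) (nat_lit 35) (nat_lit 4) (nat_lit 32) (nat_lit 4) (nat_lit 505) (nat_lit 332) (nat_lit 303)) (XT.lf (nat_lit 0) (nat_lit 5174399974) (nat_lit 152) (nat_lit 12106147559) (nat_lit 152) (nat_lit 259699883) (nat_lit 30) (nat_lit 4) (nat_lit 32) (nat_lit 5) (nat_lit 32) (nat_lit 4) (nat_lit 506) (nat_lit 332) (nat_lit 302)))) (XT.nd (nat_lit 156) (nat_lit 152) (nat_lit 0) (XT.nd (nat_lit 78) (nat_lit 76) (nat_lit 0) (XT.lf (nat_lit 0) (nat_lit 3854689061) (nat_lit 228) (nat_lit 4346264021) (nat_lit 76) (nat_lit 9596483383) (nat_lit 29) (nat_lit 5) (nat_lit 32) (nat_lit 5) (nat_lit 30) (nat_lit 4) (nat_lit 507) (nat_lit 332) (nat_lit 301)) (XT.lf (nat_lit 0) (nat_lit 3797183692) (nat_lit 76) (nat_lit 4227863027) (nat_lit 152) (nat_lit 10035154876) (nat_lit 28) (nat_lit 5) (nat_lit 29) (nat_lit 5) (nat_lit 30) (nat_lit 4) (nat_lit 508) (nat_lit 332) (nat_lit 300))) (XT.nd (nat_lit 78) (nat_lit 152) (nat_lit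 0) (XT.lf (nat_lit 0) (nat_lit 12078363488) (nat_lit 76) (nat_lit 182500619) (nat_lit 152) (nat_lit 6067726472) (nat_lit 28) (nat_lit 5) (nat_lit 29) (nat_lit 5) (nat_lit 30) (nat_lit 4) (nat_lit 509) (nat_lit 332) (nat_lit 299)) (XT.lf (nat_lit 0) (nat_lit 1838220938) (nat_lit 152) (nat_lit 14734292937) (nat_lit 152) (nat_lit 2030020564) (nat_lit 26) (nat_lit 4) (nat_lit 28) (nat_lit 5) (nat_lit 28) (nat_lit 4) (nat_lit 510) (nat_lit 332) (nat_lit 298))))) (XT.nd (nat_lit 312) (nat_lit 304) (nat_lit 0) (XT.nd (nat_lit 156) (nat_lit 76) (nat_lit 0) (XT.nd (nat_lit 78) (nat_lit 0) (nat_lit 0) (XT.lf (nat_lit 0) (nat_lit 2058113615) (nat_lit 228) (nat_lit 8806182958) (nat_lit 76) (nat_lit 8017457178) (nat_lit 25) (nat_lit 5) (nat_lit 28) (nat_lit 5) (nat_lit 26) (nat_lit 4) (nat_lit 511) (nat_lit 332) (nat_lit 297)) (XT.lf (nat_lit 0) (nat_lit 6155398738) (nat_lit 228) (nat_lit 783882782) (nat_lit 76) (nat_lit 12227925027)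 (nat_lit 25) (nat_lit 5) (nat_lit 28) (nat_lit 5) (nat_lit 26) (nat_lit 4) (nat_lit 512) (nat_lit 332) (nat_lit 296))) (XT.nd (nat_lit 78) (nat_lit 0) (nat_lit 0) (XT.lf (nat_lit 0) (nat_lit 7416177769) (nat_lit 76) (nat_lit 2922038642) (nat_lit 152) (nat_lit 9120088952) (nat_lit 24) (nat_lit 5) (nat_lit 25) (nat_lit 5) (nat_lit 26) (nat_lit 4) (nat_lit 513) (nat_lit 332) (nat_lit 295)) (XT.lf (nat_lit 0) (nat_lit 14573183557) (nat_lit 152) (nat_lit 4052011089) (nat_lit 0) (nat_lit 1130670176) (nat_lit 24) (nat_lit 5) (nat_lit 26) (nat_lit 4) (nat_lit 24) (nat_lit 4) (nat_lit 514) (nat_lit 332) (nat_lit 294)))) (XT.nd (nat_lit 156) (nat_lit 76) (nat_lit 0) (XT.nd (nat_lit 78) (nat_lit 76) (nat_lit 0) (XT.lf (nat_lit 0) (nat_lit 4053197133) (nat_lit 152) (nat_lit 14841757038) (nat_lit 152) (nat_lit 1164387579) (nat_lit 22) (nat_lit 4) (nat_lit 24) (nat_lit 5) (nat_lit 24) (nat_lit 4) (nat_lit 515) (nat_lit 332)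 (nat_lit 293)) (XT.lf (nat_lit 0) (nat_lit 2879649969) (nat_lit 228) (nat_lit 8090727577) (nat_lit 76) (nat_lit 9398460452) (nat_lit 21) (nat_lit 5) (nat_lit 24) (nat_lit 5) (nat_lit 22) (nat_lit 4) (nat_lit 516) (nat_lit 332) (nat_lit 292))) (XT.nd (nat_lit 78) (nat_lit 76) (nat_lit 0) (XT.lf (nat_lit 0) (nat_lit 6946335118) (nat_lit 228) (nat_lit 101759908) (nat_lit 76) (nat_lit 13637135934) (nat_lit 21) (nat_lit 5) (nat_lit 24) (nat_lit 5) (nat_lit 22) (nat_lit 4) (nat_lit 517) (nat_lit 332) (nat_lit 291)) (XT.lf (nat_lit 0) (nat_lit 8077387686) (nat_lit 76) (nat_lit 3027589869) (nat_lit 152) (nat_lit 9902769480) (nat_lit 20) (nat_lit 5) (nat_lit 21) (nat_lit 5) (nat_lit 22) (nat_lit 4) (nat_lit 518) (nat_lit 332) (nat_lit 290))))))))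
noncomputable def xc15 : XT := (XT.nd (nat_lit 56862) (nat_lit 0) (nat_lit 912) (XT.nd (nat_lit 1092) (nat_lit 76) (nat_lit 0) (XT.nd (nat_lit 546) (nat_lit 380) (nat_lit 0) (XT.nd (nat_lit 234) (nat_lit 76) (nat_lit 0) (XT.nd (nat_lit 78) (nat_lit 228) (nat_lit 0) (XT.lf (nat_lit 0) (nat_lit 15312743757) (nat_lit 152) (nat_lit 4997833777) (nat_lit 0) (nat_lit 1026824452) (nat_lit 20) (nat_lit 5) (nat_lit 22) (nat_lit 4) (nat_lit 20) (nat_lit 4) (nat_lit 519) (nat_lit 332) (nat_lit 289)) (XT.nd (nat_lit 78) (nat_lit 76) (nat_lit 0) (XT.lf (nat_lit 0) (nat_lit 3038973872) (nat_lit 152) (nat_lit 16564585248) (nat_lit 152) (nat_lit 2070120466) (nat_lit 18) (nat_lit 4) (nat_lit 20) (nat_lit 5) (nat_lit 20) (nat_lit 4) (nat_lit 520) (nat_lit 332) (nat_lit 288)) (XT.lf (nat_lit 0) (nat_lit 1930676502) (nat_lit 228) (nat_lit 10798954596) (nat_lit 76) (nat_lit 9286945402) (nat_lit 17) (nat_lit 5) (nat_lit 20) (nat_lit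 5) (nat_lit 18) (nat_lit 4) (nat_lit 521) (nat_lit 332) (nat_lit 287)))) (XT.nd (nat_lit 156) (nat_lit 0) (nat_lit 0) (XT.nd (nat_lit 78) (nat_lit 76) (nat_lit 0) (XT.lf (nat_lit 0) (nat_lit 5943757202) (nat_lit 228) (nat_lit 2892978985) (nat_lit 76) (nat_lit 13530128760) (nat_lit 17) (nat_lit 5) (nat_lit 20) (nat_lit 5) (nat_lit 18) (nat_lit 4) (nat_lit 522) (nat_lit 332) (nat_lit 286)) (XT.lf (nat_lit 0) (nat_lit 5167535249) (nat_lit 76) (nat_lit 4863861207) (nat_lit 152) (nat_lit 12692883627) (nat_lit 16) (nat_lit 5) (nat_lit 17) (nat_lit 5) (nat_lit 18) (nat_lit 4) (nat_lit 523) (nat_lit 332) (nat_lit 285))) (XT.nd (nat_lit 78) (nat_lit 0) (nat_lit 0) (XT.lf (nat_lit 0) (nat_lit 13357590253) (nat_lit 76) (nat_lit 823666990) (nat_lit 152) (nat_lit 8907983630) (nat_lit 16) (nat_lit 5) (nat_lit 17) (nat_lit 5) (nat_lit 18) (nat_lit 4) (nat_lit 524) (nat_lit 332) (nat_lit 284)) (XT.lf (nat_lit 0) (nat_lit 18397139353)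 (nat_lit 152) (nat_lit 1841524601) (nat_lit 0) (nat_lit 3223183036) (nat_lit 16) (nat_lit 5) (nat_lit 18) (nat_lit 4) (nat_lit 16) (nat_lit 4) (nat_lit 525) (nat_lit 332) (nat_lit 283))))) (XT.nd (nat_lit 234) (nat_lit 152) (nat_lit 0) (XT.nd (nat_lit 78) (nat_lit 76) (nat_lit 0) (XT.lf (nat_lit 0) (nat_lit 6213755855) (nat_lit 152) (nat_lit 16491750103) (nat_lit 152) (nat_lit 1136242398) (nat_lit 14) (nat_lit 4) (nat_lit 16) (nat_lit 5) (nat_lit 16) (nat_lit 4) (nat_lit 526) (nat_lit 332) (nat_lit 282)) (XT.nd (nat_lit 78) (nat_lit 0) (nat_lit 0) (XT.lf (nat_lit 0) (nat_lit 2807990233) (nat_lit 228) (nat_lit 9861358989) (nat_lit 76) (nat_lit 11560034978) (nat_lit 13) (nat_lit 5) (nat_lit 16) (nat_lit 5) (nat_lit 14) (nat_lit 4) (nat_lit 527) (nat_lit 332) (nat_lit 281)) (XT.lf (nat_lit 0) (nat_lit 6779054127) (nat_lit 228) (nat_lit 2014311450) (nat_lit 76) (nat_lit 15831999846) (nat_lit 13) (nat_lit 5) (nat_lit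 16) (nat_lit 5) (nat_lit 14) (nat_lit 4) (nat_lit 528) (nat_lit 332) (nat_lit 280)))) (XT.nd (nat_lit 156) (nat_lit 76) (nat_lit 0) (XT.nd (nat_lit 78) (nat_lit 0) (nat_lit 0) (XT.lf (nat_lit 0) (nat_lit 6002326216) (nat_lit 76) (nat_lit 4830053452) (nat_lit 152) (nat_lit 14196835767) (nat_lit 12) (nat_lit 5) (nat_lit 13) (nat_lit 5) (nat_lit 14) (nat_lit 4) (nat_lit 529) (nat_lit 332) (nat_lit 279)) (XT.lf (nat_lit 0) (nat_lit 14140963433) (nat_lit 76) (nat_lit 803476946) (nat_lit 152) (nat_lit 10497154549) (nat_lit 12) (nat_lit 5) (nat_lit 13) (nat_lit 5) (nat_lit 14) (nat_lit 4) (nat_lit 530) (nat_lit 332) (nat_lit 278))) (XT.nd (nat_lit 78) (nat_lit 76) (nat_lit 0) (XT.lf (nat_lit 0) (nat_lit 19124856529) (nat_lit 152) (nat_lit 3506167723) (nat_lit 0) (nat_lit 3231481216) (nat_lit 12) (nat_lit 5) (nat_lit 14) (nat_lit 4) (nat_lit 12) (nat_lit 4) (nat_lit 531) (nat_lit 332) (nat_lit 277)) (XT.lf (nat_lit 0)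 (nat_lit 4433411489) (nat_lit 76) (nat_lit 18954932905) (nat_lit 76) (nat_lit 2903506183) (nat_lit 11) (nat_lit 4) (nat_lit 12) (nat_lit 5) (nat_lit 12) (nat_lit 4) (nat_lit 532) (nat_lit 332) (nat_lit 276)))))) (XT.nd (nat_lit 55224) (nat_lit 0) (nat_lit 3800) (XT.nd (nat_lit 54912) (nat_lit 0) (nat_lit 4788) (XT.nd (nat_lit 54756) (nat_lit 0) (nat_lit 5624) (XT.lf (nat_lit 0) (nat_lit 983185980) (nat_lit 152) (nat_lit 14220343402) (nat_lit 76) (nat_lit 11526346257) (nat_lit 10) (nat_lit 5) (nat_lit 12) (nat_lit 5) (nat_lit 11) (nat_lit 4) (nat_lit 533) (nat_lit 332) (nat_lit 275)) (XT.nd (nat_lit 78) (nat_lit 304) (nat_lit 0) (XT.lf (nat_lit 0) (nat_lit 2282771637) (nat_lit 304) (nat_lit 1231627733) (nat_lit 0) (nat_lit 2282771637) (nat_lit 88) (nat_lit 5) (nat_lit 92) (nat_lit 4) (nat_lit 88) (nat_lit 4) (nat_lit 474) (nat_lit 333) (nat_lit 333)) (XT.lf (nat_lit 0) (nat_lit 5500425653) (nat_lit 304) (nat_lit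 3428949708) (nat_lit 304) (nat_lit 2796813897) (nat_lit 84) (nat_lit 4) (nat_lit 88) (nat_lit 5) (nat_lit 88) (nat_lit 4) (nat_lit 475) (nat_lit 333) (nat_lit 332)))) (XT.nd (nat_lit 156) (nat_lit 532) (nat_lit 0) (XT.nd (nat_lit 78) (nat_lit 0) (nat_lit 0) (XT.lf (nat_lit 0) (nat_lit 1464404584) (nat_lit 304) (nat_lit 10159728224) (nat_lit 0) (nat_lit 237074387) (nat_lit 80) (nat_lit 5) (nat_lit 84) (nat_lit 4) (nat_lit 80) (nat_lit 4) (nat_lit 476) (nat_lit 333) (nat_lit 331)) (XT.lf (nat_lit 0) (nat_lit 5773788304) (nat_lit 304) (nat_lit 2273998440) (nat_lit 0) (nat_lit 3950782414) (nat_lit 80) (nat_lit 5) (nat_lit 84) (nat_lit 4) (nat_lit 80) (nat_lit 4) (nat_lit 477) (nat_lit 333) (nat_lit 330))) (XT.nd (nat_lit 78) (nat_lit 304) (nat_lit 0) (XT.lf (nat_lit 0) (nat_lit 5740756723) (nat_lit 228) (nat_lit 4402730771) (nat_lit 228) (nat_lit 1995729103) (nat_lit 77) (nat_lit 4) (nat_lit 80) (nat_lit 5) (nat_lit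 80) (nat_lit 4) (nat_lit 478) (nat_lit 333) (nat_lit 329)) (XT.lf (nat_lit 0) (nat_lit 1565487496) (nat_lit 228) (nat_lit 684529356) (nat_lit 304) (nat_lit 10033128872) (nat_lit 73) (nat_lit 5) (nat_lit 76) (nat_lit 5) (nat_lit 77) (nat_lit 4) (nat_lit 479) (nat_lit 333) (nat_lit 328))))) (XT.nd (nat_lit 234) (nat_lit 456) (nat_lit 0) (XT.nd (nat_lit 78) (nat_lit 532) (nat_lit 0) (XT.lf (nat_lit 0) (nat_lit 6554666055) (nat_lit 304) (nat_lit 2791799190) (nat_lit 0) (nat_lit 3083229726) (nat_lit 73) (nat_lit 5) (nat_lit 77) (nat_lit 4) (nat_lit 73) (nat_lit 4) (nat_lit 480) (nat_lit 333) (nat_lit 327)) (XT.nd (nat_lit 78) (nat_lit 304) (nat_lit 0) (XT.lf (nat_lit 0) (nat_lit 5254535763) (nat_lit 228) (nat_lit 5668036760) (nat_lit 228) (nat_lit 1657078603) (nat_lit 70) (nat_lit 4) (nat_lit 73) (nat_lit 5) (nat_lit 73) (nat_lit 4) (nat_lit 481) (nat_lit 333) (nat_lit 326)) (XT.lf (nat_lit 0) (nat_lit 656133675) (nat_lit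 228) (nat_lit 1916160780) (nat_lit 304) (nat_lit 10160751792) (nat_lit 66) (nat_lit 5) (nat_lit 69) (nat_lit 5) (nat_lit 70) (nat_lit 4) (nat_lit 482) (nat_lit 333) (nat_lit 325)))) (XT.nd (nat_lit 156) (nat_lit 228) (nat_lit 0) (XT.nd (nat_lit 78) (nat_lit 228) (nat_lit 0) (XT.lf (nat_lit 0) (nat_lit 6864886837) (nat_lit 304) (nat_lit 4118805155) (nat_lit 0) (nat_lit 1905599912) (nat_lit 66) (nat_lit 5) (nat_lit 70) (nat_lit 4) (nat_lit 66) (nat_lit 4) (nat_lit 483) (nat_lit 333) (nat_lit 324)) (XT.lf (nat_lit 0) (nat_lit 3936545147) (nat_lit 228) (nat_lit 7285144797) (nat_lit 228) (nat_lit 1827423100) (nat_lit 63) (nat_lit 4) (nat_lit 66) (nat_lit 5) (nat_lit 66) (nat_lit 4) (nat_lit 484) (nat_lit 333) (nat_lit 323))) (XT.nd (nat_lit 78) (nat_lit 152) (nat_lit 0) (XT.lf (nat_lit 0) (nat_lit 2389366689) (nat_lit 304) (nat_lit 1119862525) (nat_lit 76) (nat_lit 9703238928) (nat_lit 62) (nat_lit 5) (nat_lit 66) (nat_lit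 5) (nat_lit 63) (nat_lit 4) (nat_lit 485) (nat_lit 333) (nat_lit 322)) (XT.lf (nat_lit 0) (nat_lit 6655319631) (nat_lit 228) (nat_lit 6367913996) (nat_lit 0) (nat_lit 355845924) (nat_lit 60) (nat_lit 5) (nat_lit 63) (nat_lit 4) (nat_lit 60) (nat_lit 4) (nat_lit 486) (nat_lit 333) (nat_lit 321))))))) (XT.nd (nat_lit 1092) (nat_lit 1140) (nat_lit 0) (XT.nd (nat_lit 546) (nat_lit 836) (nat_lit 0) (XT.nd (nat_lit 234) (nat_lit 456) (nat_lit 0) (XT.nd (nat_lit 78) (nat_lit 228) (nat_lit 0) (XT.lf (nat_lit 0) (nat_lit 1670449264) (nat_lit 228) (nat_lit 9319437405) (nat_lit 228) (nat_lit 2559487013) (nat_lit 57) (nat_lit 4) (nat_lit 60) (nat_lit 5) (nat_lit 60) (nat_lit 4) (nat_lit 487) (nat_lit 333) (nat_lit 320)) (XT.nd (nat_lit 78) (nat_lit 152) (nat_lit 0) (XT.lf (nat_lit 0) (nat_lit 1650696667) (nat_lit 304) (nat_lit 3876990855) (nat_lit 76) (nat_lit 8195487438) (nat_lit 56) (nat_lit 5) (nat_lit 60) (nat_lit 5) (nat_lit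 57) (nat_lit 4) (nat_lit 488) (nat_lit 333) (nat_lit 319)) (XT.lf (nat_lit 0) (nat_lit 4225977881) (nat_lit 152) (nat_lit 1655196286) (nat_lit 228) (nat_lit 8019547947) (nat_lit 54) (nat_lit 5) (nat_lit 56) (nat_lit 5) (nat_lit 57) (nat_lit 4) (nat_lit 489) (nat_lit 333) (nat_lit 318)))) (XT.nd (nat_lit 156) (nat_lit 152) (nat_lit 0) (XT.nd (nat_lit 78) (nat_lit 304) (nat_lit 0) (XT.lf (nat_lit 0) (nat_lit 10180470869) (nat_lit 228) (nat_lit 1650534329) (nat_lit 0) (nat_lit 2251145966) (nat_lit 54) (nat_lit 5) (nat_lit 57) (nat_lit 4) (nat_lit 54) (nat_lit 4) (nat_lit 490) (nat_lit 333) (nat_lit 317)) (XT.lf (nat_lit 0) (nat_lit 292081923) (nat_lit 304) (nat_lit 7756387339) (nat_lit 76) (nat_lit 6218766273) (nat_lit 50) (nat_lit 5) (nat_lit 54) (nat_lit 5) (nat_lit 51) (nat_lit 4) (nat_lit 491) (nat_lit 333) (nat_lit 316))) (XT.nd (nat_lit 78) (nat_lit 0) (nat_lit 0) (XT.lf (nat_lit 0) (nat_lit 283912591) (nat_lit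 152) (nat_lit 4190936682) (nat_lit 228) (nat_lit 9981523321) (nat_lit 48) (nat_lit 5) (nat_lit 50) (nat_lit 5) (nat_lit 51) (nat_lit 4) (nat_lit 492) (nat_lit 333) (nat_lit 315)) (XT.lf (nat_lit 0) (nat_lit 8494859107) (nat_lit 152) (nat_lit 243266988) (nat_lit 228) (nat_lit 5911243211) (nat_lit 48) (nat_lit 5) (nat_lit 50) (nat_lit 5) (nat_lit 51) (nat_lit 4) (nat_lit 493) (nat_lit 333) (nat_lit 314))))) (XT.nd (nat_lit 234) (nat_lit 380) (nat_lit 0) (XT.nd (nat_lit 78) (nat_lit 228) (nat_lit 0) (XT.lf (nat_lit 0) (nat_lit 1930279124) (nat_lit 228) (nat_lit 11139117708) (nat_lit 228) (nat_lit 1777188273) (nat_lit 45) (nat_lit 4) (nat_lit 48) (nat_lit 5) (nat_lit 48) (nat_lit 4) (nat_lit 494) (nat_lit 333) (nat_lit 313)) (XT.nd (nat_lit 78) (nat_lit 152) (nat_lit 0) (XT.lf (nat_lit 0) (nat_lit 2396456581) (nat_lit 304) (nat_lit 4898838405) (nat_lit 76) (nat_lit 7752368556) (nat_lit 44) (nat_lit 5) (nat_lit 48)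 (nat_lit 5) (nat_lit 45) (nat_lit 4) (nat_lit 495) (nat_lit 333) (nat_lit 312)) (XT.lf (nat_lit 0) (nat_lit 3216863794) (nat_lit 152) (nat_lit 3380605944) (nat_lit 228) (nat_lit 8655717955) (nat_lit 42) (nat_lit 5) (nat_lit 44) (nat_lit 5) (nat_lit 45) (nat_lit 4) (nat_lit 496) (nat_lit 333) (nat_lit 311)))) (XT.nd (nat_lit 156) (nat_lit 228) (nat_lit 0) (XT.nd (nat_lit 78) (nat_lit 152) (nat_lit 0) (XT.lf (nat_lit 0) (nat_lit 10866546687) (nat_lit 228) (nat_lit 3997813503) (nat_lit 0) (nat_lit 598793940) (nat_lit 42) (nat_lit 5) (nat_lit 45) (nat_lit 4) (nat_lit 42) (nat_lit 4) (nat_lit 497) (nat_lit 333) (nat_lit 310)) (XT.lf (nat_lit 0) (nat_lit 4142486803) (nat_lit 152) (nat_lit 11075818026) (nat_lit 152) (nat_lit 459081500) (nat_lit 40) (nat_lit 4) (nat_lit 42) (nat_lit 5) (nat_lit 42) (nat_lit 4) (nat_lit 498) (nat_lit 333) (nat_lit 309))) (XT.nd (nat_lit 78) (nat_lit 152) (nat_lit 0) (XT.lf (nat_lit 0) (nat_lit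 3686966512) (nat_lit 228) (nat_lit 3511205130) (nat_lit 76) (nat_lit 8697753063) (nat_lit 39) (nat_lit 5) (nat_lit 42) (nat_lit 5) (nat_lit 40) (nat_lit 4) (nat_lit 499) (nat_lit 333) (nat_lit 308)) (XT.lf (nat_lit 0) (nat_lit 4641557347) (nat_lit 152) (nat_lit 3247485794) (nat_lit 228) (nat_lit 8230156631) (nat_lit 37) (nat_lit 5) (nat_lit 39) (nat_lit 5) (nat_lit 40) (nat_lit 4) (nat_lit 500) (nat_lit 333) (nat_lit 307)))))) (XT.nd (nat_lit 546) (nat_lit 532) (nat_lit 0) (XT.nd (nat_lit 234) (nat_lit 380) (nat_lit 0) (XT.nd (nat_lit 78) (nat_lit 228) (nat_lit 0) (XT.lf (nat_lit 0) (nat_lit 12153245216) (nat_lit 228) (nat_lit 3436159521) (nat_lit 0) (nat_lit 757985404) (nat_lit 37) (nat_lit 5) (nat_lit 40) (nat_lit 4) (nat_lit 37) (nat_lit 4) (nat_lit 501) (nat_lit 333) (nat_lit 306)) (XT.nd (nat_lit 78) (nat_lit 76) (nat_lit 0) (XT.lf (nat_lit 0) (nat_lit 4718862580) (nat_lit 152) (nat_lit 11786294821) (nat_lit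 152) (nat_lit 74949648) (nat_lit 35) (nat_lit 4) (nat_lit 37) (nat_lit 5) (nat_lit 37) (nat_lit 4) (nat_lit 502) (nat_lit 333) (nat_lit 305)) (XT.lf (nat_lit 0) (nat_lit 4046072693) (nat_lit 228) (nat_lit 3848165940) (nat_lit 76) (nat_lit 8923243332) (nat_lit 34) (nat_lit 5) (nat_lit 37) (nat_lit 5) (nat_lit 35) (nat_lit 4) (nat_lit 503) (nat_lit 333) (nat_lit 304)))) (XT.nd (nat_lit 156) (nat_lit 228) (nat_lit 0) (XT.nd (nat_lit 78) (nat_lit 0) (nat_lit 0) (XT.lf (nat_lit 0) (nat_lit 4294961446) (nat_lit 152) (nat_lit 3932764102) (nat_lit 228) (nat_lit 8832295255) (nat_lit 32) (nat_lit 5) (nat_lit 34) (nat_lit 5) (nat_lit 35) (nat_lit 4) (nat_lit 504) (nat_lit 333) (nat_lit 303)) (XT.lf (nat_lit 0) (nat_lit 12471191296) (nat_lit 228) (nat_lit 4740865269) (nat_lit 0) (nat_lit 95800652) (nat_lit 32) (nat_lit 5) (nat_lit 35) (nat_lit 4) (nat_lit 32) (nat_lit 4) (nat_lit 505) (nat_lit 333) (nat_lit 302))) (XT.nd (nat_lit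 78) (nat_lit 76) (nat_lit 0) (XT.lf (nat_lit 0) (nat_lit 3377541671) (nat_lit 152) (nat_lit 13422394787) (nat_lit 152) (nat_lit 760715893) (nat_lit 30) (nat_lit 4) (nat_lit 32) (nat_lit 5) (nat_lit 32) (nat_lit 4) (nat_lit 506) (nat_lit 333) (nat_lit 301)) (XT.lf (nat_lit 0) (nat_lit 3336729723) (nat_lit 228) (nat_lit 6202159607) (nat_lit 76) (nat_lit 8279492264) (nat_lit 29) (nat_lit 5) (nat_lit 32) (nat_lit 5) (nat_lit 30) (nat_lit 4) (nat_lit 507) (nat_lit 333) (nat_lit 300))))) (XT.nd (nat_lit 312) (nat_lit 228) (nat_lit 0) (XT.nd (nat_lit 156) (nat_lit 228) (nat_lit 0) (XT.nd (nat_lit 78) (nat_lit 0) (nat_lit 0) (XT.lf (nat_lit 0) (nat_lit 1875014515) (nat_lit 76) (nat_lit 5596539688) (nat_lit 152) (nat_lit 10610307937) (nat_lit 28) (nat_lit 5) (nat_lit 29) (nat_lit 5) (nat_lit 30) (nat_lit 4) (nat_lit 508) (nat_lit 333) (nat_lit 299)) (XT.lf (nat_lit 0) (nat_lit 10115400473) (nat_lit 76) (nat_lit 1569105101)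 (nat_lit 152) (nat_lit 6666207533) (nat_lit 28) (nat_lit 5) (nat_lit 29) (nat_lit 5) (nat_lit 30) (nat_lit 4) (nat_lit 509) (nat_lit 333) (nat_lit 298))) (XT.nd (nat_lit 78) (nat_lit 228) (nat_lit 0) (XT.lf (nat_lit 0) (nat_lit 15952685858) (nat_lit 152) (nat_lit 202303212) (nat_lit 0) (nat_lit 2470541859) (nat_lit 28) (nat_lit 5) (nat_lit 30) (nat_lit 4) (nat_lit 28) (nat_lit 4) (nat_lit 510) (nat_lit 333) (nat_lit 297)) (XT.lf (nat_lit 0) (nat_lit 1399877549) (nat_lit 228) (nat_lit 10908607121) (nat_lit 76) (nat_lit 6596830281) (nat_lit 25) (nat_lit 5) (nat_lit 28) (nat_lit 5) (nat_lit 26) (nat_lit 4) (nat_lit 511) (nat_lit 333) (nat_lit 296)))) (XT.nd (nat_lit 156) (nat_lit 152) (nat_lit 0) (XT.nd (nat_lit 78) (nat_lit 76) (nat_lit 0) (XT.lf (nat_lit 0) (nat_lit 5475101337) (nat_lit 228) (nat_lit 2925886219) (nat_lit 76) (nat_lit 10790225726) (nat_lit 25) (nat_lit 5) (nat_lit 28) (nat_lit 5) (nat_lit 26) (nat_lit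 4) (nat_lit 512) (nat_lit 333) (nat_lit 295)) (XT.lf (nat_lit 0) (nat_lit 5206389350) (nat_lit 76) (nat_lit 4415553488) (nat_lit 152) (nat_lit 9861093005) (nat_lit 24) (nat_lit 5) (nat_lit 25) (nat_lit 5) (nat_lit 26) (nat_lit 4) (nat_lit 513) (nat_lit 333) (nat_lit 294))) (XT.nd (nat_lit 78) (nat_lit 152) (nat_lit 0) (XT.lf (nat_lit 0) (nat_lit 13463104782) (nat_lit 76) (nat_lit 364911637) (nat_lit 152) (nat_lit 5953160895) (nat_lit 24) (nat_lit 5) (nat_lit 25) (nat_lit 5) (nat_lit 26) (nat_lit 4) (nat_lit 514) (nat_lit 333) (nat_lit 293)) (XT.lf (nat_lit 0) (nat_lit 1720807201) (nat_lit 152) (nat_lit 16390324099) (nat_lit 152) (nat_lit 1974300114) (nat_lit 22) (nat_lit 4) (nat_lit 24) (nat_lit 5) (nat_lit 24) (nat_lit 4) (nat_lit 515) (nat_lit 333) (nat_lit 292))))))))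
noncomputable def xc16 : XT := (XT.nd (nat_lit 56706) (nat_lit 0) (nat_lit 1292) (XT.nd (nat_lit 1092) (nat_lit 76) (nat_lit 0) (XT.nd (nat_lit 546) (nat_lit 380) (nat_lit 0) (XT.nd (nat_lit 234) (nat_lit 228) (nat_lit 0) (XT.nd (nat_lit 78) (nat_lit 76) (nat_lit 0) (XT.lf (nat_lit 0) (nat_lit 2059242466) (nat_lit 228) (nat_lit 10482090534) (nat_lit 76) (nat_lit 7854126077) (nat_lit 21) (nat_lit 5) (nat_lit 24) (nat_lit 5) (nat_lit 22) (nat_lit 4) (nat_lit 516) (nat_lit 333) (nat_lit 291)) (XT.nd (nat_lit 78) (nat_lit 76) (nat_lit 0) (XT.lf (nat_lit 0) (nat_lit 6105224559) (nat_lit 228) (nat_lit 2530516835) (nat_lit 76) (nat_lit 12076528530) (nat_lit 21) (nat_lit 5) (nat_lit 24) (nat_lit 5) (nat_lit 22) (nat_lit 4) (nat_lit 517) (nat_lit 333) (nat_lit 290)) (XT.lf (nat_lit 0) (nat_lit 5579205901) (nat_lit 76) (nat_lit 4648144128) (nat_lit 152) (nat_lit 10808170058) (nat_lit 20) (nat_lit 5) (nat_lit 21) (nat_lit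 5) (nat_lit 22) (nat_lit 4) (nat_lit 518) (nat_lit 333) (nat_lit 289)))) (XT.nd (nat_lit 156) (nat_lit 76) (nat_lit 0) (XT.nd (nat_lit 78) (nat_lit 152) (nat_lit 0) (XT.lf (nat_lit 0) (nat_lit 13811857391) (nat_lit 76) (nat_lit 596367824) (nat_lit 152) (nat_lit 6957491319) (nat_lit 20) (nat_lit 5) (nat_lit 21) (nat_lit 5) (nat_lit 22) (nat_lit 4) (nat_lit 519) (nat_lit 333) (nat_lit 288)) (XT.lf (nat_lit 0) (nat_lit 416425100) (nat_lit 152) (nat_lit 18241871708) (nat_lit 152) (nat_lit 3044515804) (nat_lit 18) (nat_lit 4) (nat_lit 20) (nat_lit 5) (nat_lit 20) (nat_lit 4) (nat_lit 520) (nat_lit 333) (nat_lit 287))) (XT.nd (nat_lit 78) (nat_lit 0) (nat_lit 0) (XT.lf (nat_lit 0) (nat_lit 949239145) (nat_lit 228) (nat_lit 13480340233) (nat_lit 76) (nat_lit 7616656570) (nat_lit 17) (nat_lit 5) (nat_lit 20) (nat_lit 5) (nat_lit 18) (nat_lit 4) (nat_lit 521) (nat_lit 333) (nat_lit 286)) (XT.lf (nat_lit 0) (nat_lit 4942887109)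 (nat_lit 228) (nat_lit 5609688405) (nat_lit 76) (nat_lit 11844340930) (nat_lit 17) (nat_lit 5) (nat_lit 20) (nat_lit 5) (nat_lit 18) (nat_lit 4) (nat_lit 522) (nat_lit 333) (nat_lit 285))))) (XT.nd (nat_lit 234) (nat_lit 304) (nat_lit 0) (XT.nd (nat_lit 78) (nat_lit 0) (nat_lit 0) (XT.lf (nat_lit 0) (nat_lit 2379630801) (nat_lit 76) (nat_lit 6613742938) (nat_lit 152) (nat_lit 13761704225) (nat_lit 16) (nat_lit 5) (nat_lit 17) (nat_lit 5) (nat_lit 18) (nat_lit 4) (nat_lit 523) (nat_lit 333) (nat_lit 284)) (XT.nd (nat_lit 78) (nat_lit 0) (nat_lit 0) (XT.lf (nat_lit 0) (nat_lit 10535282482) (nat_lit 76) (nat_lit 2589050536) (nat_lit 152) (nat_lit 9996087029) (nat_lit 16) (nat_lit 5) (nat_lit 17) (nat_lit 5) (nat_lit 18) (nat_lit 4) (nat_lit 524) (nat_lit 333) (nat_lit 283)) (XT.lf (nat_lit 0) (nat_lit 17310123523) (nat_lit 152) (nat_lit 4717553397) (nat_lit 0) (nat_lit 1465954276) (nat_lit 16) (nat_lit 5) (nat_lit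 18) (nat_lit 4) (nat_lit 16) (nat_lit 4) (nat_lit 525) (nat_lit 333) (nat_lit 282)))) (XT.nd (nat_lit 156) (nat_lit 76) (nat_lit 0) (XT.nd (nat_lit 78) (nat_lit 76) (nat_lit 0) (XT.lf (nat_lit 0) (nat_lit 3265725968) (nat_lit 152) (nat_lit 18315359316) (nat_lit 152) (nat_lit 2293198513) (nat_lit 14) (nat_lit 4) (nat_lit 16) (nat_lit 5) (nat_lit 16) (nat_lit 4) (nat_lit 526) (nat_lit 333) (nat_lit 281)) (XT.lf (nat_lit 0) (nat_lit 1647963585) (nat_lit 228) (nat_lit 12867775886) (nat_lit 76) (nat_lit 9746698303) (nat_lit 13) (nat_lit 5) (nat_lit 16) (nat_lit 5) (nat_lit 14) (nat_lit 4) (nat_lit 527) (nat_lit 333) (nat_lit 280))) (XT.nd (nat_lit 78) (nat_lit 76) (nat_lit 0) (XT.lf (nat_lit 0) (nat_lit 5601140987) (nat_lit 228) (nat_lit 5053437461) (nat_lit 76) (nat_lit 14004201235) (nat_lit 13) (nat_lit 5) (nat_lit 16) (nat_lit 5) (nat_lit 14) (nat_lit 4) (nat_lit 528) (nat_lit 333) (nat_lit 279)) (XT.lf (nat_lit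 0) (nat_lit 2890317896) (nat_lit 76) (nat_lit 6726407634) (nat_lit 152) (nat_lit 15446661884) (nat_lit 12) (nat_lit 5) (nat_lit 13) (nat_lit 5) (nat_lit 14) (nat_lit 4) (nat_lit 529) (nat_lit 333) (nat_lit 278)))))) (XT.nd (nat_lit 55068) (nat_lit 0) (nat_lit 4484) (XT.nd (nat_lit 234) (nat_lit 0) (nat_lit 0) (XT.nd (nat_lit 78) (nat_lit 76) (nat_lit 0) (XT.lf (nat_lit 0) (nat_lit 10997098326) (nat_lit 76) (nat_lit 2714289142) (nat_lit 152) (nat_lit 11764730256) (nat_lit 12) (nat_lit 5) (nat_lit 13) (nat_lit 5) (nat_lit 14) (nat_lit 4) (nat_lit 530) (nat_lit 333) (nat_lit 277)) (XT.nd (nat_lit 78) (nat_lit 76) (nat_lit 0) (XT.lf (nat_lit 0) (nat_lit 17862247707) (nat_lit 152) (nat_lit 6703633418) (nat_lit 0) (nat_lit 1331741042) (nat_lit 12) (nat_lit 5) (nat_lit 14) (nat_lit 4) (nat_lit 12) (nat_lit 4) (nat_lit 531) (nat_lit 333) (nat_lit 276)) (XT.lf (nat_lit 0) (nat_lit 1162176237) (nat_lit 76) (nat_lit 20925506923)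 (nat_lit 76) (nat_lit 4240047897) (nat_lit 11) (nat_lit 4) (nat_lit 12) (nat_lit 5) (nat_lit 12) (nat_lit 4) (nat_lit 532) (nat_lit 333) (nat_lit 275)))) (XT.nd (nat_lit 54678) (nat_lit 0) (nat_lit 5852) (XT.nd (nat_lit 54600) (nat_lit 0) (nat_lit 6156) (XT.lf (nat_lit 0) (nat_lit 9214231033) (nat_lit 76) (nat_lit 17194681945) (nat_lit 76) (nat_lit 357308840) (nat_lit 11) (nat_lit 4) (nat_lit 12) (nat_lit 5) (nat_lit 12) (nat_lit 4) (nat_lit 533) (nat_lit 333) (nat_lit 274)) (XT.lf (nat_lit 0) (nat_lit 2340205971) (nat_lit 304) (nat_lit 1664505929) (nat_lit 304) (nat_lit 1664505929) (nat_lit 92) (nat_lit 4) (nat_lit 96) (nat_lit 5) (nat_lit 96) (nat_lit 4) (nat_lit 472) (nat_lit 334) (nat_lit 334))) (XT.nd (nat_lit 78) (nat_lit 0) (nat_lit 0) (XT.lf (nat_lit 0) (nat_lit 903465524) (nat_lit 304) (nat_lit 10303521347) (nat_lit 0) (nat_lit 258686998) (nat_lit 88) (nat_lit 5) (nat_lit 92) (nat_lit 4) (nat_lit 88) (nat_lit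 4) (nat_lit 473) (nat_lit 334) (nat_lit 333)) (XT.lf (nat_lit 0) (nat_lit 5178206095) (nat_lit 304) (nat_lit 2515497619) (nat_lit 0) (nat_lit 3901291758) (nat_lit 88) (nat_lit 5) (nat_lit 92) (nat_lit 4) (nat_lit 88) (nat_lit 4) (nat_lit 474) (nat_lit 334) (nat_lit 332))))) (XT.nd (nat_lit 234) (nat_lit 760) (nat_lit 0) (XT.nd (nat_lit 78) (nat_lit 304) (nat_lit 0) (XT.lf (nat_lit 0) (nat_lit 5395590776) (nat_lit 304) (nat_lit 4114280761) (nat_lit 304) (nat_lit 2217625433) (nat_lit 84) (nat_lit 4) (nat_lit 88) (nat_lit 5) (nat_lit 88) (nat_lit 4) (nat_lit 475) (nat_lit 334) (nat_lit 331)) (XT.nd (nat_lit 78) (nat_lit 0) (nat_lit 0) (XT.lf (nat_lit 0) (nat_lit 1539715538) (nat_lit 228) (nat_lit 462244893) (nat_lit 304) (nat_lit 9861170496) (nat_lit 80) (nat_lit 5) (nat_lit 83) (nat_lit 5) (nat_lit 84) (nat_lit 4) (nat_lit 476) (nat_lit 334) (nat_lit 330)) (XT.lf (nat_lit 0) (nat_lit 6277083048) (nat_lit 304) (nat_lit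 2486159788) (nat_lit 0) (nat_lit 3237945570) (nat_lit 80) (nat_lit 5) (nat_lit 84) (nat_lit 4) (nat_lit 80) (nat_lit 4) (nat_lit 477) (nat_lit 334) (nat_lit 329)))) (XT.nd (nat_lit 156) (nat_lit 228) (nat_lit 0) (XT.nd (nat_lit 78) (nat_lit 304) (nat_lit 0) (XT.lf (nat_lit 0) (nat_lit 5474639134) (nat_lit 228) (nat_lit 5139768327) (nat_lit 228) (nat_lit 1528085970) (nat_lit 77) (nat_lit 4) (nat_lit 80) (nat_lit 5) (nat_lit 80) (nat_lit 4) (nat_lit 478) (nat_lit 334) (nat_lit 328)) (XT.lf (nat_lit 0) (nat_lit 1238214406) (nat_lit 228) (nat_lit 1440605035) (nat_lit 304) (nat_lit 9608206240) (nat_lit 73) (nat_lit 5) (nat_lit 76) (nat_lit 5) (nat_lit 77) (nat_lit 4) (nat_lit 479) (nat_lit 334) (nat_lit 327))) (XT.nd (nat_lit 78) (nat_lit 228) (nat_lit 0) (XT.lf (nat_lit 0) (nat_lit 6948121602) (nat_lit 304) (nat_lit 3168747322) (nat_lit 0) (nat_lit 2317422454) (nat_lit 73) (nat_lit 5) (nat_lit 77) (nat_lit 4) (nat_lit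 73) (nat_lit 4) (nat_lit 480) (nat_lit 334) (nat_lit 326)) (XT.lf (nat_lit 0) (nat_lit 4822207737) (nat_lit 228) (nat_lit 6461172100) (nat_lit 228) (nat_lit 1301529984) (nat_lit 70) (nat_lit 4) (nat_lit 73) (nat_lit 5) (nat_lit 73) (nat_lit 4) (nat_lit 481) (nat_lit 334) (nat_lit 325))))))) (XT.nd (nat_lit 1092) (nat_lit 1216) (nat_lit 0) (XT.nd (nat_lit 546) (nat_lit 912) (nat_lit 0) (XT.nd (nat_lit 234) (nat_lit 532) (nat_lit 0) (XT.nd (nat_lit 78) (nat_lit 228) (nat_lit 0) (XT.lf (nat_lit 0) (nat_lit 159943332) (nat_lit 228) (nat_lit 2730233393) (nat_lit 304) (nat_lit 9848751074) (nat_lit 66) (nat_lit 5) (nat_lit 69) (nat_lit 5) (nat_lit 70) (nat_lit 4) (nat_lit 482) (nat_lit 334) (nat_lit 324)) (XT.nd (nat_lit 78) (nat_lit 228) (nat_lit 0) (XT.lf (nat_lit 0) (nat_lit 7147835295) (nat_lit 304) (nat_lit 4665521231) (nat_lit 0) (nat_lit 1082524391) (nat_lit 66) (nat_lit 5) (nat_lit 70) (nat_lit 4) (nat_lit 66)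 (nat_lit 4) (nat_lit 483) (nat_lit 334) (nat_lit 323)) (XT.lf (nat_lit 0) (nat_lit 3332962305) (nat_lit 228) (nat_lit 8138690263) (nat_lit 228) (nat_lit 1584717818) (nat_lit 63) (nat_lit 4) (nat_lit 66) (nat_lit 5) (nat_lit 66) (nat_lit 4) (nat_lit 484) (nat_lit 334) (nat_lit 322)))) (XT.nd (nat_lit 156) (nat_lit 304) (nat_lit 0) (XT.nd (nat_lit 78) (nat_lit 152) (nat_lit 0) (XT.lf (nat_lit 0) (nat_lit 2599876939) (nat_lit 304) (nat_lit 1781300969) (nat_lit 76) (nat_lit 8839104578) (nat_lit 62) (nat_lit 5) (nat_lit 66) (nat_lit 5) (nat_lit 63) (nat_lit 4) (nat_lit 485) (nat_lit 334) (nat_lit 321)) (XT.lf (nat_lit 0) (nat_lit 6294624916) (nat_lit 152) (nat_lit 535753065) (nat_lit 228) (nat_lit 6557233069) (nat_lit 60) (nat_lit 5) (nat_lit 62) (nat_lit 5) (nat_lit 63) (nat_lit 4) (nat_lit 486) (nat_lit 334) (nat_lit 320))) (XT.nd (nat_lit 78) (nat_lit 76) (nat_lit 0) (XT.lf (nat_lit 0) (nat_lit 890435598) (nat_lit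 228) (nat_lit 10237644329) (nat_lit 228) (nat_lit 2430570513) (nat_lit 57) (nat_lit 4) (nat_lit 60) (nat_lit 5) (nat_lit 60) (nat_lit 4) (nat_lit 487) (nat_lit 334) (nat_lit 319)) (XT.lf (nat_lit 0) (nat_lit 1749651012) (nat_lit 304) (nat_lit 4715374584) (nat_lit 76) (nat_lit 7267982457) (nat_lit 56) (nat_lit 5) (nat_lit 60) (nat_lit 5) (nat_lit 57) (nat_lit 4) (nat_lit 488) (nat_lit 334) (nat_lit 318))))) (XT.nd (nat_lit 234) (nat_lit 456) (nat_lit 0) (XT.nd (nat_lit 78) (nat_lit 304) (nat_lit 0) (XT.lf (nat_lit 0) (nat_lit 3328513655) (nat_lit 152) (nat_lit 2618070874) (nat_lit 228) (nat_lit 7964649057) (nat_lit 54) (nat_lit 5) (nat_lit 56) (nat_lit 5) (nat_lit 57) (nat_lit 4) (nat_lit 489) (nat_lit 334) (nat_lit 317)) (XT.nd (nat_lit 78) (nat_lit 304) (nat_lit 0) (XT.lf (nat_lit 0) (nat_lit 10212024147) (nat_lit 228) (nat_lit 2599687436) (nat_lit 0) (nat_lit 1281635546) (nat_lit 54) (nat_lit 5) (nat_lit 57)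 (nat_lit 4) (nat_lit 54) (nat_lit 4) (nat_lit 490) (nat_lit 334) (nat_lit 316)) (XT.lf (nat_lit 0) (nat_lit 278327997) (nat_lit 304) (nat_lit 8777056164) (nat_lit 76) (nat_lit 5223728645) (nat_lit 50) (nat_lit 5) (nat_lit 54) (nat_lit 5) (nat_lit 51) (nat_lit 4) (nat_lit 491) (nat_lit 334) (nat_lit 315)))) (XT.nd (nat_lit 156) (nat_lit 304) (nat_lit 0) (XT.nd (nat_lit 78) (nat_lit 152) (nat_lit 0) (XT.lf (nat_lit 0) (nat_lit 4432233895) (nat_lit 304) (nat_lit 787038915) (nat_lit 76) (nat_lit 9249561213) (nat_lit 50) (nat_lit 5) (nat_lit 54) (nat_lit 5) (nat_lit 51) (nat_lit 4) (nat_lit 492) (nat_lit 334) (nat_lit 314)) (XT.lf (nat_lit 0) (nat_lit 7367195459) (nat_lit 152) (nat_lit 1296348728) (nat_lit 228) (nat_lit 5998932670) (nat_lit 48) (nat_lit 5) (nat_lit 50) (nat_lit 5) (nat_lit 51) (nat_lit 4) (nat_lit 493) (nat_lit 334) (nat_lit 313))) (XT.nd (nat_lit 78) (nat_lit 76) (nat_lit 0) (XT.lf (nat_lit 0) (nat_lit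 734913882) (nat_lit 228) (nat_lit 12218915363) (nat_lit 228) (nat_lit 1906689782) (nat_lit 45) (nat_lit 4) (nat_lit 48) (nat_lit 5) (nat_lit 48) (nat_lit 4) (nat_lit 494) (nat_lit 334) (nat_lit 312)) (XT.lf (nat_lit 0) (nat_lit 2242308804) (nat_lit 304) (nat_lit 6153106174) (nat_lit 76) (nat_lit 6666732598) (nat_lit 44) (nat_lit 5) (nat_lit 48) (nat_lit 5) (nat_lit 45) (nat_lit 4) (nat_lit 495) (nat_lit 334) (nat_lit 311)))))) (XT.nd (nat_lit 546) (nat_lit 532) (nat_lit 0) (XT.nd (nat_lit 234) (nat_lit 380) (nat_lit 0) (XT.nd (nat_lit 78) (nat_lit 152) (nat_lit 0) (XT.lf (nat_lit 0) (nat_lit 1900419431) (nat_lit 152) (nat_lit 4508527159) (nat_lit 228) (nat_lit 8859418918) (nat_lit 42) (nat_lit 5) (nat_lit 44) (nat_lit 5) (nat_lit 45) (nat_lit 4) (nat_lit 496) (nat_lit 334) (nat_lit 310)) (XT.nd (nat_lit 78) (nat_lit 152) (nat_lit 0) (XT.lf (nat_lit 0) (nat_lit 10108298766) (nat_lit 152) (nat_lit 540173957) (nat_lit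 228) (nat_lit 4830456389) (nat_lit 42) (nat_lit 5) (nat_lit 44) (nat_lit 5) (nat_lit 45) (nat_lit 4) (nat_lit 497) (nat_lit 334) (nat_lit 309)) (XT.lf (nat_lit 0) (nat_lit 2710265133) (nat_lit 152) (nat_lit 12251929464) (nat_lit 152) (nat_lit 731733469) (nat_lit 40) (nat_lit 4) (nat_lit 42) (nat_lit 5) (nat_lit 42) (nat_lit 4) (nat_lit 498) (nat_lit 334) (nat_lit 308)))) (XT.nd (nat_lit 156) (nat_lit 152) (nat_lit 0) (XT.nd (nat_lit 78) (nat_lit 152) (nat_lit 0) (XT.lf (nat_lit 0) (nat_lit 3392698810) (nat_lit 228) (nat_lit 5002376711) (nat_lit 76) (nat_lit 7517935955) (nat_lit 39) (nat_lit 5) (nat_lit 42) (nat_lit 5) (nat_lit 40) (nat_lit 4) (nat_lit 499) (nat_lit 334) (nat_lit 307)) (XT.lf (nat_lit 0) (nat_lit 3086681116) (nat_lit 152) (nat_lit 4473301375) (nat_lit 228) (nat_lit 8577005593) (nat_lit 37) (nat_lit 5) (nat_lit 39) (nat_lit 5) (nat_lit 40) (nat_lit 4) (nat_lit 500) (nat_lit 334) (nat_lit 306))) (XT.nd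 (nat_lit 78) (nat_lit 152) (nat_lit 0) (XT.lf (nat_lit 0) (nat_lit 11318413650) (nat_lit 152) (nat_lit 476291416) (nat_lit 228) (nat_lit 4571068548) (nat_lit 37) (nat_lit 5) (nat_lit 39) (nat_lit 5) (nat_lit 40) (nat_lit 4) (nat_lit 501) (nat_lit 334) (nat_lit 305)) (XT.lf (nat_lit 0) (nat_lit 3046266860) (nat_lit 152) (nat_lit 13062267911) (nat_lit 152) (nat_lit 490722865) (nat_lit 35) (nat_lit 4) (nat_lit 37) (nat_lit 5) (nat_lit 37) (nat_lit 4) (nat_lit 502) (nat_lit 334) (nat_lit 304))))) (XT.nd (nat_lit 312) (nat_lit 152) (nat_lit 0) (XT.nd (nat_lit 156) (nat_lit 152) (nat_lit 0) (XT.nd (nat_lit 78) (nat_lit 152) (nat_lit 0) (XT.lf (nat_lit 0) (nat_lit 3611656855) (nat_lit 228) (nat_lit 5579809578) (nat_lit 76) (nat_lit 7645707269) (nat_lit 34) (nat_lit 5) (nat_lit 37) (nat_lit 5) (nat_lit 35) (nat_lit 4) (nat_lit 503) (nat_lit 334) (nat_lit 303)) (XT.lf (nat_lit 0) (nat_lit 2497988611) (nat_lit 152) (nat_lit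 5260030860) (nat_lit 228) (nat_lit 9322404021) (nat_lit 32) (nat_lit 5) (nat_lit 34) (nat_lit 5) (nat_lit 35) (nat_lit 4) (nat_lit 504) (nat_lit 334) (nat_lit 302))) (XT.nd (nat_lit 78) (nat_lit 152) (nat_lit 0) (XT.lf (nat_lit 0) (nat_lit 10729175158) (nat_lit 152) (nat_lit 1248250531) (nat_lit 228) (nat_lit 5351320453) (nat_lit 32) (nat_lit 5) (nat_lit 34) (nat_lit 5) (nat_lit 35) (nat_lit 4) (nat_lit 505) (nat_lit 334) (nat_lit 301)) (XT.lf (nat_lit 0) (nat_lit 1460778974) (nat_lit 152) (nat_lit 14801757704) (nat_lit 152) (nat_lit 1319882228) (nat_lit 30) (nat_lit 4) (nat_lit 32) (nat_lit 5) (nat_lit 32) (nat_lit 4) (nat_lit 506) (nat_lit 334) (nat_lit 300)))) (XT.nd (nat_lit 156) (nat_lit 76) (nat_lit 0) (XT.nd (nat_lit 78) (nat_lit 0) (nat_lit 0) (XT.lf (nat_lit 0) (nat_lit 2761843776) (nat_lit 228) (nat_lit 8178122376) (nat_lit 76) (nat_lit 6900720426) (nat_lit 29) (nat_lit 5) (nat_lit 32) (nat_lit 5) (nat_lit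 30) (nat_lit 4) (nat_lit 507) (nat_lit 334) (nat_lit 299)) (XT.lf (nat_lit 0) (nat_lit 6861893262) (nat_lit 228) (nat_lit 165798225) (nat_lit 76) (nat_lit 11077175799) (nat_lit 29) (nat_lit 5) (nat_lit 32) (nat_lit 5) (nat_lit 30) (nat_lit 4) (nat_lit 508) (nat_lit 334) (nat_lit 298))) (XT.nd (nat_lit 78) (nat_lit 0) (nat_lit 0) (XT.lf (nat_lit 0) (nat_lit 8032390402) (nat_lit 76) (nat_lit 3018945790) (nat_lit 152) (nat_lit 7322856802) (nat_lit 28) (nat_lit 5) (nat_lit 29) (nat_lit 5) (nat_lit 30) (nat_lit 4) (nat_lit 509) (nat_lit 334) (nat_lit 297)) (XT.lf (nat_lit 0) (nat_lit 15288013166) (nat_lit 152) (nat_lit 2338921769) (nat_lit 0) (nat_lit 1022710426) (nat_lit 28) (nat_lit 5) (nat_lit 30) (nat_lit 4) (nat_lit 28) (nat_lit 4) (nat_lit 510) (nat_lit 334) (nat_lit 296))))))))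
noncomputable def xc17 : XT := (XT.nd (nat_lit 56550) (nat_lit 0) (nat_lit 1748) (XT.nd (nat_lit 1092) (nat_lit 380) (nat_lit 0) (XT.nd (nat_lit 546) (nat_lit 380) (nat_lit 0) (XT.nd (nat_lit 234) (nat_lit 228) (nat_lit 0) (XT.nd (nat_lit 78) (nat_lit 76) (nat_lit 0) (XT.lf (nat_lit 0) (nat_lit 683912865) (nat_lit 228) (nat_lit 13133029900) (nat_lit 76) (nat_lit 5113304589) (nat_lit 25) (nat_lit 5) (nat_lit 28) (nat_lit 5) (nat_lit 26) (nat_lit 4) (nat_lit 511) (nat_lit 334) (nat_lit 295)) (XT.nd (nat_lit 78) (nat_lit 76) (nat_lit 0) (XT.lf (nat_lit 0) (nat_lit 4737507894) (nat_lit 228) (nat_lit 5189112207) (nat_lit 76) (nat_lit 9289962382) (nat_lit 25) (nat_lit 5) (nat_lit 28) (nat_lit 5) (nat_lit 26) (nat_lit 4) (nat_lit 512) (nat_lit 334) (nat_lit 294)) (XT.lf (nat_lit 0) (nat_lit 2874538355) (nat_lit 76) (nat_lit 5973466451) (nat_lit 152) (nat_lit 10661131270) (nat_lit 24) (nat_lit 5) (nat_lit 25) (nat_lit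 5) (nat_lit 26) (nat_lit 4) (nat_lit 513) (nat_lit 334) (nat_lit 293)))) (XT.nd (nat_lit 156) (nat_lit 228) (nat_lit 0) (XT.nd (nat_lit 78) (nat_lit 0) (nat_lit 0) (XT.lf (nat_lit 0) (nat_lit 11093461703) (nat_lit 76) (nat_lit 1939582423) (nat_lit 152) (nat_lit 6774658163) (nat_lit 24) (nat_lit 5) (nat_lit 25) (nat_lit 5) (nat_lit 26) (nat_lit 4) (nat_lit 514) (nat_lit 334) (nat_lit 292)) (XT.lf (nat_lit 0) (nat_lit 17274034086) (nat_lit 152) (nat_lit 725066549) (nat_lit 0) (nat_lit 2113702232) (nat_lit 24) (nat_lit 5) (nat_lit 26) (nat_lit 4) (nat_lit 24) (nat_lit 4) (nat_lit 515) (nat_lit 334) (nat_lit 291))) (XT.nd (nat_lit 78) (nat_lit 0) (nat_lit 0) (XT.lf (nat_lit 0) (nat_lit 1180606639) (nat_lit 228) (nat_lit 12996816569) (nat_lit 76) (nat_lit 6246033495) (nat_lit 21) (nat_lit 5) (nat_lit 24) (nat_lit 5) (nat_lit 22) (nat_lit 4) (nat_lit 516) (nat_lit 334) (nat_lit 290)) (XT.lf (nat_lit 0) (nat_lit 5206291619)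 (nat_lit 228) (nat_lit 5081903625) (nat_lit 76) (nat_lit 10452481999) (nat_lit 21) (nat_lit 5) (nat_lit 24) (nat_lit 5) (nat_lit 22) (nat_lit 4) (nat_lit 517) (nat_lit 334) (nat_lit 289))))) (XT.nd (nat_lit 234) (nat_lit 304) (nat_lit 0) (XT.nd (nat_lit 78) (nat_lit 0) (nat_lit 0) (XT.lf (nat_lit 0) (nat_lit 2957492957) (nat_lit 76) (nat_lit 6334003102) (nat_lit 152) (nat_lit 11773173444) (nat_lit 20) (nat_lit 5) (nat_lit 21) (nat_lit 5) (nat_lit 22) (nat_lit 4) (nat_lit 518) (nat_lit 334) (nat_lit 288)) (XT.nd (nat_lit 78) (nat_lit 0) (nat_lit 0) (XT.lf (nat_lit 0) (nat_lit 11154438991) (nat_lit 76) (nat_lit 2298191479) (nat_lit 152) (nat_lit 7942633899) (nat_lit 20) (nat_lit 5) (nat_lit 21) (nat_lit 5) (nat_lit 22) (nat_lit 4) (nat_lit 519) (nat_lit 334) (nat_lit 287)) (XT.lf (nat_lit 0) (nat_lit 17669493665) (nat_lit 152) (nat_lit 2300247593) (nat_lit 0) (nat_lit 1763286890) (nat_lit 20) (nat_lit 5) (nat_lit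 22) (nat_lit 4) (nat_lit 20) (nat_lit 4) (nat_lit 520) (nat_lit 334) (nat_lit 286)))) (XT.nd (nat_lit 156) (nat_lit 76) (nat_lit 0) (XT.nd (nat_lit 78) (nat_lit 76) (nat_lit 0) (XT.lf (nat_lit 0) (nat_lit 5789961700) (nat_lit 152) (nat_lit 16195015339) (nat_lit 152) (nat_lit 92291503) (nat_lit 18) (nat_lit 4) (nat_lit 20) (nat_lit 5) (nat_lit 20) (nat_lit 4) (nat_lit 521) (nat_lit 334) (nat_lit 285)) (XT.lf (nat_lit 0) (nat_lit 3883515179) (nat_lit 228) (nat_lit 8450686957) (nat_lit 76) (nat_lit 10094143250) (nat_lit 17) (nat_lit 5) (nat_lit 20) (nat_lit 5) (nat_lit 18) (nat_lit 4) (nat_lit 522) (nat_lit 334) (nat_lit 284))) (XT.nd (nat_lit 78) (nat_lit 76) (nat_lit 0) (XT.lf (nat_lit 0) (nat_lit 7899873529) (nat_lit 228) (nat_lit 526529153) (nat_lit 76) (nat_lit 14360790052) (nat_lit 17) (nat_lit 5) (nat_lit 20) (nat_lit 5) (nat_lit 18) (nat_lit 4) (nat_lit 523) (nat_lit 334) (nat_lit 283)) (XT.lf (nat_lit 0)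 (nat_lit 7588396483) (nat_lit 76) (nat_lit 4420441428) (nat_lit 152) (nat_lit 11144140005) (nat_lit 16) (nat_lit 5) (nat_lit 17) (nat_lit 5) (nat_lit 18) (nat_lit 4) (nat_lit 524) (nat_lit 334) (nat_lit 282)))))) (XT.nd (nat_lit 546) (nat_lit 76) (nat_lit 0) (XT.nd (nat_lit 234) (nat_lit 76) (nat_lit 0) (XT.nd (nat_lit 78) (nat_lit 228) (nat_lit 0) (XT.lf (nat_lit 0) (nat_lit 15805961726) (nat_lit 76) (nat_lit 360854716) (nat_lit 152) (nat_lit 7359932001) (nat_lit 16) (nat_lit 5) (nat_lit 17) (nat_lit 5) (nat_lit 18) (nat_lit 4) (nat_lit 525) (nat_lit 334) (nat_lit 281)) (XT.nd (nat_lit 78) (nat_lit 76) (nat_lit 0) (XT.lf (nat_lit 0) (nat_lit 191837476) (nat_lit 152) (nat_lit 20205733940) (nat_lit 152) (nat_lit 3510636838) (nat_lit 14) (nat_lit 4) (nat_lit 16) (nat_lit 5) (nat_lit 16) (nat_lit 4) (nat_lit 526) (nat_lit 334) (nat_lit 280)) (XT.lf (nat_lit 0) (nat_lit 428605691) (nat_lit 228) (nat_lit 16000393533)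 (nat_lit 76) (nat_lit 7867881783) (nat_lit 13) (nat_lit 5) (nat_lit 16) (nat_lit 5) (nat_lit 14) (nat_lit 4) (nat_lit 527) (nat_lit 334) (nat_lit 279)))) (XT.nd (nat_lit 156) (nat_lit 76) (nat_lit 0) (XT.nd (nat_lit 78) (nat_lit 0) (nat_lit 0) (XT.lf (nat_lit 0) (nat_lit 4364247317) (nat_lit 228) (nat_lit 8218122867) (nat_lit 76) (nat_lit 12111206346) (nat_lit 13) (nat_lit 5) (nat_lit 16) (nat_lit 5) (nat_lit 14) (nat_lit 4) (nat_lit 528) (nat_lit 334) (nat_lit 278)) (XT.lf (nat_lit 0) (nat_lit 8343874062) (nat_lit 228) (nat_lit 343713528) (nat_lit 76) (nat_lit 16411318668) (nat_lit 13) (nat_lit 5) (nat_lit 16) (nat_lit 5) (nat_lit 14) (nat_lit 4) (nat_lit 529) (nat_lit 334) (nat_lit 277))) (XT.nd (nat_lit 78) (nat_lit 0) (nat_lit 0) (XT.lf (nat_lit 0) (nat_lit 7727266985) (nat_lit 76) (nat_lit 4691950121) (nat_lit 152) (nat_lit 13092808626) (nat_lit 12) (nat_lit 5) (nat_lit 13) (nat_lit 5) (nat_lit 14) (nat_lit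 4) (nat_lit 530) (nat_lit 334) (nat_lit 276)) (XT.lf (nat_lit 0) (nat_lit 15902474343) (nat_lit 76) (nat_lit 642118390) (nat_lit 152) (nat_lit 9389449866) (nat_lit 12) (nat_lit 5) (nat_lit 13) (nat_lit 5) (nat_lit 14) (nat_lit 4) (nat_lit 531) (nat_lit 334) (nat_lit 275))))) (XT.nd (nat_lit 54600) (nat_lit 0) (nat_lit 5852) (XT.nd (nat_lit 78) (nat_lit 76) (nat_lit 0) (XT.lf (nat_lit 0) (nat_lit 20741829800) (nat_lit 152) (nat_lit 2207093180) (nat_lit 0) (nat_lit 3415795152) (nat_lit 12) (nat_lit 5) (nat_lit 14) (nat_lit 4) (nat_lit 12) (nat_lit 4) (nat_lit 532) (nat_lit 334) (nat_lit 274)) (XT.nd (nat_lit 54444) (nat_lit 0) (nat_lit 6460) (XT.lf (nat_lit 0) (nat_lit 5785568109) (nat_lit 76) (nat_lit 19246615475) (nat_lit 76) (nat_lit 1771645456) (nat_lit 11) (nat_lit 4) (nat_lit 12) (nat_lit 5) (nat_lit 12) (nat_lit 4) (nat_lit 533) (nat_lit 334) (nat_lit 273)) (XT.lf (nat_lit 0) (nat_lit 61731738) (nat_lit 304)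 (nat_lit 5422833031) (nat_lit 0) (nat_lit 61731738) (nat_lit 96) (nat_lit 5) (nat_lit 100) (nat_lit 4) (nat_lit 96) (nat_lit 4) (nat_lit 470) (nat_lit 335) (nat_lit 335)))) (XT.nd (nat_lit 156) (nat_lit 304) (nat_lit 0) (XT.nd (nat_lit 78) (nat_lit 304) (nat_lit 0) (XT.lf (nat_lit 0) (nat_lit 4360473374) (nat_lit 304) (nat_lit 3164152748) (nat_lit 0) (nat_lit 3689645795) (nat_lit 96) (nat_lit 5) (nat_lit 100) (nat_lit 4) (nat_lit 96) (nat_lit 4) (nat_lit 471) (nat_lit 335) (nat_lit 334)) (XT.lf (nat_lit 0) (nat_lit 4628790474) (nat_lit 304) (nat_lit 4019399838) (nat_lit 304) (nat_lit 2690898162) (nat_lit 92) (nat_lit 4) (nat_lit 96) (nat_lit 5) (nat_lit 96) (nat_lit 4) (nat_lit 472) (nat_lit 335) (nat_lit 333))) (XT.nd (nat_lit 78) (nat_lit 0) (nat_lit 0) (XT.lf (nat_lit 0) (nat_lit 1055001982) (nat_lit 228) (nat_lit 444147614) (nat_lit 304) (nat_lit 9967786581) (nat_lit 88) (nat_lit 5) (nat_lit 91) (nat_lit 5)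 (nat_lit 92) (nat_lit 4) (nat_lit 473) (nat_lit 335) (nat_lit 332)) (XT.lf (nat_lit 0) (nat_lit 5739520479) (nat_lit 304) (nat_lit 2672244564) (nat_lit 0) (nat_lit 3185191054) (nat_lit 88) (nat_lit 5) (nat_lit 92) (nat_lit 4) (nat_lit 88) (nat_lit 4) (nat_lit 474) (nat_lit 335) (nat_lit 331))))))) (XT.nd (nat_lit 1092) (nat_lit 1672) (nat_lit 0) (XT.nd (nat_lit 546) (nat_lit 1064) (nat_lit 0) (XT.nd (nat_lit 234) (nat_lit 760) (nat_lit 0) (XT.nd (nat_lit 78) (nat_lit 304) (nat_lit 0) (XT.lf (nat_lit 0) (nat_lit 5185879911) (nat_lit 304) (nat_lit 4853075815) (nat_lit 304) (nat_lit 1691157183) (nat_lit 84) (nat_lit 4) (nat_lit 88) (nat_lit 5) (nat_lit 88) (nat_lit 4) (nat_lit 475) (nat_lit 335) (nat_lit 330)) (XT.nd (nat_lit 78) (nat_lit 0) (nat_lit 0) (XT.lf (nat_lit 0) (nat_lit 1270132133) (nat_lit 228) (nat_lit 1218841360) (nat_lit 304) (nat_lit 9377366312) (nat_lit 80) (nat_lit 5) (nat_lit 83) (nat_lit 5) (nat_lit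 84) (nat_lit 4) (nat_lit 476) (nat_lit 335) (nat_lit 329)) (XT.lf (nat_lit 0) (nat_lit 6728536819) (nat_lit 304) (nat_lit 2804505806) (nat_lit 0) (nat_lit 2472075935) (nat_lit 80) (nat_lit 5) (nat_lit 84) (nat_lit 4) (nat_lit 80) (nat_lit 4) (nat_lit 477) (nat_lit 335) (nat_lit 328)))) (XT.nd (nat_lit 156) (nat_lit 228) (nat_lit 0) (XT.nd (nat_lit 78) (nat_lit 304) (nat_lit 0) (XT.lf (nat_lit 0) (nat_lit 5101928418) (nat_lit 228) (nat_lit 5931466887) (nat_lit 228) (nat_lit 1113687494) (nat_lit 77) (nat_lit 4) (nat_lit 80) (nat_lit 5) (nat_lit 80) (nat_lit 4) (nat_lit 478) (nat_lit 335) (nat_lit 327)) (XT.lf (nat_lit 0) (nat_lit 802956291) (nat_lit 228) (nat_lit 2252017940) (nat_lit 304) (nat_lit 9237252691) (nat_lit 73) (nat_lit 5) (nat_lit 76) (nat_lit 5) (nat_lit 77) (nat_lit 4) (nat_lit 479) (nat_lit 335) (nat_lit 326))) (XT.nd (nat_lit 78) (nat_lit 228) (nat_lit 0) (XT.lf (nat_lit 0) (nat_lit 7289166889) (nat_lit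 304) (nat_lit 3653648281) (nat_lit 0) (nat_lit 1497388962) (nat_lit 73) (nat_lit 5) (nat_lit 77) (nat_lit 4) (nat_lit 73) (nat_lit 4) (nat_lit 480) (nat_lit 335) (nat_lit 325)) (XT.lf (nat_lit 0) (nat_lit 4281479903) (nat_lit 228) (nat_lit 7310178307) (nat_lit 228) (nat_lit 999828843) (nat_lit 70) (nat_lit 4) (nat_lit 73) (nat_lit 5) (nat_lit 73) (nat_lit 4) (nat_lit 481) (nat_lit 335) (nat_lit 324))))) (XT.nd (nat_lit 234) (nat_lit 532) (nat_lit 0) (XT.nd (nat_lit 78) (nat_lit 456) (nat_lit 0) (XT.lf (nat_lit 0) (nat_lit 3157684828) (nat_lit 304) (nat_lit 440229577) (nat_lit 76) (nat_lit 9148164959) (nat_lit 69) (nat_lit 5) (nat_lit 73) (nat_lit 5) (nat_lit 70) (nat_lit 4) (nat_lit 482) (nat_lit 335) (nat_lit 323)) (XT.nd (nat_lit 78) (nat_lit 228) (nat_lit 0) (XT.lf (nat_lit 0) (nat_lit 7377727437) (nat_lit 304) (nat_lit 5322051978) (nat_lit 0) (nat_lit 204014001) (nat_lit 66) (nat_lit 5) (nat_lit 70) (nat_lit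 4) (nat_lit 66) (nat_lit 4) (nat_lit 483) (nat_lit 335) (nat_lit 322)) (XT.lf (nat_lit 0) (nat_lit 2619077986) (nat_lit 228) (nat_lit 9049334681) (nat_lit 228) (nat_lit 1396541302) (nat_lit 63) (nat_lit 4) (nat_lit 66) (nat_lit 5) (nat_lit 66) (nat_lit 4) (nat_lit 484) (nat_lit 335) (nat_lit 321)))) (XT.nd (nat_lit 156) (nat_lit 304) (nat_lit 0) (XT.nd (nat_lit 78) (nat_lit 152) (nat_lit 0) (XT.lf (nat_lit 0) (nat_lit 2757142439) (nat_lit 304) (nat_lit 2553051869) (nat_lit 76) (nat_lit 7919224304) (nat_lit 62) (nat_lit 5) (nat_lit 66) (nat_lit 5) (nat_lit 63) (nat_lit 4) (nat_lit 485) (nat_lit 335) (nat_lit 320)) (XT.lf (nat_lit 0) (nat_lit 5464872814) (nat_lit 152) (nat_lit 1489498025) (nat_lit 228) (nat_lit 6443049746) (nat_lit 60) (nat_lit 5) (nat_lit 62) (nat_lit 5) (nat_lit 63) (nat_lit 4) (nat_lit 486) (nat_lit 335) (nat_lit 319))) (XT.nd (nat_lit 78) (nat_lit 304) (nat_lit 0) (XT.lf (nat_lit 0) (nat_lit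 11212332218) (nat_lit 228) (nat_lit 1856988) (nat_lit 0) (nat_lit 2355073382) (nat_lit 60) (nat_lit 5) (nat_lit 63) (nat_lit 4) (nat_lit 60) (nat_lit 4) (nat_lit 487) (nat_lit 335) (nat_lit 318)) (XT.lf (nat_lit 0) (nat_lit 1794596003) (nat_lit 304) (nat_lit 5666092373) (nat_lit 76) (nat_lit 6283484347) (nat_lit 56) (nat_lit 5) (nat_lit 60) (nat_lit 5) (nat_lit 57) (nat_lit 4) (nat_lit 488) (nat_lit 335) (nat_lit 317)))))) (XT.nd (nat_lit 546) (nat_lit 760) (nat_lit 0) (XT.nd (nat_lit 234) (nat_lit 456) (nat_lit 0) (XT.nd (nat_lit 78) (nat_lit 304) (nat_lit 0) (XT.lf (nat_lit 0) (nat_lit 2318162485) (nat_lit 152) (nat_lit 3639633586) (nat_lit 228) (nat_lit 7965284206) (nat_lit 54) (nat_lit 5) (nat_lit 56) (nat_lit 5) (nat_lit 57) (nat_lit 4) (nat_lit 489) (nat_lit 335) (nat_lit 316)) (XT.nd (nat_lit 78) (nat_lit 304) (nat_lit 0) (XT.lf (nat_lit 0) (nat_lit 10189538847) (nat_lit 228) (nat_lit 3661751683) (nat_lit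 0) (nat_lit 254584435) (nat_lit 54) (nat_lit 5) (nat_lit 57) (nat_lit 4) (nat_lit 54) (nat_lit 4) (nat_lit 490) (nat_lit 335) (nat_lit 315)) (XT.lf (nat_lit 0) (nat_lit 209722422) (nat_lit 304) (nat_lit 9912187782) (nat_lit 76) (nat_lit 4170422944) (nat_lit 50) (nat_lit 5) (nat_lit 54) (nat_lit 5) (nat_lit 51) (nat_lit 4) (nat_lit 491) (nat_lit 335) (nat_lit 314)))) (XT.nd (nat_lit 156) (nat_lit 304) (nat_lit 0) (XT.nd (nat_lit 78) (nat_lit 152) (nat_lit 0) (XT.lf (nat_lit 0) (nat_lit 4337139983) (nat_lit 304) (nat_lit 1967816728) (nat_lit 76) (nat_lit 8177634213) (nat_lit 50) (nat_lit 5) (nat_lit 54) (nat_lit 5) (nat_lit 51) (nat_lit 4) (nat_lit 492) (nat_lit 335) (nat_lit 313)) (XT.lf (nat_lit 0) (nat_lit 6125379841) (nat_lit 152) (nat_lit 2409038785) (nat_lit 228) (nat_lit 6142502423) (nat_lit 48) (nat_lit 5) (nat_lit 50) (nat_lit 5) (nat_lit 51) (nat_lit 4) (nat_lit 493) (nat_lit 335) (nat_lit 312))) (XT.nd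 (nat_lit 78) (nat_lit 304) (nat_lit 0) (XT.lf (nat_lit 0) (nat_lit 12786837940) (nat_lit 228) (nat_lit 568616916) (nat_lit 0) (nat_lit 1520272205) (nat_lit 48) (nat_lit 5) (nat_lit 51) (nat_lit 4) (nat_lit 48) (nat_lit 4) (nat_lit 494) (nat_lit 335) (nat_lit 311)) (XT.lf (nat_lit 0) (nat_lit 2032905226) (nat_lit 304) (nat_lit 7523179901) (nat_lit 76) (nat_lit 5521892292) (nat_lit 44) (nat_lit 5) (nat_lit 48) (nat_lit 5) (nat_lit 45) (nat_lit 4) (nat_lit 495) (nat_lit 335) (nat_lit 310))))) (XT.nd (nat_lit 312) (nat_lit 380) (nat_lit 0) (XT.nd (nat_lit 156) (nat_lit 228) (nat_lit 0) (XT.nd (nat_lit 78) (nat_lit 0) (nat_lit 0) (XT.lf (nat_lit 0) (nat_lit 467522424) (nat_lit 152) (nat_lit 5697395564) (nat_lit 228) (nat_lit 9119976015) (nat_lit 42) (nat_lit 5) (nat_lit 44) (nat_lit 5) (nat_lit 45) (nat_lit 4) (nat_lit 496) (nat_lit 335) (nat_lit 309)) (XT.lf (nat_lit 0) (nat_lit 8631660854) (nat_lit 152) (nat_lit 1747674069)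 (nat_lit 228) (nat_lit 5116630899) (nat_lit 42) (nat_lit 5) (nat_lit 44) (nat_lit 5) (nat_lit 45) (nat_lit 4) (nat_lit 497) (nat_lit 335) (nat_lit 308))) (XT.nd (nat_lit 78) (nat_lit 76) (nat_lit 0) (XT.lf (nat_lit 0) (nat_lit 1160846610) (nat_lit 152) (nat_lit 13489574986) (nat_lit 152) (nat_lit 1061401798) (nat_lit 40) (nat_lit 4) (nat_lit 42) (nat_lit 5) (nat_lit 42) (nat_lit 4) (nat_lit 498) (nat_lit 335) (nat_lit 307)) (XT.lf (nat_lit 0) (nat_lit 3042656481) (nat_lit 228) (nat_lit 6610862304) (nat_lit 76) (nat_lit 6277930462) (nat_lit 39) (nat_lit 5) (nat_lit 42) (nat_lit 5) (nat_lit 40) (nat_lit 4) (nat_lit 499) (nat_lit 335) (nat_lit 306)))) (XT.nd (nat_lit 156) (nat_lit 228) (nat_lit 0) (XT.nd (nat_lit 78) (nat_lit 0) (nat_lit 0) (XT.lf (nat_lit 0) (nat_lit 1413792377) (nat_lit 152) (nat_lit 5761072891) (nat_lit 228) (nat_lit 8981267657) (nat_lit 37) (nat_lit 5) (nat_lit 39) (nat_lit 5) (nat_lit 40) (nat_lit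 4) (nat_lit 500) (nat_lit 335) (nat_lit 305)) (XT.lf (nat_lit 0) (nat_lit 9603341362) (nat_lit 152) (nat_lit 1782233978) (nat_lit 228) (nat_lit 4999828828) (nat_lit 37) (nat_lit 5) (nat_lit 39) (nat_lit 5) (nat_lit 40) (nat_lit 4) (nat_lit 501) (nat_lit 335) (nat_lit 304))) (XT.nd (nat_lit 78) (nat_lit 76) (nat_lit 0) (XT.lf (nat_lit 0) (nat_lit 1254831119) (nat_lit 152) (nat_lit 14400806356) (nat_lit 152) (nat_lit 964131420) (nat_lit 35) (nat_lit 4) (nat_lit 37) (nat_lit 5) (nat_lit 37) (nat_lit 4) (nat_lit 502) (nat_lit 335) (nat_lit 303)) (XT.lf (nat_lit 0) (nat_lit 3120834039) (nat_lit 228) (nat_lit 7430444471) (nat_lit 76) (nat_lit 6306945534) (nat_lit 34) (nat_lit 5) (nat_lit 37) (nat_lit 5) (nat_lit 35) (nat_lit 4) (nat_lit 503) (nat_lit 335) (nat_lit 302))))))))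
noncomputable def xc18 : XT := (XT.nd (nat_lit 2184) (nat_lit 76) (nat_lit 0) (XT.nd (nat_lit 1092) (nat_lit 684) (nat_lit 0) (XT.nd (nat_lit 546) (nat_lit 532) (nat_lit 0) (XT.nd (nat_lit 234) (nat_lit 304) (nat_lit 0) (XT.nd (nat_lit 78) (nat_lit 0) (nat_lit 0) (XT.lf (nat_lit 0) (nat_lit 581272925) (nat_lit 152) (nat_lit 6650319238) (nat_lit 228) (nat_lit 9870598806) (nat_lit 32) (nat_lit 5) (nat_lit 34) (nat_lit 5) (nat_lit 35) (nat_lit 4) (nat_lit 504) (nat_lit 335) (nat_lit 301)) (XT.nd (nat_lit 78) (nat_lit 0) (nat_lit 0) (XT.lf (nat_lit 0) (nat_lit 8771786111) (nat_lit 152) (nat_lit 2656242406) (nat_lit 228) (nat_lit 5922949447) (nat_lit 32) (nat_lit 5) (nat_lit 34) (nat_lit 5) (nat_lit 35) (nat_lit 4) (nat_lit 505) (nat_lit 335) (nat_lit 300)) (XT.lf (nat_lit 0) (nat_lit 15671881380) (nat_lit 228) (nat_lit 569077050) (nat_lit 0) (nat_lit 1364522312) (nat_lit 32) (nat_lit 5) (nat_lit 35) (nat_lit 4) (nat_lit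 32) (nat_lit 4) (nat_lit 506) (nat_lit 335) (nat_lit 299)))) (XT.nd (nat_lit 156) (nat_lit 76) (nat_lit 0) (XT.nd (nat_lit 78) (nat_lit 0) (nat_lit 0) (XT.lf (nat_lit 0) (nat_lit 2129805773) (nat_lit 228) (nat_lit 10274927216) (nat_lit 76) (nat_lit 5459627176) (nat_lit 29) (nat_lit 5) (nat_lit 32) (nat_lit 5) (nat_lit 30) (nat_lit 4) (nat_lit 507) (nat_lit 335) (nat_lit 298)) (XT.lf (nat_lit 0) (nat_lit 6207697263) (nat_lit 228) (nat_lit 2302072497) (nat_lit 76) (nat_lit 9619218845) (nat_lit 29) (nat_lit 5) (nat_lit 32) (nat_lit 5) (nat_lit 30) (nat_lit 4) (nat_lit 508) (nat_lit 335) (nat_lit 297))) (XT.nd (nat_lit 78) (nat_lit 0) (nat_lit 0) (XT.lf (nat_lit 0) (nat_lit 5828516406) (nat_lit 76) (nat_lit 4532591249) (nat_lit 152) (nat_lit 8037931788) (nat_lit 28) (nat_lit 5) (nat_lit 29) (nat_lit 5) (nat_lit 30) (nat_lit 4) (nat_lit 509) (nat_lit 335) (nat_lit 296)) (XT.lf (nat_lit 0) (nat_lit 14075271578) (nat_lit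 76) (nat_lit 494237535) (nat_lit 152) (nat_lit 4105552602) (nat_lit 28) (nat_lit 5) (nat_lit 29) (nat_lit 5) (nat_lit 30) (nat_lit 4) (nat_lit 510) (nat_lit 335) (nat_lit 295))))) (XT.nd (nat_lit 234) (nat_lit 228) (nat_lit 0) (XT.nd (nat_lit 78) (nat_lit 152) (nat_lit 0) (XT.lf (nat_lit 0) (nat_lit 3475632762) (nat_lit 152) (nat_lit 15389658053) (nat_lit 152) (nat_lit 91258072) (nat_lit 26) (nat_lit 4) (nat_lit 28) (nat_lit 5) (nat_lit 28) (nat_lit 4) (nat_lit 511) (nat_lit 335) (nat_lit 294)) (XT.nd (nat_lit 78) (nat_lit 76) (nat_lit 0) (XT.lf (nat_lit 0) (nat_lit 3942329155) (nat_lit 228) (nat_lit 7574448286) (nat_lit 76) (nat_lit 7726546656) (nat_lit 25) (nat_lit 5) (nat_lit 28) (nat_lit 5) (nat_lit 26) (nat_lit 4) (nat_lit 512) (nat_lit 335) (nat_lit 293)) (XT.lf (nat_lit 0) (nat_lit 419710332) (nat_lit 76) (nat_lit 7596388475) (nat_lit 152) (nat_lit 11520517487) (nat_lit 24) (nat_lit 5) (nat_lit 25) (nat_lit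 5) (nat_lit 26) (nat_lit 4) (nat_lit 513) (nat_lit 335) (nat_lit 292)))) (XT.nd (nat_lit 156) (nat_lit 228) (nat_lit 0) (XT.nd (nat_lit 78) (nat_lit 0) (nat_lit 0) (XT.lf (nat_lit 0) (nat_lit 8601582619) (nat_lit 76) (nat_lit 3578933686) (nat_lit 152) (nat_lit 7655082619) (nat_lit 24) (nat_lit 5) (nat_lit 25) (nat_lit 5) (nat_lit 26) (nat_lit 4) (nat_lit 514) (nat_lit 335) (nat_lit 291)) (XT.lf (nat_lit 0) (nat_lit 16390540457) (nat_lit 152) (nat_lit 3270826755) (nat_lit 0) (nat_lit 479955507) (nat_lit 24) (nat_lit 5) (nat_lit 26) (nat_lit 4) (nat_lit 24) (nat_lit 4) (nat_lit 515) (nat_lit 335) (nat_lit 290))) (XT.nd (nat_lit 78) (nat_lit 0) (nat_lit 0) (XT.lf (nat_lit 0) (nat_lit 243397927) (nat_lit 228) (nat_lit 15635891850) (nat_lit 76) (nat_lit 4573552084) (nat_lit 21) (nat_lit 5) (nat_lit 24) (nat_lit 5) (nat_lit 22) (nat_lit 4) (nat_lit 516) (nat_lit 335) (nat_lit 289)) (XT.lf (nat_lit 0) (nat_lit 4249183776)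 (nat_lit 228) (nat_lit 7756920823) (nat_lit 76) (nat_lit 8764359460) (nat_lit 21) (nat_lit 5) (nat_lit 24) (nat_lit 5) (nat_lit 22) (nat_lit 4) (nat_lit 517) (nat_lit 335) (nat_lit 288)))))) (XT.nd (nat_lit 546) (nat_lit 304) (nat_lit 0) (XT.nd (nat_lit 234) (nat_lit 304) (nat_lit 0) (XT.nd (nat_lit 78) (nat_lit 0) (nat_lit 0) (XT.lf (nat_lit 0) (nat_lit 211220732) (nat_lit 76) (nat_lit 8085827911) (nat_lit 152) (nat_lit 12798158071) (nat_lit 20) (nat_lit 5) (nat_lit 21) (nat_lit 5) (nat_lit 22) (nat_lit 4) (nat_lit 518) (nat_lit 335) (nat_lit 287)) (XT.nd (nat_lit 78) (nat_lit 0) (nat_lit 0) (XT.lf (nat_lit 0) (nat_lit 8373161416) (nat_lit 76) (nat_lit 4065667937) (nat_lit 152) (nat_lit 8987362834) (nat_lit 20) (nat_lit 5) (nat_lit 21) (nat_lit 5) (nat_lit 22) (nat_lit 4) (nat_lit 519) (nat_lit 335) (nat_lit 286)) (XT.lf (nat_lit 0) (nat_lit 16625143073) (nat_lit 152) (nat_lit 5135579646) (nat_lit 0) (nat_lit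 3847700) (nat_lit 20) (nat_lit 5) (nat_lit 22) (nat_lit 4) (nat_lit 20) (nat_lit 4) (nat_lit 520) (nat_lit 335) (nat_lit 285)))) (XT.nd (nat_lit 156) (nat_lit 76) (nat_lit 0) (XT.nd (nat_lit 78) (nat_lit 76) (nat_lit 0) (XT.lf (nat_lit 0) (nat_lit 2882574932) (nat_lit 152) (nat_lit 18020474983) (nat_lit 152) (nat_lit 1206515825) (nat_lit 18) (nat_lit 4) (nat_lit 20) (nat_lit 5) (nat_lit 20) (nat_lit 4) (nat_lit 521) (nat_lit 335) (nat_lit 284)) (XT.lf (nat_lit 0) (nat_lit 2765225972) (nat_lit 228) (nat_lit 11417088757) (nat_lit 76) (nat_lit 8278849369) (nat_lit 17) (nat_lit 5) (nat_lit 20) (nat_lit 5) (nat_lit 18) (nat_lit 4) (nat_lit 522) (nat_lit 335) (nat_lit 283))) (XT.nd (nat_lit 78) (nat_lit 76) (nat_lit 0) (XT.lf (nat_lit 0) (nat_lit 6763272422) (nat_lit 228) (nat_lit 3526217343) (nat_lit 76) (nat_lit 12530891118) (nat_lit 17) (nat_lit 5) (nat_lit 20) (nat_lit 5) (nat_lit 18) (nat_lit 4) (nat_lit 523) (nat_lit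 335) (nat_lit 282)) (XT.lf (nat_lit 0) (nat_lit 4515776616) (nat_lit 76) (nat_lit 6318557859) (nat_lit 152) (nat_lit 12352592774) (nat_lit 16) (nat_lit 5) (nat_lit 17) (nat_lit 5) (nat_lit 18) (nat_lit 4) (nat_lit 524) (nat_lit 335) (nat_lit 281))))) (XT.nd (nat_lit 234) (nat_lit 152) (nat_lit 0) (XT.nd (nat_lit 78) (nat_lit 152) (nat_lit 0) (XT.lf (nat_lit 0) (nat_lit 12700922838) (nat_lit 76) (nat_lit 2273578854) (nat_lit 152) (nat_lit 8586555385) (nat_lit 16) (nat_lit 5) (nat_lit 17) (nat_lit 5) (nat_lit 18) (nat_lit 4) (nat_lit 525) (nat_lit 335) (nat_lit 280)) (XT.nd (nat_lit 78) (nat_lit 152) (nat_lit 0) (XT.lf (nat_lit 0) (nat_lit 19174037403) (nat_lit 152) (nat_lit 2969649980) (nat_lit 0) (nat_lit 1799456906) (nat_lit 16) (nat_lit 5) (nat_lit 18) (nat_lit 4) (nat_lit 16) (nat_lit 4) (nat_lit 526) (nat_lit 335) (nat_lit 279)) (XT.lf (nat_lit 0) (nat_lit 5066579282) (nat_lit 152) (nat_lit 18404171061) (nat_lit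 152) (nat_lit 861865145) (nat_lit 14) (nat_lit 4) (nat_lit 16) (nat_lit 5) (nat_lit 16) (nat_lit 4) (nat_lit 527) (nat_lit 335) (nat_lit 278)))) (XT.nd (nat_lit 156) (nat_lit 76) (nat_lit 0) (XT.nd (nat_lit 78) (nat_lit 0) (nat_lit 0) (XT.lf (nat_lit 0) (nat_lit 3067888059) (nat_lit 228) (nat_lit 11509608721) (nat_lit 76) (nat_lit 10152272827) (nat_lit 13) (nat_lit 5) (nat_lit 16) (nat_lit 5) (nat_lit 14) (nat_lit 4) (nat_lit 528) (nat_lit 335) (nat_lit 277)) (XT.lf (nat_lit 0) (nat_lit 7030659964) (nat_lit 228) (nat_lit 3666021910) (nat_lit 76) (nat_lit 14438757343) (nat_lit 13) (nat_lit 5) (nat_lit 16) (nat_lit 5) (nat_lit 14) (nat_lit 4) (nat_lit 529) (nat_lit 335) (nat_lit 276))) (XT.nd (nat_lit 78) (nat_lit 0) (nat_lit 0) (XT.lf (nat_lit 0) (nat_lit 4330187123) (nat_lit 76) (nat_lit 6737235435) (nat_lit 152) (nat_lit 14481910473) (nat_lit 12) (nat_lit 5) (nat_lit 13) (nat_lit 5) (nat_lit 14) (nat_lit 4) (nat_lit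 530) (nat_lit 335) (nat_lit 275)) (XT.lf (nat_lit 0) (nat_lit 12475375119) (nat_lit 76) (nat_lit 2701027815) (nat_lit 152) (nat_lit 10795277548) (nat_lit 12) (nat_lit 5) (nat_lit 13) (nat_lit 5) (nat_lit 14) (nat_lit 4) (nat_lit 531) (nat_lit 335) (nat_lit 274))))))) (XT.nd (nat_lit 55302) (nat_lit 0) (nat_lit 2812) (XT.nd (nat_lit 54756) (nat_lit 0) (nat_lit 4712) (XT.nd (nat_lit 54444) (nat_lit 0) (nat_lit 6156) (XT.nd (nat_lit 78) (nat_lit 76) (nat_lit 0) (XT.lf (nat_lit 0) (nat_lit 19344111696) (nat_lit 152) (nat_lit 5688130607) (nat_lit 0) (nat_lit 1370706904) (nat_lit 12) (nat_lit 5) (nat_lit 14) (nat_lit 4) (nat_lit 12) (nat_lit 4) (nat_lit 532) (nat_lit 335) (nat_lit 273)) (XT.nd (nat_lit 54288) (nat_lit 0) (nat_lit 7068) (XT.lf (nat_lit 0) (nat_lit 2228796587) (nat_lit 76) (nat_lit 21366732348) (nat_lit 76) (nat_lit 3247312485) (nat_lit 11) (nat_lit 4) (nat_lit 12) (nat_lit 5) (nat_lit 12) (nat_lit 4)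 (nat_lit 533) (nat_lit 335) (nat_lit 272)) (XT.lf (nat_lit 0) (nat_lit 1677393471) (nat_lit 380) (nat_lit 2072760543) (nat_lit 0) (nat_lit 1677393471) (nat_lit 104) (nat_lit 5) (nat_lit 109) (nat_lit 4) (nat_lit 104) (nat_lit 4) (nat_lit 468) (nat_lit 336) (nat_lit 336)))) (XT.nd (nat_lit 156) (nat_lit 304) (nat_lit 0) (XT.nd (nat_lit 78) (nat_lit 304) (nat_lit 0) (XT.lf (nat_lit 0) (nat_lit 3517159499) (nat_lit 304) (nat_lit 4076709516) (nat_lit 304) (nat_lit 3378780502) (nat_lit 100) (nat_lit 4) (nat_lit 104) (nat_lit 5) (nat_lit 104) (nat_lit 4) (nat_lit 469) (nat_lit 336) (nat_lit 335)) (XT.lf (nat_lit 0) (nat_lit 191732397) (nat_lit 228) (nat_lit 587428761) (nat_lit 304) (nat_lit 10314014611) (nat_lit 96) (nat_lit 5) (nat_lit 99) (nat_lit 5) (nat_lit 100) (nat_lit 4) (nat_lit 470) (nat_lit 336) (nat_lit 334))) (XT.nd (nat_lit 78) (nat_lit 304) (nat_lit 0) (XT.lf (nat_lit 0) (nat_lit 4980631171) (nat_lit 304)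 (nat_lit 3267060525) (nat_lit 0) (nat_lit 2967885363) (nat_lit 96) (nat_lit 5) (nat_lit 100) (nat_lit 4) (nat_lit 96) (nat_lit 4) (nat_lit 471) (nat_lit 336) (nat_lit 333)) (XT.lf (nat_lit 0) (nat_lit 4473905823) (nat_lit 304) (nat_lit 4762332841) (nat_lit 304) (nat_lit 2104808507) (nat_lit 92) (nat_lit 4) (nat_lit 96) (nat_lit 5) (nat_lit 96) (nat_lit 4) (nat_lit 472) (nat_lit 336) (nat_lit 332))))) (XT.nd (nat_lit 234) (nat_lit 836) (nat_lit 0) (XT.nd (nat_lit 78) (nat_lit 304) (nat_lit 0) (XT.lf (nat_lit 0) (nat_lit 841513150) (nat_lit 228) (nat_lit 1203622143) (nat_lit 304) (nat_lit 9424342744) (nat_lit 88) (nat_lit 5) (nat_lit 91) (nat_lit 5) (nat_lit 92) (nat_lit 4) (nat_lit 473) (nat_lit 336) (nat_lit 331)) (XT.nd (nat_lit 78) (nat_lit 304) (nat_lit 0) (XT.lf (nat_lit 0) (nat_lit 6249706551) (nat_lit 304) (nat_lit 2933557769) (nat_lit 0) (nat_lit 2416960340) (nat_lit 88) (nat_lit 5) (nat_lit 92) (nat_lit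 4) (nat_lit 88) (nat_lit 4) (nat_lit 474) (nat_lit 336) (nat_lit 330)) (XT.lf (nat_lit 0) (nat_lit 4871210816) (nat_lit 304) (nat_lit 5645624593) (nat_lit 304) (nat_lit 1217202689) (nat_lit 84) (nat_lit 4) (nat_lit 88) (nat_lit 5) (nat_lit 88) (nat_lit 4) (nat_lit 475) (nat_lit 336) (nat_lit 329)))) (XT.nd (nat_lit 156) (nat_lit 532) (nat_lit 0) (XT.nd (nat_lit 78) (nat_lit 0) (nat_lit 0) (XT.lf (nat_lit 0) (nat_lit 894213931) (nat_lit 228) (nat_lit 2029861124) (nat_lit 304) (nat_lit 8946791226) (nat_lit 80) (nat_lit 5) (nat_lit 83) (nat_lit 5) (nat_lit 84) (nat_lit 4) (nat_lit 476) (nat_lit 336) (nat_lit 328)) (XT.lf (nat_lit 0) (nat_lit 7128326660) (nat_lit 304) (nat_lit 3229161336) (nat_lit 0) (nat_lit 1652873169) (nat_lit 80) (nat_lit 5) (nat_lit 84) (nat_lit 4) (nat_lit 80) (nat_lit 4) (nat_lit 477) (nat_lit 336) (nat_lit 327))) (XT.nd (nat_lit 78) (nat_lit 304) (nat_lit 0) (XT.lf (nat_lit 0) (nat_lit 4622478412)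 (nat_lit 228) (nat_lit 6778136921) (nat_lit 228) (nat_lit 752371166) (nat_lit 77) (nat_lit 4) (nat_lit 80) (nat_lit 5) (nat_lit 80) (nat_lit 4) (nat_lit 478) (nat_lit 336) (nat_lit 326)) (XT.lf (nat_lit 0) (nat_lit 259542463) (nat_lit 228) (nat_lit 3119086272) (nat_lit 304) (nat_lit 8920122755) (nat_lit 73) (nat_lit 5) (nat_lit 76) (nat_lit 5) (nat_lit 77) (nat_lit 4) (nat_lit 479) (nat_lit 336) (nat_lit 325)))))) (XT.nd (nat_lit 546) (nat_lit 912) (nat_lit 0) (XT.nd (nat_lit 234) (nat_lit 684) (nat_lit 0) (XT.nd (nat_lit 78) (nat_lit 304) (nat_lit 0) (XT.lf (nat_lit 0) (nat_lit 7577935660) (nat_lit 304) (nat_lit 4246692225) (nat_lit 0) (nat_lit 622807669) (nat_lit 73) (nat_lit 5) (nat_lit 77) (nat_lit 4) (nat_lit 73) (nat_lit 4) (nat_lit 480) (nat_lit 336) (nat_lit 324)) (XT.nd (nat_lit 78) (nat_lit 76) (nat_lit 0) (XT.lf (nat_lit 0) (nat_lit 3632140212) (nat_lit 228) (nat_lit 8215388327) (nat_lit 228) (nat_lit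 751856868) (nat_lit 70) (nat_lit 4) (nat_lit 73) (nat_lit 5) (nat_lit 73) (nat_lit 4) (nat_lit 481) (nat_lit 336) (nat_lit 323)) (XT.lf (nat_lit 0) (nat_lit 3373779397) (nat_lit 304) (nat_lit 1146931848) (nat_lit 76) (nat_lit 8233815389) (nat_lit 69) (nat_lit 5) (nat_lit 73) (nat_lit 5) (nat_lit 70) (nat_lit 4) (nat_lit 482) (nat_lit 336) (nat_lit 322)))) (XT.nd (nat_lit 156) (nat_lit 228) (nat_lit 0) (XT.nd (nat_lit 78) (nat_lit 228) (nat_lit 0) (XT.lf (nat_lit 0) (nat_lit 6819477110) (nat_lit 228) (nat_lit 739980752) (nat_lit 304) (nat_lit 5353478551) (nat_lit 66) (nat_lit 5) (nat_lit 69) (nat_lit 5) (nat_lit 70) (nat_lit 4) (nat_lit 483) (nat_lit 336) (nat_lit 321)) (XT.lf (nat_lit 0) (nat_lit 1794612236) (nat_lit 228) (nat_lit 10017435166) (nat_lit 228) (nat_lit 1262819758) (nat_lit 63) (nat_lit 4) (nat_lit 66) (nat_lit 5) (nat_lit 66) (nat_lit 4) (nat_lit 484) (nat_lit 336) (nat_lit 320))) (XT.nd (nat_lit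 78) (nat_lit 152) (nat_lit 0) (XT.lf (nat_lit 0) (nat_lit 2861224861) (nat_lit 304) (nat_lit 3435417872) (nat_lit 76) (nat_lit 6943237369) (nat_lit 62) (nat_lit 5) (nat_lit 66) (nat_lit 5) (nat_lit 63) (nat_lit 4) (nat_lit 485) (nat_lit 336) (nat_lit 319)) (XT.lf (nat_lit 0) (nat_lit 4523971771) (nat_lit 152) (nat_lit 2501033968) (nat_lit 228) (nat_lit 6383553088) (nat_lit 60) (nat_lit 5) (nat_lit 62) (nat_lit 5) (nat_lit 63) (nat_lit 4) (nat_lit 486) (nat_lit 336) (nat_lit 318))))) (XT.nd (nat_lit 312) (nat_lit 456) (nat_lit 0) (XT.nd (nat_lit 156) (nat_lit 152) (nat_lit 0) (XT.nd (nat_lit 78) (nat_lit 304) (nat_lit 0) (XT.lf (nat_lit 0) (nat_lit 11249177081) (nat_lit 228) (nat_lit 993647408) (nat_lit 0) (nat_lit 1338259789) (nat_lit 60) (nat_lit 5) (nat_lit 63) (nat_lit 4) (nat_lit 60) (nat_lit 4) (nat_lit 487) (nat_lit 336) (nat_lit 317)) (XT.lf (nat_lit 0) (nat_lit 1785549265) (nat_lit 304) (nat_lit 6729517054)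 (nat_lit 76) (nat_lit 5241607032) (nat_lit 56) (nat_lit 5) (nat_lit 60) (nat_lit 5) (nat_lit 57) (nat_lit 4) (nat_lit 488) (nat_lit 336) (nat_lit 316))) (XT.nd (nat_lit 78) (nat_lit 0) (nat_lit 0) (XT.lf (nat_lit 0) (nat_lit 1194528155) (nat_lit 152) (nat_lit 4720285036) (nat_lit 228) (nat_lit 8021453643) (nat_lit 54) (nat_lit 5) (nat_lit 56) (nat_lit 5) (nat_lit 57) (nat_lit 4) (nat_lit 489) (nat_lit 336) (nat_lit 315)) (XT.lf (nat_lit 0) (nat_lit 9277023528) (nat_lit 152) (nat_lit 841445846) (nat_lit 228) (nat_lit 4001160945) (nat_lit 54) (nat_lit 5) (nat_lit 56) (nat_lit 5) (nat_lit 57) (nat_lit 4) (nat_lit 490) (nat_lit 336) (nat_lit 314)))) (XT.nd (nat_lit 156) (nat_lit 152) (nat_lit 0) (XT.nd (nat_lit 78) (nat_lit 0) (nat_lit 0) (XT.lf (nat_lit 0) (nat_lit 86238294) (nat_lit 304) (nat_lit 11162227345) (nat_lit 76) (nat_lit 3058436106) (nat_lit 50) (nat_lit 5) (nat_lit 54) (nat_lit 5) (nat_lit 51) (nat_lit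 4) (nat_lit 491) (nat_lit 336) (nat_lit 313)) (XT.lf (nat_lit 0) (nat_lit 4187686896) (nat_lit 304) (nat_lit 3262607460) (nat_lit 76) (nat_lit 7047391201) (nat_lit 50) (nat_lit 5) (nat_lit 54) (nat_lit 5) (nat_lit 51) (nat_lit 4) (nat_lit 492) (nat_lit 336) (nat_lit 312))) (XT.nd (nat_lit 78) (nat_lit 0) (nat_lit 0) (XT.lf (nat_lit 0) (nat_lit 4768925267) (nat_lit 152) (nat_lit 3581773507) (nat_lit 228) (nat_lit 6342008773) (nat_lit 48) (nat_lit 5) (nat_lit 50) (nat_lit 5) (nat_lit 51) (nat_lit 4) (nat_lit 493) (nat_lit 336) (nat_lit 311)) (XT.lf (nat_lit 0) (nat_lit 12570141295) (nat_lit 228) (nat_lit 1977221055) (nat_lit 0) (nat_lit 344817143) (nat_lit 48) (nat_lit 5) (nat_lit 51) (nat_lit 4) (nat_lit 48) (nat_lit 4) (nat_lit 494) (nat_lit 336) (nat_lit 310))))))))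
noncomputable def xc19 : XT := (XT.nd (nat_lit 2184) (nat_lit 380) (nat_lit 0) (XT.nd (nat_lit 1092) (nat_lit 912) (nat_lit 0) (XT.nd (nat_lit 546) (nat_lit 608) (nat_lit 0) (XT.nd (nat_lit 234) (nat_lit 380) (nat_lit 0) (XT.nd (nat_lit 78) (nat_lit 152) (nat_lit 0) (XT.lf (nat_lit 0) (nat_lit 1768163729) (nat_lit 304) (nat_lit 9009596871) (nat_lit 76) (nat_lit 4317398682) (nat_lit 44) (nat_lit 5) (nat_lit 48) (nat_lit 5) (nat_lit 45) (nat_lit 4) (nat_lit 495) (nat_lit 336) (nat_lit 309)) (XT.nd (nat_lit 78) (nat_lit 152) (nat_lit 0) (XT.lf (nat_lit 0) (nat_lit 5872315824) (nat_lit 304) (nat_lit 1068193420) (nat_lit 76) (nat_lit 8362129867) (nat_lit 44) (nat_lit 5) (nat_lit 48) (nat_lit 5) (nat_lit 45) (nat_lit 4) (nat_lit 496) (nat_lit 336) (nat_lit 308)) (XT.lf (nat_lit 0) (nat_lit 7038866043) (nat_lit 152) (nat_lit 3016222267) (nat_lit 228) (nat_lit 5459261421) (nat_lit 42) (nat_lit 5) (nat_lit 44) (nat_lit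 5) (nat_lit 45) (nat_lit 4) (nat_lit 497) (nat_lit 336) (nat_lit 307)))) (XT.nd (nat_lit 156) (nat_lit 152) (nat_lit 0) (XT.nd (nat_lit 78) (nat_lit 228) (nat_lit 0) (XT.lf (nat_lit 0) (nat_lit 14286151292) (nat_lit 228) (nat_lit 499735163) (nat_lit 0) (nat_lit 945127117) (nat_lit 42) (nat_lit 5) (nat_lit 45) (nat_lit 4) (nat_lit 42) (nat_lit 4) (nat_lit 498) (nat_lit 336) (nat_lit 306)) (XT.lf (nat_lit 0) (nat_lit 2636702255) (nat_lit 228) (nat_lit 8337292686) (nat_lit 76) (nat_lit 4977250308) (nat_lit 39) (nat_lit 5) (nat_lit 42) (nat_lit 5) (nat_lit 40) (nat_lit 4) (nat_lit 499) (nat_lit 336) (nat_lit 305))) (XT.nd (nat_lit 78) (nat_lit 152) (nat_lit 0) (XT.lf (nat_lit 0) (nat_lit 6735993145) (nat_lit 228) (nat_lit 372810450) (nat_lit 76) (nat_lit 9067789153) (nat_lit 39) (nat_lit 5) (nat_lit 42) (nat_lit 5) (nat_lit 40) (nat_lit 4) (nat_lit 500) (nat_lit 336) (nat_lit 304)) (XT.lf (nat_lit 0) (nat_lit 7770427660)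 (nat_lit 152) (nat_lit 3150281187) (nat_lit 228) (nat_lit 5485680386) (nat_lit 37) (nat_lit 5) (nat_lit 39) (nat_lit 5) (nat_lit 40) (nat_lit 4) (nat_lit 501) (nat_lit 336) (nat_lit 303))))) (XT.nd (nat_lit 234) (nat_lit 380) (nat_lit 0) (XT.nd (nat_lit 78) (nat_lit 228) (nat_lit 0) (XT.lf (nat_lit 0) (nat_lit 15150548051) (nat_lit 228) (nat_lit 647541677) (nat_lit 0) (nat_lit 843473940) (nat_lit 37) (nat_lit 5) (nat_lit 40) (nat_lit 4) (nat_lit 37) (nat_lit 4) (nat_lit 502) (nat_lit 336) (nat_lit 302)) (XT.nd (nat_lit 78) (nat_lit 0) (nat_lit 0) (XT.lf (nat_lit 0) (nat_lit 2573411765) (nat_lit 228) (nat_lit 9400796359) (nat_lit 76) (nat_lit 4906433122) (nat_lit 34) (nat_lit 5) (nat_lit 37) (nat_lit 5) (nat_lit 35) (nat_lit 4) (nat_lit 503) (nat_lit 336) (nat_lit 301)) (XT.lf (nat_lit 0) (nat_lit 6657690094) (nat_lit 228) (nat_lit 1436842383) (nat_lit 76) (nat_lit 9030610237) (nat_lit 34) (nat_lit 5) (nat_lit 37)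 (nat_lit 5) (nat_lit 35) (nat_lit 4) (nat_lit 504) (nat_lit 336) (nat_lit 300)))) (XT.nd (nat_lit 156) (nat_lit 228) (nat_lit 0) (XT.nd (nat_lit 78) (nat_lit 0) (nat_lit 0) (XT.lf (nat_lit 0) (nat_lit 6694700078) (nat_lit 152) (nat_lit 4127453984) (nat_lit 228) (nat_lit 6552419945) (nat_lit 32) (nat_lit 5) (nat_lit 34) (nat_lit 5) (nat_lit 35) (nat_lit 4) (nat_lit 505) (nat_lit 336) (nat_lit 299)) (XT.lf (nat_lit 0) (nat_lit 14929380358) (nat_lit 152) (nat_lit 105571530) (nat_lit 228) (nat_lit 2594750753) (nat_lit 32) (nat_lit 5) (nat_lit 34) (nat_lit 5) (nat_lit 35) (nat_lit 4) (nat_lit 506) (nat_lit 336) (nat_lit 298))) (XT.nd (nat_lit 78) (nat_lit 0) (nat_lit 0) (XT.lf (nat_lit 0) (nat_lit 1440367858) (nat_lit 228) (nat_lit 12493396404) (nat_lit 76) (nat_lit 3955647378) (nat_lit 29) (nat_lit 5) (nat_lit 32) (nat_lit 5) (nat_lit 30) (nat_lit 4) (nat_lit 507) (nat_lit 336) (nat_lit 297)) (XT.lf (nat_lit 0) (nat_lit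 5496535822) (nat_lit 228) (nat_lit 4559237205) (nat_lit 76) (nat_lit 8098706004) (nat_lit 29) (nat_lit 5) (nat_lit 32) (nat_lit 5) (nat_lit 30) (nat_lit 4) (nat_lit 508) (nat_lit 336) (nat_lit 296)))))) (XT.nd (nat_lit 546) (nat_lit 532) (nat_lit 0) (XT.nd (nat_lit 234) (nat_lit 152) (nat_lit 0) (XT.nd (nat_lit 78) (nat_lit 152) (nat_lit 0) (XT.lf (nat_lit 0) (nat_lit 3502914222) (nat_lit 76) (nat_lit 6110635066) (nat_lit 152) (nat_lit 8811712913) (nat_lit 28) (nat_lit 5) (nat_lit 29) (nat_lit 5) (nat_lit 30) (nat_lit 4) (nat_lit 509) (nat_lit 336) (nat_lit 295)) (XT.nd (nat_lit 78) (nat_lit 152) (nat_lit 0) (XT.lf (nat_lit 0) (nat_lit 11711982193) (nat_lit 76) (nat_lit 2088843887) (nat_lit 152) (nat_lit 4900885192) (nat_lit 28) (nat_lit 5) (nat_lit 29) (nat_lit 5) (nat_lit 30) (nat_lit 4) (nat_lit 510) (nat_lit 336) (nat_lit 294)) (XT.lf (nat_lit 0) (nat_lit 1026667196) (nat_lit 152) (nat_lit 17022871153) (nat_lit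 152) (nat_lit 934605707) (nat_lit 26) (nat_lit 4) (nat_lit 28) (nat_lit 5) (nat_lit 28) (nat_lit 4) (nat_lit 511) (nat_lit 336) (nat_lit 293)))) (XT.nd (nat_lit 156) (nat_lit 76) (nat_lit 0) (XT.nd (nat_lit 78) (nat_lit 0) (nat_lit 0) (XT.lf (nat_lit 0) (nat_lit 3089253288) (nat_lit 228) (nat_lit 10082829882) (nat_lit 76) (nat_lit 6099365445) (nat_lit 25) (nat_lit 5) (nat_lit 28) (nat_lit 5) (nat_lit 26) (nat_lit 4) (nat_lit 512) (nat_lit 336) (nat_lit 292)) (XT.lf (nat_lit 0) (nat_lit 7139916639) (nat_lit 228) (nat_lit 2130740969) (nat_lit 76) (nat_lit 10294549307) (nat_lit 25) (nat_lit 5) (nat_lit 28) (nat_lit 5) (nat_lit 26) (nat_lit 4) (nat_lit 513) (nat_lit 336) (nat_lit 291))) (XT.nd (nat_lit 78) (nat_lit 0) (nat_lit 0) (XT.lf (nat_lit 0) (nat_lit 5986490319) (nat_lit 76) (nat_lit 5283608310) (nat_lit 152) (nat_lit 8594779526) (nat_lit 24) (nat_lit 5) (nat_lit 25) (nat_lit 5) (nat_lit 26) (nat_lit 4) (nat_lit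 514) (nat_lit 336) (nat_lit 290)) (XT.lf (nat_lit 0) (nat_lit 14223012095) (nat_lit 76) (nat_lit 1234132032) (nat_lit 152) (nat_lit 4713921222) (nat_lit 24) (nat_lit 5) (nat_lit 25) (nat_lit 5) (nat_lit 26) (nat_lit 4) (nat_lit 515) (nat_lit 336) (nat_lit 289))))) (XT.nd (nat_lit 234) (nat_lit 304) (nat_lit 0) (XT.nd (nat_lit 78) (nat_lit 76) (nat_lit 0) (XT.lf (nat_lit 0) (nat_lit 2078223408) (nat_lit 152) (nat_lit 17642548749) (nat_lit 152) (nat_lit 762754870) (nat_lit 22) (nat_lit 4) (nat_lit 24) (nat_lit 5) (nat_lit 24) (nat_lit 4) (nat_lit 516) (nat_lit 336) (nat_lit 288)) (XT.nd (nat_lit 78) (nat_lit 0) (nat_lit 0) (XT.lf (nat_lit 0) (nat_lit 3233525693) (nat_lit 228) (nat_lit 10556617454) (nat_lit 76) (nat_lit 7011498905) (nat_lit 21) (nat_lit 5) (nat_lit 24) (nat_lit 5) (nat_lit 22) (nat_lit 4) (nat_lit 517) (nat_lit 336) (nat_lit 287)) (XT.lf (nat_lit 0) (nat_lit 7260892753) (nat_lit 228) (nat_lit 2625792344)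 (nat_lit 76) (nat_lit 11240113100) (nat_lit 21) (nat_lit 5) (nat_lit 24) (nat_lit 5) (nat_lit 22) (nat_lit 4) (nat_lit 518) (nat_lit 336) (nat_lit 286)))) (XT.nd (nat_lit 156) (nat_lit 228) (nat_lit 0) (XT.nd (nat_lit 78) (nat_lit 0) (nat_lit 0) (XT.lf (nat_lit 0) (nat_lit 5466933971) (nat_lit 76) (nat_lit 5899490325) (nat_lit 152) (nat_lit 10092087822) (nat_lit 20) (nat_lit 5) (nat_lit 21) (nat_lit 5) (nat_lit 22) (nat_lit 4) (nat_lit 519) (nat_lit 336) (nat_lit 285)) (XT.lf (nat_lit 0) (nat_lit 13689143099) (nat_lit 76) (nat_lit 1844967429) (nat_lit 152) (nat_lit 6263155768) (nat_lit 20) (nat_lit 5) (nat_lit 21) (nat_lit 5) (nat_lit 22) (nat_lit 4) (nat_lit 520) (nat_lit 336) (nat_lit 284))) (XT.nd (nat_lit 78) (nat_lit 228) (nat_lit 0) (XT.lf (nat_lit 0) (nat_lit 19762989845) (nat_lit 152) (nat_lit 149053995) (nat_lit 0) (nat_lit 2231201655) (nat_lit 20) (nat_lit 5) (nat_lit 22) (nat_lit 4) (nat_lit 20) (nat_lit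 4) (nat_lit 521) (nat_lit 336) (nat_lit 283)) (XT.lf (nat_lit 0) (nat_lit 1587580943) (nat_lit 228) (nat_lit 14510057100) (nat_lit 76) (nat_lit 6397747405) (nat_lit 17) (nat_lit 5) (nat_lit 20) (nat_lit 5) (nat_lit 18) (nat_lit 4) (nat_lit 522) (nat_lit 336) (nat_lit 282))))))) (XT.nd (nat_lit 55146) (nat_lit 0) (nat_lit 4104) (XT.nd (nat_lit 546) (nat_lit 76) (nat_lit 0) (XT.nd (nat_lit 234) (nat_lit 228) (nat_lit 0) (XT.nd (nat_lit 78) (nat_lit 76) (nat_lit 0) (XT.lf (nat_lit 0) (nat_lit 5567674550) (nat_lit 228) (nat_lit 6651819401) (nat_lit 76) (nat_lit 10635470477) (nat_lit 17) (nat_lit 5) (nat_lit 20) (nat_lit 5) (nat_lit 18) (nat_lit 4) (nat_lit 523) (nat_lit 336) (nat_lit 281)) (XT.nd (nat_lit 78) (nat_lit 0) (nat_lit 0) (XT.lf (nat_lit 0) (nat_lit 1316217931) (nat_lit 76) (nat_lit 8284144187) (nat_lit 152) (nat_lit 13621919240) (nat_lit 16) (nat_lit 5) (nat_lit 17) (nat_lit 5) (nat_lit 18) (nat_lit 4)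 (nat_lit 524) (nat_lit 336) (nat_lit 280)) (XT.lf (nat_lit 0) (nat_lit 9469580801) (nat_lit 76) (nat_lit 4253486464) (nat_lit 152) (nat_lit 9873696178) (nat_lit 16) (nat_lit 5) (nat_lit 17) (nat_lit 5) (nat_lit 18) (nat_lit 4) (nat_lit 525) (nat_lit 336) (nat_lit 279)))) (XT.nd (nat_lit 156) (nat_lit 76) (nat_lit 0) (XT.nd (nat_lit 78) (nat_lit 152) (nat_lit 0) (XT.lf (nat_lit 0) (nat_lit 17723067425) (nat_lit 76) (nat_lit 170577340) (nat_lit 152) (nat_lit 6085788011) (nat_lit 16) (nat_lit 5) (nat_lit 17) (nat_lit 5) (nat_lit 18) (nat_lit 4) (nat_lit 526) (nat_lit 336) (nat_lit 278)) (XT.lf (nat_lit 0) (nat_lit 1706099746) (nat_lit 152) (nat_lit 20444458627) (nat_lit 152) (nat_lit 2219144487) (nat_lit 14) (nat_lit 4) (nat_lit 16) (nat_lit 5) (nat_lit 16) (nat_lit 4) (nat_lit 527) (nat_lit 336) (nat_lit 277))) (XT.nd (nat_lit 78) (nat_lit 0) (nat_lit 0) (XT.lf (nat_lit 0) (nat_lit 1711554839) (nat_lit 228) (nat_lit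 14929185800) (nat_lit 76) (nat_lit 8126632470) (nat_lit 13) (nat_lit 5) (nat_lit 16) (nat_lit 5) (nat_lit 14) (nat_lit 4) (nat_lit 528) (nat_lit 336) (nat_lit 276)) (XT.lf (nat_lit 0) (nat_lit 5657802390) (nat_lit 228) (nat_lit 7115817155) (nat_lit 76) (nat_lit 12399756392) (nat_lit 13) (nat_lit 5) (nat_lit 16) (nat_lit 5) (nat_lit 14) (nat_lit 4) (nat_lit 529) (nat_lit 336) (nat_lit 275))))) (XT.nd (nat_lit 234) (nat_lit 0) (nat_lit 0) (XT.nd (nat_lit 78) (nat_lit 0) (nat_lit 0) (XT.lf (nat_lit 0) (nat_lit 804526553) (nat_lit 76) (nat_lit 8850947159) (nat_lit 152) (nat_lit 15932580544) (nat_lit 12) (nat_lit 5) (nat_lit 13) (nat_lit 5) (nat_lit 14) (nat_lit 4) (nat_lit 530) (nat_lit 336) (nat_lit 274)) (XT.nd (nat_lit 78) (nat_lit 0) (nat_lit 0) (XT.lf (nat_lit 0) (nat_lit 8920283801) (nat_lit 76) (nat_lit 4828096508) (nat_lit 152) (nat_lit 12262345495) (nat_lit 12) (nat_lit 5) (nat_lit 13) (nat_lit 5) (nat_lit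 14) (nat_lit 4) (nat_lit 531) (nat_lit 336) (nat_lit 273)) (XT.lf (nat_lit 0) (nat_lit 17140071774) (nat_lit 76) (nat_lit 751240885) (nat_lit 152) (nat_lit 8551179974) (nat_lit 12) (nat_lit 5) (nat_lit 13) (nat_lit 5) (nat_lit 14) (nat_lit 4) (nat_lit 532) (nat_lit 336) (nat_lit 272)))) (XT.nd (nat_lit 54210) (nat_lit 0) (nat_lit 6992) (XT.nd (nat_lit 54132) (nat_lit 0) (nat_lit 7372) (XT.lf (nat_lit 0) (nat_lit 22107848551) (nat_lit 152) (nat_lit 1438363254) (nat_lit 0) (nat_lit 3336873190) (nat_lit 12) (nat_lit 5) (nat_lit 14) (nat_lit 4) (nat_lit 12) (nat_lit 4) (nat_lit 533) (nat_lit 336) (nat_lit 271)) (XT.lf (nat_lit 0) (nat_lit 1064780143) (nat_lit 304) (nat_lit 2124347104) (nat_lit 304) (nat_lit 2124347104) (nat_lit 109) (nat_lit 4) (nat_lit 113) (nat_lit 5) (nat_lit 113) (nat_lit 4) (nat_lit 466) (nat_lit 337) (nat_lit 337))) (XT.nd (nat_lit 78) (nat_lit 380) (nat_lit 0) (XT.lf (nat_lit 0) (nat_lit 9774476276)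 (nat_lit 304) (nat_lit 846042196) (nat_lit 304) (nat_lit 119916851) (nat_lit 109) (nat_lit 4) (nat_lit 113) (nat_lit 5) (nat_lit 113) (nat_lit 4) (nat_lit 467) (nat_lit 337) (nat_lit 336)) (XT.lf (nat_lit 0) (nat_lit 4034694022) (nat_lit 380) (nat_lit 4196175447) (nat_lit 0) (nat_lit 2624877415) (nat_lit 104) (nat_lit 5) (nat_lit 109) (nat_lit 4) (nat_lit 104) (nat_lit 4) (nat_lit 468) (nat_lit 337) (nat_lit 335)))))) (XT.nd (nat_lit 546) (nat_lit 1368) (nat_lit 0) (XT.nd (nat_lit 234) (nat_lit 912) (nat_lit 0) (XT.nd (nat_lit 78) (nat_lit 304) (nat_lit 0) (XT.lf (nat_lit 0) (nat_lit 3415510860) (nat_lit 304) (nat_lit 4826251818) (nat_lit 304) (nat_lit 2732191080) (nat_lit 100) (nat_lit 4) (nat_lit 104) (nat_lit 5) (nat_lit 104) (nat_lit 4) (nat_lit 469) (nat_lit 337) (nat_lit 334)) (XT.nd (nat_lit 78) (nat_lit 0) (nat_lit 0) (XT.lf (nat_lit 0) (nat_lit 32734485) (nat_lit 228) (nat_lit 1352227297) (nat_lit 304)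 (nat_lit 9710092031) (nat_lit 96) (nat_lit 5) (nat_lit 99) (nat_lit 5) (nat_lit 100) (nat_lit 4) (nat_lit 470) (nat_lit 337) (nat_lit 333)) (XT.lf (nat_lit 0) (nat_lit 5550362384) (nat_lit 304) (nat_lit 3472916436) (nat_lit 0) (nat_lit 2194909037) (nat_lit 96) (nat_lit 5) (nat_lit 100) (nat_lit 4) (nat_lit 96) (nat_lit 4) (nat_lit 471) (nat_lit 337) (nat_lit 332)))) (XT.nd (nat_lit 156) (nat_lit 304) (nat_lit 0) (XT.nd (nat_lit 78) (nat_lit 304) (nat_lit 0) (XT.lf (nat_lit 0) (nat_lit 4215697251) (nat_lit 304) (nat_lit 5558102213) (nat_lit 304) (nat_lit 1570513055) (nat_lit 92) (nat_lit 4) (nat_lit 96) (nat_lit 5) (nat_lit 96) (nat_lit 4) (nat_lit 472) (nat_lit 337) (nat_lit 331)) (XT.lf (nat_lit 0) (nat_lit 523338234) (nat_lit 228) (nat_lit 2016596608) (nat_lit 304) (nat_lit 8933399644) (nat_lit 88) (nat_lit 5) (nat_lit 91) (nat_lit 5) (nat_lit 92) (nat_lit 4) (nat_lit 473) (nat_lit 337) (nat_lit 330))) (XT.nd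 (nat_lit 78) (nat_lit 304) (nat_lit 0) (XT.lf (nat_lit 0) (nat_lit 6708964382) (nat_lit 304) (nat_lit 3299539711) (nat_lit 0) (nat_lit 1596298348) (nat_lit 88) (nat_lit 5) (nat_lit 92) (nat_lit 4) (nat_lit 88) (nat_lit 4) (nat_lit 474) (nat_lit 337) (nat_lit 329)) (XT.lf (nat_lit 0) (nat_lit 4451460094) (nat_lit 304) (nat_lit 6492237899) (nat_lit 304) (nat_lit 795576087) (nat_lit 84) (nat_lit 4) (nat_lit 88) (nat_lit 5) (nat_lit 88) (nat_lit 4) (nat_lit 475) (nat_lit 337) (nat_lit 328))))) (XT.nd (nat_lit 312) (nat_lit 760) (nat_lit 0) (XT.nd (nat_lit 156) (nat_lit 304) (nat_lit 0) (XT.nd (nat_lit 78) (nat_lit 0) (nat_lit 0) (XT.lf (nat_lit 0) (nat_lit 411813514) (nat_lit 228) (nat_lit 2895622230) (nat_lit 304) (nat_lit 8569276385) (nat_lit 80) (nat_lit 5) (nat_lit 83) (nat_lit 5) (nat_lit 84) (nat_lit 4) (nat_lit 476) (nat_lit 337) (nat_lit 327)) (XT.lf (nat_lit 0) (nat_lit 7476609349) (nat_lit 304) (nat_lit 3760292909)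 (nat_lit 0) (nat_lit 780016015) (nat_lit 80) (nat_lit 5) (nat_lit 84) (nat_lit 4) (nat_lit 80) (nat_lit 4) (nat_lit 477) (nat_lit 337) (nat_lit 326))) (XT.nd (nat_lit 78) (nat_lit 76) (nat_lit 0) (XT.lf (nat_lit 0) (nat_lit 4036101099) (nat_lit 228) (nat_lit 7680110455) (nat_lit 228) (nat_lit 443995293) (nat_lit 77) (nat_lit 4) (nat_lit 80) (nat_lit 5) (nat_lit 80) (nat_lit 4) (nat_lit 478) (nat_lit 337) (nat_lit 325)) (XT.lf (nat_lit 0) (nat_lit 3652456558) (nat_lit 304) (nat_lit 387095881) (nat_lit 76) (nat_lit 8266998568) (nat_lit 76) (nat_lit 5) (nat_lit 80) (nat_lit 5) (nat_lit 77) (nat_lit 4) (nat_lit 479) (nat_lit 337) (nat_lit 324)))) (XT.nd (nat_lit 156) (nat_lit 304) (nat_lit 0) (XT.nd (nat_lit 78) (nat_lit 228) (nat_lit 0) (XT.lf (nat_lit 0) (nat_lit 7505818881) (nat_lit 228) (nat_lit 310739805) (nat_lit 304) (nat_lit 4639389443) (nat_lit 73) (nat_lit 5) (nat_lit 76) (nat_lit 5) (nat_lit 77) (nat_lit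 4) (nat_lit 480) (nat_lit 337) (nat_lit 323)) (XT.lf (nat_lit 0) (nat_lit 2873934020) (nat_lit 228) (nat_lit 9177157142) (nat_lit 228) (nat_lit 557516813) (nat_lit 70) (nat_lit 4) (nat_lit 73) (nat_lit 5) (nat_lit 73) (nat_lit 4) (nat_lit 481) (nat_lit 337) (nat_lit 322))) (XT.nd (nat_lit 78) (nat_lit 228) (nat_lit 0) (XT.lf (nat_lit 0) (nat_lit 3537506716) (nat_lit 304) (nat_lit 1962538303) (nat_lit 76) (nat_lit 7264248671) (nat_lit 69) (nat_lit 5) (nat_lit 73) (nat_lit 5) (nat_lit 70) (nat_lit 4) (nat_lit 482) (nat_lit 337) (nat_lit 321)) (XT.lf (nat_lit 0) (nat_lit 5946424421) (nat_lit 228) (nat_lit 1743578665) (nat_lit 304) (nat_lit 5233372304) (nat_lit 66) (nat_lit 5) (nat_lit 69) (nat_lit 5) (nat_lit 70) (nat_lit 4) (nat_lit 483) (nat_lit 337) (nat_lit 320))))))))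
noncomputable def xc20 : XT := (XT.nd (nat_lit 2184) (nat_lit 1216) (nat_lit 0) (XT.nd (nat_lit 1092) (nat_lit 1064) (nat_lit 0) (XT.nd (nat_lit 546) (nat_lit 912) (nat_lit 0) (XT.nd (nat_lit 234) (nat_lit 456) (nat_lit 0) (XT.nd (nat_lit 78) (nat_lit 228) (nat_lit 0) (XT.lf (nat_lit 0) (nat_lit 859241735) (nat_lit 228) (nat_lit 11043371364) (nat_lit 228) (nat_lit 1183500744) (nat_lit 63) (nat_lit 4) (nat_lit 66) (nat_lit 5) (nat_lit 66) (nat_lit 4) (nat_lit 484) (nat_lit 337) (nat_lit 319)) (XT.nd (nat_lit 78) (nat_lit 152) (nat_lit 0) (XT.lf (nat_lit 0) (nat_lit 2912165022) (nat_lit 304) (nat_lit 4428745003) (nat_lit 76) (nat_lit 5910761033) (nat_lit 62) (nat_lit 5) (nat_lit 66) (nat_lit 5) (nat_lit 63) (nat_lit 4) (nat_lit 485) (nat_lit 337) (nat_lit 318)) (XT.lf (nat_lit 0) (nat_lit 3471552804) (nat_lit 152) (nat_lit 3570757575) (nat_lit 228) (nat_lit 6378719762) (nat_lit 60) (nat_lit 5) (nat_lit 62) (nat_lit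 5) (nat_lit 63) (nat_lit 4) (nat_lit 486) (nat_lit 337) (nat_lit 317)))) (XT.nd (nat_lit 156) (nat_lit 152) (nat_lit 0) (XT.nd (nat_lit 78) (nat_lit 304) (nat_lit 0) (XT.lf (nat_lit 0) (nat_lit 11232847666) (nat_lit 228) (nat_lit 2097002822) (nat_lit 0) (nat_lit 264385285) (nat_lit 60) (nat_lit 5) (nat_lit 63) (nat_lit 4) (nat_lit 60) (nat_lit 4) (nat_lit 487) (nat_lit 337) (nat_lit 316)) (XT.lf (nat_lit 0) (nat_lit 1722507250) (nat_lit 304) (nat_lit 7906065654) (nat_lit 76) (nat_lit 4141941930) (nat_lit 56) (nat_lit 5) (nat_lit 60) (nat_lit 5) (nat_lit 57) (nat_lit 4) (nat_lit 488) (nat_lit 337) (nat_lit 315))) (XT.nd (nat_lit 78) (nat_lit 152) (nat_lit 0) (XT.lf (nat_lit 0) (nat_lit 5817897112) (nat_lit 304) (nat_lit 42268253) (nat_lit 76) (nat_lit 8090627500) (nat_lit 56) (nat_lit 5) (nat_lit 60) (nat_lit 5) (nat_lit 57) (nat_lit 4) (nat_lit 489) (nat_lit 337) (nat_lit 314)) (XT.lf (nat_lit 0) (nat_lit 7995377339)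 (nat_lit 152) (nat_lit 2000004058) (nat_lit 228) (nat_lit 4139305319) (nat_lit 54) (nat_lit 5) (nat_lit 56) (nat_lit 5) (nat_lit 57) (nat_lit 4) (nat_lit 490) (nat_lit 337) (nat_lit 313))))) (XT.nd (nat_lit 234) (nat_lit 456) (nat_lit 0) (XT.nd (nat_lit 78) (nat_lit 228) (nat_lit 0) (XT.lf (nat_lit 0) (nat_lit 1794540719) (nat_lit 228) (nat_lit 12434873722) (nat_lit 228) (nat_lit 93397740) (nat_lit 51) (nat_lit 4) (nat_lit 54) (nat_lit 5) (nat_lit 54) (nat_lit 4) (nat_lit 491) (nat_lit 337) (nat_lit 312)) (XT.nd (nat_lit 78) (nat_lit 152) (nat_lit 0) (XT.lf (nat_lit 0) (nat_lit 3983816026) (nat_lit 304) (nat_lit 4671918874) (nat_lit 76) (nat_lit 5858388945) (nat_lit 50) (nat_lit 5) (nat_lit 54) (nat_lit 5) (nat_lit 51) (nat_lit 4) (nat_lit 492) (nat_lit 337) (nat_lit 311)) (XT.lf (nat_lit 0) (nat_lit 3297299792) (nat_lit 152) (nat_lit 4815012790) (nat_lit 228) (nat_lit 6597529957) (nat_lit 48) (nat_lit 5) (nat_lit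 50) (nat_lit 5) (nat_lit 51) (nat_lit 4) (nat_lit 493) (nat_lit 337) (nat_lit 310)))) (XT.nd (nat_lit 156) (nat_lit 152) (nat_lit 0) (XT.nd (nat_lit 78) (nat_lit 304) (nat_lit 0) (XT.lf (nat_lit 0) (nat_lit 11402916424) (nat_lit 152) (nat_lit 901821582) (nat_lit 228) (nat_lit 2605123098) (nat_lit 48) (nat_lit 5) (nat_lit 50) (nat_lit 5) (nat_lit 51) (nat_lit 4) (nat_lit 494) (nat_lit 337) (nat_lit 309)) (XT.lf (nat_lit 0) (nat_lit 1447980494) (nat_lit 304) (nat_lit 10612939993) (nat_lit 76) (nat_lit 3052779417) (nat_lit 44) (nat_lit 5) (nat_lit 48) (nat_lit 5) (nat_lit 45) (nat_lit 4) (nat_lit 495) (nat_lit 337) (nat_lit 308))) (XT.nd (nat_lit 78) (nat_lit 152) (nat_lit 0) (XT.lf (nat_lit 0) (nat_lit 5527794154) (nat_lit 304) (nat_lit 2713857358) (nat_lit 76) (nat_lit 7080020900) (nat_lit 44) (nat_lit 5) (nat_lit 48) (nat_lit 5) (nat_lit 45) (nat_lit 4) (nat_lit 496) (nat_lit 337) (nat_lit 307)) (XT.lf (nat_lit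 0) (nat_lit 5329289706) (nat_lit 152) (nat_lit 4346316021) (nat_lit 228) (nat_lit 5858482320) (nat_lit 42) (nat_lit 5) (nat_lit 44) (nat_lit 5) (nat_lit 45) (nat_lit 4) (nat_lit 497) (nat_lit 337) (nat_lit 306)))))) (XT.nd (nat_lit 546) (nat_lit 456) (nat_lit 0) (XT.nd (nat_lit 234) (nat_lit 380) (nat_lit 0) (XT.nd (nat_lit 78) (nat_lit 228) (nat_lit 0) (XT.lf (nat_lit 0) (nat_lit 13486826343) (nat_lit 152) (nat_lit 389963467) (nat_lit 228) (nat_lit 1874565340) (nat_lit 42) (nat_lit 5) (nat_lit 44) (nat_lit 5) (nat_lit 45) (nat_lit 4) (nat_lit 498) (nat_lit 337) (nat_lit 305)) (XT.nd (nat_lit 78) (nat_lit 0) (nat_lit 0) (XT.lf (nat_lit 0) (nat_lit 2174676933) (nat_lit 228) (nat_lit 10182344890) (nat_lit 76) (nat_lit 3615385422) (nat_lit 39) (nat_lit 5) (nat_lit 42) (nat_lit 5) (nat_lit 40) (nat_lit 4) (nat_lit 499) (nat_lit 337) (nat_lit 304)) (XT.lf (nat_lit 0) (nat_lit 6250694666) (nat_lit 228) (nat_lit 2258676677)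 (nat_lit 76) (nat_lit 7688854218) (nat_lit 39) (nat_lit 5) (nat_lit 42) (nat_lit 5) (nat_lit 40) (nat_lit 4) (nat_lit 500) (nat_lit 337) (nat_lit 303)))) (XT.nd (nat_lit 156) (nat_lit 228) (nat_lit 0) (XT.nd (nat_lit 78) (nat_lit 0) (nat_lit 0) (XT.lf (nat_lit 0) (nat_lit 5818953753) (nat_lit 152) (nat_lit 4580969533) (nat_lit 228) (nat_lit 6028813752) (nat_lit 37) (nat_lit 5) (nat_lit 39) (nat_lit 5) (nat_lit 40) (nat_lit 4) (nat_lit 501) (nat_lit 337) (nat_lit 302)) (XT.lf (nat_lit 0) (nat_lit 14008457739) (nat_lit 152) (nat_lit 593128062) (nat_lit 228) (nat_lit 2062894354) (nat_lit 37) (nat_lit 5) (nat_lit 39) (nat_lit 5) (nat_lit 40) (nat_lit 4) (nat_lit 502) (nat_lit 337) (nat_lit 301))) (XT.nd (nat_lit 78) (nat_lit 0) (nat_lit 0) (XT.lf (nat_lit 0) (nat_lit 1969175358) (nat_lit 228) (nat_lit 11491637928) (nat_lit 76) (nat_lit 3443620813) (nat_lit 34) (nat_lit 5) (nat_lit 37) (nat_lit 5) (nat_lit 35) (nat_lit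 4) (nat_lit 503) (nat_lit 337) (nat_lit 300)) (XT.lf (nat_lit 0) (nat_lit 6031193112) (nat_lit 228) (nat_lit 3567036818) (nat_lit 76) (nat_lit 7551155699) (nat_lit 34) (nat_lit 5) (nat_lit 37) (nat_lit 5) (nat_lit 35) (nat_lit 4) (nat_lit 504) (nat_lit 337) (nat_lit 299))))) (XT.nd (nat_lit 234) (nat_lit 76) (nat_lit 0) (XT.nd (nat_lit 78) (nat_lit 228) (nat_lit 0) (XT.lf (nat_lit 0) (nat_lit 4497102516) (nat_lit 152) (nat_lit 5662462211) (nat_lit 228) (nat_lit 7239978798) (nat_lit 32) (nat_lit 5) (nat_lit 34) (nat_lit 5) (nat_lit 35) (nat_lit 4) (nat_lit 505) (nat_lit 337) (nat_lit 298)) (XT.nd (nat_lit 78) (nat_lit 228) (nat_lit 0) (XT.lf (nat_lit 0) (nat_lit 12693455378) (nat_lit 152) (nat_lit 1657262158) (nat_lit 228) (nat_lit 3304392184) (nat_lit 32) (nat_lit 5) (nat_lit 34) (nat_lit 5) (nat_lit 35) (nat_lit 4) (nat_lit 506) (nat_lit 337) (nat_lit 297)) (XT.lf (nat_lit 0) (nat_lit 693259663) (nat_lit 228)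 (nat_lit 14834399927) (nat_lit 76) (nat_lit 2388191236) (nat_lit 29) (nat_lit 5) (nat_lit 32) (nat_lit 5) (nat_lit 30) (nat_lit 4) (nat_lit 507) (nat_lit 337) (nat_lit 296)))) (XT.nd (nat_lit 156) (nat_lit 0) (nat_lit 0) (XT.nd (nat_lit 78) (nat_lit 76) (nat_lit 0) (XT.lf (nat_lit 0) (nat_lit 4728130052) (nat_lit 228) (nat_lit 6938177513) (nat_lit 76) (nat_lit 6515040996) (nat_lit 29) (nat_lit 5) (nat_lit 32) (nat_lit 5) (nat_lit 30) (nat_lit 4) (nat_lit 508) (nat_lit 337) (nat_lit 295)) (XT.lf (nat_lit 0) (nat_lit 1054671849) (nat_lit 76) (nat_lit 7753696081) (nat_lit 152) (nat_lit 9644503620) (nat_lit 28) (nat_lit 5) (nat_lit 29) (nat_lit 5) (nat_lit 30) (nat_lit 4) (nat_lit 509) (nat_lit 337) (nat_lit 294))) (XT.nd (nat_lit 78) (nat_lit 0) (nat_lit 0) (XT.lf (nat_lit 0) (nat_lit 9226791583) (nat_lit 76) (nat_lit 3748142682) (nat_lit 152) (nat_lit 5754804787) (nat_lit 28) (nat_lit 5) (nat_lit 29) (nat_lit 5)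 (nat_lit 30) (nat_lit 4) (nat_lit 510) (nat_lit 337) (nat_lit 293)) (XT.lf (nat_lit 0) (nat_lit 17185799734) (nat_lit 152) (nat_lit 1525773478) (nat_lit 0) (nat_lit 301359700) (nat_lit 28) (nat_lit 5) (nat_lit 30) (nat_lit 4) (nat_lit 28) (nat_lit 4) (nat_lit 511) (nat_lit 337) (nat_lit 292))))))) (XT.nd (nat_lit 1092) (nat_lit 304) (nat_lit 0) (XT.nd (nat_lit 546) (nat_lit 380) (nat_lit 0) (XT.nd (nat_lit 234) (nat_lit 228) (nat_lit 0) (XT.nd (nat_lit 78) (nat_lit 76) (nat_lit 0) (XT.lf (nat_lit 0) (nat_lit 2177945751) (nat_lit 228) (nat_lit 12715240673) (nat_lit 76) (nat_lit 4407780638) (nat_lit 25) (nat_lit 5) (nat_lit 28) (nat_lit 5) (nat_lit 26) (nat_lit 4) (nat_lit 512) (nat_lit 337) (nat_lit 291)) (XT.nd (nat_lit 78) (nat_lit 76) (nat_lit 0) (XT.lf (nat_lit 0) (nat_lit 6208627472) (nat_lit 228) (nat_lit 4798999928) (nat_lit 76) (nat_lit 8587501497) (nat_lit 25) (nat_lit 5) (nat_lit 28) (nat_lit 5) (nat_lit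 26) (nat_lit 4) (nat_lit 513) (nat_lit 337) (nat_lit 290)) (XT.lf (nat_lit 0) (nat_lit 3247159280) (nat_lit 76) (nat_lit 7054274794) (nat_lit 152) (nat_lit 9594117395) (nat_lit 24) (nat_lit 5) (nat_lit 25) (nat_lit 5) (nat_lit 26) (nat_lit 4) (nat_lit 514) (nat_lit 337) (nat_lit 289)))) (XT.nd (nat_lit 156) (nat_lit 228) (nat_lit 0) (XT.nd (nat_lit 78) (nat_lit 0) (nat_lit 0) (XT.lf (nat_lit 0) (nat_lit 11448767012) (nat_lit 76) (nat_lit 3020280154) (nat_lit 152) (nat_lit 5733083892) (nat_lit 24) (nat_lit 5) (nat_lit 25) (nat_lit 5) (nat_lit 26) (nat_lit 4) (nat_lit 515) (nat_lit 337) (nat_lit 288)) (XT.lf (nat_lit 0) (nat_lit 18688435211) (nat_lit 152) (nat_lit 777262411) (nat_lit 0) (nat_lit 1049783591) (nat_lit 24) (nat_lit 5) (nat_lit 26) (nat_lit 4) (nat_lit 24) (nat_lit 4) (nat_lit 516) (nat_lit 337) (nat_lit 287))) (XT.nd (nat_lit 78) (nat_lit 0) (nat_lit 0) (XT.lf (nat_lit 0) (nat_lit 2158919074) (nat_lit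 228) (nat_lit 13482091439) (nat_lit 76) (nat_lit 5193212937) (nat_lit 21) (nat_lit 5) (nat_lit 24) (nat_lit 5) (nat_lit 22) (nat_lit 4) (nat_lit 517) (nat_lit 337) (nat_lit 286)) (XT.lf (nat_lit 0) (nat_lit 6167534738) (nat_lit 228) (nat_lit 5585135200) (nat_lit 76) (nat_lit 9407088148) (nat_lit 21) (nat_lit 5) (nat_lit 24) (nat_lit 5) (nat_lit 22) (nat_lit 4) (nat_lit 518) (nat_lit 337) (nat_lit 285))))) (XT.nd (nat_lit 234) (nat_lit 304) (nat_lit 0) (XT.nd (nat_lit 78) (nat_lit 0) (nat_lit 0) (XT.lf (nat_lit 0) (nat_lit 2434616956) (nat_lit 76) (nat_lit 7800377790) (nat_lit 152) (nat_lit 11257242087) (nat_lit 20) (nat_lit 5) (nat_lit 21) (nat_lit 5) (nat_lit 22) (nat_lit 4) (nat_lit 519) (nat_lit 337) (nat_lit 284)) (XT.nd (nat_lit 78) (nat_lit 0) (nat_lit 0) (XT.lf (nat_lit 0) (nat_lit 10623839762) (nat_lit 76) (nat_lit 3760603791) (nat_lit 152) (nat_lit 7446915536) (nat_lit 20) (nat_lit 5) (nat_lit 21) (nat_lit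 5) (nat_lit 22) (nat_lit 4) (nat_lit 520) (nat_lit 337) (nat_lit 283)) (XT.lf (nat_lit 0) (nat_lit 18582911579) (nat_lit 152) (nat_lit 3268619055) (nat_lit 0) (nat_lit 326419146) (nat_lit 20) (nat_lit 5) (nat_lit 22) (nat_lit 4) (nat_lit 20) (nat_lit 4) (nat_lit 521) (nat_lit 337) (nat_lit 282)))) (XT.nd (nat_lit 156) (nat_lit 76) (nat_lit 0) (XT.nd (nat_lit 78) (nat_lit 0) (nat_lit 0) (XT.lf (nat_lit 0) (nat_lit 350118269) (nat_lit 228) (nat_lit 17730804915) (nat_lit 76) (nat_lit 4450099672) (nat_lit 17) (nat_lit 5) (nat_lit 20) (nat_lit 5) (nat_lit 18) (nat_lit 4) (nat_lit 522) (nat_lit 337) (nat_lit 281)) (XT.lf (nat_lit 0) (nat_lit 4312611050) (nat_lit 228) (nat_lit 9904561055) (nat_lit 76) (nat_lit 8673784824) (nat_lit 17) (nat_lit 5) (nat_lit 20) (nat_lit 5) (nat_lit 18) (nat_lit 4) (nat_lit 523) (nat_lit 337) (nat_lit 280))) (XT.nd (nat_lit 78) (nat_lit 76) (nat_lit 0) (XT.lf (nat_lit 0) (nat_lit 8319497147)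 (nat_lit 228) (nat_lit 1985152665) (nat_lit 76) (nat_lit 12954143093) (nat_lit 17) (nat_lit 5) (nat_lit 20) (nat_lit 5) (nat_lit 18) (nat_lit 4) (nat_lit 524) (nat_lit 337) (nat_lit 279)) (XT.lf (nat_lit 0) (nat_lit 6110668420) (nat_lit 76) (nat_lit 6301353981) (nat_lit 152) (nat_lit 11221859143) (nat_lit 16) (nat_lit 5) (nat_lit 17) (nat_lit 5) (nat_lit 18) (nat_lit 4) (nat_lit 525) (nat_lit 337) (nat_lit 278)))))) (XT.nd (nat_lit 54522) (nat_lit 0) (nat_lit 6384) (XT.nd (nat_lit 234) (nat_lit 76) (nat_lit 0) (XT.nd (nat_lit 78) (nat_lit 228) (nat_lit 0) (XT.lf (nat_lit 0) (nat_lit 14333605878) (nat_lit 76) (nat_lit 2232210026) (nat_lit 152) (nat_lit 7451073551) (nat_lit 16) (nat_lit 5) (nat_lit 17) (nat_lit 5) (nat_lit 18) (nat_lit 4) (nat_lit 526) (nat_lit 337) (nat_lit 277)) (XT.nd (nat_lit 78) (nat_lit 228) (nat_lit 0) (XT.lf (nat_lit 0) (nat_lit 20781724373) (nat_lit 152) (nat_lit 1760003280) (nat_lit 0)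 (nat_lit 1866254829) (nat_lit 16) (nat_lit 5) (nat_lit 18) (nat_lit 4) (nat_lit 16) (nat_lit 4) (nat_lit 527) (nat_lit 337) (nat_lit 276)) (XT.lf (nat_lit 0) (nat_lit 294715760) (nat_lit 228) (nat_lit 18478195116) (nat_lit 76) (nat_lit 6033490906) (nat_lit 13) (nat_lit 5) (nat_lit 16) (nat_lit 5) (nat_lit 14) (nat_lit 4) (nat_lit 528) (nat_lit 337) (nat_lit 275)))) (XT.nd (nat_lit 156) (nat_lit 76) (nat_lit 0) (XT.nd (nat_lit 78) (nat_lit 0) (nat_lit 0) (XT.lf (nat_lit 0) (nat_lit 4224762965) (nat_lit 228) (nat_lit 10694452124) (nat_lit 76) (nat_lit 10293516206) (nat_lit 13) (nat_lit 5) (nat_lit 16) (nat_lit 5) (nat_lit 14) (nat_lit 4) (nat_lit 529) (nat_lit 337) (nat_lit 274)) (XT.lf (nat_lit 0) (nat_lit 8201328074) (nat_lit 228) (nat_lit 2813704683) (nat_lit 76) (nat_lit 14612801605) (nat_lit 13) (nat_lit 5) (nat_lit 16) (nat_lit 5) (nat_lit 14) (nat_lit 4) (nat_lit 530) (nat_lit 337) (nat_lit 273))) (XT.nd (nat_lit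 78) (nat_lit 0) (nat_lit 0) (XT.lf (nat_lit 0) (nat_lit 5235806237) (nat_lit 76) (nat_lit 7024158615) (nat_lit 152) (nat_lit 13791229030) (nat_lit 12) (nat_lit 5) (nat_lit 13) (nat_lit 5) (nat_lit 14) (nat_lit 4) (nat_lit 531) (nat_lit 337) (nat_lit 272)) (XT.lf (nat_lit 0) (nat_lit 13427306294) (nat_lit 76) (nat_lit 2960141295) (nat_lit 152) (nat_lit 10095824636) (nat_lit 12) (nat_lit 5) (nat_lit 13) (nat_lit 5) (nat_lit 14) (nat_lit 4) (nat_lit 532) (nat_lit 337) (nat_lit 271))))) (XT.nd (nat_lit 312) (nat_lit 912) (nat_lit 0) (XT.nd (nat_lit 156) (nat_lit 380) (nat_lit 0) (XT.nd (nat_lit 78) (nat_lit 380) (nat_lit 0) (XT.lf (nat_lit 0) (nat_lit 4020798784) (nat_lit 380) (nat_lit 591478484) (nat_lit 380) (nat_lit 591478484) (nat_lit 118) (nat_lit 4) (nat_lit 123) (nat_lit 5) (nat_lit 123) (nat_lit 4) (nat_lit 464) (nat_lit 338) (nat_lit 338)) (XT.lf (nat_lit 0) (nat_lit 2932039401) (nat_lit 380) (nat_lit 5392837317)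 (nat_lit 0) (nat_lit 2191391548) (nat_lit 113) (nat_lit 5) (nat_lit 118) (nat_lit 4) (nat_lit 113) (nat_lit 4) (nat_lit 465) (nat_lit 338) (nat_lit 337))) (XT.nd (nat_lit 78) (nat_lit 76) (nat_lit 0) (XT.lf (nat_lit 0) (nat_lit 2079544992) (nat_lit 304) (nat_lit 5007414284) (nat_lit 304) (nat_lit 3540641086) (nat_lit 109) (nat_lit 4) (nat_lit 113) (nat_lit 5) (nat_lit 113) (nat_lit 4) (nat_lit 466) (nat_lit 338) (nat_lit 336)) (XT.lf (nat_lit 0) (nat_lit 548886242) (nat_lit 380) (nat_lit 1069910581) (nat_lit 76) (nat_lit 9122856821) (nat_lit 108) (nat_lit 5) (nat_lit 113) (nat_lit 5) (nat_lit 109) (nat_lit 4) (nat_lit 467) (nat_lit 338) (nat_lit 335)))) (XT.nd (nat_lit 156) (nat_lit 304) (nat_lit 0) (XT.nd (nat_lit 78) (nat_lit 304) (nat_lit 0) (XT.lf (nat_lit 0) (nat_lit 4664865283) (nat_lit 380) (nat_lit 4348158393) (nat_lit 0) (nat_lit 1844679199) (nat_lit 104) (nat_lit 5) (nat_lit 109) (nat_lit 4) (nat_lit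 104) (nat_lit 4) (nat_lit 468) (nat_lit 338) (nat_lit 334)) (XT.lf (nat_lit 0) (nat_lit 3212173721) (nat_lit 304) (nat_lit 5627701347) (nat_lit 304) (nat_lit 2136687684) (nat_lit 100) (nat_lit 4) (nat_lit 104) (nat_lit 5) (nat_lit 104) (nat_lit 4) (nat_lit 469) (nat_lit 338) (nat_lit 333))) (XT.nd (nat_lit 78) (nat_lit 228) (nat_lit 0) (XT.lf (nat_lit 0) (nat_lit 1941779431) (nat_lit 380) (nat_lit 226293308) (nat_lit 76) (nat_lit 8930141617) (nat_lit 99) (nat_lit 5) (nat_lit 104) (nat_lit 5) (nat_lit 100) (nat_lit 4) (nat_lit 470) (nat_lit 338) (nat_lit 332)) (XT.lf (nat_lit 0) (nat_lit 6069890439) (nat_lit 304) (nat_lit 3781801208) (nat_lit 0) (nat_lit 1370413687) (nat_lit 96) (nat_lit 5) (nat_lit 100) (nat_lit 4) (nat_lit 96) (nat_lit 4) (nat_lit 471) (nat_lit 338) (nat_lit 331))))))))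
noncomputable def xc21 : XT := (XT.nd (nat_lit 2184) (nat_lit 1900) (nat_lit 0) (XT.nd (nat_lit 1092) (nat_lit 1748) (nat_lit 0) (XT.nd (nat_lit 546) (nat_lit 1140) (nat_lit 0) (XT.nd (nat_lit 234) (nat_lit 836) (nat_lit 0) (XT.nd (nat_lit 78) (nat_lit 304) (nat_lit 0) (XT.lf (nat_lit 0) (nat_lit 3854063500) (nat_lit 304) (nat_lit 6407020021) (nat_lit 304) (nat_lit 1087802279) (nat_lit 92) (nat_lit 4) (nat_lit 96) (nat_lit 5) (nat_lit 96) (nat_lit 4) (nat_lit 472) (nat_lit 338) (nat_lit 330)) (XT.nd (nat_lit 78) (nat_lit 0) (nat_lit 0) (XT.lf (nat_lit 0) (nat_lit 100352457) (nat_lit 228) (nat_lit 2883389822) (nat_lit 304) (nat_lit 8494764754) (nat_lit 88) (nat_lit 5) (nat_lit 91) (nat_lit 5) (nat_lit 92) (nat_lit 4) (nat_lit 473) (nat_lit 338) (nat_lit 329)) (XT.lf (nat_lit 0) (nat_lit 7117474075) (nat_lit 304) (nat_lit 3770333913) (nat_lit 0) (nat_lit 722883250) (nat_lit 88) (nat_lit 5) (nat_lit 92) (nat_lit 4)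 (nat_lit 88) (nat_lit 4) (nat_lit 474) (nat_lit 338) (nat_lit 328)))) (XT.nd (nat_lit 156) (nat_lit 456) (nat_lit 0) (XT.nd (nat_lit 78) (nat_lit 76) (nat_lit 0) (XT.lf (nat_lit 0) (nat_lit 3926463136) (nat_lit 304) (nat_lit 7393247737) (nat_lit 304) (nat_lit 426112032) (nat_lit 84) (nat_lit 4) (nat_lit 88) (nat_lit 5) (nat_lit 88) (nat_lit 4) (nat_lit 475) (nat_lit 338) (nat_lit 327)) (XT.lf (nat_lit 0) (nat_lit 3640356778) (nat_lit 380) (nat_lit 174933520) (nat_lit 76) (nat_lit 8068566328) (nat_lit 83) (nat_lit 5) (nat_lit 88) (nat_lit 5) (nat_lit 84) (nat_lit 4) (nat_lit 476) (nat_lit 338) (nat_lit 326))) (XT.nd (nat_lit 78) (nat_lit 228) (nat_lit 0) (XT.lf (nat_lit 0) (nat_lit 7625698288) (nat_lit 228) (nat_lit 148789219) (nat_lit 304) (nat_lit 4250285631) (nat_lit 80) (nat_lit 5) (nat_lit 83) (nat_lit 5) (nat_lit 84) (nat_lit 4) (nat_lit 477) (nat_lit 338) (nat_lit 325)) (XT.lf (nat_lit 0) (nat_lit 3342566525)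 (nat_lit 228) (nat_lit 8637741205) (nat_lit 228) (nat_lit 188438945) (nat_lit 77) (nat_lit 4) (nat_lit 80) (nat_lit 5) (nat_lit 80) (nat_lit 4) (nat_lit 478) (nat_lit 338) (nat_lit 324))))) (XT.nd (nat_lit 234) (nat_lit 608) (nat_lit 0) (XT.nd (nat_lit 78) (nat_lit 456) (nat_lit 0) (XT.lf (nat_lit 0) (nat_lit 3876407786) (nat_lit 304) (nat_lit 1137530068) (nat_lit 76) (nat_lit 7301693825) (nat_lit 76) (nat_lit 5) (nat_lit 80) (nat_lit 5) (nat_lit 77) (nat_lit 4) (nat_lit 479) (nat_lit 338) (nat_lit 323)) (XT.nd (nat_lit 78) (nat_lit 228) (nat_lit 0) (XT.lf (nat_lit 0) (nat_lit 6699018513) (nat_lit 228) (nat_lit 1308553654) (nat_lit 304) (nat_lit 4458124175) (nat_lit 73) (nat_lit 5) (nat_lit 76) (nat_lit 5) (nat_lit 77) (nat_lit 4) (nat_lit 480) (nat_lit 338) (nat_lit 322)) (XT.lf (nat_lit 0) (nat_lit 2006563992) (nat_lit 228) (nat_lit 10195861917) (nat_lit 228) (nat_lit 416732467) (nat_lit 70) (nat_lit 4) (nat_lit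 73) (nat_lit 5) (nat_lit 73) (nat_lit 4) (nat_lit 481) (nat_lit 338) (nat_lit 321)))) (XT.nd (nat_lit 156) (nat_lit 304) (nat_lit 0) (XT.nd (nat_lit 78) (nat_lit 228) (nat_lit 0) (XT.lf (nat_lit 0) (nat_lit 3648930991) (nat_lit 304) (nat_lit 2887368789) (nat_lit 76) (nat_lit 6239084582) (nat_lit 69) (nat_lit 5) (nat_lit 73) (nat_lit 5) (nat_lit 70) (nat_lit 4) (nat_lit 482) (nat_lit 338) (nat_lit 320)) (XT.lf (nat_lit 0) (nat_lit 4963610040) (nat_lit 228) (nat_lit 2804462064) (nat_lit 304) (nat_lit 5167069179) (nat_lit 66) (nat_lit 5) (nat_lit 69) (nat_lit 5) (nat_lit 70) (nat_lit 4) (nat_lit 483) (nat_lit 338) (nat_lit 319))) (XT.nd (nat_lit 78) (nat_lit 304) (nat_lit 0) (XT.lf (nat_lit 0) (nat_lit 11941362001) (nat_lit 304) (nat_lit 184942540) (nat_lit 0) (nat_lit 972369554) (nat_lit 66) (nat_lit 5) (nat_lit 70) (nat_lit 4) (nat_lit 66) (nat_lit 4) (nat_lit 484) (nat_lit 338) (nat_lit 318)) (XT.lf (nat_lit 0)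 (nat_lit 2909982899) (nat_lit 304) (nat_lit 5533422803) (nat_lit 76) (nat_lit 4821390402) (nat_lit 62) (nat_lit 5) (nat_lit 66) (nat_lit 5) (nat_lit 63) (nat_lit 4) (nat_lit 485) (nat_lit 338) (nat_lit 317)))))) (XT.nd (nat_lit 546) (nat_lit 836) (nat_lit 0) (XT.nd (nat_lit 234) (nat_lit 456) (nat_lit 0) (XT.nd (nat_lit 78) (nat_lit 304) (nat_lit 0) (XT.lf (nat_lit 0) (nat_lit 2307203201) (nat_lit 152) (nat_lit 4699088346) (nat_lit 228) (nat_lit 6428547873) (nat_lit 60) (nat_lit 5) (nat_lit 62) (nat_lit 5) (nat_lit 63) (nat_lit 4) (nat_lit 486) (nat_lit 338) (nat_lit 316)) (XT.nd (nat_lit 78) (nat_lit 304) (nat_lit 0) (XT.lf (nat_lit 0) (nat_lit 10290548477) (nat_lit 152) (nat_lit 878492850) (nat_lit 228) (nat_lit 2439566826) (nat_lit 60) (nat_lit 5) (nat_lit 62) (nat_lit 5) (nat_lit 63) (nat_lit 4) (nat_lit 487) (nat_lit 338) (nat_lit 315)) (XT.lf (nat_lit 0) (nat_lit 1605445237) (nat_lit 304) (nat_lit 9196199567)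 (nat_lit 76) (nat_lit 2984057802) (nat_lit 56) (nat_lit 5) (nat_lit 60) (nat_lit 5) (nat_lit 57) (nat_lit 4) (nat_lit 488) (nat_lit 338) (nat_lit 314)))) (XT.nd (nat_lit 156) (nat_lit 304) (nat_lit 0) (XT.nd (nat_lit 78) (nat_lit 152) (nat_lit 0) (XT.lf (nat_lit 0) (nat_lit 5675228828) (nat_lit 304) (nat_lit 1376109377) (nat_lit 76) (nat_lit 6915161483) (nat_lit 56) (nat_lit 5) (nat_lit 60) (nat_lit 5) (nat_lit 57) (nat_lit 4) (nat_lit 489) (nat_lit 338) (nat_lit 313)) (XT.lf (nat_lit 0) (nat_lit 6600390503) (nat_lit 152) (nat_lit 3218161244) (nat_lit 228) (nat_lit 4332531810) (nat_lit 54) (nat_lit 5) (nat_lit 56) (nat_lit 5) (nat_lit 57) (nat_lit 4) (nat_lit 490) (nat_lit 338) (nat_lit 312))) (XT.nd (nat_lit 78) (nat_lit 76) (nat_lit 0) (XT.lf (nat_lit 0) (nat_lit 328885866) (nat_lit 228) (nat_lit 13681270719) (nat_lit 228) (nat_lit 329907661) (nat_lit 51) (nat_lit 4) (nat_lit 54) (nat_lit 5) (nat_lit 54) (nat_lit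 4) (nat_lit 491) (nat_lit 338) (nat_lit 311)) (XT.lf (nat_lit 0) (nat_lit 3725447423) (nat_lit 304) (nat_lit 6196303641) (nat_lit 76) (nat_lit 4610161168) (nat_lit 50) (nat_lit 5) (nat_lit 54) (nat_lit 5) (nat_lit 51) (nat_lit 4) (nat_lit 492) (nat_lit 338) (nat_lit 310))))) (XT.nd (nat_lit 234) (nat_lit 380) (nat_lit 0) (XT.nd (nat_lit 78) (nat_lit 304) (nat_lit 0) (XT.lf (nat_lit 0) (nat_lit 1709926310) (nat_lit 152) (nat_lit 6109240259) (nat_lit 228) (nat_lit 6909166181) (nat_lit 48) (nat_lit 5) (nat_lit 50) (nat_lit 5) (nat_lit 51) (nat_lit 4) (nat_lit 493) (nat_lit 338) (nat_lit 309)) (XT.nd (nat_lit 78) (nat_lit 304) (nat_lit 0) (XT.lf (nat_lit 0) (nat_lit 9773650349) (nat_lit 152) (nat_lit 2213678345) (nat_lit 228) (nat_lit 2941514036) (nat_lit 48) (nat_lit 5) (nat_lit 50) (nat_lit 5) (nat_lit 51) (nat_lit 4) (nat_lit 494) (nat_lit 338) (nat_lit 308)) (XT.lf (nat_lit 0) (nat_lit 1072229957) (nat_lit 304)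 (nat_lit 12333838027) (nat_lit 76) (nat_lit 1727538568) (nat_lit 44) (nat_lit 5) (nat_lit 48) (nat_lit 5) (nat_lit 45) (nat_lit 4) (nat_lit 495) (nat_lit 338) (nat_lit 307)))) (XT.nd (nat_lit 156) (nat_lit 228) (nat_lit 0) (XT.nd (nat_lit 78) (nat_lit 152) (nat_lit 0) (XT.lf (nat_lit 0) (nat_lit 5128182408) (nat_lit 304) (nat_lit 4476246390) (nat_lit 76) (nat_lit 5737633284) (nat_lit 44) (nat_lit 5) (nat_lit 48) (nat_lit 5) (nat_lit 45) (nat_lit 4) (nat_lit 496) (nat_lit 338) (nat_lit 306)) (XT.lf (nat_lit 0) (nat_lit 3502261422) (nat_lit 152) (nat_lit 5738476937) (nat_lit 228) (nat_lit 6314450154) (nat_lit 42) (nat_lit 5) (nat_lit 44) (nat_lit 5) (nat_lit 45) (nat_lit 4) (nat_lit 497) (nat_lit 338) (nat_lit 305))) (XT.nd (nat_lit 78) (nat_lit 228) (nat_lit 0) (XT.lf (nat_lit 0) (nat_lit 11619388225) (nat_lit 152) (nat_lit 1799337199) (nat_lit 228) (nat_lit 2354199703) (nat_lit 42) (nat_lit 5) (nat_lit 44) (nat_lit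 5) (nat_lit 45) (nat_lit 4) (nat_lit 498) (nat_lit 338) (nat_lit 304)) (XT.lf (nat_lit 0) (nat_lit 1656399329) (nat_lit 228) (nat_lit 12146742466) (nat_lit 76) (nat_lit 2191801739) (nat_lit 39) (nat_lit 5) (nat_lit 42) (nat_lit 5) (nat_lit 40) (nat_lit 4) (nat_lit 499) (nat_lit 338) (nat_lit 303))))))) (XT.nd (nat_lit 1092) (nat_lit 836) (nat_lit 0) (XT.nd (nat_lit 546) (nat_lit 532) (nat_lit 0) (XT.nd (nat_lit 234) (nat_lit 380) (nat_lit 0) (XT.nd (nat_lit 78) (nat_lit 152) (nat_lit 0) (XT.lf (nat_lit 0) (nat_lit 5709600242) (nat_lit 228) (nat_lit 4263088001) (nat_lit 76) (nat_lit 6248535192) (nat_lit 39) (nat_lit 5) (nat_lit 42) (nat_lit 5) (nat_lit 40) (nat_lit 4) (nat_lit 500) (nat_lit 338) (nat_lit 302)) (XT.nd (nat_lit 78) (nat_lit 0) (nat_lit 0) (XT.lf (nat_lit 0) (nat_lit 3748154357) (nat_lit 152) (nat_lit 6074860070) (nat_lit 228) (nat_lit 6629441921) (nat_lit 37) (nat_lit 5) (nat_lit 39) (nat_lit 5) (nat_lit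 40) (nat_lit 4) (nat_lit 501) (nat_lit 338) (nat_lit 301)) (XT.lf (nat_lit 0) (nat_lit 11898687264) (nat_lit 152) (nat_lit 2103805837) (nat_lit 228) (nat_lit 2686155087) (nat_lit 37) (nat_lit 5) (nat_lit 39) (nat_lit 5) (nat_lit 40) (nat_lit 4) (nat_lit 502) (nat_lit 338) (nat_lit 300)))) (XT.nd (nat_lit 156) (nat_lit 152) (nat_lit 0) (XT.nd (nat_lit 78) (nat_lit 0) (nat_lit 0) (XT.lf (nat_lit 0) (nat_lit 1307887862) (nat_lit 228) (nat_lit 13703789117) (nat_lit 76) (nat_lit 1917934955) (nat_lit 34) (nat_lit 5) (nat_lit 37) (nat_lit 5) (nat_lit 35) (nat_lit 4) (nat_lit 503) (nat_lit 338) (nat_lit 299)) (XT.lf (nat_lit 0) (nat_lit 5348081524) (nat_lit 228) (nat_lit 5817769248) (nat_lit 76) (nat_lit 6009153929) (nat_lit 34) (nat_lit 5) (nat_lit 37) (nat_lit 5) (nat_lit 35) (nat_lit 4) (nat_lit 504) (nat_lit 338) (nat_lit 298))) (XT.nd (nat_lit 78) (nat_lit 0) (nat_lit 0) (XT.lf (nat_lit 0) (nat_lit 2178131620) (nat_lit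 152) (nat_lit 7261869052) (nat_lit 228) (nat_lit 7985895636) (nat_lit 32) (nat_lit 5) (nat_lit 34) (nat_lit 5) (nat_lit 35) (nat_lit 4) (nat_lit 505) (nat_lit 338) (nat_lit 297)) (XT.lf (nat_lit 0) (nat_lit 10336908584) (nat_lit 152) (nat_lit 3273024293) (nat_lit 228) (nat_lit 4071958609) (nat_lit 32) (nat_lit 5) (nat_lit 34) (nat_lit 5) (nat_lit 35) (nat_lit 4) (nat_lit 506) (nat_lit 338) (nat_lit 296))))) (XT.nd (nat_lit 234) (nat_lit 304) (nat_lit 0) (XT.nd (nat_lit 78) (nat_lit 76) (nat_lit 0) (XT.lf (nat_lit 0) (nat_lit 644081950) (nat_lit 152) (nat_lit 17186293713) (nat_lit 152) (nat_lit 113297716) (nat_lit 30) (nat_lit 4) (nat_lit 32) (nat_lit 5) (nat_lit 32) (nat_lit 4) (nat_lit 507) (nat_lit 338) (nat_lit 295)) (XT.nd (nat_lit 78) (nat_lit 0) (nat_lit 0) (XT.lf (nat_lit 0) (nat_lit 3902178618) (nat_lit 228) (nat_lit 9439826338) (nat_lit 76) (nat_lit 4867602778) (nat_lit 29) (nat_lit 5) (nat_lit 32) (nat_lit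 5) (nat_lit 30) (nat_lit 4) (nat_lit 508) (nat_lit 338) (nat_lit 294)) (XT.lf (nat_lit 0) (nat_lit 7955098302) (nat_lit 228) (nat_lit 1497272840) (nat_lit 76) (nat_lit 9029310166) (nat_lit 29) (nat_lit 5) (nat_lit 32) (nat_lit 5) (nat_lit 30) (nat_lit 4) (nat_lit 509) (nat_lit 338) (nat_lit 293)))) (XT.nd (nat_lit 156) (nat_lit 228) (nat_lit 0) (XT.nd (nat_lit 78) (nat_lit 0) (nat_lit 0) (XT.lf (nat_lit 0) (nat_lit 6618725165) (nat_lit 76) (nat_lit 5472784625) (nat_lit 152) (nat_lit 6667646258) (nat_lit 28) (nat_lit 5) (nat_lit 29) (nat_lit 5) (nat_lit 30) (nat_lit 4) (nat_lit 510) (nat_lit 338) (nat_lit 292)) (XT.lf (nat_lit 0) (nat_lit 14845601807) (nat_lit 76) (nat_lit 1434884577) (nat_lit 152) (nat_lit 2762305358) (nat_lit 28) (nat_lit 5) (nat_lit 29) (nat_lit 5) (nat_lit 30) (nat_lit 4) (nat_lit 511) (nat_lit 338) (nat_lit 291))) (XT.nd (nat_lit 78) (nat_lit 0) (nat_lit 0) (XT.lf (nat_lit 0) (nat_lit 1208049170)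 (nat_lit 228) (nat_lit 15472712978) (nat_lit 76) (nat_lit 2651128868) (nat_lit 25) (nat_lit 5) (nat_lit 28) (nat_lit 5) (nat_lit 26) (nat_lit 4) (nat_lit 512) (nat_lit 338) (nat_lit 290)) (XT.lf (nat_lit 0) (nat_lit 5219141057) (nat_lit 228) (nat_lit 7591617495) (nat_lit 76) (nat_lit 6815689920) (nat_lit 25) (nat_lit 5) (nat_lit 28) (nat_lit 5) (nat_lit 26) (nat_lit 4) (nat_lit 513) (nat_lit 338) (nat_lit 289)))))) (XT.nd (nat_lit 546) (nat_lit 456) (nat_lit 0) (XT.nd (nat_lit 234) (nat_lit 304) (nat_lit 0) (XT.nd (nat_lit 78) (nat_lit 0) (nat_lit 0) (XT.lf (nat_lit 0) (nat_lit 382515252) (nat_lit 76) (nat_lit 8891627518) (nat_lit 152) (nat_lit 10653488121) (nat_lit 24) (nat_lit 5) (nat_lit 25) (nat_lit 5) (nat_lit 26) (nat_lit 4) (nat_lit 514) (nat_lit 338) (nat_lit 288)) (XT.nd (nat_lit 78) (nat_lit 0) (nat_lit 0) (XT.lf (nat_lit 0) (nat_lit 8549893530) (nat_lit 76) (nat_lit 4872810955) (nat_lit 152) (nat_lit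 6811890699) (nat_lit 24) (nat_lit 5) (nat_lit 25) (nat_lit 5) (nat_lit 26) (nat_lit 4) (nat_lit 515) (nat_lit 338) (nat_lit 287)) (XT.lf (nat_lit 0) (nat_lit 16812831632) (nat_lit 76) (nat_lit 803676605) (nat_lit 152) (nat_lit 2931952390) (nat_lit 24) (nat_lit 5) (nat_lit 25) (nat_lit 5) (nat_lit 26) (nat_lit 4) (nat_lit 516) (nat_lit 338) (nat_lit 286)))) (XT.nd (nat_lit 156) (nat_lit 76) (nat_lit 0) (XT.nd (nat_lit 78) (nat_lit 0) (nat_lit 0) (XT.lf (nat_lit 0) (nat_lit 1024942503) (nat_lit 228) (nat_lit 16534490023) (nat_lit 76) (nat_lit 3308788503) (nat_lit 21) (nat_lit 5) (nat_lit 24) (nat_lit 5) (nat_lit 22) (nat_lit 4) (nat_lit 517) (nat_lit 338) (nat_lit 285)) (XT.lf (nat_lit 0) (nat_lit 5015174446) (nat_lit 228) (nat_lit 8670738559) (nat_lit 76) (nat_lit 7508213730) (nat_lit 21) (nat_lit 5) (nat_lit 24) (nat_lit 5) (nat_lit 22) (nat_lit 4) (nat_lit 518) (nat_lit 338) (nat_lit 284))) (XT.nd (nat_lit 78)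 (nat_lit 76) (nat_lit 0) (XT.lf (nat_lit 0) (nat_lit 9048804051) (nat_lit 228) (nat_lit 715470542) (nat_lit 76) (nat_lit 11763010827) (nat_lit 21) (nat_lit 5) (nat_lit 24) (nat_lit 5) (nat_lit 22) (nat_lit 4) (nat_lit 519) (nat_lit 338) (nat_lit 283)) (XT.lf (nat_lit 0) (nat_lit 7431904504) (nat_lit 76) (nat_lit 5743761483) (nat_lit 152) (nat_lit 8691196691) (nat_lit 20) (nat_lit 5) (nat_lit 21) (nat_lit 5) (nat_lit 22) (nat_lit 4) (nat_lit 520) (nat_lit 338) (nat_lit 282))))) (XT.nd (nat_lit 312) (nat_lit 228) (nat_lit 0) (XT.nd (nat_lit 156) (nat_lit 76) (nat_lit 0) (XT.nd (nat_lit 78) (nat_lit 152) (nat_lit 0) (XT.lf (nat_lit 0) (nat_lit 15687880487) (nat_lit 76) (nat_lit 1666576786) (nat_lit 152) (nat_lit 4859392829) (nat_lit 20) (nat_lit 5) (nat_lit 21) (nat_lit 5) (nat_lit 22) (nat_lit 4) (nat_lit 521) (nat_lit 338) (nat_lit 281)) (XT.lf (nat_lit 0) (nat_lit 1481135848) (nat_lit 152) (nat_lit 20126588701)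 (nat_lit 152) (nat_lit 960241060) (nat_lit 18) (nat_lit 4) (nat_lit 20) (nat_lit 5) (nat_lit 20) (nat_lit 4) (nat_lit 522) (nat_lit 338) (nat_lit 280))) (XT.nd (nat_lit 78) (nat_lit 0) (nat_lit 0) (XT.lf (nat_lit 0) (nat_lit 2997589741) (nat_lit 228) (nat_lit 13285717889) (nat_lit 76) (nat_lit 6645064872) (nat_lit 17) (nat_lit 5) (nat_lit 20) (nat_lit 5) (nat_lit 18) (nat_lit 4) (nat_lit 523) (nat_lit 338) (nat_lit 279)) (XT.lf (nat_lit 0) (nat_lit 6987558473) (nat_lit 228) (nat_lit 5397060978) (nat_lit 76) (nat_lit 10911930331) (nat_lit 17) (nat_lit 5) (nat_lit 20) (nat_lit 5) (nat_lit 18) (nat_lit 4) (nat_lit 524) (nat_lit 338) (nat_lit 278)))) (XT.nd (nat_lit 156) (nat_lit 152) (nat_lit 0) (XT.nd (nat_lit 78) (nat_lit 0) (nat_lit 0) (XT.lf (nat_lit 0) (nat_lit 2622868475) (nat_lit 76) (nat_lit 8417984489) (nat_lit 152) (nat_lit 12631572970) (nat_lit 16) (nat_lit 5) (nat_lit 17) (nat_lit 5) (nat_lit 18) (nat_lit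 4) (nat_lit 525) (nat_lit 338) (nat_lit 277)) (XT.lf (nat_lit 0) (nat_lit 10815855770) (nat_lit 76) (nat_lit 4362335798) (nat_lit 152) (nat_lit 8877574217) (nat_lit 16) (nat_lit 5) (nat_lit 17) (nat_lit 5) (nat_lit 18) (nat_lit 4) (nat_lit 526) (nat_lit 338) (nat_lit 276))) (XT.nd (nat_lit 78) (nat_lit 152) (nat_lit 0) (XT.lf (nat_lit 0) (nat_lit 19113389742) (nat_lit 76) (nat_lit 252300048) (nat_lit 152) (nat_lit 5081740014) (nat_lit 16) (nat_lit 5) (nat_lit 17) (nat_lit 5) (nat_lit 18) (nat_lit 4) (nat_lit 527) (nat_lit 338) (nat_lit 275)) (XT.lf (nat_lit 0) (nat_lit 2680902702) (nat_lit 152) (nat_lit 20966903844) (nat_lit 152) (nat_lit 1198908703) (nat_lit 14) (nat_lit 4) (nat_lit 16) (nat_lit 5) (nat_lit 16) (nat_lit 4) (nat_lit 528) (nat_lit 338) (nat_lit 274))))))))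
noncomputable def xc22 : XT := (XT.nd (nat_lit 56004) (nat_lit 0) (nat_lit 988) (XT.nd (nat_lit 54912) (nat_lit 0) (nat_lit 3800) (XT.nd (nat_lit 54366) (nat_lit 0) (nat_lit 6384) (XT.nd (nat_lit 234) (nat_lit 0) (nat_lit 0) (XT.nd (nat_lit 78) (nat_lit 76) (nat_lit 0) (XT.lf (nat_lit 0) (nat_lit 2730979712) (nat_lit 228) (nat_lit 14403330202) (nat_lit 76) (nat_lit 8119210809) (nat_lit 13) (nat_lit 5) (nat_lit 16) (nat_lit 5) (nat_lit 14) (nat_lit 4) (nat_lit 529) (nat_lit 338) (nat_lit 273)) (XT.nd (nat_lit 78) (nat_lit 76) (nat_lit 0) (XT.lf (nat_lit 0) (nat_lit 6691973554) (nat_lit 228) (nat_lit 6551058014) (nat_lit 76) (nat_lit 12425906222) (nat_lit 13) (nat_lit 5) (nat_lit 16) (nat_lit 5) (nat_lit 14) (nat_lit 4) (nat_lit 530) (nat_lit 338) (nat_lit 272)) (XT.lf (nat_lit 0) (nat_lit 1420497531) (nat_lit 76) (nat_lit 9290075337) (nat_lit 152) (nat_lit 15382527713) (nat_lit 12) (nat_lit 5) (nat_lit 13) (nat_lit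 5) (nat_lit 14) (nat_lit 4) (nat_lit 531) (nat_lit 338) (nat_lit 271)))) (XT.nd (nat_lit 53976) (nat_lit 0) (nat_lit 8056) (XT.nd (nat_lit 53898) (nat_lit 0) (nat_lit 8436) (XT.lf (nat_lit 0) (nat_lit 9584264338) (nat_lit 76) (nat_lit 5238644588) (nat_lit 152) (nat_lit 11702575405) (nat_lit 12) (nat_lit 5) (nat_lit 13) (nat_lit 5) (nat_lit 14) (nat_lit 4) (nat_lit 532) (nat_lit 338) (nat_lit 270)) (XT.lf (nat_lit 0) (nat_lit 849716306) (nat_lit 380) (nat_lit 3398588603) (nat_lit 0) (nat_lit 849716306) (nat_lit 123) (nat_lit 5) (nat_lit 128) (nat_lit 4) (nat_lit 123) (nat_lit 4) (nat_lit 462) (nat_lit 339) (nat_lit 339))) (XT.nd (nat_lit 78) (nat_lit 0) (nat_lit 0) (XT.lf (nat_lit 0) (nat_lit 527737650) (nat_lit 380) (nat_lit 5271844161) (nat_lit 380) (nat_lit 4501274136) (nat_lit 118) (nat_lit 4) (nat_lit 123) (nat_lit 5) (nat_lit 123) (nat_lit 4) (nat_lit 463) (nat_lit 339) (nat_lit 338)) (XT.lf (nat_lit 0) (nat_lit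 7992881134) (nat_lit 380) (nat_lit 1970653164) (nat_lit 380) (nat_lit 444622329) (nat_lit 118) (nat_lit 4) (nat_lit 123) (nat_lit 5) (nat_lit 123) (nat_lit 4) (nat_lit 464) (nat_lit 339) (nat_lit 337))))) (XT.nd (nat_lit 234) (nat_lit 912) (nat_lit 0) (XT.nd (nat_lit 78) (nat_lit 380) (nat_lit 0) (XT.lf (nat_lit 0) (nat_lit 3623631167) (nat_lit 380) (nat_lit 5492543174) (nat_lit 0) (nat_lit 1401397160) (nat_lit 113) (nat_lit 5) (nat_lit 118) (nat_lit 4) (nat_lit 113) (nat_lit 4) (nat_lit 465) (nat_lit 339) (nat_lit 336)) (XT.nd (nat_lit 78) (nat_lit 76) (nat_lit 0) (XT.lf (nat_lit 0) (nat_lit 1929479494) (nat_lit 304) (nat_lit 5817098853) (nat_lit 304) (nat_lit 2882977251) (nat_lit 109) (nat_lit 4) (nat_lit 113) (nat_lit 5) (nat_lit 113) (nat_lit 4) (nat_lit 466) (nat_lit 339) (nat_lit 335)) (XT.lf (nat_lit 0) (nat_lit 1167006545) (nat_lit 380) (nat_lit 1274697391) (nat_lit 76) (nat_lit 8302449967) (nat_lit 108)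 (nat_lit 5) (nat_lit 113) (nat_lit 5) (nat_lit 109) (nat_lit 4) (nat_lit 467) (nat_lit 339) (nat_lit 334)))) (XT.nd (nat_lit 156) (nat_lit 304) (nat_lit 0) (XT.nd (nat_lit 78) (nat_lit 304) (nat_lit 0) (XT.lf (nat_lit 0) (nat_lit 5245547851) (nat_lit 380) (nat_lit 4601529527) (nat_lit 0) (nat_lit 1013886336) (nat_lit 104) (nat_lit 5) (nat_lit 109) (nat_lit 4) (nat_lit 104) (nat_lit 4) (nat_lit 468) (nat_lit 339) (nat_lit 333)) (XT.lf (nat_lit 0) (nat_lit 2907068340) (nat_lit 304) (nat_lit 6481372397) (nat_lit 304) (nat_lit 1592036785) (nat_lit 100) (nat_lit 4) (nat_lit 104) (nat_lit 5) (nat_lit 104) (nat_lit 4) (nat_lit 469) (nat_lit 339) (nat_lit 332))) (XT.nd (nat_lit 78) (nat_lit 228) (nat_lit 0) (XT.lf (nat_lit 0) (nat_lit 2449225293) (nat_lit 380) (nat_lit 586679046) (nat_lit 76) (nat_lit 8066766441) (nat_lit 99) (nat_lit 5) (nat_lit 104) (nat_lit 5) (nat_lit 100) (nat_lit 4) (nat_lit 470) (nat_lit 339) (nat_lit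 331)) (XT.lf (nat_lit 0) (nat_lit 6539419071) (nat_lit 304) (nat_lit 4193835972) (nat_lit 0) (nat_lit 494075983) (nat_lit 96) (nat_lit 5) (nat_lit 100) (nat_lit 4) (nat_lit 96) (nat_lit 4) (nat_lit 471) (nat_lit 339) (nat_lit 330)))))) (XT.nd (nat_lit 546) (nat_lit 1064) (nat_lit 0) (XT.nd (nat_lit 234) (nat_lit 912) (nat_lit 0) (XT.nd (nat_lit 78) (nat_lit 304) (nat_lit 0) (XT.lf (nat_lit 0) (nat_lit 3388862752) (nat_lit 304) (nat_lit 7309419174) (nat_lit 304) (nat_lit 656486879) (nat_lit 92) (nat_lit 4) (nat_lit 96) (nat_lit 5) (nat_lit 96) (nat_lit 4) (nat_lit 472) (nat_lit 339) (nat_lit 329)) (XT.nd (nat_lit 78) (nat_lit 228) (nat_lit 0) (XT.lf (nat_lit 0) (nat_lit 3379507977) (nat_lit 380) (nat_lit 422001872) (nat_lit 76) (nat_lit 7683432335) (nat_lit 91) (nat_lit 5) (nat_lit 96) (nat_lit 5) (nat_lit 92) (nat_lit 4) (nat_lit 473) (nat_lit 339) (nat_lit 328)) (XT.lf (nat_lit 0) (nat_lit 7270401912) (nat_lit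 228) (nat_lit 206333570) (nat_lit 304) (nat_lit 4141131083) (nat_lit 88) (nat_lit 5) (nat_lit 91) (nat_lit 5) (nat_lit 92) (nat_lit 4) (nat_lit 474) (nat_lit 339) (nat_lit 327)))) (XT.nd (nat_lit 156) (nat_lit 532) (nat_lit 0) (XT.nd (nat_lit 78) (nat_lit 76) (nat_lit 0) (XT.lf (nat_lit 0) (nat_lit 3296014060) (nat_lit 304) (nat_lit 8349007444) (nat_lit 304) (nat_lit 108665637) (nat_lit 84) (nat_lit 4) (nat_lit 88) (nat_lit 5) (nat_lit 88) (nat_lit 4) (nat_lit 475) (nat_lit 339) (nat_lit 326)) (XT.lf (nat_lit 0) (nat_lit 3925185231) (nat_lit 380) (nat_lit 861779903) (nat_lit 76) (nat_lit 7105293109) (nat_lit 83) (nat_lit 5) (nat_lit 88) (nat_lit 5) (nat_lit 84) (nat_lit 4) (nat_lit 476) (nat_lit 339) (nat_lit 325))) (XT.nd (nat_lit 78) (nat_lit 304) (nat_lit 0) (XT.lf (nat_lit 0) (nat_lit 6883557817) (nat_lit 228) (nat_lit 1143043032) (nat_lit 304) (nat_lit 4007237531) (nat_lit 80) (nat_lit 5) (nat_lit 83) (nat_lit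 5) (nat_lit 84) (nat_lit 4) (nat_lit 477) (nat_lit 339) (nat_lit 324)) (XT.lf (nat_lit 0) (nat_lit 14209264) (nat_lit 304) (nat_lit 9637100096) (nat_lit 76) (nat_lit 2527298100) (nat_lit 76) (nat_lit 5) (nat_lit 80) (nat_lit 5) (nat_lit 77) (nat_lit 4) (nat_lit 478) (nat_lit 339) (nat_lit 323))))) (XT.nd (nat_lit 234) (nat_lit 608) (nat_lit 0) (XT.nd (nat_lit 78) (nat_lit 456) (nat_lit 0) (XT.lf (nat_lit 0) (nat_lit 4048885121) (nat_lit 304) (nat_lit 1995458333) (nat_lit 76) (nat_lit 6281687317) (nat_lit 76) (nat_lit 5) (nat_lit 80) (nat_lit 5) (nat_lit 77) (nat_lit 4) (nat_lit 479) (nat_lit 339) (nat_lit 322)) (XT.nd (nat_lit 78) (nat_lit 228) (nat_lit 0) (XT.lf (nat_lit 0) (nat_lit 5784205201) (nat_lit 228) (nat_lit 2362748389) (nat_lit 304) (nat_lit 4329812375) (nat_lit 73) (nat_lit 5) (nat_lit 76) (nat_lit 5) (nat_lit 77) (nat_lit 4) (nat_lit 480) (nat_lit 339) (nat_lit 321)) (XT.lf (nat_lit 0) (nat_lit 1029689982)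 (nat_lit 228) (nat_lit 11271902144) (nat_lit 228) (nat_lit 329448621) (nat_lit 70) (nat_lit 4) (nat_lit 73) (nat_lit 5) (nat_lit 73) (nat_lit 4) (nat_lit 481) (nat_lit 339) (nat_lit 320)))) (XT.nd (nat_lit 156) (nat_lit 304) (nat_lit 0) (XT.nd (nat_lit 78) (nat_lit 228) (nat_lit 0) (XT.lf (nat_lit 0) (nat_lit 3708095920) (nat_lit 304) (nat_lit 3921785983) (nat_lit 76) (nat_lit 5157921096) (nat_lit 69) (nat_lit 5) (nat_lit 73) (nat_lit 5) (nat_lit 70) (nat_lit 4) (nat_lit 482) (nat_lit 339) (nat_lit 319)) (XT.lf (nat_lit 0) (nat_lit 3870648549) (nat_lit 228) (nat_lit 3923046983) (nat_lit 304) (nat_lit 5154543175) (nat_lit 66) (nat_lit 5) (nat_lit 69) (nat_lit 5) (nat_lit 70) (nat_lit 4) (nat_lit 483) (nat_lit 339) (nat_lit 318))) (XT.nd (nat_lit 78) (nat_lit 304) (nat_lit 0) (XT.lf (nat_lit 0) (nat_lit 11783376121) (nat_lit 228) (nat_lit 151000254) (nat_lit 304) (nat_lit 1178055128) (nat_lit 66) (nat_lit 5) (nat_lit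 69) (nat_lit 5) (nat_lit 70) (nat_lit 4) (nat_lit 484) (nat_lit 339) (nat_lit 317)) (XT.lf (nat_lit 0) (nat_lit 2854677636) (nat_lit 304) (nat_lit 6749884478) (nat_lit 76) (nat_lit 3674698274) (nat_lit 62) (nat_lit 5) (nat_lit 66) (nat_lit 5) (nat_lit 63) (nat_lit 4) (nat_lit 485) (nat_lit 339) (nat_lit 316))))))) (XT.nd (nat_lit 1092) (nat_lit 1064) (nat_lit 0) (XT.nd (nat_lit 546) (nat_lit 836) (nat_lit 0) (XT.nd (nat_lit 234) (nat_lit 456) (nat_lit 0) (XT.nd (nat_lit 78) (nat_lit 304) (nat_lit 0) (XT.lf (nat_lit 0) (nat_lit 1030466355) (nat_lit 152) (nat_lit 5886468763) (nat_lit 228) (nat_lit 6533056961) (nat_lit 60) (nat_lit 5) (nat_lit 62) (nat_lit 5) (nat_lit 63) (nat_lit 4) (nat_lit 486) (nat_lit 339) (nat_lit 315)) (XT.nd (nat_lit 78) (nat_lit 304) (nat_lit 0) (XT.lf (nat_lit 0) (nat_lit 8970567478) (nat_lit 152) (nat_lit 2083580037) (nat_lit 228) (nat_lit 2570131251) (nat_lit 60) (nat_lit 5) (nat_lit 62)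 (nat_lit 5) (nat_lit 63) (nat_lit 4) (nat_lit 487) (nat_lit 339) (nat_lit 314)) (XT.lf (nat_lit 0) (nat_lit 1434317318) (nat_lit 304) (nat_lit 10600424726) (nat_lit 76) (nat_lit 1767500574) (nat_lit 56) (nat_lit 5) (nat_lit 60) (nat_lit 5) (nat_lit 57) (nat_lit 4) (nat_lit 488) (nat_lit 339) (nat_lit 313)))) (XT.nd (nat_lit 156) (nat_lit 304) (nat_lit 0) (XT.nd (nat_lit 78) (nat_lit 152) (nat_lit 0) (XT.lf (nat_lit 0) (nat_lit 5478996723) (nat_lit 304) (nat_lit 2823184744) (nat_lit 76) (nat_lit 5681367109) (nat_lit 56) (nat_lit 5) (nat_lit 60) (nat_lit 5) (nat_lit 57) (nat_lit 4) (nat_lit 489) (nat_lit 339) (nat_lit 312)) (XT.lf (nat_lit 0) (nat_lit 5091515968) (nat_lit 152) (nat_lit 4496395113) (nat_lit 228) (nat_lit 4580916194) (nat_lit 54) (nat_lit 5) (nat_lit 56) (nat_lit 5) (nat_lit 57) (nat_lit 4) (nat_lit 490) (nat_lit 339) (nat_lit 311))) (XT.nd (nat_lit 78) (nat_lit 304) (nat_lit 0) (XT.lf (nat_lit 0)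 (nat_lit 13118477783) (nat_lit 152) (nat_lit 630182348) (nat_lit 228) (nat_lit 609771476) (nat_lit 54) (nat_lit 5) (nat_lit 56) (nat_lit 5) (nat_lit 57) (nat_lit 4) (nat_lit 491) (nat_lit 339) (nat_lit 310)) (XT.lf (nat_lit 0) (nat_lit 3412479766) (nat_lit 304) (nat_lit 7836359558) (nat_lit 76) (nat_lit 3302218370) (nat_lit 50) (nat_lit 5) (nat_lit 54) (nat_lit 5) (nat_lit 51) (nat_lit 4) (nat_lit 492) (nat_lit 339) (nat_lit 309))))) (XT.nd (nat_lit 234) (nat_lit 380) (nat_lit 0) (XT.nd (nat_lit 78) (nat_lit 304) (nat_lit 0) (XT.lf (nat_lit 0) (nat_lit 6182320) (nat_lit 152) (nat_lit 7464963452) (nat_lit 228) (nat_lit 7277039653) (nat_lit 48) (nat_lit 5) (nat_lit 50) (nat_lit 5) (nat_lit 51) (nat_lit 4) (nat_lit 493) (nat_lit 339) (nat_lit 308)) (XT.nd (nat_lit 78) (nat_lit 304) (nat_lit 0) (XT.lf (nat_lit 0) (nat_lit 8028835190) (nat_lit 152) (nat_lit 3586685161) (nat_lit 228) (nat_lit 3333656837) (nat_lit 48)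 (nat_lit 5) (nat_lit 50) (nat_lit 5) (nat_lit 51) (nat_lit 4) (nat_lit 494) (nat_lit 339) (nat_lit 307)) (XT.lf (nat_lit 0) (nat_lit 640764766) (nat_lit 304) (nat_lit 14172965837) (nat_lit 76) (nat_lit 341156432) (nat_lit 44) (nat_lit 5) (nat_lit 48) (nat_lit 5) (nat_lit 45) (nat_lit 4) (nat_lit 495) (nat_lit 339) (nat_lit 306)))) (XT.nd (nat_lit 156) (nat_lit 228) (nat_lit 0) (XT.nd (nat_lit 78) (nat_lit 152) (nat_lit 0) (XT.lf (nat_lit 0) (nat_lit 4673323874) (nat_lit 304) (nat_lit 6356051648) (nat_lit 76) (nat_lit 4334440593) (nat_lit 44) (nat_lit 5) (nat_lit 48) (nat_lit 5) (nat_lit 45) (nat_lit 4) (nat_lit 496) (nat_lit 339) (nat_lit 305)) (XT.lf (nat_lit 0) (nat_lit 1557064708) (nat_lit 152) (nat_lit 7193250960) (nat_lit 228) (nat_lit 6827343732) (nat_lit 42) (nat_lit 5) (nat_lit 44) (nat_lit 5) (nat_lit 45) (nat_lit 4) (nat_lit 497) (nat_lit 339) (nat_lit 304))) (XT.nd (nat_lit 78) (nat_lit 228) (nat_lit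 0) (XT.lf (nat_lit 0) (nat_lit 9634574027) (nat_lit 152) (nat_lit 3270986532) (nat_lit 228) (nat_lit 2890295760) (nat_lit 42) (nat_lit 5) (nat_lit 44) (nat_lit 5) (nat_lit 45) (nat_lit 4) (nat_lit 498) (nat_lit 339) (nat_lit 303)) (XT.lf (nat_lit 0) (nat_lit 1081666196) (nat_lit 228) (nat_lit 14231255765) (nat_lit 76) (nat_lit 705940991) (nat_lit 39) (nat_lit 5) (nat_lit 42) (nat_lit 5) (nat_lit 40) (nat_lit 4) (nat_lit 499) (nat_lit 339) (nat_lit 302)))))) (XT.nd (nat_lit 546) (nat_lit 532) (nat_lit 0) (XT.nd (nat_lit 234) (nat_lit 380) (nat_lit 0) (XT.nd (nat_lit 78) (nat_lit 152) (nat_lit 0) (XT.lf (nat_lit 0) (nat_lit 5112497679) (nat_lit 228) (nat_lit 6386830465) (nat_lit 76) (nat_lit 4746267246) (nat_lit 39) (nat_lit 5) (nat_lit 42) (nat_lit 5) (nat_lit 40) (nat_lit 4) (nat_lit 500) (nat_lit 339) (nat_lit 301)) (XT.nd (nat_lit 78) (nat_lit 0) (nat_lit 0) (XT.lf (nat_lit 0) (nat_lit 1557217395) (nat_lit 152)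 (nat_lit 7632538637) (nat_lit 228) (nat_lit 7287800432) (nat_lit 37) (nat_lit 5) (nat_lit 39) (nat_lit 5) (nat_lit 40) (nat_lit 4) (nat_lit 501) (nat_lit 339) (nat_lit 300)) (XT.lf (nat_lit 0) (nat_lit 9669543363) (nat_lit 152) (nat_lit 3677942480) (nat_lit 228) (nat_lit 3366702386) (nat_lit 37) (nat_lit 5) (nat_lit 39) (nat_lit 5) (nat_lit 40) (nat_lit 4) (nat_lit 502) (nat_lit 339) (nat_lit 299)))) (XT.nd (nat_lit 156) (nat_lit 152) (nat_lit 0) (XT.nd (nat_lit 78) (nat_lit 0) (nat_lit 0) (XT.lf (nat_lit 0) (nat_lit 589289949) (nat_lit 228) (nat_lit 16038117436) (nat_lit 76) (nat_lit 328777239) (nat_lit 34) (nat_lit 5) (nat_lit 37) (nat_lit 5) (nat_lit 35) (nat_lit 4) (nat_lit 503) (nat_lit 339) (nat_lit 298)) (XT.lf (nat_lit 0) (nat_lit 4608087441) (nat_lit 228) (nat_lit 8189922312) (nat_lit 76) (nat_lit 4404000222) (nat_lit 34) (nat_lit 5) (nat_lit 37) (nat_lit 5) (nat_lit 35) (nat_lit 4) (nat_lit 504) (nat_lit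 339) (nat_lit 297))) (XT.nd (nat_lit 78) (nat_lit 152) (nat_lit 0) (XT.lf (nat_lit 0) (nat_lit 8664888078) (nat_lit 228) (nat_lit 259671116) (nat_lit 76) (nat_lit 8529049330) (nat_lit 34) (nat_lit 5) (nat_lit 37) (nat_lit 5) (nat_lit 35) (nat_lit 4) (nat_lit 505) (nat_lit 339) (nat_lit 296)) (XT.lf (nat_lit 0) (nat_lit 7858815838) (nat_lit 152) (nat_lit 4953491568) (nat_lit 228) (nat_lit 4897751034) (nat_lit 32) (nat_lit 5) (nat_lit 34) (nat_lit 5) (nat_lit 35) (nat_lit 4) (nat_lit 506) (nat_lit 339) (nat_lit 295))))) (XT.nd (nat_lit 312) (nat_lit 228) (nat_lit 0) (XT.nd (nat_lit 156) (nat_lit 76) (nat_lit 0) (XT.nd (nat_lit 78) (nat_lit 228) (nat_lit 0) (XT.lf (nat_lit 0) (nat_lit 16070236545) (nat_lit 152) (nat_lit 932980009) (nat_lit 228) (nat_lit 969218846) (nat_lit 32) (nat_lit 5) (nat_lit 34) (nat_lit 5) (nat_lit 35) (nat_lit 4) (nat_lit 507) (nat_lit 339) (nat_lit 294)) (XT.lf (nat_lit 0) (nat_lit 3018357615)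 (nat_lit 228) (nat_lit 12065164720) (nat_lit 76) (nat_lit 3155745294) (nat_lit 29) (nat_lit 5) (nat_lit 32) (nat_lit 5) (nat_lit 30) (nat_lit 4) (nat_lit 508) (nat_lit 339) (nat_lit 293))) (XT.nd (nat_lit 78) (nat_lit 76) (nat_lit 0) (XT.lf (nat_lit 0) (nat_lit 7051208120) (nat_lit 228) (nat_lit 4158359901) (nat_lit 76) (nat_lit 7302178706) (nat_lit 29) (nat_lit 5) (nat_lit 32) (nat_lit 5) (nat_lit 30) (nat_lit 4) (nat_lit 509) (nat_lit 339) (nat_lit 292)) (XT.lf (nat_lit 0) (nat_lit 3886760167) (nat_lit 76) (nat_lit 7263446046) (nat_lit 152) (nat_lit 7639767580) (nat_lit 28) (nat_lit 5) (nat_lit 29) (nat_lit 5) (nat_lit 30) (nat_lit 4) (nat_lit 510) (nat_lit 339) (nat_lit 291)))) (XT.nd (nat_lit 156) (nat_lit 0) (nat_lit 0) (XT.nd (nat_lit 78) (nat_lit 228) (nat_lit 0) (XT.lf (nat_lit 0) (nat_lit 12078819660) (nat_lit 76) (nat_lit 3240847221) (nat_lit 152) (nat_lit 3754336904) (nat_lit 28) (nat_lit 5) (nat_lit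 29) (nat_lit 5) (nat_lit 30) (nat_lit 4) (nat_lit 511) (nat_lit 339) (nat_lit 290)) (XT.lf (nat_lit 0) (nat_lit 179183193) (nat_lit 228) (nat_lit 18356328158) (nat_lit 76) (nat_lit 828721252) (nat_lit 25) (nat_lit 5) (nat_lit 28) (nat_lit 5) (nat_lit 26) (nat_lit 4) (nat_lit 512) (nat_lit 339) (nat_lit 289))) (XT.nd (nat_lit 78) (nat_lit 0) (nat_lit 0) (XT.lf (nat_lit 0) (nat_lit 4171069360) (nat_lit 228) (nat_lit 10509688814) (nat_lit 76) (nat_lit 4978419749) (nat_lit 25) (nat_lit 5) (nat_lit 28) (nat_lit 5) (nat_lit 26) (nat_lit 4) (nat_lit 513) (nat_lit 339) (nat_lit 288)) (XT.lf (nat_lit 0) (nat_lit 8204758394) (nat_lit 228) (nat_lit 2574353351) (nat_lit 76) (nat_lit 9181678526) (nat_lit 25) (nat_lit 5) (nat_lit 28) (nat_lit 5) (nat_lit 26) (nat_lit 4) (nat_lit 514) (nat_lit 339) (nat_lit 287))))))))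
noncomputable def xc23 : XT := (XT.nd (nat_lit 55848) (nat_lit 0) (nat_lit 2280) (XT.nd (nat_lit 1092) (nat_lit 304) (nat_lit 0) (XT.nd (nat_lit 546) (nat_lit 304) (nat_lit 0) (XT.nd (nat_lit 234) (nat_lit 152) (nat_lit 0) (XT.nd (nat_lit 78) (nat_lit 152) (nat_lit 0) (XT.lf (nat_lit 0) (nat_lit 5525254837) (nat_lit 76) (nat_lit 6792450917) (nat_lit 152) (nat_lit 7950764703) (nat_lit 24) (nat_lit 5) (nat_lit 25) (nat_lit 5) (nat_lit 26) (nat_lit 4) (nat_lit 515) (nat_lit 339) (nat_lit 286)) (XT.nd (nat_lit 78) (nat_lit 152) (nat_lit 0) (XT.lf (nat_lit 0) (nat_lit 13755292655) (nat_lit 76) (nat_lit 2737905260) (nat_lit 152) (nat_lit 4089507748) (nat_lit 24) (nat_lit 5) (nat_lit 25) (nat_lit 5) (nat_lit 26) (nat_lit 4) (nat_lit 516) (nat_lit 339) (nat_lit 285)) (XT.lf (nat_lit 0) (nat_lit 1187504835) (nat_lit 152) (nat_lit 19545028446) (nat_lit 152) (nat_lit 171092625) (nat_lit 22) (nat_lit 4) (nat_lit 24) (nat_lit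 5) (nat_lit 24) (nat_lit 4) (nat_lit 517) (nat_lit 339) (nat_lit 284)))) (XT.nd (nat_lit 156) (nat_lit 76) (nat_lit 0) (XT.nd (nat_lit 78) (nat_lit 0) (nat_lit 0) (XT.lf (nat_lit 0) (nat_lit 3803359972) (nat_lit 228) (nat_lit 11883812462) (nat_lit 76) (nat_lit 5542745189) (nat_lit 21) (nat_lit 5) (nat_lit 24) (nat_lit 5) (nat_lit 22) (nat_lit 4) (nat_lit 518) (nat_lit 339) (nat_lit 283)) (XT.lf (nat_lit 0) (nat_lit 7819319718) (nat_lit 228) (nat_lit 3960459838) (nat_lit 76) (nat_lit 9783653413) (nat_lit 21) (nat_lit 5) (nat_lit 24) (nat_lit 5) (nat_lit 22) (nat_lit 4) (nat_lit 519) (nat_lit 339) (nat_lit 282))) (XT.nd (nat_lit 78) (nat_lit 0) (nat_lit 0) (XT.lf (nat_lit 0) (nat_lit 4112085584) (nat_lit 76) (nat_lit 7795218212) (nat_lit 152) (nat_lit 9996487187) (nat_lit 20) (nat_lit 5) (nat_lit 21) (nat_lit 5) (nat_lit 22) (nat_lit 4) (nat_lit 520) (nat_lit 339) (nat_lit 281)) (XT.lf (nat_lit 0) (nat_lit 12336977819)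 (nat_lit 76) (nat_lit 3731931731) (nat_lit 152) (nat_lit 6182215706) (nat_lit 20) (nat_lit 5) (nat_lit 21) (nat_lit 5) (nat_lit 22) (nat_lit 4) (nat_lit 521) (nat_lit 339) (nat_lit 280))))) (XT.nd (nat_lit 234) (nat_lit 76) (nat_lit 0) (XT.nd (nat_lit 78) (nat_lit 228) (nat_lit 0) (XT.lf (nat_lit 0) (nat_lit 20282213627) (nat_lit 152) (nat_lit 1943783525) (nat_lit 0) (nat_lit 380045950) (nat_lit 20) (nat_lit 5) (nat_lit 22) (nat_lit 4) (nat_lit 20) (nat_lit 4) (nat_lit 522) (nat_lit 339) (nat_lit 279)) (XT.nd (nat_lit 78) (nat_lit 0) (nat_lit 0) (XT.lf (nat_lit 0) (nat_lit 1622094929) (nat_lit 228) (nat_lit 16796615847) (nat_lit 76) (nat_lit 4548515045) (nat_lit 17) (nat_lit 5) (nat_lit 20) (nat_lit 5) (nat_lit 18) (nat_lit 4) (nat_lit 523) (nat_lit 339) (nat_lit 278)) (XT.lf (nat_lit 0) (nat_lit 5595478009) (nat_lit 228) (nat_lit 8938107444) (nat_lit 76) (nat_lit 8802152259) (nat_lit 17) (nat_lit 5) (nat_lit 20)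 (nat_lit 5) (nat_lit 18) (nat_lit 4) (nat_lit 524) (nat_lit 339) (nat_lit 277)))) (XT.nd (nat_lit 156) (nat_lit 0) (nat_lit 0) (XT.nd (nat_lit 78) (nat_lit 76) (nat_lit 0) (XT.lf (nat_lit 0) (nat_lit 9615482655) (nat_lit 228) (nat_lit 982134744) (nat_lit 76) (nat_lit 13114665104) (nat_lit 17) (nat_lit 5) (nat_lit 20) (nat_lit 5) (nat_lit 18) (nat_lit 4) (nat_lit 525) (nat_lit 339) (nat_lit 276)) (XT.lf (nat_lit 0) (nat_lit 7168437591) (nat_lit 76) (nat_lit 6561790001) (nat_lit 152) (nat_lit 10365849421) (nat_lit 16) (nat_lit 5) (nat_lit 17) (nat_lit 5) (nat_lit 18) (nat_lit 4) (nat_lit 526) (nat_lit 339) (nat_lit 275))) (XT.nd (nat_lit 78) (nat_lit 0) (nat_lit 0) (XT.lf (nat_lit 0) (nat_lit 15437184401) (nat_lit 76) (nat_lit 2464725477) (nat_lit 152) (nat_lit 6586150203) (nat_lit 16) (nat_lit 5) (nat_lit 17) (nat_lit 5) (nat_lit 18) (nat_lit 4) (nat_lit 527) (nat_lit 339) (nat_lit 274)) (XT.lf (nat_lit 0) (nat_lit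 22136667516) (nat_lit 152) (nat_lit 1085181838) (nat_lit 0) (nat_lit 1666446031) (nat_lit 16) (nat_lit 5) (nat_lit 18) (nat_lit 4) (nat_lit 16) (nat_lit 4) (nat_lit 528) (nat_lit 339) (nat_lit 273)))))) (XT.nd (nat_lit 54210) (nat_lit 0) (nat_lit 6688) (XT.nd (nat_lit 234) (nat_lit 76) (nat_lit 0) (XT.nd (nat_lit 78) (nat_lit 0) (nat_lit 0) (XT.lf (nat_lit 0) (nat_lit 1175866833) (nat_lit 228) (nat_lit 18243905853) (nat_lit 76) (nat_lit 5875987531) (nat_lit 13) (nat_lit 5) (nat_lit 16) (nat_lit 5) (nat_lit 14) (nat_lit 4) (nat_lit 529) (nat_lit 339) (nat_lit 272)) (XT.nd (nat_lit 78) (nat_lit 0) (nat_lit 0) (XT.lf (nat_lit 0) (nat_lit 5121594727) (nat_lit 228) (nat_lit 10419550578) (nat_lit 76) (nat_lit 10170339820) (nat_lit 13) (nat_lit 5) (nat_lit 16) (nat_lit 5) (nat_lit 14) (nat_lit 4) (nat_lit 530) (nat_lit 339) (nat_lit 271)) (XT.lf (nat_lit 0) (nat_lit 9116004614) (nat_lit 228) (nat_lit 2493994637) (nat_lit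 76) (nat_lit 14526134930) (nat_lit 13) (nat_lit 5) (nat_lit 16) (nat_lit 5) (nat_lit 14) (nat_lit 4) (nat_lit 531) (nat_lit 339) (nat_lit 270)))) (XT.nd (nat_lit 53820) (nat_lit 0) (nat_lit 8436) (XT.nd (nat_lit 53742) (nat_lit 0) (nat_lit 9196) (XT.lf (nat_lit 0) (nat_lit 5609438832) (nat_lit 76) (nat_lit 7587644295) (nat_lit 152) (nat_lit 13372062380) (nat_lit 12) (nat_lit 5) (nat_lit 13) (nat_lit 5) (nat_lit 14) (nat_lit 4) (nat_lit 532) (nat_lit 339) (nat_lit 269)) (XT.lf (nat_lit 0) (nat_lit 2205876963) (nat_lit 456) (nat_lit 584510524) (nat_lit 0) (nat_lit 2205876963) (nat_lit 133) (nat_lit 5) (nat_lit 139) (nat_lit 4) (nat_lit 133) (nat_lit 4) (nat_lit 460) (nat_lit 340) (nat_lit 340))) (XT.nd (nat_lit 78) (nat_lit 380) (nat_lit 0) (XT.lf (nat_lit 0) (nat_lit 6145328368) (nat_lit 380) (nat_lit 2374922168) (nat_lit 380) (nat_lit 1573221114) (nat_lit 128) (nat_lit 4) (nat_lit 133) (nat_lit 5) (nat_lit 133)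 (nat_lit 4) (nat_lit 461) (nat_lit 340) (nat_lit 339)) (XT.lf (nat_lit 0) (nat_lit 2453514594) (nat_lit 380) (nat_lit 6846216266) (nat_lit 0) (nat_lit 896963142) (nat_lit 123) (nat_lit 5) (nat_lit 128) (nat_lit 4) (nat_lit 123) (nat_lit 4) (nat_lit 462) (nat_lit 340) (nat_lit 338))))) (XT.nd (nat_lit 234) (nat_lit 988) (nat_lit 0) (XT.nd (nat_lit 78) (nat_lit 380) (nat_lit 0) (XT.lf (nat_lit 0) (nat_lit 429330453) (nat_lit 380) (nat_lit 6092420450) (nat_lit 380) (nat_lit 3780408189) (nat_lit 118) (nat_lit 4) (nat_lit 123) (nat_lit 5) (nat_lit 123) (nat_lit 4) (nat_lit 463) (nat_lit 340) (nat_lit 337)) (XT.nd (nat_lit 78) (nat_lit 304) (nat_lit 0) (XT.lf (nat_lit 0) (nat_lit 241431797) (nat_lit 456) (nat_lit 2564967883) (nat_lit 76) (nat_lit 7603660796) (nat_lit 117) (nat_lit 5) (nat_lit 123) (nat_lit 5) (nat_lit 118) (nat_lit 4) (nat_lit 464) (nat_lit 340) (nat_lit 336)) (XT.lf (nat_lit 0) (nat_lit 4266438060)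 (nat_lit 380) (nat_lit 5691993988) (nat_lit 0) (nat_lit 561746433) (nat_lit 113) (nat_lit 5) (nat_lit 118) (nat_lit 4) (nat_lit 113) (nat_lit 4) (nat_lit 465) (nat_lit 340) (nat_lit 335)))) (XT.nd (nat_lit 156) (nat_lit 608) (nat_lit 0) (XT.nd (nat_lit 78) (nat_lit 76) (nat_lit 0) (XT.lf (nat_lit 0) (nat_lit 1679304944) (nat_lit 304) (nat_lit 6678065437) (nat_lit 304) (nat_lit 2275444796) (nat_lit 109) (nat_lit 4) (nat_lit 113) (nat_lit 5) (nat_lit 113) (nat_lit 4) (nat_lit 466) (nat_lit 340) (nat_lit 334)) (XT.lf (nat_lit 0) (nat_lit 1736259190) (nat_lit 380) (nat_lit 1579621207) (nat_lit 76) (nat_lit 7432072259) (nat_lit 108) (nat_lit 5) (nat_lit 113) (nat_lit 5) (nat_lit 109) (nat_lit 4) (nat_lit 467) (nat_lit 340) (nat_lit 333))) (XT.nd (nat_lit 78) (nat_lit 304) (nat_lit 0) (XT.lf (nat_lit 0) (nat_lit 5776969446) (nat_lit 380) (nat_lit 4956388209) (nat_lit 0) (nat_lit 132173024) (nat_lit 104) (nat_lit 5) (nat_lit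 109) (nat_lit 4) (nat_lit 104) (nat_lit 4) (nat_lit 468) (nat_lit 340) (nat_lit 332)) (XT.lf (nat_lit 0) (nat_lit 2500075068) (nat_lit 304) (nat_lit 7387599741) (nat_lit 304) (nat_lit 1098024792) (nat_lit 100) (nat_lit 4) (nat_lit 104) (nat_lit 5) (nat_lit 104) (nat_lit 4) (nat_lit 469) (nat_lit 340) (nat_lit 331))))))) (XT.nd (nat_lit 1092) (nat_lit 1824) (nat_lit 0) (XT.nd (nat_lit 546) (nat_lit 1292) (nat_lit 0) (XT.nd (nat_lit 234) (nat_lit 684) (nat_lit 0) (XT.nd (nat_lit 78) (nat_lit 532) (nat_lit 0) (XT.lf (nat_lit 0) (nat_lit 2907285834) (nat_lit 380) (nat_lit 1048993373) (nat_lit 76) (nat_lit 7152149875) (nat_lit 99) (nat_lit 5) (nat_lit 104) (nat_lit 5) (nat_lit 100) (nat_lit 4) (nat_lit 470) (nat_lit 340) (nat_lit 330)) (XT.nd (nat_lit 78) (nat_lit 304) (nat_lit 0) (XT.lf (nat_lit 0) (nat_lit 6521769298) (nat_lit 228) (nat_lit 440221319) (nat_lit 304) (nat_lit 4271819200) (nat_lit 96) (nat_lit 5) (nat_lit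 99) (nat_lit 5) (nat_lit 100) (nat_lit 4) (nat_lit 471) (nat_lit 340) (nat_lit 329)) (XT.lf (nat_lit 0) (nat_lit 2819912576) (nat_lit 304) (nat_lit 8265653553) (nat_lit 304) (nat_lit 276397714) (nat_lit 92) (nat_lit 4) (nat_lit 96) (nat_lit 5) (nat_lit 96) (nat_lit 4) (nat_lit 472) (nat_lit 340) (nat_lit 328)))) (XT.nd (nat_lit 156) (nat_lit 380) (nat_lit 0) (XT.nd (nat_lit 78) (nat_lit 228) (nat_lit 0) (XT.lf (nat_lit 0) (nat_lit 3725944196) (nat_lit 380) (nat_lit 1046844339) (nat_lit 76) (nat_lit 6719882783) (nat_lit 91) (nat_lit 5) (nat_lit 96) (nat_lit 5) (nat_lit 92) (nat_lit 4) (nat_lit 473) (nat_lit 340) (nat_lit 327)) (XT.lf (nat_lit 0) (nat_lit 6591330298) (nat_lit 228) (nat_lit 1199326530) (nat_lit 304) (nat_lit 3835599063) (nat_lit 88) (nat_lit 5) (nat_lit 91) (nat_lit 5) (nat_lit 92) (nat_lit 4) (nat_lit 474) (nat_lit 340) (nat_lit 326))) (XT.nd (nat_lit 78) (nat_lit 0) (nat_lit 0) (XT.lf (nat_lit 0)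 (nat_lit 154829978) (nat_lit 380) (nat_lit 9204022861) (nat_lit 76) (nat_lit 2403996664) (nat_lit 83) (nat_lit 5) (nat_lit 88) (nat_lit 5) (nat_lit 84) (nat_lit 4) (nat_lit 475) (nat_lit 340) (nat_lit 325)) (XT.lf (nat_lit 0) (nat_lit 4159359034) (nat_lit 380) (nat_lit 1654395994) (nat_lit 76) (nat_lit 6088218722) (nat_lit 83) (nat_lit 5) (nat_lit 88) (nat_lit 5) (nat_lit 84) (nat_lit 4) (nat_lit 476) (nat_lit 340) (nat_lit 324))))) (XT.nd (nat_lit 234) (nat_lit 760) (nat_lit 0) (XT.nd (nat_lit 78) (nat_lit 304) (nat_lit 0) (XT.lf (nat_lit 0) (nat_lit 6035147235) (nat_lit 228) (nat_lit 2192769323) (nat_lit 304) (nat_lit 3816303631) (nat_lit 80) (nat_lit 5) (nat_lit 83) (nat_lit 5) (nat_lit 84) (nat_lit 4) (nat_lit 477) (nat_lit 340) (nat_lit 323)) (XT.nd (nat_lit 78) (nat_lit 0) (nat_lit 0) (XT.lf (nat_lit 0) (nat_lit 162436681) (nat_lit 304) (nat_lit 10557971775) (nat_lit 76) (nat_lit 1469368851) (nat_lit 76)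 (nat_lit 5) (nat_lit 80) (nat_lit 5) (nat_lit 77) (nat_lit 4) (nat_lit 478) (nat_lit 340) (nat_lit 322)) (XT.lf (nat_lit 0) (nat_lit 4169956201) (nat_lit 304) (nat_lit 2961217118) (nat_lit 76) (nat_lit 5206579040) (nat_lit 76) (nat_lit 5) (nat_lit 80) (nat_lit 5) (nat_lit 77) (nat_lit 4) (nat_lit 479) (nat_lit 340) (nat_lit 321)))) (XT.nd (nat_lit 156) (nat_lit 532) (nat_lit 0) (XT.nd (nat_lit 78) (nat_lit 0) (nat_lit 0) (XT.lf (nat_lit 0) (nat_lit 4761020194) (nat_lit 228) (nat_lit 3473737420) (nat_lit 304) (nat_lit 4254403724) (nat_lit 73) (nat_lit 5) (nat_lit 76) (nat_lit 5) (nat_lit 77) (nat_lit 4) (nat_lit 480) (nat_lit 340) (nat_lit 320)) (XT.lf (nat_lit 0) (nat_lit 12348999246) (nat_lit 304) (nat_lit 56322599) (nat_lit 0) (nat_lit 238930491) (nat_lit 73) (nat_lit 5) (nat_lit 77) (nat_lit 4) (nat_lit 73) (nat_lit 4) (nat_lit 481) (nat_lit 340) (nat_lit 319))) (XT.nd (nat_lit 78) (nat_lit 228) (nat_lit 0)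 (XT.lf (nat_lit 0) (nat_lit 3715024703) (nat_lit 304) (nat_lit 5066195539) (nat_lit 76) (nat_lit 4020334229) (nat_lit 69) (nat_lit 5) (nat_lit 73) (nat_lit 5) (nat_lit 70) (nat_lit 4) (nat_lit 482) (nat_lit 340) (nat_lit 318)) (XT.lf (nat_lit 0) (nat_lit 2667111336) (nat_lit 228) (nat_lit 5099772082) (nat_lit 304) (nat_lit 5195789379) (nat_lit 66) (nat_lit 5) (nat_lit 69) (nat_lit 5) (nat_lit 70) (nat_lit 4) (nat_lit 483) (nat_lit 340) (nat_lit 317)))))) (XT.nd (nat_lit 546) (nat_lit 912) (nat_lit 0) (XT.nd (nat_lit 234) (nat_lit 608) (nat_lit 0) (XT.nd (nat_lit 78) (nat_lit 304) (nat_lit 0) (XT.lf (nat_lit 0) (nat_lit 10536781011) (nat_lit 228) (nat_lit 1345085323) (nat_lit 304) (nat_lit 1245520867) (nat_lit 66) (nat_lit 5) (nat_lit 69) (nat_lit 5) (nat_lit 70) (nat_lit 4) (nat_lit 484) (nat_lit 340) (nat_lit 316)) (XT.nd (nat_lit 78) (nat_lit 0) (nat_lit 0) (XT.lf (nat_lit 0) (nat_lit 2746227545) (nat_lit 304)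 (nat_lit 8078607073) (nat_lit 76) (nat_lit 2470234964) (nat_lit 62) (nat_lit 5) (nat_lit 66) (nat_lit 5) (nat_lit 63) (nat_lit 4) (nat_lit 485) (nat_lit 340) (nat_lit 315)) (XT.lf (nat_lit 0) (nat_lit 6776537943) (nat_lit 304) (nat_lit 354447988) (nat_lit 76) (nat_lit 6335461490) (nat_lit 62) (nat_lit 5) (nat_lit 66) (nat_lit 5) (nat_lit 63) (nat_lit 4) (nat_lit 486) (nat_lit 340) (nat_lit 314)))) (XT.nd (nat_lit 156) (nat_lit 152) (nat_lit 0) (XT.nd (nat_lit 78) (nat_lit 304) (nat_lit 0) (XT.lf (nat_lit 0) (nat_lit 7538546479) (nat_lit 152) (nat_lit 3347835319) (nat_lit 228) (nat_lit 2754906748) (nat_lit 60) (nat_lit 5) (nat_lit 62) (nat_lit 5) (nat_lit 63) (nat_lit 4) (nat_lit 487) (nat_lit 340) (nat_lit 313)) (XT.lf (nat_lit 0) (nat_lit 1209056384) (nat_lit 304) (nat_lit 12119291808) (nat_lit 76) (nat_lit 491793167) (nat_lit 56) (nat_lit 5) (nat_lit 60) (nat_lit 5) (nat_lit 57) (nat_lit 4) (nat_lit 488) (nat_lit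 340) (nat_lit 312))) (XT.nd (nat_lit 78) (nat_lit 152) (nat_lit 0) (XT.lf (nat_lit 0) (nat_lit 5229123842) (nat_lit 304) (nat_lit 4384061834) (nat_lit 76) (nat_lit 4388760538) (nat_lit 56) (nat_lit 5) (nat_lit 60) (nat_lit 5) (nat_lit 57) (nat_lit 4) (nat_lit 489) (nat_lit 340) (nat_lit 311)) (XT.lf (nat_lit 0) (nat_lit 3468162017) (nat_lit 152) (nat_lit 5835206932) (nat_lit 228) (nat_lit 4884555877) (nat_lit 54) (nat_lit 5) (nat_lit 56) (nat_lit 5) (nat_lit 57) (nat_lit 4) (nat_lit 490) (nat_lit 340) (nat_lit 310))))) (XT.nd (nat_lit 312) (nat_lit 456) (nat_lit 0) (XT.nd (nat_lit 156) (nat_lit 152) (nat_lit 0) (XT.nd (nat_lit 78) (nat_lit 304) (nat_lit 0) (XT.lf (nat_lit 0) (nat_lit 11454208512) (nat_lit 152) (nat_lit 1985987602) (nat_lit 228) (nat_lit 937817880) (nat_lit 54) (nat_lit 5) (nat_lit 56) (nat_lit 5) (nat_lit 57) (nat_lit 4) (nat_lit 491) (nat_lit 340) (nat_lit 309)) (XT.lf (nat_lit 0) (nat_lit 3044790323)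 (nat_lit 304) (nat_lit 9592729784) (nat_lit 76) (nat_lit 1934047632) (nat_lit 50) (nat_lit 5) (nat_lit 54) (nat_lit 5) (nat_lit 51) (nat_lit 4) (nat_lit 492) (nat_lit 340) (nat_lit 308))) (XT.nd (nat_lit 78) (nat_lit 152) (nat_lit 0) (XT.lf (nat_lit 0) (nat_lit 7079895304) (nat_lit 304) (nat_lit 1790801501) (nat_lit 76) (nat_lit 5898475916) (nat_lit 50) (nat_lit 5) (nat_lit 54) (nat_lit 5) (nat_lit 51) (nat_lit 4) (nat_lit 493) (nat_lit 340) (nat_lit 307)) (XT.lf (nat_lit 0) (nat_lit 6167786706) (nat_lit 152) (nat_lit 5021380463) (nat_lit 228) (nat_lit 3781705283) (nat_lit 48) (nat_lit 5) (nat_lit 50) (nat_lit 5) (nat_lit 51) (nat_lit 4) (nat_lit 494) (nat_lit 340) (nat_lit 306)))) (XT.nd (nat_lit 156) (nat_lit 152) (nat_lit 0) (XT.nd (nat_lit 78) (nat_lit 228) (nat_lit 0) (XT.lf (nat_lit 0) (nat_lit 166936975) (nat_lit 228) (nat_lit 948320224) (nat_lit 76) (nat_lit 14062022075) (nat_lit 47) (nat_lit 5) (nat_lit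 50) (nat_lit 5) (nat_lit 48) (nat_lit 5) (nat_lit 495) (nat_lit 340) (nat_lit 305)) (XT.lf (nat_lit 0) (nat_lit 4163040177) (nat_lit 304) (nat_lit 8354010311) (nat_lit 76) (nat_lit 2869892555) (nat_lit 44) (nat_lit 5) (nat_lit 48) (nat_lit 5) (nat_lit 45) (nat_lit 4) (nat_lit 496) (nat_lit 340) (nat_lit 304))) (XT.nd (nat_lit 78) (nat_lit 152) (nat_lit 0) (XT.lf (nat_lit 0) (nat_lit 8207437524) (nat_lit 304) (nat_lit 500413031) (nat_lit 76) (nat_lit 6893593124) (nat_lit 44) (nat_lit 5) (nat_lit 48) (nat_lit 5) (nat_lit 45) (nat_lit 4) (nat_lit 497) (nat_lit 340) (nat_lit 303)) (XT.lf (nat_lit 0) (nat_lit 7531605391) (nat_lit 152) (nat_lit 4805488583) (nat_lit 228) (nat_lit 3483063748) (nat_lit 42) (nat_lit 5) (nat_lit 44) (nat_lit 5) (nat_lit 45) (nat_lit 4) (nat_lit 498) (nat_lit 340) (nat_lit 302))))))))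
noncomputable def xc24 : XT := (XT.nd (nat_lit 2184) (nat_lit 304) (nat_lit 0) (XT.nd (nat_lit 1092) (nat_lit 912) (nat_lit 0) (XT.nd (nat_lit 546) (nat_lit 456) (nat_lit 0) (XT.nd (nat_lit 234) (nat_lit 380) (nat_lit 0) (XT.nd (nat_lit 78) (nat_lit 152) (nat_lit 0) (XT.lf (nat_lit 0) (nat_lit 458382020) (nat_lit 228) (nat_lit 392960615) (nat_lit 76) (nat_lit 15192669649) (nat_lit 41) (nat_lit 5) (nat_lit 44) (nat_lit 5) (nat_lit 42) (nat_lit 5) (nat_lit 499) (nat_lit 340) (nat_lit 301)) (XT.nd (nat_lit 78) (nat_lit 0) (nat_lit 0) (XT.lf (nat_lit 0) (nat_lit 4459152818) (nat_lit 228) (nat_lit 8630736909) (nat_lit 76) (nat_lit 3181461254) (nat_lit 39) (nat_lit 5) (nat_lit 42) (nat_lit 5) (nat_lit 40) (nat_lit 4) (nat_lit 500) (nat_lit 340) (nat_lit 300)) (XT.lf (nat_lit 0) (nat_lit 8504799885) (nat_lit 228) (nat_lit 744818083) (nat_lit 76) (nat_lit 7254331261) (nat_lit 39) (nat_lit 5) (nat_lit 42) (nat_lit 5) (nat_lit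 40) (nat_lit 4) (nat_lit 501) (nat_lit 340) (nat_lit 299)))) (XT.nd (nat_lit 156) (nat_lit 228) (nat_lit 0) (XT.nd (nat_lit 78) (nat_lit 0) (nat_lit 0) (XT.lf (nat_lit 0) (nat_lit 7320151859) (nat_lit 152) (nat_lit 5316155302) (nat_lit 228) (nat_lit 4104803134) (nat_lit 37) (nat_lit 5) (nat_lit 39) (nat_lit 5) (nat_lit 40) (nat_lit 4) (nat_lit 502) (nat_lit 340) (nat_lit 298)) (XT.lf (nat_lit 0) (nat_lit 15482336305) (nat_lit 152) (nat_lit 1330879655) (nat_lit 228) (nat_lit 170552800) (nat_lit 37) (nat_lit 5) (nat_lit 39) (nat_lit 5) (nat_lit 40) (nat_lit 4) (nat_lit 503) (nat_lit 340) (nat_lit 297))) (XT.nd (nat_lit 78) (nat_lit 0) (nat_lit 0) (XT.lf (nat_lit 0) (nat_lit 3810920672) (nat_lit 228) (nat_lit 10684426268) (nat_lit 76) (nat_lit 2735065106) (nat_lit 34) (nat_lit 5) (nat_lit 37) (nat_lit 5) (nat_lit 35) (nat_lit 4) (nat_lit 504) (nat_lit 340) (nat_lit 296)) (XT.lf (nat_lit 0) (nat_lit 7847155979) (nat_lit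 228) (nat_lit 2790531036) (nat_lit 76) (nat_lit 6844739366) (nat_lit 34) (nat_lit 5) (nat_lit 37) (nat_lit 5) (nat_lit 35) (nat_lit 4) (nat_lit 505) (nat_lit 340) (nat_lit 295))))) (XT.nd (nat_lit 234) (nat_lit 76) (nat_lit 0) (XT.nd (nat_lit 78) (nat_lit 228) (nat_lit 0) (XT.lf (nat_lit 0) (nat_lit 5258205341) (nat_lit 152) (nat_lit 6699322989) (nat_lit 228) (nat_lit 5782093300) (nat_lit 32) (nat_lit 5) (nat_lit 34) (nat_lit 5) (nat_lit 35) (nat_lit 4) (nat_lit 506) (nat_lit 340) (nat_lit 294)) (XT.nd (nat_lit 78) (nat_lit 228) (nat_lit 0) (XT.lf (nat_lit 0) (nat_lit 13434217439) (nat_lit 152) (nat_lit 2694223390) (nat_lit 228) (nat_lit 1873962000) (nat_lit 32) (nat_lit 5) (nat_lit 34) (nat_lit 5) (nat_lit 35) (nat_lit 4) (nat_lit 507) (nat_lit 340) (nat_lit 293)) (XT.lf (nat_lit 0) (nat_lit 2076320450) (nat_lit 228) (nat_lit 14815222202) (nat_lit 76) (nat_lit 1378797228) (nat_lit 29) (nat_lit 5) (nat_lit 32)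 (nat_lit 5) (nat_lit 30) (nat_lit 4) (nat_lit 508) (nat_lit 340) (nat_lit 292)))) (XT.nd (nat_lit 156) (nat_lit 0) (nat_lit 0) (XT.nd (nat_lit 78) (nat_lit 76) (nat_lit 0) (XT.lf (nat_lit 0) (nat_lit 6089495287) (nat_lit 228) (nat_lit 6943465108) (nat_lit 76) (nat_lit 5510256153) (nat_lit 29) (nat_lit 5) (nat_lit 32) (nat_lit 5) (nat_lit 30) (nat_lit 4) (nat_lit 509) (nat_lit 340) (nat_lit 291)) (XT.lf (nat_lit 0) (nat_lit 1029825229) (nat_lit 76) (nat_lit 9120829165) (nat_lit 152) (nat_lit 8671549979) (nat_lit 28) (nat_lit 5) (nat_lit 29) (nat_lit 5) (nat_lit 30) (nat_lit 4) (nat_lit 510) (nat_lit 340) (nat_lit 290))) (XT.nd (nat_lit 78) (nat_lit 0) (nat_lit 0) (XT.lf (nat_lit 0) (nat_lit 9187750264) (nat_lit 76) (nat_lit 5113231539) (nat_lit 152) (nat_lit 4805639129) (nat_lit 28) (nat_lit 5) (nat_lit 29) (nat_lit 5) (nat_lit 30) (nat_lit 4) (nat_lit 511) (nat_lit 340) (nat_lit 289)) (XT.lf (nat_lit 0) (nat_lit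 17441234185) (nat_lit 76) (nat_lit 1055190216) (nat_lit 152) (nat_lit 901066972) (nat_lit 28) (nat_lit 5) (nat_lit 29) (nat_lit 5) (nat_lit 30) (nat_lit 4) (nat_lit 512) (nat_lit 340) (nat_lit 288)))))) (XT.nd (nat_lit 546) (nat_lit 380) (nat_lit 0) (XT.nd (nat_lit 234) (nat_lit 228) (nat_lit 0) (XT.nd (nat_lit 78) (nat_lit 76) (nat_lit 0) (XT.lf (nat_lit 0) (nat_lit 3064001373) (nat_lit 228) (nat_lit 13554358228) (nat_lit 76) (nat_lit 3074970485) (nat_lit 25) (nat_lit 5) (nat_lit 28) (nat_lit 5) (nat_lit 26) (nat_lit 4) (nat_lit 513) (nat_lit 340) (nat_lit 287)) (XT.nd (nat_lit 78) (nat_lit 76) (nat_lit 0) (XT.lf (nat_lit 0) (nat_lit 7079230469) (nat_lit 228) (nat_lit 5652140930) (nat_lit 76) (nat_lit 7263943837) (nat_lit 25) (nat_lit 5) (nat_lit 28) (nat_lit 5) (nat_lit 26) (nat_lit 4) (nat_lit 514) (nat_lit 340) (nat_lit 286)) (XT.lf (nat_lit 0) (nat_lit 2373664798) (nat_lit 76) (nat_lit 8779952838) (nat_lit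 152) (nat_lit 9150152522) (nat_lit 24) (nat_lit 5) (nat_lit 25) (nat_lit 5) (nat_lit 26) (nat_lit 4) (nat_lit 515) (nat_lit 340) (nat_lit 285)))) (XT.nd (nat_lit 156) (nat_lit 228) (nat_lit 0) (XT.nd (nat_lit 78) (nat_lit 0) (nat_lit 0) (XT.lf (nat_lit 0) (nat_lit 10571447438) (nat_lit 76) (nat_lit 4739709823) (nat_lit 152) (nat_lit 5307210619) (nat_lit 24) (nat_lit 5) (nat_lit 25) (nat_lit 5) (nat_lit 26) (nat_lit 4) (nat_lit 516) (nat_lit 340) (nat_lit 284)) (XT.lf (nat_lit 0) (nat_lit 18869307826) (nat_lit 76) (nat_lit 646986786) (nat_lit 152) (nat_lit 1423680866) (nat_lit 24) (nat_lit 5) (nat_lit 25) (nat_lit 5) (nat_lit 26) (nat_lit 4) (nat_lit 517) (nat_lit 340) (nat_lit 283))) (XT.nd (nat_lit 78) (nat_lit 0) (nat_lit 0) (XT.lf (nat_lit 0) (nat_lit 2531616094) (nat_lit 228) (nat_lit 15225616937) (nat_lit 76) (nat_lit 3509911753) (nat_lit 21) (nat_lit 5) (nat_lit 24) (nat_lit 5) (nat_lit 22) (nat_lit 4) (nat_lit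 518) (nat_lit 340) (nat_lit 282)) (XT.lf (nat_lit 0) (nat_lit 6530252449) (nat_lit 228) (nat_lit 7333553915) (nat_lit 76) (nat_lit 7737203434) (nat_lit 21) (nat_lit 5) (nat_lit 24) (nat_lit 5) (nat_lit 22) (nat_lit 4) (nat_lit 519) (nat_lit 340) (nat_lit 281))))) (XT.nd (nat_lit 234) (nat_lit 304) (nat_lit 0) (XT.nd (nat_lit 78) (nat_lit 0) (nat_lit 0) (XT.lf (nat_lit 0) (nat_lit 663081114) (nat_lit 76) (nat_lit 9915778472) (nat_lit 152) (nat_lit 11363298903) (nat_lit 20) (nat_lit 5) (nat_lit 21) (nat_lit 5) (nat_lit 22) (nat_lit 4) (nat_lit 520) (nat_lit 340) (nat_lit 280)) (XT.nd (nat_lit 78) (nat_lit 0) (nat_lit 0) (XT.lf (nat_lit 0) (nat_lit 8857499085) (nat_lit 76) (nat_lit 5866117693) (nat_lit 152) (nat_lit 7566216030) (nat_lit 20) (nat_lit 5) (nat_lit 21) (nat_lit 5) (nat_lit 22) (nat_lit 4) (nat_lit 521) (nat_lit 340) (nat_lit 279)) (XT.lf (nat_lit 0) (nat_lit 17155454424) (nat_lit 76) (nat_lit 1762447931)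 (nat_lit 152) (nat_lit 3727231686) (nat_lit 20) (nat_lit 5) (nat_lit 21) (nat_lit 5) (nat_lit 22) (nat_lit 4) (nat_lit 522) (nat_lit 340) (nat_lit 278)))) (XT.nd (nat_lit 156) (nat_lit 76) (nat_lit 0) (XT.nd (nat_lit 78) (nat_lit 0) (nat_lit 0) (XT.lf (nat_lit 0) (nat_lit 185587203) (nat_lit 228) (nat_lit 20438631751) (nat_lit 76) (nat_lit 2383313166) (nat_lit 17) (nat_lit 5) (nat_lit 20) (nat_lit 5) (nat_lit 18) (nat_lit 4) (nat_lit 523) (nat_lit 340) (nat_lit 277)) (XT.lf (nat_lit 0) (nat_lit 4142709840) (nat_lit 228) (nat_lit 12609680710) (nat_lit 76) (nat_lit 6623981512) (nat_lit 17) (nat_lit 5) (nat_lit 20) (nat_lit 5) (nat_lit 18) (nat_lit 4) (nat_lit 524) (nat_lit 340) (nat_lit 276))) (XT.nd (nat_lit 78) (nat_lit 76) (nat_lit 0) (XT.lf (nat_lit 0) (nat_lit 8146772875) (nat_lit 228) (nat_lit 4682685815) (nat_lit 76) (nat_lit 10923779780) (nat_lit 17) (nat_lit 5) (nat_lit 20) (nat_lit 5) (nat_lit 18) (nat_lit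 4) (nat_lit 525) (nat_lit 340) (nat_lit 275)) (XT.lf (nat_lit 0) (nat_lit 3389920981) (nat_lit 76) (nat_lit 8831435164) (nat_lit 152) (nat_lit 11916482800) (nat_lit 16) (nat_lit 5) (nat_lit 17) (nat_lit 5) (nat_lit 18) (nat_lit 4) (nat_lit 526) (nat_lit 340) (nat_lit 274))))))) (XT.nd (nat_lit 54600) (nat_lit 0) (nat_lit 4636) (XT.nd (nat_lit 54054) (nat_lit 0) (nat_lit 7676) (XT.nd (nat_lit 234) (nat_lit 152) (nat_lit 0) (XT.nd (nat_lit 78) (nat_lit 152) (nat_lit 0) (XT.lf (nat_lit 0) (nat_lit 11630445084) (nat_lit 76) (nat_lit 4747087529) (nat_lit 152) (nat_lit 8152602196) (nat_lit 16) (nat_lit 5) (nat_lit 17) (nat_lit 5) (nat_lit 18) (nat_lit 4) (nat_lit 527) (nat_lit 340) (nat_lit 273)) (XT.nd (nat_lit 78) (nat_lit 152) (nat_lit 0) (XT.lf (nat_lit 0) (nat_lit 19979887639) (nat_lit 76) (nat_lit 606237367) (nat_lit 152) (nat_lit 4344771037) (nat_lit 16) (nat_lit 5) (nat_lit 17) (nat_lit 5) (nat_lit 18) (nat_lit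 4) (nat_lit 528) (nat_lit 340) (nat_lit 272)) (XT.lf (nat_lit 0) (nat_lit 3118820574) (nat_lit 152) (nat_lit 21773539078) (nat_lit 152) (nat_lit 447048640) (nat_lit 14) (nat_lit 4) (nat_lit 16) (nat_lit 5) (nat_lit 16) (nat_lit 4) (nat_lit 529) (nat_lit 340) (nat_lit 271)))) (XT.nd (nat_lit 156) (nat_lit 76) (nat_lit 0) (XT.nd (nat_lit 78) (nat_lit 0) (nat_lit 0) (XT.lf (nat_lit 0) (nat_lit 3489575759) (nat_lit 228) (nat_lit 14420699432) (nat_lit 76) (nat_lit 7845217866) (nat_lit 13) (nat_lit 5) (nat_lit 16) (nat_lit 5) (nat_lit 14) (nat_lit 4) (nat_lit 530) (nat_lit 340) (nat_lit 270)) (XT.lf (nat_lit 0) (nat_lit 7469312494) (nat_lit 228) (nat_lit 6521976357) (nat_lit 76) (nat_lit 12189149150) (nat_lit 13) (nat_lit 5) (nat_lit 16) (nat_lit 5) (nat_lit 14) (nat_lit 4) (nat_lit 531) (nat_lit 340) (nat_lit 269))) (XT.nd (nat_lit 53586) (nat_lit 0) (nat_lit 9652) (XT.lf (nat_lit 0) (nat_lit 1501271020) (nat_lit 76)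 (nat_lit 10008061592) (nat_lit 152) (nat_lit 15104940261) (nat_lit 12) (nat_lit 5) (nat_lit 13) (nat_lit 5) (nat_lit 14) (nat_lit 4) (nat_lit 532) (nat_lit 340) (nat_lit 268)) (XT.lf (nat_lit 0) (nat_lit 2091627730) (nat_lit 380) (nat_lit 1403360523) (nat_lit 380) (nat_lit 1403360523) (nat_lit 139) (nat_lit 4) (nat_lit 144) (nat_lit 5) (nat_lit 144) (nat_lit 4) (nat_lit 458) (nat_lit 341) (nat_lit 341))))) (XT.nd (nat_lit 234) (nat_lit 1140) (nat_lit 0) (XT.nd (nat_lit 78) (nat_lit 380) (nat_lit 0) (XT.lf (nat_lit 0) (nat_lit 1178154447) (nat_lit 456) (nat_lit 8355487523) (nat_lit 0) (nat_lit 360419372) (nat_lit 133) (nat_lit 5) (nat_lit 139) (nat_lit 4) (nat_lit 133) (nat_lit 4) (nat_lit 459) (nat_lit 341) (nat_lit 340)) (XT.nd (nat_lit 78) (nat_lit 380) (nat_lit 0) (XT.lf (nat_lit 0) (nat_lit 5197922575) (nat_lit 456) (nat_lit 1216765342) (nat_lit 0) (nat_lit 3578486444) (nat_lit 133) (nat_lit 5) (nat_lit 139)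 (nat_lit 4) (nat_lit 133) (nat_lit 4) (nat_lit 460) (nat_lit 341) (nat_lit 339)) (XT.lf (nat_lit 0) (nat_lit 6049519390) (nat_lit 380) (nat_lit 3225330261) (nat_lit 380) (nat_lit 819912704) (nat_lit 128) (nat_lit 4) (nat_lit 133) (nat_lit 5) (nat_lit 133) (nat_lit 4) (nat_lit 461) (nat_lit 341) (nat_lit 338)))) (XT.nd (nat_lit 156) (nat_lit 380) (nat_lit 0) (XT.nd (nat_lit 78) (nat_lit 380) (nat_lit 0) (XT.lf (nat_lit 0) (nat_lit 3159504806) (nat_lit 380) (nat_lit 6993352675) (nat_lit 0) (nat_lit 45791489) (nat_lit 123) (nat_lit 5) (nat_lit 128) (nat_lit 4) (nat_lit 123) (nat_lit 4) (nat_lit 462) (nat_lit 341) (nat_lit 337)) (XT.lf (nat_lit 0) (nat_lit 232477469) (nat_lit 380) (nat_lit 6963324796) (nat_lit 380) (nat_lit 3108963627) (nat_lit 118) (nat_lit 4) (nat_lit 123) (nat_lit 5) (nat_lit 123) (nat_lit 4) (nat_lit 463) (nat_lit 341) (nat_lit 336))) (XT.nd (nat_lit 78) (nat_lit 304) (nat_lit 0) (XT.lf (nat_lit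 0) (nat_lit 873492951) (nat_lit 456) (nat_lit 2816030751) (nat_lit 76) (nat_lit 6723680478) (nat_lit 117) (nat_lit 5) (nat_lit 123) (nat_lit 5) (nat_lit 118) (nat_lit 4) (nat_lit 464) (nat_lit 341) (nat_lit 335)) (XT.lf (nat_lit 0) (nat_lit 4530621940) (nat_lit 304) (nat_lit 332247390) (nat_lit 380) (nat_lit 5661177755) (nat_lit 113) (nat_lit 5) (nat_lit 117) (nat_lit 5) (nat_lit 118) (nat_lit 4) (nat_lit 465) (nat_lit 341) (nat_lit 334)))))) (XT.nd (nat_lit 546) (nat_lit 1368) (nat_lit 0) (XT.nd (nat_lit 234) (nat_lit 988) (nat_lit 0) (XT.nd (nat_lit 78) (nat_lit 380) (nat_lit 0) (XT.lf (nat_lit 0) (nat_lit 1328923234) (nat_lit 304) (nat_lit 7590651670) (nat_lit 304) (nat_lit 1717805473) (nat_lit 109) (nat_lit 4) (nat_lit 113) (nat_lit 5) (nat_lit 113) (nat_lit 4) (nat_lit 466) (nat_lit 341) (nat_lit 333)) (XT.nd (nat_lit 78) (nat_lit 304) (nat_lit 0) (XT.lf (nat_lit 0) (nat_lit 2256867411) (nat_lit 380) (nat_lit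 1984801605) (nat_lit 76) (nat_lit 6511382372) (nat_lit 108) (nat_lit 5) (nat_lit 113) (nat_lit 5) (nat_lit 109) (nat_lit 4) (nat_lit 467) (nat_lit 341) (nat_lit 332)) (XT.lf (nat_lit 0) (nat_lit 5453158128) (nat_lit 304) (nat_lit 811448803) (nat_lit 380) (nat_lit 4606693260) (nat_lit 104) (nat_lit 5) (nat_lit 108) (nat_lit 5) (nat_lit 109) (nat_lit 4) (nat_lit 468) (nat_lit 341) (nat_lit 331)))) (XT.nd (nat_lit 156) (nat_lit 608) (nat_lit 0) (XT.nd (nat_lit 78) (nat_lit 76) (nat_lit 0) (XT.lf (nat_lit 0) (nat_lit 1991034301) (nat_lit 304) (nat_lit 8346738761) (nat_lit 304) (nat_lit 654457977) (nat_lit 100) (nat_lit 4) (nat_lit 104) (nat_lit 5) (nat_lit 104) (nat_lit 4) (nat_lit 469) (nat_lit 341) (nat_lit 330)) (XT.lf (nat_lit 0) (nat_lit 3316140686) (nat_lit 380) (nat_lit 1613417588) (nat_lit 76) (nat_lit 6185933247) (nat_lit 99) (nat_lit 5) (nat_lit 104) (nat_lit 5) (nat_lit 100) (nat_lit 4) (nat_lit 470) (nat_lit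 341) (nat_lit 329))) (XT.nd (nat_lit 78) (nat_lit 380) (nat_lit 0) (XT.lf (nat_lit 0) (nat_lit 5904174549) (nat_lit 228) (nat_lit 1434333139) (nat_lit 304) (nat_lit 3903021824) (nat_lit 96) (nat_lit 5) (nat_lit 99) (nat_lit 5) (nat_lit 100) (nat_lit 4) (nat_lit 471) (nat_lit 341) (nat_lit 328)) (XT.lf (nat_lit 0) (nat_lit 51924226) (nat_lit 380) (nat_lit 9223825488) (nat_lit 76) (nat_lit 2094717189) (nat_lit 91) (nat_lit 5) (nat_lit 96) (nat_lit 5) (nat_lit 92) (nat_lit 4) (nat_lit 472) (nat_lit 341) (nat_lit 327))))) (XT.nd (nat_lit 312) (nat_lit 760) (nat_lit 0) (XT.nd (nat_lit 156) (nat_lit 380) (nat_lit 0) (XT.nd (nat_lit 78) (nat_lit 228) (nat_lit 0) (XT.lf (nat_lit 0) (nat_lit 4022535241) (nat_lit 380) (nat_lit 1775736118) (nat_lit 76) (nat_lit 5703439140) (nat_lit 91) (nat_lit 5) (nat_lit 96) (nat_lit 5) (nat_lit 92) (nat_lit 4) (nat_lit 473) (nat_lit 341) (nat_lit 326)) (XT.lf (nat_lit 0) (nat_lit 5807727106)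 (nat_lit 228) (nat_lit 2246878300) (nat_lit 304) (nat_lit 3581352215) (nat_lit 88) (nat_lit 5) (nat_lit 91) (nat_lit 5) (nat_lit 92) (nat_lit 4) (nat_lit 474) (nat_lit 341) (nat_lit 325))) (XT.nd (nat_lit 78) (nat_lit 0) (nat_lit 0) (XT.lf (nat_lit 0) (nat_lit 365790614) (nat_lit 380) (nat_lit 10058052056) (nat_lit 76) (nat_lit 1349483905) (nat_lit 83) (nat_lit 5) (nat_lit 88) (nat_lit 5) (nat_lit 84) (nat_lit 4) (nat_lit 475) (nat_lit 341) (nat_lit 324)) (XT.lf (nat_lit 0) (nat_lit 4342970021) (nat_lit 380) (nat_lit 2553092623) (nat_lit 76) (nat_lit 5016944313) (nat_lit 83) (nat_lit 5) (nat_lit 88) (nat_lit 5) (nat_lit 84) (nat_lit 4) (nat_lit 476) (nat_lit 341) (nat_lit 323)))) (XT.nd (nat_lit 156) (nat_lit 228) (nat_lit 0) (XT.nd (nat_lit 78) (nat_lit 304) (nat_lit 0) (XT.lf (nat_lit 0) (nat_lit 5080133832) (nat_lit 228) (nat_lit 3298379749) (nat_lit 304) (nat_lit 3677409054) (nat_lit 80) (nat_lit 5) (nat_lit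 83) (nat_lit 5) (nat_lit 84) (nat_lit 4) (nat_lit 477) (nat_lit 341) (nat_lit 322)) (XT.lf (nat_lit 0) (nat_lit 258772846) (nat_lit 304) (nat_lit 11587932842) (nat_lit 76) (nat_lit 355579380) (nat_lit 76) (nat_lit 5) (nat_lit 80) (nat_lit 5) (nat_lit 77) (nat_lit 4) (nat_lit 478) (nat_lit 341) (nat_lit 321))) (XT.nd (nat_lit 78) (nat_lit 228) (nat_lit 0) (XT.lf (nat_lit 0) (nat_lit 4239668505) (nat_lit 304) (nat_lit 4035185151) (nat_lit 76) (nat_lit 4075947383) (nat_lit 76) (nat_lit 5) (nat_lit 80) (nat_lit 5) (nat_lit 77) (nat_lit 4) (nat_lit 479) (nat_lit 341) (nat_lit 320)) (XT.lf (nat_lit 0) (nat_lit 3629062244) (nat_lit 228) (nat_lit 4641956429) (nat_lit 304) (nat_lit 4231868651) (nat_lit 73) (nat_lit 5) (nat_lit 76) (nat_lit 5) (nat_lit 77) (nat_lit 4) (nat_lit 480) (nat_lit 341) (nat_lit 319))))))))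
noncomputable def xc25 : XT := (XT.nd (nat_lit 2184) (nat_lit 1216) (nat_lit 0) (XT.nd (nat_lit 1092) (nat_lit 1444) (nat_lit 0) (XT.nd (nat_lit 546) (nat_lit 912) (nat_lit 0) (XT.nd (nat_lit 234) (nat_lit 456) (nat_lit 0) (XT.nd (nat_lit 78) (nat_lit 532) (nat_lit 0) (XT.lf (nat_lit 0) (nat_lit 11414714894) (nat_lit 228) (nat_lit 943105198) (nat_lit 304) (nat_lit 300715149) (nat_lit 73) (nat_lit 5) (nat_lit 76) (nat_lit 5) (nat_lit 77) (nat_lit 4) (nat_lit 481) (nat_lit 341) (nat_lit 318)) (XT.nd (nat_lit 78) (nat_lit 228) (nat_lit 0) (XT.lf (nat_lit 0) (nat_lit 3669720058) (nat_lit 304) (nat_lit 6321046246) (nat_lit 76) (nat_lit 2825877867) (nat_lit 69) (nat_lit 5) (nat_lit 73) (nat_lit 5) (nat_lit 70) (nat_lit 4) (nat_lit 482) (nat_lit 341) (nat_lit 317)) (XT.lf (nat_lit 0) (nat_lit 1352526426) (nat_lit 228) (nat_lit 6335098823) (nat_lit 304) (nat_lit 5290823968) (nat_lit 66) (nat_lit 5) (nat_lit 69) (nat_lit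 5) (nat_lit 70) (nat_lit 4) (nat_lit 483) (nat_lit 341) (nat_lit 316)))) (XT.nd (nat_lit 156) (nat_lit 152) (nat_lit 0) (XT.nd (nat_lit 78) (nat_lit 304) (nat_lit 0) (XT.lf (nat_lit 0) (nat_lit 9179982475) (nat_lit 228) (nat_lit 2597431642) (nat_lit 304) (nat_lit 1366260882) (nat_lit 66) (nat_lit 5) (nat_lit 69) (nat_lit 5) (nat_lit 70) (nat_lit 4) (nat_lit 484) (nat_lit 341) (nat_lit 315)) (XT.lf (nat_lit 0) (nat_lit 2584590095) (nat_lit 304) (nat_lit 9520111655) (nat_lit 76) (nat_lit 1207528135) (nat_lit 62) (nat_lit 5) (nat_lit 66) (nat_lit 5) (nat_lit 63) (nat_lit 4) (nat_lit 485) (nat_lit 341) (nat_lit 314))) (XT.nd (nat_lit 78) (nat_lit 152) (nat_lit 0) (XT.lf (nat_lit 0) (nat_lit 6590139110) (nat_lit 304) (nat_lit 1837792764) (nat_lit 76) (nat_lit 5056178144) (nat_lit 62) (nat_lit 5) (nat_lit 66) (nat_lit 5) (nat_lit 63) (nat_lit 4) (nat_lit 486) (nat_lit 341) (nat_lit 313)) (XT.lf (nat_lit 0) (nat_lit 5993923902)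 (nat_lit 152) (nat_lit 4671754480) (nat_lit 228) (nat_lit 2993965778) (nat_lit 60) (nat_lit 5) (nat_lit 62) (nat_lit 5) (nat_lit 63) (nat_lit 4) (nat_lit 487) (nat_lit 341) (nat_lit 312))))) (XT.nd (nat_lit 234) (nat_lit 456) (nat_lit 0) (XT.nd (nat_lit 78) (nat_lit 152) (nat_lit 0) (XT.lf (nat_lit 0) (nat_lit 80348636) (nat_lit 228) (nat_lit 854775229) (nat_lit 304) (nat_lit 12904170986) (nat_lit 56) (nat_lit 5) (nat_lit 59) (nat_lit 5) (nat_lit 60) (nat_lit 5) (nat_lit 488) (nat_lit 341) (nat_lit 311)) (XT.nd (nat_lit 78) (nat_lit 152) (nat_lit 0) (XT.lf (nat_lit 0) (nat_lit 4925512195) (nat_lit 304) (nat_lit 6059352756) (nat_lit 76) (nat_lit 3036834865) (nat_lit 56) (nat_lit 5) (nat_lit 60) (nat_lit 5) (nat_lit 57) (nat_lit 4) (nat_lit 489) (nat_lit 341) (nat_lit 310)) (XT.lf (nat_lit 0) (nat_lit 1729692041) (nat_lit 152) (nat_lit 7235121726) (nat_lit 228) (nat_lit 5243569931) (nat_lit 54) (nat_lit 5) (nat_lit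 56) (nat_lit 5) (nat_lit 57) (nat_lit 4) (nat_lit 490) (nat_lit 341) (nat_lit 309)))) (XT.nd (nat_lit 156) (nat_lit 152) (nat_lit 0) (XT.nd (nat_lit 78) (nat_lit 304) (nat_lit 0) (XT.lf (nat_lit 0) (nat_lit 9675625477) (nat_lit 152) (nat_lit 3402562626) (nat_lit 228) (nat_lit 1320760094) (nat_lit 54) (nat_lit 5) (nat_lit 56) (nat_lit 5) (nat_lit 57) (nat_lit 4) (nat_lit 491) (nat_lit 341) (nat_lit 308)) (XT.lf (nat_lit 0) (nat_lit 2622234902) (nat_lit 304) (nat_lit 11466103093) (nat_lit 76) (nat_lit 505112417) (nat_lit 50) (nat_lit 5) (nat_lit 54) (nat_lit 5) (nat_lit 51) (nat_lit 4) (nat_lit 492) (nat_lit 341) (nat_lit 307))) (XT.nd (nat_lit 78) (nat_lit 152) (nat_lit 0) (XT.lf (nat_lit 0) (nat_lit 6634280191) (nat_lit 304) (nat_lit 3703912569) (nat_lit 76) (nat_lit 4453329741) (nat_lit 50) (nat_lit 5) (nat_lit 54) (nat_lit 5) (nat_lit 51) (nat_lit 4) (nat_lit 493) (nat_lit 341) (nat_lit 306)) (XT.lf (nat_lit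 0) (nat_lit 4189775073) (nat_lit 152) (nat_lit 6518326878) (nat_lit 228) (nat_lit 4285835077) (nat_lit 48) (nat_lit 5) (nat_lit 50) (nat_lit 5) (nat_lit 51) (nat_lit 4) (nat_lit 494) (nat_lit 341) (nat_lit 305)))))) (XT.nd (nat_lit 546) (nat_lit 760) (nat_lit 0) (XT.nd (nat_lit 234) (nat_lit 380) (nat_lit 0) (XT.nd (nat_lit 78) (nat_lit 304) (nat_lit 0) (XT.lf (nat_lit 0) (nat_lit 12213365372) (nat_lit 152) (nat_lit 2629610593) (nat_lit 228) (nat_lit 357843845) (nat_lit 48) (nat_lit 5) (nat_lit 50) (nat_lit 5) (nat_lit 51) (nat_lit 4) (nat_lit 495) (nat_lit 341) (nat_lit 304)) (XT.nd (nat_lit 78) (nat_lit 0) (nat_lit 0) (XT.lf (nat_lit 0) (nat_lit 3597131205) (nat_lit 304) (nat_lit 10470905891) (nat_lit 76) (nat_lit 1343414838) (nat_lit 44) (nat_lit 5) (nat_lit 48) (nat_lit 5) (nat_lit 45) (nat_lit 4) (nat_lit 496) (nat_lit 341) (nat_lit 303)) (XT.lf (nat_lit 0) (nat_lit 7619484483) (nat_lit 304) (nat_lit 2655639880)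 (nat_lit 76) (nat_lit 5351274445) (nat_lit 44) (nat_lit 5) (nat_lit 48) (nat_lit 5) (nat_lit 45) (nat_lit 4) (nat_lit 497) (nat_lit 341) (nat_lit 302)))) (XT.nd (nat_lit 156) (nat_lit 228) (nat_lit 0) (XT.nd (nat_lit 78) (nat_lit 0) (nat_lit 0) (XT.lf (nat_lit 0) (nat_lit 5309657623) (nat_lit 152) (nat_lit 6403445119) (nat_lit 228) (nat_lit 4132736123) (nat_lit 42) (nat_lit 5) (nat_lit 44) (nat_lit 5) (nat_lit 45) (nat_lit 4) (nat_lit 498) (nat_lit 341) (nat_lit 301)) (XT.lf (nat_lit 0) (nat_lit 13394847446) (nat_lit 152) (nat_lit 2468277136) (nat_lit 228) (nat_lit 207062913) (nat_lit 42) (nat_lit 5) (nat_lit 44) (nat_lit 5) (nat_lit 45) (nat_lit 4) (nat_lit 499) (nat_lit 341) (nat_lit 300))) (XT.nd (nat_lit 78) (nat_lit 0) (nat_lit 0) (XT.lf (nat_lit 0) (nat_lit 3749309446) (nat_lit 228) (nat_lit 10995687297) (nat_lit 76) (nat_lit 1553503568) (nat_lit 39) (nat_lit 5) (nat_lit 42) (nat_lit 5) (nat_lit 40) (nat_lit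 4) (nat_lit 500) (nat_lit 341) (nat_lit 299)) (XT.lf (nat_lit 0) (nat_lit 7773877298) (nat_lit 228) (nat_lit 3146734989) (nat_lit 76) (nat_lit 5610912705) (nat_lit 39) (nat_lit 5) (nat_lit 42) (nat_lit 5) (nat_lit 40) (nat_lit 4) (nat_lit 501) (nat_lit 341) (nat_lit 298))))) (XT.nd (nat_lit 234) (nat_lit 380) (nat_lit 0) (XT.nd (nat_lit 78) (nat_lit 228) (nat_lit 0) (XT.lf (nat_lit 0) (nat_lit 4849591424) (nat_lit 152) (nat_lit 7019086737) (nat_lit 228) (nat_lit 4900746781) (nat_lit 37) (nat_lit 5) (nat_lit 39) (nat_lit 5) (nat_lit 40) (nat_lit 4) (nat_lit 502) (nat_lit 341) (nat_lit 297)) (XT.nd (nat_lit 78) (nat_lit 228) (nat_lit 0) (XT.lf (nat_lit 0) (nat_lit 12975772616) (nat_lit 152) (nat_lit 3049319903) (nat_lit 228) (nat_lit 987405438) (nat_lit 37) (nat_lit 5) (nat_lit 39) (nat_lit 5) (nat_lit 40) (nat_lit 4) (nat_lit 503) (nat_lit 341) (nat_lit 296)) (XT.lf (nat_lit 0) (nat_lit 2956268600) (nat_lit 228)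 (nat_lit 13302259352) (nat_lit 76) (nat_lit 1001694096) (nat_lit 34) (nat_lit 5) (nat_lit 37) (nat_lit 5) (nat_lit 35) (nat_lit 4) (nat_lit 504) (nat_lit 341) (nat_lit 295)))) (XT.nd (nat_lit 156) (nat_lit 228) (nat_lit 0) (XT.nd (nat_lit 78) (nat_lit 152) (nat_lit 0) (XT.lf (nat_lit 0) (nat_lit 6972341819) (nat_lit 228) (nat_lit 5444007222) (nat_lit 76) (nat_lit 5096294976) (nat_lit 34) (nat_lit 5) (nat_lit 37) (nat_lit 5) (nat_lit 35) (nat_lit 4) (nat_lit 505) (nat_lit 341) (nat_lit 294)) (XT.lf (nat_lit 0) (nat_lit 2534057244) (nat_lit 152) (nat_lit 8511203197) (nat_lit 228) (nat_lit 6725332207) (nat_lit 32) (nat_lit 5) (nat_lit 34) (nat_lit 5) (nat_lit 35) (nat_lit 4) (nat_lit 506) (nat_lit 341) (nat_lit 293))) (XT.nd (nat_lit 78) (nat_lit 228) (nat_lit 0) (XT.lf (nat_lit 0) (nat_lit 10675355021) (nat_lit 152) (nat_lit 4521213361) (nat_lit 228) (nat_lit 2837201779) (nat_lit 32) (nat_lit 5) (nat_lit 34) (nat_lit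 5) (nat_lit 35) (nat_lit 4) (nat_lit 507) (nat_lit 341) (nat_lit 292)) (XT.lf (nat_lit 0) (nat_lit 608646162) (nat_lit 152) (nat_lit 470103756) (nat_lit 228) (nat_lit 17224025706) (nat_lit 29) (nat_lit 5) (nat_lit 31) (nat_lit 5) (nat_lit 32) (nat_lit 5) (nat_lit 508) (nat_lit 341) (nat_lit 291))))))) (XT.nd (nat_lit 1092) (nat_lit 532) (nat_lit 0) (XT.nd (nat_lit 546) (nat_lit 380) (nat_lit 0) (XT.nd (nat_lit 234) (nat_lit 228) (nat_lit 0) (XT.nd (nat_lit 78) (nat_lit 76) (nat_lit 0) (XT.lf (nat_lit 0) (nat_lit 5069582662) (nat_lit 228) (nat_lit 9853680659) (nat_lit 76) (nat_lit 3652839794) (nat_lit 29) (nat_lit 5) (nat_lit 32) (nat_lit 5) (nat_lit 30) (nat_lit 4) (nat_lit 509) (nat_lit 341) (nat_lit 290)) (XT.nd (nat_lit 78) (nat_lit 76) (nat_lit 0) (XT.lf (nat_lit 0) (nat_lit 9105143824) (nat_lit 228) (nat_lit 1927583444) (nat_lit 76) (nat_lit 7822879532) (nat_lit 29) (nat_lit 5) (nat_lit 32) (nat_lit 5) (nat_lit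 30) (nat_lit 4) (nat_lit 510) (nat_lit 341) (nat_lit 289)) (XT.lf (nat_lit 0) (nat_lit 6171259865) (nat_lit 76) (nat_lit 7052771799) (nat_lit 152) (nat_lit 5916624309) (nat_lit 28) (nat_lit 5) (nat_lit 29) (nat_lit 5) (nat_lit 30) (nat_lit 4) (nat_lit 511) (nat_lit 341) (nat_lit 288)))) (XT.nd (nat_lit 156) (nat_lit 0) (nat_lit 0) (XT.nd (nat_lit 78) (nat_lit 228) (nat_lit 0) (XT.lf (nat_lit 0) (nat_lit 14391934810) (nat_lit 76) (nat_lit 3009149161) (nat_lit 152) (nat_lit 2030814000) (nat_lit 28) (nat_lit 5) (nat_lit 29) (nat_lit 5) (nat_lit 30) (nat_lit 4) (nat_lit 512) (nat_lit 341) (nat_lit 287)) (XT.lf (nat_lit 0) (nat_lit 1897502951) (nat_lit 228) (nat_lit 16726819724) (nat_lit 76) (nat_lit 1104595678) (nat_lit 25) (nat_lit 5) (nat_lit 28) (nat_lit 5) (nat_lit 26) (nat_lit 4) (nat_lit 513) (nat_lit 341) (nat_lit 286))) (XT.nd (nat_lit 78) (nat_lit 0) (nat_lit 0) (XT.lf (nat_lit 0) (nat_lit 5894634068) (nat_lit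 228) (nat_lit 8857071216) (nat_lit 76) (nat_lit 5279563712) (nat_lit 25) (nat_lit 5) (nat_lit 28) (nat_lit 5) (nat_lit 26) (nat_lit 4) (nat_lit 514) (nat_lit 341) (nat_lit 285)) (XT.lf (nat_lit 0) (nat_lit 9935866714) (nat_lit 228) (nat_lit 894228674) (nat_lit 76) (nat_lit 9510295084) (nat_lit 25) (nat_lit 5) (nat_lit 28) (nat_lit 5) (nat_lit 26) (nat_lit 4) (nat_lit 515) (nat_lit 341) (nat_lit 284))))) (XT.nd (nat_lit 234) (nat_lit 76) (nat_lit 0) (XT.nd (nat_lit 78) (nat_lit 228) (nat_lit 0) (XT.lf (nat_lit 0) (nat_lit 7260047412) (nat_lit 76) (nat_lit 6809875315) (nat_lit 152) (nat_lit 6585538535) (nat_lit 24) (nat_lit 5) (nat_lit 25) (nat_lit 5) (nat_lit 26) (nat_lit 4) (nat_lit 516) (nat_lit 341) (nat_lit 283)) (XT.nd (nat_lit 78) (nat_lit 228) (nat_lit 0) (XT.lf (nat_lit 0) (nat_lit 15526905129) (nat_lit 76) (nat_lit 2730899529) (nat_lit 152) (nat_lit 2719612639) (nat_lit 24) (nat_lit 5) (nat_lit 25) (nat_lit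 5) (nat_lit 26) (nat_lit 4) (nat_lit 517) (nat_lit 341) (nat_lit 282)) (XT.lf (nat_lit 0) (nat_lit 1199444088) (nat_lit 228) (nat_lit 18697462496) (nat_lit 76) (nat_lit 1408916232) (nat_lit 21) (nat_lit 5) (nat_lit 24) (nat_lit 5) (nat_lit 22) (nat_lit 4) (nat_lit 518) (nat_lit 341) (nat_lit 281)))) (XT.nd (nat_lit 156) (nat_lit 76) (nat_lit 0) (XT.nd (nat_lit 78) (nat_lit 0) (nat_lit 0) (XT.lf (nat_lit 0) (nat_lit 5181096727) (nat_lit 228) (nat_lit 10836075554) (nat_lit 76) (nat_lit 5622858362) (nat_lit 21) (nat_lit 5) (nat_lit 24) (nat_lit 5) (nat_lit 22) (nat_lit 4) (nat_lit 519) (nat_lit 341) (nat_lit 280)) (XT.lf (nat_lit 0) (nat_lit 9208747999) (nat_lit 228) (nat_lit 2878211540) (nat_lit 76) (nat_lit 9894641987) (nat_lit 21) (nat_lit 5) (nat_lit 24) (nat_lit 5) (nat_lit 22) (nat_lit 4) (nat_lit 520) (nat_lit 341) (nat_lit 279))) (XT.nd (nat_lit 78) (nat_lit 0) (nat_lit 0) (XT.lf (nat_lit 0) (nat_lit 5248079785)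 (nat_lit 76) (nat_lit 8069971606) (nat_lit 152) (nat_lit 9011936546) (nat_lit 20) (nat_lit 5) (nat_lit 21) (nat_lit 5) (nat_lit 22) (nat_lit 4) (nat_lit 521) (nat_lit 341) (nat_lit 278)) (XT.lf (nat_lit 0) (nat_lit 13516744212) (nat_lit 76) (nat_lit 3979398443) (nat_lit 152) (nat_lit 5189473356) (nat_lit 20) (nat_lit 5) (nat_lit 21) (nat_lit 5) (nat_lit 22) (nat_lit 4) (nat_lit 522) (nat_lit 341) (nat_lit 277)))))) (XT.nd (nat_lit 546) (nat_lit 228) (nat_lit 0) (XT.nd (nat_lit 234) (nat_lit 76) (nat_lit 0) (XT.nd (nat_lit 78) (nat_lit 228) (nat_lit 0) (XT.lf (nat_lit 0) (nat_lit 21726809257) (nat_lit 152) (nat_lit 1157314084) (nat_lit 0) (nat_lit 164858892) (nat_lit 20) (nat_lit 5) (nat_lit 22) (nat_lit 4) (nat_lit 20) (nat_lit 4) (nat_lit 523) (nat_lit 341) (nat_lit 276)) (XT.nd (nat_lit 78) (nat_lit 0) (nat_lit 0) (XT.lf (nat_lit 0) (nat_lit 2628684253) (nat_lit 228) (nat_lit 16413220609) (nat_lit 76) (nat_lit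 4376563905) (nat_lit 17) (nat_lit 5) (nat_lit 20) (nat_lit 5) (nat_lit 18) (nat_lit 4) (nat_lit 524) (nat_lit 341) (nat_lit 275)) (XT.lf (nat_lit 0) (nat_lit 6617118259) (nat_lit 228) (nat_lit 8514635327) (nat_lit 76) (nat_lit 8663896903) (nat_lit 17) (nat_lit 5) (nat_lit 20) (nat_lit 5) (nat_lit 18) (nat_lit 4) (nat_lit 525) (nat_lit 341) (nat_lit 274)))) (XT.nd (nat_lit 156) (nat_lit 0) (nat_lit 0) (XT.nd (nat_lit 78) (nat_lit 76) (nat_lit 0) (XT.lf (nat_lit 0) (nat_lit 10654369335) (nat_lit 228) (nat_lit 514340514) (nat_lit 76) (nat_lit 13012290436) (nat_lit 17) (nat_lit 5) (nat_lit 20) (nat_lit 5) (nat_lit 18) (nat_lit 4) (nat_lit 526) (nat_lit 341) (nat_lit 273)) (XT.lf (nat_lit 0) (nat_lit 7691678951) (nat_lit 76) (nat_lit 7100281247) (nat_lit 152) (nat_lit 9781710286) (nat_lit 16) (nat_lit 5) (nat_lit 17) (nat_lit 5) (nat_lit 18) (nat_lit 4) (nat_lit 527) (nat_lit 341) (nat_lit 272))) (XT.nd (nat_lit 78)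 (nat_lit 0) (nat_lit 0) (XT.lf (nat_lit 0) (nat_lit 16013994721) (nat_lit 76) (nat_lit 2971654162) (nat_lit 152) (nat_lit 5989083484) (nat_lit 16) (nat_lit 5) (nat_lit 17) (nat_lit 5) (nat_lit 18) (nat_lit 4) (nat_lit 528) (nat_lit 341) (nat_lit 271)) (XT.lf (nat_lit 0) (nat_lit 23241586939) (nat_lit 152) (nat_lit 943266542) (nat_lit 0) (nat_lit 1199399591) (nat_lit 16) (nat_lit 5) (nat_lit 18) (nat_lit 4) (nat_lit 16) (nat_lit 4) (nat_lit 529) (nat_lit 341) (nat_lit 270))))) (XT.nd (nat_lit 53664) (nat_lit 0) (nat_lit 9120) (XT.nd (nat_lit 156) (nat_lit 0) (nat_lit 0) (XT.nd (nat_lit 78) (nat_lit 0) (nat_lit 0) (XT.lf (nat_lit 0) (nat_lit 1795276644) (nat_lit 228) (nat_lit 18556073654) (nat_lit 76) (nat_lit 5449628545) (nat_lit 13) (nat_lit 5) (nat_lit 16) (nat_lit 5) (nat_lit 14) (nat_lit 4) (nat_lit 530) (nat_lit 341) (nat_lit 269)) (XT.lf (nat_lit 0) (nat_lit 5760627933) (nat_lit 228) (nat_lit 10683657311)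 (nat_lit 76) (nat_lit 9781928628) (nat_lit 13) (nat_lit 5) (nat_lit 16) (nat_lit 5) (nat_lit 14) (nat_lit 4) (nat_lit 531) (nat_lit 341) (nat_lit 268))) (XT.nd (nat_lit 53430) (nat_lit 0) (nat_lit 10412) (XT.lf (nat_lit 0) (nat_lit 9776797429) (nat_lit 228) (nat_lit 2705890286) (nat_lit 76) (nat_lit 14177840373) (nat_lit 13) (nat_lit 5) (nat_lit 16) (nat_lit 5) (nat_lit 14) (nat_lit 4) (nat_lit 532) (nat_lit 341) (nat_lit 267)) (XT.lf (nat_lit 0) (nat_lit 4623807421) (nat_lit 456) (nat_lit 90259646) (nat_lit 456) (nat_lit 90259646) (nat_lit 150) (nat_lit 4) (nat_lit 156) (nat_lit 5) (nat_lit 156) (nat_lit 4) (nat_lit 456) (nat_lit 342) (nat_lit 342)))) (XT.nd (nat_lit 156) (nat_lit 456) (nat_lit 0) (XT.nd (nat_lit 78) (nat_lit 380) (nat_lit 0) (XT.lf (nat_lit 0) (nat_lit 3792136297) (nat_lit 456) (nat_lit 2968237257) (nat_lit 0) (nat_lit 2941364724) (nat_lit 144) (nat_lit 5) (nat_lit 150) (nat_lit 4) (nat_lit 144)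 (nat_lit 4) (nat_lit 457) (nat_lit 342) (nat_lit 341)) (XT.lf (nat_lit 0) (nat_lit 4136176557) (nat_lit 380) (nat_lit 3673014098) (nat_lit 380) (nat_lit 1988152748) (nat_lit 139) (nat_lit 4) (nat_lit 144) (nat_lit 5) (nat_lit 144) (nat_lit 4) (nat_lit 458) (nat_lit 342) (nat_lit 340))) (XT.nd (nat_lit 78) (nat_lit 0) (nat_lit 0) (XT.lf (nat_lit 0) (nat_lit 1440045049) (nat_lit 380) (nat_lit 511757661) (nat_lit 456) (nat_lit 7943496007) (nat_lit 133) (nat_lit 5) (nat_lit 138) (nat_lit 5) (nat_lit 139) (nat_lit 4) (nat_lit 459) (nat_lit 342) (nat_lit 339)) (XT.lf (nat_lit 0) (nat_lit 5937300689) (nat_lit 456) (nat_lit 1360016949) (nat_lit 0) (nat_lit 2697793355) (nat_lit 133) (nat_lit 5) (nat_lit 139) (nat_lit 4) (nat_lit 133) (nat_lit 4) (nat_lit 460) (nat_lit 342) (nat_lit 338))))))))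
noncomputable def xc26 : XT := (XT.nd (nat_lit 2184) (nat_lit 2660) (nat_lit 0) (XT.nd (nat_lit 1092) (nat_lit 2204) (nat_lit 0) (XT.nd (nat_lit 546) (nat_lit 1520) (nat_lit 0) (XT.nd (nat_lit 234) (nat_lit 1140) (nat_lit 0) (XT.nd (nat_lit 78) (nat_lit 380) (nat_lit 0) (XT.lf (nat_lit 0) (nat_lit 5857863861) (nat_lit 380) (nat_lit 4124778883) (nat_lit 380) (nat_lit 114701524) (nat_lit 128) (nat_lit 4) (nat_lit 133) (nat_lit 5) (nat_lit 133) (nat_lit 4) (nat_lit 461) (nat_lit 342) (nat_lit 337)) (XT.nd (nat_lit 78) (nat_lit 0) (nat_lit 0) (XT.lf (nat_lit 0) (nat_lit 2957530387) (nat_lit 304) (nat_lit 865770878) (nat_lit 380) (nat_lit 6378494415) (nat_lit 123) (nat_lit 5) (nat_lit 127) (nat_lit 5) (nat_lit 128) (nat_lit 4) (nat_lit 462) (nat_lit 342) (nat_lit 336)) (XT.lf (nat_lit 0) (nat_lit 7822408610) (nat_lit 380) (nat_lit 62073574) (nat_lit 0) (nat_lit 2424187020) (nat_lit 123) (nat_lit 5) (nat_lit 128) (nat_lit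 4) (nat_lit 123) (nat_lit 4) (nat_lit 463) (nat_lit 342) (nat_lit 335)))) (XT.nd (nat_lit 156) (nat_lit 380) (nat_lit 0) (XT.nd (nat_lit 78) (nat_lit 304) (nat_lit 0) (XT.lf (nat_lit 0) (nat_lit 1457640303) (nat_lit 456) (nat_lit 3165675769) (nat_lit 76) (nat_lit 5794330637) (nat_lit 117) (nat_lit 5) (nat_lit 123) (nat_lit 5) (nat_lit 118) (nat_lit 4) (nat_lit 464) (nat_lit 342) (nat_lit 334)) (XT.lf (nat_lit 0) (nat_lit 4130317768) (nat_lit 304) (nat_lit 1284709937) (nat_lit 380) (nat_lit 5114113749) (nat_lit 113) (nat_lit 5) (nat_lit 117) (nat_lit 5) (nat_lit 118) (nat_lit 4) (nat_lit 465) (nat_lit 342) (nat_lit 333))) (XT.nd (nat_lit 78) (nat_lit 76) (nat_lit 0) (XT.lf (nat_lit 0) (nat_lit 878196959) (nat_lit 304) (nat_lit 8555215430) (nat_lit 304) (nat_lit 1209840599) (nat_lit 109) (nat_lit 4) (nat_lit 113) (nat_lit 5) (nat_lit 113) (nat_lit 4) (nat_lit 466) (nat_lit 342) (nat_lit 332)) (XT.lf (nat_lit 0) (nat_lit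 2729035369) (nat_lit 380) (nat_lit 2490397481) (nat_lit 76) (nat_lit 5540019250) (nat_lit 108) (nat_lit 5) (nat_lit 113) (nat_lit 5) (nat_lit 109) (nat_lit 4) (nat_lit 467) (nat_lit 342) (nat_lit 331))))) (XT.nd (nat_lit 234) (nat_lit 836) (nat_lit 0) (XT.nd (nat_lit 78) (nat_lit 380) (nat_lit 0) (XT.lf (nat_lit 0) (nat_lit 4895444854) (nat_lit 304) (nat_lit 1809145397) (nat_lit 380) (nat_lit 4173765486) (nat_lit 104) (nat_lit 5) (nat_lit 108) (nat_lit 5) (nat_lit 109) (nat_lit 4) (nat_lit 468) (nat_lit 342) (nat_lit 330)) (XT.nd (nat_lit 78) (nat_lit 76) (nat_lit 0) (XT.lf (nat_lit 0) (nat_lit 1379746415) (nat_lit 304) (nat_lit 9359165592) (nat_lit 304) (nat_lit 261162391) (nat_lit 100) (nat_lit 4) (nat_lit 104) (nat_lit 5) (nat_lit 104) (nat_lit 4) (nat_lit 469) (nat_lit 342) (nat_lit 329)) (XT.lf (nat_lit 0) (nat_lit 3675950184) (nat_lit 380) (nat_lit 2280173036) (nat_lit 76) (nat_lit 5167737648) (nat_lit 99)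 (nat_lit 5) (nat_lit 104) (nat_lit 5) (nat_lit 100) (nat_lit 4) (nat_lit 470) (nat_lit 342) (nat_lit 328)))) (XT.nd (nat_lit 156) (nat_lit 228) (nat_lit 0) (XT.nd (nat_lit 78) (nat_lit 380) (nat_lit 0) (XT.lf (nat_lit 0) (nat_lit 5183784122) (nat_lit 228) (nat_lit 2482083314) (nat_lit 304) (nat_lit 3584690710) (nat_lit 96) (nat_lit 5) (nat_lit 99) (nat_lit 5) (nat_lit 100) (nat_lit 4) (nat_lit 471) (nat_lit 342) (nat_lit 327)) (XT.lf (nat_lit 0) (nat_lit 326341201) (nat_lit 380) (nat_lit 10012618104) (nat_lit 76) (nat_lit 1041299574) (nat_lit 91) (nat_lit 5) (nat_lit 96) (nat_lit 5) (nat_lit 92) (nat_lit 4) (nat_lit 472) (nat_lit 342) (nat_lit 326))) (XT.nd (nat_lit 78) (nat_lit 228) (nat_lit 0) (XT.lf (nat_lit 0) (nat_lit 4269397420) (nat_lit 380) (nat_lit 2608963050) (nat_lit 76) (nat_lit 4633702799) (nat_lit 91) (nat_lit 5) (nat_lit 96) (nat_lit 5) (nat_lit 92) (nat_lit 4) (nat_lit 473) (nat_lit 342) (nat_lit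 325)) (XT.lf (nat_lit 0) (nat_lit 4919285042) (nat_lit 228) (nat_lit 3349399683) (nat_lit 304) (nat_lit 3378290834) (nat_lit 88) (nat_lit 5) (nat_lit 91) (nat_lit 5) (nat_lit 92) (nat_lit 4) (nat_lit 474) (nat_lit 342) (nat_lit 324)))))) (XT.nd (nat_lit 546) (nat_lit 1064) (nat_lit 0) (XT.nd (nat_lit 234) (nat_lit 532) (nat_lit 0) (XT.nd (nat_lit 78) (nat_lit 228) (nat_lit 0) (XT.lf (nat_lit 0) (nat_lit 525724170) (nat_lit 380) (nat_lit 11019390050) (nat_lit 76) (nat_lit 240022358) (nat_lit 83) (nat_lit 5) (nat_lit 88) (nat_lit 5) (nat_lit 84) (nat_lit 4) (nat_lit 475) (nat_lit 342) (nat_lit 323)) (XT.nd (nat_lit 78) (nat_lit 228) (nat_lit 0) (XT.lf (nat_lit 0) (nat_lit 4476090194) (nat_lit 380) (nat_lit 3558222219) (nat_lit 76) (nat_lit 3891049775) (nat_lit 83) (nat_lit 5) (nat_lit 88) (nat_lit 5) (nat_lit 84) (nat_lit 4) (nat_lit 476) (nat_lit 342) (nat_lit 322)) (XT.lf (nat_lit 0) (nat_lit 4018143093) (nat_lit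 228) (nat_lit 4460307883) (nat_lit 304) (nat_lit 3590499332) (nat_lit 80) (nat_lit 5) (nat_lit 83) (nat_lit 5) (nat_lit 84) (nat_lit 4) (nat_lit 477) (nat_lit 342) (nat_lit 321)))) (XT.nd (nat_lit 156) (nat_lit 228) (nat_lit 0) (XT.nd (nat_lit 78) (nat_lit 228) (nat_lit 0) (XT.lf (nat_lit 0) (nat_lit 311969006) (nat_lit 304) (nat_lit 509940488) (nat_lit 76) (nat_lit 11394051880) (nat_lit 79) (nat_lit 5) (nat_lit 83) (nat_lit 5) (nat_lit 80) (nat_lit 5) (nat_lit 478) (nat_lit 342) (nat_lit 320)) (XT.lf (nat_lit 0) (nat_lit 4258049371) (nat_lit 304) (nat_lit 5217783597) (nat_lit 76) (nat_lit 2889348963) (nat_lit 76) (nat_lit 5) (nat_lit 80) (nat_lit 5) (nat_lit 77) (nat_lit 4) (nat_lit 479) (nat_lit 342) (nat_lit 319))) (XT.nd (nat_lit 78) (nat_lit 0) (nat_lit 0) (XT.lf (nat_lit 0) (nat_lit 2387887444) (nat_lit 228) (nat_lit 5867863541) (nat_lit 304) (nat_lit 4262198317) (nat_lit 73) (nat_lit 5) (nat_lit 76) (nat_lit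 5) (nat_lit 77) (nat_lit 4) (nat_lit 480) (nat_lit 342) (nat_lit 318)) (XT.lf (nat_lit 0) (nat_lit 10131520250) (nat_lit 228) (nat_lit 2185671077) (nat_lit 304) (nat_lit 356921073) (nat_lit 73) (nat_lit 5) (nat_lit 76) (nat_lit 5) (nat_lit 77) (nat_lit 4) (nat_lit 481) (nat_lit 342) (nat_lit 317))))) (XT.nd (nat_lit 234) (nat_lit 532) (nat_lit 0) (XT.nd (nat_lit 78) (nat_lit 228) (nat_lit 0) (XT.lf (nat_lit 0) (nat_lit 3572164218) (nat_lit 304) (nat_lit 7686830202) (nat_lit 76) (nat_lit 1574083597) (nat_lit 69) (nat_lit 5) (nat_lit 73) (nat_lit 5) (nat_lit 70) (nat_lit 4) (nat_lit 482) (nat_lit 342) (nat_lit 316)) (XT.nd (nat_lit 78) (nat_lit 228) (nat_lit 0) (XT.lf (nat_lit 0) (nat_lit 7556367943) (nat_lit 304) (nat_lit 72656142) (nat_lit 76) (nat_lit 5366540505) (nat_lit 69) (nat_lit 5) (nat_lit 73) (nat_lit 5) (nat_lit 70) (nat_lit 4) (nat_lit 483) (nat_lit 342) (nat_lit 315)) (XT.lf (nat_lit 0) (nat_lit 7712448437)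 (nat_lit 228) (nat_lit 3908530327) (nat_lit 304) (nat_lit 1540322521) (nat_lit 66) (nat_lit 5) (nat_lit 69) (nat_lit 5) (nat_lit 70) (nat_lit 4) (nat_lit 484) (nat_lit 342) (nat_lit 314)))) (XT.nd (nat_lit 156) (nat_lit 228) (nat_lit 0) (XT.nd (nat_lit 78) (nat_lit 0) (nat_lit 0) (XT.lf (nat_lit 0) (nat_lit 2255020062) (nat_lit 228) (nat_lit 115431294) (nat_lit 304) (nat_lit 10960281682) (nat_lit 62) (nat_lit 5) (nat_lit 65) (nat_lit 5) (nat_lit 66) (nat_lit 5) (nat_lit 485) (nat_lit 342) (nat_lit 313)) (XT.lf (nat_lit 0) (nat_lit 6350975048) (nat_lit 304) (nat_lit 3433664427) (nat_lit 76) (nat_lit 3718481130) (nat_lit 62) (nat_lit 5) (nat_lit 66) (nat_lit 5) (nat_lit 63) (nat_lit 4) (nat_lit 486) (nat_lit 342) (nat_lit 312))) (XT.nd (nat_lit 78) (nat_lit 76) (nat_lit 0) (XT.lf (nat_lit 0) (nat_lit 4336094014) (nat_lit 152) (nat_lit 6055856706) (nat_lit 228) (nat_lit 3287402091) (nat_lit 60) (nat_lit 5) (nat_lit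 62) (nat_lit 5) (nat_lit 63) (nat_lit 4) (nat_lit 487) (nat_lit 342) (nat_lit 311)) (XT.lf (nat_lit 0) (nat_lit 621258940) (nat_lit 228) (nat_lit 1636611642) (nat_lit 76) (nat_lit 11601663092) (nat_lit 59) (nat_lit 5) (nat_lit 62) (nat_lit 5) (nat_lit 60) (nat_lit 5) (nat_lit 488) (nat_lit 342) (nat_lit 310))))))) (XT.nd (nat_lit 1092) (nat_lit 988) (nat_lit 0) (XT.nd (nat_lit 546) (nat_lit 836) (nat_lit 0) (XT.nd (nat_lit 234) (nat_lit 456) (nat_lit 0) (XT.nd (nat_lit 78) (nat_lit 152) (nat_lit 0) (XT.lf (nat_lit 0) (nat_lit 4568042721) (nat_lit 304) (nat_lit 7849714486) (nat_lit 76) (nat_lit 1625059923) (nat_lit 56) (nat_lit 5) (nat_lit 60) (nat_lit 5) (nat_lit 57) (nat_lit 4) (nat_lit 489) (nat_lit 342) (nat_lit 309)) (XT.nd (nat_lit 78) (nat_lit 152) (nat_lit 0) (XT.lf (nat_lit 0) (nat_lit 8572921597) (nat_lit 304) (nat_lit 122941879) (nat_lit 76) (nat_lit 5534332265) (nat_lit 56) (nat_lit 5) (nat_lit 60) (nat_lit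 5) (nat_lit 57) (nat_lit 4) (nat_lit 490) (nat_lit 342) (nat_lit 308)) (XT.lf (nat_lit 0) (nat_lit 7782031196) (nat_lit 152) (nat_lit 4880462941) (nat_lit 228) (nat_lit 1758748291) (nat_lit 54) (nat_lit 5) (nat_lit 56) (nat_lit 5) (nat_lit 57) (nat_lit 4) (nat_lit 491) (nat_lit 342) (nat_lit 307)))) (XT.nd (nat_lit 156) (nat_lit 152) (nat_lit 0) (XT.nd (nat_lit 78) (nat_lit 0) (nat_lit 0) (XT.lf (nat_lit 0) (nat_lit 1152889293) (nat_lit 228) (nat_lit 998239736) (nat_lit 304) (nat_lit 12465455638) (nat_lit 50) (nat_lit 5) (nat_lit 53) (nat_lit 5) (nat_lit 54) (nat_lit 5) (nat_lit 492) (nat_lit 342) (nat_lit 306)) (XT.lf (nat_lit 0) (nat_lit 6134085543) (nat_lit 304) (nat_lit 5733982203) (nat_lit 76) (nat_lit 2947176582) (nat_lit 50) (nat_lit 5) (nat_lit 54) (nat_lit 5) (nat_lit 51) (nat_lit 4) (nat_lit 493) (nat_lit 342) (nat_lit 305))) (XT.nd (nat_lit 78) (nat_lit 0) (nat_lit 0) (XT.lf (nat_lit 0) (nat_lit 2094024602)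 (nat_lit 152) (nat_lit 8078111442) (nat_lit 228) (nat_lit 4846243919) (nat_lit 48) (nat_lit 5) (nat_lit 50) (nat_lit 5) (nat_lit 51) (nat_lit 4) (nat_lit 494) (nat_lit 342) (nat_lit 304)) (XT.lf (nat_lit 0) (nat_lit 10079671489) (nat_lit 152) (nat_lit 4205362553) (nat_lit 228) (nat_lit 940673795) (nat_lit 48) (nat_lit 5) (nat_lit 50) (nat_lit 5) (nat_lit 51) (nat_lit 4) (nat_lit 495) (nat_lit 342) (nat_lit 303))))) (XT.nd (nat_lit 234) (nat_lit 380) (nat_lit 0) (XT.nd (nat_lit 78) (nat_lit 152) (nat_lit 0) (XT.lf (nat_lit 0) (nat_lit 2728135812) (nat_lit 228) (nat_lit 248854954) (nat_lit 304) (nat_lit 12460329322) (nat_lit 44) (nat_lit 5) (nat_lit 47) (nat_lit 5) (nat_lit 48) (nat_lit 5) (nat_lit 496) (nat_lit 342) (nat_lit 302)) (XT.nd (nat_lit 78) (nat_lit 152) (nat_lit 0) (XT.lf (nat_lit 0) (nat_lit 6976116479) (nat_lit 304) (nat_lit 4929882208) (nat_lit 76) (nat_lit 3746738075) (nat_lit 44) (nat_lit 5) (nat_lit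 48) (nat_lit 5) (nat_lit 45) (nat_lit 4) (nat_lit 497) (nat_lit 342) (nat_lit 301)) (XT.lf (nat_lit 0) (nat_lit 2967859371) (nat_lit 152) (nat_lit 8065482788) (nat_lit 228) (nat_lit 4839567658) (nat_lit 42) (nat_lit 5) (nat_lit 44) (nat_lit 5) (nat_lit 45) (nat_lit 4) (nat_lit 498) (nat_lit 342) (nat_lit 300)))) (XT.nd (nat_lit 156) (nat_lit 152) (nat_lit 0) (XT.nd (nat_lit 78) (nat_lit 228) (nat_lit 0) (XT.lf (nat_lit 0) (nat_lit 11016448763) (nat_lit 152) (nat_lit 4145904983) (nat_lit 228) (nat_lit 935329953) (nat_lit 42) (nat_lit 5) (nat_lit 44) (nat_lit 5) (nat_lit 45) (nat_lit 4) (nat_lit 499) (nat_lit 342) (nat_lit 299)) (XT.lf (nat_lit 0) (nat_lit 2843517273) (nat_lit 152) (nat_lit 140081421) (nat_lit 228) (nat_lit 13343437140) (nat_lit 39) (nat_lit 5) (nat_lit 41) (nat_lit 5) (nat_lit 42) (nat_lit 5) (nat_lit 500) (nat_lit 342) (nat_lit 298))) (XT.nd (nat_lit 78) (nat_lit 152) (nat_lit 0) (XT.lf (nat_lit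 0) (nat_lit 6986591149) (nat_lit 228) (nat_lit 5669898437) (nat_lit 76) (nat_lit 3904007194) (nat_lit 39) (nat_lit 5) (nat_lit 42) (nat_lit 5) (nat_lit 40) (nat_lit 4) (nat_lit 501) (nat_lit 342) (nat_lit 297)) (XT.lf (nat_lit 0) (nat_lit 2256893209) (nat_lit 152) (nat_lit 8787404602) (nat_lit 228) (nat_lit 5754845463) (nat_lit 37) (nat_lit 5) (nat_lit 39) (nat_lit 5) (nat_lit 40) (nat_lit 4) (nat_lit 502) (nat_lit 342) (nat_lit 296)))))) (XT.nd (nat_lit 546) (nat_lit 380) (nat_lit 0) (XT.nd (nat_lit 234) (nat_lit 380) (nat_lit 0) (XT.nd (nat_lit 78) (nat_lit 228) (nat_lit 0) (XT.lf (nat_lit 0) (nat_lit 10347777095) (nat_lit 152) (nat_lit 4832842486) (nat_lit 228) (nat_lit 1862003129) (nat_lit 37) (nat_lit 5) (nat_lit 39) (nat_lit 5) (nat_lit 40) (nat_lit 4) (nat_lit 503) (nat_lit 342) (nat_lit 295)) (XT.nd (nat_lit 78) (nat_lit 0) (nat_lit 0) (XT.lf (nat_lit 0) (nat_lit 1241656610) (nat_lit 152) (nat_lit 807381515)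 (nat_lit 228) (nat_lit 15242308705) (nat_lit 34) (nat_lit 5) (nat_lit 36) (nat_lit 5) (nat_lit 37) (nat_lit 5) (nat_lit 504) (nat_lit 342) (nat_lit 294)) (XT.lf (nat_lit 0) (nat_lit 6040102534) (nat_lit 228) (nat_lit 8221140253) (nat_lit 76) (nat_lit 3283030495) (nat_lit 34) (nat_lit 5) (nat_lit 37) (nat_lit 5) (nat_lit 35) (nat_lit 4) (nat_lit 505) (nat_lit 342) (nat_lit 293)))) (XT.nd (nat_lit 156) (nat_lit 228) (nat_lit 0) (XT.nd (nat_lit 78) (nat_lit 152) (nat_lit 0) (XT.lf (nat_lit 0) (nat_lit 10077189207) (nat_lit 228) (nat_lit 310569440) (nat_lit 76) (nat_lit 7415184128) (nat_lit 34) (nat_lit 5) (nat_lit 37) (nat_lit 5) (nat_lit 35) (nat_lit 4) (nat_lit 506) (nat_lit 342) (nat_lit 292)) (XT.lf (nat_lit 0) (nat_lit 7792567382) (nat_lit 152) (nat_lit 6414666390) (nat_lit 228) (nat_lit 3859315923) (nat_lit 32) (nat_lit 5) (nat_lit 34) (nat_lit 5) (nat_lit 35) (nat_lit 4) (nat_lit 507) (nat_lit 342) (nat_lit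 291))) (XT.nd (nat_lit 78) (nat_lit 152) (nat_lit 0) (XT.lf (nat_lit 0) (nat_lit 47117167) (nat_lit 228) (nat_lit 2341889701) (nat_lit 76) (nat_lit 15947143471) (nat_lit 31) (nat_lit 5) (nat_lit 34) (nat_lit 5) (nat_lit 32) (nat_lit 5) (nat_lit 508) (nat_lit 342) (nat_lit 290)) (XT.lf (nat_lit 0) (nat_lit 3991070279) (nat_lit 228) (nat_lit 12890147816) (nat_lit 76) (nat_lit 1729201228) (nat_lit 29) (nat_lit 5) (nat_lit 32) (nat_lit 5) (nat_lit 30) (nat_lit 4) (nat_lit 509) (nat_lit 342) (nat_lit 289))))) (XT.nd (nat_lit 312) (nat_lit 228) (nat_lit 0) (XT.nd (nat_lit 156) (nat_lit 76) (nat_lit 0) (XT.nd (nat_lit 78) (nat_lit 76) (nat_lit 0) (XT.lf (nat_lit 0) (nat_lit 8008090620) (nat_lit 228) (nat_lit 4997076854) (nat_lit 76) (nat_lit 5885130173) (nat_lit 29) (nat_lit 5) (nat_lit 32) (nat_lit 5) (nat_lit 30) (nat_lit 4) (nat_lit 510) (nat_lit 342) (nat_lit 288)) (XT.lf (nat_lit 0) (nat_lit 3028165526) (nat_lit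 76) (nat_lit 9060228606) (nat_lit 152) (nat_lit 7087728125) (nat_lit 28) (nat_lit 5) (nat_lit 29) (nat_lit 5) (nat_lit 30) (nat_lit 4) (nat_lit 511) (nat_lit 342) (nat_lit 287))) (XT.nd (nat_lit 78) (nat_lit 76) (nat_lit 0) (XT.lf (nat_lit 0) (nat_lit 11216674808) (nat_lit 76) (nat_lit 5030741933) (nat_lit 152) (nat_lit 3220311784) (nat_lit 28) (nat_lit 5) (nat_lit 29) (nat_lit 5) (nat_lit 30) (nat_lit 4) (nat_lit 512) (nat_lit 342) (nat_lit 286)) (XT.lf (nat_lit 0) (nat_lit 679002033) (nat_lit 152) (nat_lit 265101784) (nat_lit 76) (nat_lit 18821695155) (nat_lit 27) (nat_lit 5) (nat_lit 29) (nat_lit 5) (nat_lit 28) (nat_lit 5) (nat_lit 513) (nat_lit 342) (nat_lit 285)))) (XT.nd (nat_lit 156) (nat_lit 76) (nat_lit 0) (XT.nd (nat_lit 78) (nat_lit 0) (nat_lit 0) (XT.lf (nat_lit 0) (nat_lit 4650504645) (nat_lit 228) (nat_lit 12190401043) (nat_lit 76) (nat_lit 3227759961) (nat_lit 25) (nat_lit 5) (nat_lit 28) (nat_lit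 5) (nat_lit 26) (nat_lit 4) (nat_lit 514) (nat_lit 342) (nat_lit 284)) (XT.lf (nat_lit 0) (nat_lit 8674342079) (nat_lit 228) (nat_lit 4258766488) (nat_lit 76) (nat_lit 7445029859) (nat_lit 25) (nat_lit 5) (nat_lit 28) (nat_lit 5) (nat_lit 26) (nat_lit 4) (nat_lit 515) (nat_lit 342) (nat_lit 283))) (XT.nd (nat_lit 78) (nat_lit 0) (nat_lit 0) (XT.lf (nat_lit 0) (nat_lit 3819793990) (nat_lit 76) (nat_lit 8949213566) (nat_lit 152) (nat_lit 7924992801) (nat_lit 24) (nat_lit 5) (nat_lit 25) (nat_lit 5) (nat_lit 26) (nat_lit 4) (nat_lit 516) (nat_lit 342) (nat_lit 282)) (XT.lf (nat_lit 0) (nat_lit 12056256932) (nat_lit 76) (nat_lit 4883715478) (nat_lit 152) (nat_lit 4076325588) (nat_lit 24) (nat_lit 5) (nat_lit 25) (nat_lit 5) (nat_lit 26) (nat_lit 4) (nat_lit 517) (nat_lit 342) (nat_lit 281))))))))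
noncomputable def xc27 : XT := (XT.nd (nat_lit 55380) (nat_lit 0) (nat_lit 2660) (XT.nd (nat_lit 1092) (nat_lit 0) (nat_lit 0) (XT.nd (nat_lit 546) (nat_lit 304) (nat_lit 0) (XT.nd (nat_lit 234) (nat_lit 304) (nat_lit 0) (XT.nd (nat_lit 78) (nat_lit 228) (nat_lit 0) (XT.lf (nat_lit 0) (nat_lit 20397255557) (nat_lit 76) (nat_lit 763598556) (nat_lit 152) (nat_lit 184863991) (nat_lit 24) (nat_lit 5) (nat_lit 25) (nat_lit 5) (nat_lit 26) (nat_lit 4) (nat_lit 518) (nat_lit 342) (nat_lit 280)) (XT.nd (nat_lit 78) (nat_lit 0) (nat_lit 0) (XT.lf (nat_lit 0) (nat_lit 3771323471) (nat_lit 228) (nat_lit 14469398294) (nat_lit 76) (nat_lit 3439789041) (nat_lit 21) (nat_lit 5) (nat_lit 24) (nat_lit 5) (nat_lit 22) (nat_lit 4) (nat_lit 519) (nat_lit 342) (nat_lit 279)) (XT.lf (nat_lit 0) (nat_lit 7782650525) (nat_lit 228) (nat_lit 6541019170) (nat_lit 76) (nat_lit 7698741494) (nat_lit 21) (nat_lit 5) (nat_lit 24) (nat_lit 5)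 (nat_lit 22) (nat_lit 4) (nat_lit 520) (nat_lit 342) (nat_lit 278)))) (XT.nd (nat_lit 156) (nat_lit 228) (nat_lit 0) (XT.nd (nat_lit 78) (nat_lit 0) (nat_lit 0) (XT.lf (nat_lit 0) (nat_lit 1507304458) (nat_lit 76) (nat_lit 10344357728) (nat_lit 152) (nat_lit 10519944204) (nat_lit 20) (nat_lit 5) (nat_lit 21) (nat_lit 5) (nat_lit 22) (nat_lit 4) (nat_lit 521) (nat_lit 342) (nat_lit 277)) (XT.lf (nat_lit 0) (nat_lit 9747252307) (nat_lit 76) (nat_lit 6266624369) (nat_lit 152) (nat_lit 6713678224) (nat_lit 20) (nat_lit 5) (nat_lit 21) (nat_lit 5) (nat_lit 22) (nat_lit 4) (nat_lit 522) (nat_lit 342) (nat_lit 276))) (XT.nd (nat_lit 78) (nat_lit 228) (nat_lit 0) (XT.lf (nat_lit 0) (nat_lit 18095129025) (nat_lit 76) (nat_lit 2132764187) (nat_lit 152) (nat_lit 2863363751) (nat_lit 20) (nat_lit 5) (nat_lit 21) (nat_lit 5) (nat_lit 22) (nat_lit 4) (nat_lit 523) (nat_lit 342) (nat_lit 275)) (XT.lf (nat_lit 0) (nat_lit 1052807514)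 (nat_lit 228) (nat_lit 20350218723) (nat_lit 76) (nat_lit 2059018100) (nat_lit 17) (nat_lit 5) (nat_lit 20) (nat_lit 5) (nat_lit 18) (nat_lit 4) (nat_lit 524) (nat_lit 342) (nat_lit 274))))) (XT.nd (nat_lit 234) (nat_lit 228) (nat_lit 0) (XT.nd (nat_lit 78) (nat_lit 76) (nat_lit 0) (XT.lf (nat_lit 0) (nat_lit 5025918940) (nat_lit 228) (nat_lit 12479486003) (nat_lit 76) (nat_lit 6334130243) (nat_lit 17) (nat_lit 5) (nat_lit 20) (nat_lit 5) (nat_lit 18) (nat_lit 4) (nat_lit 525) (nat_lit 342) (nat_lit 273)) (XT.nd (nat_lit 78) (nat_lit 76) (nat_lit 0) (XT.lf (nat_lit 0) (nat_lit 9048147881) (nat_lit 228) (nat_lit 4506497624) (nat_lit 76) (nat_lit 10670542547) (nat_lit 17) (nat_lit 5) (nat_lit 20) (nat_lit 5) (nat_lit 18) (nat_lit 4) (nat_lit 526) (nat_lit 342) (nat_lit 272)) (XT.lf (nat_lit 0) (nat_lit 3619341389) (nat_lit 76) (nat_lit 9525229455) (nat_lit 152) (nat_lit 11474113339) (nat_lit 16) (nat_lit 5) (nat_lit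 17) (nat_lit 5) (nat_lit 18) (nat_lit 4) (nat_lit 527) (nat_lit 342) (nat_lit 271)))) (XT.nd (nat_lit 156) (nat_lit 228) (nat_lit 0) (XT.nd (nat_lit 78) (nat_lit 0) (nat_lit 0) (XT.lf (nat_lit 0) (nat_lit 11915062271) (nat_lit 76) (nat_lit 5408585777) (nat_lit 152) (nat_lit 7696392770) (nat_lit 16) (nat_lit 5) (nat_lit 17) (nat_lit 5) (nat_lit 18) (nat_lit 4) (nat_lit 528) (nat_lit 342) (nat_lit 270)) (XT.lf (nat_lit 0) (nat_lit 20324029263) (nat_lit 76) (nat_lit 1233341073) (nat_lit 152) (nat_lit 3872637976) (nat_lit 16) (nat_lit 5) (nat_lit 17) (nat_lit 5) (nat_lit 18) (nat_lit 4) (nat_lit 529) (nat_lit 342) (nat_lit 269))) (XT.nd (nat_lit 78) (nat_lit 0) (nat_lit 0) (XT.lf (nat_lit 0) (nat_lit 38032948) (nat_lit 228) (nat_lit 22827294958) (nat_lit 76) (nat_lit 2982632412) (nat_lit 13) (nat_lit 5) (nat_lit 16) (nat_lit 5) (nat_lit 14) (nat_lit 4) (nat_lit 530) (nat_lit 342) (nat_lit 268)) (XT.lf (nat_lit 0) (nat_lit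 3989280862) (nat_lit 228) (nat_lit 14980669528) (nat_lit 76) (nat_lit 7303529356) (nat_lit 13) (nat_lit 5) (nat_lit 16) (nat_lit 5) (nat_lit 14) (nat_lit 4) (nat_lit 531) (nat_lit 342) (nat_lit 267)))))) (XT.nd (nat_lit 53742) (nat_lit 0) (nat_lit 7296) (XT.nd (nat_lit 53430) (nat_lit 0) (nat_lit 9120) (XT.nd (nat_lit 53274) (nat_lit 0) (nat_lit 10412) (XT.lf (nat_lit 0) (nat_lit 7991623517) (nat_lit 228) (nat_lit 7028187713) (nat_lit 76) (nat_lit 11688261554) (nat_lit 13) (nat_lit 5) (nat_lit 16) (nat_lit 5) (nat_lit 14) (nat_lit 4) (nat_lit 532) (nat_lit 342) (nat_lit 266)) (XT.nd (nat_lit 78) (nat_lit 456) (nat_lit 0) (XT.lf (nat_lit 0) (nat_lit 1160070422) (nat_lit 456) (nat_lit 2393378556) (nat_lit 0) (nat_lit 1160070422) (nat_lit 156) (nat_lit 5) (nat_lit 162) (nat_lit 4) (nat_lit 156) (nat_lit 4) (nat_lit 454) (nat_lit 343) (nat_lit 343)) (XT.lf (nat_lit 0) (nat_lit 2151951956) (nat_lit 456) (nat_lit 4125066256)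 (nat_lit 456) (nat_lit 3239923511) (nat_lit 150) (nat_lit 4) (nat_lit 156) (nat_lit 5) (nat_lit 156) (nat_lit 4) (nat_lit 455) (nat_lit 343) (nat_lit 342)))) (XT.nd (nat_lit 156) (nat_lit 836) (nat_lit 0) (XT.nd (nat_lit 78) (nat_lit 380) (nat_lit 0) (XT.lf (nat_lit 0) (nat_lit 663907270) (nat_lit 532) (nat_lit 411837063) (nat_lit 76) (nat_lit 8533462092) (nat_lit 149) (nat_lit 5) (nat_lit 156) (nat_lit 5) (nat_lit 150) (nat_lit 4) (nat_lit 456) (nat_lit 343) (nat_lit 341)) (XT.lf (nat_lit 0) (nat_lit 4596794753) (nat_lit 456) (nat_lit 3062089396) (nat_lit 0) (nat_lit 2044146398) (nat_lit 144) (nat_lit 5) (nat_lit 150) (nat_lit 4) (nat_lit 144) (nat_lit 4) (nat_lit 457) (nat_lit 343) (nat_lit 340))) (XT.nd (nat_lit 78) (nat_lit 456) (nat_lit 0) (XT.lf (nat_lit 0) (nat_lit 3994921385) (nat_lit 380) (nat_lit 4587371626) (nat_lit 380) (nat_lit 1216988196) (nat_lit 139) (nat_lit 4) (nat_lit 144) (nat_lit 5) (nat_lit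 144) (nat_lit 4) (nat_lit 458) (nat_lit 343) (nat_lit 339)) (XT.lf (nat_lit 0) (nat_lit 1243598147) (nat_lit 380) (nat_lit 1437432858) (nat_lit 456) (nat_lit 7216755677) (nat_lit 133) (nat_lit 5) (nat_lit 138) (nat_lit 5) (nat_lit 139) (nat_lit 4) (nat_lit 459) (nat_lit 343) (nat_lit 338))))) (XT.nd (nat_lit 234) (nat_lit 1064) (nat_lit 0) (XT.nd (nat_lit 78) (nat_lit 760) (nat_lit 0) (XT.lf (nat_lit 0) (nat_lit 6630178222) (nat_lit 456) (nat_lit 1598832045) (nat_lit 0) (nat_lit 1769329289) (nat_lit 133) (nat_lit 5) (nat_lit 139) (nat_lit 4) (nat_lit 133) (nat_lit 4) (nat_lit 460) (nat_lit 343) (nat_lit 337)) (XT.nd (nat_lit 78) (nat_lit 304) (nat_lit 0) (XT.lf (nat_lit 0) (nat_lit 535571516) (nat_lit 456) (nat_lit 4534455279) (nat_lit 76) (nat_lit 5031121140) (nat_lit 127) (nat_lit 5) (nat_lit 133) (nat_lit 5) (nat_lit 128) (nat_lit 4) (nat_lit 461) (nat_lit 343) (nat_lit 336)) (XT.lf (nat_lit 0) (nat_lit 2612179967)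 (nat_lit 304) (nat_lit 1827987142) (nat_lit 380) (nat_lit 5766068200) (nat_lit 123) (nat_lit 5) (nat_lit 127) (nat_lit 5) (nat_lit 128) (nat_lit 4) (nat_lit 462) (nat_lit 343) (nat_lit 335)))) (XT.nd (nat_lit 156) (nat_lit 608) (nat_lit 0) (XT.nd (nat_lit 78) (nat_lit 456) (nat_lit 0) (XT.lf (nat_lit 0) (nat_lit 8403556952) (nat_lit 380) (nat_lit 450920788) (nat_lit 0) (nat_lit 1459357991) (nat_lit 123) (nat_lit 5) (nat_lit 128) (nat_lit 4) (nat_lit 123) (nat_lit 4) (nat_lit 463) (nat_lit 343) (nat_lit 334)) (XT.lf (nat_lit 0) (nat_lit 1994102930) (nat_lit 456) (nat_lit 3614040054) (nat_lit 76) (nat_lit 4815246821) (nat_lit 117) (nat_lit 5) (nat_lit 123) (nat_lit 5) (nat_lit 118) (nat_lit 4) (nat_lit 464) (nat_lit 343) (nat_lit 333))) (XT.nd (nat_lit 78) (nat_lit 304) (nat_lit 0) (XT.lf (nat_lit 0) (nat_lit 3630884610) (nat_lit 304) (nat_lit 2288549407) (nat_lit 380) (nat_lit 4616103484) (nat_lit 113) (nat_lit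 5) (nat_lit 117) (nat_lit 5) (nat_lit 118) (nat_lit 4) (nat_lit 465) (nat_lit 343) (nat_lit 332)) (XT.lf (nat_lit 0) (nat_lit 326949364) (nat_lit 304) (nat_lit 9572134977) (nat_lit 304) (nat_lit 751350972) (nat_lit 109) (nat_lit 4) (nat_lit 113) (nat_lit 5) (nat_lit 113) (nat_lit 4) (nat_lit 466) (nat_lit 343) (nat_lit 331))))))) (XT.nd (nat_lit 1092) (nat_lit 1900) (nat_lit 0) (XT.nd (nat_lit 546) (nat_lit 1368) (nat_lit 0) (XT.nd (nat_lit 234) (nat_lit 608) (nat_lit 0) (XT.nd (nat_lit 78) (nat_lit 684) (nat_lit 0) (XT.lf (nat_lit 0) (nat_lit 3152948229) (nat_lit 380) (nat_lit 3096607108) (nat_lit 76) (nat_lit 4517601967) (nat_lit 108) (nat_lit 5) (nat_lit 113) (nat_lit 5) (nat_lit 109) (nat_lit 4) (nat_lit 467) (nat_lit 343) (nat_lit 330)) (XT.nd (nat_lit 78) (nat_lit 380) (nat_lit 0) (XT.lf (nat_lit 0) (nat_lit 4236670889) (nat_lit 304) (nat_lit 2859551501) (nat_lit 380) (nat_lit 3790495088) (nat_lit 104) (nat_lit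 5) (nat_lit 108) (nat_lit 5) (nat_lit 109) (nat_lit 4) (nat_lit 468) (nat_lit 343) (nat_lit 329)) (XT.lf (nat_lit 0) (nat_lit 80940542) (nat_lit 380) (nat_lit 10343793568) (nat_lit 76) (nat_lit 584487993) (nat_lit 99) (nat_lit 5) (nat_lit 104) (nat_lit 5) (nat_lit 100) (nat_lit 4) (nat_lit 469) (nat_lit 343) (nat_lit 328)))) (XT.nd (nat_lit 156) (nat_lit 380) (nat_lit 0) (XT.nd (nat_lit 78) (nat_lit 228) (nat_lit 0) (XT.lf (nat_lit 0) (nat_lit 3986855429) (nat_lit 380) (nat_lit 3049521188) (nat_lit 76) (nat_lit 4097163786) (nat_lit 99) (nat_lit 5) (nat_lit 104) (nat_lit 5) (nat_lit 100) (nat_lit 4) (nat_lit 470) (nat_lit 343) (nat_lit 327)) (XT.lf (nat_lit 0) (nat_lit 4360315513) (nat_lit 228) (nat_lit 3583882727) (nat_lit 304) (nat_lit 3316701023) (nat_lit 96) (nat_lit 5) (nat_lit 99) (nat_lit 5) (nat_lit 100) (nat_lit 4) (nat_lit 471) (nat_lit 343) (nat_lit 326))) (XT.nd (nat_lit 78) (nat_lit 0) (nat_lit 0) (XT.lf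 (nat_lit 0) (nat_lit 483991709) (nat_lit 304) (nat_lit 67029318) (nat_lit 380) (nat_lit 10840349770) (nat_lit 91) (nat_lit 5) (nat_lit 95) (nat_lit 5) (nat_lit 96) (nat_lit 5) (nat_lit 472) (nat_lit 343) (nat_lit 325)) (XT.lf (nat_lit 0) (nat_lit 4466627544) (nat_lit 380) (nat_lit 3546851891) (nat_lit 76) (nat_lit 3510254258) (nat_lit 91) (nat_lit 5) (nat_lit 96) (nat_lit 5) (nat_lit 92) (nat_lit 4) (nat_lit 473) (nat_lit 343) (nat_lit 324))))) (XT.nd (nat_lit 234) (nat_lit 760) (nat_lit 0) (XT.nd (nat_lit 78) (nat_lit 380) (nat_lit 0) (XT.lf (nat_lit 0) (nat_lit 3925655697) (nat_lit 228) (nat_lit 4507323043) (nat_lit 304) (nat_lit 3226335287) (nat_lit 88) (nat_lit 5) (nat_lit 91) (nat_lit 5) (nat_lit 92) (nat_lit 4) (nat_lit 474) (nat_lit 343) (nat_lit 323)) (XT.nd (nat_lit 78) (nat_lit 304) (nat_lit 0) (XT.lf (nat_lit 0) (nat_lit 642701735) (nat_lit 304) (nat_lit 292449248) (nat_lit 76) (nat_lit 10862972994)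 (nat_lit 87) (nat_lit 5) (nat_lit 91) (nat_lit 5) (nat_lit 88) (nat_lit 5) (nat_lit 475) (nat_lit 343) (nat_lit 322)) (XT.lf (nat_lit 0) (nat_lit 4558771759) (nat_lit 380) (nat_lit 4670178952) (nat_lit 76) (nat_lit 2710093581) (nat_lit 83) (nat_lit 5) (nat_lit 88) (nat_lit 5) (nat_lit 84) (nat_lit 4) (nat_lit 476) (nat_lit 343) (nat_lit 321)))) (XT.nd (nat_lit 156) (nat_lit 456) (nat_lit 0) (XT.nd (nat_lit 78) (nat_lit 76) (nat_lit 0) (XT.lf (nat_lit 0) (nat_lit 2848758551) (nat_lit 228) (nat_lit 5679009384) (nat_lit 304) (nat_lit 3555540383) (nat_lit 80) (nat_lit 5) (nat_lit 83) (nat_lit 5) (nat_lit 84) (nat_lit 4) (nat_lit 477) (nat_lit 343) (nat_lit 320)) (XT.lf (nat_lit 0) (nat_lit 320753667) (nat_lit 304) (nat_lit 1736074249) (nat_lit 76) (nat_lit 10174009523) (nat_lit 79) (nat_lit 5) (nat_lit 83) (nat_lit 5) (nat_lit 80) (nat_lit 5) (nat_lit 478) (nat_lit 343) (nat_lit 319))) (XT.nd (nat_lit 78) (nat_lit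 228) (nat_lit 0) (XT.lf (nat_lit 0) (nat_lit 4225106008) (nat_lit 304) (nat_lit 6509476220) (nat_lit 76) (nat_lit 1646318445) (nat_lit 76) (nat_lit 5) (nat_lit 80) (nat_lit 5) (nat_lit 77) (nat_lit 4) (nat_lit 479) (nat_lit 343) (nat_lit 318)) (XT.lf (nat_lit 0) (nat_lit 1037009061) (nat_lit 228) (nat_lit 7151939504) (nat_lit 304) (nat_lit 4345404617) (nat_lit 73) (nat_lit 5) (nat_lit 76) (nat_lit 5) (nat_lit 77) (nat_lit 4) (nat_lit 480) (nat_lit 343) (nat_lit 317)))))) (XT.nd (nat_lit 546) (nat_lit 912) (nat_lit 0) (XT.nd (nat_lit 234) (nat_lit 684) (nat_lit 0) (XT.nd (nat_lit 78) (nat_lit 304) (nat_lit 0) (XT.lf (nat_lit 0) (nat_lit 8739445939) (nat_lit 228) (nat_lit 3486079164) (nat_lit 304) (nat_lit 465496253) (nat_lit 73) (nat_lit 5) (nat_lit 76) (nat_lit 5) (nat_lit 77) (nat_lit 4) (nat_lit 481) (nat_lit 343) (nat_lit 316)) (XT.nd (nat_lit 78) (nat_lit 0) (nat_lit 0) (XT.lf (nat_lit 0) (nat_lit 3422318926)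 (nat_lit 304) (nat_lit 9164083009) (nat_lit 76) (nat_lit 264460518) (nat_lit 69) (nat_lit 5) (nat_lit 73) (nat_lit 5) (nat_lit 70) (nat_lit 4) (nat_lit 482) (nat_lit 343) (nat_lit 315)) (XT.lf (nat_lit 0) (nat_lit 7382091310) (nat_lit 304) (nat_lit 1590752072) (nat_lit 76) (nat_lit 4041001623) (nat_lit 69) (nat_lit 5) (nat_lit 73) (nat_lit 5) (nat_lit 70) (nat_lit 4) (nat_lit 483) (nat_lit 343) (nat_lit 314)))) (XT.nd (nat_lit 156) (nat_lit 152) (nat_lit 0) (XT.nd (nat_lit 78) (nat_lit 304) (nat_lit 0) (XT.lf (nat_lit 0) (nat_lit 6133603393) (nat_lit 228) (nat_lit 5278895534) (nat_lit 304) (nat_lit 1767774043) (nat_lit 66) (nat_lit 5) (nat_lit 69) (nat_lit 5) (nat_lit 70) (nat_lit 4) (nat_lit 484) (nat_lit 343) (nat_lit 313)) (XT.lf (nat_lit 0) (nat_lit 596829171) (nat_lit 228) (nat_lit 1514482544) (nat_lit 304) (nat_lit 11239122895) (nat_lit 62) (nat_lit 5) (nat_lit 65) (nat_lit 5) (nat_lit 66) (nat_lit 5) (nat_lit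 485) (nat_lit 343) (nat_lit 312))) (XT.nd (nat_lit 78) (nat_lit 152) (nat_lit 0) (XT.lf (nat_lit 0) (nat_lit 6058951969) (nat_lit 304) (nat_lit 5142688809) (nat_lit 76) (nat_lit 2321845859) (nat_lit 62) (nat_lit 5) (nat_lit 66) (nat_lit 5) (nat_lit 63) (nat_lit 4) (nat_lit 486) (nat_lit 343) (nat_lit 311)) (XT.lf (nat_lit 0) (nat_lit 2564406685) (nat_lit 152) (nat_lit 7500684782) (nat_lit 228) (nat_lit 3635330759) (nat_lit 60) (nat_lit 5) (nat_lit 62) (nat_lit 5) (nat_lit 63) (nat_lit 4) (nat_lit 487) (nat_lit 343) (nat_lit 310))))) (XT.nd (nat_lit 312) (nat_lit 456) (nat_lit 0) (XT.nd (nat_lit 156) (nat_lit 152) (nat_lit 0) (XT.nd (nat_lit 78) (nat_lit 228) (nat_lit 0) (XT.lf (nat_lit 0) (nat_lit 254603805) (nat_lit 228) (nat_lit 3466592869) (nat_lit 76) (nat_lit 10159923786) (nat_lit 59) (nat_lit 5) (nat_lit 62) (nat_lit 5) (nat_lit 60) (nat_lit 5) (nat_lit 488) (nat_lit 343) (nat_lit 309)) (XT.lf (nat_lit 0)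 (nat_lit 4156575234) (nat_lit 304) (nat_lit 9755849127) (nat_lit 76) (nat_lit 152882076) (nat_lit 56) (nat_lit 5) (nat_lit 60) (nat_lit 5) (nat_lit 57) (nat_lit 4) (nat_lit 489) (nat_lit 343) (nat_lit 308))) (XT.nd (nat_lit 78) (nat_lit 152) (nat_lit 0) (XT.lf (nat_lit 0) (nat_lit 8138716475) (nat_lit 304) (nat_lit 2067887274) (nat_lit 76) (nat_lit 4046542203) (nat_lit 56) (nat_lit 5) (nat_lit 60) (nat_lit 5) (nat_lit 57) (nat_lit 4) (nat_lit 490) (nat_lit 343) (nat_lit 307)) (XT.lf (nat_lit 0) (nat_lit 5772683081) (nat_lit 152) (nat_lit 6420268114) (nat_lit 228) (nat_lit 2251954231) (nat_lit 54) (nat_lit 5) (nat_lit 56) (nat_lit 5) (nat_lit 57) (nat_lit 4) (nat_lit 491) (nat_lit 343) (nat_lit 306)))) (XT.nd (nat_lit 156) (nat_lit 152) (nat_lit 0) (XT.nd (nat_lit 78) (nat_lit 228) (nat_lit 0) (XT.lf (nat_lit 0) (nat_lit 1634653935) (nat_lit 228) (nat_lit 930140898) (nat_lit 76) (nat_lit 12076117425) (nat_lit 53)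 (nat_lit 5) (nat_lit 56) (nat_lit 5) (nat_lit 54) (nat_lit 5) (nat_lit 492) (nat_lit 343) (nat_lit 305)) (XT.lf (nat_lit 0) (nat_lit 5579115204) (nat_lit 304) (nat_lit 7881806509) (nat_lit 76) (nat_lit 1379425794) (nat_lit 50) (nat_lit 5) (nat_lit 54) (nat_lit 5) (nat_lit 51) (nat_lit 4) (nat_lit 493) (nat_lit 343) (nat_lit 304))) (XT.nd (nat_lit 78) (nat_lit 152) (nat_lit 0) (XT.lf (nat_lit 0) (nat_lit 9581840247) (nat_lit 304) (nat_lit 118708990) (nat_lit 76) (nat_lit 5343645986) (nat_lit 50) (nat_lit 5) (nat_lit 54) (nat_lit 5) (nat_lit 51) (nat_lit 4) (nat_lit 494) (nat_lit 343) (nat_lit 303)) (XT.lf (nat_lit 0) (nat_lit 7828160893) (nat_lit 152) (nat_lit 5844251257) (nat_lit 228) (nat_lit 1579562931) (nat_lit 48) (nat_lit 5) (nat_lit 50) (nat_lit 5) (nat_lit 51) (nat_lit 4) (nat_lit 495) (nat_lit 343) (nat_lit 302))))))))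
noncomputable def xc28 : XT := (XT.nd (nat_lit 2184) (nat_lit 532) (nat_lit 0) (XT.nd (nat_lit 1092) (nat_lit 684) (nat_lit 0) (XT.nd (nat_lit 546) (nat_lit 760) (nat_lit 0) (XT.nd (nat_lit 234) (nat_lit 228) (nat_lit 0) (XT.nd (nat_lit 78) (nat_lit 152) (nat_lit 0) (XT.lf (nat_lit 0) (nat_lit 387044316) (nat_lit 228) (nat_lit 1922968709) (nat_lit 304) (nat_lit 13154391873) (nat_lit 44) (nat_lit 5) (nat_lit 47) (nat_lit 5) (nat_lit 48) (nat_lit 5) (nat_lit 496) (nat_lit 343) (nat_lit 301)) (XT.nd (nat_lit 78) (nat_lit 152) (nat_lit 0) (XT.lf (nat_lit 0) (nat_lit 6277081210) (nat_lit 304) (nat_lit 7324031876) (nat_lit 76) (nat_lit 2079354784) (nat_lit 44) (nat_lit 5) (nat_lit 48) (nat_lit 5) (nat_lit 45) (nat_lit 4) (nat_lit 497) (nat_lit 343) (nat_lit 300)) (XT.lf (nat_lit 0) (nat_lit 505292284) (nat_lit 152) (nat_lit 9792253369) (nat_lit 228) (nat_lit 5603835543) (nat_lit 42) (nat_lit 5) (nat_lit 44) (nat_lit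 5) (nat_lit 45) (nat_lit 4) (nat_lit 498) (nat_lit 343) (nat_lit 299)))) (XT.nd (nat_lit 156) (nat_lit 0) (nat_lit 0) (XT.nd (nat_lit 78) (nat_lit 228) (nat_lit 0) (XT.lf (nat_lit 0) (nat_lit 8517998899) (nat_lit 152) (nat_lit 5887960053) (nat_lit 228) (nat_lit 1720613039) (nat_lit 42) (nat_lit 5) (nat_lit 44) (nat_lit 5) (nat_lit 45) (nat_lit 4) (nat_lit 499) (nat_lit 343) (nat_lit 298)) (XT.lf (nat_lit 0) (nat_lit 251833131) (nat_lit 152) (nat_lit 1919621749) (nat_lit 228) (nat_lit 14185319169) (nat_lit 39) (nat_lit 5) (nat_lit 41) (nat_lit 5) (nat_lit 42) (nat_lit 5) (nat_lit 500) (nat_lit 343) (nat_lit 297))) (XT.nd (nat_lit 78) (nat_lit 0) (nat_lit 0) (XT.lf (nat_lit 0) (nat_lit 6142632696) (nat_lit 228) (nat_lit 8315297902) (nat_lit 76) (nat_lit 2132945352) (nat_lit 39) (nat_lit 5) (nat_lit 42) (nat_lit 5) (nat_lit 40) (nat_lit 4) (nat_lit 501) (nat_lit 343) (nat_lit 296)) (XT.lf (nat_lit 0) (nat_lit 10165822697)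 (nat_lit 228) (nat_lit 452940191) (nat_lit 76) (nat_lit 6211454460) (nat_lit 39) (nat_lit 5) (nat_lit 42) (nat_lit 5) (nat_lit 40) (nat_lit 4) (nat_lit 502) (nat_lit 343) (nat_lit 295))))) (XT.nd (nat_lit 234) (nat_lit 380) (nat_lit 0) (XT.nd (nat_lit 78) (nat_lit 228) (nat_lit 0) (XT.lf (nat_lit 0) (nat_lit 7597319155) (nat_lit 152) (nat_lit 6682146826) (nat_lit 228) (nat_lit 2794688855) (nat_lit 37) (nat_lit 5) (nat_lit 39) (nat_lit 5) (nat_lit 40) (nat_lit 4) (nat_lit 503) (nat_lit 343) (nat_lit 294)) (XT.nd (nat_lit 78) (nat_lit 152) (nat_lit 0) (XT.lf (nat_lit 0) (nat_lit 1101078482) (nat_lit 228) (nat_lit 1584751774) (nat_lit 76) (nat_lit 14637724242) (nat_lit 36) (nat_lit 5) (nat_lit 39) (nat_lit 5) (nat_lit 37) (nat_lit 5) (nat_lit 504) (nat_lit 343) (nat_lit 293)) (XT.lf (nat_lit 0) (nat_lit 5050072542) (nat_lit 228) (nat_lit 11123019201) (nat_lit 76) (nat_lit 1404234839) (nat_lit 34) (nat_lit 5) (nat_lit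 37) (nat_lit 5) (nat_lit 35) (nat_lit 4) (nat_lit 505) (nat_lit 343) (nat_lit 292)))) (XT.nd (nat_lit 156) (nat_lit 228) (nat_lit 0) (XT.nd (nat_lit 78) (nat_lit 152) (nat_lit 0) (XT.lf (nat_lit 0) (nat_lit 9068160028) (nat_lit 228) (nat_lit 3246035679) (nat_lit 76) (nat_lit 5522184490) (nat_lit 34) (nat_lit 5) (nat_lit 37) (nat_lit 5) (nat_lit 35) (nat_lit 4) (nat_lit 506) (nat_lit 343) (nat_lit 291)) (XT.lf (nat_lit 0) (nat_lit 4784724019) (nat_lit 152) (nat_lit 8375325007) (nat_lit 228) (nat_lit 4940705260) (nat_lit 32) (nat_lit 5) (nat_lit 34) (nat_lit 5) (nat_lit 35) (nat_lit 4) (nat_lit 507) (nat_lit 343) (nat_lit 290))) (XT.nd (nat_lit 78) (nat_lit 228) (nat_lit 0) (XT.lf (nat_lit 0) (nat_lit 12954021376) (nat_lit 152) (nat_lit 4364219935) (nat_lit 228) (nat_lit 1052493275) (nat_lit 32) (nat_lit 5) (nat_lit 34) (nat_lit 5) (nat_lit 35) (nat_lit 4) (nat_lit 508) (nat_lit 343) (nat_lit 289)) (XT.lf (nat_lit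 0) (nat_lit 2590367056) (nat_lit 152) (nat_lit 264887963) (nat_lit 228) (nat_lit 15790889214) (nat_lit 29) (nat_lit 5) (nat_lit 31) (nat_lit 5) (nat_lit 32) (nat_lit 5) (nat_lit 509) (nat_lit 343) (nat_lit 288)))))) (XT.nd (nat_lit 546) (nat_lit 304) (nat_lit 0) (XT.nd (nat_lit 234) (nat_lit 304) (nat_lit 0) (XT.nd (nat_lit 78) (nat_lit 76) (nat_lit 0) (XT.lf (nat_lit 0) (nat_lit 6852378258) (nat_lit 228) (nat_lit 8193365068) (nat_lit 76) (nat_lit 3880680923) (nat_lit 29) (nat_lit 5) (nat_lit 32) (nat_lit 5) (nat_lit 30) (nat_lit 4) (nat_lit 510) (nat_lit 343) (nat_lit 287)) (XT.nd (nat_lit 78) (nat_lit 76) (nat_lit 0) (XT.lf (nat_lit 0) (nat_lit 10895200054) (nat_lit 228) (nat_lit 239581426) (nat_lit 76) (nat_lit 8078220689) (nat_lit 29) (nat_lit 5) (nat_lit 32) (nat_lit 5) (nat_lit 30) (nat_lit 4) (nat_lit 511) (nat_lit 343) (nat_lit 286)) (XT.lf (nat_lit 0) (nat_lit 7914208980) (nat_lit 76) (nat_lit 7120761313)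 (nat_lit 152) (nat_lit 4470026794) (nat_lit 28) (nat_lit 5) (nat_lit 29) (nat_lit 5) (nat_lit 30) (nat_lit 4) (nat_lit 512) (nat_lit 343) (nat_lit 285)))) (XT.nd (nat_lit 156) (nat_lit 76) (nat_lit 0) (XT.nd (nat_lit 78) (nat_lit 228) (nat_lit 0) (XT.lf (nat_lit 0) (nat_lit 16171871190) (nat_lit 76) (nat_lit 3052266707) (nat_lit 152) (nat_lit 579369105) (nat_lit 28) (nat_lit 5) (nat_lit 29) (nat_lit 5) (nat_lit 30) (nat_lit 4) (nat_lit 513) (nat_lit 343) (nat_lit 284)) (XT.lf (nat_lit 0) (nat_lit 3346354306) (nat_lit 228) (nat_lit 15653437601) (nat_lit 76) (nat_lit 1107727957) (nat_lit 25) (nat_lit 5) (nat_lit 28) (nat_lit 5) (nat_lit 26) (nat_lit 4) (nat_lit 514) (nat_lit 343) (nat_lit 283))) (XT.nd (nat_lit 78) (nat_lit 76) (nat_lit 0) (XT.lf (nat_lit 0) (nat_lit 7353137610) (nat_lit 228) (nat_lit 7752399111) (nat_lit 76) (nat_lit 5311800330) (nat_lit 25) (nat_lit 5) (nat_lit 28) (nat_lit 5) (nat_lit 26) (nat_lit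 4) (nat_lit 515) (nat_lit 343) (nat_lit 282)) (XT.lf (nat_lit 0) (nat_lit 249338052) (nat_lit 76) (nat_lit 11158563531) (nat_lit 152) (nat_lit 9326098692) (nat_lit 24) (nat_lit 5) (nat_lit 25) (nat_lit 5) (nat_lit 26) (nat_lit 4) (nat_lit 516) (nat_lit 343) (nat_lit 281))))) (XT.nd (nat_lit 234) (nat_lit 76) (nat_lit 0) (XT.nd (nat_lit 78) (nat_lit 228) (nat_lit 0) (XT.lf (nat_lit 0) (nat_lit 8456002195) (nat_lit 76) (nat_lit 7106278873) (nat_lit 152) (nat_lit 5494351756) (nat_lit 24) (nat_lit 5) (nat_lit 25) (nat_lit 5) (nat_lit 26) (nat_lit 4) (nat_lit 517) (nat_lit 343) (nat_lit 280)) (XT.nd (nat_lit 78) (nat_lit 228) (nat_lit 0) (XT.lf (nat_lit 0) (nat_lit 16767786311) (nat_lit 76) (nat_lit 2999116294) (nat_lit 152) (nat_lit 1619478668) (nat_lit 24) (nat_lit 5) (nat_lit 25) (nat_lit 5) (nat_lit 26) (nat_lit 4) (nat_lit 518) (nat_lit 343) (nat_lit 279)) (XT.lf (nat_lit 0) (nat_lit 2300379829) (nat_lit 228) (nat_lit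 18234946966) (nat_lit 76) (nat_lit 1187139366) (nat_lit 21) (nat_lit 5) (nat_lit 24) (nat_lit 5) (nat_lit 22) (nat_lit 4) (nat_lit 519) (nat_lit 343) (nat_lit 278)))) (XT.nd (nat_lit 156) (nat_lit 76) (nat_lit 0) (XT.nd (nat_lit 78) (nat_lit 0) (nat_lit 0) (XT.lf (nat_lit 0) (nat_lit 6295702748) (nat_lit 228) (nat_lit 10335474598) (nat_lit 76) (nat_lit 5433512238) (nat_lit 21) (nat_lit 5) (nat_lit 24) (nat_lit 5) (nat_lit 22) (nat_lit 4) (nat_lit 520) (nat_lit 343) (nat_lit 277)) (XT.lf (nat_lit 0) (nat_lit 10339237661) (nat_lit 228) (nat_lit 2335259493) (nat_lit 76) (nat_lit 9739900065) (nat_lit 21) (nat_lit 5) (nat_lit 24) (nat_lit 5) (nat_lit 22) (nat_lit 4) (nat_lit 521) (nat_lit 343) (nat_lit 276))) (XT.nd (nat_lit 78) (nat_lit 0) (nat_lit 0) (XT.lf (nat_lit 0) (nat_lit 5845500476) (nat_lit 76) (nat_lit 8625022658) (nat_lit 152) (nat_lit 8300444016) (nat_lit 20) (nat_lit 5) (nat_lit 21) (nat_lit 5) (nat_lit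 22) (nat_lit 4) (nat_lit 522) (nat_lit 343) (nat_lit 275)) (XT.lf (nat_lit 0) (nat_lit 14165775714) (nat_lit 76) (nat_lit 4503503694) (nat_lit 152) (nat_lit 4465697796) (nat_lit 20) (nat_lit 5) (nat_lit 21) (nat_lit 5) (nat_lit 22) (nat_lit 4) (nat_lit 523) (nat_lit 343) (nat_lit 274))))))) (XT.nd (nat_lit 54132) (nat_lit 0) (nat_lit 6308) (XT.nd (nat_lit 546) (nat_lit 228) (nat_lit 0) (XT.nd (nat_lit 234) (nat_lit 76) (nat_lit 0) (XT.nd (nat_lit 78) (nat_lit 228) (nat_lit 0) (XT.lf (nat_lit 0) (nat_lit 22597794705) (nat_lit 76) (nat_lit 323994802) (nat_lit 152) (nat_lit 585087897) (nat_lit 20) (nat_lit 5) (nat_lit 21) (nat_lit 5) (nat_lit 22) (nat_lit 4) (nat_lit 524) (nat_lit 343) (nat_lit 273)) (XT.nd (nat_lit 78) (nat_lit 0) (nat_lit 0) (XT.lf (nat_lit 0) (nat_lit 3372550921) (nat_lit 228) (nat_lit 16578792689) (nat_lit 76) (nat_lit 3933566167) (nat_lit 17) (nat_lit 5) (nat_lit 20) (nat_lit 5) (nat_lit 18)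 (nat_lit 4) (nat_lit 525) (nat_lit 343) (nat_lit 272)) (XT.lf (nat_lit 0) (nat_lit 7380052277) (nat_lit 228) (nat_lit 8632575322) (nat_lit 76) (nat_lit 8258232167) (nat_lit 17) (nat_lit 5) (nat_lit 20) (nat_lit 5) (nat_lit 18) (nat_lit 4) (nat_lit 526) (nat_lit 343) (nat_lit 271)))) (XT.nd (nat_lit 156) (nat_lit 0) (nat_lit 0) (XT.nd (nat_lit 78) (nat_lit 76) (nat_lit 0) (XT.lf (nat_lit 0) (nat_lit 11438537267) (nat_lit 228) (nat_lit 580450713) (nat_lit 76) (nat_lit 12646129201) (nat_lit 17) (nat_lit 5) (nat_lit 20) (nat_lit 5) (nat_lit 18) (nat_lit 4) (nat_lit 527) (nat_lit 343) (nat_lit 270)) (XT.lf (nat_lit 0) (nat_lit 7681482864) (nat_lit 76) (nat_lit 7917987872) (nat_lit 152) (nat_lit 9467368428) (nat_lit 16) (nat_lit 5) (nat_lit 17) (nat_lit 5) (nat_lit 18) (nat_lit 4) (nat_lit 528) (nat_lit 343) (nat_lit 269))) (XT.nd (nat_lit 78) (nat_lit 0) (nat_lit 0) (XT.lf (nat_lit 0) (nat_lit 16064887681) (nat_lit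 76) (nat_lit 3754261245) (nat_lit 152) (nat_lit 5657941039) (nat_lit 16) (nat_lit 5) (nat_lit 17) (nat_lit 5) (nat_lit 18) (nat_lit 4) (nat_lit 529) (nat_lit 343) (nat_lit 268)) (XT.lf (nat_lit 0) (nat_lit 24098458953) (nat_lit 152) (nat_lit 1333820477) (nat_lit 0) (nat_lit 463766390) (nat_lit 16) (nat_lit 5) (nat_lit 18) (nat_lit 4) (nat_lit 16) (nat_lit 4) (nat_lit 530) (nat_lit 343) (nat_lit 267))))) (XT.nd (nat_lit 53274) (nat_lit 0) (nat_lit 10336) (XT.nd (nat_lit 78) (nat_lit 0) (nat_lit 0) (XT.lf (nat_lit 0) (nat_lit 2154576632) (nat_lit 228) (nat_lit 19414698114) (nat_lit 76) (nat_lit 4752979413) (nat_lit 13) (nat_lit 5) (nat_lit 16) (nat_lit 5) (nat_lit 14) (nat_lit 4) (nat_lit 531) (nat_lit 343) (nat_lit 266)) (XT.nd (nat_lit 53118) (nat_lit 0) (nat_lit 11324) (XT.lf (nat_lit 0) (nat_lit 6143363562) (nat_lit 228) (nat_lit 11487005719) (nat_lit 76) (nat_lit 9126751270) (nat_lit 13) (nat_lit 5) (nat_lit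 16) (nat_lit 5) (nat_lit 14) (nat_lit 4) (nat_lit 532) (nat_lit 343) (nat_lit 265)) (XT.lf (nat_lit 0) (nat_lit 68738329) (nat_lit 456) (nat_lit 2278815401) (nat_lit 456) (nat_lit 2278815401) (nat_lit 162) (nat_lit 4) (nat_lit 168) (nat_lit 5) (nat_lit 168) (nat_lit 4) (nat_lit 452) (nat_lit 344) (nat_lit 344)))) (XT.nd (nat_lit 156) (nat_lit 532) (nat_lit 0) (XT.nd (nat_lit 78) (nat_lit 456) (nat_lit 0) (XT.lf (nat_lit 0) (nat_lit 7041401058) (nat_lit 456) (nat_lit 1609402466) (nat_lit 456) (nat_lit 688499955) (nat_lit 162) (nat_lit 4) (nat_lit 168) (nat_lit 5) (nat_lit 168) (nat_lit 4) (nat_lit 453) (nat_lit 344) (nat_lit 343)) (XT.lf (nat_lit 0) (nat_lit 3191411784) (nat_lit 456) (nat_lit 4832850673) (nat_lit 0) (nat_lit 1403423441) (nat_lit 156) (nat_lit 5) (nat_lit 162) (nat_lit 4) (nat_lit 156) (nat_lit 4) (nat_lit 454) (nat_lit 344) (nat_lit 342))) (XT.nd (nat_lit 78) (nat_lit 76) (nat_lit 0) (XT.lf (nat_lit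 0) (nat_lit 2059455526) (nat_lit 456) (nat_lit 5057277529) (nat_lit 456) (nat_lit 2401502181) (nat_lit 150) (nat_lit 4) (nat_lit 156) (nat_lit 5) (nat_lit 156) (nat_lit 4) (nat_lit 455) (nat_lit 344) (nat_lit 341)) (XT.lf (nat_lit 0) (nat_lit 1460474791) (nat_lit 532) (nat_lit 556387841) (nat_lit 76) (nat_lit 7594160290) (nat_lit 149) (nat_lit 5) (nat_lit 156) (nat_lit 5) (nat_lit 150) (nat_lit 4) (nat_lit 456) (nat_lit 344) (nat_lit 340)))))) (XT.nd (nat_lit 546) (nat_lit 2052) (nat_lit 0) (XT.nd (nat_lit 234) (nat_lit 760) (nat_lit 0) (XT.nd (nat_lit 78) (nat_lit 836) (nat_lit 0) (XT.lf (nat_lit 0) (nat_lit 5355655643) (nat_lit 456) (nat_lit 3249830480) (nat_lit 0) (nat_lit 1100129468) (nat_lit 144) (nat_lit 5) (nat_lit 150) (nat_lit 4) (nat_lit 144) (nat_lit 4) (nat_lit 457) (nat_lit 344) (nat_lit 339)) (XT.nd (nat_lit 78) (nat_lit 456) (nat_lit 0) (XT.lf (nat_lit 0) (nat_lit 3759434549) (nat_lit 380) (nat_lit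 5550152203) (nat_lit 380) (nat_lit 492924973) (nat_lit 139) (nat_lit 4) (nat_lit 144) (nat_lit 5) (nat_lit 144) (nat_lit 4) (nat_lit 458) (nat_lit 344) (nat_lit 338)) (XT.lf (nat_lit 0) (nat_lit 951574679) (nat_lit 380) (nat_lit 2412179447) (nat_lit 456) (nat_lit 6537819513) (nat_lit 133) (nat_lit 5) (nat_lit 138) (nat_lit 5) (nat_lit 139) (nat_lit 4) (nat_lit 459) (nat_lit 344) (nat_lit 337)))) (XT.nd (nat_lit 156) (nat_lit 304) (nat_lit 0) (XT.nd (nat_lit 78) (nat_lit 456) (nat_lit 0) (XT.lf (nat_lit 0) (nat_lit 7276826890) (nat_lit 456) (nat_lit 1933304282) (nat_lit 0) (nat_lit 792730144) (nat_lit 133) (nat_lit 5) (nat_lit 139) (nat_lit 4) (nat_lit 133) (nat_lit 4) (nat_lit 460) (nat_lit 344) (nat_lit 336)) (XT.lf (nat_lit 0) (nat_lit 1137401145) (nat_lit 456) (nat_lit 4927194286) (nat_lit 76) (nat_lit 4041641195) (nat_lit 127) (nat_lit 5) (nat_lit 133) (nat_lit 5) (nat_lit 128) (nat_lit 4) (nat_lit 461) (nat_lit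 344) (nat_lit 335))) (XT.nd (nat_lit 78) (nat_lit 0) (nat_lit 0) (XT.lf (nat_lit 0) (nat_lit 2169416888) (nat_lit 304) (nat_lit 2840626098) (nat_lit 380) (nat_lit 5201932636) (nat_lit 123) (nat_lit 5) (nat_lit 127) (nat_lit 5) (nat_lit 128) (nat_lit 4) (nat_lit 462) (nat_lit 344) (nat_lit 334)) (XT.lf (nat_lit 0) (nat_lit 8937965795) (nat_lit 380) (nat_lit 937265643) (nat_lit 0) (nat_lit 445066248) (nat_lit 123) (nat_lit 5) (nat_lit 128) (nat_lit 4) (nat_lit 123) (nat_lit 4) (nat_lit 463) (nat_lit 344) (nat_lit 333))))) (XT.nd (nat_lit 312) (nat_lit 912) (nat_lit 0) (XT.nd (nat_lit 156) (nat_lit 380) (nat_lit 0) (XT.nd (nat_lit 78) (nat_lit 304) (nat_lit 0) (XT.lf (nat_lit 0) (nat_lit 2483091209) (nat_lit 456) (nat_lit 4161299435) (nat_lit 76) (nat_lit 3786045076) (nat_lit 117) (nat_lit 5) (nat_lit 123) (nat_lit 5) (nat_lit 118) (nat_lit 4) (nat_lit 464) (nat_lit 344) (nat_lit 332)) (XT.lf (nat_lit 0) (nat_lit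 3032126609) (nat_lit 304) (nat_lit 3344159463) (nat_lit 380) (nat_lit 4166951660) (nat_lit 113) (nat_lit 5) (nat_lit 117) (nat_lit 5) (nat_lit 118) (nat_lit 4) (nat_lit 465) (nat_lit 344) (nat_lit 331))) (XT.nd (nat_lit 78) (nat_lit 380) (nat_lit 0) (XT.lf (nat_lit 0) (nat_lit 10318883724) (nat_lit 380) (nat_lit 320772823) (nat_lit 0) (nat_lit 19231416) (nat_lit 113) (nat_lit 5) (nat_lit 118) (nat_lit 4) (nat_lit 113) (nat_lit 4) (nat_lit 466) (nat_lit 344) (nat_lit 330)) (XT.lf (nat_lit 0) (nat_lit 3528772230) (nat_lit 380) (nat_lit 3803668214) (nat_lit 76) (nat_lit 3443729575) (nat_lit 108) (nat_lit 5) (nat_lit 113) (nat_lit 5) (nat_lit 109) (nat_lit 4) (nat_lit 467) (nat_lit 344) (nat_lit 329)))) (XT.nd (nat_lit 156) (nat_lit 532) (nat_lit 0) (XT.nd (nat_lit 78) (nat_lit 76) (nat_lit 0) (XT.lf (nat_lit 0) (nat_lit 3476577890) (nat_lit 304) (nat_lit 3963079040) (nat_lit 380) (nat_lit 3456731763) (nat_lit 104)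 (nat_lit 5) (nat_lit 108) (nat_lit 5) (nat_lit 109) (nat_lit 4) (nat_lit 468) (nat_lit 344) (nat_lit 328)) (XT.lf (nat_lit 0) (nat_lit 374750995) (nat_lit 380) (nat_lit 154513167) (nat_lit 76) (nat_lit 10490307618) (nat_lit 103) (nat_lit 5) (nat_lit 108) (nat_lit 5) (nat_lit 104) (nat_lit 5) (nat_lit 469) (nat_lit 344) (nat_lit 327))) (XT.nd (nat_lit 78) (nat_lit 228) (nat_lit 0) (XT.lf (nat_lit 0) (nat_lit 4248978345) (nat_lit 380) (nat_lit 3921763750) (nat_lit 76) (nat_lit 2973791828) (nat_lit 99) (nat_lit 5) (nat_lit 104) (nat_lit 5) (nat_lit 100) (nat_lit 4) (nat_lit 470) (nat_lit 344) (nat_lit 326)) (XT.lf (nat_lit 0) (nat_lit 3433445792) (nat_lit 228) (nat_lit 4740163455) (nat_lit 304) (nat_lit 3098947668) (nat_lit 96) (nat_lit 5) (nat_lit 99) (nat_lit 5) (nat_lit 100) (nat_lit 4) (nat_lit 471) (nat_lit 344) (nat_lit 325))))))))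
noncomputable def xc29 : XT := (XT.nd (nat_lit 2184) (nat_lit 1976) (nat_lit 0) (XT.nd (nat_lit 1092) (nat_lit 1748) (nat_lit 0) (XT.nd (nat_lit 546) (nat_lit 1064) (nat_lit 0) (XT.nd (nat_lit 234) (nat_lit 684) (nat_lit 0) (XT.nd (nat_lit 78) (nat_lit 532) (nat_lit 0) (XT.lf (nat_lit 0) (nat_lit 736146831) (nat_lit 304) (nat_lit 504852181) (nat_lit 76) (nat_lit 10162606105) (nat_lit 95) (nat_lit 5) (nat_lit 99) (nat_lit 5) (nat_lit 96) (nat_lit 5) (nat_lit 472) (nat_lit 344) (nat_lit 324)) (XT.nd (nat_lit 78) (nat_lit 228) (nat_lit 0) (XT.lf (nat_lit 0) (nat_lit 4614302957) (nat_lit 380) (nat_lit 4589770439) (nat_lit 76) (nat_lit 2332652947) (nat_lit 91) (nat_lit 5) (nat_lit 96) (nat_lit 5) (nat_lit 92) (nat_lit 4) (nat_lit 473) (nat_lit 344) (nat_lit 323)) (XT.lf (nat_lit 0) (nat_lit 2826449413) (nat_lit 228) (nat_lit 5721102465) (nat_lit 304) (nat_lit 3125425986) (nat_lit 88) (nat_lit 5) (nat_lit 91) (nat_lit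 5) (nat_lit 92) (nat_lit 4) (nat_lit 474) (nat_lit 344) (nat_lit 322)))) (XT.nd (nat_lit 156) (nat_lit 304) (nat_lit 0) (XT.nd (nat_lit 78) (nat_lit 304) (nat_lit 0) (XT.lf (nat_lit 0) (nat_lit 716381936) (nat_lit 304) (nat_lit 1447923574) (nat_lit 76) (nat_lit 9647996098) (nat_lit 87) (nat_lit 5) (nat_lit 91) (nat_lit 5) (nat_lit 88) (nat_lit 5) (nat_lit 475) (nat_lit 344) (nat_lit 321)) (XT.lf (nat_lit 0) (nat_lit 4591047139) (nat_lit 380) (nat_lit 5889398882) (nat_lit 76) (nat_lit 1473612612) (nat_lit 83) (nat_lit 5) (nat_lit 88) (nat_lit 5) (nat_lit 84) (nat_lit 4) (nat_lit 476) (nat_lit 344) (nat_lit 320))) (XT.nd (nat_lit 78) (nat_lit 76) (nat_lit 0) (XT.lf (nat_lit 0) (nat_lit 1571521625) (nat_lit 228) (nat_lit 6954962172) (nat_lit 304) (nat_lit 3572518496) (nat_lit 80) (nat_lit 5) (nat_lit 83) (nat_lit 5) (nat_lit 84) (nat_lit 4) (nat_lit 477) (nat_lit 344) (nat_lit 319)) (XT.lf (nat_lit 0) (nat_lit 278786659)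 (nat_lit 304) (nat_lit 3070232402) (nat_lit 76) (nat_lit 8898026906) (nat_lit 79) (nat_lit 5) (nat_lit 83) (nat_lit 5) (nat_lit 80) (nat_lit 5) (nat_lit 478) (nat_lit 344) (nat_lit 318))))) (XT.nd (nat_lit 234) (nat_lit 608) (nat_lit 0) (XT.nd (nat_lit 78) (nat_lit 228) (nat_lit 0) (XT.lf (nat_lit 0) (nat_lit 4140825495) (nat_lit 304) (nat_lit 7910769565) (nat_lit 76) (nat_lit 346368368) (nat_lit 76) (nat_lit 5) (nat_lit 80) (nat_lit 5) (nat_lit 77) (nat_lit 4) (nat_lit 479) (nat_lit 344) (nat_lit 317)) (XT.nd (nat_lit 78) (nat_lit 228) (nat_lit 0) (XT.lf (nat_lit 0) (nat_lit 8073338771) (nat_lit 304) (nat_lit 418540479) (nat_lit 76) (nat_lit 4060171074) (nat_lit 76) (nat_lit 5) (nat_lit 80) (nat_lit 5) (nat_lit 77) (nat_lit 4) (nat_lit 480) (nat_lit 344) (nat_lit 316)) (XT.lf (nat_lit 0) (nat_lit 7237946052) (nat_lit 228) (nat_lit 4844839424) (nat_lit 304) (nat_lit 626483268) (nat_lit 73) (nat_lit 5) (nat_lit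 76) (nat_lit 5) (nat_lit 77) (nat_lit 4) (nat_lit 481) (nat_lit 344) (nat_lit 315)))) (XT.nd (nat_lit 156) (nat_lit 304) (nat_lit 0) (XT.nd (nat_lit 78) (nat_lit 0) (nat_lit 0) (XT.lf (nat_lit 0) (nat_lit 2109215375) (nat_lit 228) (nat_lit 1118169945) (nat_lit 304) (nat_lit 9642473936) (nat_lit 69) (nat_lit 5) (nat_lit 72) (nat_lit 5) (nat_lit 73) (nat_lit 5) (nat_lit 482) (nat_lit 344) (nat_lit 314)) (XT.lf (nat_lit 0) (nat_lit 7155945508) (nat_lit 304) (nat_lit 3220095322) (nat_lit 76) (nat_lit 2657432428) (nat_lit 69) (nat_lit 5) (nat_lit 73) (nat_lit 5) (nat_lit 70) (nat_lit 4) (nat_lit 483) (nat_lit 344) (nat_lit 313))) (XT.nd (nat_lit 78) (nat_lit 76) (nat_lit 0) (XT.lf (nat_lit 0) (nat_lit 4442828187) (nat_lit 228) (nat_lit 6709064661) (nat_lit 304) (nat_lit 2048704647) (nat_lit 66) (nat_lit 5) (nat_lit 69) (nat_lit 5) (nat_lit 70) (nat_lit 4) (nat_lit 484) (nat_lit 344) (nat_lit 312)) (XT.lf (nat_lit 0)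 (nat_lit 1806754174) (nat_lit 304) (nat_lit 1159591206) (nat_lit 76) (nat_lit 10405003254) (nat_lit 65) (nat_lit 5) (nat_lit 69) (nat_lit 5) (nat_lit 66) (nat_lit 5) (nat_lit 485) (nat_lit 344) (nat_lit 311)))))) (XT.nd (nat_lit 546) (nat_lit 836) (nat_lit 0) (XT.nd (nat_lit 234) (nat_lit 532) (nat_lit 0) (XT.nd (nat_lit 78) (nat_lit 152) (nat_lit 0) (XT.lf (nat_lit 0) (nat_lit 5713955354) (nat_lit 304) (nat_lit 6965536116) (nat_lit 76) (nat_lit 865724632) (nat_lit 62) (nat_lit 5) (nat_lit 66) (nat_lit 5) (nat_lit 63) (nat_lit 4) (nat_lit 486) (nat_lit 344) (nat_lit 310)) (XT.nd (nat_lit 78) (nat_lit 0) (nat_lit 0) (XT.lf (nat_lit 0) (nat_lit 678167136) (nat_lit 152) (nat_lit 9006805306) (nat_lit 228) (nat_lit 4037888224) (nat_lit 60) (nat_lit 5) (nat_lit 62) (nat_lit 5) (nat_lit 63) (nat_lit 4) (nat_lit 487) (nat_lit 344) (nat_lit 309)) (XT.lf (nat_lit 0) (nat_lit 8491596997) (nat_lit 152) (nat_lit 5244748830)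 (nat_lit 228) (nat_lit 167706502) (nat_lit 60) (nat_lit 5) (nat_lit 62) (nat_lit 5) (nat_lit 63) (nat_lit 4) (nat_lit 488) (nat_lit 344) (nat_lit 308)))) (XT.nd (nat_lit 156) (nat_lit 228) (nat_lit 0) (XT.nd (nat_lit 78) (nat_lit 0) (nat_lit 0) (XT.lf (nat_lit 0) (nat_lit 2301409995) (nat_lit 228) (nat_lit 1398619142) (nat_lit 304) (nat_lit 10388965804) (nat_lit 56) (nat_lit 5) (nat_lit 59) (nat_lit 5) (nat_lit 60) (nat_lit 5) (nat_lit 489) (nat_lit 344) (nat_lit 307)) (XT.lf (nat_lit 0) (nat_lit 7650797817) (nat_lit 304) (nat_lit 4128592088) (nat_lit 76) (nat_lit 2498078032) (nat_lit 56) (nat_lit 5) (nat_lit 60) (nat_lit 5) (nat_lit 57) (nat_lit 4) (nat_lit 490) (nat_lit 344) (nat_lit 306))) (XT.nd (nat_lit 78) (nat_lit 76) (nat_lit 0) (XT.lf (nat_lit 0) (nat_lit 3646793153) (nat_lit 152) (nat_lit 8022581991) (nat_lit 228) (nat_lit 2800571327) (nat_lit 54) (nat_lit 5) (nat_lit 56) (nat_lit 5) (nat_lit 57) (nat_lit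 4) (nat_lit 491) (nat_lit 344) (nat_lit 305)) (XT.lf (nat_lit 0) (nat_lit 1071416053) (nat_lit 228) (nat_lit 3114863757) (nat_lit 76) (nat_lit 10480186736) (nat_lit 53) (nat_lit 5) (nat_lit 56) (nat_lit 5) (nat_lit 54) (nat_lit 5) (nat_lit 492) (nat_lit 344) (nat_lit 304))))) (XT.nd (nat_lit 234) (nat_lit 456) (nat_lit 0) (XT.nd (nat_lit 78) (nat_lit 152) (nat_lit 0) (XT.lf (nat_lit 0) (nat_lit 4716932873) (nat_lit 228) (nat_lit 253866939) (nat_lit 304) (nat_lit 9896009104) (nat_lit 50) (nat_lit 5) (nat_lit 53) (nat_lit 5) (nat_lit 54) (nat_lit 5) (nat_lit 493) (nat_lit 344) (nat_lit 303)) (XT.nd (nat_lit 78) (nat_lit 152) (nat_lit 0) (XT.lf (nat_lit 0) (nat_lit 8950572992) (nat_lit 304) (nat_lit 2421841799) (nat_lit 76) (nat_lit 3698706341) (nat_lit 50) (nat_lit 5) (nat_lit 54) (nat_lit 5) (nat_lit 51) (nat_lit 4) (nat_lit 494) (nat_lit 344) (nat_lit 302)) (XT.lf (nat_lit 0) (nat_lit 5457950637) (nat_lit 152)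 (nat_lit 7546919407) (nat_lit 228) (nat_lit 2274761798) (nat_lit 48) (nat_lit 5) (nat_lit 50) (nat_lit 5) (nat_lit 51) (nat_lit 4) (nat_lit 495) (nat_lit 344) (nat_lit 301)))) (XT.nd (nat_lit 156) (nat_lit 152) (nat_lit 0) (XT.nd (nat_lit 78) (nat_lit 228) (nat_lit 0) (XT.lf (nat_lit 0) (nat_lit 1600568054) (nat_lit 228) (nat_lit 2047422331) (nat_lit 76) (nat_lit 11844633970) (nat_lit 47) (nat_lit 5) (nat_lit 50) (nat_lit 5) (nat_lit 48) (nat_lit 5) (nat_lit 496) (nat_lit 344) (nat_lit 300)) (XT.lf (nat_lit 0) (nat_lit 5522104546) (nat_lit 304) (nat_lit 9839027765) (nat_lit 76) (nat_lit 348470696) (nat_lit 44) (nat_lit 5) (nat_lit 48) (nat_lit 5) (nat_lit 45) (nat_lit 4) (nat_lit 497) (nat_lit 344) (nat_lit 299))) (XT.nd (nat_lit 78) (nat_lit 152) (nat_lit 0) (XT.lf (nat_lit 0) (nat_lit 9518922984) (nat_lit 304) (nat_lit 2051742770) (nat_lit 76) (nat_lit 4360328447) (nat_lit 44) (nat_lit 5) (nat_lit 48) (nat_lit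 5) (nat_lit 45) (nat_lit 4) (nat_lit 498) (nat_lit 344) (nat_lit 298)) (XT.lf (nat_lit 0) (nat_lit 5898518071) (nat_lit 152) (nat_lit 7695125505) (nat_lit 228) (nat_lit 2563220124) (nat_lit 42) (nat_lit 5) (nat_lit 44) (nat_lit 5) (nat_lit 45) (nat_lit 4) (nat_lit 499) (nat_lit 344) (nat_lit 297))))))) (XT.nd (nat_lit 1092) (nat_lit 912) (nat_lit 0) (XT.nd (nat_lit 546) (nat_lit 456) (nat_lit 0) (XT.nd (nat_lit 234) (nat_lit 380) (nat_lit 0) (XT.nd (nat_lit 78) (nat_lit 152) (nat_lit 0) (XT.lf (nat_lit 0) (nat_lit 1318329432) (nat_lit 228) (nat_lit 2430530459) (nat_lit 76) (nat_lit 12638751331) (nat_lit 41) (nat_lit 5) (nat_lit 44) (nat_lit 5) (nat_lit 42) (nat_lit 5) (nat_lit 500) (nat_lit 344) (nat_lit 296)) (XT.nd (nat_lit 78) (nat_lit 0) (nat_lit 0) (XT.lf (nat_lit 0) (nat_lit 5241670977) (nat_lit 228) (nat_lit 11083970796) (nat_lit 76) (nat_lit 297032646) (nat_lit 39) (nat_lit 5) (nat_lit 42) (nat_lit 5) (nat_lit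 40) (nat_lit 4) (nat_lit 501) (nat_lit 344) (nat_lit 295)) (XT.lf (nat_lit 0) (nat_lit 9245387041) (nat_lit 228) (nat_lit 3255764434) (nat_lit 76) (nat_lit 4361258301) (nat_lit 39) (nat_lit 5) (nat_lit 42) (nat_lit 5) (nat_lit 40) (nat_lit 4) (nat_lit 502) (nat_lit 344) (nat_lit 294)))) (XT.nd (nat_lit 156) (nat_lit 152) (nat_lit 0) (XT.nd (nat_lit 78) (nat_lit 76) (nat_lit 0) (XT.lf (nat_lit 0) (nat_lit 4723320184) (nat_lit 152) (nat_lit 8597958140) (nat_lit 228) (nat_lit 3785828373) (nat_lit 37) (nat_lit 5) (nat_lit 39) (nat_lit 5) (nat_lit 40) (nat_lit 4) (nat_lit 503) (nat_lit 344) (nat_lit 293)) (XT.lf (nat_lit 0) (nat_lit 103874603) (nat_lit 228) (nat_lit 4518786475) (nat_lit 76) (nat_lit 12734359473) (nat_lit 36) (nat_lit 5) (nat_lit 39) (nat_lit 5) (nat_lit 37) (nat_lit 5) (nat_lit 504) (nat_lit 344) (nat_lit 292))) (XT.nd (nat_lit 78) (nat_lit 0) (nat_lit 0) (XT.lf (nat_lit 0) (nat_lit 3457405574) (nat_lit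 152) (nat_lit 548016103) (nat_lit 228) (nat_lit 13606324037) (nat_lit 34) (nat_lit 5) (nat_lit 36) (nat_lit 5) (nat_lit 37) (nat_lit 5) (nat_lit 505) (nat_lit 344) (nat_lit 291)) (XT.lf (nat_lit 0) (nat_lit 8001324426) (nat_lit 228) (nat_lit 6306727252) (nat_lit 76) (nat_lit 3563195403) (nat_lit 34) (nat_lit 5) (nat_lit 37) (nat_lit 5) (nat_lit 35) (nat_lit 4) (nat_lit 506) (nat_lit 344) (nat_lit 290))))) (XT.nd (nat_lit 234) (nat_lit 228) (nat_lit 0) (XT.nd (nat_lit 78) (nat_lit 76) (nat_lit 0) (XT.lf (nat_lit 0) (nat_lit 1650645385) (nat_lit 152) (nat_lit 10403958098) (nat_lit 228) (nat_lit 6081793867) (nat_lit 32) (nat_lit 5) (nat_lit 34) (nat_lit 5) (nat_lit 35) (nat_lit 4) (nat_lit 507) (nat_lit 344) (nat_lit 289)) (XT.nd (nat_lit 78) (nat_lit 76) (nat_lit 0) (XT.lf (nat_lit 0) (nat_lit 9787872074) (nat_lit 152) (nat_lit 6406812112) (nat_lit 228) (nat_lit 2212059595) (nat_lit 32) (nat_lit 5) (nat_lit 34) (nat_lit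 5) (nat_lit 35) (nat_lit 4) (nat_lit 508) (nat_lit 344) (nat_lit 288)) (XT.lf (nat_lit 0) (nat_lit 1676200420) (nat_lit 228) (nat_lit 669919064) (nat_lit 76) (nat_lit 16336882191) (nat_lit 31) (nat_lit 5) (nat_lit 34) (nat_lit 5) (nat_lit 32) (nat_lit 5) (nat_lit 509) (nat_lit 344) (nat_lit 287)))) (XT.nd (nat_lit 156) (nat_lit 76) (nat_lit 0) (XT.nd (nat_lit 78) (nat_lit 0) (nat_lit 0) (XT.lf (nat_lit 0) (nat_lit 5637553515) (nat_lit 228) (nat_lit 11517701531) (nat_lit 76) (nat_lit 1808745724) (nat_lit 29) (nat_lit 5) (nat_lit 32) (nat_lit 5) (nat_lit 30) (nat_lit 4) (nat_lit 510) (nat_lit 344) (nat_lit 286)) (XT.lf (nat_lit 0) (nat_lit 9662903883) (nat_lit 228) (nat_lit 3595039266) (nat_lit 76) (nat_lit 5992988574) (nat_lit 29) (nat_lit 5) (nat_lit 32) (nat_lit 5) (nat_lit 30) (nat_lit 4) (nat_lit 511) (nat_lit 344) (nat_lit 285))) (XT.nd (nat_lit 78) (nat_lit 0) (nat_lit 0) (XT.lf (nat_lit 0) (nat_lit 4483242240)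 (nat_lit 76) (nat_lit 9280026918) (nat_lit 152) (nat_lit 5780449115) (nat_lit 28) (nat_lit 5) (nat_lit 29) (nat_lit 5) (nat_lit 30) (nat_lit 4) (nat_lit 512) (nat_lit 344) (nat_lit 284)) (XT.lf (nat_lit 0) (nat_lit 12710594027) (nat_lit 76) (nat_lit 5224852947) (nat_lit 152) (nat_lit 1907124472) (nat_lit 28) (nat_lit 5) (nat_lit 29) (nat_lit 5) (nat_lit 30) (nat_lit 4) (nat_lit 513) (nat_lit 344) (nat_lit 283)))))) (XT.nd (nat_lit 546) (nat_lit 380) (nat_lit 0) (XT.nd (nat_lit 234) (nat_lit 304) (nat_lit 0) (XT.nd (nat_lit 78) (nat_lit 0) (nat_lit 0) (XT.lf (nat_lit 0) (nat_lit 893051412) (nat_lit 152) (nat_lit 1095734440) (nat_lit 228) (nat_lit 18158918735) (nat_lit 25) (nat_lit 5) (nat_lit 27) (nat_lit 5) (nat_lit 28) (nat_lit 5) (nat_lit 514) (nat_lit 344) (nat_lit 282)) (XT.nd (nat_lit 78) (nat_lit 0) (nat_lit 0) (XT.lf (nat_lit 0) (nat_lit 5971735187) (nat_lit 228) (nat_lit 11376496595) (nat_lit 76) (nat_lit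 3109769937) (nat_lit 25) (nat_lit 5) (nat_lit 28) (nat_lit 5) (nat_lit 26) (nat_lit 4) (nat_lit 515) (nat_lit 344) (nat_lit 281)) (XT.lf (nat_lit 0) (nat_lit 10008488397) (nat_lit 228) (nat_lit 3407437527) (nat_lit 76) (nat_lit 7359102435) (nat_lit 25) (nat_lit 5) (nat_lit 28) (nat_lit 5) (nat_lit 26) (nat_lit 4) (nat_lit 516) (nat_lit 344) (nat_lit 280)))) (XT.nd (nat_lit 156) (nat_lit 228) (nat_lit 0) (XT.nd (nat_lit 78) (nat_lit 0) (nat_lit 0) (XT.lf (nat_lit 0) (nat_lit 4724729054) (nat_lit 76) (nat_lit 9399461308) (nat_lit 152) (nat_lit 6974247234) (nat_lit 24) (nat_lit 5) (nat_lit 25) (nat_lit 5) (nat_lit 26) (nat_lit 4) (nat_lit 517) (nat_lit 344) (nat_lit 279)) (XT.lf (nat_lit 0) (nat_lit 13007871494) (nat_lit 76) (nat_lit 5304999064) (nat_lit 152) (nat_lit 3115637388) (nat_lit 24) (nat_lit 5) (nat_lit 25) (nat_lit 5) (nat_lit 26) (nat_lit 4) (nat_lit 518) (nat_lit 344) (nat_lit 278))) (XT.nd (nat_lit 78)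 (nat_lit 152) (nat_lit 0) (XT.lf (nat_lit 0) (nat_lit 777603119) (nat_lit 152) (nat_lit 370977975) (nat_lit 76) (nat_lit 20617133786) (nat_lit 23) (nat_lit 5) (nat_lit 25) (nat_lit 5) (nat_lit 24) (nat_lit 5) (nat_lit 519) (nat_lit 344) (nat_lit 277)) (XT.lf (nat_lit 0) (nat_lit 4747321551) (nat_lit 228) (nat_lit 14263065845) (nat_lit 76) (nat_lit 3098065894) (nat_lit 21) (nat_lit 5) (nat_lit 24) (nat_lit 5) (nat_lit 22) (nat_lit 4) (nat_lit 520) (nat_lit 344) (nat_lit 276))))) (XT.nd (nat_lit 312) (nat_lit 304) (nat_lit 0) (XT.nd (nat_lit 156) (nat_lit 0) (nat_lit 0) (XT.nd (nat_lit 78) (nat_lit 76) (nat_lit 0) (XT.lf (nat_lit 0) (nat_lit 8775473789) (nat_lit 228) (nat_lit 6290635011) (nat_lit 76) (nat_lit 7392362621) (nat_lit 21) (nat_lit 5) (nat_lit 24) (nat_lit 5) (nat_lit 22) (nat_lit 4) (nat_lit 521) (nat_lit 344) (nat_lit 275)) (XT.lf (nat_lit 0) (nat_lit 1809958620) (nat_lit 76) (nat_lit 11055518173) (nat_lit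 152) (nat_lit 9950392995) (nat_lit 20) (nat_lit 5) (nat_lit 21) (nat_lit 5) (nat_lit 22) (nat_lit 4) (nat_lit 522) (nat_lit 344) (nat_lit 274))) (XT.nd (nat_lit 78) (nat_lit 0) (nat_lit 0) (XT.lf (nat_lit 0) (nat_lit 10103173584) (nat_lit 76) (nat_lit 6946098442) (nat_lit 152) (nat_lit 6130909767) (nat_lit 20) (nat_lit 5) (nat_lit 21) (nat_lit 5) (nat_lit 22) (nat_lit 4) (nat_lit 523) (nat_lit 344) (nat_lit 273)) (XT.lf (nat_lit 0) (nat_lit 18508662894) (nat_lit 76) (nat_lit 2778451544) (nat_lit 152) (nat_lit 2265263586) (nat_lit 20) (nat_lit 5) (nat_lit 21) (nat_lit 5) (nat_lit 22) (nat_lit 4) (nat_lit 524) (nat_lit 344) (nat_lit 272)))) (XT.nd (nat_lit 156) (nat_lit 76) (nat_lit 0) (XT.nd (nat_lit 78) (nat_lit 0) (nat_lit 0) (XT.lf (nat_lit 0) (nat_lit 1656365821) (nat_lit 228) (nat_lit 20814162954) (nat_lit 76) (nat_lit 1461263277) (nat_lit 17) (nat_lit 5) (nat_lit 20) (nat_lit 5) (nat_lit 18) (nat_lit 4) (nat_lit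 525) (nat_lit 344) (nat_lit 271)) (XT.lf (nat_lit 0) (nat_lit 5649428369) (nat_lit 228) (nat_lit 12894191678) (nat_lit 76) (nat_lit 5774413294) (nat_lit 17) (nat_lit 5) (nat_lit 20) (nat_lit 5) (nat_lit 18) (nat_lit 4) (nat_lit 526) (nat_lit 344) (nat_lit 270))) (XT.nd (nat_lit 78) (nat_lit 76) (nat_lit 0) (XT.lf (nat_lit 0) (nat_lit 9693757665) (nat_lit 228) (nat_lit 4867798531) (nat_lit 76) (nat_lit 10151020147) (nat_lit 17) (nat_lit 5) (nat_lit 20) (nat_lit 5) (nat_lit 18) (nat_lit 4) (nat_lit 527) (nat_lit 344) (nat_lit 269)) (XT.lf (nat_lit 0) (nat_lit 3311596274) (nat_lit 76) (nat_lit 10500844525) (nat_lit 152) (nat_lit 11302704959) (nat_lit 16) (nat_lit 5) (nat_lit 17) (nat_lit 5) (nat_lit 18) (nat_lit 4) (nat_lit 528) (nat_lit 344) (nat_lit 268))))))))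
noncomputable def xc30 : XT := (XT.nd (nat_lit 55068) (nat_lit 0) (nat_lit 1976) (XT.nd (nat_lit 53976) (nat_lit 0) (nat_lit 5928) (XT.nd (nat_lit 53430) (nat_lit 0) (nat_lit 9120) (XT.nd (nat_lit 234) (nat_lit 0) (nat_lit 0) (XT.nd (nat_lit 78) (nat_lit 228) (nat_lit 0) (XT.lf (nat_lit 0) (nat_lit 11669940134) (nat_lit 76) (nat_lit 6348410132) (nat_lit 152) (nat_lit 7507324046) (nat_lit 16) (nat_lit 5) (nat_lit 17) (nat_lit 5) (nat_lit 18) (nat_lit 4) (nat_lit 529) (nat_lit 344) (nat_lit 267)) (XT.nd (nat_lit 78) (nat_lit 228) (nat_lit 0) (XT.lf (nat_lit 0) (nat_lit 20145820348) (nat_lit 76) (nat_lit 2135290101) (nat_lit 152) (nat_lit 3663853046) (nat_lit 16) (nat_lit 5) (nat_lit 17) (nat_lit 5) (nat_lit 18) (nat_lit 4) (nat_lit 530) (nat_lit 344) (nat_lit 266)) (XT.lf (nat_lit 0) (nat_lit 255795752) (nat_lit 228) (nat_lit 23987481901) (nat_lit 76) (nat_lit 2129278583) (nat_lit 13) (nat_lit 5) (nat_lit 16) (nat_lit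 5) (nat_lit 14) (nat_lit 4) (nat_lit 531) (nat_lit 344) (nat_lit 265)))) (XT.nd (nat_lit 53040) (nat_lit 0) (nat_lit 11324) (XT.nd (nat_lit 52962) (nat_lit 0) (nat_lit 12312) (XT.lf (nat_lit 0) (nat_lit 4231292756) (nat_lit 228) (nat_lit 16084092861) (nat_lit 76) (nat_lit 6492305008) (nat_lit 13) (nat_lit 5) (nat_lit 16) (nat_lit 5) (nat_lit 14) (nat_lit 4) (nat_lit 532) (nat_lit 344) (nat_lit 264)) (XT.lf (nat_lit 0) (nat_lit 2442732397) (nat_lit 456) (nat_lit 1049884430) (nat_lit 456) (nat_lit 1049884430) (nat_lit 175) (nat_lit 4) (nat_lit 181) (nat_lit 5) (nat_lit 181) (nat_lit 4) (nat_lit 450) (nat_lit 345) (nat_lit 345))) (XT.nd (nat_lit 78) (nat_lit 456) (nat_lit 0) (XT.lf (nat_lit 0) (nat_lit 1737378541) (nat_lit 532) (nat_lit 6632844351) (nat_lit 0) (nat_lit 798057979) (nat_lit 168) (nat_lit 5) (nat_lit 175) (nat_lit 4) (nat_lit 168) (nat_lit 4) (nat_lit 451) (nat_lit 345) (nat_lit 344)) (XT.lf (nat_lit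 0) (nat_lit 92074192) (nat_lit 456) (nat_lit 5510767551) (nat_lit 456) (nat_lit 3650544478) (nat_lit 162) (nat_lit 4) (nat_lit 168) (nat_lit 5) (nat_lit 168) (nat_lit 4) (nat_lit 452) (nat_lit 345) (nat_lit 343))))) (XT.nd (nat_lit 234) (nat_lit 1292) (nat_lit 0) (XT.nd (nat_lit 78) (nat_lit 836) (nat_lit 0) (XT.lf (nat_lit 0) (nat_lit 184531844) (nat_lit 532) (nat_lit 2390314345) (nat_lit 76) (nat_lit 6765716220) (nat_lit 161) (nat_lit 5) (nat_lit 168) (nat_lit 5) (nat_lit 162) (nat_lit 4) (nat_lit 453) (nat_lit 345) (nat_lit 342)) (XT.nd (nat_lit 78) (nat_lit 456) (nat_lit 0) (XT.lf (nat_lit 0) (nat_lit 4017577935) (nat_lit 456) (nat_lit 4971149426) (nat_lit 0) (nat_lit 440900075) (nat_lit 156) (nat_lit 5) (nat_lit 162) (nat_lit 4) (nat_lit 156) (nat_lit 4) (nat_lit 454) (nat_lit 345) (nat_lit 341)) (XT.lf (nat_lit 0) (nat_lit 1874426392) (nat_lit 456) (nat_lit 6036922904) (nat_lit 456) (nat_lit 1609473472) (nat_lit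 150) (nat_lit 4) (nat_lit 156) (nat_lit 5) (nat_lit 156) (nat_lit 4) (nat_lit 455) (nat_lit 345) (nat_lit 340)))) (XT.nd (nat_lit 156) (nat_lit 836) (nat_lit 0) (XT.nd (nat_lit 78) (nat_lit 380) (nat_lit 0) (XT.lf (nat_lit 0) (nat_lit 2211863194) (nat_lit 532) (nat_lit 793575557) (nat_lit 76) (nat_lit 6608688325) (nat_lit 149) (nat_lit 5) (nat_lit 156) (nat_lit 5) (nat_lit 150) (nat_lit 4) (nat_lit 456) (nat_lit 345) (nat_lit 339)) (XT.lf (nat_lit 0) (nat_lit 6069016561) (nat_lit 456) (nat_lit 3531534131) (nat_lit 0) (nat_lit 108943732) (nat_lit 144) (nat_lit 5) (nat_lit 150) (nat_lit 4) (nat_lit 144) (nat_lit 4) (nat_lit 457) (nat_lit 345) (nat_lit 338))) (XT.nd (nat_lit 78) (nat_lit 380) (nat_lit 0) (XT.lf (nat_lit 0) (nat_lit 181903465) (nat_lit 456) (nat_lit 6378609255) (nat_lit 76) (nat_lit 3246499569) (nat_lit 138) (nat_lit 5) (nat_lit 144) (nat_lit 5) (nat_lit 139) (nat_lit 4) (nat_lit 458) (nat_lit 345)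 (nat_lit 337)) (XT.lf (nat_lit 0) (nat_lit 563860125) (nat_lit 380) (nat_lit 3436379679) (nat_lit 456) (nat_lit 5906421265) (nat_lit 133) (nat_lit 5) (nat_lit 138) (nat_lit 5) (nat_lit 139) (nat_lit 4) (nat_lit 459) (nat_lit 345) (nat_lit 336)))))) (XT.nd (nat_lit 546) (nat_lit 1596) (nat_lit 0) (XT.nd (nat_lit 234) (nat_lit 836) (nat_lit 0) (XT.nd (nat_lit 78) (nat_lit 760) (nat_lit 0) (XT.lf (nat_lit 0) (nat_lit 7643553781) (nat_lit 380) (nat_lit 235475362) (nat_lit 456) (nat_lit 2129618327) (nat_lit 133) (nat_lit 5) (nat_lit 138) (nat_lit 5) (nat_lit 139) (nat_lit 4) (nat_lit 460) (nat_lit 345) (nat_lit 335)) (XT.nd (nat_lit 78) (nat_lit 304) (nat_lit 0) (XT.lf (nat_lit 0) (nat_lit 1692527704) (nat_lit 456) (nat_lit 5417106724) (nat_lit 76) (nat_lit 3002992801) (nat_lit 127) (nat_lit 5) (nat_lit 133) (nat_lit 5) (nat_lit 128) (nat_lit 4) (nat_lit 461) (nat_lit 345) (nat_lit 334)) (XT.lf (nat_lit 0) (nat_lit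 1629067519) (nat_lit 304) (nat_lit 3904084858) (nat_lit 380) (nat_lit 4685866495) (nat_lit 123) (nat_lit 5) (nat_lit 127) (nat_lit 5) (nat_lit 128) (nat_lit 4) (nat_lit 462) (nat_lit 345) (nat_lit 333)))) (XT.nd (nat_lit 156) (nat_lit 380) (nat_lit 0) (XT.nd (nat_lit 78) (nat_lit 456) (nat_lit 0) (XT.lf (nat_lit 0) (nat_lit 8802604349) (nat_lit 304) (nat_lit 627313296) (nat_lit 380) (nat_lit 898058501) (nat_lit 123) (nat_lit 5) (nat_lit 127) (nat_lit 5) (nat_lit 128) (nat_lit 4) (nat_lit 463) (nat_lit 345) (nat_lit 332)) (XT.lf (nat_lit 0) (nat_lit 2924796900) (nat_lit 456) (nat_lit 4807668523) (nat_lit 76) (nat_lit 2706321793) (nat_lit 117) (nat_lit 5) (nat_lit 123) (nat_lit 5) (nat_lit 118) (nat_lit 4) (nat_lit 464) (nat_lit 345) (nat_lit 331))) (XT.nd (nat_lit 78) (nat_lit 76) (nat_lit 0) (XT.lf (nat_lit 0) (nat_lit 2333808958) (nat_lit 304) (nat_lit 4451954070) (nat_lit 380) (nat_lit 3766482139) (nat_lit 113)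 (nat_lit 5) (nat_lit 117) (nat_lit 5) (nat_lit 118) (nat_lit 4) (nat_lit 465) (nat_lit 345) (nat_lit 330)) (XT.lf (nat_lit 0) (nat_lit 31924518) (nat_lit 380) (nat_lit 1071249602) (nat_lit 76) (nat_lit 9565279305) (nat_lit 112) (nat_lit 5) (nat_lit 117) (nat_lit 5) (nat_lit 113) (nat_lit 5) (nat_lit 466) (nat_lit 345) (nat_lit 329))))) (XT.nd (nat_lit 234) (nat_lit 912) (nat_lit 0) (XT.nd (nat_lit 78) (nat_lit 380) (nat_lit 0) (XT.lf (nat_lit 0) (nat_lit 3856654754) (nat_lit 380) (nat_lit 4611858078) (nat_lit 76) (nat_lit 2317980948) (nat_lit 108) (nat_lit 5) (nat_lit 113) (nat_lit 5) (nat_lit 109) (nat_lit 4) (nat_lit 467) (nat_lit 345) (nat_lit 328)) (XT.nd (nat_lit 78) (nat_lit 76) (nat_lit 0) (XT.lf (nat_lit 0) (nat_lit 2614867781) (nat_lit 304) (nat_lit 5120160768) (nat_lit 380) (nat_lit 3172344623) (nat_lit 104) (nat_lit 5) (nat_lit 108) (nat_lit 5) (nat_lit 109) (nat_lit 4) (nat_lit 468) (nat_lit 345) (nat_lit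 327)) (XT.lf (nat_lit 0) (nat_lit 628560974) (nat_lit 380) (nat_lit 1071362071) (nat_lit 76) (nat_lit 9331143326) (nat_lit 103) (nat_lit 5) (nat_lit 108) (nat_lit 5) (nat_lit 104) (nat_lit 5) (nat_lit 469) (nat_lit 345) (nat_lit 326)))) (XT.nd (nat_lit 156) (nat_lit 380) (nat_lit 0) (XT.nd (nat_lit 78) (nat_lit 228) (nat_lit 0) (XT.lf (nat_lit 0) (nat_lit 4462421726) (nat_lit 380) (nat_lit 4897242778) (nat_lit 76) (nat_lit 1797181235) (nat_lit 99) (nat_lit 5) (nat_lit 104) (nat_lit 5) (nat_lit 100) (nat_lit 4) (nat_lit 470) (nat_lit 345) (nat_lit 325)) (XT.lf (nat_lit 0) (nat_lit 2402811480) (nat_lit 228) (nat_lit 5951378942) (nat_lit 304) (nat_lit 2931345252) (nat_lit 96) (nat_lit 5) (nat_lit 99) (nat_lit 5) (nat_lit 100) (nat_lit 4) (nat_lit 471) (nat_lit 345) (nat_lit 324))) (XT.nd (nat_lit 78) (nat_lit 304) (nat_lit 0) (XT.lf (nat_lit 0) (nat_lit 875443972) (nat_lit 304) (nat_lit 1591274105) (nat_lit 76) (nat_lit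 8950375502) (nat_lit 95) (nat_lit 5) (nat_lit 99) (nat_lit 5) (nat_lit 96) (nat_lit 5) (nat_lit 472) (nat_lit 345) (nat_lit 323)) (XT.lf (nat_lit 0) (nat_lit 4712481571) (nat_lit 380) (nat_lit 5738127683) (nat_lit 76) (nat_lit 1100437062) (nat_lit 91) (nat_lit 5) (nat_lit 96) (nat_lit 5) (nat_lit 92) (nat_lit 4) (nat_lit 473) (nat_lit 345) (nat_lit 322))))))) (XT.nd (nat_lit 1092) (nat_lit 1748) (nat_lit 0) (XT.nd (nat_lit 546) (nat_lit 1064) (nat_lit 0) (XT.nd (nat_lit 234) (nat_lit 532) (nat_lit 0) (XT.nd (nat_lit 78) (nat_lit 380) (nat_lit 0) (XT.lf (nat_lit 0) (nat_lit 1621235127) (nat_lit 228) (nat_lit 6991213942) (nat_lit 304) (nat_lit 3075523356) (nat_lit 88) (nat_lit 5) (nat_lit 91) (nat_lit 5) (nat_lit 92) (nat_lit 4) (nat_lit 474) (nat_lit 345) (nat_lit 321)) (XT.nd (nat_lit 78) (nat_lit 304) (nat_lit 0) (XT.lf (nat_lit 0) (nat_lit 740232380) (nat_lit 304) (nat_lit 2709582929) (nat_lit 76) (nat_lit 8377990949)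 (nat_lit 87) (nat_lit 5) (nat_lit 91) (nat_lit 5) (nat_lit 88) (nat_lit 5) (nat_lit 475) (nat_lit 345) (nat_lit 320)) (XT.lf (nat_lit 0) (nat_lit 4572928992) (nat_lit 380) (nat_lit 7216360136) (nat_lit 76) (nat_lit 181121971) (nat_lit 83) (nat_lit 5) (nat_lit 88) (nat_lit 5) (nat_lit 84) (nat_lit 4) (nat_lit 476) (nat_lit 345) (nat_lit 319)))) (XT.nd (nat_lit 156) (nat_lit 228) (nat_lit 0) (XT.nd (nat_lit 78) (nat_lit 76) (nat_lit 0) (XT.lf (nat_lit 0) (nat_lit 185931435) (nat_lit 228) (nat_lit 8288666623) (nat_lit 304) (nat_lit 3641440331) (nat_lit 80) (nat_lit 5) (nat_lit 83) (nat_lit 5) (nat_lit 84) (nat_lit 4) (nat_lit 477) (nat_lit 345) (nat_lit 318)) (XT.lf (nat_lit 0) (nat_lit 186051526) (nat_lit 304) (nat_lit 4512938146) (nat_lit 76) (nat_lit 7565603643) (nat_lit 79) (nat_lit 5) (nat_lit 83) (nat_lit 5) (nat_lit 80) (nat_lit 5) (nat_lit 478) (nat_lit 345) (nat_lit 317))) (XT.nd (nat_lit 78) (nat_lit 0)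 (nat_lit 0) (XT.lf (nat_lit 0) (nat_lit 2987379313) (nat_lit 228) (nat_lit 1024446858) (nat_lit 304) (nat_lit 8404417690) (nat_lit 76) (nat_lit 5) (nat_lit 79) (nat_lit 5) (nat_lit 80) (nat_lit 5) (nat_lit 479) (nat_lit 345) (nat_lit 316)) (XT.lf (nat_lit 0) (nat_lit 7913574008) (nat_lit 304) (nat_lit 1969842539) (nat_lit 76) (nat_lit 2687537167) (nat_lit 76) (nat_lit 5) (nat_lit 80) (nat_lit 5) (nat_lit 77) (nat_lit 4) (nat_lit 480) (nat_lit 345) (nat_lit 315))))) (XT.nd (nat_lit 234) (nat_lit 532) (nat_lit 0) (XT.nd (nat_lit 78) (nat_lit 304) (nat_lit 0) (XT.lf (nat_lit 0) (nat_lit 5626431765) (nat_lit 228) (nat_lit 6262484703) (nat_lit 304) (nat_lit 839945249) (nat_lit 73) (nat_lit 5) (nat_lit 76) (nat_lit 5) (nat_lit 77) (nat_lit 4) (nat_lit 481) (nat_lit 345) (nat_lit 314)) (XT.nd (nat_lit 78) (nat_lit 0) (nat_lit 0) (XT.lf (nat_lit 0) (nat_lit 418175178) (nat_lit 228) (nat_lit 2563976263) (nat_lit 304) (nat_lit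 9908027144) (nat_lit 69) (nat_lit 5) (nat_lit 72) (nat_lit 5) (nat_lit 73) (nat_lit 5) (nat_lit 482) (nat_lit 345) (nat_lit 313)) (XT.lf (nat_lit 0) (nat_lit 6877841853) (nat_lit 304) (nat_lit 4961324849) (nat_lit 76) (nat_lit 1215290347) (nat_lit 69) (nat_lit 5) (nat_lit 73) (nat_lit 5) (nat_lit 70) (nat_lit 4) (nat_lit 483) (nat_lit 345) (nat_lit 312)))) (XT.nd (nat_lit 156) (nat_lit 228) (nat_lit 0) (XT.nd (nat_lit 78) (nat_lit 76) (nat_lit 0) (XT.lf (nat_lit 0) (nat_lit 2639459771) (nat_lit 228) (nat_lit 8199598560) (nat_lit 304) (nat_lit 2383224499) (nat_lit 66) (nat_lit 5) (nat_lit 69) (nat_lit 5) (nat_lit 70) (nat_lit 4) (nat_lit 484) (nat_lit 345) (nat_lit 311)) (XT.lf (nat_lit 0) (nat_lit 1453644764) (nat_lit 304) (nat_lit 3021019221) (nat_lit 76) (nat_lit 8918879618) (nat_lit 65) (nat_lit 5) (nat_lit 69) (nat_lit 5) (nat_lit 66) (nat_lit 5) (nat_lit 485) (nat_lit 345) (nat_lit 310))) (XT.nd (nat_lit 78)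 (nat_lit 0) (nat_lit 0) (XT.lf (nat_lit 0) (nat_lit 4661031443) (nat_lit 228) (nat_lit 659097765) (nat_lit 304) (nat_lit 8248102724) (nat_lit 62) (nat_lit 5) (nat_lit 65) (nat_lit 5) (nat_lit 66) (nat_lit 5) (nat_lit 486) (nat_lit 345) (nat_lit 309)) (XT.lf (nat_lit 0) (nat_lit 9260036737) (nat_lit 304) (nat_lit 1306008174) (nat_lit 76) (nat_lit 3180460177) (nat_lit 62) (nat_lit 5) (nat_lit 66) (nat_lit 5) (nat_lit 63) (nat_lit 4) (nat_lit 487) (nat_lit 345) (nat_lit 308)))))) (XT.nd (nat_lit 546) (nat_lit 836) (nat_lit 0) (XT.nd (nat_lit 234) (nat_lit 456) (nat_lit 0) (XT.nd (nat_lit 78) (nat_lit 304) (nat_lit 0) (XT.lf (nat_lit 0) (nat_lit 6452418889) (nat_lit 152) (nat_lit 6828167248) (nat_lit 228) (nat_lit 647733369) (nat_lit 60) (nat_lit 5) (nat_lit 62) (nat_lit 5) (nat_lit 63) (nat_lit 4) (nat_lit 488) (nat_lit 345) (nat_lit 307)) (XT.nd (nat_lit 78) (nat_lit 0) (nat_lit 0) (XT.lf (nat_lit 0) (nat_lit 176000076)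 (nat_lit 228) (nat_lit 3014551938) (nat_lit 304) (nat_lit 10923493385) (nat_lit 56) (nat_lit 5) (nat_lit 59) (nat_lit 5) (nat_lit 60) (nat_lit 5) (nat_lit 489) (nat_lit 345) (nat_lit 306)) (XT.lf (nat_lit 0) (nat_lit 7108974281) (nat_lit 304) (nat_lit 6305864442) (nat_lit 76) (nat_lit 888332513) (nat_lit 56) (nat_lit 5) (nat_lit 60) (nat_lit 5) (nat_lit 57) (nat_lit 4) (nat_lit 490) (nat_lit 345) (nat_lit 305)))) (XT.nd (nat_lit 156) (nat_lit 228) (nat_lit 0) (XT.nd (nat_lit 78) (nat_lit 76) (nat_lit 0) (XT.lf (nat_lit 0) (nat_lit 1403527730) (nat_lit 152) (nat_lit 9688032930) (nat_lit 228) (nat_lit 3404814725) (nat_lit 54) (nat_lit 5) (nat_lit 56) (nat_lit 5) (nat_lit 57) (nat_lit 4) (nat_lit 491) (nat_lit 345) (nat_lit 304)) (XT.lf (nat_lit 0) (nat_lit 453709184) (nat_lit 228) (nat_lit 5417256388) (nat_lit 76) (nat_lit 8822441688) (nat_lit 53) (nat_lit 5) (nat_lit 56) (nat_lit 5) (nat_lit 54) (nat_lit 5) (nat_lit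 492) (nat_lit 345) (nat_lit 303))) (XT.nd (nat_lit 78) (nat_lit 0) (nat_lit 0) (XT.lf (nat_lit 0) (nat_lit 2347562144) (nat_lit 228) (nat_lit 1969178417) (nat_lit 304) (nat_lit 10577741578) (nat_lit 50) (nat_lit 5) (nat_lit 53) (nat_lit 5) (nat_lit 54) (nat_lit 5) (nat_lit 493) (nat_lit 345) (nat_lit 302)) (XT.lf (nat_lit 0) (nat_lit 8264490928) (nat_lit 304) (nat_lit 4843740523) (nat_lit 76) (nat_lit 1991208715) (nat_lit 50) (nat_lit 5) (nat_lit 54) (nat_lit 5) (nat_lit 51) (nat_lit 4) (nat_lit 494) (nat_lit 345) (nat_lit 301))))) (XT.nd (nat_lit 312) (nat_lit 380) (nat_lit 0) (XT.nd (nat_lit 156) (nat_lit 228) (nat_lit 0) (XT.nd (nat_lit 78) (nat_lit 76) (nat_lit 0) (XT.lf (nat_lit 0) (nat_lit 2968111229) (nat_lit 152) (nat_lit 9314034715) (nat_lit 228) (nat_lit 3026543022) (nat_lit 48) (nat_lit 5) (nat_lit 50) (nat_lit 5) (nat_lit 51) (nat_lit 4) (nat_lit 495) (nat_lit 345) (nat_lit 300)) (XT.lf (nat_lit 0)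 (nat_lit 838204600) (nat_lit 228) (nat_lit 4596768359) (nat_lit 76) (nat_lit 10087220028) (nat_lit 47) (nat_lit 5) (nat_lit 50) (nat_lit 5) (nat_lit 48) (nat_lit 5) (nat_lit 496) (nat_lit 345) (nat_lit 299))) (XT.nd (nat_lit 78) (nat_lit 0) (nat_lit 0) (XT.lf (nat_lit 0) (nat_lit 3254590052) (nat_lit 228) (nat_lit 1465817425) (nat_lit 304) (nat_lit 11019555782) (nat_lit 44) (nat_lit 5) (nat_lit 47) (nat_lit 5) (nat_lit 48) (nat_lit 5) (nat_lit 497) (nat_lit 345) (nat_lit 298)) (XT.lf (nat_lit 0) (nat_lit 8687742862) (nat_lit 304) (nat_lit 4723288964) (nat_lit 76) (nat_lit 2550917137) (nat_lit 44) (nat_lit 5) (nat_lit 48) (nat_lit 5) (nat_lit 45) (nat_lit 4) (nat_lit 498) (nat_lit 345) (nat_lit 297)))) (XT.nd (nat_lit 156) (nat_lit 152) (nat_lit 0) (XT.nd (nat_lit 78) (nat_lit 76) (nat_lit 0) (XT.lf (nat_lit 0) (nat_lit 3156979030) (nat_lit 152) (nat_lit 9568110032) (nat_lit 228) (nat_lit 3463481644) (nat_lit 42)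 (nat_lit 5) (nat_lit 44) (nat_lit 5) (nat_lit 45) (nat_lit 4) (nat_lit 499) (nat_lit 345) (nat_lit 296)) (XT.lf (nat_lit 0) (nat_lit 410331633) (nat_lit 228) (nat_lit 5232008843) (nat_lit 76) (nat_lit 10777490092) (nat_lit 41) (nat_lit 5) (nat_lit 44) (nat_lit 5) (nat_lit 42) (nat_lit 5) (nat_lit 500) (nat_lit 345) (nat_lit 295))) (XT.nd (nat_lit 78) (nat_lit 0) (nat_lit 0) (XT.lf (nat_lit 0) (nat_lit 2668135073) (nat_lit 152) (nat_lit 1625773197) (nat_lit 228) (nat_lit 12361785272) (nat_lit 39) (nat_lit 5) (nat_lit 41) (nat_lit 5) (nat_lit 42) (nat_lit 5) (nat_lit 501) (nat_lit 345) (nat_lit 294)) (XT.lf (nat_lit 0) (nat_lit 8267976643) (nat_lit 228) (nat_lit 6182278225) (nat_lit 76) (nat_lit 2445771379) (nat_lit 39) (nat_lit 5) (nat_lit 42) (nat_lit 5) (nat_lit 40) (nat_lit 4) (nat_lit 502) (nat_lit 345) (nat_lit 293))))))))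
noncomputable def xc31 : XT := (XT.nd (nat_lit 2184) (nat_lit 228) (nat_lit 0) (XT.nd (nat_lit 1092) (nat_lit 684) (nat_lit 0) (XT.nd (nat_lit 546) (nat_lit 456) (nat_lit 0) (XT.nd (nat_lit 234) (nat_lit 228) (nat_lit 0) (XT.nd (nat_lit 78) (nat_lit 228) (nat_lit 0) (XT.lf (nat_lit 0) (nat_lit 1724653125) (nat_lit 152) (nat_lit 10581027726) (nat_lit 228) (nat_lit 4835810365) (nat_lit 37) (nat_lit 5) (nat_lit 39) (nat_lit 5) (nat_lit 40) (nat_lit 4) (nat_lit 503) (nat_lit 345) (nat_lit 292)) (XT.nd (nat_lit 78) (nat_lit 228) (nat_lit 0) (XT.lf (nat_lit 0) (nat_lit 9807654815) (nat_lit 152) (nat_lit 6620474528) (nat_lit 228) (nat_lit 963664867) (nat_lit 37) (nat_lit 5) (nat_lit 39) (nat_lit 5) (nat_lit 40) (nat_lit 4) (nat_lit 504) (nat_lit 345) (nat_lit 291)) (XT.lf (nat_lit 0) (nat_lit 325010054) (nat_lit 152) (nat_lit 2586850119) (nat_lit 228) (nat_lit 14735561605) (nat_lit 34) (nat_lit 5) (nat_lit 36) (nat_lit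 5) (nat_lit 37) (nat_lit 5) (nat_lit 505) (nat_lit 345) (nat_lit 290)))) (XT.nd (nat_lit 156) (nat_lit 228) (nat_lit 0) (XT.nd (nat_lit 78) (nat_lit 0) (nat_lit 0) (XT.lf (nat_lit 0) (nat_lit 6876264035) (nat_lit 228) (nat_lit 9493844430) (nat_lit 76) (nat_lit 1537448638) (nat_lit 34) (nat_lit 5) (nat_lit 37) (nat_lit 5) (nat_lit 35) (nat_lit 4) (nat_lit 506) (nat_lit 345) (nat_lit 289)) (XT.lf (nat_lit 0) (nat_lit 10900922651) (nat_lit 228) (nat_lit 1589770358) (nat_lit 76) (nat_lit 5682590672) (nat_lit 34) (nat_lit 5) (nat_lit 37) (nat_lit 5) (nat_lit 35) (nat_lit 4) (nat_lit 507) (nat_lit 345) (nat_lit 288))) (XT.nd (nat_lit 78) (nat_lit 76) (nat_lit 0) (XT.lf (nat_lit 0) (nat_lit 6494887287) (nat_lit 152) (nat_lit 8517900598) (nat_lit 228) (nat_lit 3431410361) (nat_lit 32) (nat_lit 5) (nat_lit 34) (nat_lit 5) (nat_lit 35) (nat_lit 4) (nat_lit 508) (nat_lit 345) (nat_lit 287)) (XT.lf (nat_lit 0) (nat_lit 455314385)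 (nat_lit 228) (nat_lit 4023503411) (nat_lit 76) (nat_lit 14242150902) (nat_lit 31) (nat_lit 5) (nat_lit 34) (nat_lit 5) (nat_lit 32) (nat_lit 5) (nat_lit 509) (nat_lit 345) (nat_lit 286))))) (XT.nd (nat_lit 234) (nat_lit 228) (nat_lit 0) (XT.nd (nat_lit 78) (nat_lit 76) (nat_lit 0) (XT.lf (nat_lit 0) (nat_lit 4029427584) (nat_lit 152) (nat_lit 335893249) (nat_lit 228) (nat_lit 14637677497) (nat_lit 29) (nat_lit 5) (nat_lit 31) (nat_lit 5) (nat_lit 32) (nat_lit 5) (nat_lit 510) (nat_lit 345) (nat_lit 285)) (XT.nd (nat_lit 78) (nat_lit 76) (nat_lit 0) (XT.lf (nat_lit 0) (nat_lit 8371361507) (nat_lit 228) (nat_lit 7079238794) (nat_lit 76) (nat_lit 3839718708) (nat_lit 29) (nat_lit 5) (nat_lit 32) (nat_lit 5) (nat_lit 30) (nat_lit 4) (nat_lit 511) (nat_lit 345) (nat_lit 284)) (XT.lf (nat_lit 0) (nat_lit 922429112) (nat_lit 76) (nat_lit 11509385518) (nat_lit 152) (nat_lit 7152092637) (nat_lit 28) (nat_lit 5) (nat_lit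 29) (nat_lit 5) (nat_lit 30) (nat_lit 4) (nat_lit 512) (nat_lit 345) (nat_lit 283)))) (XT.nd (nat_lit 156) (nat_lit 152) (nat_lit 0) (XT.nd (nat_lit 78) (nat_lit 76) (nat_lit 0) (XT.lf (nat_lit 0) (nat_lit 9120064798) (nat_lit 76) (nat_lit 7467270993) (nat_lit 152) (nat_lit 3295761178) (nat_lit 28) (nat_lit 5) (nat_lit 29) (nat_lit 5) (nat_lit 30) (nat_lit 4) (nat_lit 513) (nat_lit 345) (nat_lit 282)) (XT.lf (nat_lit 0) (nat_lit 596121600) (nat_lit 152) (nat_lit 2770055113) (nat_lit 76) (nat_lit 16822681776) (nat_lit 27) (nat_lit 5) (nat_lit 29) (nat_lit 5) (nat_lit 28) (nat_lit 5) (nat_lit 514) (nat_lit 345) (nat_lit 281))) (XT.nd (nat_lit 78) (nat_lit 0) (nat_lit 0) (XT.lf (nat_lit 0) (nat_lit 4529593085) (nat_lit 228) (nat_lit 15132480154) (nat_lit 76) (nat_lit 838075138) (nat_lit 25) (nat_lit 5) (nat_lit 28) (nat_lit 5) (nat_lit 26) (nat_lit 4) (nat_lit 515) (nat_lit 345) (nat_lit 280)) (XT.lf (nat_lit 0) (nat_lit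 8550275808) (nat_lit 228) (nat_lit 7192252442) (nat_lit 76) (nat_lit 5074971314) (nat_lit 25) (nat_lit 5) (nat_lit 28) (nat_lit 5) (nat_lit 26) (nat_lit 4) (nat_lit 516) (nat_lit 345) (nat_lit 279)))))) (XT.nd (nat_lit 546) (nat_lit 304) (nat_lit 0) (XT.nd (nat_lit 234) (nat_lit 304) (nat_lit 0) (XT.nd (nat_lit 78) (nat_lit 0) (nat_lit 0) (XT.lf (nat_lit 0) (nat_lit 860974264) (nat_lit 76) (nat_lit 11764162070) (nat_lit 152) (nat_lit 8516592371) (nat_lit 24) (nat_lit 5) (nat_lit 25) (nat_lit 5) (nat_lit 26) (nat_lit 4) (nat_lit 517) (nat_lit 345) (nat_lit 278)) (XT.nd (nat_lit 78) (nat_lit 0) (nat_lit 0) (XT.lf (nat_lit 0) (nat_lit 9116036630) (nat_lit 76) (nat_lit 7682151135) (nat_lit 152) (nat_lit 4673926881) (nat_lit 24) (nat_lit 5) (nat_lit 25) (nat_lit 5) (nat_lit 26) (nat_lit 4) (nat_lit 518) (nat_lit 345) (nat_lit 277)) (XT.lf (nat_lit 0) (nat_lit 17480590684) (nat_lit 76) (nat_lit 3543158459) (nat_lit 152)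 (nat_lit 785984157) (nat_lit 24) (nat_lit 5) (nat_lit 25) (nat_lit 5) (nat_lit 26) (nat_lit 4) (nat_lit 519) (nat_lit 345) (nat_lit 276)))) (XT.nd (nat_lit 156) (nat_lit 76) (nat_lit 0) (XT.nd (nat_lit 78) (nat_lit 0) (nat_lit 0) (XT.lf (nat_lit 0) (nat_lit 3136899726) (nat_lit 228) (nat_lit 18325333144) (nat_lit 76) (nat_lit 691486602) (nat_lit 21) (nat_lit 5) (nat_lit 24) (nat_lit 5) (nat_lit 22) (nat_lit 4) (nat_lit 520) (nat_lit 345) (nat_lit 275)) (XT.lf (nat_lit 0) (nat_lit 7149970909) (nat_lit 228) (nat_lit 10380141791) (nat_lit 76) (nat_lit 4973929309) (nat_lit 21) (nat_lit 5) (nat_lit 24) (nat_lit 5) (nat_lit 22) (nat_lit 4) (nat_lit 521) (nat_lit 345) (nat_lit 274))) (XT.nd (nat_lit 78) (nat_lit 76) (nat_lit 0) (XT.lf (nat_lit 0) (nat_lit 11213437114) (nat_lit 228) (nat_lit 2329991465) (nat_lit 76) (nat_lit 9318545263) (nat_lit 21) (nat_lit 5) (nat_lit 24) (nat_lit 5) (nat_lit 22) (nat_lit 4) (nat_lit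 522) (nat_lit 345) (nat_lit 273)) (XT.lf (nat_lit 0) (nat_lit 5905729458) (nat_lit 76) (nat_lit 9461506312) (nat_lit 152) (nat_lit 7859652688) (nat_lit 20) (nat_lit 5) (nat_lit 21) (nat_lit 5) (nat_lit 22) (nat_lit 4) (nat_lit 523) (nat_lit 345) (nat_lit 272))))) (XT.nd (nat_lit 234) (nat_lit 76) (nat_lit 0) (XT.nd (nat_lit 78) (nat_lit 228) (nat_lit 0) (XT.lf (nat_lit 0) (nat_lit 14285209278) (nat_lit 76) (nat_lit 5305488819) (nat_lit 152) (nat_lit 4008676819) (nat_lit 20) (nat_lit 5) (nat_lit 21) (nat_lit 5) (nat_lit 22) (nat_lit 4) (nat_lit 524) (nat_lit 345) (nat_lit 271)) (XT.nd (nat_lit 78) (nat_lit 228) (nat_lit 0) (XT.lf (nat_lit 0) (nat_lit 22780769703) (nat_lit 76) (nat_lit 1089381759) (nat_lit 152) (nat_lit 109734403) (nat_lit 20) (nat_lit 5) (nat_lit 21) (nat_lit 5) (nat_lit 22) (nat_lit 4) (nat_lit 525) (nat_lit 345) (nat_lit 270)) (XT.lf (nat_lit 0) (nat_lit 3855597480) (nat_lit 228) (nat_lit 17293017915)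 (nat_lit 76) (nat_lit 3218111879) (nat_lit 17) (nat_lit 5) (nat_lit 20) (nat_lit 5) (nat_lit 18) (nat_lit 4) (nat_lit 526) (nat_lit 345) (nat_lit 269)))) (XT.nd (nat_lit 156) (nat_lit 76) (nat_lit 0) (XT.nd (nat_lit 78) (nat_lit 0) (nat_lit 0) (XT.lf (nat_lit 0) (nat_lit 7886048644) (nat_lit 228) (nat_lit 9291851690) (nat_lit 76) (nat_lit 7583649929) (nat_lit 17) (nat_lit 5) (nat_lit 20) (nat_lit 5) (nat_lit 18) (nat_lit 4) (nat_lit 527) (nat_lit 345) (nat_lit 268)) (XT.lf (nat_lit 0) (nat_lit 11969624689) (nat_lit 228) (nat_lit 1180621343) (nat_lit 76) (nat_lit 12014578167) (nat_lit 17) (nat_lit 5) (nat_lit 20) (nat_lit 5) (nat_lit 18) (nat_lit 4) (nat_lit 528) (nat_lit 345) (nat_lit 267))) (XT.nd (nat_lit 78) (nat_lit 0) (nat_lit 0) (XT.lf (nat_lit 0) (nat_lit 7137463114) (nat_lit 76) (nat_lit 9016805046) (nat_lit 152) (nat_lit 9421512243) (nat_lit 16) (nat_lit 5) (nat_lit 17) (nat_lit 5) (nat_lit 18) (nat_lit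 4) (nat_lit 529) (nat_lit 345) (nat_lit 266)) (XT.lf (nat_lit 0) (nat_lit 15589255519) (nat_lit 76) (nat_lit 4814538757) (nat_lit 152) (nat_lit 5591542277) (nat_lit 16) (nat_lit 5) (nat_lit 17) (nat_lit 5) (nat_lit 18) (nat_lit 4) (nat_lit 530) (nat_lit 345) (nat_lit 265))))))) (XT.nd (nat_lit 53820) (nat_lit 0) (nat_lit 5700) (XT.nd (nat_lit 53274) (nat_lit 0) (nat_lit 9120) (XT.nd (nat_lit 52962) (nat_lit 0) (nat_lit 11780) (XT.nd (nat_lit 78) (nat_lit 228) (nat_lit 0) (XT.lf (nat_lit 0) (nat_lit 24162380463) (nat_lit 76) (nat_lit 549721806) (nat_lit 152) (nat_lit 1711710254) (nat_lit 16) (nat_lit 5) (nat_lit 17) (nat_lit 5) (nat_lit 18) (nat_lit 4) (nat_lit 531) (nat_lit 345) (nat_lit 264)) (XT.nd (nat_lit 52806) (nat_lit 0) (nat_lit 12768) (XT.lf (nat_lit 0) (nat_lit 2254661266) (nat_lit 228) (nat_lit 20821251916) (nat_lit 76) (nat_lit 3783889651) (nat_lit 13) (nat_lit 5) (nat_lit 16) (nat_lit 5) (nat_lit 14)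 (nat_lit 4) (nat_lit 532) (nat_lit 345) (nat_lit 263)) (XT.lf (nat_lit 0) (nat_lit 124371516) (nat_lit 532) (nat_lit 4213300277) (nat_lit 0) (nat_lit 124371516) (nat_lit 181) (nat_lit 5) (nat_lit 188) (nat_lit 4) (nat_lit 181) (nat_lit 4) (nat_lit 448) (nat_lit 346) (nat_lit 346)))) (XT.nd (nat_lit 156) (nat_lit 532) (nat_lit 0) (XT.nd (nat_lit 78) (nat_lit 456) (nat_lit 0) (XT.lf (nat_lit 0) (nat_lit 4067400490) (nat_lit 532) (nat_lit 1846208268) (nat_lit 0) (nat_lit 3090131378) (nat_lit 181) (nat_lit 5) (nat_lit 188) (nat_lit 4) (nat_lit 181) (nat_lit 4) (nat_lit 449) (nat_lit 346) (nat_lit 345)) (XT.lf (nat_lit 0) (nat_lit 4841356087) (nat_lit 456) (nat_lit 3089832838) (nat_lit 456) (nat_lit 1154456753) (nat_lit 175) (nat_lit 4) (nat_lit 181) (nat_lit 5) (nat_lit 181) (nat_lit 4) (nat_lit 450) (nat_lit 346) (nat_lit 344))) (XT.nd (nat_lit 78) (nat_lit 0) (nat_lit 0) (XT.lf (nat_lit 0) (nat_lit 2444974821) (nat_lit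 456) (nat_lit 188525905) (nat_lit 532) (nat_lit 6536052630) (nat_lit 168) (nat_lit 5) (nat_lit 174) (nat_lit 5) (nat_lit 175) (nat_lit 4) (nat_lit 451) (nat_lit 346) (nat_lit 343)) (XT.lf (nat_lit 0) (nat_lit 6466464149) (nat_lit 532) (nat_lit 43571962) (nat_lit 0) (nat_lit 2745288504) (nat_lit 168) (nat_lit 5) (nat_lit 175) (nat_lit 4) (nat_lit 168) (nat_lit 4) (nat_lit 452) (nat_lit 346) (nat_lit 342))))) (XT.nd (nat_lit 234) (nat_lit 1292) (nat_lit 0) (XT.nd (nat_lit 78) (nat_lit 836) (nat_lit 0) (XT.lf (nat_lit 0) (nat_lit 1004049959) (nat_lit 532) (nat_lit 2578137472) (nat_lit 76) (nat_lit 5760834071) (nat_lit 161) (nat_lit 5) (nat_lit 168) (nat_lit 5) (nat_lit 162) (nat_lit 4) (nat_lit 453) (nat_lit 346) (nat_lit 341)) (XT.nd (nat_lit 78) (nat_lit 456) (nat_lit 0) (XT.lf (nat_lit 0) (nat_lit 4227346290) (nat_lit 380) (nat_lit 575352562) (nat_lit 456) (nat_lit 4630090615) (nat_lit 156) (nat_lit 5) (nat_lit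 161) (nat_lit 5) (nat_lit 162) (nat_lit 4) (nat_lit 454) (nat_lit 346) (nat_lit 340)) (XT.lf (nat_lit 0) (nat_lit 1596791995) (nat_lit 456) (nat_lit 7064386555) (nat_lit 456) (nat_lit 863526784) (nat_lit 150) (nat_lit 4) (nat_lit 156) (nat_lit 5) (nat_lit 156) (nat_lit 4) (nat_lit 455) (nat_lit 346) (nat_lit 339)))) (XT.nd (nat_lit 156) (nat_lit 836) (nat_lit 0) (XT.nd (nat_lit 78) (nat_lit 380) (nat_lit 0) (XT.lf (nat_lit 0) (nat_lit 2918367139) (nat_lit 532) (nat_lit 1123493225) (nat_lit 76) (nat_lit 5576659736) (nat_lit 149) (nat_lit 5) (nat_lit 156) (nat_lit 5) (nat_lit 150) (nat_lit 4) (nat_lit 456) (nat_lit 346) (nat_lit 338)) (XT.lf (nat_lit 0) (nat_lit 5801118302) (nat_lit 380) (nat_lit 942156056) (nat_lit 456) (nat_lit 2971271868) (nat_lit 144) (nat_lit 5) (nat_lit 149) (nat_lit 5) (nat_lit 150) (nat_lit 4) (nat_lit 457) (nat_lit 346) (nat_lit 337))) (XT.nd (nat_lit 78) (nat_lit 380) (nat_lit 0) (XT.lf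 (nat_lit 0) (nat_lit 804325843) (nat_lit 456) (nat_lit 6812788588) (nat_lit 76) (nat_lit 2195636213) (nat_lit 138) (nat_lit 5) (nat_lit 144) (nat_lit 5) (nat_lit 139) (nat_lit 4) (nat_lit 458) (nat_lit 346) (nat_lit 336)) (XT.lf (nat_lit 0) (nat_lit 80302441) (nat_lit 380) (nat_lit 4510435203) (nat_lit 456) (nat_lit 5322313327) (nat_lit 133) (nat_lit 5) (nat_lit 138) (nat_lit 5) (nat_lit 139) (nat_lit 4) (nat_lit 459) (nat_lit 346) (nat_lit 335)))))) (XT.nd (nat_lit 546) (nat_lit 1824) (nat_lit 0) (XT.nd (nat_lit 234) (nat_lit 836) (nat_lit 0) (XT.nd (nat_lit 78) (nat_lit 760) (nat_lit 0) (XT.lf (nat_lit 0) (nat_lit 7117242826) (nat_lit 380) (nat_lit 1323786025) (nat_lit 456) (nat_lit 1574591283) (nat_lit 133) (nat_lit 5) (nat_lit 138) (nat_lit 5) (nat_lit 139) (nat_lit 4) (nat_lit 460) (nat_lit 346) (nat_lit 334)) (XT.nd (nat_lit 78) (nat_lit 304) (nat_lit 0) (XT.lf (nat_lit 0) (nat_lit 2201168892) (nat_lit 456)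 (nat_lit 6004384718) (nat_lit 76) (nat_lit 1914768643) (nat_lit 127) (nat_lit 5) (nat_lit 133) (nat_lit 5) (nat_lit 128) (nat_lit 4) (nat_lit 461) (nat_lit 346) (nat_lit 333)) (XT.lf (nat_lit 0) (nat_lit 990919956) (nat_lit 304) (nat_lit 5018780465) (nat_lit 380) (nat_lit 4217667398) (nat_lit 123) (nat_lit 5) (nat_lit 127) (nat_lit 5) (nat_lit 128) (nat_lit 4) (nat_lit 462) (nat_lit 346) (nat_lit 332)))) (XT.nd (nat_lit 156) (nat_lit 380) (nat_lit 0) (XT.nd (nat_lit 78) (nat_lit 456) (nat_lit 0) (XT.lf (nat_lit 0) (nat_lit 8122236245) (nat_lit 304) (nat_lit 1756553492) (nat_lit 380) (nat_lit 458100700) (nat_lit 123) (nat_lit 5) (nat_lit 127) (nat_lit 5) (nat_lit 128) (nat_lit 4) (nat_lit 463) (nat_lit 346) (nat_lit 331)) (XT.lf (nat_lit 0) (nat_lit 3319393221) (nat_lit 456) (nat_lit 5553400795) (nat_lit 76) (nat_lit 1575653552) (nat_lit 117) (nat_lit 5) (nat_lit 123) (nat_lit 5) (nat_lit 118) (nat_lit 4) (nat_lit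 464) (nat_lit 346) (nat_lit 330))) (XT.nd (nat_lit 78) (nat_lit 76) (nat_lit 0) (XT.lf (nat_lit 0) (nat_lit 1535657807) (nat_lit 304) (nat_lit 5612367656) (nat_lit 380) (nat_lit 3414537876) (nat_lit 113) (nat_lit 5) (nat_lit 117) (nat_lit 5) (nat_lit 118) (nat_lit 4) (nat_lit 465) (nat_lit 346) (nat_lit 329)) (XT.lf (nat_lit 0) (nat_lit 352174157) (nat_lit 380) (nat_lit 1924049542) (nat_lit 76) (nat_lit 8403054483) (nat_lit 112) (nat_lit 5) (nat_lit 117) (nat_lit 5) (nat_lit 113) (nat_lit 5) (nat_lit 466) (nat_lit 346) (nat_lit 328))))) (XT.nd (nat_lit 312) (nat_lit 836) (nat_lit 0) (XT.nd (nat_lit 156) (nat_lit 380) (nat_lit 0) (XT.nd (nat_lit 78) (nat_lit 304) (nat_lit 0) (XT.lf (nat_lit 0) (nat_lit 4136724383) (nat_lit 380) (nat_lit 5521493638) (nat_lit 76) (nat_lit 1139914616) (nat_lit 108) (nat_lit 5) (nat_lit 113) (nat_lit 5) (nat_lit 109) (nat_lit 4) (nat_lit 467) (nat_lit 346) (nat_lit 327)) (XT.lf (nat_lit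 0) (nat_lit 1651202636) (nat_lit 304) (nat_lit 6331250443) (nat_lit 380) (nat_lit 2937222145) (nat_lit 104) (nat_lit 5) (nat_lit 108) (nat_lit 5) (nat_lit 109) (nat_lit 4) (nat_lit 468) (nat_lit 346) (nat_lit 326))) (XT.nd (nat_lit 78) (nat_lit 304) (nat_lit 0) (XT.lf (nat_lit 0) (nat_lit 834278825) (nat_lit 380) (nat_lit 2090334158) (nat_lit 76) (nat_lit 8119261221) (nat_lit 103) (nat_lit 5) (nat_lit 108) (nat_lit 5) (nat_lit 104) (nat_lit 5) (nat_lit 469) (nat_lit 346) (nat_lit 325)) (XT.lf (nat_lit 0) (nat_lit 4627269275) (nat_lit 380) (nat_lit 5976340812) (nat_lit 76) (nat_lit 566870592) (nat_lit 99) (nat_lit 5) (nat_lit 104) (nat_lit 5) (nat_lit 100) (nat_lit 4) (nat_lit 470) (nat_lit 346) (nat_lit 324)))) (XT.nd (nat_lit 156) (nat_lit 532) (nat_lit 0) (XT.nd (nat_lit 78) (nat_lit 76) (nat_lit 0) (XT.lf (nat_lit 0) (nat_lit 1268008408) (nat_lit 228) (nat_lit 7218004175) (nat_lit 304) (nat_lit 2813828048) (nat_lit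 96) (nat_lit 5) (nat_lit 99) (nat_lit 5) (nat_lit 100) (nat_lit 4) (nat_lit 471) (nat_lit 346) (nat_lit 323)) (XT.lf (nat_lit 0) (nat_lit 965824682) (nat_lit 304) (nat_lit 2782047748) (nat_lit 76) (nat_lit 7684031892) (nat_lit 95) (nat_lit 5) (nat_lit 99) (nat_lit 5) (nat_lit 96) (nat_lit 5) (nat_lit 472) (nat_lit 346) (nat_lit 322))) (XT.nd (nat_lit 78) (nat_lit 228) (nat_lit 0) (XT.lf (nat_lit 0) (nat_lit 4573071228) (nat_lit 304) (nat_lit 189360110) (nat_lit 380) (nat_lit 6804243301) (nat_lit 91) (nat_lit 5) (nat_lit 95) (nat_lit 5) (nat_lit 96) (nat_lit 5) (nat_lit 473) (nat_lit 346) (nat_lit 321)) (XT.lf (nat_lit 0) (nat_lit 309540208) (nat_lit 228) (nat_lit 8318155558) (nat_lit 304) (nat_lit 3076607830) (nat_lit 88) (nat_lit 5) (nat_lit 91) (nat_lit 5) (nat_lit 92) (nat_lit 4) (nat_lit 474) (nat_lit 346) (nat_lit 320))))))))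
noncomputable def xc32 : XT := (XT.nd (nat_lit 2184) (nat_lit 1748) (nat_lit 0) (XT.nd (nat_lit 1092) (nat_lit 1596) (nat_lit 0) (XT.nd (nat_lit 546) (nat_lit 988) (nat_lit 0) (XT.nd (nat_lit 234) (nat_lit 760) (nat_lit 0) (XT.nd (nat_lit 78) (nat_lit 304) (nat_lit 0) (XT.lf (nat_lit 0) (nat_lit 714262421) (nat_lit 304) (nat_lit 4077922080) (nat_lit 76) (nat_lit 7052459506) (nat_lit 87) (nat_lit 5) (nat_lit 91) (nat_lit 5) (nat_lit 88) (nat_lit 5) (nat_lit 475) (nat_lit 346) (nat_lit 319)) (XT.nd (nat_lit 78) (nat_lit 0) (nat_lit 0) (XT.lf (nat_lit 0) (nat_lit 3328687889) (nat_lit 304) (nat_lit 1183405778) (nat_lit 380) (nat_lit 7475860767) (nat_lit 83) (nat_lit 5) (nat_lit 87) (nat_lit 5) (nat_lit 88) (nat_lit 5) (nat_lit 476) (nat_lit 346) (nat_lit 318)) (XT.lf (nat_lit 0) (nat_lit 8380586383) (nat_lit 380) (nat_lit 1291393444) (nat_lit 76) (nat_lit 2462273541) (nat_lit 83) (nat_lit 5) (nat_lit 88) (nat_lit 5)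 (nat_lit 84) (nat_lit 4) (nat_lit 477) (nat_lit 346) (nat_lit 317)))) (XT.nd (nat_lit 156) (nat_lit 228) (nat_lit 0) (XT.nd (nat_lit 78) (nat_lit 228) (nat_lit 0) (XT.lf (nat_lit 0) (nat_lit 42511900) (nat_lit 304) (nat_lit 6064757248) (nat_lit 76) (nat_lit 6176217216) (nat_lit 79) (nat_lit 5) (nat_lit 83) (nat_lit 5) (nat_lit 80) (nat_lit 5) (nat_lit 478) (nat_lit 346) (nat_lit 316)) (XT.lf (nat_lit 0) (nat_lit 1375466449) (nat_lit 228) (nat_lit 2458597068) (nat_lit 304) (nat_lit 8601765502) (nat_lit 76) (nat_lit 5) (nat_lit 79) (nat_lit 5) (nat_lit 80) (nat_lit 5) (nat_lit 479) (nat_lit 346) (nat_lit 315))) (XT.nd (nat_lit 78) (nat_lit 228) (nat_lit 0) (XT.lf (nat_lit 0) (nat_lit 7702858674) (nat_lit 304) (nat_lit 3631106034) (nat_lit 76) (nat_lit 1257240717) (nat_lit 76) (nat_lit 5) (nat_lit 80) (nat_lit 5) (nat_lit 77) (nat_lit 4) (nat_lit 480) (nat_lit 346) (nat_lit 314)) (XT.lf (nat_lit 0) (nat_lit 3904271111)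 (nat_lit 228) (nat_lit 7739570941) (nat_lit 304) (nat_lit 1105965908) (nat_lit 73) (nat_lit 5) (nat_lit 76) (nat_lit 5) (nat_lit 77) (nat_lit 4) (nat_lit 481) (nat_lit 346) (nat_lit 313))))) (XT.nd (nat_lit 234) (nat_lit 456) (nat_lit 0) (XT.nd (nat_lit 78) (nat_lit 456) (nat_lit 0) (XT.lf (nat_lit 0) (nat_lit 2693775076) (nat_lit 304) (nat_lit 1367062093) (nat_lit 76) (nat_lit 8850846162) (nat_lit 72) (nat_lit 5) (nat_lit 76) (nat_lit 5) (nat_lit 73) (nat_lit 5) (nat_lit 482) (nat_lit 346) (nat_lit 312)) (XT.nd (nat_lit 78) (nat_lit 228) (nat_lit 0) (XT.lf (nat_lit 0) (nat_lit 6259761972) (nat_lit 228) (nat_lit 289790826) (nat_lit 304) (nat_lit 6527214177) (nat_lit 69) (nat_lit 5) (nat_lit 72) (nat_lit 5) (nat_lit 73) (nat_lit 5) (nat_lit 483) (nat_lit 346) (nat_lit 311)) (XT.lf (nat_lit 0) (nat_lit 722790942) (nat_lit 228) (nat_lit 9751081752) (nat_lit 304) (nat_lit 2771464785) (nat_lit 66) (nat_lit 5) (nat_lit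 69) (nat_lit 5) (nat_lit 70) (nat_lit 4) (nat_lit 484) (nat_lit 346) (nat_lit 310)))) (XT.nd (nat_lit 156) (nat_lit 152) (nat_lit 0) (XT.nd (nat_lit 78) (nat_lit 228) (nat_lit 0) (XT.lf (nat_lit 0) (nat_lit 1047969999) (nat_lit 304) (nat_lit 4996012368) (nat_lit 76) (nat_lit 7373123354) (nat_lit 65) (nat_lit 5) (nat_lit 69) (nat_lit 5) (nat_lit 66) (nat_lit 5) (nat_lit 485) (nat_lit 346) (nat_lit 309)) (XT.lf (nat_lit 0) (nat_lit 2622249916) (nat_lit 228) (nat_lit 2256882778) (nat_lit 304) (nat_lit 8713374191) (nat_lit 62) (nat_lit 5) (nat_lit 65) (nat_lit 5) (nat_lit 66) (nat_lit 5) (nat_lit 486) (nat_lit 346) (nat_lit 308))) (XT.nd (nat_lit 78) (nat_lit 152) (nat_lit 0) (XT.lf (nat_lit 0) (nat_lit 8786678943) (nat_lit 304) (nat_lit 3395843668) (nat_lit 76) (nat_lit 1588910929) (nat_lit 62) (nat_lit 5) (nat_lit 66) (nat_lit 5) (nat_lit 63) (nat_lit 4) (nat_lit 487) (nat_lit 346) (nat_lit 307)) (XT.lf (nat_lit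 0) (nat_lit 4297902113) (nat_lit 152) (nat_lit 8473781402) (nat_lit 228) (nat_lit 1182281491) (nat_lit 60) (nat_lit 5) (nat_lit 62) (nat_lit 5) (nat_lit 63) (nat_lit 4) (nat_lit 488) (nat_lit 346) (nat_lit 306)))))) (XT.nd (nat_lit 546) (nat_lit 684) (nat_lit 0) (XT.nd (nat_lit 234) (nat_lit 608) (nat_lit 0) (XT.nd (nat_lit 78) (nat_lit 228) (nat_lit 0) (XT.lf (nat_lit 0) (nat_lit 2640355875) (nat_lit 228) (nat_lit 2039476451) (nat_lit 76) (nat_lit 9460387072) (nat_lit 59) (nat_lit 5) (nat_lit 62) (nat_lit 5) (nat_lit 60) (nat_lit 5) (nat_lit 489) (nat_lit 346) (nat_lit 305)) (XT.nd (nat_lit 78) (nat_lit 0) (nat_lit 0) (XT.lf (nat_lit 0) (nat_lit 5724451233) (nat_lit 228) (nat_lit 793735614) (nat_lit 304) (nat_lit 7811976011) (nat_lit 56) (nat_lit 5) (nat_lit 59) (nat_lit 5) (nat_lit 60) (nat_lit 5) (nat_lit 490) (nat_lit 346) (nat_lit 304)) (XT.lf (nat_lit 0) (nat_lit 10465501075) (nat_lit 304) (nat_lit 945428650)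 (nat_lit 76) (nat_lit 3113148407) (nat_lit 56) (nat_lit 5) (nat_lit 60) (nat_lit 5) (nat_lit 57) (nat_lit 4) (nat_lit 491) (nat_lit 346) (nat_lit 303)))) (XT.nd (nat_lit 156) (nat_lit 380) (nat_lit 0) (XT.nd (nat_lit 78) (nat_lit 76) (nat_lit 0) (XT.lf (nat_lit 0) (nat_lit 6882055621) (nat_lit 152) (nat_lit 7618045127) (nat_lit 228) (nat_lit 221615436) (nat_lit 54) (nat_lit 5) (nat_lit 56) (nat_lit 5) (nat_lit 57) (nat_lit 4) (nat_lit 492) (nat_lit 346) (nat_lit 302)) (XT.lf (nat_lit 0) (nat_lit 3608522835) (nat_lit 228) (nat_lit 139391244) (nat_lit 76) (nat_lit 11175627111) (nat_lit 53) (nat_lit 5) (nat_lit 56) (nat_lit 5) (nat_lit 54) (nat_lit 5) (nat_lit 493) (nat_lit 346) (nat_lit 301))) (XT.nd (nat_lit 78) (nat_lit 152) (nat_lit 0) (XT.lf (nat_lit 0) (nat_lit 7523325002) (nat_lit 304) (nat_lit 7385354926) (nat_lit 76) (nat_lit 220483502) (nat_lit 50) (nat_lit 5) (nat_lit 54) (nat_lit 5) (nat_lit 51) (nat_lit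 4) (nat_lit 494) (nat_lit 346) (nat_lit 300)) (XT.lf (nat_lit 0) (nat_lit 357666261) (nat_lit 152) (nat_lit 11146290168) (nat_lit 228) (nat_lit 3835201420) (nat_lit 48) (nat_lit 5) (nat_lit 50) (nat_lit 5) (nat_lit 51) (nat_lit 4) (nat_lit 495) (nat_lit 346) (nat_lit 299))))) (XT.nd (nat_lit 234) (nat_lit 380) (nat_lit 0) (XT.nd (nat_lit 78) (nat_lit 228) (nat_lit 0) (XT.lf (nat_lit 0) (nat_lit 20110750) (nat_lit 228) (nat_lit 7267069664) (nat_lit 76) (nat_lit 8265992233) (nat_lit 47) (nat_lit 5) (nat_lit 50) (nat_lit 5) (nat_lit 48) (nat_lit 5) (nat_lit 496) (nat_lit 346) (nat_lit 298)) (XT.nd (nat_lit 78) (nat_lit 0) (nat_lit 0) (XT.lf (nat_lit 0) (nat_lit 514391926) (nat_lit 228) (nat_lit 3350482328) (nat_lit 304) (nat_lit 11906822302) (nat_lit 44) (nat_lit 5) (nat_lit 47) (nat_lit 5) (nat_lit 48) (nat_lit 5) (nat_lit 497) (nat_lit 346) (nat_lit 297)) (XT.lf (nat_lit 0) (nat_lit 7800398643) (nat_lit 304) (nat_lit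 7517020962) (nat_lit 76) (nat_lit 676903632) (nat_lit 44) (nat_lit 5) (nat_lit 48) (nat_lit 5) (nat_lit 45) (nat_lit 4) (nat_lit 498) (nat_lit 346) (nat_lit 296)))) (XT.nd (nat_lit 156) (nat_lit 228) (nat_lit 0) (XT.nd (nat_lit 78) (nat_lit 0) (nat_lit 0) (XT.lf (nat_lit 0) (nat_lit 292306664) (nat_lit 152) (nat_lit 11507648136) (nat_lit 228) (nat_lit 4421750641) (nat_lit 42) (nat_lit 5) (nat_lit 44) (nat_lit 5) (nat_lit 45) (nat_lit 4) (nat_lit 499) (nat_lit 346) (nat_lit 295)) (XT.lf (nat_lit 0) (nat_lit 8292752762) (nat_lit 152) (nat_lit 7598752626) (nat_lit 228) (nat_lit 561899069) (nat_lit 42) (nat_lit 5) (nat_lit 44) (nat_lit 5) (nat_lit 45) (nat_lit 4) (nat_lit 500) (nat_lit 346) (nat_lit 294))) (XT.nd (nat_lit 78) (nat_lit 152) (nat_lit 0) (XT.lf (nat_lit 0) (nat_lit 3292939194) (nat_lit 228) (nat_lit 324606793) (nat_lit 76) (nat_lit 13072520958) (nat_lit 41) (nat_lit 5) (nat_lit 44) (nat_lit 5) (nat_lit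 42) (nat_lit 5) (nat_lit 501) (nat_lit 346) (nat_lit 293)) (XT.lf (nat_lit 0) (nat_lit 7233208203) (nat_lit 228) (nat_lit 9233629217) (nat_lit 76) (nat_lit 464242524) (nat_lit 39) (nat_lit 5) (nat_lit 42) (nat_lit 5) (nat_lit 40) (nat_lit 4) (nat_lit 502) (nat_lit 346) (nat_lit 292))))))) (XT.nd (nat_lit 1092) (nat_lit 684) (nat_lit 0) (XT.nd (nat_lit 546) (nat_lit 532) (nat_lit 0) (XT.nd (nat_lit 234) (nat_lit 304) (nat_lit 0) (XT.nd (nat_lit 78) (nat_lit 228) (nat_lit 0) (XT.lf (nat_lit 0) (nat_lit 11241364094) (nat_lit 228) (nat_lit 1381498581) (nat_lit 76) (nat_lit 4554277426) (nat_lit 39) (nat_lit 5) (nat_lit 42) (nat_lit 5) (nat_lit 40) (nat_lit 4) (nat_lit 503) (nat_lit 346) (nat_lit 291)) (XT.nd (nat_lit 78) (nat_lit 76) (nat_lit 0) (XT.lf (nat_lit 0) (nat_lit 6651173861) (nat_lit 152) (nat_lit 8685351443) (nat_lit 228) (nat_lit 2091467677) (nat_lit 37) (nat_lit 5) (nat_lit 39) (nat_lit 5) (nat_lit 40)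 (nat_lit 4) (nat_lit 504) (nat_lit 346) (nat_lit 290)) (XT.lf (nat_lit 0) (nat_lit 1778774714) (nat_lit 228) (nat_lit 2896195498) (nat_lit 76) (nat_lit 13009202245) (nat_lit 36) (nat_lit 5) (nat_lit 39) (nat_lit 5) (nat_lit 37) (nat_lit 5) (nat_lit 505) (nat_lit 346) (nat_lit 289)))) (XT.nd (nat_lit 156) (nat_lit 152) (nat_lit 0) (XT.nd (nat_lit 78) (nat_lit 0) (nat_lit 0) (XT.lf (nat_lit 0) (nat_lit 5132957391) (nat_lit 152) (nat_lit 563237173) (nat_lit 228) (nat_lit 12249056799) (nat_lit 34) (nat_lit 5) (nat_lit 36) (nat_lit 5) (nat_lit 37) (nat_lit 5) (nat_lit 506) (nat_lit 346) (nat_lit 288)) (XT.lf (nat_lit 0) (nat_lit 9699643959) (nat_lit 228) (nat_lit 4935592457) (nat_lit 76) (nat_lit 3576169533) (nat_lit 34) (nat_lit 5) (nat_lit 37) (nat_lit 5) (nat_lit 35) (nat_lit 4) (nat_lit 507) (nat_lit 346) (nat_lit 287))) (XT.nd (nat_lit 78) (nat_lit 0) (nat_lit 0) (XT.lf (nat_lit 0) (nat_lit 3073775649) (nat_lit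 152) (nat_lit 10698313271) (nat_lit 228) (nat_lit 4711023750) (nat_lit 32) (nat_lit 5) (nat_lit 34) (nat_lit 5) (nat_lit 35) (nat_lit 4) (nat_lit 508) (nat_lit 346) (nat_lit 286)) (XT.lf (nat_lit 0) (nat_lit 11249188142) (nat_lit 152) (nat_lit 6675439827) (nat_lit 228) (nat_lit 835660076) (nat_lit 32) (nat_lit 5) (nat_lit 34) (nat_lit 5) (nat_lit 35) (nat_lit 4) (nat_lit 509) (nat_lit 346) (nat_lit 285))))) (XT.nd (nat_lit 234) (nat_lit 304) (nat_lit 0) (XT.nd (nat_lit 78) (nat_lit 0) (nat_lit 0) (XT.lf (nat_lit 0) (nat_lit 470728009) (nat_lit 152) (nat_lit 2574626088) (nat_lit 228) (nat_lit 15997874669) (nat_lit 29) (nat_lit 5) (nat_lit 31) (nat_lit 5) (nat_lit 32) (nat_lit 5) (nat_lit 510) (nat_lit 346) (nat_lit 284)) (XT.nd (nat_lit 78) (nat_lit 0) (nat_lit 0) (XT.lf (nat_lit 0) (nat_lit 7020066440) (nat_lit 228) (nat_lit 10693546362) (nat_lit 76) (nat_lit 1617566674) (nat_lit 29) (nat_lit 5) (nat_lit 32) (nat_lit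 5) (nat_lit 30) (nat_lit 4) (nat_lit 511) (nat_lit 346) (nat_lit 283)) (XT.lf (nat_lit 0) (nat_lit 11058066824) (nat_lit 228) (nat_lit 2733302648) (nat_lit 76) (nat_lit 5833850712) (nat_lit 29) (nat_lit 5) (nat_lit 32) (nat_lit 5) (nat_lit 30) (nat_lit 4) (nat_lit 512) (nat_lit 346) (nat_lit 282)))) (XT.nd (nat_lit 156) (nat_lit 228) (nat_lit 0) (XT.nd (nat_lit 78) (nat_lit 0) (nat_lit 0) (XT.lf (nat_lit 0) (nat_lit 5398875452) (nat_lit 76) (nat_lit 9780400225) (nat_lit 152) (nat_lit 4745823784) (nat_lit 28) (nat_lit 5) (nat_lit 29) (nat_lit 5) (nat_lit 30) (nat_lit 4) (nat_lit 513) (nat_lit 346) (nat_lit 281)) (XT.lf (nat_lit 0) (nat_lit 13673052132) (nat_lit 76) (nat_lit 5695858567) (nat_lit 152) (nat_lit 862352180) (nat_lit 28) (nat_lit 5) (nat_lit 29) (nat_lit 5) (nat_lit 30) (nat_lit 4) (nat_lit 514) (nat_lit 346) (nat_lit 280))) (XT.nd (nat_lit 78) (nat_lit 0) (nat_lit 0) (XT.lf (nat_lit 0) (nat_lit 1511877025)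 (nat_lit 152) (nat_lit 1524164619) (nat_lit 228) (nat_lit 17507553991) (nat_lit 25) (nat_lit 5) (nat_lit 27) (nat_lit 5) (nat_lit 28) (nat_lit 5) (nat_lit 515) (nat_lit 346) (nat_lit 279)) (XT.lf (nat_lit 0) (nat_lit 7031073101) (nat_lit 228) (nat_lit 11109861046) (nat_lit 76) (nat_lit 2720528777) (nat_lit 25) (nat_lit 5) (nat_lit 28) (nat_lit 5) (nat_lit 26) (nat_lit 4) (nat_lit 516) (nat_lit 346) (nat_lit 278)))))) (XT.nd (nat_lit 546) (nat_lit 304) (nat_lit 0) (XT.nd (nat_lit 234) (nat_lit 304) (nat_lit 0) (XT.nd (nat_lit 78) (nat_lit 76) (nat_lit 0) (XT.lf (nat_lit 0) (nat_lit 11084897161) (nat_lit 228) (nat_lit 3095637971) (nat_lit 76) (nat_lit 7005580678) (nat_lit 25) (nat_lit 5) (nat_lit 28) (nat_lit 5) (nat_lit 26) (nat_lit 4) (nat_lit 517) (nat_lit 346) (nat_lit 277)) (XT.nd (nat_lit 78) (nat_lit 0) (nat_lit 0) (XT.lf (nat_lit 0) (nat_lit 5090755510) (nat_lit 76) (nat_lit 10131504724) (nat_lit 152) (nat_lit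 6294958240) (nat_lit 24) (nat_lit 5) (nat_lit 25) (nat_lit 5) (nat_lit 26) (nat_lit 4) (nat_lit 518) (nat_lit 346) (nat_lit 276)) (XT.lf (nat_lit 0) (nat_lit 13428319873) (nat_lit 76) (nat_lit 6004479857) (nat_lit 152) (nat_lit 2422340734) (nat_lit 24) (nat_lit 5) (nat_lit 25) (nat_lit 5) (nat_lit 26) (nat_lit 4) (nat_lit 519) (nat_lit 346) (nat_lit 275)))) (XT.nd (nat_lit 156) (nat_lit 76) (nat_lit 0) (XT.nd (nat_lit 78) (nat_lit 152) (nat_lit 0) (XT.lf (nat_lit 0) (nat_lit 1477740785) (nat_lit 152) (nat_lit 330958247) (nat_lit 76) (nat_lit 20391528146) (nat_lit 23) (nat_lit 5) (nat_lit 25) (nat_lit 5) (nat_lit 24) (nat_lit 5) (nat_lit 520) (nat_lit 346) (nat_lit 274)) (XT.lf (nat_lit 0) (nat_lit 5462091571) (nat_lit 228) (nat_lit 14605383561) (nat_lit 76) (nat_lit 2483651723) (nat_lit 21) (nat_lit 5) (nat_lit 24) (nat_lit 5) (nat_lit 22) (nat_lit 4) (nat_lit 521) (nat_lit 346) (nat_lit 273))) (XT.nd (nat_lit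 78) (nat_lit 76) (nat_lit 0) (XT.lf (nat_lit 0) (nat_lit 9511062337) (nat_lit 228) (nat_lit 6581414974) (nat_lit 76) (nat_lit 6816873963) (nat_lit 21) (nat_lit 5) (nat_lit 24) (nat_lit 5) (nat_lit 22) (nat_lit 4) (nat_lit 522) (nat_lit 346) (nat_lit 272)) (XT.lf (nat_lit 0) (nat_lit 1571797278) (nat_lit 76) (nat_lit 12050713738) (nat_lit 152) (nat_lit 9652604498) (nat_lit 20) (nat_lit 5) (nat_lit 21) (nat_lit 5) (nat_lit 22) (nat_lit 4) (nat_lit 523) (nat_lit 346) (nat_lit 271))))) (XT.nd (nat_lit 312) (nat_lit 76) (nat_lit 0) (XT.nd (nat_lit 156) (nat_lit 228) (nat_lit 0) (XT.nd (nat_lit 78) (nat_lit 0) (nat_lit 0) (XT.lf (nat_lit 0) (nat_lit 9925777597) (nat_lit 76) (nat_lit 7906097622) (nat_lit 152) (nat_lit 5816011288) (nat_lit 20) (nat_lit 5) (nat_lit 21) (nat_lit 5) (nat_lit 22) (nat_lit 4) (nat_lit 524) (nat_lit 346) (nat_lit 270)) (XT.lf (nat_lit 0) (nat_lit 18396338512) (nat_lit 76) (nat_lit 3701168384)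 (nat_lit 152) (nat_lit 1931169518) (nat_lit 20) (nat_lit 5) (nat_lit 21) (nat_lit 5) (nat_lit 22) (nat_lit 4) (nat_lit 525) (nat_lit 346) (nat_lit 269))) (XT.nd (nat_lit 78) (nat_lit 0) (nat_lit 0) (XT.lf (nat_lit 0) (nat_lit 1997856147) (nat_lit 228) (nat_lit 21830779061) (nat_lit 76) (nat_lit 588325453) (nat_lit 17) (nat_lit 5) (nat_lit 20) (nat_lit 5) (nat_lit 18) (nat_lit 4) (nat_lit 526) (nat_lit 346) (nat_lit 268)) (XT.lf (nat_lit 0) (nat_lit 6014701300) (nat_lit 228) (nat_lit 13854345115) (nat_lit 76) (nat_lit 4943011734) (nat_lit 17) (nat_lit 5) (nat_lit 20) (nat_lit 5) (nat_lit 18) (nat_lit 4) (nat_lit 527) (nat_lit 346) (nat_lit 267)))) (XT.nd (nat_lit 156) (nat_lit 0) (nat_lit 0) (XT.nd (nat_lit 78) (nat_lit 76) (nat_lit 0) (XT.lf (nat_lit 0) (nat_lit 10084938118) (nat_lit 228) (nat_lit 5767362098) (nat_lit 76) (nat_lit 9363300983) (nat_lit 17) (nat_lit 5) (nat_lit 20) (nat_lit 5) (nat_lit 18) (nat_lit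 4) (nat_lit 528) (nat_lit 346) (nat_lit 266)) (XT.lf (nat_lit 0) (nat_lit 2465679179) (nat_lit 76) (nat_lit 11760492417) (nat_lit 152) (nat_lit 11401256293) (nat_lit 16) (nat_lit 5) (nat_lit 17) (nat_lit 5) (nat_lit 18) (nat_lit 4) (nat_lit 529) (nat_lit 346) (nat_lit 265))) (XT.nd (nat_lit 78) (nat_lit 0) (nat_lit 0) (XT.lf (nat_lit 0) (nat_lit 10893856084) (nat_lit 76) (nat_lit 7568867051) (nat_lit 152) (nat_lit 7584522635) (nat_lit 16) (nat_lit 5) (nat_lit 17) (nat_lit 5) (nat_lit 18) (nat_lit 4) (nat_lit 530) (nat_lit 346) (nat_lit 264)) (XT.lf (nat_lit 0) (nat_lit 19443828578) (nat_lit 76) (nat_lit 3314482379) (nat_lit 152) (nat_lit 3717667385) (nat_lit 16) (nat_lit 5) (nat_lit 17) (nat_lit 5) (nat_lit 18) (nat_lit 4) (nat_lit 531) (nat_lit 346) (nat_lit 263))))))))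
noncomputable def xc33 : XT := (XT.nd (nat_lit 54756) (nat_lit 0) (nat_lit 2128) (XT.nd (nat_lit 53664) (nat_lit 0) (nat_lit 6232) (XT.nd (nat_lit 53118) (nat_lit 0) (nat_lit 9500) (XT.nd (nat_lit 52806) (nat_lit 0) (nat_lit 11780) (XT.nd (nat_lit 52650) (nat_lit 0) (nat_lit 13300) (XT.lf (nat_lit 0) (nat_lit 212693945) (nat_lit 228) (nat_lit 25700340595) (nat_lit 76) (nat_lit 1000443076) (nat_lit 13) (nat_lit 5) (nat_lit 16) (nat_lit 5) (nat_lit 14) (nat_lit 4) (nat_lit 532) (nat_lit 346) (nat_lit 262)) (XT.nd (nat_lit 78) (nat_lit 532) (nat_lit 0) (XT.lf (nat_lit 0) (nat_lit 1255612532) (nat_lit 532) (nat_lit 1873197795) (nat_lit 0) (nat_lit 1255612532) (nat_lit 195) (nat_lit 5) (nat_lit 202) (nat_lit 4) (nat_lit 195) (nat_lit 4) (nat_lit 446) (nat_lit 347) (nat_lit 347)) (XT.lf (nat_lit 0) (nat_lit 2767328218) (nat_lit 532) (nat_lit 3547555376) (nat_lit 532) (nat_lit 2530804592) (nat_lit 188) (nat_lit 4) (nat_lit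 195) (nat_lit 5) (nat_lit 195) (nat_lit 4) (nat_lit 447) (nat_lit 347) (nat_lit 346)))) (XT.nd (nat_lit 156) (nat_lit 988) (nat_lit 0) (XT.nd (nat_lit 78) (nat_lit 0) (nat_lit 0) (XT.lf (nat_lit 0) (nat_lit 448634267) (nat_lit 456) (nat_lit 770276398) (nat_lit 532) (nat_lit 7705726118) (nat_lit 181) (nat_lit 5) (nat_lit 187) (nat_lit 5) (nat_lit 188) (nat_lit 4) (nat_lit 448) (nat_lit 347) (nat_lit 345)) (XT.lf (nat_lit 0) (nat_lit 5001539519) (nat_lit 532) (nat_lit 1934139299) (nat_lit 0) (nat_lit 2069348940) (nat_lit 181) (nat_lit 5) (nat_lit 188) (nat_lit 4) (nat_lit 181) (nat_lit 4) (nat_lit 449) (nat_lit 347) (nat_lit 344))) (XT.nd (nat_lit 78) (nat_lit 532) (nat_lit 0) (XT.lf (nat_lit 0) (nat_lit 4709012668) (nat_lit 456) (nat_lit 4125036948) (nat_lit 456) (nat_lit 253525807) (nat_lit 175) (nat_lit 4) (nat_lit 181) (nat_lit 5) (nat_lit 181) (nat_lit 4) (nat_lit 450) (nat_lit 347) (nat_lit 343)) (XT.lf (nat_lit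 0) (nat_lit 2259606402) (nat_lit 456) (nat_lit 1231492634) (nat_lit 532) (nat_lit 5680913326) (nat_lit 168) (nat_lit 5) (nat_lit 174) (nat_lit 5) (nat_lit 175) (nat_lit 4) (nat_lit 451) (nat_lit 347) (nat_lit 342))))) (XT.nd (nat_lit 234) (nat_lit 1368) (nat_lit 0) (XT.nd (nat_lit 78) (nat_lit 912) (nat_lit 0) (XT.lf (nat_lit 0) (nat_lit 7287214418) (nat_lit 532) (nat_lit 267694849) (nat_lit 0) (nat_lit 1703626916) (nat_lit 168) (nat_lit 5) (nat_lit 175) (nat_lit 4) (nat_lit 168) (nat_lit 4) (nat_lit 452) (nat_lit 347) (nat_lit 341)) (XT.nd (nat_lit 78) (nat_lit 380) (nat_lit 0) (XT.lf (nat_lit 0) (nat_lit 1779405567) (nat_lit 532) (nat_lit 2856975259) (nat_lit 76) (nat_lit 4710390298) (nat_lit 161) (nat_lit 5) (nat_lit 168) (nat_lit 5) (nat_lit 162) (nat_lit 4) (nat_lit 453) (nat_lit 347) (nat_lit 340)) (XT.lf (nat_lit 0) (nat_lit 3901889959) (nat_lit 380) (nat_lit 1644662534) (nat_lit 456) (nat_lit 3890631338)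 (nat_lit 156) (nat_lit 5) (nat_lit 161) (nat_lit 5) (nat_lit 162) (nat_lit 4) (nat_lit 454) (nat_lit 347) (nat_lit 339)))) (XT.nd (nat_lit 156) (nat_lit 836) (nat_lit 0) (XT.nd (nat_lit 78) (nat_lit 76) (nat_lit 0) (XT.lf (nat_lit 0) (nat_lit 1226443458) (nat_lit 456) (nat_lit 8140071410) (nat_lit 456) (nat_lit 163369590) (nat_lit 150) (nat_lit 4) (nat_lit 156) (nat_lit 5) (nat_lit 156) (nat_lit 4) (nat_lit 455) (nat_lit 347) (nat_lit 338)) (XT.lf (nat_lit 0) (nat_lit 3580263687) (nat_lit 532) (nat_lit 1546270226) (nat_lit 76) (nat_lit 4497669806) (nat_lit 149) (nat_lit 5) (nat_lit 156) (nat_lit 5) (nat_lit 150) (nat_lit 4) (nat_lit 456) (nat_lit 347) (nat_lit 337))) (XT.nd (nat_lit 78) (nat_lit 456) (nat_lit 0) (XT.lf (nat_lit 0) (nat_lit 5330300306) (nat_lit 380) (nat_lit 2043305934) (nat_lit 456) (nat_lit 2347268480) (nat_lit 144) (nat_lit 5) (nat_lit 149) (nat_lit 5) (nat_lit 150) (nat_lit 4) (nat_lit 457)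 (nat_lit 347) (nat_lit 336)) (XT.lf (nat_lit 0) (nat_lit 1381051047) (nat_lit 456) (nat_lit 7342585046) (nat_lit 76) (nat_lit 1096156957) (nat_lit 138) (nat_lit 5) (nat_lit 144) (nat_lit 5) (nat_lit 139) (nat_lit 4) (nat_lit 458) (nat_lit 347) (nat_lit 335)))))) (XT.nd (nat_lit 546) (nat_lit 1368) (nat_lit 0) (XT.nd (nat_lit 234) (nat_lit 1064) (nat_lit 0) (XT.nd (nat_lit 78) (nat_lit 836) (nat_lit 0) (XT.lf (nat_lit 0) (nat_lit 5138720922) (nat_lit 456) (nat_lit 492739751) (nat_lit 76) (nat_lit 4289220340) (nat_lit 138) (nat_lit 5) (nat_lit 144) (nat_lit 5) (nat_lit 139) (nat_lit 4) (nat_lit 459) (nat_lit 347) (nat_lit 334)) (XT.nd (nat_lit 78) (nat_lit 456) (nat_lit 0) (XT.lf (nat_lit 0) (nat_lit 6495737410) (nat_lit 380) (nat_lit 2462093664) (nat_lit 456) (nat_lit 1066055272) (nat_lit 133) (nat_lit 5) (nat_lit 138) (nat_lit 5) (nat_lit 139) (nat_lit 4) (nat_lit 460) (nat_lit 347) (nat_lit 333)) (XT.lf (nat_lit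 0) (nat_lit 2663524175) (nat_lit 456) (nat_lit 6689258572) (nat_lit 76) (nat_lit 776541969) (nat_lit 127) (nat_lit 5) (nat_lit 133) (nat_lit 5) (nat_lit 128) (nat_lit 4) (nat_lit 461) (nat_lit 347) (nat_lit 332)))) (XT.nd (nat_lit 156) (nat_lit 760) (nat_lit 0) (XT.nd (nat_lit 78) (nat_lit 0) (nat_lit 0) (XT.lf (nat_lit 0) (nat_lit 254723948) (nat_lit 304) (nat_lit 6185150054) (nat_lit 380) (nat_lit 3797151737) (nat_lit 123) (nat_lit 5) (nat_lit 127) (nat_lit 5) (nat_lit 128) (nat_lit 4) (nat_lit 462) (nat_lit 347) (nat_lit 331)) (XT.lf (nat_lit 0) (nat_lit 7344647548) (nat_lit 304) (nat_lit 2937182483) (nat_lit 380) (nat_lit 65272584) (nat_lit 123) (nat_lit 5) (nat_lit 127) (nat_lit 5) (nat_lit 128) (nat_lit 4) (nat_lit 463) (nat_lit 347) (nat_lit 330))) (XT.nd (nat_lit 78) (nat_lit 304) (nat_lit 0) (XT.lf (nat_lit 0) (nat_lit 3667034916) (nat_lit 456) (nat_lit 6398788697) (nat_lit 76) (nat_lit 393596952) (nat_lit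 117) (nat_lit 5) (nat_lit 123) (nat_lit 5) (nat_lit 118) (nat_lit 4) (nat_lit 464) (nat_lit 347) (nat_lit 329)) (XT.lf (nat_lit 0) (nat_lit 637360156) (nat_lit 304) (nat_lit 6825855287) (nat_lit 380) (nat_lit 3110980852) (nat_lit 113) (nat_lit 5) (nat_lit 117) (nat_lit 5) (nat_lit 118) (nat_lit 4) (nat_lit 465) (nat_lit 347) (nat_lit 328))))) (XT.nd (nat_lit 234) (nat_lit 684) (nat_lit 0) (XT.nd (nat_lit 78) (nat_lit 608) (nat_lit 0) (XT.lf (nat_lit 0) (nat_lit 625202120) (nat_lit 380) (nat_lit 2877172182) (nat_lit 76) (nat_lit 7189038875) (nat_lit 112) (nat_lit 5) (nat_lit 117) (nat_lit 5) (nat_lit 113) (nat_lit 5) (nat_lit 466) (nat_lit 347) (nat_lit 327)) (XT.nd (nat_lit 78) (nat_lit 304) (nat_lit 0) (XT.lf (nat_lit 0) (nat_lit 4277549342) (nat_lit 304) (nat_lit 92139839) (nat_lit 380) (nat_lit 6441390008) (nat_lit 108) (nat_lit 5) (nat_lit 112) (nat_lit 5) (nat_lit 113) (nat_lit 5) (nat_lit 467) (nat_lit 347)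 (nat_lit 326)) (XT.lf (nat_lit 0) (nat_lit 585204548) (nat_lit 304) (nat_lit 7596823004) (nat_lit 380) (nat_lit 2751272123) (nat_lit 104) (nat_lit 5) (nat_lit 108) (nat_lit 5) (nat_lit 109) (nat_lit 4) (nat_lit 468) (nat_lit 347) (nat_lit 325)))) (XT.nd (nat_lit 156) (nat_lit 304) (nat_lit 0) (XT.nd (nat_lit 78) (nat_lit 304) (nat_lit 0) (XT.lf (nat_lit 0) (nat_lit 991985222) (nat_lit 380) (nat_lit 3211829026) (nat_lit 76) (nat_lit 6854186056) (nat_lit 103) (nat_lit 5) (nat_lit 108) (nat_lit 5) (nat_lit 104) (nat_lit 5) (nat_lit 469) (nat_lit 347) (nat_lit 324)) (XT.lf (nat_lit 0) (nat_lit 4021147437) (nat_lit 304) (nat_lit 727159401) (nat_lit 380) (nat_lit 6437042828) (nat_lit 99) (nat_lit 5) (nat_lit 103) (nat_lit 5) (nat_lit 104) (nat_lit 5) (nat_lit 470) (nat_lit 347) (nat_lit 323))) (XT.nd (nat_lit 78) (nat_lit 76) (nat_lit 0) (XT.lf (nat_lit 0) (nat_lit 28591555) (nat_lit 228) (nat_lit 8540535870) (nat_lit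 304) (nat_lit 2746349972) (nat_lit 96) (nat_lit 5) (nat_lit 99) (nat_lit 5) (nat_lit 100) (nat_lit 4) (nat_lit 471) (nat_lit 347) (nat_lit 322)) (XT.lf (nat_lit 0) (nat_lit 1007324403) (nat_lit 304) (nat_lit 4077640081) (nat_lit 76) (nat_lit 6363078668) (nat_lit 95) (nat_lit 5) (nat_lit 99) (nat_lit 5) (nat_lit 96) (nat_lit 5) (nat_lit 472) (nat_lit 347) (nat_lit 321))))))) (XT.nd (nat_lit 1092) (nat_lit 1596) (nat_lit 0) (XT.nd (nat_lit 546) (nat_lit 1292) (nat_lit 0) (XT.nd (nat_lit 234) (nat_lit 608) (nat_lit 0) (XT.nd (nat_lit 78) (nat_lit 304) (nat_lit 0) (XT.lf (nat_lit 0) (nat_lit 3220424372) (nat_lit 304) (nat_lit 1550123066) (nat_lit 380) (nat_lit 6812942489) (nat_lit 91) (nat_lit 5) (nat_lit 95) (nat_lit 5) (nat_lit 96) (nat_lit 5) (nat_lit 473) (nat_lit 347) (nat_lit 320)) (XT.nd (nat_lit 78) (nat_lit 304) (nat_lit 0) (XT.lf (nat_lit 0) (nat_lit 8600499282) (nat_lit 380) (nat_lit 1094603036) (nat_lit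 76) (nat_lit 2026731432) (nat_lit 91) (nat_lit 5) (nat_lit 96) (nat_lit 5) (nat_lit 92) (nat_lit 4) (nat_lit 474) (nat_lit 347) (nat_lit 319)) (XT.lf (nat_lit 0) (nat_lit 638461874) (nat_lit 304) (nat_lit 5553477631) (nat_lit 76) (nat_lit 5670881952) (nat_lit 87) (nat_lit 5) (nat_lit 91) (nat_lit 5) (nat_lit 88) (nat_lit 5) (nat_lit 475) (nat_lit 347) (nat_lit 318)))) (XT.nd (nat_lit 156) (nat_lit 304) (nat_lit 0) (XT.nd (nat_lit 78) (nat_lit 0) (nat_lit 0) (XT.lf (nat_lit 0) (nat_lit 1794253531) (nat_lit 304) (nat_lit 2608144201) (nat_lit 380) (nat_lit 7604420177) (nat_lit 83) (nat_lit 5) (nat_lit 87) (nat_lit 5) (nat_lit 88) (nat_lit 5) (nat_lit 476) (nat_lit 347) (nat_lit 317)) (XT.lf (nat_lit 0) (nat_lit 8237830584) (nat_lit 380) (nat_lit 2874326620) (nat_lit 76) (nat_lit 1041628794) (nat_lit 83) (nat_lit 5) (nat_lit 88) (nat_lit 5) (nat_lit 84) (nat_lit 4) (nat_lit 477) (nat_lit 347) (nat_lit 316))) (XT.nd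 (nat_lit 78) (nat_lit 76) (nat_lit 0) (XT.lf (nat_lit 0) (nat_lit 4576415007) (nat_lit 228) (nat_lit 7573390506) (nat_lit 304) (nat_lit 153907025) (nat_lit 80) (nat_lit 5) (nat_lit 83) (nat_lit 5) (nat_lit 84) (nat_lit 4) (nat_lit 478) (nat_lit 347) (nat_lit 315)) (XT.lf (nat_lit 0) (nat_lit 3607441080) (nat_lit 304) (nat_lit 342303502) (nat_lit 76) (nat_lit 8506982536) (nat_lit 79) (nat_lit 5) (nat_lit 83) (nat_lit 5) (nat_lit 80) (nat_lit 5) (nat_lit 479) (nat_lit 347) (nat_lit 314))))) (XT.nd (nat_lit 234) (nat_lit 760) (nat_lit 0) (XT.nd (nat_lit 78) (nat_lit 304) (nat_lit 0) (XT.lf (nat_lit 0) (nat_lit 7208278954) (nat_lit 228) (nat_lit 234352754) (nat_lit 304) (nat_lit 5170151257) (nat_lit 76) (nat_lit 5) (nat_lit 79) (nat_lit 5) (nat_lit 80) (nat_lit 5) (nat_lit 480) (nat_lit 347) (nat_lit 313)) (XT.nd (nat_lit 78) (nat_lit 76) (nat_lit 0) (XT.lf (nat_lit 0) (nat_lit 2070788733) (nat_lit 228) (nat_lit 9276677388)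 (nat_lit 304) (nat_lit 1424649567) (nat_lit 73) (nat_lit 5) (nat_lit 76) (nat_lit 5) (nat_lit 77) (nat_lit 4) (nat_lit 481) (nat_lit 347) (nat_lit 312)) (XT.lf (nat_lit 0) (nat_lit 2356594987) (nat_lit 304) (nat_lit 3258403792) (nat_lit 76) (nat_lit 7319494108) (nat_lit 72) (nat_lit 5) (nat_lit 76) (nat_lit 5) (nat_lit 73) (nat_lit 5) (nat_lit 482) (nat_lit 347) (nat_lit 311)))) (XT.nd (nat_lit 156) (nat_lit 532) (nat_lit 0) (XT.nd (nat_lit 78) (nat_lit 0) (nat_lit 0) (XT.lf (nat_lit 0) (nat_lit 4305912141) (nat_lit 228) (nat_lit 1871543483) (nat_lit 304) (nat_lit 6922826041) (nat_lit 69) (nat_lit 5) (nat_lit 72) (nat_lit 5) (nat_lit 73) (nat_lit 5) (nat_lit 483) (nat_lit 347) (nat_lit 310)) (XT.lf (nat_lit 0) (nat_lit 10064684677) (nat_lit 304) (nat_lit 1290776199) (nat_lit 76) (nat_lit 1914139769) (nat_lit 69) (nat_lit 5) (nat_lit 73) (nat_lit 5) (nat_lit 70) (nat_lit 4) (nat_lit 484) (nat_lit 347) (nat_lit 309)))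 (XT.nd (nat_lit 78) (nat_lit 228) (nat_lit 0) (XT.lf (nat_lit 0) (nat_lit 589570792) (nat_lit 304) (nat_lit 7085345154) (nat_lit 76) (nat_lit 5767128281) (nat_lit 65) (nat_lit 5) (nat_lit 69) (nat_lit 5) (nat_lit 66) (nat_lit 5) (nat_lit 485) (nat_lit 347) (nat_lit 308)) (XT.lf (nat_lit 0) (nat_lit 468345350) (nat_lit 228) (nat_lit 3916751965) (nat_lit 304) (nat_lit 9233067074) (nat_lit 62) (nat_lit 5) (nat_lit 65) (nat_lit 5) (nat_lit 66) (nat_lit 5) (nat_lit 486) (nat_lit 347) (nat_lit 307)))))) (XT.nd (nat_lit 546) (nat_lit 912) (nat_lit 0) (XT.nd (nat_lit 234) (nat_lit 456) (nat_lit 0) (XT.nd (nat_lit 78) (nat_lit 228) (nat_lit 0) (XT.lf (nat_lit 0) (nat_lit 8196263766) (nat_lit 228) (nat_lit 64465100) (nat_lit 304) (nat_lit 5537006622) (nat_lit 62) (nat_lit 5) (nat_lit 65) (nat_lit 5) (nat_lit 66) (nat_lit 5) (nat_lit 487) (nat_lit 347) (nat_lit 306)) (XT.nd (nat_lit 78) (nat_lit 76) (nat_lit 0) (XT.lf (nat_lit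 0) (nat_lit 2027201762) (nat_lit 152) (nat_lit 10182236631) (nat_lit 228) (nat_lit 1771560493) (nat_lit 60) (nat_lit 5) (nat_lit 62) (nat_lit 5) (nat_lit 63) (nat_lit 4) (nat_lit 488) (nat_lit 347) (nat_lit 305)) (XT.lf (nat_lit 0) (nat_lit 2037711251) (nat_lit 228) (nat_lit 4369146086) (nat_lit 76) (nat_lit 7760900140) (nat_lit 59) (nat_lit 5) (nat_lit 62) (nat_lit 5) (nat_lit 60) (nat_lit 5) (nat_lit 489) (nat_lit 347) (nat_lit 304)))) (XT.nd (nat_lit 156) (nat_lit 228) (nat_lit 0) (XT.nd (nat_lit 78) (nat_lit 0) (nat_lit 0) (XT.lf (nat_lit 0) (nat_lit 3328295394) (nat_lit 228) (nat_lit 2551008885) (nat_lit 304) (nat_lit 8479127100) (nat_lit 56) (nat_lit 5) (nat_lit 59) (nat_lit 5) (nat_lit 60) (nat_lit 5) (nat_lit 490) (nat_lit 347) (nat_lit 303)) (XT.lf (nat_lit 0) (nat_lit 9794614948) (nat_lit 304) (nat_lit 3393595722) (nat_lit 76) (nat_lit 1364781627) (nat_lit 56) (nat_lit 5) (nat_lit 60) (nat_lit 5) (nat_lit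 57) (nat_lit 4) (nat_lit 491) (nat_lit 347) (nat_lit 302))) (XT.nd (nat_lit 78) (nat_lit 76) (nat_lit 0) (XT.lf (nat_lit 0) (nat_lit 4366432866) (nat_lit 152) (nat_lit 9426258294) (nat_lit 228) (nat_lit 958675120) (nat_lit 54) (nat_lit 5) (nat_lit 56) (nat_lit 5) (nat_lit 57) (nat_lit 4) (nat_lit 492) (nat_lit 347) (nat_lit 301)) (XT.lf (nat_lit 0) (nat_lit 2860975213) (nat_lit 228) (nat_lit 2714387817) (nat_lit 76) (nat_lit 9378332307) (nat_lit 53) (nat_lit 5) (nat_lit 56) (nat_lit 5) (nat_lit 54) (nat_lit 5) (nat_lit 493) (nat_lit 347) (nat_lit 300))))) (XT.nd (nat_lit 312) (nat_lit 456) (nat_lit 0) (XT.nd (nat_lit 156) (nat_lit 228) (nat_lit 0) (XT.nd (nat_lit 78) (nat_lit 0) (nat_lit 0) (XT.lf (nat_lit 0) (nat_lit 5101788973) (nat_lit 228) (nat_lit 1635615086) (nat_lit 304) (nat_lit 8422686131) (nat_lit 50) (nat_lit 5) (nat_lit 53) (nat_lit 5) (nat_lit 54) (nat_lit 5) (nat_lit 494) (nat_lit 347) (nat_lit 299))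 (XT.lf (nat_lit 0) (nat_lit 10685412558) (nat_lit 304) (nat_lit 2343267184) (nat_lit 76) (nat_lit 2342062373) (nat_lit 50) (nat_lit 5) (nat_lit 54) (nat_lit 5) (nat_lit 51) (nat_lit 4) (nat_lit 495) (nat_lit 347) (nat_lit 298))) (XT.nd (nat_lit 78) (nat_lit 76) (nat_lit 0) (XT.lf (nat_lit 0) (nat_lit 5520471040) (nat_lit 152) (nat_lit 9199608088) (nat_lit 228) (nat_lit 865383983) (nat_lit 48) (nat_lit 5) (nat_lit 50) (nat_lit 5) (nat_lit 51) (nat_lit 4) (nat_lit 496) (nat_lit 347) (nat_lit 297)) (XT.lf (nat_lit 0) (nat_lit 2968126483) (nat_lit 228) (nat_lit 2317950949) (nat_lit 76) (nat_lit 10518478770) (nat_lit 47) (nat_lit 5) (nat_lit 50) (nat_lit 5) (nat_lit 48) (nat_lit 5) (nat_lit 497) (nat_lit 347) (nat_lit 296)))) (XT.nd (nat_lit 156) (nat_lit 228) (nat_lit 0) (XT.nd (nat_lit 78) (nat_lit 0) (nat_lit 0) (XT.lf (nat_lit 0) (nat_lit 5585623688) (nat_lit 228) (nat_lit 1279224230) (nat_lit 304) (nat_lit 9163115685)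 (nat_lit 44) (nat_lit 5) (nat_lit 47) (nat_lit 5) (nat_lit 48) (nat_lit 5) (nat_lit 498) (nat_lit 347) (nat_lit 295)) (XT.lf (nat_lit 0) (nat_lit 10835386255) (nat_lit 304) (nat_lit 2661255740) (nat_lit 76) (nat_lit 2759288741) (nat_lit 44) (nat_lit 5) (nat_lit 48) (nat_lit 5) (nat_lit 45) (nat_lit 4) (nat_lit 499) (nat_lit 347) (nat_lit 294))) (XT.nd (nat_lit 78) (nat_lit 76) (nat_lit 0) (XT.lf (nat_lit 0) (nat_lit 5271323533) (nat_lit 152) (nat_lit 9619448544) (nat_lit 228) (nat_lit 1597585450) (nat_lit 42) (nat_lit 5) (nat_lit 44) (nat_lit 5) (nat_lit 45) (nat_lit 4) (nat_lit 500) (nat_lit 347) (nat_lit 293)) (XT.lf (nat_lit 0) (nat_lit 2252419870) (nat_lit 228) (nat_lit 3406376655) (nat_lit 76) (nat_lit 11066730608) (nat_lit 41) (nat_lit 5) (nat_lit 44) (nat_lit 5) (nat_lit 42) (nat_lit 5) (nat_lit 501) (nat_lit 347) (nat_lit 292))))))))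
noncomputable def xc34 : XT := (XT.nd (nat_lit 2184) (nat_lit 76) (nat_lit 0) (XT.nd (nat_lit 1092) (nat_lit 760) (nat_lit 0) (XT.nd (nat_lit 546) (nat_lit 532) (nat_lit 0) (XT.nd (nat_lit 234) (nat_lit 228) (nat_lit 0) (XT.nd (nat_lit 78) (nat_lit 152) (nat_lit 0) (XT.lf (nat_lit 0) (nat_lit 4545940414) (nat_lit 152) (nat_lit 1605157261) (nat_lit 228) (nat_lit 10816278503) (nat_lit 39) (nat_lit 5) (nat_lit 41) (nat_lit 5) (nat_lit 42) (nat_lit 5) (nat_lit 502) (nat_lit 347) (nat_lit 291)) (XT.nd (nat_lit 78) (nat_lit 152) (nat_lit 0) (XT.lf (nat_lit 0) (nat_lit 10130840914) (nat_lit 228) (nat_lit 4590433951) (nat_lit 76) (nat_lit 2492733864) (nat_lit 39) (nat_lit 5) (nat_lit 42) (nat_lit 5) (nat_lit 40) (nat_lit 4) (nat_lit 503) (nat_lit 347) (nat_lit 290)) (XT.lf (nat_lit 0) (nat_lit 3368250432) (nat_lit 152) (nat_lit 10818798632) (nat_lit 228) (nat_lit 3278595664) (nat_lit 37) (nat_lit 5) (nat_lit 39) (nat_lit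 5) (nat_lit 40) (nat_lit 4) (nat_lit 504) (nat_lit 347) (nat_lit 289)))) (XT.nd (nat_lit 156) (nat_lit 0) (nat_lit 0) (XT.nd (nat_lit 78) (nat_lit 152) (nat_lit 0) (XT.lf (nat_lit 0) (nat_lit 589604550) (nat_lit 228) (nat_lit 6240029430) (nat_lit 76) (nat_lit 10892700507) (nat_lit 36) (nat_lit 5) (nat_lit 39) (nat_lit 5) (nat_lit 37) (nat_lit 5) (nat_lit 505) (nat_lit 347) (nat_lit 288)) (XT.lf (nat_lit 0) (nat_lit 1713923013) (nat_lit 152) (nat_lit 2753636500) (nat_lit 228) (nat_lit 13516647004) (nat_lit 34) (nat_lit 5) (nat_lit 36) (nat_lit 5) (nat_lit 37) (nat_lit 5) (nat_lit 506) (nat_lit 347) (nat_lit 287))) (XT.nd (nat_lit 78) (nat_lit 0) (nat_lit 0) (XT.lf (nat_lit 0) (nat_lit 8439579235) (nat_lit 228) (nat_lit 8409781509) (nat_lit 76) (nat_lit 1401632702) (nat_lit 34) (nat_lit 5) (nat_lit 37) (nat_lit 5) (nat_lit 35) (nat_lit 4) (nat_lit 507) (nat_lit 347) (nat_lit 286)) (XT.lf (nat_lit 0) (nat_lit 12475196472)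 (nat_lit 228) (nat_lit 470551076) (nat_lit 76) (nat_lit 5577692848) (nat_lit 34) (nat_lit 5) (nat_lit 37) (nat_lit 5) (nat_lit 35) (nat_lit 4) (nat_lit 508) (nat_lit 347) (nat_lit 285))))) (XT.nd (nat_lit 234) (nat_lit 152) (nat_lit 0) (XT.nd (nat_lit 78) (nat_lit 228) (nat_lit 0) (XT.lf (nat_lit 0) (nat_lit 7668979701) (nat_lit 152) (nat_lit 8938927788) (nat_lit 228) (nat_lit 2193108448) (nat_lit 32) (nat_lit 5) (nat_lit 34) (nat_lit 5) (nat_lit 35) (nat_lit 4) (nat_lit 509) (nat_lit 347) (nat_lit 284)) (XT.nd (nat_lit 78) (nat_lit 152) (nat_lit 0) (XT.lf (nat_lit 0) (nat_lit 1686136285) (nat_lit 228) (nat_lit 3176838899) (nat_lit 76) (nat_lit 14221552658) (nat_lit 31) (nat_lit 5) (nat_lit 34) (nat_lit 5) (nat_lit 32) (nat_lit 5) (nat_lit 510) (nat_lit 347) (nat_lit 283)) (XT.lf (nat_lit 0) (nat_lit 4929624631) (nat_lit 152) (nat_lit 683300571) (nat_lit 228) (nat_lit 13760515215) (nat_lit 29) (nat_lit 5) (nat_lit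 31) (nat_lit 5) (nat_lit 32) (nat_lit 5) (nat_lit 511) (nat_lit 347) (nat_lit 282)))) (XT.nd (nat_lit 156) (nat_lit 76) (nat_lit 0) (XT.nd (nat_lit 78) (nat_lit 76) (nat_lit 0) (XT.lf (nat_lit 0) (nat_lit 9630348246) (nat_lit 228) (nat_lit 6507886973) (nat_lit 76) (nat_lit 3529660782) (nat_lit 29) (nat_lit 5) (nat_lit 32) (nat_lit 5) (nat_lit 30) (nat_lit 4) (nat_lit 512) (nat_lit 347) (nat_lit 281)) (XT.lf (nat_lit 0) (nat_lit 1545566699) (nat_lit 76) (nat_lit 12165147753) (nat_lit 152) (nat_lit 6257880944) (nat_lit 28) (nat_lit 5) (nat_lit 29) (nat_lit 5) (nat_lit 30) (nat_lit 4) (nat_lit 513) (nat_lit 347) (nat_lit 280))) (XT.nd (nat_lit 78) (nat_lit 76) (nat_lit 0) (XT.lf (nat_lit 0) (nat_lit 9791741234) (nat_lit 76) (nat_lit 8092912303) (nat_lit 152) (nat_lit 2390422396) (nat_lit 28) (nat_lit 5) (nat_lit 29) (nat_lit 5) (nat_lit 30) (nat_lit 4) (nat_lit 514) (nat_lit 347) (nat_lit 279)) (XT.lf (nat_lit 0)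 (nat_lit 1502703058) (nat_lit 152) (nat_lit 2450816274) (nat_lit 76) (nat_lit 16634597043) (nat_lit 27) (nat_lit 5) (nat_lit 29) (nat_lit 5) (nat_lit 28) (nat_lit 5) (nat_lit 515) (nat_lit 347) (nat_lit 278)))))) (XT.nd (nat_lit 546) (nat_lit 304) (nat_lit 0) (XT.nd (nat_lit 234) (nat_lit 228) (nat_lit 0) (XT.nd (nat_lit 78) (nat_lit 76) (nat_lit 0) (XT.lf (nat_lit 0) (nat_lit 5450284509) (nat_lit 228) (nat_lit 15161799657) (nat_lit 76) (nat_lit 294851512) (nat_lit 25) (nat_lit 5) (nat_lit 28) (nat_lit 5) (nat_lit 26) (nat_lit 4) (nat_lit 516) (nat_lit 347) (nat_lit 277)) (XT.nd (nat_lit 78) (nat_lit 76) (nat_lit 0) (XT.lf (nat_lit 0) (nat_lit 9488964991) (nat_lit 228) (nat_lit 7174745012) (nat_lit 76) (nat_lit 4568184389) (nat_lit 25) (nat_lit 5) (nat_lit 28) (nat_lit 5) (nat_lit 26) (nat_lit 4) (nat_lit 517) (nat_lit 347) (nat_lit 276)) (XT.lf (nat_lit 0) (nat_lit 930449592) (nat_lit 76) (nat_lit 12654020361)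 (nat_lit 152) (nat_lit 7979367165) (nat_lit 24) (nat_lit 5) (nat_lit 25) (nat_lit 5) (nat_lit 26) (nat_lit 4) (nat_lit 518) (nat_lit 347) (nat_lit 275)))) (XT.nd (nat_lit 156) (nat_lit 228) (nat_lit 0) (XT.nd (nat_lit 78) (nat_lit 0) (nat_lit 0) (XT.lf (nat_lit 0) (nat_lit 9241553473) (nat_lit 76) (nat_lit 8538728642) (nat_lit 152) (nat_lit 4121774381) (nat_lit 24) (nat_lit 5) (nat_lit 25) (nat_lit 5) (nat_lit 26) (nat_lit 4) (nat_lit 519) (nat_lit 347) (nat_lit 274)) (XT.lf (nat_lit 0) (nat_lit 17666477302) (nat_lit 76) (nat_lit 4364367320) (nat_lit 152) (nat_lit 216784584) (nat_lit 24) (nat_lit 5) (nat_lit 25) (nat_lit 5) (nat_lit 26) (nat_lit 4) (nat_lit 520) (nat_lit 347) (nat_lit 273))) (XT.nd (nat_lit 78) (nat_lit 0) (nat_lit 0) (XT.lf (nat_lit 0) (nat_lit 3631194014) (nat_lit 152) (nat_lit 80502521) (nat_lit 228) (nat_lit 18888037432) (nat_lit 21) (nat_lit 5) (nat_lit 23) (nat_lit 5) (nat_lit 24) (nat_lit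 5) (nat_lit 521) (nat_lit 347) (nat_lit 272)) (XT.lf (nat_lit 0) (nat_lit 7745933412) (nat_lit 228) (nat_lit 10969717062) (nat_lit 76) (nat_lit 4242605216) (nat_lit 21) (nat_lit 5) (nat_lit 24) (nat_lit 5) (nat_lit 22) (nat_lit 4) (nat_lit 522) (nat_lit 347) (nat_lit 271))))) (XT.nd (nat_lit 234) (nat_lit 228) (nat_lit 0) (XT.nd (nat_lit 78) (nat_lit 76) (nat_lit 0) (XT.lf (nat_lit 0) (nat_lit 11833244378) (nat_lit 228) (nat_lit 2862284283) (nat_lit 76) (nat_lit 8628976597) (nat_lit 21) (nat_lit 5) (nat_lit 24) (nat_lit 5) (nat_lit 22) (nat_lit 4) (nat_lit 523) (nat_lit 347) (nat_lit 270)) (XT.nd (nat_lit 78) (nat_lit 0) (nat_lit 0) (XT.lf (nat_lit 0) (nat_lit 5428658273) (nat_lit 76) (nat_lit 10581297801) (nat_lit 152) (nat_lit 7687975750) (nat_lit 20) (nat_lit 5) (nat_lit 21) (nat_lit 5) (nat_lit 22) (nat_lit 4) (nat_lit 524) (nat_lit 347) (nat_lit 269)) (XT.lf (nat_lit 0) (nat_lit 13874709865) (nat_lit 76) (nat_lit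 6387327210) (nat_lit 152) (nat_lit 3816958143) (nat_lit 20) (nat_lit 5) (nat_lit 21) (nat_lit 5) (nat_lit 22) (nat_lit 4) (nat_lit 525) (nat_lit 347) (nat_lit 268)))) (XT.nd (nat_lit 156) (nat_lit 0) (nat_lit 0) (XT.nd (nat_lit 78) (nat_lit 152) (nat_lit 0) (XT.lf (nat_lit 0) (nat_lit 102737228) (nat_lit 152) (nat_lit 2027752980) (nat_lit 76) (nat_lit 22337717766) (nat_lit 19) (nat_lit 5) (nat_lit 21) (nat_lit 5) (nat_lit 20) (nat_lit 5) (nat_lit 526) (nat_lit 347) (nat_lit 267)) (XT.lf (nat_lit 0) (nat_lit 4078981771) (nat_lit 228) (nat_lit 18557068016) (nat_lit 76) (nat_lit 2228070017) (nat_lit 17) (nat_lit 5) (nat_lit 20) (nat_lit 5) (nat_lit 18) (nat_lit 4) (nat_lit 527) (nat_lit 347) (nat_lit 266))) (XT.nd (nat_lit 78) (nat_lit 0) (nat_lit 0) (XT.lf (nat_lit 0) (nat_lit 8136140915) (nat_lit 228) (nat_lit 10493856894) (nat_lit 76) (nat_lit 6637928886) (nat_lit 17) (nat_lit 5) (nat_lit 20) (nat_lit 5) (nat_lit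 18) (nat_lit 4) (nat_lit 528) (nat_lit 347) (nat_lit 265)) (XT.lf (nat_lit 0) (nat_lit 12248544320) (nat_lit 228) (nat_lit 2316459219) (nat_lit 76) (nat_lit 11115328686) (nat_lit 17) (nat_lit 5) (nat_lit 20) (nat_lit 5) (nat_lit 18) (nat_lit 4) (nat_lit 529) (nat_lit 347) (nat_lit 264))))))) (XT.nd (nat_lit 53508) (nat_lit 0) (nat_lit 6612) (XT.nd (nat_lit 52962) (nat_lit 0) (nat_lit 10640) (XT.nd (nat_lit 52650) (nat_lit 0) (nat_lit 13072) (XT.nd (nat_lit 78) (nat_lit 0) (nat_lit 0) (XT.lf (nat_lit 0) (nat_lit 6057780711) (nat_lit 76) (nat_lit 10399355112) (nat_lit 152) (nat_lit 9643575681) (nat_lit 16) (nat_lit 5) (nat_lit 17) (nat_lit 5) (nat_lit 18) (nat_lit 4) (nat_lit 530) (nat_lit 347) (nat_lit 263)) (XT.nd (nat_lit 78) (nat_lit 0) (nat_lit 0) (XT.lf (nat_lit 0) (nat_lit 14585054725) (nat_lit 76) (nat_lit 6155198163) (nat_lit 152) (nat_lit 5789442757) (nat_lit 16) (nat_lit 5) (nat_lit 17) (nat_lit 5) (nat_lit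 18) (nat_lit 4) (nat_lit 531) (nat_lit 347) (nat_lit 262)) (XT.lf (nat_lit 0) (nat_lit 23237922325) (nat_lit 76) (nat_lit 1846412978) (nat_lit 152) (nat_lit 1883422368) (nat_lit 16) (nat_lit 5) (nat_lit 17) (nat_lit 5) (nat_lit 18) (nat_lit 4) (nat_lit 532) (nat_lit 347) (nat_lit 261)))) (XT.nd (nat_lit 156) (nat_lit 1064) (nat_lit 0) (XT.nd (nat_lit 78) (nat_lit 0) (nat_lit 0) (XT.lf (nat_lit 0) (nat_lit 379683640) (nat_lit 532) (nat_lit 1965175891) (nat_lit 532) (nat_lit 1965175891) (nat_lit 202) (nat_lit 4) (nat_lit 209) (nat_lit 5) (nat_lit 209) (nat_lit 4) (nat_lit 444) (nat_lit 348) (nat_lit 348)) (XT.lf (nat_lit 0) (nat_lit 7216086776) (nat_lit 532) (nat_lit 1267894925) (nat_lit 532) (nat_lit 210067409) (nat_lit 202) (nat_lit 4) (nat_lit 209) (nat_lit 5) (nat_lit 209) (nat_lit 4) (nat_lit 445) (nat_lit 348) (nat_lit 347))) (XT.nd (nat_lit 78) (nat_lit 532) (nat_lit 0) (XT.lf (nat_lit 0) (nat_lit 3516912494)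 (nat_lit 532) (nat_lit 3789503208) (nat_lit 0) (nat_lit 1463075909) (nat_lit 195) (nat_lit 5) (nat_lit 202) (nat_lit 4) (nat_lit 195) (nat_lit 4) (nat_lit 446) (nat_lit 348) (nat_lit 346)) (XT.lf (nat_lit 0) (nat_lit 2680823710) (nat_lit 532) (nat_lit 4608402950) (nat_lit 532) (nat_lit 1557751871) (nat_lit 188) (nat_lit 4) (nat_lit 195) (nat_lit 5) (nat_lit 195) (nat_lit 4) (nat_lit 447) (nat_lit 348) (nat_lit 345))))) (XT.nd (nat_lit 234) (nat_lit 1368) (nat_lit 0) (XT.nd (nat_lit 78) (nat_lit 532) (nat_lit 0) (XT.lf (nat_lit 0) (nat_lit 310298604) (nat_lit 456) (nat_lit 1837334462) (nat_lit 532) (nat_lit 6778815968) (nat_lit 181) (nat_lit 5) (nat_lit 187) (nat_lit 5) (nat_lit 188) (nat_lit 4) (nat_lit 448) (nat_lit 348) (nat_lit 344)) (XT.nd (nat_lit 78) (nat_lit 532) (nat_lit 0) (XT.lf (nat_lit 0) (nat_lit 5892914795) (nat_lit 532) (nat_lit 2110035844) (nat_lit 0) (nat_lit 1004652869) (nat_lit 181) (nat_lit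 5) (nat_lit 188) (nat_lit 4) (nat_lit 181) (nat_lit 4) (nat_lit 449) (nat_lit 348) (nat_lit 343)) (XT.lf (nat_lit 0) (nat_lit 595463881) (nat_lit 532) (nat_lit 4606327395) (nat_lit 76) (nat_lit 3888922881) (nat_lit 174) (nat_lit 5) (nat_lit 181) (nat_lit 5) (nat_lit 175) (nat_lit 4) (nat_lit 450) (nat_lit 348) (nat_lit 342)))) (XT.nd (nat_lit 156) (nat_lit 912) (nat_lit 0) (XT.nd (nat_lit 78) (nat_lit 0) (nat_lit 0) (XT.lf (nat_lit 0) (nat_lit 1984613960) (nat_lit 456) (nat_lit 2320645443) (nat_lit 532) (nat_lit 4870504459) (nat_lit 168) (nat_lit 5) (nat_lit 174) (nat_lit 5) (nat_lit 175) (nat_lit 4) (nat_lit 451) (nat_lit 348) (nat_lit 341)) (XT.lf (nat_lit 0) (nat_lit 8064816606) (nat_lit 532) (nat_lit 581589930) (nat_lit 0) (nat_lit 616627606) (nat_lit 168) (nat_lit 5) (nat_lit 175) (nat_lit 4) (nat_lit 168) (nat_lit 4) (nat_lit 452) (nat_lit 348) (nat_lit 340))) (XT.nd (nat_lit 78) (nat_lit 380) (nat_lit 0)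 (XT.lf (nat_lit 0) (nat_lit 2510902731) (nat_lit 532) (nat_lit 3226937056) (nat_lit 76) (nat_lit 3613972961) (nat_lit 161) (nat_lit 5) (nat_lit 168) (nat_lit 5) (nat_lit 162) (nat_lit 4) (nat_lit 453) (nat_lit 348) (nat_lit 339)) (XT.lf (nat_lit 0) (nat_lit 3484940058) (nat_lit 380) (nat_lit 2761589846) (nat_lit 456) (nat_lit 3196340359) (nat_lit 156) (nat_lit 5) (nat_lit 161) (nat_lit 5) (nat_lit 162) (nat_lit 4) (nat_lit 454) (nat_lit 348) (nat_lit 338)))))) (XT.nd (nat_lit 546) (nat_lit 1824) (nat_lit 0) (XT.nd (nat_lit 234) (nat_lit 1292) (nat_lit 0) (XT.nd (nat_lit 78) (nat_lit 380) (nat_lit 0) (XT.lf (nat_lit 0) (nat_lit 484829551) (nat_lit 532) (nat_lit 8776316293) (nat_lit 76) (nat_lit 275152534) (nat_lit 149) (nat_lit 5) (nat_lit 156) (nat_lit 5) (nat_lit 150) (nat_lit 4) (nat_lit 455) (nat_lit 348) (nat_lit 337)) (XT.nd (nat_lit 78) (nat_lit 380) (nat_lit 0) (XT.lf (nat_lit 0) (nat_lit 4197812405) (nat_lit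 532) (nat_lit 2062072354) (nat_lit 76) (nat_lit 3371295403) (nat_lit 149) (nat_lit 5) (nat_lit 156) (nat_lit 5) (nat_lit 150) (nat_lit 4) (nat_lit 456) (nat_lit 348) (nat_lit 336)) (XT.lf (nat_lit 0) (nat_lit 4766052742) (nat_lit 380) (nat_lit 3193489921) (nat_lit 456) (nat_lit 1768954062) (nat_lit 144) (nat_lit 5) (nat_lit 149) (nat_lit 5) (nat_lit 150) (nat_lit 4) (nat_lit 457) (nat_lit 348) (nat_lit 335)))) (XT.nd (nat_lit 156) (nat_lit 836) (nat_lit 0) (XT.nd (nat_lit 78) (nat_lit 0) (nat_lit 0) (XT.lf (nat_lit 0) (nat_lit 1859584451) (nat_lit 380) (nat_lit 53065329) (nat_lit 456) (nat_lit 7915485598) (nat_lit 138) (nat_lit 5) (nat_lit 143) (nat_lit 5) (nat_lit 144) (nat_lit 5) (nat_lit 458) (nat_lit 348) (nat_lit 334)) (XT.lf (nat_lit 0) (nat_lit 5642307914) (nat_lit 456) (nat_lit 1159726346) (nat_lit 76) (nat_lit 3127561864) (nat_lit 138) (nat_lit 5) (nat_lit 144) (nat_lit 5) (nat_lit 139) (nat_lit 4) (nat_lit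 459) (nat_lit 348) (nat_lit 333))) (XT.nd (nat_lit 78) (nat_lit 456) (nat_lit 0) (XT.lf (nat_lit 0) (nat_lit 5778793805) (nat_lit 380) (nat_lit 3650844676) (nat_lit 456) (nat_lit 603810868) (nat_lit 133) (nat_lit 5) (nat_lit 138) (nat_lit 5) (nat_lit 139) (nat_lit 4) (nat_lit 460) (nat_lit 348) (nat_lit 332)) (XT.lf (nat_lit 0) (nat_lit 2664875649) (nat_lit 380) (nat_lit 417610625) (nat_lit 456) (nat_lit 7057097643) (nat_lit 127) (nat_lit 5) (nat_lit 132) (nat_lit 5) (nat_lit 133) (nat_lit 5) (nat_lit 461) (nat_lit 348) (nat_lit 331))))) (XT.nd (nat_lit 312) (nat_lit 1064) (nat_lit 0) (XT.nd (nat_lit 156) (nat_lit 380) (nat_lit 0) (XT.nd (nat_lit 78) (nat_lit 380) (nat_lit 0) (XT.lf (nat_lit 0) (nat_lit 6827606321) (nat_lit 456) (nat_lit 572204909) (nat_lit 76) (nat_lit 2848109898) (nat_lit 127) (nat_lit 5) (nat_lit 133) (nat_lit 5) (nat_lit 128) (nat_lit 4) (nat_lit 462) (nat_lit 348) (nat_lit 330)) (XT.lf (nat_lit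 0) (nat_lit 276900040) (nat_lit 380) (nat_lit 3890905075) (nat_lit 76) (nat_lit 6190775135) (nat_lit 122) (nat_lit 5) (nat_lit 127) (nat_lit 5) (nat_lit 123) (nat_lit 5) (nat_lit 463) (nat_lit 348) (nat_lit 329))) (XT.nd (nat_lit 78) (nat_lit 0) (nat_lit 0) (XT.lf (nat_lit 0) (nat_lit 3121907827) (nat_lit 380) (nat_lit 851478853) (nat_lit 456) (nat_lit 6498213265) (nat_lit 117) (nat_lit 5) (nat_lit 122) (nat_lit 5) (nat_lit 123) (nat_lit 5) (nat_lit 464) (nat_lit 348) (nat_lit 328)) (XT.lf (nat_lit 0) (nat_lit 7733803255) (nat_lit 456) (nat_lit 356695966) (nat_lit 76) (nat_lit 2496602442) (nat_lit 117) (nat_lit 5) (nat_lit 123) (nat_lit 5) (nat_lit 118) (nat_lit 4) (nat_lit 465) (nat_lit 348) (nat_lit 327)))) (XT.nd (nat_lit 156) (nat_lit 380) (nat_lit 0) (XT.nd (nat_lit 78) (nat_lit 304) (nat_lit 0) (XT.lf (nat_lit 0) (nat_lit 851115478) (nat_lit 380) (nat_lit 3930991293) (nat_lit 76) (nat_lit 5922756397) (nat_lit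 112) (nat_lit 5) (nat_lit 117) (nat_lit 5) (nat_lit 113) (nat_lit 5) (nat_lit 466) (nat_lit 348) (nat_lit 326)) (XT.lf (nat_lit 0) (nat_lit 3169578522) (nat_lit 304) (nat_lit 1393313365) (nat_lit 380) (nat_lit 6262301597) (nat_lit 108) (nat_lit 5) (nat_lit 112) (nat_lit 5) (nat_lit 113) (nat_lit 5) (nat_lit 467) (nat_lit 348) (nat_lit 325))) (XT.nd (nat_lit 78) (nat_lit 380) (nat_lit 0) (XT.lf (nat_lit 0) (nat_lit 8337618988) (nat_lit 380) (nat_lit 575891229) (nat_lit 76) (nat_lit 2034665872) (nat_lit 108) (nat_lit 5) (nat_lit 113) (nat_lit 5) (nat_lit 109) (nat_lit 4) (nat_lit 468) (nat_lit 348) (nat_lit 324)) (XT.lf (nat_lit 0) (nat_lit 1101742012) (nat_lit 380) (nat_lit 4436286476) (nat_lit 76) (nat_lit 5535421723) (nat_lit 103) (nat_lit 5) (nat_lit 108) (nat_lit 5) (nat_lit 104) (nat_lit 5) (nat_lit 469) (nat_lit 348) (nat_lit 323))))))))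
noncomputable def xc35 : XT := (XT.nd (nat_lit 2184) (nat_lit 2052) (nat_lit 0) (XT.nd (nat_lit 1092) (nat_lit 1672) (nat_lit 0) (XT.nd (nat_lit 546) (nat_lit 1064) (nat_lit 0) (XT.nd (nat_lit 234) (nat_lit 912) (nat_lit 0) (XT.nd (nat_lit 78) (nat_lit 304) (nat_lit 0) (XT.lf (nat_lit 0) (nat_lit 2740812214) (nat_lit 304) (nat_lit 2084135806) (nat_lit 380) (nat_lit 6376523189) (nat_lit 99) (nat_lit 5) (nat_lit 103) (nat_lit 5) (nat_lit 104) (nat_lit 5) (nat_lit 470) (nat_lit 348) (nat_lit 322)) (XT.nd (nat_lit 78) (nat_lit 304) (nat_lit 0) (XT.lf (nat_lit 0) (nat_lit 8612111398) (nat_lit 380) (nat_lit 1298666531) (nat_lit 76) (nat_lit 1421503294) (nat_lit 99) (nat_lit 5) (nat_lit 104) (nat_lit 5) (nat_lit 100) (nat_lit 4) (nat_lit 471) (nat_lit 348) (nat_lit 321)) (XT.lf (nat_lit 0) (nat_lit 999959411) (nat_lit 304) (nat_lit 5478559179) (nat_lit 76) (nat_lit 4986997811) (nat_lit 95) (nat_lit 5) (nat_lit 99) (nat_lit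 5) (nat_lit 96) (nat_lit 5) (nat_lit 472) (nat_lit 348) (nat_lit 320)))) (XT.nd (nat_lit 156) (nat_lit 608) (nat_lit 0) (XT.nd (nat_lit 78) (nat_lit 0) (nat_lit 0) (XT.lf (nat_lit 0) (nat_lit 1761832128) (nat_lit 304) (nat_lit 2967761209) (nat_lit 380) (nat_lit 6872050235) (nat_lit 91) (nat_lit 5) (nat_lit 95) (nat_lit 5) (nat_lit 96) (nat_lit 5) (nat_lit 473) (nat_lit 348) (nat_lit 319)) (XT.lf (nat_lit 0) (nat_lit 8526352826) (nat_lit 380) (nat_lit 2600827423) (nat_lit 76) (nat_lit 613479436) (nat_lit 91) (nat_lit 5) (nat_lit 96) (nat_lit 5) (nat_lit 92) (nat_lit 4) (nat_lit 474) (nat_lit 348) (nat_lit 318))) (XT.nd (nat_lit 78) (nat_lit 304) (nat_lit 0) (XT.lf (nat_lit 0) (nat_lit 512801013) (nat_lit 304) (nat_lit 7136828232) (nat_lit 76) (nat_lit 4232716493) (nat_lit 87) (nat_lit 5) (nat_lit 91) (nat_lit 5) (nat_lit 88) (nat_lit 5) (nat_lit 475) (nat_lit 348) (nat_lit 317)) (XT.lf (nat_lit 0) (nat_lit 151361573)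 (nat_lit 304) (nat_lit 4091245002) (nat_lit 380) (nat_lit 7784426178) (nat_lit 83) (nat_lit 5) (nat_lit 87) (nat_lit 5) (nat_lit 88) (nat_lit 5) (nat_lit 476) (nat_lit 348) (nat_lit 316))))) (XT.nd (nat_lit 234) (nat_lit 760) (nat_lit 0) (XT.nd (nat_lit 78) (nat_lit 304) (nat_lit 0) (XT.lf (nat_lit 0) (nat_lit 7605812727) (nat_lit 304) (nat_lit 442125333) (nat_lit 380) (nat_lit 4126672610) (nat_lit 83) (nat_lit 5) (nat_lit 87) (nat_lit 5) (nat_lit 88) (nat_lit 5) (nat_lit 477) (nat_lit 348) (nat_lit 315)) (XT.nd (nat_lit 78) (nat_lit 76) (nat_lit 0) (XT.lf (nat_lit 0) (nat_lit 2824461357) (nat_lit 228) (nat_lit 9098321254) (nat_lit 304) (nat_lit 402504856) (nat_lit 80) (nat_lit 5) (nat_lit 83) (nat_lit 5) (nat_lit 84) (nat_lit 4) (nat_lit 478) (nat_lit 348) (nat_lit 314)) (XT.lf (nat_lit 0) (nat_lit 3339268763) (nat_lit 304) (nat_lit 2151658651) (nat_lit 76) (nat_lit 6987870963) (nat_lit 79) (nat_lit 5) (nat_lit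 83) (nat_lit 5) (nat_lit 80) (nat_lit 5) (nat_lit 479) (nat_lit 348) (nat_lit 313)))) (XT.nd (nat_lit 156) (nat_lit 304) (nat_lit 0) (XT.nd (nat_lit 78) (nat_lit 228) (nat_lit 0) (XT.lf (nat_lit 0) (nat_lit 5337684114) (nat_lit 228) (nat_lit 1802242986) (nat_lit 304) (nat_lit 5495624977) (nat_lit 76) (nat_lit 5) (nat_lit 79) (nat_lit 5) (nat_lit 80) (nat_lit 5) (nat_lit 480) (nat_lit 348) (nat_lit 312)) (XT.lf (nat_lit 0) (nat_lit 125265618) (nat_lit 228) (nat_lit 10874406830) (nat_lit 304) (nat_lit 1796121199) (nat_lit 73) (nat_lit 5) (nat_lit 76) (nat_lit 5) (nat_lit 77) (nat_lit 4) (nat_lit 481) (nat_lit 348) (nat_lit 311))) (XT.nd (nat_lit 78) (nat_lit 228) (nat_lit 0) (XT.lf (nat_lit 0) (nat_lit 1967763876) (nat_lit 304) (nat_lit 5262076065) (nat_lit 76) (nat_lit 5728830561) (nat_lit 72) (nat_lit 5) (nat_lit 76) (nat_lit 5) (nat_lit 73) (nat_lit 5) (nat_lit 482) (nat_lit 348) (nat_lit 310)) (XT.lf (nat_lit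 0) (nat_lit 2238971731) (nat_lit 228) (nat_lit 3514437349) (nat_lit 304) (nat_lit 7371761168) (nat_lit 69) (nat_lit 5) (nat_lit 72) (nat_lit 5) (nat_lit 73) (nat_lit 5) (nat_lit 483) (nat_lit 348) (nat_lit 309)))))) (XT.nd (nat_lit 546) (nat_lit 684) (nat_lit 0) (XT.nd (nat_lit 234) (nat_lit 684) (nat_lit 0) (XT.nd (nat_lit 78) (nat_lit 304) (nat_lit 0) (XT.lf (nat_lit 0) (nat_lit 9608277044) (nat_lit 304) (nat_lit 3408205959) (nat_lit 76) (nat_lit 278659973) (nat_lit 69) (nat_lit 5) (nat_lit 73) (nat_lit 5) (nat_lit 70) (nat_lit 4) (nat_lit 484) (nat_lit 348) (nat_lit 308)) (XT.nd (nat_lit 78) (nat_lit 0) (nat_lit 0) (XT.lf (nat_lit 0) (nat_lit 78267379) (nat_lit 304) (nat_lit 9289836924) (nat_lit 76) (nat_lit 4100264600) (nat_lit 65) (nat_lit 5) (nat_lit 69) (nat_lit 5) (nat_lit 66) (nat_lit 5) (nat_lit 485) (nat_lit 348) (nat_lit 307)) (XT.lf (nat_lit 0) (nat_lit 3849526039) (nat_lit 304) (nat_lit 1777899573)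 (nat_lit 76) (nat_lit 8017554960) (nat_lit 65) (nat_lit 5) (nat_lit 69) (nat_lit 5) (nat_lit 66) (nat_lit 5) (nat_lit 486) (nat_lit 348) (nat_lit 306)))) (XT.nd (nat_lit 156) (nat_lit 456) (nat_lit 0) (XT.nd (nat_lit 78) (nat_lit 0) (nat_lit 0) (XT.lf (nat_lit 0) (nat_lit 5891015053) (nat_lit 228) (nat_lit 1801405305) (nat_lit 304) (nat_lit 6132792090) (nat_lit 62) (nat_lit 5) (nat_lit 65) (nat_lit 5) (nat_lit 66) (nat_lit 5) (nat_lit 487) (nat_lit 348) (nat_lit 305)) (XT.lf (nat_lit 0) (nat_lit 11595971360) (nat_lit 304) (nat_lit 355843660) (nat_lit 76) (nat_lit 2057569908) (nat_lit 62) (nat_lit 5) (nat_lit 66) (nat_lit 5) (nat_lit 63) (nat_lit 4) (nat_lit 488) (nat_lit 348) (nat_lit 304))) (XT.nd (nat_lit 78) (nat_lit 228) (nat_lit 0) (XT.lf (nat_lit 0) (nat_lit 1381239103) (nat_lit 228) (nat_lit 6816230696) (nat_lit 76) (nat_lit 5999223491) (nat_lit 59) (nat_lit 5) (nat_lit 62) (nat_lit 5) (nat_lit 60) (nat_lit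 5) (nat_lit 489) (nat_lit 348) (nat_lit 303)) (XT.lf (nat_lit 0) (nat_lit 813860787) (nat_lit 228) (nat_lit 4372370956) (nat_lit 304) (nat_lit 9201873028) (nat_lit 56) (nat_lit 5) (nat_lit 59) (nat_lit 5) (nat_lit 60) (nat_lit 5) (nat_lit 490) (nat_lit 348) (nat_lit 302))))) (XT.nd (nat_lit 234) (nat_lit 456) (nat_lit 0) (XT.nd (nat_lit 78) (nat_lit 228) (nat_lit 0) (XT.lf (nat_lit 0) (nat_lit 8619973773) (nat_lit 228) (nat_lit 452490648) (nat_lit 304) (nat_lit 5510788290) (nat_lit 56) (nat_lit 5) (nat_lit 59) (nat_lit 5) (nat_lit 60) (nat_lit 5) (nat_lit 491) (nat_lit 348) (nat_lit 301)) (XT.nd (nat_lit 78) (nat_lit 76) (nat_lit 0) (XT.lf (nat_lit 0) (nat_lit 1731340715) (nat_lit 152) (nat_lit 11299358803) (nat_lit 228) (nat_lit 1751729353) (nat_lit 54) (nat_lit 5) (nat_lit 56) (nat_lit 5) (nat_lit 57) (nat_lit 4) (nat_lit 492) (nat_lit 348) (nat_lit 300)) (XT.lf (nat_lit 0) (nat_lit 2058562608) (nat_lit 228)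 (nat_lit 5409226078) (nat_lit 76) (nat_lit 7517472559) (nat_lit 53) (nat_lit 5) (nat_lit 56) (nat_lit 5) (nat_lit 54) (nat_lit 5) (nat_lit 493) (nat_lit 348) (nat_lit 299)))) (XT.nd (nat_lit 156) (nat_lit 228) (nat_lit 0) (XT.nd (nat_lit 78) (nat_lit 0) (nat_lit 0) (XT.lf (nat_lit 0) (nat_lit 2337527761) (nat_lit 228) (nat_lit 3560144295) (nat_lit 304) (nat_lit 9294735477) (nat_lit 50) (nat_lit 5) (nat_lit 53) (nat_lit 5) (nat_lit 54) (nat_lit 5) (nat_lit 494) (nat_lit 348) (nat_lit 298)) (XT.lf (nat_lit 0) (nat_lit 9813889915) (nat_lit 304) (nat_lit 5160601196) (nat_lit 76) (nat_lit 429209104) (nat_lit 50) (nat_lit 5) (nat_lit 54) (nat_lit 5) (nat_lit 51) (nat_lit 4) (nat_lit 495) (nat_lit 348) (nat_lit 297))) (XT.nd (nat_lit 78) (nat_lit 76) (nat_lit 0) (XT.lf (nat_lit 0) (nat_lit 2632664117) (nat_lit 152) (nat_lit 11178225832) (nat_lit 228) (nat_lit 1808289445) (nat_lit 48) (nat_lit 5) (nat_lit 50) (nat_lit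 5) (nat_lit 51) (nat_lit 4) (nat_lit 496) (nat_lit 348) (nat_lit 296)) (XT.lf (nat_lit 0) (nat_lit 2018702171) (nat_lit 228) (nat_lit 5265992160) (nat_lit 76) (nat_lit 8554082960) (nat_lit 47) (nat_lit 5) (nat_lit 50) (nat_lit 5) (nat_lit 48) (nat_lit 5) (nat_lit 497) (nat_lit 348) (nat_lit 295))))))) (XT.nd (nat_lit 1092) (nat_lit 684) (nat_lit 0) (XT.nd (nat_lit 546) (nat_lit 760) (nat_lit 0) (XT.nd (nat_lit 234) (nat_lit 228) (nat_lit 0) (XT.nd (nat_lit 78) (nat_lit 152) (nat_lit 0) (XT.lf (nat_lit 0) (nat_lit 2565979324) (nat_lit 228) (nat_lit 3311323821) (nat_lit 304) (nat_lit 10185648527) (nat_lit 44) (nat_lit 5) (nat_lit 47) (nat_lit 5) (nat_lit 48) (nat_lit 5) (nat_lit 498) (nat_lit 348) (nat_lit 294)) (XT.nd (nat_lit 78) (nat_lit 152) (nat_lit 0) (XT.lf (nat_lit 0) (nat_lit 9816202252) (nat_lit 304) (nat_lit 5734768324) (nat_lit 76) (nat_lit 740585494) (nat_lit 44) (nat_lit 5) (nat_lit 48) (nat_lit 5)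 (nat_lit 45) (nat_lit 4) (nat_lit 499) (nat_lit 348) (nat_lit 293)) (XT.lf (nat_lit 0) (nat_lit 2125102707) (nat_lit 152) (nat_lit 11707974200) (nat_lit 228) (nat_lit 2691680570) (nat_lit 42) (nat_lit 5) (nat_lit 44) (nat_lit 5) (nat_lit 45) (nat_lit 4) (nat_lit 500) (nat_lit 348) (nat_lit 292)))) (XT.nd (nat_lit 156) (nat_lit 0) (nat_lit 0) (XT.nd (nat_lit 78) (nat_lit 152) (nat_lit 0) (XT.lf (nat_lit 0) (nat_lit 1154618950) (nat_lit 228) (nat_lit 6613376120) (nat_lit 76) (nat_lit 8994439408) (nat_lit 41) (nat_lit 5) (nat_lit 44) (nat_lit 5) (nat_lit 42) (nat_lit 5) (nat_lit 501) (nat_lit 348) (nat_lit 291)) (XT.lf (nat_lit 0) (nat_lit 1265046454) (nat_lit 152) (nat_lit 3749247527) (nat_lit 228) (nat_lit 11990773737) (nat_lit 39) (nat_lit 5) (nat_lit 41) (nat_lit 5) (nat_lit 42) (nat_lit 5) (nat_lit 502) (nat_lit 348) (nat_lit 290))) (XT.nd (nat_lit 78) (nat_lit 0) (nat_lit 0) (XT.lf (nat_lit 0) (nat_lit 8962478220)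 (nat_lit 228) (nat_lit 7926030524) (nat_lit 76) (nat_lit 363826763) (nat_lit 39) (nat_lit 5) (nat_lit 42) (nat_lit 5) (nat_lit 40) (nat_lit 4) (nat_lit 503) (nat_lit 348) (nat_lit 289)) (XT.lf (nat_lit 0) (nat_lit 12979525156) (nat_lit 228) (nat_lit 41846771) (nat_lit 76) (nat_lit 4483386782) (nat_lit 39) (nat_lit 5) (nat_lit 42) (nat_lit 5) (nat_lit 40) (nat_lit 4) (nat_lit 504) (nat_lit 348) (nat_lit 288))))) (XT.nd (nat_lit 234) (nat_lit 380) (nat_lit 0) (XT.nd (nat_lit 78) (nat_lit 228) (nat_lit 0) (XT.lf (nat_lit 0) (nat_lit 8045482378) (nat_lit 152) (nat_lit 9049421729) (nat_lit 228) (nat_lit 666974326) (nat_lit 37) (nat_lit 5) (nat_lit 39) (nat_lit 5) (nat_lit 40) (nat_lit 4) (nat_lit 505) (nat_lit 348) (nat_lit 287)) (XT.nd (nat_lit 78) (nat_lit 152) (nat_lit 0) (XT.lf (nat_lit 0) (nat_lit 3191672504) (nat_lit 228) (nat_lit 1810355497) (nat_lit 76) (nat_lit 13022373931) (nat_lit 36) (nat_lit 5) (nat_lit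 39) (nat_lit 5) (nat_lit 37) (nat_lit 5) (nat_lit 506) (nat_lit 348) (nat_lit 286)) (XT.lf (nat_lit 0) (nat_lit 6272712347) (nat_lit 152) (nat_lit 853060622) (nat_lit 228) (nat_lit 11166177953) (nat_lit 34) (nat_lit 5) (nat_lit 36) (nat_lit 5) (nat_lit 37) (nat_lit 5) (nat_lit 507) (nat_lit 348) (nat_lit 285)))) (XT.nd (nat_lit 156) (nat_lit 228) (nat_lit 0) (XT.nd (nat_lit 78) (nat_lit 152) (nat_lit 0) (XT.lf (nat_lit 0) (nat_lit 11139311637) (nat_lit 228) (nat_lit 4103709266) (nat_lit 76) (nat_lit 3321822145) (nat_lit 34) (nat_lit 5) (nat_lit 37) (nat_lit 5) (nat_lit 35) (nat_lit 4) (nat_lit 508) (nat_lit 348) (nat_lit 284)) (XT.lf (nat_lit 0) (nat_lit 3958491359) (nat_lit 152) (nat_lit 11273224721) (nat_lit 228) (nat_lit 3611512174) (nat_lit 32) (nat_lit 5) (nat_lit 34) (nat_lit 5) (nat_lit 35) (nat_lit 4) (nat_lit 509) (nat_lit 348) (nat_lit 283))) (XT.nd (nat_lit 78) (nat_lit 152) (nat_lit 0) (XT.lf (nat_lit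 0) (nat_lit 270142688) (nat_lit 228) (nat_lit 6949026760) (nat_lit 76) (nat_lit 11908082140) (nat_lit 31) (nat_lit 5) (nat_lit 34) (nat_lit 5) (nat_lit 32) (nat_lit 5) (nat_lit 510) (nat_lit 348) (nat_lit 282)) (XT.lf (nat_lit 0) (nat_lit 1078798749) (nat_lit 152) (nat_lit 3077255748) (nat_lit 228) (nat_lit 15260930537) (nat_lit 29) (nat_lit 5) (nat_lit 31) (nat_lit 5) (nat_lit 32) (nat_lit 5) (nat_lit 511) (nat_lit 348) (nat_lit 281)))))) (XT.nd (nat_lit 546) (nat_lit 380) (nat_lit 0) (XT.nd (nat_lit 234) (nat_lit 228) (nat_lit 0) (XT.nd (nat_lit 78) (nat_lit 76) (nat_lit 0) (XT.lf (nat_lit 0) (nat_lit 8142109985) (nat_lit 228) (nat_lit 10414901917) (nat_lit 76) (nat_lit 1155059331) (nat_lit 29) (nat_lit 5) (nat_lit 32) (nat_lit 5) (nat_lit 30) (nat_lit 4) (nat_lit 512) (nat_lit 348) (nat_lit 280)) (XT.nd (nat_lit 78) (nat_lit 76) (nat_lit 0) (XT.lf (nat_lit 0) (nat_lit 12196927219) (nat_lit 228) (nat_lit 2409353521)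 (nat_lit 76) (nat_lit 5407004069) (nat_lit 29) (nat_lit 5) (nat_lit 32) (nat_lit 5) (nat_lit 30) (nat_lit 4) (nat_lit 513) (nat_lit 348) (nat_lit 279)) (XT.lf (nat_lit 0) (nat_lit 5777348888) (nat_lit 76) (nat_lit 10562278230) (nat_lit 152) (nat_lit 3980766148) (nat_lit 28) (nat_lit 5) (nat_lit 29) (nat_lit 5) (nat_lit 30) (nat_lit 4) (nat_lit 514) (nat_lit 348) (nat_lit 278)))) (XT.nd (nat_lit 156) (nat_lit 0) (nat_lit 0) (XT.nd (nat_lit 78) (nat_lit 228) (nat_lit 0) (XT.lf (nat_lit 0) (nat_lit 14106076897) (nat_lit 76) (nat_lit 6444797531) (nat_lit 152) (nat_lit 83061810) (nat_lit 28) (nat_lit 5) (nat_lit 29) (nat_lit 5) (nat_lit 30) (nat_lit 4) (nat_lit 515) (nat_lit 348) (nat_lit 277)) (XT.lf (nat_lit 0) (nat_lit 1589495023) (nat_lit 152) (nat_lit 2232288592) (nat_lit 228) (nat_lit 17131862176) (nat_lit 25) (nat_lit 5) (nat_lit 27) (nat_lit 5) (nat_lit 28) (nat_lit 5) (nat_lit 516) (nat_lit 348) (nat_lit 276)))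 (XT.nd (nat_lit 78) (nat_lit 0) (nat_lit 0) (XT.lf (nat_lit 0) (nat_lit 7831123953) (nat_lit 228) (nat_lit 11389238342) (nat_lit 76) (nat_lit 2058831912) (nat_lit 25) (nat_lit 5) (nat_lit 28) (nat_lit 5) (nat_lit 26) (nat_lit 4) (nat_lit 517) (nat_lit 348) (nat_lit 275)) (XT.lf (nat_lit 0) (nat_lit 11906032284) (nat_lit 228) (nat_lit 3322360198) (nat_lit 76) (nat_lit 6383159224) (nat_lit 25) (nat_lit 5) (nat_lit 28) (nat_lit 5) (nat_lit 26) (nat_lit 4) (nat_lit 518) (nat_lit 348) (nat_lit 274))))) (XT.nd (nat_lit 312) (nat_lit 76) (nat_lit 0) (XT.nd (nat_lit 156) (nat_lit 228) (nat_lit 0) (XT.nd (nat_lit 78) (nat_lit 0) (nat_lit 0) (XT.lf (nat_lit 0) (nat_lit 4918649616) (nat_lit 76) (nat_lit 11146898634) (nat_lit 152) (nat_lit 5884951544) (nat_lit 24) (nat_lit 5) (nat_lit 25) (nat_lit 5) (nat_lit 26) (nat_lit 4) (nat_lit 519) (nat_lit 348) (nat_lit 273)) (XT.lf (nat_lit 0) (nat_lit 13318140456) (nat_lit 76) (nat_lit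 6983814847) (nat_lit 152) (nat_lit 1994403041) (nat_lit 24) (nat_lit 5) (nat_lit 25) (nat_lit 5) (nat_lit 26) (nat_lit 4) (nat_lit 520) (nat_lit 348) (nat_lit 272))) (XT.nd (nat_lit 78) (nat_lit 152) (nat_lit 0) (XT.lf (nat_lit 0) (nat_lit 1919843299) (nat_lit 152) (nat_lit 827076868) (nat_lit 76) (nat_lit 19902527364) (nat_lit 23) (nat_lit 5) (nat_lit 25) (nat_lit 5) (nat_lit 24) (nat_lit 5) (nat_lit 521) (nat_lit 348) (nat_lit 271)) (XT.lf (nat_lit 0) (nat_lit 5917358130) (nat_lit 228) (nat_lit 15496618634) (nat_lit 76) (nat_lit 1594729504) (nat_lit 21) (nat_lit 5) (nat_lit 24) (nat_lit 5) (nat_lit 22) (nat_lit 4) (nat_lit 522) (nat_lit 348) (nat_lit 270)))) (XT.nd (nat_lit 156) (nat_lit 0) (nat_lit 0) (XT.nd (nat_lit 78) (nat_lit 76) (nat_lit 0) (XT.lf (nat_lit 0) (nat_lit 9991009721) (nat_lit 228) (nat_lit 7413857492) (nat_lit 76) (nat_lit 5970364335) (nat_lit 21) (nat_lit 5) (nat_lit 24) (nat_lit 5) (nat_lit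 22) (nat_lit 4) (nat_lit 523) (nat_lit 348) (nat_lit 269)) (XT.lf (nat_lit 0) (nat_lit 792087729) (nat_lit 76) (nat_lit 13332138453) (nat_lit 152) (nat_lit 9625304311) (nat_lit 20) (nat_lit 5) (nat_lit 21) (nat_lit 5) (nat_lit 22) (nat_lit 4) (nat_lit 524) (nat_lit 348) (nat_lit 268))) (XT.nd (nat_lit 78) (nat_lit 0) (nat_lit 0) (XT.lf (nat_lit 0) (nat_lit 9214110571) (nat_lit 76) (nat_lit 9148911635) (nat_lit 152) (nat_lit 5767839805) (nat_lit 20) (nat_lit 5) (nat_lit 21) (nat_lit 5) (nat_lit 22) (nat_lit 4) (nat_lit 525) (nat_lit 348) (nat_lit 267)) (XT.lf (nat_lit 0) (nat_lit 17756987525) (nat_lit 76) (nat_lit 4903297165) (nat_lit 152) (nat_lit 1860066462) (nat_lit 20) (nat_lit 5) (nat_lit 21) (nat_lit 5) (nat_lit 22) (nat_lit 4) (nat_lit 526) (nat_lit 348) (nat_lit 266))))))))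
noncomputable def xc36 : XT := (XT.nd (nat_lit 54444) (nat_lit 0) (nat_lit 3040) (XT.nd (nat_lit 53352) (nat_lit 0) (nat_lit 8056) (XT.nd (nat_lit 52806) (nat_lit 0) (nat_lit 12540) (XT.nd (nat_lit 234) (nat_lit 76) (nat_lit 0) (XT.nd (nat_lit 78) (nat_lit 0) (nat_lit 0) (XT.lf (nat_lit 0) (nat_lit 1512118122) (nat_lit 152) (nat_lit 569711774) (nat_lit 228) (nat_lit 22835851773) (nat_lit 17) (nat_lit 5) (nat_lit 19) (nat_lit 5) (nat_lit 20) (nat_lit 5) (nat_lit 527) (nat_lit 348) (nat_lit 265)) (XT.nd (nat_lit 78) (nat_lit 0) (nat_lit 0) (XT.lf (nat_lit 0) (nat_lit 6122468846) (nat_lit 228) (nat_lit 15361959256) (nat_lit 76) (nat_lit 3837393101) (nat_lit 17) (nat_lit 5) (nat_lit 20) (nat_lit 5) (nat_lit 18) (nat_lit 4) (nat_lit 528) (nat_lit 348) (nat_lit 264)) (XT.lf (nat_lit 0) (nat_lit 10222302400) (nat_lit 228) (nat_lit 7207410383) (nat_lit 76) (nat_lit 8304767545) (nat_lit 17) (nat_lit 5) (nat_lit 20) (nat_lit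 5) (nat_lit 18) (nat_lit 4) (nat_lit 529) (nat_lit 348) (nat_lit 263)))) (XT.nd (nat_lit 156) (nat_lit 0) (nat_lit 0) (XT.nd (nat_lit 78) (nat_lit 0) (nat_lit 0) (XT.lf (nat_lit 0) (nat_lit 1079132900) (nat_lit 76) (nat_lit 13307112936) (nat_lit 152) (nat_lit 11769508887) (nat_lit 16) (nat_lit 5) (nat_lit 17) (nat_lit 5) (nat_lit 18) (nat_lit 4) (nat_lit 530) (nat_lit 348) (nat_lit 262)) (XT.lf (nat_lit 0) (nat_lit 9584153501) (nat_lit 76) (nat_lit 9072983167) (nat_lit 152) (nat_lit 7927848831) (nat_lit 16) (nat_lit 5) (nat_lit 17) (nat_lit 5) (nat_lit 18) (nat_lit 4) (nat_lit 531) (nat_lit 348) (nat_lit 261))) (XT.nd (nat_lit 52338) (nat_lit 0) (nat_lit 15276) (XT.lf (nat_lit 0) (nat_lit 18215204030) (nat_lit 76) (nat_lit 4774028550) (nat_lit 152) (nat_lit 4034056745) (nat_lit 16) (nat_lit 5) (nat_lit 17) (nat_lit 5) (nat_lit 18) (nat_lit 4) (nat_lit 532) (nat_lit 348) (nat_lit 260)) (XT.lf (nat_lit 0) (nat_lit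 2574580630) (nat_lit 608) (nat_lit 832008513) (nat_lit 608) (nat_lit 832008513) (nat_lit 217) (nat_lit 4) (nat_lit 225) (nat_lit 5) (nat_lit 225) (nat_lit 4) (nat_lit 442) (nat_lit 349) (nat_lit 349))))) (XT.nd (nat_lit 234) (nat_lit 1520) (nat_lit 0) (XT.nd (nat_lit 78) (nat_lit 608) (nat_lit 0) (XT.lf (nat_lit 0) (nat_lit 2023280720) (nat_lit 608) (nat_lit 5580513828) (nat_lit 0) (nat_lit 944296654) (nat_lit 209) (nat_lit 5) (nat_lit 217) (nat_lit 4) (nat_lit 209) (nat_lit 4) (nat_lit 443) (nat_lit 349) (nat_lit 348)) (XT.nd (nat_lit 78) (nat_lit 76) (nat_lit 0) (XT.lf (nat_lit 0) (nat_lit 716988780) (nat_lit 532) (nat_lit 5020270584) (nat_lit 532) (nat_lit 2883459002) (nat_lit 202) (nat_lit 4) (nat_lit 209) (nat_lit 5) (nat_lit 209) (nat_lit 4) (nat_lit 444) (nat_lit 349) (nat_lit 347)) (XT.lf (nat_lit 0) (nat_lit 794800840) (nat_lit 608) (nat_lit 1568399684) (nat_lit 76) (nat_lit 6332026352) (nat_lit 201) (nat_lit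 5) (nat_lit 209) (nat_lit 5) (nat_lit 202) (nat_lit 4) (nat_lit 445) (nat_lit 349) (nat_lit 346)))) (XT.nd (nat_lit 156) (nat_lit 532) (nat_lit 0) (XT.nd (nat_lit 78) (nat_lit 532) (nat_lit 0) (XT.lf (nat_lit 0) (nat_lit 4480532582) (nat_lit 532) (nat_lit 3918842962) (nat_lit 0) (nat_lit 372053987) (nat_lit 195) (nat_lit 5) (nat_lit 202) (nat_lit 4) (nat_lit 195) (nat_lit 4) (nat_lit 446) (nat_lit 349) (nat_lit 345)) (XT.lf (nat_lit 0) (nat_lit 2507780771) (nat_lit 532) (nat_lit 5713763333) (nat_lit 532) (nat_lit 628015626) (nat_lit 188) (nat_lit 4) (nat_lit 195) (nat_lit 5) (nat_lit 195) (nat_lit 4) (nat_lit 447) (nat_lit 349) (nat_lit 344))) (XT.nd (nat_lit 78) (nat_lit 0) (nat_lit 0) (XT.lf (nat_lit 0) (nat_lit 84094026) (nat_lit 456) (nat_lit 2949543947) (nat_lit 532) (nat_lit 5895918841) (nat_lit 181) (nat_lit 5) (nat_lit 187) (nat_lit 5) (nat_lit 188) (nat_lit 4) (nat_lit 448) (nat_lit 349) (nat_lit 343))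 (XT.lf (nat_lit 0) (nat_lit 6636801107) (nat_lit 456) (nat_lit 105761441) (nat_lit 532) (nat_lit 2268892115) (nat_lit 181) (nat_lit 5) (nat_lit 187) (nat_lit 5) (nat_lit 188) (nat_lit 4) (nat_lit 449) (nat_lit 349) (nat_lit 342)))))) (XT.nd (nat_lit 546) (nat_lit 2052) (nat_lit 0) (XT.nd (nat_lit 234) (nat_lit 1444) (nat_lit 0) (XT.nd (nat_lit 78) (nat_lit 456) (nat_lit 0) (XT.lf (nat_lit 0) (nat_lit 1398009745) (nat_lit 532) (nat_lit 4925116149) (nat_lit 76) (nat_lit 2771988349) (nat_lit 174) (nat_lit 5) (nat_lit 181) (nat_lit 5) (nat_lit 175) (nat_lit 4) (nat_lit 450) (nat_lit 349) (nat_lit 341)) (XT.nd (nat_lit 78) (nat_lit 0) (nat_lit 0) (XT.lf (nat_lit 0) (nat_lit 1619889655) (nat_lit 456) (nat_lit 3456411451) (nat_lit 532) (nat_lit 4104508220) (nat_lit 168) (nat_lit 5) (nat_lit 174) (nat_lit 5) (nat_lit 175) (nat_lit 4) (nat_lit 451) (nat_lit 349) (nat_lit 340)) (XT.lf (nat_lit 0) (nat_lit 8279976414) (nat_lit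 456) (nat_lit 522994872) (nat_lit 532) (nat_lit 465781057) (nat_lit 168) (nat_lit 5) (nat_lit 174) (nat_lit 5) (nat_lit 175) (nat_lit 4) (nat_lit 452) (nat_lit 349) (nat_lit 339)))) (XT.nd (nat_lit 156) (nat_lit 532) (nat_lit 0) (XT.nd (nat_lit 78) (nat_lit 380) (nat_lit 0) (XT.lf (nat_lit 0) (nat_lit 3198828311) (nat_lit 532) (nat_lit 3688167945) (nat_lit 76) (nat_lit 2471152094) (nat_lit 161) (nat_lit 5) (nat_lit 168) (nat_lit 5) (nat_lit 162) (nat_lit 4) (nat_lit 453) (nat_lit 349) (nat_lit 338)) (XT.lf (nat_lit 0) (nat_lit 2976333079) (nat_lit 380) (nat_lit 3926572509) (nat_lit 456) (nat_lit 2546945407) (nat_lit 156) (nat_lit 5) (nat_lit 161) (nat_lit 5) (nat_lit 162) (nat_lit 4) (nat_lit 454) (nat_lit 349) (nat_lit 337))) (XT.nd (nat_lit 78) (nat_lit 0) (nat_lit 0) (XT.lf (nat_lit 0) (nat_lit 193748450) (nat_lit 456) (nat_lit 898305385) (nat_lit 532) (nat_lit 8451827605) (nat_lit 149) (nat_lit 5) (nat_lit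 155) (nat_lit 5) (nat_lit 156) (nat_lit 5) (nat_lit 455) (nat_lit 349) (nat_lit 336)) (XT.lf (nat_lit 0) (nat_lit 4771255469) (nat_lit 532) (nat_lit 2671101884) (nat_lit 76) (nat_lit 2197094811) (nat_lit 149) (nat_lit 5) (nat_lit 156) (nat_lit 5) (nat_lit 150) (nat_lit 4) (nat_lit 456) (nat_lit 349) (nat_lit 335))))) (XT.nd (nat_lit 234) (nat_lit 1216) (nat_lit 0) (XT.nd (nat_lit 78) (nat_lit 456) (nat_lit 0) (XT.lf (nat_lit 0) (nat_lit 4108154337) (nat_lit 380) (nat_lit 4393159068) (nat_lit 456) (nat_lit 1236101823) (nat_lit 144) (nat_lit 5) (nat_lit 149) (nat_lit 5) (nat_lit 150) (nat_lit 4) (nat_lit 457) (nat_lit 349) (nat_lit 334)) (XT.nd (nat_lit 78) (nat_lit 0) (nat_lit 0) (XT.lf (nat_lit 0) (nat_lit 1139512808) (nat_lit 380) (nat_lit 1267010233) (nat_lit 456) (nat_lit 7431114006) (nat_lit 138) (nat_lit 5) (nat_lit 143) (nat_lit 5) (nat_lit 144) (nat_lit 5) (nat_lit 458) (nat_lit 349) (nat_lit 333)) (XT.lf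 (nat_lit 0) (nat_lit 6101174728) (nat_lit 456) (nat_lit 1921972088) (nat_lit 76) (nat_lit 1916663408) (nat_lit 138) (nat_lit 5) (nat_lit 144) (nat_lit 5) (nat_lit 139) (nat_lit 4) (nat_lit 459) (nat_lit 349) (nat_lit 332)))) (XT.nd (nat_lit 156) (nat_lit 380) (nat_lit 0) (XT.nd (nat_lit 78) (nat_lit 456) (nat_lit 0) (XT.lf (nat_lit 0) (nat_lit 4966130857) (nat_lit 380) (nat_lit 4890505237) (nat_lit 456) (nat_lit 187676801) (nat_lit 133) (nat_lit 5) (nat_lit 138) (nat_lit 5) (nat_lit 139) (nat_lit 4) (nat_lit 460) (nat_lit 349) (nat_lit 331)) (XT.lf (nat_lit 0) (nat_lit 1787276100) (nat_lit 380) (nat_lit 1673674715) (nat_lit 456) (nat_lit 6690098440) (nat_lit 127) (nat_lit 5) (nat_lit 132) (nat_lit 5) (nat_lit 133) (nat_lit 5) (nat_lit 461) (nat_lit 349) (nat_lit 330))) (XT.nd (nat_lit 78) (nat_lit 380) (nat_lit 0) (XT.lf (nat_lit 0) (nat_lit 7171577878) (nat_lit 456) (nat_lit 1493163434) (nat_lit 76) (nat_lit 1595346379)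 (nat_lit 127) (nat_lit 5) (nat_lit 133) (nat_lit 5) (nat_lit 128) (nat_lit 4) (nat_lit 462) (nat_lit 349) (nat_lit 329)) (XT.lf (nat_lit 0) (nat_lit 571990913) (nat_lit 380) (nat_lit 4878649877) (nat_lit 76) (nat_lit 4920721109) (nat_lit 122) (nat_lit 5) (nat_lit 127) (nat_lit 5) (nat_lit 123) (nat_lit 5) (nat_lit 463) (nat_lit 349) (nat_lit 328))))))) (XT.nd (nat_lit 1092) (nat_lit 2052) (nat_lit 0) (XT.nd (nat_lit 546) (nat_lit 1216) (nat_lit 0) (XT.nd (nat_lit 234) (nat_lit 988) (nat_lit 0) (XT.nd (nat_lit 78) (nat_lit 380) (nat_lit 0) (XT.lf (nat_lit 0) (nat_lit 2081155220) (nat_lit 380) (nat_lit 2154816667) (nat_lit 456) (nat_lit 6249070530) (nat_lit 117) (nat_lit 5) (nat_lit 122) (nat_lit 5) (nat_lit 123) (nat_lit 5) (nat_lit 464) (nat_lit 349) (nat_lit 327)) (XT.nd (nat_lit 78) (nat_lit 380) (nat_lit 0) (XT.lf (nat_lit 0) (nat_lit 7962340619) (nat_lit 456) (nat_lit 1441960259) (nat_lit 76) (nat_lit 1196934713)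 (nat_lit 117) (nat_lit 5) (nat_lit 123) (nat_lit 5) (nat_lit 118) (nat_lit 4) (nat_lit 465) (nat_lit 349) (nat_lit 326)) (XT.lf (nat_lit 0) (nat_lit 1030002824) (nat_lit 380) (nat_lit 5085920139) (nat_lit 76) (nat_lit 4603710466) (nat_lit 112) (nat_lit 5) (nat_lit 117) (nat_lit 5) (nat_lit 113) (nat_lit 5) (nat_lit 466) (nat_lit 349) (nat_lit 325)))) (XT.nd (nat_lit 156) (nat_lit 684) (nat_lit 0) (XT.nd (nat_lit 78) (nat_lit 0) (nat_lit 0) (XT.lf (nat_lit 0) (nat_lit 1959941469) (nat_lit 304) (nat_lit 2748967361) (nat_lit 380) (nat_lit 6131722217) (nat_lit 108) (nat_lit 5) (nat_lit 112) (nat_lit 5) (nat_lit 113) (nat_lit 5) (nat_lit 467) (nat_lit 349) (nat_lit 324)) (XT.lf (nat_lit 0) (nat_lit 8449967799) (nat_lit 380) (nat_lit 1831167651) (nat_lit 76) (nat_lit 683161265) (nat_lit 108) (nat_lit 5) (nat_lit 113) (nat_lit 5) (nat_lit 109) (nat_lit 4) (nat_lit 468) (nat_lit 349) (nat_lit 323))) (XT.nd (nat_lit 78)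 (nat_lit 304) (nat_lit 0) (XT.lf (nat_lit 0) (nat_lit 1163592236) (nat_lit 380) (nat_lit 5764186687) (nat_lit 76) (nat_lit 4162451060) (nat_lit 103) (nat_lit 5) (nat_lit 108) (nat_lit 5) (nat_lit 104) (nat_lit 5) (nat_lit 469) (nat_lit 349) (nat_lit 322)) (XT.lf (nat_lit 0) (nat_lit 1356436105) (nat_lit 304) (nat_lit 3497057357) (nat_lit 380) (nat_lit 6365432754) (nat_lit 99) (nat_lit 5) (nat_lit 103) (nat_lit 5) (nat_lit 104) (nat_lit 5) (nat_lit 470) (nat_lit 349) (nat_lit 321))))) (XT.nd (nat_lit 234) (nat_lit 608) (nat_lit 0) (XT.nd (nat_lit 78) (nat_lit 608) (nat_lit 0) (XT.lf (nat_lit 0) (nat_lit 8607305588) (nat_lit 380) (nat_lit 2729791404) (nat_lit 76) (nat_lit 13315226) (nat_lit 99) (nat_lit 5) (nat_lit 104) (nat_lit 5) (nat_lit 100) (nat_lit 4) (nat_lit 471) (nat_lit 349) (nat_lit 320)) (XT.nd (nat_lit 78) (nat_lit 304) (nat_lit 0) (XT.lf (nat_lit 0) (nat_lit 943726818) (nat_lit 304) (nat_lit 6985354422)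 (nat_lit 76) (nat_lit 3555249679) (nat_lit 95) (nat_lit 5) (nat_lit 99) (nat_lit 5) (nat_lit 96) (nat_lit 5) (nat_lit 472) (nat_lit 349) (nat_lit 319)) (XT.lf (nat_lit 0) (nat_lit 196722497) (nat_lit 304) (nat_lit 4442830475) (nat_lit 380) (nat_lit 6981589716) (nat_lit 91) (nat_lit 5) (nat_lit 95) (nat_lit 5) (nat_lit 96) (nat_lit 5) (nat_lit 473) (nat_lit 349) (nat_lit 318)))) (XT.nd (nat_lit 156) (nat_lit 304) (nat_lit 0) (XT.nd (nat_lit 78) (nat_lit 304) (nat_lit 0) (XT.lf (nat_lit 0) (nat_lit 7541300312) (nat_lit 304) (nat_lit 867549979) (nat_lit 380) (nat_lit 3351866034) (nat_lit 91) (nat_lit 5) (nat_lit 95) (nat_lit 5) (nat_lit 96) (nat_lit 5) (nat_lit 474) (nat_lit 349) (nat_lit 317)) (XT.lf (nat_lit 0) (nat_lit 337230560) (nat_lit 304) (nat_lit 8828594804) (nat_lit 76) (nat_lit 2737399142) (nat_lit 87) (nat_lit 5) (nat_lit 91) (nat_lit 5) (nat_lit 88) (nat_lit 5) (nat_lit 475) (nat_lit 349) (nat_lit 316)))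 (XT.nd (nat_lit 78) (nat_lit 304) (nat_lit 0) (XT.lf (nat_lit 0) (nat_lit 4043049901) (nat_lit 304) (nat_lit 1579639676) (nat_lit 76) (nat_lit 6425709470) (nat_lit 87) (nat_lit 5) (nat_lit 91) (nat_lit 5) (nat_lit 88) (nat_lit 5) (nat_lit 476) (nat_lit 349) (nat_lit 315)) (XT.lf (nat_lit 0) (nat_lit 5816814418) (nat_lit 304) (nat_lit 1998381911) (nat_lit 380) (nat_lit 4381451985) (nat_lit 83) (nat_lit 5) (nat_lit 87) (nat_lit 5) (nat_lit 88) (nat_lit 5) (nat_lit 477) (nat_lit 349) (nat_lit 314)))))) (XT.nd (nat_lit 546) (nat_lit 988) (nat_lit 0) (XT.nd (nat_lit 234) (nat_lit 532) (nat_lit 0) (XT.nd (nat_lit 78) (nat_lit 304) (nat_lit 0) (XT.lf (nat_lit 0) (nat_lit 962466402) (nat_lit 228) (nat_lit 10682944681) (nat_lit 304) (nat_lit 702814121) (nat_lit 80) (nat_lit 5) (nat_lit 83) (nat_lit 5) (nat_lit 84) (nat_lit 4) (nat_lit 478) (nat_lit 349) (nat_lit 313)) (XT.nd (nat_lit 78) (nat_lit 228) (nat_lit 0) (XT.lf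 (nat_lit 0) (nat_lit 3020510961) (nat_lit 304) (nat_lit 4071348038) (nat_lit 76) (nat_lit 5410371062) (nat_lit 79) (nat_lit 5) (nat_lit 83) (nat_lit 5) (nat_lit 80) (nat_lit 5) (nat_lit 479) (nat_lit 349) (nat_lit 312)) (XT.lf (nat_lit 0) (nat_lit 3356018054) (nat_lit 228) (nat_lit 3430336769) (nat_lit 304) (nat_lit 5873332293) (nat_lit 76) (nat_lit 5) (nat_lit 79) (nat_lit 5) (nat_lit 80) (nat_lit 5) (nat_lit 480) (nat_lit 349) (nat_lit 311)))) (XT.nd (nat_lit 156) (nat_lit 228) (nat_lit 0) (XT.nd (nat_lit 78) (nat_lit 304) (nat_lit 0) (XT.lf (nat_lit 0) (nat_lit 10612875360) (nat_lit 304) (nat_lit 1907708737) (nat_lit 76) (nat_lit 300016012) (nat_lit 76) (nat_lit 5) (nat_lit 80) (nat_lit 5) (nat_lit 77) (nat_lit 4) (nat_lit 481) (nat_lit 349) (nat_lit 310)) (XT.lf (nat_lit 0) (nat_lit 1527129261) (nat_lit 304) (nat_lit 7378864665) (nat_lit 76) (nat_lit 4078231731) (nat_lit 72) (nat_lit 5) (nat_lit 76) (nat_lit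 5) (nat_lit 73) (nat_lit 5) (nat_lit 482) (nat_lit 349) (nat_lit 309))) (XT.nd (nat_lit 78) (nat_lit 0) (nat_lit 0) (XT.lf (nat_lit 0) (nat_lit 58130176) (nat_lit 228) (nat_lit 5219116695) (nat_lit 304) (nat_lit 7874195611) (nat_lit 69) (nat_lit 5) (nat_lit 72) (nat_lit 5) (nat_lit 73) (nat_lit 5) (nat_lit 483) (nat_lit 349) (nat_lit 308)) (XT.lf (nat_lit 0) (nat_lit 7672747821) (nat_lit 228) (nat_lit 1436355927) (nat_lit 304) (nat_lit 4212778084) (nat_lit 69) (nat_lit 5) (nat_lit 72) (nat_lit 5) (nat_lit 73) (nat_lit 5) (nat_lit 484) (nat_lit 349) (nat_lit 307))))) (XT.nd (nat_lit 312) (nat_lit 456) (nat_lit 0) (XT.nd (nat_lit 156) (nat_lit 228) (nat_lit 0) (XT.nd (nat_lit 78) (nat_lit 76) (nat_lit 0) (XT.lf (nat_lit 0) (nat_lit 1882475624) (nat_lit 228) (nat_lit 11120949173) (nat_lit 304) (nat_lit 492601306) (nat_lit 66) (nat_lit 5) (nat_lit 69) (nat_lit 5) (nat_lit 70) (nat_lit 4) (nat_lit 485) (nat_lit 349)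 (nat_lit 306)) (XT.lf (nat_lit 0) (nat_lit 3264307071) (nat_lit 304) (nat_lit 4133327306) (nat_lit 76) (nat_lit 6275489610) (nat_lit 65) (nat_lit 5) (nat_lit 69) (nat_lit 5) (nat_lit 66) (nat_lit 5) (nat_lit 486) (nat_lit 349) (nat_lit 305))) (XT.nd (nat_lit 78) (nat_lit 0) (nat_lit 0) (XT.lf (nat_lit 0) (nat_lit 3469602141) (nat_lit 228) (nat_lit 3601475047) (nat_lit 304) (nat_lit 6783007070) (nat_lit 62) (nat_lit 5) (nat_lit 65) (nat_lit 5) (nat_lit 66) (nat_lit 5) (nat_lit 487) (nat_lit 349) (nat_lit 304)) (XT.lf (nat_lit 0) (nat_lit 10942627984) (nat_lit 304) (nat_lit 2828764667) (nat_lit 76) (nat_lit 267509888) (nat_lit 62) (nat_lit 5) (nat_lit 66) (nat_lit 5) (nat_lit 63) (nat_lit 4) (nat_lit 488) (nat_lit 349) (nat_lit 303)))) (XT.nd (nat_lit 156) (nat_lit 228) (nat_lit 0) (XT.nd (nat_lit 78) (nat_lit 0) (nat_lit 0) (XT.lf (nat_lit 0) (nat_lit 670681990) (nat_lit 228) (nat_lit 9381689923) (nat_lit 76) (nat_lit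 4174666271) (nat_lit 59) (nat_lit 5) (nat_lit 62) (nat_lit 5) (nat_lit 60) (nat_lit 5) (nat_lit 489) (nat_lit 349) (nat_lit 302)) (XT.lf (nat_lit 0) (nat_lit 4450513045) (nat_lit 228) (nat_lit 1795971129) (nat_lit 76) (nat_lit 8172474185) (nat_lit 59) (nat_lit 5) (nat_lit 62) (nat_lit 5) (nat_lit 60) (nat_lit 5) (nat_lit 490) (nat_lit 349) (nat_lit 301))) (XT.nd (nat_lit 78) (nat_lit 0) (nat_lit 0) (XT.lf (nat_lit 0) (nat_lit 5952797288) (nat_lit 228) (nat_lit 2352427772) (nat_lit 304) (nat_lit 6309517007) (nat_lit 56) (nat_lit 5) (nat_lit 59) (nat_lit 5) (nat_lit 60) (nat_lit 5) (nat_lit 491) (nat_lit 349) (nat_lit 300)) (XT.lf (nat_lit 0) (nat_lit 12220477141) (nat_lit 304) (nat_lit 1010820922) (nat_lit 76) (nat_lit 1583485074) (nat_lit 56) (nat_lit 5) (nat_lit 60) (nat_lit 5) (nat_lit 57) (nat_lit 4) (nat_lit 492) (nat_lit 349) (nat_lit 299))))))))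
noncomputable def xc37 : XT := (XT.nd (nat_lit 2184) (nat_lit 608) (nat_lit 0) (XT.nd (nat_lit 1092) (nat_lit 912) (nat_lit 0) (XT.nd (nat_lit 546) (nat_lit 608) (nat_lit 0) (XT.nd (nat_lit 234) (nat_lit 456) (nat_lit 0) (XT.nd (nat_lit 78) (nat_lit 228) (nat_lit 0) (XT.lf (nat_lit 0) (nat_lit 1200970348) (nat_lit 228) (nat_lit 8224962825) (nat_lit 76) (nat_lit 5592318117) (nat_lit 53) (nat_lit 5) (nat_lit 56) (nat_lit 5) (nat_lit 54) (nat_lit 5) (nat_lit 493) (nat_lit 349) (nat_lit 298)) (XT.nd (nat_lit 78) (nat_lit 228) (nat_lit 0) (XT.lf (nat_lit 0) (nat_lit 5005910878) (nat_lit 228) (nat_lit 541384876) (nat_lit 76) (nat_lit 9678790151) (nat_lit 53) (nat_lit 5) (nat_lit 56) (nat_lit 5) (nat_lit 54) (nat_lit 5) (nat_lit 494) (nat_lit 349) (nat_lit 297)) (XT.lf (nat_lit 0) (nat_lit 7327567028) (nat_lit 228) (nat_lit 1569346734) (nat_lit 304) (nat_lit 6540973977) (nat_lit 50) (nat_lit 5) (nat_lit 53) (nat_lit 5)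 (nat_lit 54) (nat_lit 5) (nat_lit 495) (nat_lit 349) (nat_lit 296)))) (XT.nd (nat_lit 156) (nat_lit 228) (nat_lit 0) (XT.nd (nat_lit 78) (nat_lit 228) (nat_lit 0) (XT.lf (nat_lit 0) (nat_lit 12848085497) (nat_lit 304) (nat_lit 373353630) (nat_lit 76) (nat_lit 2432849111) (nat_lit 50) (nat_lit 5) (nat_lit 54) (nat_lit 5) (nat_lit 51) (nat_lit 4) (nat_lit 496) (nat_lit 349) (nat_lit 295)) (XT.lf (nat_lit 0) (nat_lit 1012889220) (nat_lit 228) (nat_lit 8337634143) (nat_lit 76) (nat_lit 6523916674) (nat_lit 47) (nat_lit 5) (nat_lit 50) (nat_lit 5) (nat_lit 48) (nat_lit 5) (nat_lit 497) (nat_lit 349) (nat_lit 294))) (XT.nd (nat_lit 78) (nat_lit 228) (nat_lit 0) (XT.lf (nat_lit 0) (nat_lit 4836678266) (nat_lit 228) (nat_lit 570688461) (nat_lit 76) (nat_lit 10691948410) (nat_lit 47) (nat_lit 5) (nat_lit 50) (nat_lit 5) (nat_lit 48) (nat_lit 5) (nat_lit 498) (nat_lit 349) (nat_lit 293)) (XT.lf (nat_lit 0) (nat_lit 7386339404)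 (nat_lit 228) (nat_lit 1362612845) (nat_lit 304) (nat_lit 7579504181) (nat_lit 44) (nat_lit 5) (nat_lit 47) (nat_lit 5) (nat_lit 48) (nat_lit 5) (nat_lit 499) (nat_lit 349) (nat_lit 292))))) (XT.nd (nat_lit 234) (nat_lit 380) (nat_lit 0) (XT.nd (nat_lit 78) (nat_lit 228) (nat_lit 0) (XT.lf (nat_lit 0) (nat_lit 12725453112) (nat_lit 304) (nat_lit 1132098535) (nat_lit 76) (nat_lit 2704917974) (nat_lit 44) (nat_lit 5) (nat_lit 48) (nat_lit 5) (nat_lit 45) (nat_lit 4) (nat_lit 500) (nat_lit 349) (nat_lit 291)) (XT.nd (nat_lit 78) (nat_lit 76) (nat_lit 0) (XT.lf (nat_lit 0) (nat_lit 6853934619) (nat_lit 152) (nat_lit 9945962759) (nat_lit 228) (nat_lit 905958) (nat_lit 42) (nat_lit 5) (nat_lit 44) (nat_lit 5) (nat_lit 45) (nat_lit 4) (nat_lit 501) (nat_lit 349) (nat_lit 290)) (XT.lf (nat_lit 0) (nat_lit 3833213479) (nat_lit 228) (nat_lit 2115291357) (nat_lit 76) (nat_lit 11095447266) (nat_lit 41) (nat_lit 5) (nat_lit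 44) (nat_lit 5) (nat_lit 42) (nat_lit 5) (nat_lit 502) (nat_lit 349) (nat_lit 289)))) (XT.nd (nat_lit 156) (nat_lit 228) (nat_lit 0) (XT.nd (nat_lit 78) (nat_lit 0) (nat_lit 0) (XT.lf (nat_lit 0) (nat_lit 5890236825) (nat_lit 152) (nat_lit 1857642050) (nat_lit 228) (nat_lit 9544015372) (nat_lit 39) (nat_lit 5) (nat_lit 41) (nat_lit 5) (nat_lit 42) (nat_lit 5) (nat_lit 503) (nat_lit 349) (nat_lit 288)) (XT.lf (nat_lit 0) (nat_lit 11735911533) (nat_lit 228) (nat_lit 3535143430) (nat_lit 76) (nat_lit 2273846672) (nat_lit 39) (nat_lit 5) (nat_lit 42) (nat_lit 5) (nat_lit 40) (nat_lit 4) (nat_lit 504) (nat_lit 349) (nat_lit 287))) (XT.nd (nat_lit 78) (nat_lit 76) (nat_lit 0) (XT.lf (nat_lit 0) (nat_lit 4476226439) (nat_lit 152) (nat_lit 11335269252) (nat_lit 228) (nat_lit 1991325389) (nat_lit 37) (nat_lit 5) (nat_lit 39) (nat_lit 5) (nat_lit 40) (nat_lit 4) (nat_lit 505) (nat_lit 349) (nat_lit 286)) (XT.lf (nat_lit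 0) (nat_lit 1868094765) (nat_lit 228) (nat_lit 5441135828) (nat_lit 76) (nat_lit 10756621549) (nat_lit 36) (nat_lit 5) (nat_lit 39) (nat_lit 5) (nat_lit 37) (nat_lit 5) (nat_lit 506) (nat_lit 349) (nat_lit 285)))))) (XT.nd (nat_lit 546) (nat_lit 380) (nat_lit 0) (XT.nd (nat_lit 234) (nat_lit 228) (nat_lit 0) (XT.nd (nat_lit 78) (nat_lit 152) (nat_lit 0) (XT.lf (nat_lit 0) (nat_lit 2564692522) (nat_lit 152) (nat_lit 3197157411) (nat_lit 228) (nat_lit 12572361707) (nat_lit 34) (nat_lit 5) (nat_lit 36) (nat_lit 5) (nat_lit 37) (nat_lit 5) (nat_lit 507) (nat_lit 349) (nat_lit 284)) (XT.nd (nat_lit 78) (nat_lit 152) (nat_lit 0) (XT.lf (nat_lit 0) (nat_lit 9743953547) (nat_lit 228) (nat_lit 7867436808) (nat_lit 76) (nat_lit 996345645) (nat_lit 34) (nat_lit 5) (nat_lit 37) (nat_lit 5) (nat_lit 35) (nat_lit 4) (nat_lit 508) (nat_lit 349) (nat_lit 283)) (XT.lf (nat_lit 0) (nat_lit 116268023) (nat_lit 152) (nat_lit 13679246036)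 (nat_lit 228) (nat_lit 5091427489) (nat_lit 32) (nat_lit 5) (nat_lit 34) (nat_lit 5) (nat_lit 35) (nat_lit 4) (nat_lit 509) (nat_lit 349) (nat_lit 282)))) (XT.nd (nat_lit 156) (nat_lit 152) (nat_lit 0) (XT.nd (nat_lit 78) (nat_lit 76) (nat_lit 0) (XT.lf (nat_lit 0) (nat_lit 8309894846) (nat_lit 152) (nat_lit 9639155789) (nat_lit 228) (nat_lit 1222268534) (nat_lit 32) (nat_lit 5) (nat_lit 34) (nat_lit 5) (nat_lit 35) (nat_lit 4) (nat_lit 510) (nat_lit 349) (nat_lit 281)) (XT.lf (nat_lit 0) (nat_lit 2657105552) (nat_lit 228) (nat_lit 2867393778) (nat_lit 76) (nat_lit 13937166625) (nat_lit 31) (nat_lit 5) (nat_lit 34) (nat_lit 5) (nat_lit 32) (nat_lit 5) (nat_lit 511) (nat_lit 349) (nat_lit 280))) (XT.nd (nat_lit 78) (nat_lit 0) (nat_lit 0) (XT.lf (nat_lit 0) (nat_lit 5293221048) (nat_lit 152) (nat_lit 1308040034) (nat_lit 228) (nat_lit 13156332271) (nat_lit 29) (nat_lit 5) (nat_lit 31) (nat_lit 5) (nat_lit 32) (nat_lit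 5) (nat_lit 512) (nat_lit 349) (nat_lit 279)) (XT.lf (nat_lit 0) (nat_lit 10632375722) (nat_lit 228) (nat_lit 6477424278) (nat_lit 76) (nat_lit 2949484118) (nat_lit 29) (nat_lit 5) (nat_lit 32) (nat_lit 5) (nat_lit 30) (nat_lit 4) (nat_lit 513) (nat_lit 349) (nat_lit 278))))) (XT.nd (nat_lit 234) (nat_lit 228) (nat_lit 0) (XT.nd (nat_lit 78) (nat_lit 76) (nat_lit 0) (XT.lf (nat_lit 0) (nat_lit 1628300825) (nat_lit 76) (nat_lit 13104924729) (nat_lit 152) (nat_lit 5634007098) (nat_lit 28) (nat_lit 5) (nat_lit 29) (nat_lit 5) (nat_lit 30) (nat_lit 4) (nat_lit 514) (nat_lit 349) (nat_lit 277)) (XT.nd (nat_lit 78) (nat_lit 76) (nat_lit 0) (XT.lf (nat_lit 0) (nat_lit 9930641786) (nat_lit 76) (nat_lit 8999040444) (nat_lit 152) (nat_lit 1751392221) (nat_lit 28) (nat_lit 5) (nat_lit 29) (nat_lit 5) (nat_lit 30) (nat_lit 4) (nat_lit 515) (nat_lit 349) (nat_lit 276)) (XT.lf (nat_lit 0) (nat_lit 2150414033) (nat_lit 152) (nat_lit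 2669159479) (nat_lit 76) (nat_lit 16181928422) (nat_lit 27) (nat_lit 5) (nat_lit 29) (nat_lit 5) (nat_lit 28) (nat_lit 5) (nat_lit 516) (nat_lit 349) (nat_lit 275)))) (XT.nd (nat_lit 156) (nat_lit 76) (nat_lit 0) (XT.nd (nat_lit 78) (nat_lit 0) (nat_lit 0) (XT.lf (nat_lit 0) (nat_lit 5583750401) (nat_lit 152) (nat_lit 530417332) (nat_lit 228) (nat_lit 15213797190) (nat_lit 25) (nat_lit 5) (nat_lit 27) (nat_lit 5) (nat_lit 28) (nat_lit 5) (nat_lit 517) (nat_lit 349) (nat_lit 274)) (XT.lf (nat_lit 0) (nat_lit 10171362112) (nat_lit 228) (nat_lit 7699493977) (nat_lit 76) (nat_lit 3789823399) (nat_lit 25) (nat_lit 5) (nat_lit 28) (nat_lit 5) (nat_lit 26) (nat_lit 4) (nat_lit 518) (nat_lit 349) (nat_lit 273))) (XT.nd (nat_lit 78) (nat_lit 0) (nat_lit 0) (XT.lf (nat_lit 0) (nat_lit 457913044) (nat_lit 76) (nat_lit 13830012646) (nat_lit 152) (nat_lit 7712563664) (nat_lit 24) (nat_lit 5) (nat_lit 25) (nat_lit 5) (nat_lit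 26) (nat_lit 4) (nat_lit 519) (nat_lit 349) (nat_lit 272)) (XT.lf (nat_lit 0) (nat_lit 8832469582) (nat_lit 76) (nat_lit 9677985266) (nat_lit 152) (nat_lit 3836173292) (nat_lit 24) (nat_lit 5) (nat_lit 25) (nat_lit 5) (nat_lit 26) (nat_lit 4) (nat_lit 520) (nat_lit 349) (nat_lit 271))))))) (XT.nd (nat_lit 53196) (nat_lit 0) (nat_lit 10108) (XT.nd (nat_lit 546) (nat_lit 228) (nat_lit 0) (XT.nd (nat_lit 234) (nat_lit 152) (nat_lit 0) (XT.nd (nat_lit 78) (nat_lit 152) (nat_lit 0) (XT.lf (nat_lit 0) (nat_lit 88529720) (nat_lit 152) (nat_lit 5375689558) (nat_lit 76) (nat_lit 17236013753) (nat_lit 23) (nat_lit 5) (nat_lit 25) (nat_lit 5) (nat_lit 24) (nat_lit 5) (nat_lit 521) (nat_lit 349) (nat_lit 270)) (XT.nd (nat_lit 78) (nat_lit 0) (nat_lit 0) (XT.lf (nat_lit 0) (nat_lit 2889259776) (nat_lit 152) (nat_lit 1142779310) (nat_lit 228) (nat_lit 19028535315) (nat_lit 21) (nat_lit 5) (nat_lit 23) (nat_lit 5) (nat_lit 24)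 (nat_lit 5) (nat_lit 522) (nat_lit 349) (nat_lit 269)) (XT.lf (nat_lit 0) (nat_lit 8084879451) (nat_lit 228) (nat_lit 12105321681) (nat_lit 76) (nat_lit 3237317246) (nat_lit 21) (nat_lit 5) (nat_lit 24) (nat_lit 5) (nat_lit 22) (nat_lit 4) (nat_lit 523) (nat_lit 349) (nat_lit 268)))) (XT.nd (nat_lit 156) (nat_lit 76) (nat_lit 0) (XT.nd (nat_lit 78) (nat_lit 76) (nat_lit 0) (XT.lf (nat_lit 0) (nat_lit 12199824188) (nat_lit 228) (nat_lit 3933478440) (nat_lit 76) (nat_lit 7668882555) (nat_lit 21) (nat_lit 5) (nat_lit 24) (nat_lit 5) (nat_lit 22) (nat_lit 4) (nat_lit 524) (nat_lit 349) (nat_lit 267)) (XT.lf (nat_lit 0) (nat_lit 4412712946) (nat_lit 76) (nat_lit 11987004632) (nat_lit 152) (nat_lit 7784579553) (nat_lit 20) (nat_lit 5) (nat_lit 21) (nat_lit 5) (nat_lit 22) (nat_lit 4) (nat_lit 525) (nat_lit 349) (nat_lit 266))) (XT.nd (nat_lit 78) (nat_lit 76) (nat_lit 0) (XT.lf (nat_lit 0) (nat_lit 12932494217) (nat_lit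 76) (nat_lit 7751716740) (nat_lit 152) (nat_lit 3889833028) (nat_lit 20) (nat_lit 5) (nat_lit 21) (nat_lit 5) (nat_lit 22) (nat_lit 4) (nat_lit 526) (nat_lit 349) (nat_lit 265)) (XT.lf (nat_lit 0) (nat_lit 56262521) (nat_lit 152) (nat_lit 3395533695) (nat_lit 76) (nat_lit 21520292531) (nat_lit 19) (nat_lit 5) (nat_lit 21) (nat_lit 5) (nat_lit 20) (nat_lit 5) (nat_lit 527) (nat_lit 349) (nat_lit 264))))) (XT.nd (nat_lit 234) (nat_lit 76) (nat_lit 0) (XT.nd (nat_lit 78) (nat_lit 0) (nat_lit 0) (XT.lf (nat_lit 0) (nat_lit 4043132236) (nat_lit 228) (nat_lit 20373578245) (nat_lit 76) (nat_lit 960595381) (nat_lit 17) (nat_lit 5) (nat_lit 20) (nat_lit 5) (nat_lit 18) (nat_lit 4) (nat_lit 528) (nat_lit 349) (nat_lit 263)) (XT.nd (nat_lit 78) (nat_lit 0) (nat_lit 0) (XT.lf (nat_lit 0) (nat_lit 8130642406) (nat_lit 228) (nat_lit 12241430159) (nat_lit 76) (nat_lit 5418141044) (nat_lit 17) (nat_lit 5) (nat_lit 20) (nat_lit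 5) (nat_lit 18) (nat_lit 4) (nat_lit 529) (nat_lit 349) (nat_lit 262)) (XT.lf (nat_lit 0) (nat_lit 12275497647) (nat_lit 228) (nat_lit 3991001451) (nat_lit 76) (nat_lit 9945372779) (nat_lit 17) (nat_lit 5) (nat_lit 20) (nat_lit 5) (nat_lit 18) (nat_lit 4) (nat_lit 530) (nat_lit 349) (nat_lit 261)))) (XT.nd (nat_lit 52260) (nat_lit 0) (nat_lit 15884) (XT.nd (nat_lit 78) (nat_lit 0) (nat_lit 0) (XT.lf (nat_lit 0) (nat_lit 4439163769) (nat_lit 76) (nat_lit 12068981618) (nat_lit 152) (nat_lit 10133724198) (nat_lit 16) (nat_lit 5) (nat_lit 17) (nat_lit 5) (nat_lit 18) (nat_lit 4) (nat_lit 531) (nat_lit 349) (nat_lit 260)) (XT.lf (nat_lit 0) (nat_lit 13048825013) (nat_lit 76) (nat_lit 7779664814) (nat_lit 152) (nat_lit 6251920644) (nat_lit 16) (nat_lit 5) (nat_lit 17) (nat_lit 5) (nat_lit 18) (nat_lit 4) (nat_lit 532) (nat_lit 349) (nat_lit 259))) (XT.nd (nat_lit 78) (nat_lit 0) (nat_lit 0) (XT.lf (nat_lit 0) (nat_lit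 264851401) (nat_lit 608) (nat_lit 3640425470) (nat_lit 0) (nat_lit 264851401) (nat_lit 225) (nat_lit 5) (nat_lit 233) (nat_lit 4) (nat_lit 225) (nat_lit 4) (nat_lit 440) (nat_lit 350) (nat_lit 350)) (XT.lf (nat_lit 0) (nat_lit 4195146799) (nat_lit 608) (nat_lit 1140337998) (nat_lit 0) (nat_lit 3072571776) (nat_lit 225) (nat_lit 5) (nat_lit 233) (nat_lit 4) (nat_lit 225) (nat_lit 4) (nat_lit 441) (nat_lit 350) (nat_lit 349)))))) (XT.nd (nat_lit 546) (nat_lit 2888) (nat_lit 0) (XT.nd (nat_lit 234) (nat_lit 1140) (nat_lit 0) (XT.nd (nat_lit 78) (nat_lit 1140) (nat_lit 0) (XT.lf (nat_lit 0) (nat_lit 5108077221) (nat_lit 608) (nat_lit 2796450388) (nat_lit 608) (nat_lit 573311617) (nat_lit 217) (nat_lit 4) (nat_lit 225) (nat_lit 5) (nat_lit 225) (nat_lit 4) (nat_lit 442) (nat_lit 350) (nat_lit 348)) (XT.nd (nat_lit 78) (nat_lit 532) (nat_lit 0) (XT.lf (nat_lit 0) (nat_lit 2883208047) (nat_lit 532) (nat_lit 178836944)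 (nat_lit 608) (nat_lit 5487319864) (nat_lit 209) (nat_lit 5) (nat_lit 216) (nat_lit 5) (nat_lit 217) (nat_lit 4) (nat_lit 443) (nat_lit 350) (nat_lit 347)) (XT.lf (nat_lit 0) (nat_lit 589836658) (nat_lit 532) (nat_lit 6153642827) (nat_lit 532) (nat_lit 1879181697) (nat_lit 202) (nat_lit 4) (nat_lit 209) (nat_lit 5) (nat_lit 209) (nat_lit 4) (nat_lit 444) (nat_lit 350) (nat_lit 346)))) (XT.nd (nat_lit 156) (nat_lit 608) (nat_lit 0) (XT.nd (nat_lit 78) (nat_lit 456) (nat_lit 0) (XT.lf (nat_lit 0) (nat_lit 1755466265) (nat_lit 608) (nat_lit 1745170058) (nat_lit 76) (nat_lit 5197029343) (nat_lit 201) (nat_lit 5) (nat_lit 209) (nat_lit 5) (nat_lit 202) (nat_lit 4) (nat_lit 445) (nat_lit 350) (nat_lit 345)) (XT.lf (nat_lit 0) (nat_lit 4635079442) (nat_lit 456) (nat_lit 772398701) (nat_lit 532) (nat_lit 3367081799) (nat_lit 195) (nat_lit 5) (nat_lit 201) (nat_lit 5) (nat_lit 202) (nat_lit 4) (nat_lit 446) (nat_lit 350)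 (nat_lit 344))) (XT.nd (nat_lit 78) (nat_lit 0) (nat_lit 0) (XT.lf (nat_lit 0) (nat_lit 255374948) (nat_lit 608) (nat_lit 6606981351) (nat_lit 76) (nat_lit 1991042893) (nat_lit 187) (nat_lit 5) (nat_lit 195) (nat_lit 5) (nat_lit 188) (nat_lit 4) (nat_lit 447) (nat_lit 350) (nat_lit 343)) (XT.lf (nat_lit 0) (nat_lit 3878766592) (nat_lit 608) (nat_lit 227050790) (nat_lit 76) (nat_lit 4828114082) (nat_lit 187) (nat_lit 5) (nat_lit 195) (nat_lit 5) (nat_lit 188) (nat_lit 4) (nat_lit 448) (nat_lit 350) (nat_lit 342))))) (XT.nd (nat_lit 312) (nat_lit 1368) (nat_lit 0) (XT.nd (nat_lit 156) (nat_lit 532) (nat_lit 0) (XT.nd (nat_lit 78) (nat_lit 532) (nat_lit 0) (XT.lf (nat_lit 0) (nat_lit 6282145054) (nat_lit 456) (nat_lit 1274888051) (nat_lit 532) (nat_lit 1459425284) (nat_lit 181) (nat_lit 5) (nat_lit 187) (nat_lit 5) (nat_lit 188) (nat_lit 4) (nat_lit 449) (nat_lit 350) (nat_lit 341)) (XT.lf (nat_lit 0) (nat_lit 2157751545)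 (nat_lit 532) (nat_lit 5333407974) (nat_lit 76) (nat_lit 1609650808) (nat_lit 174) (nat_lit 5) (nat_lit 181) (nat_lit 5) (nat_lit 175) (nat_lit 4) (nat_lit 450) (nat_lit 350) (nat_lit 340))) (XT.nd (nat_lit 78) (nat_lit 76) (nat_lit 0) (XT.lf (nat_lit 0) (nat_lit 1165290457) (nat_lit 456) (nat_lit 4639236056) (nat_lit 532) (nat_lit 3382624221) (nat_lit 168) (nat_lit 5) (nat_lit 174) (nat_lit 5) (nat_lit 175) (nat_lit 4) (nat_lit 451) (nat_lit 350) (nat_lit 339)) (XT.lf (nat_lit 0) (nat_lit 224277449) (nat_lit 532) (nat_lit 1491851838) (nat_lit 76) (nat_lit 7559514955) (nat_lit 167) (nat_lit 5) (nat_lit 174) (nat_lit 5) (nat_lit 168) (nat_lit 5) (nat_lit 452) (nat_lit 350) (nat_lit 338)))) (XT.nd (nat_lit 156) (nat_lit 532) (nat_lit 0) (XT.nd (nat_lit 78) (nat_lit 380) (nat_lit 0) (XT.lf (nat_lit 0) (nat_lit 3843452084) (nat_lit 532) (nat_lit 4240848800) (nat_lit 76) (nat_lit 1281479531) (nat_lit 161) (nat_lit 5)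 (nat_lit 168) (nat_lit 5) (nat_lit 162) (nat_lit 4) (nat_lit 453) (nat_lit 350) (nat_lit 337)) (XT.lf (nat_lit 0) (nat_lit 2375869567) (nat_lit 380) (nat_lit 5140067379) (nat_lit 456) (nat_lit 1942191816) (nat_lit 156) (nat_lit 5) (nat_lit 161) (nat_lit 5) (nat_lit 162) (nat_lit 4) (nat_lit 454) (nat_lit 350) (nat_lit 336))) (XT.nd (nat_lit 78) (nat_lit 456) (nat_lit 0) (XT.lf (nat_lit 0) (nat_lit 1660014923) (nat_lit 456) (nat_lit 461485402) (nat_lit 76) (nat_lit 7431170890) (nat_lit 155) (nat_lit 5) (nat_lit 161) (nat_lit 5) (nat_lit 156) (nat_lit 5) (nat_lit 455) (nat_lit 350) (nat_lit 335)) (XT.lf (nat_lit 0) (nat_lit 5300817759) (nat_lit 532) (nat_lit 3373597652) (nat_lit 76) (nat_lit 974607559) (nat_lit 149) (nat_lit 5) (nat_lit 156) (nat_lit 5) (nat_lit 150) (nat_lit 4) (nat_lit 456) (nat_lit 350) (nat_lit 334))))))))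
noncomputable def xc38 : XT := (XT.nd (nat_lit 2184) (nat_lit 3040) (nat_lit 0) (XT.nd (nat_lit 1092) (nat_lit 2584) (nat_lit 0) (XT.nd (nat_lit 546) (nat_lit 1444) (nat_lit 0) (XT.nd (nat_lit 234) (nat_lit 1216) (nat_lit 0) (XT.nd (nat_lit 78) (nat_lit 456) (nat_lit 0) (XT.lf (nat_lit 0) (nat_lit 3356347090) (nat_lit 380) (nat_lit 5642783834) (nat_lit 456) (nat_lit 748502803) (nat_lit 144) (nat_lit 5) (nat_lit 149) (nat_lit 5) (nat_lit 150) (nat_lit 4) (nat_lit 457) (nat_lit 350) (nat_lit 333)) (XT.nd (nat_lit 78) (nat_lit 0) (nat_lit 0) (XT.lf (nat_lit 0) (nat_lit 324066487) (nat_lit 380) (nat_lit 2531586460) (nat_lit 456) (nat_lit 6992793068) (nat_lit 138) (nat_lit 5) (nat_lit 143) (nat_lit 5) (nat_lit 144) (nat_lit 5) (nat_lit 458) (nat_lit 350) (nat_lit 332)) (XT.lf (nat_lit 0) (nat_lit 6515501312) (nat_lit 456) (nat_lit 2779775896) (nat_lit 76) (nat_lit 656050112) (nat_lit 138) (nat_lit 5) (nat_lit 144) (nat_lit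 5) (nat_lit 139) (nat_lit 4) (nat_lit 459) (nat_lit 350) (nat_lit 331)))) (XT.nd (nat_lit 156) (nat_lit 380) (nat_lit 0) (XT.nd (nat_lit 78) (nat_lit 380) (nat_lit 0) (XT.lf (nat_lit 0) (nat_lit 180116468) (nat_lit 456) (nat_lit 6000236343) (nat_lit 76) (nat_lit 3876104729) (nat_lit 132) (nat_lit 5) (nat_lit 138) (nat_lit 5) (nat_lit 133) (nat_lit 5) (nat_lit 460) (nat_lit 350) (nat_lit 330)) (XT.lf (nat_lit 0) (nat_lit 812134346) (nat_lit 380) (nat_lit 2981823041) (nat_lit 456) (nat_lit 6369870014) (nat_lit 127) (nat_lit 5) (nat_lit 132) (nat_lit 5) (nat_lit 133) (nat_lit 5) (nat_lit 461) (nat_lit 350) (nat_lit 329))) (XT.nd (nat_lit 78) (nat_lit 380) (nat_lit 0) (XT.lf (nat_lit 0) (nat_lit 7470269728) (nat_lit 456) (nat_lit 2511853535) (nat_lit 76) (nat_lit 291440010) (nat_lit 127) (nat_lit 5) (nat_lit 133) (nat_lit 5) (nat_lit 128) (nat_lit 4) (nat_lit 462) (nat_lit 350) (nat_lit 328)) (XT.lf (nat_lit 0) (nat_lit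 820971815) (nat_lit 380) (nat_lit 5965653033) (nat_lit 76) (nat_lit 3598836202) (nat_lit 122) (nat_lit 5) (nat_lit 127) (nat_lit 5) (nat_lit 123) (nat_lit 5) (nat_lit 463) (nat_lit 350) (nat_lit 327))))) (XT.nd (nat_lit 234) (nat_lit 684) (nat_lit 0) (XT.nd (nat_lit 78) (nat_lit 380) (nat_lit 0) (XT.lf (nat_lit 0) (nat_lit 940607152) (nat_lit 380) (nat_lit 3511696904) (nat_lit 456) (nat_lit 6047500985) (nat_lit 117) (nat_lit 5) (nat_lit 122) (nat_lit 5) (nat_lit 123) (nat_lit 5) (nat_lit 464) (nat_lit 350) (nat_lit 326)) (XT.nd (nat_lit 78) (nat_lit 380) (nat_lit 0) (XT.lf (nat_lit 0) (nat_lit 7988426766) (nat_lit 380) (nat_lit 157374003) (nat_lit 456) (nat_lit 2470865180) (nat_lit 117) (nat_lit 5) (nat_lit 122) (nat_lit 5) (nat_lit 123) (nat_lit 5) (nat_lit 465) (nat_lit 350) (nat_lit 325)) (XT.lf (nat_lit 0) (nat_lit 1161934310) (nat_lit 380) (nat_lit 6342411633) (nat_lit 76) (nat_lit 3231383810) (nat_lit 112)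 (nat_lit 5) (nat_lit 117) (nat_lit 5) (nat_lit 113) (nat_lit 5) (nat_lit 466) (nat_lit 350) (nat_lit 324)))) (XT.nd (nat_lit 156) (nat_lit 380) (nat_lit 0) (XT.nd (nat_lit 78) (nat_lit 0) (nat_lit 0) (XT.lf (nat_lit 0) (nat_lit 648163815) (nat_lit 304) (nat_lit 4159633456) (nat_lit 380) (nat_lit 6049600662) (nat_lit 108) (nat_lit 5) (nat_lit 112) (nat_lit 5) (nat_lit 113) (nat_lit 5) (nat_lit 467) (nat_lit 350) (nat_lit 323)) (XT.lf (nat_lit 0) (nat_lit 7788104361) (nat_lit 304) (nat_lit 731966560) (nat_lit 380) (nat_lit 2461577896) (nat_lit 108) (nat_lit 5) (nat_lit 112) (nat_lit 5) (nat_lit 113) (nat_lit 5) (nat_lit 468) (nat_lit 350) (nat_lit 322))) (XT.nd (nat_lit 78) (nat_lit 0) (nat_lit 0) (XT.lf (nat_lit 0) (nat_lit 1177560149) (nat_lit 380) (nat_lit 7196050405) (nat_lit 76) (nat_lit 2734735647) (nat_lit 103) (nat_lit 5) (nat_lit 108) (nat_lit 5) (nat_lit 104) (nat_lit 5) (nat_lit 469) (nat_lit 350) (nat_lit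 321)) (XT.lf (nat_lit 0) (nat_lit 4834814794) (nat_lit 380) (nat_lit 130785707) (nat_lit 76) (nat_lit 6272103825) (nat_lit 103) (nat_lit 5) (nat_lit 108) (nat_lit 5) (nat_lit 104) (nat_lit 5) (nat_lit 470) (nat_lit 350) (nat_lit 320)))))) (XT.nd (nat_lit 546) (nat_lit 1064) (nat_lit 0) (XT.nd (nat_lit 234) (nat_lit 912) (nat_lit 0) (XT.nd (nat_lit 78) (nat_lit 304) (nat_lit 0) (XT.lf (nat_lit 0) (nat_lit 7094429247) (nat_lit 304) (nat_lit 1469635073) (nat_lit 380) (nat_lit 2805626046) (nat_lit 99) (nat_lit 5) (nat_lit 103) (nat_lit 5) (nat_lit 104) (nat_lit 5) (nat_lit 471) (nat_lit 350) (nat_lit 319)) (XT.nd (nat_lit 78) (nat_lit 0) (nat_lit 0) (XT.lf (nat_lit 0) (nat_lit 838604570) (nat_lit 304) (nat_lit 8598616710) (nat_lit 76) (nat_lit 2067272805) (nat_lit 95) (nat_lit 5) (nat_lit 99) (nat_lit 5) (nat_lit 96) (nat_lit 5) (nat_lit 472) (nat_lit 350) (nat_lit 318)) (XT.lf (nat_lit 0) (nat_lit 4509971080) (nat_lit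 304) (nat_lit 1456166599) (nat_lit 76) (nat_lit 5675665648) (nat_lit 95) (nat_lit 5) (nat_lit 99) (nat_lit 5) (nat_lit 96) (nat_lit 5) (nat_lit 473) (nat_lit 350) (nat_lit 317)))) (XT.nd (nat_lit 156) (nat_lit 304) (nat_lit 0) (XT.nd (nat_lit 78) (nat_lit 304) (nat_lit 0) (XT.lf (nat_lit 0) (nat_lit 5832256498) (nat_lit 304) (nat_lit 2414465071) (nat_lit 380) (nat_lit 3535314447) (nat_lit 91) (nat_lit 5) (nat_lit 95) (nat_lit 5) (nat_lit 96) (nat_lit 5) (nat_lit 474) (nat_lit 350) (nat_lit 316)) (XT.lf (nat_lit 0) (nat_lit 111681664) (nat_lit 304) (nat_lit 10629440784) (nat_lit 76) (nat_lit 1184343500) (nat_lit 87) (nat_lit 5) (nat_lit 91) (nat_lit 5) (nat_lit 88) (nat_lit 5) (nat_lit 475) (nat_lit 350) (nat_lit 315))) (XT.nd (nat_lit 78) (nat_lit 304) (nat_lit 0) (XT.lf (nat_lit 0) (nat_lit 3794948571) (nat_lit 304) (nat_lit 3417004816) (nat_lit 76) (nat_lit 4859145799) (nat_lit 87) (nat_lit 5) (nat_lit 91) (nat_lit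 5) (nat_lit 88) (nat_lit 5) (nat_lit 476) (nat_lit 350) (nat_lit 314)) (XT.lf (nat_lit 0) (nat_lit 3918752759) (nat_lit 304) (nat_lit 3613908535) (nat_lit 380) (nat_lit 4687383331) (nat_lit 83) (nat_lit 5) (nat_lit 87) (nat_lit 5) (nat_lit 88) (nat_lit 5) (nat_lit 477) (nat_lit 350) (nat_lit 313))))) (XT.nd (nat_lit 234) (nat_lit 532) (nat_lit 0) (XT.nd (nat_lit 78) (nat_lit 532) (nat_lit 0) (XT.lf (nat_lit 0) (nat_lit 11324141696) (nat_lit 380) (nat_lit 997049783) (nat_lit 76) (nat_lit 51212075) (nat_lit 83) (nat_lit 5) (nat_lit 88) (nat_lit 5) (nat_lit 84) (nat_lit 4) (nat_lit 478) (nat_lit 350) (nat_lit 312)) (XT.nd (nat_lit 78) (nat_lit 228) (nat_lit 0) (XT.lf (nat_lit 0) (nat_lit 2651042669) (nat_lit 304) (nat_lit 6102124482) (nat_lit 76) (nat_lit 3773864206) (nat_lit 79) (nat_lit 5) (nat_lit 83) (nat_lit 5) (nat_lit 80) (nat_lit 5) (nat_lit 479) (nat_lit 350) (nat_lit 311)) (XT.lf (nat_lit 0) (nat_lit 1262503647)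 (nat_lit 228) (nat_lit 5119272572) (nat_lit 304) (nat_lit 6303421327) (nat_lit 76) (nat_lit 5) (nat_lit 79) (nat_lit 5) (nat_lit 80) (nat_lit 5) (nat_lit 480) (nat_lit 350) (nat_lit 310)))) (XT.nd (nat_lit 156) (nat_lit 228) (nat_lit 0) (XT.nd (nat_lit 78) (nat_lit 304) (nat_lit 0) (XT.lf (nat_lit 0) (nat_lit 8786341200) (nat_lit 228) (nat_lit 1398658296) (nat_lit 304) (nat_lit 2661583781) (nat_lit 76) (nat_lit 5) (nat_lit 79) (nat_lit 5) (nat_lit 80) (nat_lit 5) (nat_lit 481) (nat_lit 350) (nat_lit 309)) (XT.lf (nat_lit 0) (nat_lit 1034518344) (nat_lit 304) (nat_lit 9609599705) (nat_lit 76) (nat_lit 2367050325) (nat_lit 72) (nat_lit 5) (nat_lit 76) (nat_lit 5) (nat_lit 73) (nat_lit 5) (nat_lit 482) (nat_lit 350) (nat_lit 308))) (XT.nd (nat_lit 78) (nat_lit 228) (nat_lit 0) (XT.lf (nat_lit 0) (nat_lit 4763309393) (nat_lit 304) (nat_lit 2208122962) (nat_lit 76) (nat_lit 6207385773) (nat_lit 72) (nat_lit 5) (nat_lit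 76) (nat_lit 5) (nat_lit 73) (nat_lit 5) (nat_lit 483) (nat_lit 350) (nat_lit 307)) (XT.lf (nat_lit 0) (nat_lit 5342622834) (nat_lit 228) (nat_lit 3217253766) (nat_lit 304) (nat_lit 4790092948) (nat_lit 69) (nat_lit 5) (nat_lit 72) (nat_lit 5) (nat_lit 73) (nat_lit 5) (nat_lit 484) (nat_lit 350) (nat_lit 306))))))) (XT.nd (nat_lit 1092) (nat_lit 1368) (nat_lit 0) (XT.nd (nat_lit 546) (nat_lit 684) (nat_lit 0) (XT.nd (nat_lit 234) (nat_lit 456) (nat_lit 0) (XT.nd (nat_lit 78) (nat_lit 532) (nat_lit 0) (XT.lf (nat_lit 0) (nat_lit 12409969546) (nat_lit 304) (nat_lit 523039012) (nat_lit 76) (nat_lit 591995974) (nat_lit 69) (nat_lit 5) (nat_lit 73) (nat_lit 5) (nat_lit 70) (nat_lit 4) (nat_lit 485) (nat_lit 350) (nat_lit 305)) (XT.nd (nat_lit 78) (nat_lit 228) (nat_lit 0) (XT.lf (nat_lit 0) (nat_lit 2626170104) (nat_lit 304) (nat_lit 6605003978) (nat_lit 76) (nat_lit 4471492403) (nat_lit 65) (nat_lit 5) (nat_lit 69)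 (nat_lit 5) (nat_lit 66) (nat_lit 5) (nat_lit 486) (nat_lit 350) (nat_lit 304)) (XT.lf (nat_lit 0) (nat_lit 931075458) (nat_lit 228) (nat_lit 5465380237) (nat_lit 304) (nat_lit 7487906548) (nat_lit 62) (nat_lit 5) (nat_lit 65) (nat_lit 5) (nat_lit 66) (nat_lit 5) (nat_lit 487) (nat_lit 350) (nat_lit 303)))) (XT.nd (nat_lit 156) (nat_lit 304) (nat_lit 0) (XT.nd (nat_lit 78) (nat_lit 152) (nat_lit 0) (XT.lf (nat_lit 0) (nat_lit 8640070313) (nat_lit 228) (nat_lit 1606349288) (nat_lit 304) (nat_lit 3823198344) (nat_lit 62) (nat_lit 5) (nat_lit 65) (nat_lit 5) (nat_lit 66) (nat_lit 5) (nat_lit 488) (nat_lit 350) (nat_lit 302)) (XT.lf (nat_lit 0) (nat_lit 2191641839) (nat_lit 152) (nat_lit 11971658700) (nat_lit 228) (nat_lit 95491120) (nat_lit 60) (nat_lit 5) (nat_lit 62) (nat_lit 5) (nat_lit 63) (nat_lit 4) (nat_lit 489) (nat_lit 350) (nat_lit 301))) (XT.nd (nat_lit 78) (nat_lit 228) (nat_lit 0) (XT.lf (nat_lit 0) (nat_lit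 3666104610) (nat_lit 228) (nat_lit 4513849034) (nat_lit 76) (nat_lit 6271165698) (nat_lit 59) (nat_lit 5) (nat_lit 62) (nat_lit 5) (nat_lit 60) (nat_lit 5) (nat_lit 490) (nat_lit 350) (nat_lit 300)) (XT.lf (nat_lit 0) (nat_lit 3165979572) (nat_lit 228) (nat_lit 4317637589) (nat_lit 304) (nat_lit 7164035129) (nat_lit 56) (nat_lit 5) (nat_lit 59) (nat_lit 5) (nat_lit 60) (nat_lit 5) (nat_lit 491) (nat_lit 350) (nat_lit 299))))) (XT.nd (nat_lit 234) (nat_lit 456) (nat_lit 0) (XT.nd (nat_lit 78) (nat_lit 228) (nat_lit 0) (XT.lf (nat_lit 0) (nat_lit 10995593415) (nat_lit 228) (nat_lit 373918270) (nat_lit 304) (nat_lit 3478773973) (nat_lit 56) (nat_lit 5) (nat_lit 59) (nat_lit 5) (nat_lit 60) (nat_lit 5) (nat_lit 492) (nat_lit 350) (nat_lit 298)) (XT.nd (nat_lit 78) (nat_lit 0) (nat_lit 0) (XT.lf (nat_lit 0) (nat_lit 287862125) (nat_lit 228) (nat_lit 11162702269) (nat_lit 76) (nat_lit 3602114021) (nat_lit 53) (nat_lit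 5) (nat_lit 56) (nat_lit 5) (nat_lit 54) (nat_lit 5) (nat_lit 493) (nat_lit 350) (nat_lit 297)) (XT.lf (nat_lit 0) (nat_lit 4074182911) (nat_lit 228) (nat_lit 3511005490) (nat_lit 76) (nat_lit 7675701873) (nat_lit 53) (nat_lit 5) (nat_lit 56) (nat_lit 5) (nat_lit 54) (nat_lit 5) (nat_lit 494) (nat_lit 350) (nat_lit 296)))) (XT.nd (nat_lit 156) (nat_lit 228) (nat_lit 0) (XT.nd (nat_lit 78) (nat_lit 0) (nat_lit 0) (XT.lf (nat_lit 0) (nat_lit 4286810294) (nat_lit 228) (nat_lit 3640378240) (nat_lit 304) (nat_lit 7546268273) (nat_lit 50) (nat_lit 5) (nat_lit 53) (nat_lit 5) (nat_lit 54) (nat_lit 5) (nat_lit 495) (nat_lit 350) (nat_lit 295)) (XT.lf (nat_lit 0) (nat_lit 11846731350) (nat_lit 304) (nat_lit 3467565874) (nat_lit 76) (nat_lit 376197323) (nat_lit 50) (nat_lit 5) (nat_lit 54) (nat_lit 5) (nat_lit 51) (nat_lit 4) (nat_lit 496) (nat_lit 350) (nat_lit 294))) (XT.nd (nat_lit 78) (nat_lit 76) (nat_lit 0) (XT.lf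 (nat_lit 0) (nat_lit 4377143404) (nat_lit 152) (nat_lit 11484041098) (nat_lit 228) (nat_lit 50367382) (nat_lit 48) (nat_lit 5) (nat_lit 50) (nat_lit 5) (nat_lit 51) (nat_lit 4) (nat_lit 497) (nat_lit 350) (nat_lit 293)) (XT.lf (nat_lit 0) (nat_lit 3756286271) (nat_lit 228) (nat_lit 3797893157) (nat_lit 76) (nat_lit 8582614410) (nat_lit 47) (nat_lit 5) (nat_lit 50) (nat_lit 5) (nat_lit 48) (nat_lit 5) (nat_lit 498) (nat_lit 350) (nat_lit 292)))))) (XT.nd (nat_lit 546) (nat_lit 608) (nat_lit 0) (XT.nd (nat_lit 234) (nat_lit 380) (nat_lit 0) (XT.nd (nat_lit 78) (nat_lit 152) (nat_lit 0) (XT.lf (nat_lit 0) (nat_lit 4085691832) (nat_lit 228) (nat_lit 3543991399) (nat_lit 304) (nat_lit 8737033746) (nat_lit 44) (nat_lit 5) (nat_lit 47) (nat_lit 5) (nat_lit 48) (nat_lit 5) (nat_lit 499) (nat_lit 350) (nat_lit 291)) (XT.nd (nat_lit 78) (nat_lit 152) (nat_lit 0) (XT.lf (nat_lit 0) (nat_lit 11574639539) (nat_lit 304) (nat_lit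 4487067642) (nat_lit 76) (nat_lit 539658101) (nat_lit 44) (nat_lit 5) (nat_lit 48) (nat_lit 5) (nat_lit 45) (nat_lit 4) (nat_lit 500) (nat_lit 350) (nat_lit 290)) (XT.lf (nat_lit 0) (nat_lit 3424354637) (nat_lit 152) (nat_lit 12185421278) (nat_lit 228) (nat_lit 1230713380) (nat_lit 42) (nat_lit 5) (nat_lit 44) (nat_lit 5) (nat_lit 45) (nat_lit 4) (nat_lit 501) (nat_lit 350) (nat_lit 289)))) (XT.nd (nat_lit 156) (nat_lit 152) (nat_lit 0) (XT.nd (nat_lit 78) (nat_lit 152) (nat_lit 0) (XT.lf (nat_lit 0) (nat_lit 2602521522) (nat_lit 228) (nat_lit 5606239028) (nat_lit 76) (nat_lit 8875381458) (nat_lit 41) (nat_lit 5) (nat_lit 44) (nat_lit 5) (nat_lit 42) (nat_lit 5) (nat_lit 502) (nat_lit 350) (nat_lit 288)) (XT.lf (nat_lit 0) (nat_lit 2323425015) (nat_lit 152) (nat_lit 4153923715) (nat_lit 228) (nat_lit 10855536087) (nat_lit 39) (nat_lit 5) (nat_lit 41) (nat_lit 5) (nat_lit 42) (nat_lit 5) (nat_lit 503) (nat_lit 350)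 (nat_lit 287))) (XT.nd (nat_lit 78) (nat_lit 152) (nat_lit 0) (XT.lf (nat_lit 0) (nat_lit 10429311690) (nat_lit 152) (nat_lit 4569566) (nat_lit 228) (nat_lit 7152644776) (nat_lit 39) (nat_lit 5) (nat_lit 41) (nat_lit 5) (nat_lit 42) (nat_lit 5) (nat_lit 504) (nat_lit 350) (nat_lit 286)) (XT.lf (nat_lit 0) (nat_lit 777094088) (nat_lit 152) (nat_lit 13692029518) (nat_lit 228) (nat_lit 3376132456) (nat_lit 37) (nat_lit 5) (nat_lit 39) (nat_lit 5) (nat_lit 40) (nat_lit 4) (nat_lit 505) (nat_lit 350) (nat_lit 285))))) (XT.nd (nat_lit 312) (nat_lit 380) (nat_lit 0) (XT.nd (nat_lit 156) (nat_lit 152) (nat_lit 0) (XT.nd (nat_lit 78) (nat_lit 0) (nat_lit 0) (XT.lf (nat_lit 0) (nat_lit 485179319) (nat_lit 228) (nat_lit 9202320223) (nat_lit 76) (nat_lit 8421296414) (nat_lit 36) (nat_lit 5) (nat_lit 39) (nat_lit 5) (nat_lit 37) (nat_lit 5) (nat_lit 506) (nat_lit 350) (nat_lit 284)) (XT.lf (nat_lit 0) (nat_lit 4346331458) (nat_lit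 228) (nat_lit 1258175480) (nat_lit 76) (nat_lit 12773304112) (nat_lit 36) (nat_lit 5) (nat_lit 39) (nat_lit 5) (nat_lit 37) (nat_lit 5) (nat_lit 507) (nat_lit 350) (nat_lit 283))) (XT.nd (nat_lit 78) (nat_lit 0) (nat_lit 0) (XT.lf (nat_lit 0) (nat_lit 6879534022) (nat_lit 152) (nat_lit 1418249198) (nat_lit 228) (nat_lit 10354168692) (nat_lit 34) (nat_lit 5) (nat_lit 36) (nat_lit 5) (nat_lit 37) (nat_lit 5) (nat_lit 508) (nat_lit 350) (nat_lit 282)) (XT.lf (nat_lit 0) (nat_lit 12323794678) (nat_lit 228) (nat_lit 3808582997) (nat_lit 76) (nat_lit 2799294161) (nat_lit 34) (nat_lit 5) (nat_lit 37) (nat_lit 5) (nat_lit 35) (nat_lit 4) (nat_lit 509) (nat_lit 350) (nat_lit 281)))) (XT.nd (nat_lit 156) (nat_lit 152) (nat_lit 0) (XT.nd (nat_lit 78) (nat_lit 76) (nat_lit 0) (XT.lf (nat_lit 0) (nat_lit 4307057756) (nat_lit 152) (nat_lit 12129758970) (nat_lit 228) (nat_lit 2780046350) (nat_lit 32) (nat_lit 5) (nat_lit 34)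 (nat_lit 5) (nat_lit 35) (nat_lit 4) (nat_lit 510) (nat_lit 350) (nat_lit 280)) (XT.lf (nat_lit 0) (nat_lit 1104499726) (nat_lit 228) (nat_lit 6932701927) (nat_lit 76) (nat_lit 11470518863) (nat_lit 31) (nat_lit 5) (nat_lit 34) (nat_lit 5) (nat_lit 32) (nat_lit 5) (nat_lit 511) (nat_lit 350) (nat_lit 279))) (XT.nd (nat_lit 78) (nat_lit 0) (nat_lit 0) (XT.lf (nat_lit 0) (nat_lit 1147023719) (nat_lit 152) (nat_lit 3859752315) (nat_lit 228) (nat_lit 14797712602) (nat_lit 29) (nat_lit 5) (nat_lit 31) (nat_lit 5) (nat_lit 32) (nat_lit 5) (nat_lit 512) (nat_lit 350) (nat_lit 278)) (XT.lf (nat_lit 0) (nat_lit 9006411569) (nat_lit 228) (nat_lit 10680511276) (nat_lit 76) (nat_lit 419889213) (nat_lit 29) (nat_lit 5) (nat_lit 32) (nat_lit 5) (nat_lit 30) (nat_lit 4) (nat_lit 513) (nat_lit 350) (nat_lit 277))))))))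
noncomputable def xc39 : XT := (XT.nd (nat_lit 54132) (nat_lit 0) (nat_lit 5700) (XT.nd (nat_lit 1092) (nat_lit 304) (nat_lit 0) (XT.nd (nat_lit 546) (nat_lit 304) (nat_lit 0) (XT.nd (nat_lit 234) (nat_lit 228) (nat_lit 0) (XT.nd (nat_lit 78) (nat_lit 152) (nat_lit 0) (XT.lf (nat_lit 0) (nat_lit 13082070081) (nat_lit 228) (nat_lit 2622182607) (nat_lit 76) (nat_lit 4711014745) (nat_lit 29) (nat_lit 5) (nat_lit 32) (nat_lit 5) (nat_lit 30) (nat_lit 4) (nat_lit 514) (nat_lit 350) (nat_lit 276)) (XT.nd (nat_lit 78) (nat_lit 76) (nat_lit 0) (XT.lf (nat_lit 0) (nat_lit 5619441273) (nat_lit 76) (nat_lit 11627333664) (nat_lit 152) (nat_lit 3482972290) (nat_lit 28) (nat_lit 5) (nat_lit 29) (nat_lit 5) (nat_lit 30) (nat_lit 4) (nat_lit 515) (nat_lit 350) (nat_lit 275)) (XT.lf (nat_lit 0) (nat_lit 427230646) (nat_lit 152) (nat_lit 7043345664) (nat_lit 76) (nat_lit 13580112357) (nat_lit 27) (nat_lit 5) (nat_lit 29) (nat_lit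 5) (nat_lit 28) (nat_lit 5) (nat_lit 516) (nat_lit 350) (nat_lit 274)))) (XT.nd (nat_lit 156) (nat_lit 76) (nat_lit 0) (XT.nd (nat_lit 78) (nat_lit 0) (nat_lit 0) (XT.lf (nat_lit 0) (nat_lit 1126046248) (nat_lit 152) (nat_lit 3221963077) (nat_lit 228) (nat_lit 17030004618) (nat_lit 25) (nat_lit 5) (nat_lit 27) (nat_lit 5) (nat_lit 28) (nat_lit 5) (nat_lit 517) (nat_lit 350) (nat_lit 273)) (XT.lf (nat_lit 0) (nat_lit 8373738077) (nat_lit 228) (nat_lit 12214871280) (nat_lit 76) (nat_lit 1122751194) (nat_lit 25) (nat_lit 5) (nat_lit 28) (nat_lit 5) (nat_lit 26) (nat_lit 4) (nat_lit 518) (nat_lit 350) (nat_lit 272))) (XT.nd (nat_lit 78) (nat_lit 76) (nat_lit 0) (XT.lf (nat_lit 0) (nat_lit 12473612575) (nat_lit 228) (nat_lit 4088077155) (nat_lit 76) (nat_lit 5489817147) (nat_lit 25) (nat_lit 5) (nat_lit 28) (nat_lit 5) (nat_lit 26) (nat_lit 4) (nat_lit 519) (nat_lit 350) (nat_lit 271)) (XT.lf (nat_lit 0) (nat_lit 4207705594)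 (nat_lit 76) (nat_lit 12447935115) (nat_lit 152) (nat_lit 5742817601) (nat_lit 24) (nat_lit 5) (nat_lit 25) (nat_lit 5) (nat_lit 26) (nat_lit 4) (nat_lit 520) (nat_lit 350) (nat_lit 270))))) (XT.nd (nat_lit 234) (nat_lit 76) (nat_lit 0) (XT.nd (nat_lit 78) (nat_lit 228) (nat_lit 0) (XT.lf (nat_lit 0) (nat_lit 12676407492) (nat_lit 76) (nat_lit 8245390281) (nat_lit 152) (nat_lit 1830546429) (nat_lit 24) (nat_lit 5) (nat_lit 25) (nat_lit 5) (nat_lit 26) (nat_lit 4) (nat_lit 521) (nat_lit 350) (nat_lit 269)) (XT.nd (nat_lit 78) (nat_lit 152) (nat_lit 0) (XT.lf (nat_lit 0) (nat_lit 2105045344) (nat_lit 152) (nat_lit 1860669015) (nat_lit 76) (nat_lit 19147849899) (nat_lit 23) (nat_lit 5) (nat_lit 25) (nat_lit 5) (nat_lit 24) (nat_lit 5) (nat_lit 522) (nat_lit 350) (nat_lit 268)) (XT.lf (nat_lit 0) (nat_lit 6114106065) (nat_lit 228) (nat_lit 16938516641) (nat_lit 76) (nat_lit 428763548) (nat_lit 21) (nat_lit 5) (nat_lit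 24) (nat_lit 5) (nat_lit 22) (nat_lit 4) (nat_lit 523) (nat_lit 350) (nat_lit 267)))) (XT.nd (nat_lit 156) (nat_lit 76) (nat_lit 0) (XT.nd (nat_lit 78) (nat_lit 0) (nat_lit 0) (XT.lf (nat_lit 0) (nat_lit 10216179267) (nat_lit 228) (nat_lit 8789922035) (nat_lit 76) (nat_lit 4850211565) (nat_lit 21) (nat_lit 5) (nat_lit 24) (nat_lit 5) (nat_lit 22) (nat_lit 4) (nat_lit 524) (nat_lit 350) (nat_lit 266)) (XT.lf (nat_lit 0) (nat_lit 14374803248) (nat_lit 228) (nat_lit 524396950) (nat_lit 76) (nat_lit 9340052337) (nat_lit 21) (nat_lit 5) (nat_lit 24) (nat_lit 5) (nat_lit 22) (nat_lit 4) (nat_lit 525) (nat_lit 350) (nat_lit 265))) (XT.nd (nat_lit 78) (nat_lit 0) (nat_lit 0) (XT.lf (nat_lit 0) (nat_lit 7965772533) (nat_lit 76) (nat_lit 10677555384) (nat_lit 152) (nat_lit 5985993132) (nat_lit 20) (nat_lit 5) (nat_lit 21) (nat_lit 5) (nat_lit 22) (nat_lit 4) (nat_lit 526) (nat_lit 350) (nat_lit 264)) (XT.lf (nat_lit 0) (nat_lit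 16588012070) (nat_lit 76) (nat_lit 6387937996) (nat_lit 152) (nat_lit 2051670853) (nat_lit 20) (nat_lit 5) (nat_lit 21) (nat_lit 5) (nat_lit 22) (nat_lit 4) (nat_lit 527) (nat_lit 350) (nat_lit 263)))))) (XT.nd (nat_lit 52494) (nat_lit 0) (nat_lit 13604) (XT.nd (nat_lit 234) (nat_lit 76) (nat_lit 0) (XT.nd (nat_lit 78) (nat_lit 152) (nat_lit 0) (XT.lf (nat_lit 0) (nat_lit 1911143350) (nat_lit 152) (nat_lit 108216683) (nat_lit 76) (nat_lit 23414765841) (nat_lit 19) (nat_lit 5) (nat_lit 21) (nat_lit 5) (nat_lit 20) (nat_lit 5) (nat_lit 528) (nat_lit 350) (nat_lit 262)) (XT.nd (nat_lit 78) (nat_lit 0) (nat_lit 0) (XT.lf (nat_lit 0) (nat_lit 5972744080) (nat_lit 228) (nat_lit 17420492670) (nat_lit 76) (nat_lit 2454317171) (nat_lit 17) (nat_lit 5) (nat_lit 20) (nat_lit 5) (nat_lit 18) (nat_lit 4) (nat_lit 529) (nat_lit 350) (nat_lit 261)) (XT.lf (nat_lit 0) (nat_lit 10105754469) (nat_lit 228) (nat_lit 9191594899) (nat_lit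 76) (nat_lit 6972101789) (nat_lit 17) (nat_lit 5) (nat_lit 20) (nat_lit 5) (nat_lit 18) (nat_lit 4) (nat_lit 530) (nat_lit 350) (nat_lit 260)))) (XT.nd (nat_lit 52104) (nat_lit 0) (nat_lit 16492) (XT.nd (nat_lit 78) (nat_lit 76) (nat_lit 0) (XT.lf (nat_lit 0) (nat_lit 14297967614) (nat_lit 228) (nat_lit 840758870) (nat_lit 76) (nat_lit 11561533102) (nat_lit 17) (nat_lit 5) (nat_lit 20) (nat_lit 5) (nat_lit 18) (nat_lit 4) (nat_lit 531) (nat_lit 350) (nat_lit 259)) (XT.lf (nat_lit 0) (nat_lit 7736759242) (nat_lit 76) (nat_lit 10864500451) (nat_lit 152) (nat_lit 8537883816) (nat_lit 16) (nat_lit 5) (nat_lit 17) (nat_lit 5) (nat_lit 18) (nat_lit 4) (nat_lit 532) (nat_lit 350) (nat_lit 258))) (XT.nd (nat_lit 78) (nat_lit 608) (nat_lit 0) (XT.lf (nat_lit 0) (nat_lit 1333630315) (nat_lit 684) (nat_lit 1437004024) (nat_lit 0) (nat_lit 1333630315) (nat_lit 241) (nat_lit 5) (nat_lit 250) (nat_lit 4) (nat_lit 241) (nat_lit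 4) (nat_lit 438) (nat_lit 351) (nat_lit 351)) (XT.lf (nat_lit 0) (nat_lit 3199561609) (nat_lit 608) (nat_lit 3121055164) (nat_lit 608) (nat_lit 1953128110) (nat_lit 233) (nat_lit 4) (nat_lit 241) (nat_lit 5) (nat_lit 241) (nat_lit 4) (nat_lit 439) (nat_lit 351) (nat_lit 350))))) (XT.nd (nat_lit 234) (nat_lit 1596) (nat_lit 0) (XT.nd (nat_lit 78) (nat_lit 684) (nat_lit 0) (XT.lf (nat_lit 0) (nat_lit 1014510448) (nat_lit 532) (nat_lit 632748969) (nat_lit 608) (nat_lit 6693566314) (nat_lit 225) (nat_lit 5) (nat_lit 232) (nat_lit 5) (nat_lit 233) (nat_lit 4) (nat_lit 440) (nat_lit 351) (nat_lit 349)) (XT.nd (nat_lit 78) (nat_lit 684) (nat_lit 0) (XT.lf (nat_lit 0) (nat_lit 5277636232) (nat_lit 608) (nat_lit 1222239330) (nat_lit 0) (nat_lit 1909470938) (nat_lit 225) (nat_lit 5) (nat_lit 233) (nat_lit 4) (nat_lit 225) (nat_lit 4) (nat_lit 441) (nat_lit 351) (nat_lit 348)) (XT.lf (nat_lit 0) (nat_lit 469849515) (nat_lit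 684) (nat_lit 3498053338) (nat_lit 76) (nat_lit 4511806541) (nat_lit 216) (nat_lit 5) (nat_lit 225) (nat_lit 5) (nat_lit 217) (nat_lit 4) (nat_lit 442) (nat_lit 351) (nat_lit 347)))) (XT.nd (nat_lit 156) (nat_lit 532) (nat_lit 0) (XT.nd (nat_lit 78) (nat_lit 532) (nat_lit 0) (XT.lf (nat_lit 0) (nat_lit 2709000917) (nat_lit 532) (nat_lit 1357324722) (nat_lit 608) (nat_lit 4485480446) (nat_lit 209) (nat_lit 5) (nat_lit 216) (nat_lit 5) (nat_lit 217) (nat_lit 4) (nat_lit 443) (nat_lit 351) (nat_lit 346)) (XT.lf (nat_lit 0) (nat_lit 377861052) (nat_lit 532) (nat_lit 7330912971) (nat_lit 532) (nat_lit 917126033) (nat_lit 202) (nat_lit 4) (nat_lit 209) (nat_lit 5) (nat_lit 209) (nat_lit 4) (nat_lit 444) (nat_lit 351) (nat_lit 345))) (XT.nd (nat_lit 78) (nat_lit 456) (nat_lit 0) (XT.lf (nat_lit 0) (nat_lit 2675060667) (nat_lit 608) (nat_lit 2006978883) (nat_lit 76) (nat_lit 4019354164) (nat_lit 201) (nat_lit 5) (nat_lit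 209) (nat_lit 5) (nat_lit 202) (nat_lit 4) (nat_lit 445) (nat_lit 351) (nat_lit 344)) (XT.lf (nat_lit 0) (nat_lit 4329708723) (nat_lit 456) (nat_lit 1966122596) (nat_lit 532) (nat_lit 2483098383) (nat_lit 195) (nat_lit 5) (nat_lit 201) (nat_lit 5) (nat_lit 202) (nat_lit 4) (nat_lit 446) (nat_lit 351) (nat_lit 343))))))) (XT.nd (nat_lit 1092) (nat_lit 3116) (nat_lit 0) (XT.nd (nat_lit 546) (nat_lit 2204) (nat_lit 0) (XT.nd (nat_lit 234) (nat_lit 1520) (nat_lit 0) (XT.nd (nat_lit 78) (nat_lit 456) (nat_lit 0) (XT.lf (nat_lit 0) (nat_lit 1088483631) (nat_lit 608) (nat_lit 6963986119) (nat_lit 76) (nat_lit 805986267) (nat_lit 187) (nat_lit 5) (nat_lit 195) (nat_lit 5) (nat_lit 188) (nat_lit 4) (nat_lit 447) (nat_lit 351) (nat_lit 342)) (XT.nd (nat_lit 78) (nat_lit 456) (nat_lit 0) (XT.lf (nat_lit 0) (nat_lit 4682973881) (nat_lit 608) (nat_lit 624018326) (nat_lit 76) (nat_lit 3632590026) (nat_lit 187) (nat_lit 5) (nat_lit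 195) (nat_lit 5) (nat_lit 188) (nat_lit 4) (nat_lit 448) (nat_lit 351) (nat_lit 341)) (XT.lf (nat_lit 0) (nat_lit 5840202174) (nat_lit 456) (nat_lit 2489834132) (nat_lit 532) (nat_lit 692712533) (nat_lit 181) (nat_lit 5) (nat_lit 187) (nat_lit 5) (nat_lit 188) (nat_lit 4) (nat_lit 449) (nat_lit 351) (nat_lit 340)))) (XT.nd (nat_lit 156) (nat_lit 532) (nat_lit 0) (XT.nd (nat_lit 78) (nat_lit 456) (nat_lit 0) (XT.lf (nat_lit 0) (nat_lit 2874987219) (nat_lit 532) (nat_lit 5831362984) (nat_lit 76) (nat_lit 401454441) (nat_lit 174) (nat_lit 5) (nat_lit 181) (nat_lit 5) (nat_lit 175) (nat_lit 4) (nat_lit 450) (nat_lit 351) (nat_lit 339)) (XT.lf (nat_lit 0) (nat_lit 620638093) (nat_lit 456) (nat_lit 5869583111) (nat_lit 532) (nat_lit 2704569369) (nat_lit 168) (nat_lit 5) (nat_lit 174) (nat_lit 5) (nat_lit 175) (nat_lit 4) (nat_lit 451) (nat_lit 351) (nat_lit 338))) (XT.nd (nat_lit 78) (nat_lit 456) (nat_lit 0) (XT.lf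 (nat_lit 0) (nat_lit 865531003) (nat_lit 532) (nat_lit 2088225357) (nat_lit 76) (nat_lit 6330011973) (nat_lit 167) (nat_lit 5) (nat_lit 174) (nat_lit 5) (nat_lit 168) (nat_lit 5) (nat_lit 452) (nat_lit 351) (nat_lit 337)) (XT.lf (nat_lit 0) (nat_lit 4445026841) (nat_lit 532) (nat_lit 4885196361) (nat_lit 76) (nat_lit 44488734) (nat_lit 161) (nat_lit 5) (nat_lit 168) (nat_lit 5) (nat_lit 162) (nat_lit 4) (nat_lit 453) (nat_lit 351) (nat_lit 336))))) (XT.nd (nat_lit 234) (nat_lit 1292) (nat_lit 0) (XT.nd (nat_lit 78) (nat_lit 532) (nat_lit 0) (XT.lf (nat_lit 0) (nat_lit 1683314047) (nat_lit 380) (nat_lit 6402550336) (nat_lit 456) (nat_lit 1381842430) (nat_lit 156) (nat_lit 5) (nat_lit 161) (nat_lit 5) (nat_lit 162) (nat_lit 4) (nat_lit 454) (nat_lit 351) (nat_lit 335)) (XT.nd (nat_lit 78) (nat_lit 456) (nat_lit 0) (XT.lf (nat_lit 0) (nat_lit 2185953356) (nat_lit 456) (nat_lit 1206497393) (nat_lit 76) (nat_lit 6170280043)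 (nat_lit 155) (nat_lit 5) (nat_lit 161) (nat_lit 5) (nat_lit 156) (nat_lit 5) (nat_lit 455) (nat_lit 351) (nat_lit 334)) (XT.lf (nat_lit 0) (nat_lit 5488070538) (nat_lit 456) (nat_lit 300588025) (nat_lit 532) (nat_lit 3871198737) (nat_lit 149) (nat_lit 5) (nat_lit 155) (nat_lit 5) (nat_lit 156) (nat_lit 5) (nat_lit 456) (nat_lit 351) (nat_lit 333)))) (XT.nd (nat_lit 156) (nat_lit 836) (nat_lit 0) (XT.nd (nat_lit 78) (nat_lit 76) (nat_lit 0) (XT.lf (nat_lit 0) (nat_lit 2510336177) (nat_lit 380) (nat_lit 6942854269) (nat_lit 456) (nat_lit 305965786) (nat_lit 144) (nat_lit 5) (nat_lit 149) (nat_lit 5) (nat_lit 150) (nat_lit 4) (nat_lit 457) (nat_lit 351) (nat_lit 332)) (XT.lf (nat_lit 0) (nat_lit 3264027304) (nat_lit 456) (nat_lit 579374710) (nat_lit 76) (nat_lit 6017088275) (nat_lit 143) (nat_lit 5) (nat_lit 149) (nat_lit 5) (nat_lit 144) (nat_lit 5) (nat_lit 458) (nat_lit 351) (nat_lit 331))) (XT.nd (nat_lit 78)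 (nat_lit 456) (nat_lit 0) (XT.lf (nat_lit 0) (nat_lit 6226283897) (nat_lit 380) (nat_lit 663473963) (nat_lit 456) (nat_lit 3074307913) (nat_lit 138) (nat_lit 5) (nat_lit 143) (nat_lit 5) (nat_lit 144) (nat_lit 5) (nat_lit 459) (nat_lit 351) (nat_lit 330)) (XT.lf (nat_lit 0) (nat_lit 500247049) (nat_lit 456) (nat_lit 7020915756) (nat_lit 76) (nat_lit 2548730533) (nat_lit 132) (nat_lit 5) (nat_lit 138) (nat_lit 5) (nat_lit 133) (nat_lit 5) (nat_lit 460) (nat_lit 351) (nat_lit 329)))))) (XT.nd (nat_lit 546) (nat_lit 1596) (nat_lit 0) (XT.nd (nat_lit 234) (nat_lit 760) (nat_lit 0) (XT.nd (nat_lit 78) (nat_lit 760) (nat_lit 0) (XT.lf (nat_lit 0) (nat_lit 4083330725) (nat_lit 456) (nat_lit 257509850) (nat_lit 76) (nat_lit 5837048910) (nat_lit 132) (nat_lit 5) (nat_lit 138) (nat_lit 5) (nat_lit 133) (nat_lit 5) (nat_lit 461) (nat_lit 351) (nat_lit 328)) (XT.nd (nat_lit 78) (nat_lit 380) (nat_lit 0) (XT.lf (nat_lit 0)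 (nat_lit 6652537653) (nat_lit 380) (nat_lit 1078262144) (nat_lit 456) (nat_lit 2557413349) (nat_lit 127) (nat_lit 5) (nat_lit 132) (nat_lit 5) (nat_lit 133) (nat_lit 5) (nat_lit 462) (nat_lit 351) (nat_lit 327)) (XT.lf (nat_lit 0) (nat_lit 1023940388) (nat_lit 380) (nat_lit 7152340817) (nat_lit 76) (nat_lit 2224602026) (nat_lit 122) (nat_lit 5) (nat_lit 127) (nat_lit 5) (nat_lit 123) (nat_lit 5) (nat_lit 463) (nat_lit 351) (nat_lit 326)))) (XT.nd (nat_lit 156) (nat_lit 380) (nat_lit 0) (XT.nd (nat_lit 78) (nat_lit 380) (nat_lit 0) (XT.lf (nat_lit 0) (nat_lit 4624417016) (nat_lit 380) (nat_lit 296246685) (nat_lit 76) (nat_lit 5595190927) (nat_lit 122) (nat_lit 5) (nat_lit 127) (nat_lit 5) (nat_lit 123) (nat_lit 5) (nat_lit 464) (nat_lit 351) (nat_lit 325)) (XT.lf (nat_lit 0) (nat_lit 6710055023) (nat_lit 380) (nat_lit 1581402413) (nat_lit 456) (nat_lit 2341797318) (nat_lit 117) (nat_lit 5) (nat_lit 122) (nat_lit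 5) (nat_lit 123) (nat_lit 5) (nat_lit 465) (nat_lit 351) (nat_lit 324))) (XT.nd (nat_lit 78) (nat_lit 0) (nat_lit 0) (XT.lf (nat_lit 0) (nat_lit 1246961675) (nat_lit 380) (nat_lit 7700958517) (nat_lit 76) (nat_lit 1805238262) (nat_lit 112) (nat_lit 5) (nat_lit 117) (nat_lit 5) (nat_lit 113) (nat_lit 5) (nat_lit 466) (nat_lit 351) (nat_lit 323)) (XT.lf (nat_lit 0) (nat_lit 4864571116) (nat_lit 380) (nat_lit 756219109) (nat_lit 76) (nat_lit 5254610989) (nat_lit 112) (nat_lit 5) (nat_lit 117) (nat_lit 5) (nat_lit 113) (nat_lit 5) (nat_lit 467) (nat_lit 351) (nat_lit 322))))) (XT.nd (nat_lit 312) (nat_lit 608) (nat_lit 0) (XT.nd (nat_lit 156) (nat_lit 304) (nat_lit 0) (XT.nd (nat_lit 78) (nat_lit 380) (nat_lit 0) (XT.lf (nat_lit 0) (nat_lit 6336582054) (nat_lit 304) (nat_lit 2211473039) (nat_lit 380) (nat_lit 2452182121) (nat_lit 108) (nat_lit 5) (nat_lit 112) (nat_lit 5) (nat_lit 113) (nat_lit 5) (nat_lit 468) (nat_lit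 351) (nat_lit 321)) (XT.lf (nat_lit 0) (nat_lit 1143651228) (nat_lit 380) (nat_lit 8732439145) (nat_lit 76) (nat_lit 1251715595) (nat_lit 103) (nat_lit 5) (nat_lit 108) (nat_lit 5) (nat_lit 104) (nat_lit 5) (nat_lit 469) (nat_lit 351) (nat_lit 320))) (XT.nd (nat_lit 78) (nat_lit 304) (nat_lit 0) (XT.lf (nat_lit 0) (nat_lit 4777533620) (nat_lit 380) (nat_lit 1704006008) (nat_lit 76) (nat_lit 4776100697) (nat_lit 103) (nat_lit 5) (nat_lit 108) (nat_lit 5) (nat_lit 104) (nat_lit 5) (nat_lit 470) (nat_lit 351) (nat_lit 319)) (XT.lf (nat_lit 0) (nat_lit 5463712429) (nat_lit 304) (nat_lit 3009569047) (nat_lit 380) (nat_lit 2917023534) (nat_lit 99) (nat_lit 5) (nat_lit 103) (nat_lit 5) (nat_lit 104) (nat_lit 5) (nat_lit 471) (nat_lit 351) (nat_lit 318)))) (XT.nd (nat_lit 156) (nat_lit 304) (nat_lit 0) (XT.nd (nat_lit 78) (nat_lit 0) (nat_lit 0) (XT.lf (nat_lit 0) (nat_lit 684551445) (nat_lit 304) (nat_lit 10318978695)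 (nat_lit 76) (nat_lit 522483667) (nat_lit 95) (nat_lit 5) (nat_lit 99) (nat_lit 5) (nat_lit 96) (nat_lit 5) (nat_lit 472) (nat_lit 351) (nat_lit 317)) (XT.lf (nat_lit 0) (nat_lit 4333190119) (nat_lit 304) (nat_lit 3212848935) (nat_lit 76) (nat_lit 4117746668) (nat_lit 95) (nat_lit 5) (nat_lit 99) (nat_lit 5) (nat_lit 96) (nat_lit 5) (nat_lit 473) (nat_lit 351) (nat_lit 316))) (XT.nd (nat_lit 78) (nat_lit 0) (nat_lit 0) (XT.lf (nat_lit 0) (nat_lit 4016147377) (nat_lit 304) (nat_lit 4019719653) (nat_lit 380) (nat_lit 3768840808) (nat_lit 91) (nat_lit 5) (nat_lit 95) (nat_lit 5) (nat_lit 96) (nat_lit 5) (nat_lit 474) (nat_lit 351) (nat_lit 315)) (XT.lf (nat_lit 0) (nat_lit 11361819305) (nat_lit 304) (nat_lit 427746670) (nat_lit 380) (nat_lit 159358813) (nat_lit 91) (nat_lit 5) (nat_lit 95) (nat_lit 5) (nat_lit 96) (nat_lit 5) (nat_lit 475) (nat_lit 351) (nat_lit 314))))))))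
noncomputable def xc40 : XT := (XT.nd (nat_lit 2184) (nat_lit 1900) (nat_lit 0) (XT.nd (nat_lit 1092) (nat_lit 1596) (nat_lit 0) (XT.nd (nat_lit 546) (nat_lit 760) (nat_lit 0) (XT.nd (nat_lit 234) (nat_lit 836) (nat_lit 0) (XT.nd (nat_lit 78) (nat_lit 304) (nat_lit 0) (XT.lf (nat_lit 0) (nat_lit 3497222552) (nat_lit 304) (nat_lit 5363439518) (nat_lit 76) (nat_lit 3234499658) (nat_lit 87) (nat_lit 5) (nat_lit 91) (nat_lit 5) (nat_lit 88) (nat_lit 5) (nat_lit 476) (nat_lit 351) (nat_lit 313)) (XT.nd (nat_lit 78) (nat_lit 0) (nat_lit 0) (XT.lf (nat_lit 0) (nat_lit 1910883413) (nat_lit 304) (nat_lit 5289338748) (nat_lit 380) (nat_lit 5044586620) (nat_lit 83) (nat_lit 5) (nat_lit 87) (nat_lit 5) (nat_lit 88) (nat_lit 5) (nat_lit 477) (nat_lit 351) (nat_lit 312)) (XT.lf (nat_lit 0) (nat_lit 9332957938) (nat_lit 304) (nat_lit 1636929641) (nat_lit 380) (nat_lit 1427723638) (nat_lit 83) (nat_lit 5) (nat_lit 87) (nat_lit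 5) (nat_lit 88) (nat_lit 5) (nat_lit 478) (nat_lit 351) (nat_lit 311)))) (XT.nd (nat_lit 156) (nat_lit 532) (nat_lit 0) (XT.nd (nat_lit 78) (nat_lit 0) (nat_lit 0) (XT.lf (nat_lit 0) (nat_lit 2230719000) (nat_lit 304) (nat_lit 8244784367) (nat_lit 76) (nat_lit 2077708627) (nat_lit 79) (nat_lit 5) (nat_lit 83) (nat_lit 5) (nat_lit 80) (nat_lit 5) (nat_lit 479) (nat_lit 351) (nat_lit 310)) (XT.lf (nat_lit 0) (nat_lit 5932159629) (nat_lit 304) (nat_lit 931303556) (nat_lit 76) (nat_lit 5848507647) (nat_lit 79) (nat_lit 5) (nat_lit 83) (nat_lit 5) (nat_lit 80) (nat_lit 5) (nat_lit 480) (nat_lit 351) (nat_lit 309))) (XT.nd (nat_lit 78) (nat_lit 304) (nat_lit 0) (XT.lf (nat_lit 0) (nat_lit 6545795666) (nat_lit 228) (nat_lit 3162554878) (nat_lit 304) (nat_lit 3165553323) (nat_lit 76) (nat_lit 5) (nat_lit 79) (nat_lit 5) (nat_lit 80) (nat_lit 5) (nat_lit 481) (nat_lit 351) (nat_lit 308)) (XT.lf (nat_lit 0) (nat_lit 489737944)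 (nat_lit 304) (nat_lit 11955155983) (nat_lit 76) (nat_lit 594615290) (nat_lit 72) (nat_lit 5) (nat_lit 76) (nat_lit 5) (nat_lit 73) (nat_lit 5) (nat_lit 482) (nat_lit 351) (nat_lit 307))))) (XT.nd (nat_lit 234) (nat_lit 532) (nat_lit 0) (XT.nd (nat_lit 78) (nat_lit 228) (nat_lit 0) (XT.lf (nat_lit 0) (nat_lit 4197990620) (nat_lit 304) (nat_lit 4587753468) (nat_lit 76) (nat_lit 4421831927) (nat_lit 72) (nat_lit 5) (nat_lit 76) (nat_lit 5) (nat_lit 73) (nat_lit 5) (nat_lit 483) (nat_lit 351) (nat_lit 306)) (XT.nd (nat_lit 78) (nat_lit 0) (nat_lit 0) (XT.lf (nat_lit 0) (nat_lit 2897518237) (nat_lit 228) (nat_lit 5061028688) (nat_lit 304) (nat_lit 5420906877) (nat_lit 69) (nat_lit 5) (nat_lit 72) (nat_lit 5) (nat_lit 73) (nat_lit 5) (nat_lit 484) (nat_lit 351) (nat_lit 305)) (XT.lf (nat_lit 0) (nat_lit 10527647200) (nat_lit 228) (nat_lit 1257141649) (nat_lit 304) (nat_lit 1770182988) (nat_lit 69) (nat_lit 5) (nat_lit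 72) (nat_lit 5) (nat_lit 73) (nat_lit 5) (nat_lit 485) (nat_lit 351) (nat_lit 304)))) (XT.nd (nat_lit 156) (nat_lit 228) (nat_lit 0) (XT.nd (nat_lit 78) (nat_lit 0) (nat_lit 0) (XT.lf (nat_lit 0) (nat_lit 1934864888) (nat_lit 304) (nat_lit 9193898873) (nat_lit 76) (nat_lit 2604855891) (nat_lit 65) (nat_lit 5) (nat_lit 69) (nat_lit 5) (nat_lit 66) (nat_lit 5) (nat_lit 486) (nat_lit 351) (nat_lit 303)) (XT.lf (nat_lit 0) (nat_lit 5679494804) (nat_lit 304) (nat_lit 1702929460) (nat_lit 76) (nat_lit 6533409943) (nat_lit 65) (nat_lit 5) (nat_lit 69) (nat_lit 5) (nat_lit 66) (nat_lit 5) (nat_lit 487) (nat_lit 351) (nat_lit 302))) (XT.nd (nat_lit 78) (nat_lit 0) (nat_lit 0) (XT.lf (nat_lit 0) (nat_lit 5950751995) (nat_lit 228) (nat_lit 3548065038) (nat_lit 304) (nat_lit 4602891280) (nat_lit 62) (nat_lit 5) (nat_lit 65) (nat_lit 5) (nat_lit 66) (nat_lit 5) (nat_lit 488) (nat_lit 351) (nat_lit 301)) (XT.lf (nat_lit 0) (nat_lit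 13369720118) (nat_lit 304) (nat_lit 578247546) (nat_lit 76) (nat_lit 343839383) (nat_lit 62) (nat_lit 5) (nat_lit 66) (nat_lit 5) (nat_lit 63) (nat_lit 4) (nat_lit 489) (nat_lit 351) (nat_lit 300)))))) (XT.nd (nat_lit 546) (nat_lit 684) (nat_lit 0) (XT.nd (nat_lit 234) (nat_lit 456) (nat_lit 0) (XT.nd (nat_lit 78) (nat_lit 228) (nat_lit 0) (XT.lf (nat_lit 0) (nat_lit 2827414703) (nat_lit 228) (nat_lit 7351512692) (nat_lit 76) (nat_lit 4305778621) (nat_lit 59) (nat_lit 5) (nat_lit 62) (nat_lit 5) (nat_lit 60) (nat_lit 5) (nat_lit 490) (nat_lit 351) (nat_lit 299)) (XT.nd (nat_lit 78) (nat_lit 0) (nat_lit 0) (XT.lf (nat_lit 0) (nat_lit 258427755) (nat_lit 228) (nat_lit 6348890768) (nat_lit 304) (nat_lit 8074677763) (nat_lit 56) (nat_lit 5) (nat_lit 59) (nat_lit 5) (nat_lit 60) (nat_lit 5) (nat_lit 491) (nat_lit 351) (nat_lit 298)) (XT.lf (nat_lit 0) (nat_lit 8056495420) (nat_lit 228) (nat_lit 2418149107) (nat_lit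 304) (nat_lit 4408361544) (nat_lit 56) (nat_lit 5) (nat_lit 59) (nat_lit 5) (nat_lit 60) (nat_lit 5) (nat_lit 492) (nat_lit 351) (nat_lit 297)))) (XT.nd (nat_lit 156) (nat_lit 228) (nat_lit 0) (XT.nd (nat_lit 78) (nat_lit 76) (nat_lit 0) (XT.lf (nat_lit 0) (nat_lit 860388976) (nat_lit 152) (nat_lit 13537905645) (nat_lit 228) (nat_lit 690171873) (nat_lit 54) (nat_lit 5) (nat_lit 56) (nat_lit 5) (nat_lit 57) (nat_lit 4) (nat_lit 493) (nat_lit 351) (nat_lit 296)) (XT.lf (nat_lit 0) (nat_lit 3086945990) (nat_lit 228) (nat_lit 6603155734) (nat_lit 76) (nat_lit 5607036099) (nat_lit 53) (nat_lit 5) (nat_lit 56) (nat_lit 5) (nat_lit 54) (nat_lit 5) (nat_lit 494) (nat_lit 351) (nat_lit 295))) (XT.nd (nat_lit 78) (nat_lit 0) (nat_lit 0) (XT.lf (nat_lit 0) (nat_lit 1122516583) (nat_lit 228) (nat_lit 5778993621) (nat_lit 304) (nat_lit 8608967643) (nat_lit 50) (nat_lit 5) (nat_lit 53) (nat_lit 5) (nat_lit 54) (nat_lit 5) (nat_lit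 495) (nat_lit 351) (nat_lit 294)) (XT.lf (nat_lit 0) (nat_lit 9030717859) (nat_lit 228) (nat_lit 1770116730) (nat_lit 304) (nat_lit 4927089937) (nat_lit 50) (nat_lit 5) (nat_lit 53) (nat_lit 5) (nat_lit 54) (nat_lit 5) (nat_lit 496) (nat_lit 351) (nat_lit 293))))) (XT.nd (nat_lit 234) (nat_lit 228) (nat_lit 0) (XT.nd (nat_lit 78) (nat_lit 304) (nat_lit 0) (XT.lf (nat_lit 0) (nat_lit 1085711406) (nat_lit 152) (nat_lit 13679237040) (nat_lit 228) (nat_lit 1185044684) (nat_lit 48) (nat_lit 5) (nat_lit 50) (nat_lit 5) (nat_lit 51) (nat_lit 4) (nat_lit 497) (nat_lit 351) (nat_lit 292)) (XT.nd (nat_lit 78) (nat_lit 228) (nat_lit 0) (XT.lf (nat_lit 0) (nat_lit 2619043437) (nat_lit 228) (nat_lit 7150553612) (nat_lit 76) (nat_lit 6406138622) (nat_lit 47) (nat_lit 5) (nat_lit 50) (nat_lit 5) (nat_lit 48) (nat_lit 5) (nat_lit 498) (nat_lit 351) (nat_lit 291)) (XT.lf (nat_lit 0) (nat_lit 658520376) (nat_lit 228) (nat_lit 5794563620)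 (nat_lit 304) (nat_lit 9953366166) (nat_lit 44) (nat_lit 5) (nat_lit 47) (nat_lit 5) (nat_lit 48) (nat_lit 5) (nat_lit 499) (nat_lit 351) (nat_lit 290)))) (XT.nd (nat_lit 156) (nat_lit 228) (nat_lit 0) (XT.nd (nat_lit 78) (nat_lit 0) (nat_lit 0) (XT.lf (nat_lit 0) (nat_lit 8661379039) (nat_lit 228) (nat_lit 1716150663) (nat_lit 304) (nat_lit 6263983115) (nat_lit 44) (nat_lit 5) (nat_lit 47) (nat_lit 5) (nat_lit 48) (nat_lit 5) (nat_lit 500) (nat_lit 351) (nat_lit 289)) (XT.lf (nat_lit 0) (nat_lit 14362583860) (nat_lit 304) (nat_lit 131530449) (nat_lit 76) (nat_lit 2387528226) (nat_lit 44) (nat_lit 5) (nat_lit 48) (nat_lit 5) (nat_lit 45) (nat_lit 4) (nat_lit 501) (nat_lit 351) (nat_lit 288))) (XT.nd (nat_lit 78) (nat_lit 0) (nat_lit 0) (XT.lf (nat_lit 0) (nat_lit 1313521965) (nat_lit 228) (nat_lit 9225756869) (nat_lit 76) (nat_lit 6586538633) (nat_lit 41) (nat_lit 5) (nat_lit 44) (nat_lit 5) (nat_lit 42) (nat_lit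 5) (nat_lit 502) (nat_lit 351) (nat_lit 287)) (XT.lf (nat_lit 0) (nat_lit 5156910938) (nat_lit 228) (nat_lit 1355079433) (nat_lit 76) (nat_lit 10863202494) (nat_lit 41) (nat_lit 5) (nat_lit 44) (nat_lit 5) (nat_lit 42) (nat_lit 5) (nat_lit 503) (nat_lit 351) (nat_lit 286))))))) (XT.nd (nat_lit 1092) (nat_lit 836) (nat_lit 0) (XT.nd (nat_lit 546) (nat_lit 380) (nat_lit 0) (XT.nd (nat_lit 234) (nat_lit 380) (nat_lit 0) (XT.nd (nat_lit 78) (nat_lit 152) (nat_lit 0) (XT.lf (nat_lit 0) (nat_lit 6704472073) (nat_lit 152) (nat_lit 2383840106) (nat_lit 228) (nat_lit 8541028276) (nat_lit 39) (nat_lit 5) (nat_lit 41) (nat_lit 5) (nat_lit 42) (nat_lit 5) (nat_lit 504) (nat_lit 351) (nat_lit 285)) (XT.nd (nat_lit 78) (nat_lit 152) (nat_lit 0) (XT.lf (nat_lit 0) (nat_lit 13087085906) (nat_lit 228) (nat_lit 3013319879) (nat_lit 76) (nat_lit 1788397748) (nat_lit 39) (nat_lit 5) (nat_lit 42) (nat_lit 5) (nat_lit 40) (nat_lit 4)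 (nat_lit 505) (nat_lit 351) (nat_lit 284)) (XT.lf (nat_lit 0) (nat_lit 5051440455) (nat_lit 152) (nat_lit 12131341397) (nat_lit 228) (nat_lit 970342366) (nat_lit 37) (nat_lit 5) (nat_lit 39) (nat_lit 5) (nat_lit 40) (nat_lit 4) (nat_lit 506) (nat_lit 351) (nat_lit 283)))) (XT.nd (nat_lit 156) (nat_lit 152) (nat_lit 0) (XT.nd (nat_lit 78) (nat_lit 152) (nat_lit 0) (XT.lf (nat_lit 0) (nat_lit 2887897414) (nat_lit 228) (nat_lit 5178736172) (nat_lit 76) (nat_lit 10355947963) (nat_lit 36) (nat_lit 5) (nat_lit 39) (nat_lit 5) (nat_lit 37) (nat_lit 5) (nat_lit 507) (nat_lit 351) (nat_lit 282)) (XT.lf (nat_lit 0) (nat_lit 2879554786) (nat_lit 152) (nat_lit 3918491936) (nat_lit 228) (nat_lit 11899505133) (nat_lit 34) (nat_lit 5) (nat_lit 36) (nat_lit 5) (nat_lit 37) (nat_lit 5) (nat_lit 508) (nat_lit 351) (nat_lit 281))) (XT.nd (nat_lit 78) (nat_lit 152) (nat_lit 0) (XT.lf (nat_lit 0) (nat_lit 10792544603) (nat_lit 228)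 (nat_lit 7864941959) (nat_lit 76) (nat_lit 320418818) (nat_lit 34) (nat_lit 5) (nat_lit 37) (nat_lit 5) (nat_lit 35) (nat_lit 4) (nat_lit 509) (nat_lit 351) (nat_lit 280)) (XT.lf (nat_lit 0) (nat_lit 169956618) (nat_lit 152) (nat_lit 14693768500) (nat_lit 228) (nat_lit 4400211597) (nat_lit 32) (nat_lit 5) (nat_lit 34) (nat_lit 5) (nat_lit 35) (nat_lit 4) (nat_lit 510) (nat_lit 351) (nat_lit 279))))) (XT.nd (nat_lit 234) (nat_lit 152) (nat_lit 0) (XT.nd (nat_lit 78) (nat_lit 228) (nat_lit 0) (XT.lf (nat_lit 0) (nat_lit 8419020108) (nat_lit 152) (nat_lit 10620074270) (nat_lit 228) (nat_lit 516145461) (nat_lit 32) (nat_lit 5) (nat_lit 34) (nat_lit 5) (nat_lit 35) (nat_lit 4) (nat_lit 511) (nat_lit 351) (nat_lit 278)) (XT.nd (nat_lit 78) (nat_lit 152) (nat_lit 0) (XT.lf (nat_lit 0) (nat_lit 3370786909) (nat_lit 228) (nat_lit 3094177582) (nat_lit 76) (nat_lit 13387555833) (nat_lit 31) (nat_lit 5) (nat_lit 34) (nat_lit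 5) (nat_lit 32) (nat_lit 5) (nat_lit 512) (nat_lit 351) (nat_lit 277)) (XT.lf (nat_lit 0) (nat_lit 5120976929) (nat_lit 152) (nat_lit 2211780543) (nat_lit 228) (nat_lit 12822842589) (nat_lit 29) (nat_lit 5) (nat_lit 31) (nat_lit 5) (nat_lit 32) (nat_lit 5) (nat_lit 513) (nat_lit 351) (nat_lit 276)))) (XT.nd (nat_lit 156) (nat_lit 76) (nat_lit 0) (XT.nd (nat_lit 78) (nat_lit 76) (nat_lit 0) (XT.lf (nat_lit 0) (nat_lit 11379722981) (nat_lit 228) (nat_lit 6987464486) (nat_lit 76) (nat_lit 2097444787) (nat_lit 29) (nat_lit 5) (nat_lit 32) (nat_lit 5) (nat_lit 30) (nat_lit 4) (nat_lit 514) (nat_lit 351) (nat_lit 275)) (XT.lf (nat_lit 0) (nat_lit 1170784689) (nat_lit 76) (nat_lit 14330707893) (nat_lit 152) (nat_lit 5278481067) (nat_lit 28) (nat_lit 5) (nat_lit 29) (nat_lit 5) (nat_lit 30) (nat_lit 4) (nat_lit 515) (nat_lit 351) (nat_lit 274))) (XT.nd (nat_lit 78) (nat_lit 76) (nat_lit 0) (XT.lf (nat_lit 0) (nat_lit 9536688260)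 (nat_lit 76) (nat_lit 10187745044) (nat_lit 152) (nat_lit 1376819595) (nat_lit 28) (nat_lit 5) (nat_lit 29) (nat_lit 5) (nat_lit 30) (nat_lit 4) (nat_lit 516) (nat_lit 351) (nat_lit 273)) (XT.lf (nat_lit 0) (nat_lit 2540947782) (nat_lit 152) (nat_lit 3425564913) (nat_lit 76) (nat_lit 15462668366) (nat_lit 27) (nat_lit 5) (nat_lit 29) (nat_lit 5) (nat_lit 28) (nat_lit 5) (nat_lit 517) (nat_lit 351) (nat_lit 272)))))) (XT.nd (nat_lit 546) (nat_lit 380) (nat_lit 0) (XT.nd (nat_lit 234) (nat_lit 304) (nat_lit 0) (XT.nd (nat_lit 78) (nat_lit 0) (nat_lit 0) (XT.lf (nat_lit 0) (nat_lit 4882486893) (nat_lit 152) (nat_lit 1640620333) (nat_lit 228) (nat_lit 15240294507) (nat_lit 25) (nat_lit 5) (nat_lit 27) (nat_lit 5) (nat_lit 28) (nat_lit 5) (nat_lit 518) (nat_lit 351) (nat_lit 271)) (XT.nd (nat_lit 78) (nat_lit 0) (nat_lit 0) (XT.lf (nat_lit 0) (nat_lit 10598882664) (nat_lit 228) (nat_lit 8767593509) (nat_lit 76) (nat_lit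 2737556492) (nat_lit 25) (nat_lit 5) (nat_lit 28) (nat_lit 5) (nat_lit 26) (nat_lit 4) (nat_lit 519) (nat_lit 351) (nat_lit 270)) (XT.lf (nat_lit 0) (nat_lit 14740408185) (nat_lit 228) (nat_lit 550647328) (nat_lit 76) (nat_lit 7160741209) (nat_lit 25) (nat_lit 5) (nat_lit 28) (nat_lit 5) (nat_lit 26) (nat_lit 4) (nat_lit 520) (nat_lit 351) (nat_lit 269)))) (XT.nd (nat_lit 156) (nat_lit 152) (nat_lit 0) (XT.nd (nat_lit 78) (nat_lit 76) (nat_lit 0) (XT.lf (nat_lit 0) (nat_lit 7887240606) (nat_lit 76) (nat_lit 11102624512) (nat_lit 152) (nat_lit 3816154023) (nat_lit 24) (nat_lit 5) (nat_lit 25) (nat_lit 5) (nat_lit 26) (nat_lit 4) (nat_lit 521) (nat_lit 351) (nat_lit 268)) (XT.lf (nat_lit 0) (nat_lit 132570971) (nat_lit 152) (nat_lit 6713828371) (nat_lit 76) (nat_lit 16321358285) (nat_lit 23) (nat_lit 5) (nat_lit 25) (nat_lit 5) (nat_lit 24) (nat_lit 5) (nat_lit 522) (nat_lit 351) (nat_lit 267))) (XT.nd (nat_lit 78)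 (nat_lit 0) (nat_lit 0) (XT.lf (nat_lit 0) (nat_lit 1605034834) (nat_lit 152) (nat_lit 2489042391) (nat_lit 228) (nat_lit 19442455865) (nat_lit 21) (nat_lit 5) (nat_lit 23) (nat_lit 5) (nat_lit 24) (nat_lit 5) (nat_lit 523) (nat_lit 351) (nat_lit 266)) (XT.lf (nat_lit 0) (nat_lit 8167370763) (nat_lit 228) (nat_lit 13789535915) (nat_lit 76) (nat_lit 1955130950) (nat_lit 21) (nat_lit 5) (nat_lit 24) (nat_lit 5) (nat_lit 22) (nat_lit 4) (nat_lit 524) (nat_lit 351) (nat_lit 265))))) (XT.nd (nat_lit 312) (nat_lit 304) (nat_lit 0) (XT.nd (nat_lit 156) (nat_lit 0) (nat_lit 0) (XT.nd (nat_lit 78) (nat_lit 76) (nat_lit 0) (XT.lf (nat_lit 0) (nat_lit 12313623026) (nat_lit 228) (nat_lit 5546356693) (nat_lit 76) (nat_lit 6435247298) (nat_lit 21) (nat_lit 5) (nat_lit 24) (nat_lit 5) (nat_lit 22) (nat_lit 4) (nat_lit 525) (nat_lit 351) (nat_lit 264)) (XT.lf (nat_lit 0) (nat_lit 2854874740) (nat_lit 76) (nat_lit 13681960482)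 (nat_lit 152) (nat_lit 8149368798) (nat_lit 20) (nat_lit 5) (nat_lit 21) (nat_lit 5) (nat_lit 22) (nat_lit 4) (nat_lit 526) (nat_lit 351) (nat_lit 263))) (XT.nd (nat_lit 78) (nat_lit 0) (nat_lit 0) (XT.lf (nat_lit 0) (nat_lit 11455350698) (nat_lit 76) (nat_lit 9402074061) (nat_lit 152) (nat_lit 4227321979) (nat_lit 20) (nat_lit 5) (nat_lit 21) (nat_lit 5) (nat_lit 22) (nat_lit 4) (nat_lit 527) (nat_lit 351) (nat_lit 262)) (XT.lf (nat_lit 0) (nat_lit 20184735757) (nat_lit 76) (nat_lit 5055861039) (nat_lit 152) (nat_lit 251144451) (nat_lit 20) (nat_lit 5) (nat_lit 21) (nat_lit 5) (nat_lit 22) (nat_lit 4) (nat_lit 528) (nat_lit 351) (nat_lit 261)))) (XT.nd (nat_lit 156) (nat_lit 76) (nat_lit 0) (XT.nd (nat_lit 78) (nat_lit 0) (nat_lit 0) (XT.lf (nat_lit 0) (nat_lit 3155949938) (nat_lit 152) (nat_lit 595678790) (nat_lit 228) (nat_lit 22154817675) (nat_lit 17) (nat_lit 5) (nat_lit 19) (nat_lit 5) (nat_lit 20) (nat_lit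 5) (nat_lit 529) (nat_lit 351) (nat_lit 260)) (XT.lf (nat_lit 0) (nat_lit 7869158976) (nat_lit 228) (nat_lit 14538839913) (nat_lit 76) (nat_lit 3920656382) (nat_lit 17) (nat_lit 5) (nat_lit 20) (nat_lit 5) (nat_lit 18) (nat_lit 4) (nat_lit 530) (nat_lit 351) (nat_lit 259))) (XT.nd (nat_lit 78) (nat_lit 76) (nat_lit 0) (XT.lf (nat_lit 0) (nat_lit 12049987220) (nat_lit 228) (nat_lit 6208698748) (nat_lit 76) (nat_lit 8501007420) (nat_lit 17) (nat_lit 5) (nat_lit 20) (nat_lit 5) (nat_lit 18) (nat_lit 4) (nat_lit 531) (nat_lit 351) (nat_lit 258)) (XT.lf (nat_lit 0) (nat_lit 2276923555) (nat_lit 76) (nat_lit 14029745200) (nat_lit 152) (nat_lit 10892842716) (nat_lit 16) (nat_lit 5) (nat_lit 17) (nat_lit 5) (nat_lit 18) (nat_lit 4) (nat_lit 532) (nat_lit 351) (nat_lit 257))))))))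
noncomputable def xc41 : XT := (XT.nd (nat_lit 2184) (nat_lit 5016) (nat_lit 0) (XT.nd (nat_lit 1092) (nat_lit 4408) (nat_lit 0) (XT.nd (nat_lit 546) (nat_lit 2736) (nat_lit 0) (XT.nd (nat_lit 234) (nat_lit 1900) (nat_lit 0) (XT.nd (nat_lit 78) (nat_lit 684) (nat_lit 0) (XT.lf (nat_lit 0) (nat_lit 714496163) (nat_lit 684) (nat_lit 1663388972) (nat_lit 684) (nat_lit 1663388972) (nat_lit 250) (nat_lit 4) (nat_lit 259) (nat_lit 5) (nat_lit 259) (nat_lit 4) (nat_lit 436) (nat_lit 352) (nat_lit 352)) (XT.nd (nat_lit 78) (nat_lit 608) (nat_lit 0) (XT.lf (nat_lit 0) (nat_lit 246051592) (nat_lit 760) (nat_lit 718087089) (nat_lit 76) (nat_lit 7181110018) (nat_lit 249) (nat_lit 5) (nat_lit 259) (nat_lit 5) (nat_lit 250) (nat_lit 4) (nat_lit 437) (nat_lit 352) (nat_lit 351)) (XT.lf (nat_lit 0) (nat_lit 3827161206) (nat_lit 684) (nat_lit 2914067831) (nat_lit 0) (nat_lit 1467948558) (nat_lit 241) (nat_lit 5) (nat_lit 250) (nat_lit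 4) (nat_lit 241) (nat_lit 4) (nat_lit 438) (nat_lit 352) (nat_lit 350)))) (XT.nd (nat_lit 156) (nat_lit 684) (nat_lit 0) (XT.nd (nat_lit 78) (nat_lit 608) (nat_lit 0) (XT.lf (nat_lit 0) (nat_lit 3119173221) (nat_lit 608) (nat_lit 4330052567) (nat_lit 608) (nat_lit 825813396) (nat_lit 233) (nat_lit 4) (nat_lit 241) (nat_lit 5) (nat_lit 241) (nat_lit 4) (nat_lit 439) (nat_lit 352) (nat_lit 349)) (XT.lf (nat_lit 0) (nat_lit 884359016) (nat_lit 532) (nat_lit 1843944552) (nat_lit 608) (nat_lit 5614319189) (nat_lit 225) (nat_lit 5) (nat_lit 232) (nat_lit 5) (nat_lit 233) (nat_lit 4) (nat_lit 440) (nat_lit 352) (nat_lit 348))) (XT.nd (nat_lit 78) (nat_lit 684) (nat_lit 0) (XT.lf (nat_lit 0) (nat_lit 6320464581) (nat_lit 608) (nat_lit 1386074112) (nat_lit 0) (nat_lit 705388167) (nat_lit 225) (nat_lit 5) (nat_lit 233) (nat_lit 4) (nat_lit 225) (nat_lit 4) (nat_lit 441) (nat_lit 352) (nat_lit 347)) (XT.lf (nat_lit 0) (nat_lit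 1465139134) (nat_lit 684) (nat_lit 3713322878) (nat_lit 76) (nat_lit 3304337250) (nat_lit 216) (nat_lit 5) (nat_lit 225) (nat_lit 5) (nat_lit 217) (nat_lit 4) (nat_lit 442) (nat_lit 352) (nat_lit 346))))) (XT.nd (nat_lit 234) (nat_lit 1596) (nat_lit 0) (XT.nd (nat_lit 78) (nat_lit 608) (nat_lit 0) (XT.lf (nat_lit 0) (nat_lit 2451224395) (nat_lit 532) (nat_lit 2579079626) (nat_lit 608) (nat_lit 3525236077) (nat_lit 209) (nat_lit 5) (nat_lit 216) (nat_lit 5) (nat_lit 217) (nat_lit 4) (nat_lit 443) (nat_lit 352) (nat_lit 345)) (XT.nd (nat_lit 78) (nat_lit 0) (nat_lit 0) (XT.lf (nat_lit 0) (nat_lit 3044801) (nat_lit 608) (nat_lit 8549477456) (nat_lit 76) (nat_lit 77913600) (nat_lit 201) (nat_lit 5) (nat_lit 209) (nat_lit 5) (nat_lit 202) (nat_lit 4) (nat_lit 444) (nat_lit 352) (nat_lit 344)) (XT.lf (nat_lit 0) (nat_lit 3553944672) (nat_lit 608) (nat_lit 2353928827) (nat_lit 76) (nat_lit 2798538981) (nat_lit 201) (nat_lit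 5) (nat_lit 209) (nat_lit 5) (nat_lit 202) (nat_lit 4) (nat_lit 445) (nat_lit 352) (nat_lit 343)))) (XT.nd (nat_lit 156) (nat_lit 532) (nat_lit 0) (XT.nd (nat_lit 78) (nat_lit 608) (nat_lit 0) (XT.lf (nat_lit 0) (nat_lit 3938851336) (nat_lit 456) (nat_lit 3204641423) (nat_lit 532) (nat_lit 1641096718) (nat_lit 195) (nat_lit 5) (nat_lit 201) (nat_lit 5) (nat_lit 202) (nat_lit 4) (nat_lit 446) (nat_lit 352) (nat_lit 342)) (XT.lf (nat_lit 0) (nat_lit 1453113271) (nat_lit 532) (nat_lit 429549318) (nat_lit 608) (nat_lit 6982095374) (nat_lit 187) (nat_lit 5) (nat_lit 194) (nat_lit 5) (nat_lit 195) (nat_lit 5) (nat_lit 447) (nat_lit 352) (nat_lit 341))) (XT.nd (nat_lit 78) (nat_lit 532) (nat_lit 0) (XT.lf (nat_lit 0) (nat_lit 5446029220) (nat_lit 608) (nat_lit 1108067163) (nat_lit 76) (nat_lit 2392425870) (nat_lit 187) (nat_lit 5) (nat_lit 195) (nat_lit 5) (nat_lit 188) (nat_lit 4) (nat_lit 448) (nat_lit 352) (nat_lit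 340)) (XT.lf (nat_lit 0) (nat_lit 31133065) (nat_lit 532) (nat_lit 3719734150) (nat_lit 76) (nat_lit 5279457171) (nat_lit 180) (nat_lit 5) (nat_lit 187) (nat_lit 5) (nat_lit 181) (nat_lit 5) (nat_lit 449) (nat_lit 352) (nat_lit 339)))))) (XT.nd (nat_lit 546) (nat_lit 2052) (nat_lit 0) (XT.nd (nat_lit 234) (nat_lit 1368) (nat_lit 0) (XT.nd (nat_lit 78) (nat_lit 532) (nat_lit 0) (XT.lf (nat_lit 0) (nat_lit 2691198901) (nat_lit 456) (nat_lit 864411466) (nat_lit 532) (nat_lit 5560377323) (nat_lit 174) (nat_lit 5) (nat_lit 180) (nat_lit 5) (nat_lit 181) (nat_lit 5) (nat_lit 450) (nat_lit 352) (nat_lit 338)) (XT.nd (nat_lit 78) (nat_lit 532) (nat_lit 0) (XT.lf (nat_lit 0) (nat_lit 7133746800) (nat_lit 532) (nat_lit 14093727) (nat_lit 76) (nat_lit 2055889455) (nat_lit 174) (nat_lit 5) (nat_lit 181) (nat_lit 5) (nat_lit 175) (nat_lit 4) (nat_lit 451) (nat_lit 352) (nat_lit 337)) (XT.lf (nat_lit 0) (nat_lit 1464339878)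 (nat_lit 532) (nat_lit 2775106199) (nat_lit 76) (nat_lit 5053742209) (nat_lit 167) (nat_lit 5) (nat_lit 174) (nat_lit 5) (nat_lit 168) (nat_lit 5) (nat_lit 452) (nat_lit 352) (nat_lit 336)))) (XT.nd (nat_lit 156) (nat_lit 532) (nat_lit 0) (XT.nd (nat_lit 78) (nat_lit 380) (nat_lit 0) (XT.lf (nat_lit 0) (nat_lit 3755160003) (nat_lit 456) (nat_lit 1256788396) (nat_lit 532) (nat_lit 4372834819) (nat_lit 161) (nat_lit 5) (nat_lit 167) (nat_lit 5) (nat_lit 168) (nat_lit 5) (nat_lit 453) (nat_lit 352) (nat_lit 335)) (XT.lf (nat_lit 0) (nat_lit 898394928) (nat_lit 380) (nat_lit 7714516471) (nat_lit 456) (nat_lit 865677501) (nat_lit 156) (nat_lit 5) (nat_lit 161) (nat_lit 5) (nat_lit 162) (nat_lit 4) (nat_lit 454) (nat_lit 352) (nat_lit 334))) (XT.nd (nat_lit 78) (nat_lit 456) (nat_lit 0) (XT.lf (nat_lit 0) (nat_lit 2668817444) (nat_lit 456) (nat_lit 2044120730) (nat_lit 76) (nat_lit 4861151106) (nat_lit 155) (nat_lit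 5) (nat_lit 161) (nat_lit 5) (nat_lit 156) (nat_lit 5) (nat_lit 455) (nat_lit 352) (nat_lit 333)) (XT.lf (nat_lit 0) (nat_lit 4601097881) (nat_lit 456) (nat_lit 1638654929) (nat_lit 532) (nat_lit 3432110920) (nat_lit 149) (nat_lit 5) (nat_lit 155) (nat_lit 5) (nat_lit 156) (nat_lit 5) (nat_lit 456) (nat_lit 352) (nat_lit 332))))) (XT.nd (nat_lit 234) (nat_lit 1216) (nat_lit 0) (XT.nd (nat_lit 78) (nat_lit 380) (nat_lit 0) (XT.lf (nat_lit 0) (nat_lit 90480335) (nat_lit 456) (nat_lit 8202792697) (nat_lit 76) (nat_lit 1478702321) (nat_lit 143) (nat_lit 5) (nat_lit 149) (nat_lit 5) (nat_lit 144) (nat_lit 5) (nat_lit 457) (nat_lit 352) (nat_lit 331)) (XT.nd (nat_lit 78) (nat_lit 380) (nat_lit 0) (XT.lf (nat_lit 0) (nat_lit 3630720774) (nat_lit 456) (nat_lit 1573357753) (nat_lit 76) (nat_lit 4669717774) (nat_lit 143) (nat_lit 5) (nat_lit 149) (nat_lit 5) (nat_lit 144) (nat_lit 5) (nat_lit 458) (nat_lit 352) (nat_lit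 330)) (XT.lf (nat_lit 0) (nat_lit 5181317630) (nat_lit 380) (nat_lit 2043113932) (nat_lit 456) (nat_lit 2753592210) (nat_lit 138) (nat_lit 5) (nat_lit 143) (nat_lit 5) (nat_lit 144) (nat_lit 5) (nat_lit 459) (nat_lit 352) (nat_lit 329)))) (XT.nd (nat_lit 156) (nat_lit 760) (nat_lit 0) (XT.nd (nat_lit 78) (nat_lit 0) (nat_lit 0) (XT.lf (nat_lit 0) (nat_lit 775301898) (nat_lit 456) (nat_lit 8139402020) (nat_lit 76) (nat_lit 1169946006) (nat_lit 132) (nat_lit 5) (nat_lit 138) (nat_lit 5) (nat_lit 133) (nat_lit 5) (nat_lit 460) (nat_lit 352) (nat_lit 328)) (XT.lf (nat_lit 0) (nat_lit 4333400939) (nat_lit 456) (nat_lit 1413558365) (nat_lit 76) (nat_lit 4446197384) (nat_lit 132) (nat_lit 5) (nat_lit 138) (nat_lit 5) (nat_lit 133) (nat_lit 5) (nat_lit 461) (nat_lit 352) (nat_lit 327))) (XT.nd (nat_lit 78) (nat_lit 380) (nat_lit 0) (XT.lf (nat_lit 0) (nat_lit 5443810730) (nat_lit 380) (nat_lit 2504716683) (nat_lit 456)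 (nat_lit 2355610498) (nat_lit 127) (nat_lit 5) (nat_lit 132) (nat_lit 5) (nat_lit 133) (nat_lit 5) (nat_lit 462) (nat_lit 352) (nat_lit 326)) (XT.lf (nat_lit 0) (nat_lit 1180976226) (nat_lit 380) (nat_lit 8439178599) (nat_lit 76) (nat_lit 797479667) (nat_lit 122) (nat_lit 5) (nat_lit 127) (nat_lit 5) (nat_lit 123) (nat_lit 5) (nat_lit 463) (nat_lit 352) (nat_lit 325))))))) (XT.nd (nat_lit 1092) (nat_lit 2356) (nat_lit 0) (XT.nd (nat_lit 546) (nat_lit 1216) (nat_lit 0) (XT.nd (nat_lit 234) (nat_lit 684) (nat_lit 0) (XT.nd (nat_lit 78) (nat_lit 760) (nat_lit 0) (XT.lf (nat_lit 0) (nat_lit 4757189553) (nat_lit 380) (nat_lit 1620172528) (nat_lit 76) (nat_lit 4155739166) (nat_lit 122) (nat_lit 5) (nat_lit 127) (nat_lit 5) (nat_lit 123) (nat_lit 5) (nat_lit 464) (nat_lit 352) (nat_lit 324)) (XT.nd (nat_lit 78) (nat_lit 380) (nat_lit 0) (XT.lf (nat_lit 0) (nat_lit 5331690842) (nat_lit 380) (nat_lit 3059802326) (nat_lit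 456) (nat_lit 2259672834) (nat_lit 117) (nat_lit 5) (nat_lit 122) (nat_lit 5) (nat_lit 123) (nat_lit 5) (nat_lit 465) (nat_lit 352) (nat_lit 323)) (XT.lf (nat_lit 0) (nat_lit 1285118261) (nat_lit 380) (nat_lit 9162093555) (nat_lit 76) (nat_lit 324714549) (nat_lit 112) (nat_lit 5) (nat_lit 117) (nat_lit 5) (nat_lit 113) (nat_lit 5) (nat_lit 466) (nat_lit 352) (nat_lit 322)))) (XT.nd (nat_lit 156) (nat_lit 380) (nat_lit 0) (XT.nd (nat_lit 78) (nat_lit 304) (nat_lit 0) (XT.lf (nat_lit 0) (nat_lit 4879153966) (nat_lit 380) (nat_lit 2253957337) (nat_lit 76) (nat_lit 3761538618) (nat_lit 112) (nat_lit 5) (nat_lit 117) (nat_lit 5) (nat_lit 113) (nat_lit 5) (nat_lit 467) (nat_lit 352) (nat_lit 321)) (XT.lf (nat_lit 0) (nat_lit 4782577292) (nat_lit 304) (nat_lit 3746859516) (nat_lit 380) (nat_lit 2490722277) (nat_lit 108) (nat_lit 5) (nat_lit 112) (nat_lit 5) (nat_lit 113) (nat_lit 5) (nat_lit 468) (nat_lit 352) (nat_lit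 320))) (XT.nd (nat_lit 78) (nat_lit 0) (nat_lit 0) (XT.lf (nat_lit 0) (nat_lit 772734304) (nat_lit 304) (nat_lit 291007284) (nat_lit 380) (nat_lit 10084837540) (nat_lit 103) (nat_lit 5) (nat_lit 107) (nat_lit 5) (nat_lit 108) (nat_lit 5) (nat_lit 469) (nat_lit 352) (nat_lit 319)) (XT.lf (nat_lit 0) (nat_lit 4672820594) (nat_lit 380) (nat_lit 3381631648) (nat_lit 76) (nat_lit 3224465923) (nat_lit 103) (nat_lit 5) (nat_lit 108) (nat_lit 5) (nat_lit 104) (nat_lit 5) (nat_lit 470) (nat_lit 352) (nat_lit 318))))) (XT.nd (nat_lit 234) (nat_lit 608) (nat_lit 0) (XT.nd (nat_lit 78) (nat_lit 304) (nat_lit 0) (XT.lf (nat_lit 0) (nat_lit 3727920215) (nat_lit 304) (nat_lit 4606913639) (nat_lit 380) (nat_lit 3077432132) (nat_lit 99) (nat_lit 5) (nat_lit 103) (nat_lit 5) (nat_lit 104) (nat_lit 5) (nat_lit 471) (nat_lit 352) (nat_lit 317)) (XT.nd (nat_lit 78) (nat_lit 228) (nat_lit 0) (XT.lf (nat_lit 0) (nat_lit 492541533) (nat_lit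 380) (nat_lit 597521275) (nat_lit 76) (nat_lit 10458615023) (nat_lit 98) (nat_lit 5) (nat_lit 103) (nat_lit 5) (nat_lit 99) (nat_lit 5) (nat_lit 472) (nat_lit 352) (nat_lit 316)) (XT.lf (nat_lit 0) (nat_lit 4107863510) (nat_lit 304) (nat_lit 5076593456) (nat_lit 76) (nat_lit 2502667072) (nat_lit 95) (nat_lit 5) (nat_lit 99) (nat_lit 5) (nat_lit 96) (nat_lit 5) (nat_lit 473) (nat_lit 352) (nat_lit 315)))) (XT.nd (nat_lit 156) (nat_lit 304) (nat_lit 0) (XT.nd (nat_lit 78) (nat_lit 0) (nat_lit 0) (XT.lf (nat_lit 0) (nat_lit 2092260749) (nat_lit 304) (nat_lit 5683943238) (nat_lit 380) (nat_lit 4052536698) (nat_lit 91) (nat_lit 5) (nat_lit 95) (nat_lit 5) (nat_lit 96) (nat_lit 5) (nat_lit 474) (nat_lit 352) (nat_lit 314)) (XT.lf (nat_lit 0) (nat_lit 9403252360) (nat_lit 304) (nat_lit 2105008455) (nat_lit 380) (nat_lit 465137309) (nat_lit 91) (nat_lit 5) (nat_lit 95) (nat_lit 5) (nat_lit 96) (nat_lit 5) (nat_lit 475)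 (nat_lit 352) (nat_lit 313))) (XT.nd (nat_lit 78) (nat_lit 0) (nat_lit 0) (XT.lf (nat_lit 0) (nat_lit 3149755088) (nat_lit 304) (nat_lit 7419707089) (nat_lit 76) (nat_lit 1551133932) (nat_lit 87) (nat_lit 5) (nat_lit 91) (nat_lit 5) (nat_lit 88) (nat_lit 5) (nat_lit 476) (nat_lit 352) (nat_lit 312)) (XT.lf (nat_lit 0) (nat_lit 6819096313) (nat_lit 304) (nat_lit 204858557) (nat_lit 76) (nat_lit 5246968667) (nat_lit 87) (nat_lit 5) (nat_lit 91) (nat_lit 5) (nat_lit 88) (nat_lit 5) (nat_lit 477) (nat_lit 352) (nat_lit 311)))))) (XT.nd (nat_lit 546) (nat_lit 988) (nat_lit 0) (XT.nd (nat_lit 234) (nat_lit 760) (nat_lit 0) (XT.nd (nat_lit 78) (nat_lit 304) (nat_lit 0) (XT.lf (nat_lit 0) (nat_lit 7180307085) (nat_lit 304) (nat_lit 3386049968) (nat_lit 380) (nat_lit 1857824079) (nat_lit 83) (nat_lit 5) (nat_lit 87) (nat_lit 5) (nat_lit 88) (nat_lit 5) (nat_lit 478) (nat_lit 352) (nat_lit 310)) (XT.nd (nat_lit 78) (nat_lit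 0) (nat_lit 0) (XT.lf (nat_lit 0) (nat_lit 1759375119) (nat_lit 304) (nat_lit 10500167950) (nat_lit 76) (nat_lit 321239166) (nat_lit 79) (nat_lit 5) (nat_lit 83) (nat_lit 5) (nat_lit 80) (nat_lit 5) (nat_lit 479) (nat_lit 352) (nat_lit 309)) (XT.lf (nat_lit 0) (nat_lit 5440133484) (nat_lit 304) (nat_lit 3220598274) (nat_lit 76) (nat_lit 4079229620) (nat_lit 79) (nat_lit 5) (nat_lit 83) (nat_lit 5) (nat_lit 80) (nat_lit 5) (nat_lit 480) (nat_lit 352) (nat_lit 308)))) (XT.nd (nat_lit 156) (nat_lit 532) (nat_lit 0) (XT.nd (nat_lit 78) (nat_lit 0) (nat_lit 0) (XT.lf (nat_lit 0) (nat_lit 4192389392) (nat_lit 228) (nat_lit 4988378402) (nat_lit 304) (nat_lit 3721844279) (nat_lit 76) (nat_lit 5) (nat_lit 79) (nat_lit 5) (nat_lit 80) (nat_lit 5) (nat_lit 481) (nat_lit 352) (nat_lit 307)) (XT.lf (nat_lit 0) (nat_lit 11730577349) (nat_lit 228) (nat_lit 1246660314) (nat_lit 304) (nat_lit 91670590) (nat_lit 76) (nat_lit 5)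 (nat_lit 79) (nat_lit 5) (nat_lit 80) (nat_lit 5) (nat_lit 482) (nat_lit 352) (nat_lit 306))) (XT.nd (nat_lit 78) (nat_lit 228) (nat_lit 0) (XT.lf (nat_lit 0) (nat_lit 3580691437) (nat_lit 304) (nat_lit 7082456916) (nat_lit 76) (nat_lit 2574586611) (nat_lit 72) (nat_lit 5) (nat_lit 76) (nat_lit 5) (nat_lit 73) (nat_lit 5) (nat_lit 483) (nat_lit 352) (nat_lit 305)) (XT.lf (nat_lit 0) (nat_lit 336475166) (nat_lit 228) (nat_lit 6968403743) (nat_lit 304) (nat_lit 6105467250) (nat_lit 69) (nat_lit 5) (nat_lit 72) (nat_lit 5) (nat_lit 73) (nat_lit 5) (nat_lit 484) (nat_lit 352) (nat_lit 304))))) (XT.nd (nat_lit 312) (nat_lit 456) (nat_lit 0) (XT.nd (nat_lit 156) (nat_lit 228) (nat_lit 0) (XT.nd (nat_lit 78) (nat_lit 304) (nat_lit 0) (XT.lf (nat_lit 0) (nat_lit 7934068513) (nat_lit 228) (nat_lit 3177487308) (nat_lit 304) (nat_lit 2474705585) (nat_lit 69) (nat_lit 5) (nat_lit 72) (nat_lit 5) (nat_lit 73) (nat_lit 5) (nat_lit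 485) (nat_lit 352) (nat_lit 303)) (XT.lf (nat_lit 0) (nat_lit 1190120324) (nat_lit 304) (nat_lit 11901027246) (nat_lit 76) (nat_lit 674848057) (nat_lit 65) (nat_lit 5) (nat_lit 69) (nat_lit 5) (nat_lit 66) (nat_lit 5) (nat_lit 486) (nat_lit 352) (nat_lit 302))) (XT.nd (nat_lit 78) (nat_lit 228) (nat_lit 0) (XT.lf (nat_lit 0) (nat_lit 4915524243) (nat_lit 304) (nat_lit 4442311559) (nat_lit 76) (nat_lit 4590764471) (nat_lit 65) (nat_lit 5) (nat_lit 69) (nat_lit 5) (nat_lit 66) (nat_lit 5) (nat_lit 487) (nat_lit 352) (nat_lit 301)) (XT.lf (nat_lit 0) (nat_lit 3142923418) (nat_lit 228) (nat_lit 5554843751) (nat_lit 304) (nat_lit 5437454257) (nat_lit 62) (nat_lit 5) (nat_lit 65) (nat_lit 5) (nat_lit 66) (nat_lit 5) (nat_lit 488) (nat_lit 352) (nat_lit 300)))) (XT.nd (nat_lit 156) (nat_lit 228) (nat_lit 0) (XT.nd (nat_lit 78) (nat_lit 228) (nat_lit 0) (XT.lf (nat_lit 0) (nat_lit 10876625001) (nat_lit 228) (nat_lit 1671099768)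 (nat_lit 304) (nat_lit 1778019656) (nat_lit 62) (nat_lit 5) (nat_lit 65) (nat_lit 5) (nat_lit 66) (nat_lit 5) (nat_lit 489) (nat_lit 352) (nat_lit 299)) (XT.lf (nat_lit 0) (nat_lit 1934114428) (nat_lit 228) (nat_lit 10310074913) (nat_lit 76) (nat_lit 2275542213) (nat_lit 59) (nat_lit 5) (nat_lit 62) (nat_lit 5) (nat_lit 60) (nat_lit 5) (nat_lit 490) (nat_lit 352) (nat_lit 298))) (XT.nd (nat_lit 78) (nat_lit 228) (nat_lit 0) (XT.lf (nat_lit 0) (nat_lit 5693976661) (nat_lit 228) (nat_lit 2734656236) (nat_lit 76) (nat_lit 6288794803) (nat_lit 59) (nat_lit 5) (nat_lit 62) (nat_lit 5) (nat_lit 60) (nat_lit 5) (nat_lit 491) (nat_lit 352) (nat_lit 297)) (XT.lf (nat_lit 0) (nat_lit 4996141660) (nat_lit 228) (nat_lit 4528965414) (nat_lit 304) (nat_lit 5394059271) (nat_lit 56) (nat_lit 5) (nat_lit 59) (nat_lit 5) (nat_lit 60) (nat_lit 5) (nat_lit 492) (nat_lit 352) (nat_lit 296))))))))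
noncomputable def xc42 : XT := (XT.nd (nat_lit 2184) (nat_lit 608) (nat_lit 0) (XT.nd (nat_lit 1092) (nat_lit 912) (nat_lit 0) (XT.nd (nat_lit 546) (nat_lit 760) (nat_lit 0) (XT.nd (nat_lit 234) (nat_lit 456) (nat_lit 0) (XT.nd (nat_lit 78) (nat_lit 228) (nat_lit 0) (XT.lf (nat_lit 0) (nat_lit 12857375671) (nat_lit 228) (nat_lit 557783492) (nat_lit 304) (nat_lit 1710144415) (nat_lit 56) (nat_lit 5) (nat_lit 59) (nat_lit 5) (nat_lit 60) (nat_lit 5) (nat_lit 493) (nat_lit 352) (nat_lit 295)) (XT.nd (nat_lit 78) (nat_lit 0) (nat_lit 0) (XT.lf (nat_lit 0) (nat_lit 2043812964) (nat_lit 228) (nat_lit 9819048218) (nat_lit 76) (nat_lit 3471981586) (nat_lit 53) (nat_lit 5) (nat_lit 56) (nat_lit 5) (nat_lit 54) (nat_lit 5) (nat_lit 494) (nat_lit 352) (nat_lit 294)) (XT.lf (nat_lit 0) (nat_lit 5833543256) (nat_lit 228) (nat_lit 2138140244) (nat_lit 76) (nat_lit 7577000540) (nat_lit 53) (nat_lit 5) (nat_lit 56) (nat_lit 5)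 (nat_lit 54) (nat_lit 5) (nat_lit 495) (nat_lit 352) (nat_lit 293)))) (XT.nd (nat_lit 156) (nat_lit 228) (nat_lit 0) (XT.nd (nat_lit 78) (nat_lit 0) (nat_lit 0) (XT.lf (nat_lit 0) (nat_lit 5711801581) (nat_lit 228) (nat_lit 3989603811) (nat_lit 304) (nat_lit 6065359053) (nat_lit 50) (nat_lit 5) (nat_lit 53) (nat_lit 5) (nat_lit 54) (nat_lit 5) (nat_lit 496) (nat_lit 352) (nat_lit 292)) (XT.lf (nat_lit 0) (nat_lit 13626926018) (nat_lit 304) (nat_lit 2301399449) (nat_lit 76) (nat_lit 61283840) (nat_lit 50) (nat_lit 5) (nat_lit 54) (nat_lit 5) (nat_lit 51) (nat_lit 4) (nat_lit 497) (nat_lit 352) (nat_lit 291))) (XT.nd (nat_lit 78) (nat_lit 0) (nat_lit 0) (XT.lf (nat_lit 0) (nat_lit 1424503787) (nat_lit 228) (nat_lit 10629984597) (nat_lit 76) (nat_lit 4161667527) (nat_lit 47) (nat_lit 5) (nat_lit 50) (nat_lit 5) (nat_lit 48) (nat_lit 5) (nat_lit 498) (nat_lit 352) (nat_lit 290)) (XT.lf (nat_lit 0) (nat_lit 5237499257)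 (nat_lit 228) (nat_lit 2858530583) (nat_lit 76) (nat_lit 8351265604) (nat_lit 47) (nat_lit 5) (nat_lit 50) (nat_lit 5) (nat_lit 48) (nat_lit 5) (nat_lit 499) (nat_lit 352) (nat_lit 289))))) (XT.nd (nat_lit 234) (nat_lit 380) (nat_lit 0) (XT.nd (nat_lit 78) (nat_lit 152) (nat_lit 0) (XT.lf (nat_lit 0) (nat_lit 5077547030) (nat_lit 228) (nat_lit 4048964144) (nat_lit 304) (nat_lit 7556559659) (nat_lit 44) (nat_lit 5) (nat_lit 47) (nat_lit 5) (nat_lit 48) (nat_lit 5) (nat_lit 500) (nat_lit 352) (nat_lit 288)) (XT.nd (nat_lit 78) (nat_lit 152) (nat_lit 0) (XT.lf (nat_lit 0) (nat_lit 13080040090) (nat_lit 304) (nat_lit 3770254997) (nat_lit 76) (nat_lit 73539946) (nat_lit 44) (nat_lit 5) (nat_lit 48) (nat_lit 5) (nat_lit 45) (nat_lit 4) (nat_lit 501) (nat_lit 352) (nat_lit 287)) (XT.lf (nat_lit 0) (nat_lit 4193500416) (nat_lit 152) (nat_lit 12940743508) (nat_lit 228) (nat_lit 34746386) (nat_lit 42) (nat_lit 5) (nat_lit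 44) (nat_lit 5) (nat_lit 45) (nat_lit 4) (nat_lit 502) (nat_lit 352) (nat_lit 286)))) (XT.nd (nat_lit 156) (nat_lit 152) (nat_lit 0) (XT.nd (nat_lit 78) (nat_lit 152) (nat_lit 0) (XT.lf (nat_lit 0) (nat_lit 3793065920) (nat_lit 228) (nat_lit 5132542226) (nat_lit 76) (nat_lit 8493086471) (nat_lit 41) (nat_lit 5) (nat_lit 44) (nat_lit 5) (nat_lit 42) (nat_lit 5) (nat_lit 503) (nat_lit 352) (nat_lit 285)) (XT.lf (nat_lit 0) (nat_lit 2849037340) (nat_lit 152) (nat_lit 4834679769) (nat_lit 228) (nat_lit 9989943774) (nat_lit 39) (nat_lit 5) (nat_lit 41) (nat_lit 5) (nat_lit 42) (nat_lit 5) (nat_lit 504) (nat_lit 352) (nat_lit 284))) (XT.nd (nat_lit 78) (nat_lit 152) (nat_lit 0) (XT.lf (nat_lit 0) (nat_lit 11004823104) (nat_lit 152) (nat_lit 650315367) (nat_lit 228) (nat_lit 6278536142) (nat_lit 39) (nat_lit 5) (nat_lit 41) (nat_lit 5) (nat_lit 42) (nat_lit 5) (nat_lit 505) (nat_lit 352) (nat_lit 283)) (XT.lf (nat_lit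 0) (nat_lit 1060865894) (nat_lit 152) (nat_lit 14644481722) (nat_lit 228) (nat_lit 2493560950) (nat_lit 37) (nat_lit 5) (nat_lit 39) (nat_lit 5) (nat_lit 40) (nat_lit 4) (nat_lit 506) (nat_lit 352) (nat_lit 282)))))) (XT.nd (nat_lit 546) (nat_lit 304) (nat_lit 0) (XT.nd (nat_lit 234) (nat_lit 380) (nat_lit 0) (XT.nd (nat_lit 78) (nat_lit 152) (nat_lit 0) (XT.lf (nat_lit 0) (nat_lit 1369324180) (nat_lit 228) (nat_lit 9232163433) (nat_lit 76) (nat_lit 7867386114) (nat_lit 36) (nat_lit 5) (nat_lit 39) (nat_lit 5) (nat_lit 37) (nat_lit 5) (nat_lit 507) (nat_lit 352) (nat_lit 281)) (XT.nd (nat_lit 78) (nat_lit 152) (nat_lit 0) (XT.lf (nat_lit 0) (nat_lit 5245746200) (nat_lit 228) (nat_lit 1238067859) (nat_lit 76) (nat_lit 12260707849) (nat_lit 36) (nat_lit 5) (nat_lit 39) (nat_lit 5) (nat_lit 37) (nat_lit 5) (nat_lit 508) (nat_lit 352) (nat_lit 280)) (XT.lf (nat_lit 0) (nat_lit 6954782056) (nat_lit 152) (nat_lit 2260301776)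 (nat_lit 228) (nat_lit 9810298070) (nat_lit 34) (nat_lit 5) (nat_lit 36) (nat_lit 5) (nat_lit 37) (nat_lit 5) (nat_lit 509) (nat_lit 352) (nat_lit 279)))) (XT.nd (nat_lit 156) (nat_lit 228) (nat_lit 0) (XT.nd (nat_lit 78) (nat_lit 152) (nat_lit 0) (XT.lf (nat_lit 0) (nat_lit 13255798511) (nat_lit 228) (nat_lit 4049218971) (nat_lit 76) (nat_lit 2007008274) (nat_lit 34) (nat_lit 5) (nat_lit 37) (nat_lit 5) (nat_lit 35) (nat_lit 4) (nat_lit 510) (nat_lit 352) (nat_lit 278)) (XT.lf (nat_lit 0) (nat_lit 4120239277) (nat_lit 152) (nat_lit 13269722420) (nat_lit 228) (nat_lit 2214194441) (nat_lit 32) (nat_lit 5) (nat_lit 34) (nat_lit 5) (nat_lit 35) (nat_lit 4) (nat_lit 511) (nat_lit 352) (nat_lit 277))) (XT.nd (nat_lit 78) (nat_lit 152) (nat_lit 0) (XT.lf (nat_lit 0) (nat_lit 1680629678) (nat_lit 228) (nat_lit 7456331452) (nat_lit 76) (nat_lit 10764986575) (nat_lit 31) (nat_lit 5) (nat_lit 34) (nat_lit 5) (nat_lit 32)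 (nat_lit 5) (nat_lit 512) (nat_lit 352) (nat_lit 276)) (XT.lf (nat_lit 0) (nat_lit 675538372) (nat_lit 152) (nat_lit 4924102595) (nat_lit 228) (nat_lit 14606248617) (nat_lit 29) (nat_lit 5) (nat_lit 31) (nat_lit 5) (nat_lit 32) (nat_lit 5) (nat_lit 513) (nat_lit 352) (nat_lit 275))))) (XT.nd (nat_lit 234) (nat_lit 228) (nat_lit 0) (XT.nd (nat_lit 78) (nat_lit 76) (nat_lit 0) (XT.lf (nat_lit 0) (nat_lit 9020986564) (nat_lit 152) (nat_lit 597839665) (nat_lit 228) (nat_lit 10896654050) (nat_lit 29) (nat_lit 5) (nat_lit 31) (nat_lit 5) (nat_lit 32) (nat_lit 5) (nat_lit 514) (nat_lit 352) (nat_lit 274)) (XT.nd (nat_lit 78) (nat_lit 76) (nat_lit 0) (XT.lf (nat_lit 0) (nat_lit 13715336646) (nat_lit 228) (nat_lit 3372257013) (nat_lit 76) (nat_lit 3743736041) (nat_lit 29) (nat_lit 5) (nat_lit 32) (nat_lit 5) (nat_lit 30) (nat_lit 4) (nat_lit 515) (nat_lit 352) (nat_lit 273)) (XT.lf (nat_lit 0) (nat_lit 4924453483) (nat_lit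 76) (nat_lit 12977973724) (nat_lit 152) (nat_lit 3250901531) (nat_lit 28) (nat_lit 5) (nat_lit 29) (nat_lit 5) (nat_lit 30) (nat_lit 4) (nat_lit 516) (nat_lit 352) (nat_lit 272)))) (XT.nd (nat_lit 156) (nat_lit 0) (nat_lit 0) (XT.nd (nat_lit 78) (nat_lit 152) (nat_lit 0) (XT.lf (nat_lit 0) (nat_lit 677957023) (nat_lit 152) (nat_lit 8101789231) (nat_lit 76) (nat_lit 12702026435) (nat_lit 27) (nat_lit 5) (nat_lit 29) (nat_lit 5) (nat_lit 28) (nat_lit 5) (nat_lit 517) (nat_lit 352) (nat_lit 271)) (XT.lf (nat_lit 0) (nat_lit 120194962) (nat_lit 152) (nat_lit 4495778268) (nat_lit 228) (nat_lit 17200905620) (nat_lit 25) (nat_lit 5) (nat_lit 27) (nat_lit 5) (nat_lit 28) (nat_lit 5) (nat_lit 518) (nat_lit 352) (nat_lit 270))) (XT.nd (nat_lit 78) (nat_lit 0) (nat_lit 0) (XT.lf (nat_lit 0) (nat_lit 8569063697) (nat_lit 152) (nat_lit 91558454) (nat_lit 228) (nat_lit 13497512736) (nat_lit 25) (nat_lit 5) (nat_lit 27) (nat_lit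 5) (nat_lit 28) (nat_lit 5) (nat_lit 519) (nat_lit 352) (nat_lit 269)) (XT.lf (nat_lit 0) (nat_lit 12788628315) (nat_lit 228) (nat_lit 5394718546) (nat_lit 76) (nat_lit 4322824994) (nat_lit 25) (nat_lit 5) (nat_lit 28) (nat_lit 5) (nat_lit 26) (nat_lit 4) (nat_lit 520) (nat_lit 352) (nat_lit 268))))))) (XT.nd (nat_lit 52806) (nat_lit 0) (nat_lit 11932) (XT.nd (nat_lit 546) (nat_lit 228) (nat_lit 0) (XT.nd (nat_lit 234) (nat_lit 228) (nat_lit 0) (XT.nd (nat_lit 78) (nat_lit 76) (nat_lit 0) (XT.lf (nat_lit 0) (nat_lit 2955758790) (nat_lit 76) (nat_lit 14037636538) (nat_lit 152) (nat_lit 5867895217) (nat_lit 24) (nat_lit 5) (nat_lit 25) (nat_lit 5) (nat_lit 26) (nat_lit 4) (nat_lit 521) (nat_lit 352) (nat_lit 267)) (XT.nd (nat_lit 78) (nat_lit 76) (nat_lit 0) (XT.lf (nat_lit 0) (nat_lit 11500753296) (nat_lit 76) (nat_lit 9792315118) (nat_lit 152) (nat_lit 1930231880) (nat_lit 24) (nat_lit 5) (nat_lit 25) (nat_lit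 5) (nat_lit 26) (nat_lit 4) (nat_lit 522) (nat_lit 352) (nat_lit 266)) (XT.lf (nat_lit 0) (nat_lit 2033761630) (nat_lit 152) (nat_lit 3434509928) (nat_lit 76) (nat_lit 18124513737) (nat_lit 23) (nat_lit 5) (nat_lit 25) (nat_lit 5) (nat_lit 24) (nat_lit 5) (nat_lit 523) (nat_lit 352) (nat_lit 265)))) (XT.nd (nat_lit 156) (nat_lit 76) (nat_lit 0) (XT.nd (nat_lit 78) (nat_lit 0) (nat_lit 0) (XT.lf (nat_lit 0) (nat_lit 5028272680) (nat_lit 152) (nat_lit 1031016582) (nat_lit 228) (nat_lit 17909958175) (nat_lit 21) (nat_lit 5) (nat_lit 23) (nat_lit 5) (nat_lit 24) (nat_lit 5) (nat_lit 524) (nat_lit 352) (nat_lit 264)) (XT.lf (nat_lit 0) (nat_lit 10186718347) (nat_lit 228) (nat_lit 10713009199) (nat_lit 76) (nat_lit 3453087982) (nat_lit 21) (nat_lit 5) (nat_lit 24) (nat_lit 5) (nat_lit 22) (nat_lit 4) (nat_lit 525) (nat_lit 352) (nat_lit 263))) (XT.nd (nat_lit 78) (nat_lit 76) (nat_lit 0) (XT.lf (nat_lit 0) (nat_lit 14379503495)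 (nat_lit 228) (nat_lit 2370698107) (nat_lit 76) (nat_lit 7994201668) (nat_lit 21) (nat_lit 5) (nat_lit 24) (nat_lit 5) (nat_lit 22) (nat_lit 4) (nat_lit 526) (nat_lit 352) (nat_lit 262)) (XT.lf (nat_lit 0) (nat_lit 6176935680) (nat_lit 76) (nat_lit 12495763976) (nat_lit 152) (nat_lit 6470796355) (nat_lit 20) (nat_lit 5) (nat_lit 21) (nat_lit 5) (nat_lit 22) (nat_lit 4) (nat_lit 527) (nat_lit 352) (nat_lit 261))))) (XT.nd (nat_lit 234) (nat_lit 0) (nat_lit 0) (XT.nd (nat_lit 78) (nat_lit 228) (nat_lit 0) (XT.lf (nat_lit 0) (nat_lit 14885402266) (nat_lit 76) (nat_lit 8158904055) (nat_lit 152) (nat_lit 2506417616) (nat_lit 20) (nat_lit 5) (nat_lit 21) (nat_lit 5) (nat_lit 22) (nat_lit 4) (nat_lit 528) (nat_lit 352) (nat_lit 260)) (XT.nd (nat_lit 78) (nat_lit 152) (nat_lit 0) (XT.lf (nat_lit 0) (nat_lit 1494027625) (nat_lit 152) (nat_lit 2249776407) (nat_lit 76) (nat_lit 22222558070) (nat_lit 19) (nat_lit 5) (nat_lit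 21) (nat_lit 5) (nat_lit 20) (nat_lit 5) (nat_lit 529) (nat_lit 352) (nat_lit 259)) (XT.lf (nat_lit 0) (nat_lit 5564834072) (nat_lit 228) (nat_lit 20034833453) (nat_lit 76) (nat_lit 789839912) (nat_lit 17) (nat_lit 5) (nat_lit 20) (nat_lit 5) (nat_lit 18) (nat_lit 4) (nat_lit 530) (nat_lit 352) (nat_lit 258)))) (XT.nd (nat_lit 51870) (nat_lit 0) (nat_lit 17708) (XT.nd (nat_lit 51792) (nat_lit 0) (nat_lit 19076) (XT.lf (nat_lit 0) (nat_lit 9734500647) (nat_lit 228) (nat_lit 11724981369) (nat_lit 76) (nat_lit 5361288720) (nat_lit 17) (nat_lit 5) (nat_lit 20) (nat_lit 5) (nat_lit 18) (nat_lit 4) (nat_lit 531) (nat_lit 352) (nat_lit 257)) (XT.lf (nat_lit 0) (nat_lit 2831506627) (nat_lit 684) (nat_lit 574745785) (nat_lit 684) (nat_lit 574745785) (nat_lit 268) (nat_lit 4) (nat_lit 277) (nat_lit 5) (nat_lit 277) (nat_lit 4) (nat_lit 434) (nat_lit 353) (nat_lit 353))) (XT.nd (nat_lit 78) (nat_lit 684) (nat_lit 0) (XT.lf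 (nat_lit 0) (nat_lit 2394800405) (nat_lit 684) (nat_lit 4471558565) (nat_lit 0) (nat_lit 1155386872) (nat_lit 259) (nat_lit 5) (nat_lit 268) (nat_lit 4) (nat_lit 259) (nat_lit 4) (nat_lit 435) (nat_lit 353) (nat_lit 352)) (XT.lf (nat_lit 0) (nat_lit 1389707849) (nat_lit 684) (nat_lit 4574007991) (nat_lit 684) (nat_lit 2119483151) (nat_lit 250) (nat_lit 4) (nat_lit 259) (nat_lit 5) (nat_lit 259) (nat_lit 4) (nat_lit 436) (nat_lit 353) (nat_lit 351)))))) (XT.nd (nat_lit 546) (nat_lit 2660) (nat_lit 0) (XT.nd (nat_lit 234) (nat_lit 1748) (nat_lit 0) (XT.nd (nat_lit 78) (nat_lit 1292) (nat_lit 0) (XT.lf (nat_lit 0) (nat_lit 1406436518) (nat_lit 760) (nat_lit 804808665) (nat_lit 76) (nat_lit 5935139627) (nat_lit 249) (nat_lit 5) (nat_lit 259) (nat_lit 5) (nat_lit 250) (nat_lit 4) (nat_lit 437) (nat_lit 353) (nat_lit 350)) (XT.nd (nat_lit 78) (nat_lit 684) (nat_lit 0) (XT.lf (nat_lit 0) (nat_lit 4948105149) (nat_lit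 684) (nat_lit 3034262889) (nat_lit 0) (nat_lit 228754671) (nat_lit 241) (nat_lit 5) (nat_lit 250) (nat_lit 4) (nat_lit 241) (nat_lit 4) (nat_lit 438) (nat_lit 353) (nat_lit 349)) (XT.lf (nat_lit 0) (nat_lit 257903660) (nat_lit 684) (nat_lit 5320960106) (nat_lit 76) (nat_lit 2698730590) (nat_lit 232) (nat_lit 5) (nat_lit 241) (nat_lit 5) (nat_lit 233) (nat_lit 4) (nat_lit 439) (nat_lit 353) (nat_lit 348)))) (XT.nd (nat_lit 156) (nat_lit 1216) (nat_lit 0) (XT.nd (nat_lit 78) (nat_lit 0) (nat_lit 0) (XT.lf (nat_lit 0) (nat_lit 672454857) (nat_lit 532) (nat_lit 3097319452) (nat_lit 608) (nat_lit 4575943718) (nat_lit 225) (nat_lit 5) (nat_lit 232) (nat_lit 5) (nat_lit 233) (nat_lit 4) (nat_lit 440) (nat_lit 353) (nat_lit 347)) (XT.lf (nat_lit 0) (nat_lit 6780267390) (nat_lit 532) (nat_lit 547327017) (nat_lit 608) (nat_lit 1088133186) (nat_lit 225) (nat_lit 5) (nat_lit 232) (nat_lit 5) (nat_lit 233) (nat_lit 4) (nat_lit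 441) (nat_lit 353) (nat_lit 346))) (XT.nd (nat_lit 78) (nat_lit 532) (nat_lit 0) (XT.lf (nat_lit 0) (nat_lit 2420466633) (nat_lit 684) (nat_lit 4011932725) (nat_lit 76) (nat_lit 2054785128) (nat_lit 216) (nat_lit 5) (nat_lit 225) (nat_lit 5) (nat_lit 217) (nat_lit 4) (nat_lit 442) (nat_lit 353) (nat_lit 345)) (XT.lf (nat_lit 0) (nat_lit 2109777394) (nat_lit 532) (nat_lit 3844580775) (nat_lit 608) (nat_lit 2606210191) (nat_lit 209) (nat_lit 5) (nat_lit 216) (nat_lit 5) (nat_lit 217) (nat_lit 4) (nat_lit 443) (nat_lit 353) (nat_lit 344))))) (XT.nd (nat_lit 312) (nat_lit 988) (nat_lit 0) (XT.nd (nat_lit 156) (nat_lit 1064) (nat_lit 0) (XT.nd (nat_lit 78) (nat_lit 532) (nat_lit 0) (XT.lf (nat_lit 0) (nat_lit 880034455) (nat_lit 608) (nat_lit 310537744) (nat_lit 76) (nat_lit 7445389128) (nat_lit 208) (nat_lit 5) (nat_lit 216) (nat_lit 5) (nat_lit 209) (nat_lit 5) (nat_lit 444) (nat_lit 353) (nat_lit 343)) (XT.lf (nat_lit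 0) (nat_lit 4392462941) (nat_lit 608) (nat_lit 2786155951) (nat_lit 76) (nat_lit 1534105044) (nat_lit 201) (nat_lit 5) (nat_lit 209) (nat_lit 5) (nat_lit 202) (nat_lit 4) (nat_lit 445) (nat_lit 353) (nat_lit 342))) (XT.nd (nat_lit 78) (nat_lit 608) (nat_lit 0) (XT.lf (nat_lit 0) (nat_lit 3462354005) (nat_lit 456) (nat_lit 4488440876) (nat_lit 532) (nat_lit 840746608) (nat_lit 195) (nat_lit 5) (nat_lit 201) (nat_lit 5) (nat_lit 202) (nat_lit 4) (nat_lit 446) (nat_lit 353) (nat_lit 341)) (XT.lf (nat_lit 0) (nat_lit 919307928) (nat_lit 532) (nat_lit 1721726075) (nat_lit 608) (nat_lit 6231217284) (nat_lit 187) (nat_lit 5) (nat_lit 194) (nat_lit 5) (nat_lit 195) (nat_lit 5) (nat_lit 447) (nat_lit 353) (nat_lit 340)))) (XT.nd (nat_lit 156) (nat_lit 456) (nat_lit 0) (XT.nd (nat_lit 78) (nat_lit 532) (nat_lit 0) (XT.lf (nat_lit 0) (nat_lit 6168231846) (nat_lit 608) (nat_lit 1679387125) (nat_lit 76) (nat_lit 1107135276)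 (nat_lit 187) (nat_lit 5) (nat_lit 195) (nat_lit 5) (nat_lit 188) (nat_lit 4) (nat_lit 448) (nat_lit 353) (nat_lit 339)) (XT.lf (nat_lit 0) (nat_lit 704277289) (nat_lit 532) (nat_lit 4350105302) (nat_lit 76) (nat_lit 3984725031) (nat_lit 180) (nat_lit 5) (nat_lit 187) (nat_lit 5) (nat_lit 181) (nat_lit 5) (nat_lit 449) (nat_lit 353) (nat_lit 338))) (XT.nd (nat_lit 78) (nat_lit 0) (nat_lit 0) (XT.lf (nat_lit 0) (nat_lit 2014163204) (nat_lit 456) (nat_lit 2183059368) (nat_lit 532) (nat_lit 4928193408) (nat_lit 174) (nat_lit 5) (nat_lit 180) (nat_lit 5) (nat_lit 181) (nat_lit 5) (nat_lit 450) (nat_lit 353) (nat_lit 337)) (XT.lf (nat_lit 0) (nat_lit 7739880189) (nat_lit 532) (nat_lit 730014381) (nat_lit 76) (nat_lit 743987410) (nat_lit 174) (nat_lit 5) (nat_lit 181) (nat_lit 5) (nat_lit 175) (nat_lit 4) (nat_lit 451) (nat_lit 353) (nat_lit 336))))))))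
noncomputable def xc43 : XT := (XT.nd (nat_lit 2184) (nat_lit 3496) (nat_lit 0) (XT.nd (nat_lit 1092) (nat_lit 2660) (nat_lit 0) (XT.nd (nat_lit 546) (nat_lit 1976) (nat_lit 0) (XT.nd (nat_lit 234) (nat_lit 988) (nat_lit 0) (XT.nd (nat_lit 78) (nat_lit 836) (nat_lit 0) (XT.lf (nat_lit 0) (nat_lit 2020938903) (nat_lit 532) (nat_lit 3552763727) (nat_lit 76) (nat_lit 3730205164) (nat_lit 167) (nat_lit 5) (nat_lit 174) (nat_lit 5) (nat_lit 168) (nat_lit 5) (nat_lit 452) (nat_lit 353) (nat_lit 335)) (XT.nd (nat_lit 78) (nat_lit 380) (nat_lit 0) (XT.lf (nat_lit 0) (nat_lit 2929280571) (nat_lit 456) (nat_lit 2607605905) (nat_lit 532) (nat_lit 3859262785) (nat_lit 161) (nat_lit 5) (nat_lit 167) (nat_lit 5) (nat_lit 168) (nat_lit 5) (nat_lit 453) (nat_lit 353) (nat_lit 334)) (XT.lf (nat_lit 0) (nat_lit 20804398) (nat_lit 380) (nat_lit 9076480282) (nat_lit 456) (nat_lit 393494614) (nat_lit 156) (nat_lit 5) (nat_lit 161)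 (nat_lit 5) (nat_lit 162) (nat_lit 4) (nat_lit 454) (nat_lit 353) (nat_lit 333)))) (XT.nd (nat_lit 156) (nat_lit 456) (nat_lit 0) (XT.nd (nat_lit 78) (nat_lit 456) (nat_lit 0) (XT.lf (nat_lit 0) (nat_lit 3108796542) (nat_lit 456) (nat_lit 2974683892) (nat_lit 76) (nat_lit 3503270693) (nat_lit 155) (nat_lit 5) (nat_lit 161) (nat_lit 5) (nat_lit 156) (nat_lit 5) (nat_lit 455) (nat_lit 353) (nat_lit 332)) (XT.lf (nat_lit 0) (nat_lit 3620699645) (nat_lit 456) (nat_lit 3027165864) (nat_lit 532) (nat_lit 3037309699) (nat_lit 149) (nat_lit 5) (nat_lit 155) (nat_lit 5) (nat_lit 156) (nat_lit 5) (nat_lit 456) (nat_lit 353) (nat_lit 331))) (XT.nd (nat_lit 78) (nat_lit 0) (nat_lit 0) (XT.lf (nat_lit 0) (nat_lit 438767817) (nat_lit 456) (nat_lit 9254679270) (nat_lit 76) (nat_lit 92627018) (nat_lit 143) (nat_lit 5) (nat_lit 149) (nat_lit 5) (nat_lit 144) (nat_lit 5) (nat_lit 457) (nat_lit 353) (nat_lit 330)) (XT.lf (nat_lit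 0) (nat_lit 3953773103) (nat_lit 456) (nat_lit 2662522629) (nat_lit 76) (nat_lit 3272115616) (nat_lit 143) (nat_lit 5) (nat_lit 149) (nat_lit 5) (nat_lit 144) (nat_lit 5) (nat_lit 458) (nat_lit 353) (nat_lit 329))))) (XT.nd (nat_lit 234) (nat_lit 1140) (nat_lit 0) (XT.nd (nat_lit 78) (nat_lit 456) (nat_lit 0) (XT.lf (nat_lit 0) (nat_lit 4040645275) (nat_lit 380) (nat_lit 3474692268) (nat_lit 456) (nat_lit 2477955569) (nat_lit 138) (nat_lit 5) (nat_lit 143) (nat_lit 5) (nat_lit 144) (nat_lit 5) (nat_lit 459) (nat_lit 353) (nat_lit 328)) (XT.nd (nat_lit 78) (nat_lit 0) (nat_lit 0) (XT.lf (nat_lit 0) (nat_lit 742849297) (nat_lit 380) (nat_lit 264255304) (nat_lit 456) (nat_lit 9093594173) (nat_lit 132) (nat_lit 5) (nat_lit 137) (nat_lit 5) (nat_lit 138) (nat_lit 5) (nat_lit 460) (nat_lit 353) (nat_lit 327)) (XT.lf (nat_lit 0) (nat_lit 4538993180) (nat_lit 456) (nat_lit 2667115839) (nat_lit 76) (nat_lit 3003631437)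 (nat_lit 132) (nat_lit 5) (nat_lit 138) (nat_lit 5) (nat_lit 133) (nat_lit 5) (nat_lit 461) (nat_lit 353) (nat_lit 326)))) (XT.nd (nat_lit 156) (nat_lit 380) (nat_lit 0) (XT.nd (nat_lit 78) (nat_lit 380) (nat_lit 0) (XT.lf (nat_lit 0) (nat_lit 4137010676) (nat_lit 380) (nat_lit 3984609915) (nat_lit 456) (nat_lit 2199761570) (nat_lit 127) (nat_lit 5) (nat_lit 132) (nat_lit 5) (nat_lit 133) (nat_lit 5) (nat_lit 462) (nat_lit 353) (nat_lit 325)) (XT.lf (nat_lit 0) (nat_lit 604466484) (nat_lit 304) (nat_lit 692168444) (nat_lit 380) (nat_lit 9138996591) (nat_lit 122) (nat_lit 5) (nat_lit 126) (nat_lit 5) (nat_lit 127) (nat_lit 5) (nat_lit 463) (nat_lit 353) (nat_lit 324))) (XT.nd (nat_lit 78) (nat_lit 380) (nat_lit 0) (XT.lf (nat_lit 0) (nat_lit 4844566689) (nat_lit 380) (nat_lit 3044025792) (nat_lit 76) (nat_lit 2663081318) (nat_lit 122) (nat_lit 5) (nat_lit 127) (nat_lit 5) (nat_lit 123) (nat_lit 5) (nat_lit 464)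 (nat_lit 353) (nat_lit 323)) (XT.lf (nat_lit 0) (nat_lit 3852793689) (nat_lit 380) (nat_lit 4593153506) (nat_lit 456) (nat_lit 2224459522) (nat_lit 117) (nat_lit 5) (nat_lit 122) (nat_lit 5) (nat_lit 123) (nat_lit 5) (nat_lit 465) (nat_lit 353) (nat_lit 322)))))) (XT.nd (nat_lit 546) (nat_lit 1216) (nat_lit 0) (XT.nd (nat_lit 234) (nat_lit 760) (nat_lit 0) (XT.nd (nat_lit 78) (nat_lit 304) (nat_lit 0) (XT.lf (nat_lit 0) (nat_lit 57526215) (nat_lit 304) (nat_lit 1226858395) (nat_lit 380) (nat_lit 9507496923) (nat_lit 112) (nat_lit 5) (nat_lit 116) (nat_lit 5) (nat_lit 117) (nat_lit 5) (nat_lit 466) (nat_lit 353) (nat_lit 321)) (XT.nd (nat_lit 78) (nat_lit 304) (nat_lit 0) (XT.lf (nat_lit 0) (nat_lit 4847343232) (nat_lit 380) (nat_lit 3854139004) (nat_lit 76) (nat_lit 2213753536) (nat_lit 112) (nat_lit 5) (nat_lit 117) (nat_lit 5) (nat_lit 113) (nat_lit 5) (nat_lit 467) (nat_lit 353) (nat_lit 320)) (XT.lf (nat_lit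 0) (nat_lit 3125480660) (nat_lit 304) (nat_lit 5338728104) (nat_lit 380) (nat_lit 2577213479) (nat_lit 108) (nat_lit 5) (nat_lit 112) (nat_lit 5) (nat_lit 113) (nat_lit 5) (nat_lit 468) (nat_lit 353) (nat_lit 319)))) (XT.nd (nat_lit 156) (nat_lit 380) (nat_lit 0) (XT.nd (nat_lit 78) (nat_lit 304) (nat_lit 0) (XT.lf (nat_lit 0) (nat_lit 950769366) (nat_lit 380) (nat_lit 950457794) (nat_lit 76) (nat_lit 9269187278) (nat_lit 107) (nat_lit 5) (nat_lit 112) (nat_lit 5) (nat_lit 108) (nat_lit 5) (nat_lit 469) (nat_lit 353) (nat_lit 318)) (XT.lf (nat_lit 0) (nat_lit 4520634653) (nat_lit 380) (nat_lit 5164320520) (nat_lit 76) (nat_lit 1616591021) (nat_lit 103) (nat_lit 5) (nat_lit 108) (nat_lit 5) (nat_lit 104) (nat_lit 5) (nat_lit 470) (nat_lit 353) (nat_lit 317))) (XT.nd (nat_lit 78) (nat_lit 76) (nat_lit 0) (XT.lf (nat_lit 0) (nat_lit 1886371904) (nat_lit 304) (nat_lit 6262295260) (nat_lit 380) (nat_lit 3286914745)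 (nat_lit 99) (nat_lit 5) (nat_lit 103) (nat_lit 5) (nat_lit 104) (nat_lit 5) (nat_lit 471) (nat_lit 353) (nat_lit 316)) (XT.lf (nat_lit 0) (nat_lit 263837625) (nat_lit 380) (nat_lit 2495804185) (nat_lit 76) (nat_lit 8812826478) (nat_lit 98) (nat_lit 5) (nat_lit 103) (nat_lit 5) (nat_lit 99) (nat_lit 5) (nat_lit 472) (nat_lit 353) (nat_lit 315))))) (XT.nd (nat_lit 234) (nat_lit 684) (nat_lit 0) (XT.nd (nat_lit 78) (nat_lit 304) (nat_lit 0) (XT.lf (nat_lit 0) (nat_lit 3833902891) (nat_lit 304) (nat_lit 7048131042) (nat_lit 76) (nat_lit 829793497) (nat_lit 95) (nat_lit 5) (nat_lit 99) (nat_lit 5) (nat_lit 96) (nat_lit 5) (nat_lit 473) (nat_lit 353) (nat_lit 314)) (XT.nd (nat_lit 78) (nat_lit 0) (nat_lit 0) (XT.lf (nat_lit 0) (nat_lit 59842150) (nat_lit 304) (nat_lit 7407788461) (nat_lit 380) (nat_lit 4386513369) (nat_lit 91) (nat_lit 5) (nat_lit 95) (nat_lit 5) (nat_lit 96) (nat_lit 5) (nat_lit 474) (nat_lit 353)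 (nat_lit 313)) (XT.lf (nat_lit 0) (nat_lit 7336833451) (nat_lit 304) (nat_lit 3841636229) (nat_lit 380) (nat_lit 820763593) (nat_lit 91) (nat_lit 5) (nat_lit 95) (nat_lit 5) (nat_lit 96) (nat_lit 5) (nat_lit 475) (nat_lit 353) (nat_lit 312)))) (XT.nd (nat_lit 156) (nat_lit 380) (nat_lit 0) (XT.nd (nat_lit 78) (nat_lit 0) (nat_lit 0) (XT.lf (nat_lit 0) (nat_lit 2559512581) (nat_lit 228) (nat_lit 194157938) (nat_lit 304) (nat_lit 9393716571) (nat_lit 87) (nat_lit 5) (nat_lit 90) (nat_lit 5) (nat_lit 91) (nat_lit 5) (nat_lit 476) (nat_lit 353) (nat_lit 311)) (XT.lf (nat_lit 0) (nat_lit 6400916180) (nat_lit 304) (nat_lit 2405503435) (nat_lit 76) (nat_lit 3491743881) (nat_lit 87) (nat_lit 5) (nat_lit 91) (nat_lit 5) (nat_lit 88) (nat_lit 5) (nat_lit 477) (nat_lit 353) (nat_lit 310))) (XT.nd (nat_lit 78) (nat_lit 76) (nat_lit 0) (XT.lf (nat_lit 0) (nat_lit 4916900696) (nat_lit 304) (nat_lit 5196154254) (nat_lit 380)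 (nat_lit 2339075507) (nat_lit 83) (nat_lit 5) (nat_lit 87) (nat_lit 5) (nat_lit 88) (nat_lit 5) (nat_lit 478) (nat_lit 353) (nat_lit 309)) (XT.lf (nat_lit 0) (nat_lit 1248419255) (nat_lit 380) (nat_lit 265913460) (nat_lit 76) (nat_lit 11095188319) (nat_lit 82) (nat_lit 5) (nat_lit 87) (nat_lit 5) (nat_lit 83) (nat_lit 5) (nat_lit 479) (nat_lit 353) (nat_lit 308))))))) (XT.nd (nat_lit 1092) (nat_lit 1520) (nat_lit 0) (XT.nd (nat_lit 546) (nat_lit 912) (nat_lit 0) (XT.nd (nat_lit 234) (nat_lit 608) (nat_lit 0) (XT.nd (nat_lit 78) (nat_lit 228) (nat_lit 0) (XT.lf (nat_lit 0) (nat_lit 4897307822) (nat_lit 304) (nat_lit 5622836230) (nat_lit 76) (nat_lit 2249200048) (nat_lit 79) (nat_lit 5) (nat_lit 83) (nat_lit 5) (nat_lit 80) (nat_lit 5) (nat_lit 480) (nat_lit 353) (nat_lit 307)) (XT.nd (nat_lit 78) (nat_lit 0) (nat_lit 0) (XT.lf (nat_lit 0) (nat_lit 1725199472) (nat_lit 228) (nat_lit 6876844880) (nat_lit 304) (nat_lit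 4330674799) (nat_lit 76) (nat_lit 5) (nat_lit 79) (nat_lit 5) (nat_lit 80) (nat_lit 5) (nat_lit 481) (nat_lit 353) (nat_lit 306)) (XT.lf (nat_lit 0) (nat_lit 9231007542) (nat_lit 228) (nat_lit 3147807087) (nat_lit 304) (nat_lit 720600968) (nat_lit 76) (nat_lit 5) (nat_lit 79) (nat_lit 5) (nat_lit 80) (nat_lit 5) (nat_lit 482) (nat_lit 353) (nat_lit 305)))) (XT.nd (nat_lit 156) (nat_lit 304) (nat_lit 0) (XT.nd (nat_lit 78) (nat_lit 0) (nat_lit 0) (XT.lf (nat_lit 0) (nat_lit 2911169767) (nat_lit 304) (nat_lit 9693211620) (nat_lit 76) (nat_lit 664925416) (nat_lit 72) (nat_lit 5) (nat_lit 76) (nat_lit 5) (nat_lit 73) (nat_lit 5) (nat_lit 483) (nat_lit 353) (nat_lit 304)) (XT.lf (nat_lit 0) (nat_lit 6613818851) (nat_lit 304) (nat_lit 2310801376) (nat_lit 76) (nat_lit 4517734452) (nat_lit 72) (nat_lit 5) (nat_lit 76) (nat_lit 5) (nat_lit 73) (nat_lit 5) (nat_lit 484) (nat_lit 353) (nat_lit 303))) (XT.nd (nat_lit 78)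 (nat_lit 76) (nat_lit 0) (XT.lf (nat_lit 0) (nat_lit 5224184974) (nat_lit 228) (nat_lit 5161926765) (nat_lit 304) (nat_lit 3232851664) (nat_lit 69) (nat_lit 5) (nat_lit 72) (nat_lit 5) (nat_lit 73) (nat_lit 5) (nat_lit 485) (nat_lit 353) (nat_lit 302)) (XT.lf (nat_lit 0) (nat_lit 406404239) (nat_lit 304) (nat_lit 924214401) (nat_lit 76) (nat_lit 12468893267) (nat_lit 68) (nat_lit 5) (nat_lit 72) (nat_lit 5) (nat_lit 69) (nat_lit 5) (nat_lit 486) (nat_lit 353) (nat_lit 301))))) (XT.nd (nat_lit 234) (nat_lit 456) (nat_lit 0) (XT.nd (nat_lit 78) (nat_lit 228) (nat_lit 0) (XT.lf (nat_lit 0) (nat_lit 4098199257) (nat_lit 304) (nat_lit 7300356328) (nat_lit 76) (nat_lit 2584238608) (nat_lit 65) (nat_lit 5) (nat_lit 69) (nat_lit 5) (nat_lit 66) (nat_lit 5) (nat_lit 487) (nat_lit 353) (nat_lit 300)) (XT.nd (nat_lit 78) (nat_lit 0) (nat_lit 0) (XT.lf (nat_lit 0) (nat_lit 215483473) (nat_lit 228) (nat_lit 7627472401) (nat_lit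 304) (nat_lit 6327214555) (nat_lit 62) (nat_lit 5) (nat_lit 65) (nat_lit 5) (nat_lit 66) (nat_lit 5) (nat_lit 488) (nat_lit 353) (nat_lit 299)) (XT.lf (nat_lit 0) (nat_lit 7918387736) (nat_lit 228) (nat_lit 3756208694) (nat_lit 304) (nat_lit 2686468588) (nat_lit 62) (nat_lit 5) (nat_lit 65) (nat_lit 5) (nat_lit 66) (nat_lit 5) (nat_lit 489) (nat_lit 353) (nat_lit 298)))) (XT.nd (nat_lit 156) (nat_lit 228) (nat_lit 0) (XT.nd (nat_lit 78) (nat_lit 0) (nat_lit 0) (XT.lf (nat_lit 0) (nat_lit 985853468) (nat_lit 228) (nat_lit 13390695917) (nat_lit 76) (nat_lit 179660302) (nat_lit 59) (nat_lit 5) (nat_lit 62) (nat_lit 5) (nat_lit 60) (nat_lit 5) (nat_lit 490) (nat_lit 353) (nat_lit 297)) (XT.lf (nat_lit 0) (nat_lit 4727712073) (nat_lit 228) (nat_lit 5845799245) (nat_lit 76) (nat_lit 4180759537) (nat_lit 59) (nat_lit 5) (nat_lit 62) (nat_lit 5) (nat_lit 60) (nat_lit 5) (nat_lit 491) (nat_lit 353) (nat_lit 296))) (XT.nd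 (nat_lit 78) (nat_lit 0) (nat_lit 0) (XT.lf (nat_lit 0) (nat_lit 1813331996) (nat_lit 228) (nat_lit 6707194961) (nat_lit 304) (nat_lit 6436253703) (nat_lit 56) (nat_lit 5) (nat_lit 59) (nat_lit 5) (nat_lit 60) (nat_lit 5) (nat_lit 492) (nat_lit 353) (nat_lit 295)) (XT.lf (nat_lit 0) (nat_lit 9644839339) (nat_lit 228) (nat_lit 2748242176) (nat_lit 304) (nat_lit 2770191084) (nat_lit 56) (nat_lit 5) (nat_lit 59) (nat_lit 5) (nat_lit 60) (nat_lit 5) (nat_lit 493) (nat_lit 353) (nat_lit 294)))))) (XT.nd (nat_lit 546) (nat_lit 608) (nat_lit 0) (XT.nd (nat_lit 234) (nat_lit 456) (nat_lit 0) (XT.nd (nat_lit 78) (nat_lit 228) (nat_lit 0) (XT.lf (nat_lit 0) (nat_lit 944374761) (nat_lit 228) (nat_lit 13159944074) (nat_lit 76) (nat_lit 1269701058) (nat_lit 53) (nat_lit 5) (nat_lit 56) (nat_lit 5) (nat_lit 54) (nat_lit 5) (nat_lit 494) (nat_lit 353) (nat_lit 293)) (XT.nd (nat_lit 78) (nat_lit 228) (nat_lit 0) (XT.lf (nat_lit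 0) (nat_lit 4716903288) (nat_lit 228) (nat_lit 5508489374) (nat_lit 76) (nat_lit 5362817021) (nat_lit 53) (nat_lit 5) (nat_lit 56) (nat_lit 5) (nat_lit 54) (nat_lit 5) (nat_lit 495) (nat_lit 353) (nat_lit 292)) (XT.lf (nat_lit 0) (nat_lit 2267402784) (nat_lit 228) (nat_lit 6278134843) (nat_lit 304) (nat_lit 7261541409) (nat_lit 50) (nat_lit 5) (nat_lit 53) (nat_lit 5) (nat_lit 54) (nat_lit 5) (nat_lit 496) (nat_lit 353) (nat_lit 291)))) (XT.nd (nat_lit 156) (nat_lit 228) (nat_lit 0) (XT.nd (nat_lit 78) (nat_lit 228) (nat_lit 0) (XT.lf (nat_lit 0) (nat_lit 10215536523) (nat_lit 228) (nat_lit 2238398500) (nat_lit 304) (nat_lit 3576335646) (nat_lit 50) (nat_lit 5) (nat_lit 53) (nat_lit 5) (nat_lit 54) (nat_lit 5) (nat_lit 497) (nat_lit 353) (nat_lit 290)) (XT.lf (nat_lit 0) (nat_lit 172198874) (nat_lit 228) (nat_lit 14237550593) (nat_lit 76) (nat_lit 1848320939) (nat_lit 47) (nat_lit 5) (nat_lit 50) (nat_lit 5) (nat_lit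 48) (nat_lit 5) (nat_lit 498) (nat_lit 353) (nat_lit 289))) (XT.nd (nat_lit 78) (nat_lit 228) (nat_lit 0) (XT.lf (nat_lit 0) (nat_lit 3968753619) (nat_lit 228) (nat_lit 6494511640) (nat_lit 76) (nat_lit 6026277553) (nat_lit 47) (nat_lit 5) (nat_lit 50) (nat_lit 5) (nat_lit 48) (nat_lit 5) (nat_lit 499) (nat_lit 353) (nat_lit 288)) (XT.lf (nat_lit 0) (nat_lit 1365017578) (nat_lit 228) (nat_lit 6452525396) (nat_lit 304) (nat_lit 8908583658) (nat_lit 44) (nat_lit 5) (nat_lit 47) (nat_lit 5) (nat_lit 48) (nat_lit 5) (nat_lit 500) (nat_lit 353) (nat_lit 287))))) (XT.nd (nat_lit 312) (nat_lit 380) (nat_lit 0) (XT.nd (nat_lit 156) (nat_lit 76) (nat_lit 0) (XT.nd (nat_lit 78) (nat_lit 152) (nat_lit 0) (XT.lf (nat_lit 0) (nat_lit 9413869449) (nat_lit 228) (nat_lit 2340736632) (nat_lit 304) (nat_lit 5212617968) (nat_lit 44) (nat_lit 5) (nat_lit 47) (nat_lit 5) (nat_lit 48) (nat_lit 5) (nat_lit 501) (nat_lit 353) (nat_lit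 286)) (XT.lf (nat_lit 0) (nat_lit 347786441) (nat_lit 152) (nat_lit 15405113884) (nat_lit 228) (nat_lit 1460601016) (nat_lit 42) (nat_lit 5) (nat_lit 44) (nat_lit 5) (nat_lit 45) (nat_lit 4) (nat_lit 502) (nat_lit 353) (nat_lit 285))) (XT.nd (nat_lit 78) (nat_lit 0) (nat_lit 0) (XT.lf (nat_lit 0) (nat_lit 2370193618) (nat_lit 228) (nat_lit 9040916858) (nat_lit 76) (nat_lit 6052598361) (nat_lit 41) (nat_lit 5) (nat_lit 44) (nat_lit 5) (nat_lit 42) (nat_lit 5) (nat_lit 503) (nat_lit 353) (nat_lit 284)) (XT.lf (nat_lit 0) (nat_lit 6226937153) (nat_lit 228) (nat_lit 1123572751) (nat_lit 76) (nat_lit 10368846956) (nat_lit 41) (nat_lit 5) (nat_lit 44) (nat_lit 5) (nat_lit 42) (nat_lit 5) (nat_lit 504) (nat_lit 353) (nat_lit 283)))) (XT.nd (nat_lit 156) (nat_lit 228) (nat_lit 0) (XT.nd (nat_lit 78) (nat_lit 0) (nat_lit 0) (XT.lf (nat_lit 0) (nat_lit 6990588273) (nat_lit 152) (nat_lit 3185097344) (nat_lit 228) (nat_lit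 7804141964) (nat_lit 39) (nat_lit 5) (nat_lit 41) (nat_lit 5) (nat_lit 42) (nat_lit 5) (nat_lit 505) (nat_lit 353) (nat_lit 282)) (XT.lf (nat_lit 0) (nat_lit 14187495445) (nat_lit 228) (nat_lit 3023377968) (nat_lit 76) (nat_lit 1034959570) (nat_lit 39) (nat_lit 5) (nat_lit 42) (nat_lit 5) (nat_lit 40) (nat_lit 4) (nat_lit 506) (nat_lit 353) (nat_lit 281))) (XT.nd (nat_lit 78) (nat_lit 76) (nat_lit 0) (XT.lf (nat_lit 0) (nat_lit 5095249797) (nat_lit 152) (nat_lit 13208653978) (nat_lit 228) (nat_lit 212774334) (nat_lit 37) (nat_lit 5) (nat_lit 39) (nat_lit 5) (nat_lit 40) (nat_lit 4) (nat_lit 507) (nat_lit 353) (nat_lit 280)) (XT.lf (nat_lit 0) (nat_lit 3651701681) (nat_lit 228) (nat_lit 5451862548) (nat_lit 76) (nat_lit 9689087686) (nat_lit 36) (nat_lit 5) (nat_lit 39) (nat_lit 5) (nat_lit 37) (nat_lit 5) (nat_lit 508) (nat_lit 353) (nat_lit 279))))))))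
noncomputable def xc44 : XT := (XT.nd (nat_lit 53742) (nat_lit 0) (nat_lit 7600) (XT.nd (nat_lit 1092) (nat_lit 532) (nat_lit 0) (XT.nd (nat_lit 546) (nat_lit 380) (nat_lit 0) (XT.nd (nat_lit 234) (nat_lit 380) (nat_lit 0) (XT.nd (nat_lit 78) (nat_lit 0) (nat_lit 0) (XT.lf (nat_lit 0) (nat_lit 2659247442) (nat_lit 152) (nat_lit 4919454788) (nat_lit 228) (nat_lit 11495659622) (nat_lit 34) (nat_lit 5) (nat_lit 36) (nat_lit 5) (nat_lit 37) (nat_lit 5) (nat_lit 509) (nat_lit 353) (nat_lit 278)) (XT.nd (nat_lit 78) (nat_lit 0) (nat_lit 0) (XT.lf (nat_lit 0) (nat_lit 10955504163) (nat_lit 152) (nat_lit 636380555) (nat_lit 228) (nat_lit 7769674767) (nat_lit 34) (nat_lit 5) (nat_lit 36) (nat_lit 5) (nat_lit 37) (nat_lit 5) (nat_lit 510) (nat_lit 353) (nat_lit 277)) (XT.lf (nat_lit 0) (nat_lit 15681048099) (nat_lit 228) (nat_lit 311458802) (nat_lit 76) (nat_lit 3662086040) (nat_lit 34) (nat_lit 5) (nat_lit 37) (nat_lit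 5) (nat_lit 35) (nat_lit 4) (nat_lit 511) (nat_lit 353) (nat_lit 276)))) (XT.nd (nat_lit 156) (nat_lit 152) (nat_lit 0) (XT.nd (nat_lit 78) (nat_lit 76) (nat_lit 0) (XT.lf (nat_lit 0) (nat_lit 7996265291) (nat_lit 152) (nat_lit 11883904401) (nat_lit 228) (nat_lit 72759964) (nat_lit 32) (nat_lit 5) (nat_lit 34) (nat_lit 5) (nat_lit 35) (nat_lit 4) (nat_lit 512) (nat_lit 353) (nat_lit 275)) (XT.lf (nat_lit 0) (nat_lit 3828999405) (nat_lit 228) (nat_lit 3857674062) (nat_lit 76) (nat_lit 12570574538) (nat_lit 31) (nat_lit 5) (nat_lit 34) (nat_lit 5) (nat_lit 32) (nat_lit 5) (nat_lit 513) (nat_lit 353) (nat_lit 274))) (XT.nd (nat_lit 78) (nat_lit 0) (nat_lit 0) (XT.lf (nat_lit 0) (nat_lit 4412176685) (nat_lit 152) (nat_lit 3396921423) (nat_lit 228) (nat_lit 12758525167) (nat_lit 29) (nat_lit 5) (nat_lit 31) (nat_lit 5) (nat_lit 32) (nat_lit 5) (nat_lit 514) (nat_lit 353) (nat_lit 273)) (XT.lf (nat_lit 0) (nat_lit 11873929046)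 (nat_lit 228) (nat_lit 8039094228) (nat_lit 76) (nat_lit 971085796) (nat_lit 29) (nat_lit 5) (nat_lit 32) (nat_lit 5) (nat_lit 30) (nat_lit 4) (nat_lit 515) (nat_lit 353) (nat_lit 272))))) (XT.nd (nat_lit 234) (nat_lit 228) (nat_lit 0) (XT.nd (nat_lit 78) (nat_lit 76) (nat_lit 0) (XT.lf (nat_lit 0) (nat_lit 171696896) (nat_lit 76) (nat_lit 15845223503) (nat_lit 152) (nat_lit 5190072424) (nat_lit 28) (nat_lit 5) (nat_lit 29) (nat_lit 5) (nat_lit 30) (nat_lit 4) (nat_lit 516) (nat_lit 353) (nat_lit 271)) (XT.nd (nat_lit 78) (nat_lit 76) (nat_lit 0) (XT.lf (nat_lit 0) (nat_lit 8608345378) (nat_lit 76) (nat_lit 11661842765) (nat_lit 152) (nat_lit 1265603186) (nat_lit 28) (nat_lit 5) (nat_lit 29) (nat_lit 5) (nat_lit 30) (nat_lit 4) (nat_lit 517) (nat_lit 353) (nat_lit 270)) (XT.lf (nat_lit 0) (nat_lit 2675267249) (nat_lit 152) (nat_lit 4721967373) (nat_lit 76) (nat_lit 14474104673) (nat_lit 27) (nat_lit 5) (nat_lit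 29) (nat_lit 5) (nat_lit 28) (nat_lit 5) (nat_lit 518) (nat_lit 353) (nat_lit 269)))) (XT.nd (nat_lit 156) (nat_lit 76) (nat_lit 0) (XT.nd (nat_lit 78) (nat_lit 0) (nat_lit 0) (XT.lf (nat_lit 0) (nat_lit 3641154808) (nat_lit 152) (nat_lit 3034836691) (nat_lit 228) (nat_lit 15537484849) (nat_lit 25) (nat_lit 5) (nat_lit 27) (nat_lit 5) (nat_lit 28) (nat_lit 5) (nat_lit 519) (nat_lit 353) (nat_lit 268)) (XT.lf (nat_lit 0) (nat_lit 10772216480) (nat_lit 228) (nat_lit 10381592509) (nat_lit 76) (nat_lit 1408342425) (nat_lit 25) (nat_lit 5) (nat_lit 28) (nat_lit 5) (nat_lit 26) (nat_lit 4) (nat_lit 520) (nat_lit 353) (nat_lit 267))) (XT.nd (nat_lit 78) (nat_lit 76) (nat_lit 0) (XT.lf (nat_lit 0) (nat_lit 14945369738) (nat_lit 228) (nat_lit 2092168056) (nat_lit 76) (nat_lit 5880367011) (nat_lit 25) (nat_lit 5) (nat_lit 28) (nat_lit 5) (nat_lit 26) (nat_lit 4) (nat_lit 521) (nat_lit 353) (nat_lit 266)) (XT.lf (nat_lit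 0) (nat_lit 6402881690) (nat_lit 76) (nat_lit 12816073695) (nat_lit 152) (nat_lit 4061483294) (nat_lit 24) (nat_lit 5) (nat_lit 25) (nat_lit 5) (nat_lit 26) (nat_lit 4) (nat_lit 522) (nat_lit 353) (nat_lit 265)))))) (XT.nd (nat_lit 546) (nat_lit 228) (nat_lit 0) (XT.nd (nat_lit 234) (nat_lit 76) (nat_lit 0) (XT.nd (nat_lit 78) (nat_lit 228) (nat_lit 0) (XT.lf (nat_lit 0) (nat_lit 15052344562) (nat_lit 76) (nat_lit 8515303015) (nat_lit 152) (nat_lit 82787667) (nat_lit 24) (nat_lit 5) (nat_lit 25) (nat_lit 5) (nat_lit 26) (nat_lit 4) (nat_lit 523) (nat_lit 353) (nat_lit 264)) (XT.nd (nat_lit 78) (nat_lit 152) (nat_lit 0) (XT.lf (nat_lit 0) (nat_lit 3899253510) (nat_lit 152) (nat_lit 222159171) (nat_lit 76) (nat_lit 19906389139) (nat_lit 23) (nat_lit 5) (nat_lit 25) (nat_lit 5) (nat_lit 24) (nat_lit 5) (nat_lit 524) (nat_lit 353) (nat_lit 263)) (XT.lf (nat_lit 0) (nat_lit 7993255133) (nat_lit 228) (nat_lit 16026380609)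 (nat_lit 76) (nat_lit 392404917) (nat_lit 21) (nat_lit 5) (nat_lit 24) (nat_lit 5) (nat_lit 22) (nat_lit 4) (nat_lit 525) (nat_lit 353) (nat_lit 262)))) (XT.nd (nat_lit 156) (nat_lit 0) (nat_lit 0) (XT.nd (nat_lit 78) (nat_lit 76) (nat_lit 0) (XT.lf (nat_lit 0) (nat_lit 12174382135) (nat_lit 228) (nat_lit 7705126521) (nat_lit 76) (nat_lit 4924355060) (nat_lit 21) (nat_lit 5) (nat_lit 24) (nat_lit 5) (nat_lit 22) (nat_lit 4) (nat_lit 526) (nat_lit 353) (nat_lit 261)) (XT.lf (nat_lit 0) (nat_lit 750697048) (nat_lit 76) (nat_lit 15670220953) (nat_lit 152) (nat_lit 8782973772) (nat_lit 20) (nat_lit 5) (nat_lit 21) (nat_lit 5) (nat_lit 22) (nat_lit 4) (nat_lit 527) (nat_lit 353) (nat_lit 260))) (XT.nd (nat_lit 78) (nat_lit 0) (nat_lit 0) (XT.lf (nat_lit 0) (nat_lit 9438655329) (nat_lit 76) (nat_lit 11342530739) (nat_lit 152) (nat_lit 4830162475) (nat_lit 20) (nat_lit 5) (nat_lit 21) (nat_lit 5) (nat_lit 22) (nat_lit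 4) (nat_lit 528) (nat_lit 353) (nat_lit 259)) (XT.lf (nat_lit 0) (nat_lit 18259758288) (nat_lit 76) (nat_lit 6946446336) (nat_lit 152) (nat_lit 821203021) (nat_lit 20) (nat_lit 5) (nat_lit 21) (nat_lit 5) (nat_lit 22) (nat_lit 4) (nat_lit 529) (nat_lit 353) (nat_lit 258))))) (XT.nd (nat_lit 51792) (nat_lit 0) (nat_lit 17708) (XT.nd (nat_lit 78) (nat_lit 0) (nat_lit 0) (XT.lf (nat_lit 0) (nat_lit 754050663) (nat_lit 152) (nat_lit 2453756853) (nat_lit 228) (nat_lit 23243905372) (nat_lit 17) (nat_lit 5) (nat_lit 19) (nat_lit 5) (nat_lit 20) (nat_lit 5) (nat_lit 530) (nat_lit 353) (nat_lit 257)) (XT.nd (nat_lit 51636) (nat_lit 0) (nat_lit 19760) (XT.lf (nat_lit 0) (nat_lit 7350599862) (nat_lit 228) (nat_lit 17391769982) (nat_lit 76) (nat_lit 2141145740) (nat_lit 17) (nat_lit 5) (nat_lit 20) (nat_lit 5) (nat_lit 18) (nat_lit 4) (nat_lit 531) (nat_lit 353) (nat_lit 256)) (XT.lf (nat_lit 0) (nat_lit 492944475) (nat_lit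 760) (nat_lit 2937416917) (nat_lit 0) (nat_lit 492944475) (nat_lit 277) (nat_lit 5) (nat_lit 287) (nat_lit 4) (nat_lit 277) (nat_lit 4) (nat_lit 432) (nat_lit 354) (nat_lit 354)))) (XT.nd (nat_lit 156) (nat_lit 1292) (nat_lit 0) (XT.nd (nat_lit 78) (nat_lit 760) (nat_lit 0) (XT.lf (nat_lit 0) (nat_lit 4506194389) (nat_lit 760) (nat_lit 180869007) (nat_lit 0) (nat_lit 3216708550) (nat_lit 277) (nat_lit 5) (nat_lit 287) (nat_lit 4) (nat_lit 277) (nat_lit 4) (nat_lit 433) (nat_lit 354) (nat_lit 353)) (XT.lf (nat_lit 0) (nat_lit 106620213) (nat_lit 760) (nat_lit 2338314811) (nat_lit 76) (nat_lit 5517695800) (nat_lit 267) (nat_lit 5) (nat_lit 277) (nat_lit 5) (nat_lit 268) (nat_lit 4) (nat_lit 434) (nat_lit 354) (nat_lit 352))) (XT.nd (nat_lit 78) (nat_lit 684) (nat_lit 0) (XT.lf (nat_lit 0) (nat_lit 3472353767) (nat_lit 608) (nat_lit 124406105) (nat_lit 684) (nat_lit 4426274081) (nat_lit 259) (nat_lit 5) (nat_lit 267)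 (nat_lit 5) (nat_lit 268) (nat_lit 4) (nat_lit 435) (nat_lit 354) (nat_lit 351)) (XT.lf (nat_lit 0) (nat_lit 1271839011) (nat_lit 684) (nat_lit 5861662402) (nat_lit 684) (nat_lit 951650165) (nat_lit 250) (nat_lit 4) (nat_lit 259) (nat_lit 5) (nat_lit 259) (nat_lit 4) (nat_lit 436) (nat_lit 354) (nat_lit 350))))))) (XT.nd (nat_lit 1092) (nat_lit 4332) (nat_lit 0) (XT.nd (nat_lit 546) (nat_lit 2660) (nat_lit 0) (XT.nd (nat_lit 234) (nat_lit 1748) (nat_lit 0) (XT.nd (nat_lit 78) (nat_lit 1292) (nat_lit 0) (XT.lf (nat_lit 0) (nat_lit 2528486521) (nat_lit 760) (nat_lit 970396517) (nat_lit 76) (nat_lit 4649932227) (nat_lit 249) (nat_lit 5) (nat_lit 259) (nat_lit 5) (nat_lit 250) (nat_lit 4) (nat_lit 437) (nat_lit 354) (nat_lit 349)) (XT.nd (nat_lit 78) (nat_lit 684) (nat_lit 0) (XT.lf (nat_lit 0) (nat_lit 4972673587) (nat_lit 608) (nat_lit 1064771660) (nat_lit 684) (nat_lit 2176781902) (nat_lit 241) (nat_lit 5) (nat_lit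 249) (nat_lit 5) (nat_lit 250) (nat_lit 4) (nat_lit 438) (nat_lit 354) (nat_lit 348)) (XT.lf (nat_lit 0) (nat_lit 1291567351) (nat_lit 684) (nat_lit 5572936731) (nat_lit 76) (nat_lit 1416839197) (nat_lit 232) (nat_lit 5) (nat_lit 241) (nat_lit 5) (nat_lit 233) (nat_lit 4) (nat_lit 439) (nat_lit 354) (nat_lit 347)))) (XT.nd (nat_lit 156) (nat_lit 1216) (nat_lit 0) (XT.nd (nat_lit 78) (nat_lit 0) (nat_lit 0) (XT.lf (nat_lit 0) (nat_lit 378714870) (nat_lit 532) (nat_lit 4393365187) (nat_lit 608) (nat_lit 3578032696) (nat_lit 225) (nat_lit 5) (nat_lit 232) (nat_lit 5) (nat_lit 233) (nat_lit 4) (nat_lit 440) (nat_lit 354) (nat_lit 346)) (XT.lf (nat_lit 0) (nat_lit 6448865908) (nat_lit 532) (nat_lit 1851916404) (nat_lit 608) (nat_lit 119940645) (nat_lit 225) (nat_lit 5) (nat_lit 232) (nat_lit 5) (nat_lit 233) (nat_lit 4) (nat_lit 441) (nat_lit 354) (nat_lit 345))) (XT.nd (nat_lit 78) (nat_lit 532) (nat_lit 0) (XT.lf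 (nat_lit 0) (nat_lit 3336206650) (nat_lit 684) (nat_lit 4393999981) (nat_lit 76) (nat_lit 762660155) (nat_lit 216) (nat_lit 5) (nat_lit 225) (nat_lit 5) (nat_lit 217) (nat_lit 4) (nat_lit 442) (nat_lit 354) (nat_lit 344)) (XT.lf (nat_lit 0) (nat_lit 1684526011) (nat_lit 532) (nat_lit 5154324444) (nat_lit 608) (nat_lit 1728042385) (nat_lit 209) (nat_lit 5) (nat_lit 216) (nat_lit 5) (nat_lit 217) (nat_lit 4) (nat_lit 443) (nat_lit 354) (nat_lit 343))))) (XT.nd (nat_lit 234) (nat_lit 1596) (nat_lit 0) (XT.nd (nat_lit 78) (nat_lit 988) (nat_lit 0) (XT.lf (nat_lit 0) (nat_lit 1718310988) (nat_lit 608) (nat_lit 785568352) (nat_lit 76) (nat_lit 6138876471) (nat_lit 208) (nat_lit 5) (nat_lit 216) (nat_lit 5) (nat_lit 209) (nat_lit 5) (nat_lit 444) (nat_lit 354) (nat_lit 342)) (XT.nd (nat_lit 78) (nat_lit 456) (nat_lit 0) (XT.lf (nat_lit 0) (nat_lit 5190944304) (nat_lit 608) (nat_lit 3303829754) (nat_lit 76) (nat_lit 225556496)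 (nat_lit 201) (nat_lit 5) (nat_lit 209) (nat_lit 5) (nat_lit 202) (nat_lit 4) (nat_lit 445) (nat_lit 354) (nat_lit 341)) (XT.lf (nat_lit 0) (nat_lit 2900029866) (nat_lit 456) (nat_lit 5818024404) (nat_lit 532) (nat_lit 81734190) (nat_lit 195) (nat_lit 5) (nat_lit 201) (nat_lit 5) (nat_lit 202) (nat_lit 4) (nat_lit 446) (nat_lit 354) (nat_lit 340)))) (XT.nd (nat_lit 156) (nat_lit 988) (nat_lit 0) (XT.nd (nat_lit 78) (nat_lit 0) (nat_lit 0) (XT.lf (nat_lit 0) (nat_lit 298253124) (nat_lit 532) (nat_lit 3060339606) (nat_lit 608) (nat_lit 5522452246) (nat_lit 187) (nat_lit 5) (nat_lit 194) (nat_lit 5) (nat_lit 195) (nat_lit 5) (nat_lit 447) (nat_lit 354) (nat_lit 339)) (XT.lf (nat_lit 0) (nat_lit 6624577465) (nat_lit 532) (nat_lit 226759787) (nat_lit 608) (nat_lit 2112914747) (nat_lit 187) (nat_lit 5) (nat_lit 194) (nat_lit 5) (nat_lit 195) (nat_lit 5) (nat_lit 448) (nat_lit 354) (nat_lit 338))) (XT.nd (nat_lit 78)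 (nat_lit 456) (nat_lit 0) (XT.lf (nat_lit 0) (nat_lit 1336069164) (nat_lit 532) (nat_lit 5069409779) (nat_lit 76) (nat_lit 2643713000) (nat_lit 180) (nat_lit 5) (nat_lit 187) (nat_lit 5) (nat_lit 181) (nat_lit 5) (nat_lit 449) (nat_lit 354) (nat_lit 337)) (XT.lf (nat_lit 0) (nat_lit 1247763036) (nat_lit 456) (nat_lit 3549671263) (nat_lit 532) (nat_lit 4338711736) (nat_lit 174) (nat_lit 5) (nat_lit 180) (nat_lit 5) (nat_lit 181) (nat_lit 5) (nat_lit 450) (nat_lit 354) (nat_lit 336)))))) (XT.nd (nat_lit 546) (nat_lit 2356) (nat_lit 0) (XT.nd (nat_lit 234) (nat_lit 988) (nat_lit 0) (XT.nd (nat_lit 78) (nat_lit 988) (nat_lit 0) (XT.lf (nat_lit 0) (nat_lit 7685659475) (nat_lit 456) (nat_lit 623216333) (nat_lit 532) (nat_lit 916374403) (nat_lit 174) (nat_lit 5) (nat_lit 180) (nat_lit 5) (nat_lit 181) (nat_lit 5) (nat_lit 451) (nat_lit 354) (nat_lit 335)) (XT.nd (nat_lit 78) (nat_lit 456) (nat_lit 0) (XT.lf (nat_lit 0)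 (nat_lit 2535546351) (nat_lit 532) (nat_lit 4421502906) (nat_lit 76) (nat_lit 2358881805) (nat_lit 167) (nat_lit 5) (nat_lit 174) (nat_lit 5) (nat_lit 168) (nat_lit 5) (nat_lit 452) (nat_lit 354) (nat_lit 334)) (XT.lf (nat_lit 0) (nat_lit 2011851947) (nat_lit 456) (nat_lit 4007902293) (nat_lit 532) (nat_lit 3389066137) (nat_lit 161) (nat_lit 5) (nat_lit 167) (nat_lit 5) (nat_lit 168) (nat_lit 5) (nat_lit 453) (nat_lit 354) (nat_lit 333)))) (XT.nd (nat_lit 156) (nat_lit 532) (nat_lit 0) (XT.nd (nat_lit 78) (nat_lit 380) (nat_lit 0) (XT.lf (nat_lit 0) (nat_lit 47121682) (nat_lit 532) (nat_lit 944092558) (nat_lit 76) (nat_lit 8512810246) (nat_lit 160) (nat_lit 5) (nat_lit 167) (nat_lit 5) (nat_lit 161) (nat_lit 5) (nat_lit 454) (nat_lit 354) (nat_lit 332)) (XT.lf (nat_lit 0) (nat_lit 3506063194) (nat_lit 456) (nat_lit 3998551806) (nat_lit 76) (nat_lit 2096106302) (nat_lit 155) (nat_lit 5) (nat_lit 161) (nat_lit 5)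 (nat_lit 156) (nat_lit 5) (nat_lit 455) (nat_lit 354) (nat_lit 331))) (XT.nd (nat_lit 78) (nat_lit 76) (nat_lit 0) (XT.lf (nat_lit 0) (nat_lit 2546491360) (nat_lit 456) (nat_lit 4466665343) (nat_lit 532) (nat_lit 2686640250) (nat_lit 149) (nat_lit 5) (nat_lit 155) (nat_lit 5) (nat_lit 156) (nat_lit 5) (nat_lit 456) (nat_lit 354) (nat_lit 330)) (XT.lf (nat_lit 0) (nat_lit 755854448) (nat_lit 532) (nat_lit 602424091) (nat_lit 76) (nat_lit 8442963042) (nat_lit 148) (nat_lit 5) (nat_lit 155) (nat_lit 5) (nat_lit 149) (nat_lit 5) (nat_lit 457) (nat_lit 354) (nat_lit 329))))) (XT.nd (nat_lit 312) (nat_lit 1140) (nat_lit 0) (XT.nd (nat_lit 156) (nat_lit 456) (nat_lit 0) (XT.nd (nat_lit 78) (nat_lit 380) (nat_lit 0) (XT.lf (nat_lit 0) (nat_lit 4233310979) (nat_lit 456) (nat_lit 3847296461) (nat_lit 76) (nat_lit 1823733724) (nat_lit 143) (nat_lit 5) (nat_lit 149) (nat_lit 5) (nat_lit 144) (nat_lit 5) (nat_lit 458) (nat_lit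 354) (nat_lit 328)) (XT.lf (nat_lit 0) (nat_lit 2803819509) (nat_lit 380) (nat_lit 4958770375) (nat_lit 456) (nat_lit 2247289897) (nat_lit 138) (nat_lit 5) (nat_lit 143) (nat_lit 5) (nat_lit 144) (nat_lit 5) (nat_lit 459) (nat_lit 354) (nat_lit 327))) (XT.nd (nat_lit 78) (nat_lit 380) (nat_lit 0) (XT.lf (nat_lit 0) (nat_lit 1205741435) (nat_lit 456) (nat_lit 557730442) (nat_lit 76) (nat_lit 8354374396) (nat_lit 137) (nat_lit 5) (nat_lit 143) (nat_lit 5) (nat_lit 138) (nat_lit 5) (nat_lit 460) (nat_lit 354) (nat_lit 326)) (XT.lf (nat_lit 0) (nat_lit 4700188074) (nat_lit 456) (nat_lit 4018673861) (nat_lit 76) (nat_lit 1508785357) (nat_lit 132) (nat_lit 5) (nat_lit 138) (nat_lit 5) (nat_lit 133) (nat_lit 5) (nat_lit 461) (nat_lit 354) (nat_lit 325)))) (XT.nd (nat_lit 156) (nat_lit 684) (nat_lit 0) (XT.nd (nat_lit 78) (nat_lit 76) (nat_lit 0) (XT.lf (nat_lit 0) (nat_lit 2731625019) (nat_lit 380) (nat_lit 5518522189)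 (nat_lit 456) (nat_lit 2089805448) (nat_lit 127) (nat_lit 5) (nat_lit 132) (nat_lit 5) (nat_lit 133) (nat_lit 5) (nat_lit 462) (nat_lit 354) (nat_lit 324)) (XT.lf (nat_lit 0) (nat_lit 1377749785) (nat_lit 456) (nat_lit 863616002) (nat_lit 76) (nat_lit 8213379826) (nat_lit 126) (nat_lit 5) (nat_lit 132) (nat_lit 5) (nat_lit 127) (nat_lit 5) (nat_lit 463) (nat_lit 354) (nat_lit 323))) (XT.nd (nat_lit 78) (nat_lit 380) (nat_lit 0) (XT.lf (nat_lit 0) (nat_lit 4886582690) (nat_lit 380) (nat_lit 4568364853) (nat_lit 76) (nat_lit 1116632029) (nat_lit 122) (nat_lit 5) (nat_lit 127) (nat_lit 5) (nat_lit 123) (nat_lit 5) (nat_lit 464) (nat_lit 354) (nat_lit 322)) (XT.lf (nat_lit 0) (nat_lit 2272783604) (nat_lit 380) (nat_lit 6182057268) (nat_lit 456) (nat_lit 2236143573) (nat_lit 117) (nat_lit 5) (nat_lit 122) (nat_lit 5) (nat_lit 123) (nat_lit 5) (nat_lit 465) (nat_lit 354) (nat_lit 321))))))))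
noncomputable def xc45 : XT := (XT.nd (nat_lit 2184) (nat_lit 2432) (nat_lit 0) (XT.nd (nat_lit 1092) (nat_lit 1976) (nat_lit 0) (XT.nd (nat_lit 546) (nat_lit 1292) (nat_lit 0) (XT.nd (nat_lit 234) (nat_lit 684) (nat_lit 0) (XT.nd (nat_lit 78) (nat_lit 608) (nat_lit 0) (XT.lf (nat_lit 0) (nat_lit 1249680200) (nat_lit 456) (nat_lit 1578771326) (nat_lit 76) (nat_lit 7984481864) (nat_lit 116) (nat_lit 5) (nat_lit 122) (nat_lit 5) (nat_lit 117) (nat_lit 5) (nat_lit 466) (nat_lit 354) (nat_lit 320)) (XT.nd (nat_lit 78) (nat_lit 304) (nat_lit 0) (XT.lf (nat_lit 0) (nat_lit 4769126438) (nat_lit 380) (nat_lit 5557391630) (nat_lit 76) (nat_lit 610648770) (nat_lit 112) (nat_lit 5) (nat_lit 117) (nat_lit 5) (nat_lit 113) (nat_lit 5) (nat_lit 467) (nat_lit 354) (nat_lit 319)) (XT.lf (nat_lit 0) (nat_lit 1364642317) (nat_lit 304) (nat_lit 6987703065) (nat_lit 380) (nat_lit 2711689644) (nat_lit 108) (nat_lit 5) (nat_lit 112)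 (nat_lit 5) (nat_lit 113) (nat_lit 5) (nat_lit 468) (nat_lit 354) (nat_lit 318)))) (XT.nd (nat_lit 156) (nat_lit 304) (nat_lit 0) (XT.nd (nat_lit 78) (nat_lit 304) (nat_lit 0) (XT.lf (nat_lit 0) (nat_lit 795901718) (nat_lit 380) (nat_lit 2767603770) (nat_lit 76) (nat_lit 7629990743) (nat_lit 107) (nat_lit 5) (nat_lit 112) (nat_lit 5) (nat_lit 108) (nat_lit 5) (nat_lit 469) (nat_lit 354) (nat_lit 317)) (XT.lf (nat_lit 0) (nat_lit 4272438423) (nat_lit 304) (nat_lit 48794498) (nat_lit 380) (nat_lit 7004294026) (nat_lit 103) (nat_lit 5) (nat_lit 107) (nat_lit 5) (nat_lit 108) (nat_lit 5) (nat_lit 470) (nat_lit 354) (nat_lit 316))) (XT.nd (nat_lit 78) (nat_lit 304) (nat_lit 0) (XT.lf (nat_lit 0) (nat_lit 7915108700) (nat_lit 380) (nat_lit 60846069) (nat_lit 76) (nat_lit 3484299145) (nat_lit 103) (nat_lit 5) (nat_lit 108) (nat_lit 5) (nat_lit 104) (nat_lit 5) (nat_lit 471) (nat_lit 354) (nat_lit 315)) (XT.lf (nat_lit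 0) (nat_lit 7096605197) (nat_lit 304) (nat_lit 4487894486) (nat_lit 380) (nat_lit 13119056) (nat_lit 99) (nat_lit 5) (nat_lit 103) (nat_lit 5) (nat_lit 104) (nat_lit 5) (nat_lit 472) (nat_lit 354) (nat_lit 314))))) (XT.nd (nat_lit 234) (nat_lit 684) (nat_lit 0) (XT.nd (nat_lit 78) (nat_lit 304) (nat_lit 0) (XT.lf (nat_lit 0) (nat_lit 2603620996) (nat_lit 228) (nat_lit 913510947) (nat_lit 304) (nat_lit 8220655016) (nat_lit 95) (nat_lit 5) (nat_lit 98) (nat_lit 5) (nat_lit 99) (nat_lit 5) (nat_lit 473) (nat_lit 354) (nat_lit 313)) (XT.nd (nat_lit 78) (nat_lit 304) (nat_lit 0) (XT.lf (nat_lit 0) (nat_lit 7123543003) (nat_lit 304) (nat_lit 2054600883) (nat_lit 76) (nat_lit 2702513456) (nat_lit 95) (nat_lit 5) (nat_lit 99) (nat_lit 5) (nat_lit 96) (nat_lit 5) (nat_lit 474) (nat_lit 354) (nat_lit 312)) (XT.lf (nat_lit 0) (nat_lit 5161752215) (nat_lit 304) (nat_lit 5638311021) (nat_lit 380) (nat_lit 1226377127) (nat_lit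 91) (nat_lit 5) (nat_lit 95) (nat_lit 5) (nat_lit 96) (nat_lit 5) (nat_lit 475) (nat_lit 354) (nat_lit 311)))) (XT.nd (nat_lit 156) (nat_lit 380) (nat_lit 0) (XT.nd (nat_lit 78) (nat_lit 0) (nat_lit 0) (XT.lf (nat_lit 0) (nat_lit 297227476) (nat_lit 228) (nat_lit 2020924929) (nat_lit 304) (nat_lit 9857205998) (nat_lit 87) (nat_lit 5) (nat_lit 90) (nat_lit 5) (nat_lit 91) (nat_lit 5) (nat_lit 476) (nat_lit 354) (nat_lit 310)) (XT.lf (nat_lit 0) (nat_lit 5933111048) (nat_lit 304) (nat_lit 4716975798) (nat_lit 76) (nat_lit 1676700630) (nat_lit 87) (nat_lit 5) (nat_lit 91) (nat_lit 5) (nat_lit 88) (nat_lit 5) (nat_lit 477) (nat_lit 354) (nat_lit 309))) (XT.nd (nat_lit 78) (nat_lit 76) (nat_lit 0) (XT.lf (nat_lit 0) (nat_lit 2541851162) (nat_lit 304) (nat_lit 7067952344) (nat_lit 380) (nat_lit 2871666649) (nat_lit 83) (nat_lit 5) (nat_lit 87) (nat_lit 5) (nat_lit 88) (nat_lit 5) (nat_lit 478) (nat_lit 354) (nat_lit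 308)) (XT.lf (nat_lit 0) (nat_lit 702832755) (nat_lit 380) (nat_lit 2699331440) (nat_lit 76) (nat_lit 9237171831) (nat_lit 82) (nat_lit 5) (nat_lit 87) (nat_lit 5) (nat_lit 83) (nat_lit 5) (nat_lit 479) (nat_lit 354) (nat_lit 307)))))) (XT.nd (nat_lit 546) (nat_lit 988) (nat_lit 0) (XT.nd (nat_lit 234) (nat_lit 532) (nat_lit 0) (XT.nd (nat_lit 78) (nat_lit 228) (nat_lit 0) (XT.lf (nat_lit 0) (nat_lit 4303469769) (nat_lit 304) (nat_lit 8138959480) (nat_lit 76) (nat_lit 357701273) (nat_lit 79) (nat_lit 5) (nat_lit 83) (nat_lit 5) (nat_lit 80) (nat_lit 5) (nat_lit 480) (nat_lit 354) (nat_lit 306)) (XT.nd (nat_lit 78) (nat_lit 228) (nat_lit 0) (XT.lf (nat_lit 0) (nat_lit 7977515801) (nat_lit 304) (nat_lit 845505297) (nat_lit 76) (nat_lit 4141104559) (nat_lit 79) (nat_lit 5) (nat_lit 83) (nat_lit 5) (nat_lit 80) (nat_lit 5) (nat_lit 481) (nat_lit 354) (nat_lit 305)) (XT.lf (nat_lit 0) (nat_lit 6617321463) (nat_lit 228)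 (nat_lit 5112088754) (nat_lit 304) (nat_lit 1401915554) (nat_lit 76) (nat_lit 5) (nat_lit 79) (nat_lit 5) (nat_lit 80) (nat_lit 5) (nat_lit 482) (nat_lit 354) (nat_lit 304)))) (XT.nd (nat_lit 156) (nat_lit 228) (nat_lit 0) (XT.nd (nat_lit 78) (nat_lit 0) (nat_lit 0) (XT.lf (nat_lit 0) (nat_lit 872485807) (nat_lit 228) (nat_lit 1325281853) (nat_lit 304) (nat_lit 11104364163) (nat_lit 72) (nat_lit 5) (nat_lit 75) (nat_lit 5) (nat_lit 76) (nat_lit 5) (nat_lit 483) (nat_lit 354) (nat_lit 303)) (XT.lf (nat_lit 0) (nat_lit 5872837853) (nat_lit 304) (nat_lit 5070110482) (nat_lit 76) (nat_lit 2532788737) (nat_lit 72) (nat_lit 5) (nat_lit 76) (nat_lit 5) (nat_lit 73) (nat_lit 5) (nat_lit 484) (nat_lit 354) (nat_lit 302))) (XT.nd (nat_lit 78) (nat_lit 0) (nat_lit 0) (XT.lf (nat_lit 0) (nat_lit 2396933884) (nat_lit 228) (nat_lit 7211238231) (nat_lit 304) (nat_lit 4044918538) (nat_lit 69) (nat_lit 5) (nat_lit 72) (nat_lit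 5) (nat_lit 73) (nat_lit 5) (nat_lit 485) (nat_lit 354) (nat_lit 301)) (XT.lf (nat_lit 0) (nat_lit 10020114565) (nat_lit 228) (nat_lit 3394879783) (nat_lit 304) (nat_lit 419072585) (nat_lit 69) (nat_lit 5) (nat_lit 72) (nat_lit 5) (nat_lit 73) (nat_lit 5) (nat_lit 486) (nat_lit 354) (nat_lit 300))))) (XT.nd (nat_lit 234) (nat_lit 456) (nat_lit 0) (XT.nd (nat_lit 78) (nat_lit 228) (nat_lit 0) (XT.lf (nat_lit 0) (nat_lit 3227199327) (nat_lit 304) (nat_lit 10278184569) (nat_lit 76) (nat_lit 513045483) (nat_lit 65) (nat_lit 5) (nat_lit 69) (nat_lit 5) (nat_lit 66) (nat_lit 5) (nat_lit 487) (nat_lit 354) (nat_lit 299)) (XT.nd (nat_lit 78) (nat_lit 228) (nat_lit 0) (XT.lf (nat_lit 0) (nat_lit 6952439796) (nat_lit 304) (nat_lit 2795564279) (nat_lit 76) (nat_lit 4458197112) (nat_lit 65) (nat_lit 5) (nat_lit 69) (nat_lit 5) (nat_lit 66) (nat_lit 5) (nat_lit 488) (nat_lit 354) (nat_lit 298)) (XT.lf (nat_lit 0) (nat_lit 4839994955)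 (nat_lit 228) (nat_lit 5907735641) (nat_lit 304) (nat_lit 3650097322) (nat_lit 62) (nat_lit 5) (nat_lit 65) (nat_lit 5) (nat_lit 66) (nat_lit 5) (nat_lit 489) (nat_lit 354) (nat_lit 297)))) (XT.nd (nat_lit 156) (nat_lit 228) (nat_lit 0) (XT.nd (nat_lit 78) (nat_lit 152) (nat_lit 0) (XT.lf (nat_lit 0) (nat_lit 8378462) (nat_lit 304) (nat_lit 1987323468) (nat_lit 76) (nat_lit 12597930424) (nat_lit 61) (nat_lit 5) (nat_lit 65) (nat_lit 5) (nat_lit 62) (nat_lit 5) (nat_lit 490) (nat_lit 354) (nat_lit 296)) (XT.lf (nat_lit 0) (nat_lit 3706467946) (nat_lit 228) (nat_lit 9079610652) (nat_lit 76) (nat_lit 2006495155) (nat_lit 59) (nat_lit 5) (nat_lit 62) (nat_lit 5) (nat_lit 60) (nat_lit 5) (nat_lit 491) (nat_lit 354) (nat_lit 295))) (XT.nd (nat_lit 78) (nat_lit 228) (nat_lit 0) (XT.lf (nat_lit 0) (nat_lit 7470204950) (nat_lit 228) (nat_lit 1473598384) (nat_lit 76) (nat_lit 6051866538) (nat_lit 59) (nat_lit 5) (nat_lit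 62) (nat_lit 5) (nat_lit 60) (nat_lit 5) (nat_lit 492) (nat_lit 354) (nat_lit 294)) (XT.lf (nat_lit 0) (nat_lit 6309181818) (nat_lit 228) (nat_lit 5006728520) (nat_lit 304) (nat_lit 3886793118) (nat_lit 56) (nat_lit 5) (nat_lit 59) (nat_lit 5) (nat_lit 60) (nat_lit 5) (nat_lit 493) (nat_lit 354) (nat_lit 293))))))) (XT.nd (nat_lit 1092) (nat_lit 988) (nat_lit 0) (XT.nd (nat_lit 546) (nat_lit 760) (nat_lit 0) (XT.nd (nat_lit 234) (nat_lit 456) (nat_lit 0) (XT.nd (nat_lit 78) (nat_lit 228) (nat_lit 0) (XT.lf (nat_lit 0) (nat_lit 14209876500) (nat_lit 228) (nat_lit 1004569431) (nat_lit 304) (nat_lit 199922691) (nat_lit 56) (nat_lit 5) (nat_lit 59) (nat_lit 5) (nat_lit 60) (nat_lit 5) (nat_lit 494) (nat_lit 354) (nat_lit 292)) (XT.nd (nat_lit 78) (nat_lit 0) (nat_lit 0) (XT.lf (nat_lit 0) (nat_lit 3543864281) (nat_lit 228) (nat_lit 9004574516) (nat_lit 76) (nat_lit 3080777240) (nat_lit 53) (nat_lit 5) (nat_lit 56)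 (nat_lit 5) (nat_lit 54) (nat_lit 5) (nat_lit 495) (nat_lit 354) (nat_lit 291)) (XT.lf (nat_lit 0) (nat_lit 7341243338) (nat_lit 228) (nat_lit 1286729319) (nat_lit 76) (nat_lit 7220742146) (nat_lit 53) (nat_lit 5) (nat_lit 56) (nat_lit 5) (nat_lit 54) (nat_lit 5) (nat_lit 496) (nat_lit 354) (nat_lit 290)))) (XT.nd (nat_lit 156) (nat_lit 228) (nat_lit 0) (XT.nd (nat_lit 78) (nat_lit 0) (nat_lit 0) (XT.lf (nat_lit 0) (nat_lit 6616181144) (nat_lit 228) (nat_lit 4608602062) (nat_lit 304) (nat_lit 4847624602) (nat_lit 50) (nat_lit 5) (nat_lit 53) (nat_lit 5) (nat_lit 54) (nat_lit 5) (nat_lit 497) (nat_lit 354) (nat_lit 289)) (XT.lf (nat_lit 0) (nat_lit 14638896571) (nat_lit 228) (nat_lit 523268943) (nat_lit 304) (nat_lit 1138894090) (nat_lit 50) (nat_lit 5) (nat_lit 53) (nat_lit 5) (nat_lit 54) (nat_lit 5) (nat_lit 498) (nat_lit 354) (nat_lit 288))) (XT.nd (nat_lit 78) (nat_lit 0) (nat_lit 0) (XT.lf (nat_lit 0) (nat_lit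 2642073985) (nat_lit 228) (nat_lit 10259485282) (nat_lit 76) (nat_lit 3631735079) (nat_lit 47) (nat_lit 5) (nat_lit 50) (nat_lit 5) (nat_lit 48) (nat_lit 5) (nat_lit 499) (nat_lit 354) (nat_lit 287)) (XT.lf (nat_lit 0) (nat_lit 6466198429) (nat_lit 228) (nat_lit 2445170184) (nat_lit 76) (nat_lit 7859006752) (nat_lit 47) (nat_lit 5) (nat_lit 50) (nat_lit 5) (nat_lit 48) (nat_lit 5) (nat_lit 500) (nat_lit 354) (nat_lit 286))))) (XT.nd (nat_lit 234) (nat_lit 304) (nat_lit 0) (XT.nd (nat_lit 78) (nat_lit 228) (nat_lit 0) (XT.lf (nat_lit 0) (nat_lit 5544054673) (nat_lit 228) (nat_lit 4827451595) (nat_lit 304) (nat_lit 6640605444) (nat_lit 44) (nat_lit 5) (nat_lit 47) (nat_lit 5) (nat_lit 48) (nat_lit 5) (nat_lit 501) (nat_lit 354) (nat_lit 285)) (XT.nd (nat_lit 78) (nat_lit 228) (nat_lit 0) (XT.lf (nat_lit 0) (nat_lit 13672476978) (nat_lit 228) (nat_lit 667821650) (nat_lit 304) (nat_lit 2918684163) (nat_lit 44) (nat_lit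 5) (nat_lit 47) (nat_lit 5) (nat_lit 48) (nat_lit 5) (nat_lit 502) (nat_lit 354) (nat_lit 284)) (XT.lf (nat_lit 0) (nat_lit 887736043) (nat_lit 228) (nat_lit 13081736026) (nat_lit 76) (nat_lit 3540781108) (nat_lit 41) (nat_lit 5) (nat_lit 44) (nat_lit 5) (nat_lit 42) (nat_lit 5) (nat_lit 503) (nat_lit 354) (nat_lit 283)))) (XT.nd (nat_lit 156) (nat_lit 152) (nat_lit 0) (XT.nd (nat_lit 78) (nat_lit 152) (nat_lit 0) (XT.lf (nat_lit 0) (nat_lit 4729371916) (nat_lit 228) (nat_lit 5190734882) (nat_lit 76) (nat_lit 7846100088) (nat_lit 41) (nat_lit 5) (nat_lit 44) (nat_lit 5) (nat_lit 42) (nat_lit 5) (nat_lit 504) (nat_lit 354) (nat_lit 282)) (XT.lf (nat_lit 0) (nat_lit 2843206043) (nat_lit 152) (nat_lit 5793175348) (nat_lit 228) (nat_lit 9391134460) (nat_lit 39) (nat_lit 5) (nat_lit 41) (nat_lit 5) (nat_lit 42) (nat_lit 5) (nat_lit 505) (nat_lit 354) (nat_lit 281))) (XT.nd (nat_lit 78) (nat_lit 152) (nat_lit 0) (XT.lf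 (nat_lit 0) (nat_lit 11056361385) (nat_lit 152) (nat_lit 1570333297) (nat_lit 228) (nat_lit 5667259899) (nat_lit 39) (nat_lit 5) (nat_lit 41) (nat_lit 5) (nat_lit 42) (nat_lit 5) (nat_lit 506) (nat_lit 354) (nat_lit 280)) (XT.lf (nat_lit 0) (nat_lit 809648832) (nat_lit 152) (nat_lit 15880964150) (nat_lit 228) (nat_lit 1875239855) (nat_lit 37) (nat_lit 5) (nat_lit 39) (nat_lit 5) (nat_lit 40) (nat_lit 4) (nat_lit 507) (nat_lit 354) (nat_lit 279)))))) (XT.nd (nat_lit 546) (nat_lit 532) (nat_lit 0) (XT.nd (nat_lit 234) (nat_lit 228) (nat_lit 0) (XT.nd (nat_lit 78) (nat_lit 152) (nat_lit 0) (XT.lf (nat_lit 0) (nat_lit 1996592071) (nat_lit 228) (nat_lit 9801247627) (nat_lit 76) (nat_lit 7044494974) (nat_lit 36) (nat_lit 5) (nat_lit 39) (nat_lit 5) (nat_lit 37) (nat_lit 5) (nat_lit 508) (nat_lit 354) (nat_lit 278)) (XT.nd (nat_lit 78) (nat_lit 152) (nat_lit 0) (XT.lf (nat_lit 0) (nat_lit 5892162683) (nat_lit 228) (nat_lit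 1749919259) (nat_lit 76) (nat_lit 11482594401) (nat_lit 36) (nat_lit 5) (nat_lit 39) (nat_lit 5) (nat_lit 37) (nat_lit 5) (nat_lit 509) (nat_lit 354) (nat_lit 277)) (XT.lf (nat_lit 0) (nat_lit 6498340690) (nat_lit 152) (nat_lit 3381444612) (nat_lit 228) (nat_lit 9532602948) (nat_lit 34) (nat_lit 5) (nat_lit 36) (nat_lit 5) (nat_lit 37) (nat_lit 5) (nat_lit 510) (nat_lit 354) (nat_lit 276)))) (XT.nd (nat_lit 156) (nat_lit 76) (nat_lit 0) (XT.nd (nat_lit 78) (nat_lit 152) (nat_lit 0) (XT.lf (nat_lit 0) (nat_lit 13937286029) (nat_lit 228) (nat_lit 4826094785) (nat_lit 76) (nat_lit 942677160) (nat_lit 34) (nat_lit 5) (nat_lit 37) (nat_lit 5) (nat_lit 35) (nat_lit 4) (nat_lit 511) (nat_lit 354) (nat_lit 275)) (XT.lf (nat_lit 0) (nat_lit 3397326614) (nat_lit 152) (nat_lit 14695653141) (nat_lit 228) (nat_lit 1912286449) (nat_lit 32) (nat_lit 5) (nat_lit 34) (nat_lit 5) (nat_lit 35) (nat_lit 4) (nat_lit 512) (nat_lit 354)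 (nat_lit 274))) (XT.nd (nat_lit 78) (nat_lit 0) (nat_lit 0) (XT.lf (nat_lit 0) (nat_lit 2000049489) (nat_lit 228) (nat_lit 8521017741) (nat_lit 76) (nat_lit 9789030016) (nat_lit 31) (nat_lit 5) (nat_lit 34) (nat_lit 5) (nat_lit 32) (nat_lit 5) (nat_lit 513) (nat_lit 354) (nat_lit 273)) (XT.lf (nat_lit 0) (nat_lit 5938217931) (nat_lit 228) (nat_lit 332574545) (nat_lit 76) (nat_lit 14350521430) (nat_lit 31) (nat_lit 5) (nat_lit 34) (nat_lit 5) (nat_lit 32) (nat_lit 5) (nat_lit 514) (nat_lit 354) (nat_lit 272))))) (XT.nd (nat_lit 312) (nat_lit 228) (nat_lit 0) (XT.nd (nat_lit 156) (nat_lit 152) (nat_lit 0) (XT.nd (nat_lit 78) (nat_lit 0) (nat_lit 0) (XT.lf (nat_lit 0) (nat_lit 8078974183) (nat_lit 152) (nat_lit 1902323111) (nat_lit 228) (nat_lit 10956940170) (nat_lit 29) (nat_lit 5) (nat_lit 31) (nat_lit 5) (nat_lit 32) (nat_lit 5) (nat_lit 515) (nat_lit 354) (nat_lit 271)) (XT.lf (nat_lit 0) (nat_lit 14097841206)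 (nat_lit 228) (nat_lit 4661496490) (nat_lit 76) (nat_lit 2502315148) (nat_lit 29) (nat_lit 5) (nat_lit 32) (nat_lit 5) (nat_lit 30) (nat_lit 4) (nat_lit 516) (nat_lit 354) (nat_lit 270))) (XT.nd (nat_lit 78) (nat_lit 76) (nat_lit 0) (XT.lf (nat_lit 0) (nat_lit 3690231643) (nat_lit 76) (nat_lit 14617333431) (nat_lit 152) (nat_lit 3283759779) (nat_lit 28) (nat_lit 5) (nat_lit 29) (nat_lit 5) (nat_lit 30) (nat_lit 4) (nat_lit 517) (nat_lit 354) (nat_lit 269)) (XT.lf (nat_lit 0) (nat_lit 670869340) (nat_lit 152) (nat_lit 9705203940) (nat_lit 76) (nat_lit 11551318322) (nat_lit 27) (nat_lit 5) (nat_lit 29) (nat_lit 5) (nat_lit 28) (nat_lit 5) (nat_lit 518) (nat_lit 354) (nat_lit 268)))) (XT.nd (nat_lit 156) (nat_lit 76) (nat_lit 0) (XT.nd (nat_lit 78) (nat_lit 152) (nat_lit 0) (XT.lf (nat_lit 0) (nat_lit 4635492208) (nat_lit 152) (nat_lit 1412083727) (nat_lit 76) (nat_lit 16222677222) (nat_lit 27) (nat_lit 5) (nat_lit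 29) (nat_lit 5) (nat_lit 28) (nat_lit 5) (nat_lit 519) (nat_lit 354) (nat_lit 267)) (XT.lf (nat_lit 0) (nat_lit 7095904036) (nat_lit 152) (nat_lit 1604897955) (nat_lit 228) (nat_lit 13918746960) (nat_lit 25) (nat_lit 5) (nat_lit 27) (nat_lit 5) (nat_lit 28) (nat_lit 5) (nat_lit 520) (nat_lit 354) (nat_lit 266))) (XT.nd (nat_lit 78) (nat_lit 76) (nat_lit 0) (XT.lf (nat_lit 0) (nat_lit 12851355767) (nat_lit 228) (nat_lit 7245650966) (nat_lit 76) (nat_lit 2878749977) (nat_lit 25) (nat_lit 5) (nat_lit 28) (nat_lit 5) (nat_lit 26) (nat_lit 4) (nat_lit 521) (nat_lit 354) (nat_lit 265)) (XT.lf (nat_lit 0) (nat_lit 1159204893) (nat_lit 76) (nat_lit 15919750485) (nat_lit 152) (nat_lit 6260257259) (nat_lit 24) (nat_lit 5) (nat_lit 25) (nat_lit 5) (nat_lit 26) (nat_lit 4) (nat_lit 522) (nat_lit 354) (nat_lit 264))))))))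
noncomputable def xc46 : XT := (XT.nd (nat_lit 53586) (nat_lit 0) (nat_lit 5320) (XT.nd (nat_lit 52494) (nat_lit 0) (nat_lit 12920) (XT.nd (nat_lit 546) (nat_lit 228) (nat_lit 0) (XT.nd (nat_lit 234) (nat_lit 76) (nat_lit 0) (XT.nd (nat_lit 78) (nat_lit 228) (nat_lit 0) (XT.lf (nat_lit 0) (nat_lit 9787386578) (nat_lit 76) (nat_lit 11628416341) (nat_lit 152) (nat_lit 2293645460) (nat_lit 24) (nat_lit 5) (nat_lit 25) (nat_lit 5) (nat_lit 26) (nat_lit 4) (nat_lit 523) (nat_lit 354) (nat_lit 263)) (XT.nd (nat_lit 78) (nat_lit 152) (nat_lit 0) (XT.lf (nat_lit 0) (nat_lit 1705699998) (nat_lit 152) (nat_lit 5552797414) (nat_lit 76) (nat_lit 16828840657) (nat_lit 23) (nat_lit 5) (nat_lit 25) (nat_lit 5) (nat_lit 24) (nat_lit 5) (nat_lit 524) (nat_lit 354) (nat_lit 262)) (XT.lf (nat_lit 0) (nat_lit 2965930493) (nat_lit 152) (nat_lit 2784521668) (nat_lit 228) (nat_lit 18722111889) (nat_lit 21) (nat_lit 5) (nat_lit 23) (nat_lit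 5) (nat_lit 24) (nat_lit 5) (nat_lit 525) (nat_lit 354) (nat_lit 261)))) (XT.nd (nat_lit 156) (nat_lit 76) (nat_lit 0) (XT.nd (nat_lit 78) (nat_lit 0) (nat_lit 0) (XT.lf (nat_lit 0) (nat_lit 9902070648) (nat_lit 228) (nat_lit 13187944630) (nat_lit 76) (nat_lit 1774964111) (nat_lit 21) (nat_lit 5) (nat_lit 24) (nat_lit 5) (nat_lit 22) (nat_lit 4) (nat_lit 526) (nat_lit 354) (nat_lit 260)) (XT.lf (nat_lit 0) (nat_lit 14132527045) (nat_lit 228) (nat_lit 4762205923) (nat_lit 76) (nat_lit 6370598138) (nat_lit 21) (nat_lit 5) (nat_lit 24) (nat_lit 5) (nat_lit 22) (nat_lit 4) (nat_lit 527) (nat_lit 354) (nat_lit 259))) (XT.nd (nat_lit 78) (nat_lit 0) (nat_lit 0) (XT.lf (nat_lit 0) (nat_lit 3842358965) (nat_lit 76) (nat_lit 14607989571) (nat_lit 152) (nat_lit 7223290300) (nat_lit 20) (nat_lit 5) (nat_lit 21) (nat_lit 5) (nat_lit 22) (nat_lit 4) (nat_lit 528) (nat_lit 354) (nat_lit 258)) (XT.lf (nat_lit 0) (nat_lit 12643749981)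 (nat_lit 76) (nat_lit 10220718805) (nat_lit 152) (nat_lit 3225449109) (nat_lit 20) (nat_lit 5) (nat_lit 21) (nat_lit 5) (nat_lit 22) (nat_lit 4) (nat_lit 529) (nat_lit 354) (nat_lit 257))))) (XT.nd (nat_lit 51636) (nat_lit 0) (nat_lit 19000) (XT.nd (nat_lit 78) (nat_lit 152) (nat_lit 0) (XT.lf (nat_lit 0) (nat_lit 819440452) (nat_lit 152) (nat_lit 4938217748) (nat_lit 76) (nat_lit 20757192110) (nat_lit 19) (nat_lit 5) (nat_lit 21) (nat_lit 5) (nat_lit 20) (nat_lit 5) (nat_lit 530) (nat_lit 354) (nat_lit 256)) (XT.nd (nat_lit 51480) (nat_lit 0) (nat_lit 21280) (XT.lf (nat_lit 0) (nat_lit 3728876880) (nat_lit 152) (nat_lit 1176109204) (nat_lit 228) (nat_lit 22042813733) (nat_lit 17) (nat_lit 5) (nat_lit 19) (nat_lit 5) (nat_lit 20) (nat_lit 5) (nat_lit 531) (nat_lit 354) (nat_lit 255)) (XT.lf (nat_lit 0) (nat_lit 1543935467) (nat_lit 760) (nat_lit 780235602) (nat_lit 0) (nat_lit 1543935467) (nat_lit 297) (nat_lit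 5) (nat_lit 307) (nat_lit 4) (nat_lit 297) (nat_lit 4) (nat_lit 430) (nat_lit 355) (nat_lit 355)))) (XT.nd (nat_lit 156) (nat_lit 760) (nat_lit 0) (XT.nd (nat_lit 78) (nat_lit 760) (nat_lit 0) (XT.lf (nat_lit 0) (nat_lit 4074512244) (nat_lit 760) (nat_lit 2528983116) (nat_lit 760) (nat_lit 1187402049) (nat_lit 287) (nat_lit 4) (nat_lit 297) (nat_lit 5) (nat_lit 297) (nat_lit 4) (nat_lit 431) (nat_lit 355) (nat_lit 354)) (XT.lf (nat_lit 0) (nat_lit 1931951089) (nat_lit 684) (nat_lit 339735897) (nat_lit 760) (nat_lit 5575537028) (nat_lit 277) (nat_lit 5) (nat_lit 286) (nat_lit 5) (nat_lit 287) (nat_lit 4) (nat_lit 432) (nat_lit 355) (nat_lit 353))) (XT.nd (nat_lit 78) (nat_lit 760) (nat_lit 0) (XT.lf (nat_lit 0) (nat_lit 5758724566) (nat_lit 760) (nat_lit 256585933) (nat_lit 0) (nat_lit 1889761367) (nat_lit 277) (nat_lit 5) (nat_lit 287) (nat_lit 4) (nat_lit 277) (nat_lit 4) (nat_lit 433) (nat_lit 355) (nat_lit 352))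 (XT.lf (nat_lit 0) (nat_lit 1310019311) (nat_lit 760) (nat_lit 2462137722) (nat_lit 76) (nat_lit 4192261072) (nat_lit 267) (nat_lit 5) (nat_lit 277) (nat_lit 5) (nat_lit 268) (nat_lit 4) (nat_lit 434) (nat_lit 355) (nat_lit 351)))))) (XT.nd (nat_lit 546) (nat_lit 2812) (nat_lit 0) (XT.nd (nat_lit 234) (nat_lit 1900) (nat_lit 0) (XT.nd (nat_lit 78) (nat_lit 760) (nat_lit 0) (XT.lf (nat_lit 0) (nat_lit 3309463792) (nat_lit 608) (nat_lit 1459324242) (nat_lit 684) (nat_lit 3256681617) (nat_lit 259) (nat_lit 5) (nat_lit 267) (nat_lit 5) (nat_lit 268) (nat_lit 4) (nat_lit 435) (nat_lit 355) (nat_lit 350)) (XT.nd (nat_lit 78) (nat_lit 0) (nat_lit 0) (XT.lf (nat_lit 0) (nat_lit 174855255) (nat_lit 760) (nat_lit 7014217513) (nat_lit 76) (nat_lit 899310963) (nat_lit 249) (nat_lit 5) (nat_lit 259) (nat_lit 5) (nat_lit 250) (nat_lit 4) (nat_lit 436) (nat_lit 355) (nat_lit 349)) (XT.lf (nat_lit 0) (nat_lit 3612641619) (nat_lit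 760) (nat_lit 1214915582) (nat_lit 76) (nat_lit 3324983815) (nat_lit 249) (nat_lit 5) (nat_lit 259) (nat_lit 5) (nat_lit 250) (nat_lit 4) (nat_lit 437) (nat_lit 355) (nat_lit 348)))) (XT.nd (nat_lit 156) (nat_lit 608) (nat_lit 0) (XT.nd (nat_lit 78) (nat_lit 684) (nat_lit 0) (XT.lf (nat_lit 0) (nat_lit 4687715904) (nat_lit 608) (nat_lit 2402750719) (nat_lit 684) (nat_lit 1128128350) (nat_lit 241) (nat_lit 5) (nat_lit 249) (nat_lit 5) (nat_lit 250) (nat_lit 4) (nat_lit 438) (nat_lit 355) (nat_lit 347)) (XT.lf (nat_lit 0) (nat_lit 2286413725) (nat_lit 684) (nat_lit 5906532925) (nat_lit 76) (nat_lit 93448005) (nat_lit 232) (nat_lit 5) (nat_lit 241) (nat_lit 5) (nat_lit 233) (nat_lit 4) (nat_lit 439) (nat_lit 355) (nat_lit 346))) (XT.nd (nat_lit 78) (nat_lit 76) (nat_lit 0) (XT.lf (nat_lit 0) (nat_lit 3023863) (nat_lit 532) (nat_lit 5732590012) (nat_lit 608) (nat_lit 2620194785) (nat_lit 225) (nat_lit 5) (nat_lit 232)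 (nat_lit 5) (nat_lit 233) (nat_lit 4) (nat_lit 440) (nat_lit 355) (nat_lit 345)) (XT.lf (nat_lit 0) (nat_lit 798154447) (nat_lit 608) (nat_lit 2396006872) (nat_lit 76) (nat_lit 5232741383) (nat_lit 224) (nat_lit 5) (nat_lit 232) (nat_lit 5) (nat_lit 225) (nat_lit 5) (nat_lit 441) (nat_lit 355) (nat_lit 344))))) (XT.nd (nat_lit 234) (nat_lit 1596) (nat_lit 0) (XT.nd (nat_lit 78) (nat_lit 608) (nat_lit 0) (XT.lf (nat_lit 0) (nat_lit 3636331841) (nat_lit 608) (nat_lit 580153197) (nat_lit 684) (nat_lit 4283288018) (nat_lit 216) (nat_lit 5) (nat_lit 224) (nat_lit 5) (nat_lit 225) (nat_lit 5) (nat_lit 442) (nat_lit 355) (nat_lit 343)) (XT.nd (nat_lit 78) (nat_lit 76) (nat_lit 0) (XT.lf (nat_lit 0) (nat_lit 1175303482) (nat_lit 532) (nat_lit 6508824258) (nat_lit 608) (nat_lit 890388280) (nat_lit 209) (nat_lit 5) (nat_lit 216) (nat_lit 5) (nat_lit 217) (nat_lit 4) (nat_lit 443) (nat_lit 355) (nat_lit 342)) (XT.lf (nat_lit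 0) (nat_lit 2517161517) (nat_lit 608) (nat_lit 1344865507) (nat_lit 76) (nat_lit 4788815779) (nat_lit 208) (nat_lit 5) (nat_lit 216) (nat_lit 5) (nat_lit 209) (nat_lit 5) (nat_lit 444) (nat_lit 355) (nat_lit 341)))) (XT.nd (nat_lit 156) (nat_lit 532) (nat_lit 0) (XT.nd (nat_lit 78) (nat_lit 532) (nat_lit 0) (XT.lf (nat_lit 0) (nat_lit 4814515150) (nat_lit 532) (nat_lit 1142605291) (nat_lit 608) (nat_lit 2771966507) (nat_lit 201) (nat_lit 5) (nat_lit 208) (nat_lit 5) (nat_lit 209) (nat_lit 5) (nat_lit 445) (nat_lit 355) (nat_lit 340)) (XT.lf (nat_lit 0) (nat_lit 627893809) (nat_lit 532) (nat_lit 6561806107) (nat_lit 76) (nat_lit 1619551094) (nat_lit 194) (nat_lit 5) (nat_lit 201) (nat_lit 5) (nat_lit 195) (nat_lit 5) (nat_lit 446) (nat_lit 355) (nat_lit 339))) (XT.nd (nat_lit 78) (nat_lit 532) (nat_lit 0) (XT.lf (nat_lit 0) (nat_lit 4038284073) (nat_lit 532) (nat_lit 404913600) (nat_lit 76) (nat_lit 4447891528)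 (nat_lit 194) (nat_lit 5) (nat_lit 201) (nat_lit 5) (nat_lit 195) (nat_lit 5) (nat_lit 447) (nat_lit 355) (nat_lit 338)) (XT.lf (nat_lit 0) (nat_lit 5879594048) (nat_lit 532) (nat_lit 1622133839) (nat_lit 608) (nat_lit 1473169053) (nat_lit 187) (nat_lit 5) (nat_lit 194) (nat_lit 5) (nat_lit 195) (nat_lit 5) (nat_lit 448) (nat_lit 355) (nat_lit 337))))))) (XT.nd (nat_lit 1092) (nat_lit 3040) (nat_lit 0) (XT.nd (nat_lit 546) (nat_lit 2128) (nat_lit 0) (XT.nd (nat_lit 234) (nat_lit 1444) (nat_lit 0) (XT.nd (nat_lit 78) (nat_lit 456) (nat_lit 0) (XT.lf (nat_lit 0) (nat_lit 1926756453) (nat_lit 532) (nat_lit 5877929660) (nat_lit 76) (nat_lit 1255895190) (nat_lit 180) (nat_lit 5) (nat_lit 187) (nat_lit 5) (nat_lit 181) (nat_lit 5) (nat_lit 449) (nat_lit 355) (nat_lit 336)) (XT.nd (nat_lit 78) (nat_lit 0) (nat_lit 0) (XT.lf (nat_lit 0) (nat_lit 391697848) (nat_lit 456) (nat_lit 4964783076) (nat_lit 532) (nat_lit 3791701137)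 (nat_lit 174) (nat_lit 5) (nat_lit 180) (nat_lit 5) (nat_lit 181) (nat_lit 5) (nat_lit 450) (nat_lit 355) (nat_lit 335)) (XT.lf (nat_lit 0) (nat_lit 6793515362) (nat_lit 456) (nat_lit 2048601724) (nat_lit 532) (nat_lit 395698840) (nat_lit 174) (nat_lit 5) (nat_lit 180) (nat_lit 5) (nat_lit 181) (nat_lit 5) (nat_lit 451) (nat_lit 355) (nat_lit 334)))) (XT.nd (nat_lit 156) (nat_lit 456) (nat_lit 0) (XT.nd (nat_lit 78) (nat_lit 456) (nat_lit 0) (XT.lf (nat_lit 0) (nat_lit 3008364029) (nat_lit 532) (nat_lit 5381664418) (nat_lit 76) (nat_lit 939234357) (nat_lit 167) (nat_lit 5) (nat_lit 174) (nat_lit 5) (nat_lit 168) (nat_lit 5) (nat_lit 452) (nat_lit 355) (nat_lit 333)) (XT.lf (nat_lit 0) (nat_lit 1002514357) (nat_lit 456) (nat_lit 5458226695) (nat_lit 532) (nat_lit 2962060483) (nat_lit 161) (nat_lit 5) (nat_lit 167) (nat_lit 5) (nat_lit 168) (nat_lit 5) (nat_lit 453) (nat_lit 355) (nat_lit 332))) (XT.nd (nat_lit 78)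 (nat_lit 380) (nat_lit 0) (XT.lf (nat_lit 0) (nat_lit 443335304) (nat_lit 532) (nat_lit 2006232795) (nat_lit 76) (nat_lit 7068898236) (nat_lit 160) (nat_lit 5) (nat_lit 167) (nat_lit 5) (nat_lit 161) (nat_lit 5) (nat_lit 454) (nat_lit 355) (nat_lit 331)) (XT.lf (nat_lit 0) (nat_lit 3860773188) (nat_lit 456) (nat_lit 5116125990) (nat_lit 76) (nat_lit 639106105) (nat_lit 155) (nat_lit 5) (nat_lit 161) (nat_lit 5) (nat_lit 156) (nat_lit 5) (nat_lit 455) (nat_lit 355) (nat_lit 330))))) (XT.nd (nat_lit 234) (nat_lit 1216) (nat_lit 0) (XT.nd (nat_lit 78) (nat_lit 456) (nat_lit 0) (XT.lf (nat_lit 0) (nat_lit 1378051768) (nat_lit 456) (nat_lit 5957717875) (nat_lit 532) (nat_lit 2379965056) (nat_lit 149) (nat_lit 5) (nat_lit 155) (nat_lit 5) (nat_lit 156) (nat_lit 5) (nat_lit 456) (nat_lit 355) (nat_lit 329)) (XT.nd (nat_lit 78) (nat_lit 380) (nat_lit 0) (XT.lf (nat_lit 0) (nat_lit 1034076039) (nat_lit 532) (nat_lit 1824435905)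 (nat_lit 76) (nat_lit 6959127555) (nat_lit 148) (nat_lit 5) (nat_lit 155) (nat_lit 5) (nat_lit 149) (nat_lit 5) (nat_lit 457) (nat_lit 355) (nat_lit 328)) (XT.lf (nat_lit 0) (nat_lit 4469444024) (nat_lit 456) (nat_lit 5128143867) (nat_lit 76) (nat_lit 324004104) (nat_lit 143) (nat_lit 5) (nat_lit 149) (nat_lit 5) (nat_lit 144) (nat_lit 5) (nat_lit 458) (nat_lit 355) (nat_lit 327)))) (XT.nd (nat_lit 156) (nat_lit 760) (nat_lit 0) (XT.nd (nat_lit 78) (nat_lit 76) (nat_lit 0) (XT.lf (nat_lit 0) (nat_lit 1470355303) (nat_lit 380) (nat_lit 6495930244) (nat_lit 456) (nat_lit 2061504736) (nat_lit 138) (nat_lit 5) (nat_lit 143) (nat_lit 5) (nat_lit 144) (nat_lit 5) (nat_lit 459) (nat_lit 355) (nat_lit 326)) (XT.lf (nat_lit 0) (nat_lit 1365383570) (nat_lit 456) (nat_lit 1945534008) (nat_lit 76) (nat_lit 6825299700) (nat_lit 137) (nat_lit 5) (nat_lit 143) (nat_lit 5) (nat_lit 138) (nat_lit 5) (nat_lit 460) (nat_lit 355)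 (nat_lit 325))) (XT.nd (nat_lit 78) (nat_lit 380) (nat_lit 0) (XT.lf (nat_lit 0) (nat_lit 4777860542) (nat_lit 380) (nat_lit 39444390) (nat_lit 456) (nat_lit 5429574165) (nat_lit 132) (nat_lit 5) (nat_lit 137) (nat_lit 5) (nat_lit 138) (nat_lit 5) (nat_lit 461) (nat_lit 355) (nat_lit 324)) (XT.lf (nat_lit 0) (nat_lit 1227102628) (nat_lit 380) (nat_lit 7107055041) (nat_lit 456) (nat_lit 2025699011) (nat_lit 127) (nat_lit 5) (nat_lit 132) (nat_lit 5) (nat_lit 133) (nat_lit 5) (nat_lit 462) (nat_lit 355) (nat_lit 323)))))) (XT.nd (nat_lit 546) (nat_lit 1520) (nat_lit 0) (XT.nd (nat_lit 234) (nat_lit 760) (nat_lit 0) (XT.nd (nat_lit 78) (nat_lit 684) (nat_lit 0) (XT.lf (nat_lit 0) (nat_lit 1418001166) (nat_lit 456) (nat_lit 2423247600) (nat_lit 76) (nat_lit 6633862533) (nat_lit 126) (nat_lit 5) (nat_lit 132) (nat_lit 5) (nat_lit 127) (nat_lit 5) (nat_lit 463) (nat_lit 355) (nat_lit 322)) (XT.nd (nat_lit 78) (nat_lit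 380) (nat_lit 0) (XT.lf (nat_lit 0) (nat_lit 4395789540) (nat_lit 304) (nat_lit 490650118) (nat_lit 380) (nat_lit 5706322997) (nat_lit 122) (nat_lit 5) (nat_lit 126) (nat_lit 5) (nat_lit 127) (nat_lit 5) (nat_lit 464) (nat_lit 355) (nat_lit 321)) (XT.lf (nat_lit 0) (nat_lit 591040975) (nat_lit 380) (nat_lit 7827136711) (nat_lit 456) (nat_lit 2294729569) (nat_lit 117) (nat_lit 5) (nat_lit 122) (nat_lit 5) (nat_lit 123) (nat_lit 5) (nat_lit 465) (nat_lit 355) (nat_lit 320)))) (XT.nd (nat_lit 156) (nat_lit 380) (nat_lit 0) (XT.nd (nat_lit 78) (nat_lit 304) (nat_lit 0) (XT.lf (nat_lit 0) (nat_lit 1169509531) (nat_lit 456) (nat_lit 3316400624) (nat_lit 76) (nat_lit 6349409675) (nat_lit 116) (nat_lit 5) (nat_lit 122) (nat_lit 5) (nat_lit 117) (nat_lit 5) (nat_lit 466) (nat_lit 355) (nat_lit 319)) (XT.lf (nat_lit 0) (nat_lit 3589033217) (nat_lit 304) (nat_lit 1062337092) (nat_lit 380) (nat_lit 6308943464) (nat_lit 112)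 (nat_lit 5) (nat_lit 116) (nat_lit 5) (nat_lit 117) (nat_lit 5) (nat_lit 467) (nat_lit 355) (nat_lit 318))) (XT.nd (nat_lit 78) (nat_lit 380) (nat_lit 0) (XT.lf (nat_lit 0) (nat_lit 8197053205) (nat_lit 380) (nat_lit 494062431) (nat_lit 76) (nat_lit 2396825659) (nat_lit 112) (nat_lit 5) (nat_lit 117) (nat_lit 5) (nat_lit 113) (nat_lit 5) (nat_lit 468) (nat_lit 355) (nat_lit 317)) (XT.lf (nat_lit 0) (nat_lit 594060809) (nat_lit 380) (nat_lit 4689550779) (nat_lit 76) (nat_lit 5934322313) (nat_lit 107) (nat_lit 5) (nat_lit 112) (nat_lit 5) (nat_lit 108) (nat_lit 5) (nat_lit 469) (nat_lit 355) (nat_lit 316))))) (XT.nd (nat_lit 312) (nat_lit 608) (nat_lit 0) (XT.nd (nat_lit 156) (nat_lit 608) (nat_lit 0) (XT.nd (nat_lit 78) (nat_lit 0) (nat_lit 0) (XT.lf (nat_lit 0) (nat_lit 2291282555) (nat_lit 304) (nat_lit 1793951629) (nat_lit 380) (nat_lit 7265421707) (nat_lit 103) (nat_lit 5) (nat_lit 107) (nat_lit 5) (nat_lit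 108) (nat_lit 5) (nat_lit 470) (nat_lit 355) (nat_lit 315)) (XT.lf (nat_lit 0) (nat_lit 7646610275) (nat_lit 380) (nat_lit 2089159642) (nat_lit 76) (nat_lit 1750270891) (nat_lit 103) (nat_lit 5) (nat_lit 108) (nat_lit 5) (nat_lit 104) (nat_lit 5) (nat_lit 471) (nat_lit 355) (nat_lit 314))) (XT.nd (nat_lit 78) (nat_lit 304) (nat_lit 0) (XT.lf (nat_lit 0) (nat_lit 5008196396) (nat_lit 304) (nat_lit 6273491635) (nat_lit 380) (nat_lit 342411669) (nat_lit 99) (nat_lit 5) (nat_lit 103) (nat_lit 5) (nat_lit 104) (nat_lit 5) (nat_lit 472) (nat_lit 355) (nat_lit 313)) (XT.lf (nat_lit 0) (nat_lit 429583511) (nat_lit 228) (nat_lit 2727757663) (nat_lit 304) (nat_lit 8607673341) (nat_lit 95) (nat_lit 5) (nat_lit 98) (nat_lit 5) (nat_lit 99) (nat_lit 5) (nat_lit 473) (nat_lit 355) (nat_lit 312)))) (XT.nd (nat_lit 156) (nat_lit 304) (nat_lit 0) (XT.nd (nat_lit 78) (nat_lit 304) (nat_lit 0) (XT.lf (nat_lit 0) (nat_lit 6731387640)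 (nat_lit 304) (nat_lit 4276983091) (nat_lit 76) (nat_lit 900168809) (nat_lit 95) (nat_lit 5) (nat_lit 99) (nat_lit 5) (nat_lit 96) (nat_lit 5) (nat_lit 474) (nat_lit 355) (nat_lit 311)) (XT.lf (nat_lit 0) (nat_lit 2877155680) (nat_lit 304) (nat_lit 7495737409) (nat_lit 380) (nat_lit 1682136976) (nat_lit 91) (nat_lit 5) (nat_lit 95) (nat_lit 5) (nat_lit 96) (nat_lit 5) (nat_lit 475) (nat_lit 355) (nat_lit 310))) (XT.nd (nat_lit 78) (nat_lit 228) (nat_lit 0) (XT.lf (nat_lit 0) (nat_lit 1846306778) (nat_lit 380) (nat_lit 2049211598) (nat_lit 76) (nat_lit 8308937101) (nat_lit 90) (nat_lit 5) (nat_lit 95) (nat_lit 5) (nat_lit 91) (nat_lit 5) (nat_lit 476) (nat_lit 355) (nat_lit 309)) (XT.lf (nat_lit 0) (nat_lit 5215290053) (nat_lit 228) (nat_lit 201515784) (nat_lit 304) (nat_lit 6939974695) (nat_lit 87) (nat_lit 5) (nat_lit 90) (nat_lit 5) (nat_lit 91) (nat_lit 5) (nat_lit 477) (nat_lit 355) (nat_lit 308))))))))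
noncomputable def xc47 : XT := (XT.nd (nat_lit 2184) (nat_lit 1672) (nat_lit 0) (XT.nd (nat_lit 1092) (nat_lit 1368) (nat_lit 0) (XT.nd (nat_lit 546) (nat_lit 988) (nat_lit 0) (XT.nd (nat_lit 234) (nat_lit 532) (nat_lit 0) (XT.nd (nat_lit 78) (nat_lit 304) (nat_lit 0) (XT.lf (nat_lit 0) (nat_lit 54227091) (nat_lit 304) (nat_lit 9002178275) (nat_lit 380) (nat_lit 3455806364) (nat_lit 83) (nat_lit 5) (nat_lit 87) (nat_lit 5) (nat_lit 88) (nat_lit 5) (nat_lit 478) (nat_lit 355) (nat_lit 307)) (XT.nd (nat_lit 78) (nat_lit 228) (nat_lit 0) (XT.lf (nat_lit 0) (nat_lit 106765523) (nat_lit 380) (nat_lit 5245754153) (nat_lit 76) (nat_lit 7318031949) (nat_lit 82) (nat_lit 5) (nat_lit 87) (nat_lit 5) (nat_lit 83) (nat_lit 5) (nat_lit 479) (nat_lit 355) (nat_lit 306)) (XT.lf (nat_lit 0) (nat_lit 2051667924) (nat_lit 228) (nat_lit 1617218581) (nat_lit 304) (nat_lit 9163236211) (nat_lit 79) (nat_lit 5) (nat_lit 82) (nat_lit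 5) (nat_lit 83) (nat_lit 5) (nat_lit 480) (nat_lit 355) (nat_lit 305)))) (XT.nd (nat_lit 156) (nat_lit 304) (nat_lit 0) (XT.nd (nat_lit 78) (nat_lit 228) (nat_lit 0) (XT.lf (nat_lit 0) (nat_lit 7313325266) (nat_lit 304) (nat_lit 3507829201) (nat_lit 76) (nat_lit 2175561681) (nat_lit 79) (nat_lit 5) (nat_lit 83) (nat_lit 5) (nat_lit 80) (nat_lit 5) (nat_lit 481) (nat_lit 355) (nat_lit 304)) (XT.lf (nat_lit 0) (nat_lit 3888494139) (nat_lit 228) (nat_lit 7140275622) (nat_lit 304) (nat_lit 2135881530) (nat_lit 76) (nat_lit 5) (nat_lit 79) (nat_lit 5) (nat_lit 80) (nat_lit 5) (nat_lit 482) (nat_lit 355) (nat_lit 303))) (XT.nd (nat_lit 78) (nat_lit 228) (nat_lit 0) (XT.lf (nat_lit 0) (nat_lit 1449070888) (nat_lit 304) (nat_lit 1927110946) (nat_lit 76) (nat_lit 9959863751) (nat_lit 75) (nat_lit 5) (nat_lit 79) (nat_lit 5) (nat_lit 76) (nat_lit 5) (nat_lit 483) (nat_lit 355) (nat_lit 302)) (XT.lf (nat_lit 0) (nat_lit 5079460716)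 (nat_lit 304) (nat_lit 7946947167) (nat_lit 76) (nat_lit 484142241) (nat_lit 72) (nat_lit 5) (nat_lit 76) (nat_lit 5) (nat_lit 73) (nat_lit 5) (nat_lit 484) (nat_lit 355) (nat_lit 301))))) (XT.nd (nat_lit 234) (nat_lit 456) (nat_lit 0) (XT.nd (nat_lit 78) (nat_lit 532) (nat_lit 0) (XT.lf (nat_lit 0) (nat_lit 8780995006) (nat_lit 304) (nat_lit 541595957) (nat_lit 76) (nat_lit 4365994312) (nat_lit 72) (nat_lit 5) (nat_lit 76) (nat_lit 5) (nat_lit 73) (nat_lit 5) (nat_lit 485) (nat_lit 355) (nat_lit 300)) (XT.nd (nat_lit 78) (nat_lit 304) (nat_lit 0) (XT.lf (nat_lit 0) (nat_lit 7044329318) (nat_lit 228) (nat_lit 5521849743) (nat_lit 304) (nat_lit 1303820720) (nat_lit 69) (nat_lit 5) (nat_lit 72) (nat_lit 5) (nat_lit 73) (nat_lit 5) (nat_lit 486) (nat_lit 355) (nat_lit 299)) (XT.lf (nat_lit 0) (nat_lit 667660354) (nat_lit 228) (nat_lit 1645204286) (nat_lit 304) (nat_lit 11742441528) (nat_lit 65) (nat_lit 5) (nat_lit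 68) (nat_lit 5) (nat_lit 69) (nat_lit 5) (nat_lit 487) (nat_lit 355) (nat_lit 298)))) (XT.nd (nat_lit 156) (nat_lit 228) (nat_lit 0) (XT.nd (nat_lit 78) (nat_lit 228) (nat_lit 0) (XT.lf (nat_lit 0) (nat_lit 6009661503) (nat_lit 304) (nat_lit 5924141225) (nat_lit 76) (nat_lit 2309849267) (nat_lit 65) (nat_lit 5) (nat_lit 69) (nat_lit 5) (nat_lit 66) (nat_lit 5) (nat_lit 488) (nat_lit 355) (nat_lit 297)) (XT.lf (nat_lit 0) (nat_lit 1640239445) (nat_lit 228) (nat_lit 8126524345) (nat_lit 304) (nat_lit 4669283753) (nat_lit 62) (nat_lit 5) (nat_lit 65) (nat_lit 5) (nat_lit 66) (nat_lit 5) (nat_lit 489) (nat_lit 355) (nat_lit 296))) (XT.nd (nat_lit 78) (nat_lit 228) (nat_lit 0) (XT.lf (nat_lit 0) (nat_lit 9377588599) (nat_lit 228) (nat_lit 4226307302) (nat_lit 304) (nat_lit 1028307339) (nat_lit 62) (nat_lit 5) (nat_lit 65) (nat_lit 5) (nat_lit 66) (nat_lit 5) (nat_lit 490) (nat_lit 355) (nat_lit 295)) (XT.lf (nat_lit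 0) (nat_lit 2393416826) (nat_lit 152) (nat_lit 237972040) (nat_lit 228) (nat_lit 12200931652) (nat_lit 59) (nat_lit 5) (nat_lit 61) (nat_lit 5) (nat_lit 62) (nat_lit 5) (nat_lit 491) (nat_lit 355) (nat_lit 294)))))) (XT.nd (nat_lit 546) (nat_lit 684) (nat_lit 0) (XT.nd (nat_lit 234) (nat_lit 456) (nat_lit 0) (XT.nd (nat_lit 78) (nat_lit 228) (nat_lit 0) (XT.lf (nat_lit 0) (nat_lit 6376615576) (nat_lit 228) (nat_lit 4860107918) (nat_lit 76) (nat_lit 3799068010) (nat_lit 59) (nat_lit 5) (nat_lit 62) (nat_lit 5) (nat_lit 60) (nat_lit 5) (nat_lit 492) (nat_lit 355) (nat_lit 293)) (XT.nd (nat_lit 78) (nat_lit 0) (nat_lit 0) (XT.lf (nat_lit 0) (nat_lit 2849095008) (nat_lit 228) (nat_lit 7334128206) (nat_lit 304) (nat_lit 5060388399) (nat_lit 56) (nat_lit 5) (nat_lit 59) (nat_lit 5) (nat_lit 60) (nat_lit 5) (nat_lit 493) (nat_lit 355) (nat_lit 292)) (XT.lf (nat_lit 0) (nat_lit 10721777587) (nat_lit 228) (nat_lit 3343492906)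 (nat_lit 304) (nat_lit 1390340535) (nat_lit 56) (nat_lit 5) (nat_lit 59) (nat_lit 5) (nat_lit 60) (nat_lit 5) (nat_lit 494) (nat_lit 355) (nat_lit 291)))) (XT.nd (nat_lit 156) (nat_lit 228) (nat_lit 0) (XT.nd (nat_lit 78) (nat_lit 0) (nat_lit 0) (XT.lf (nat_lit 0) (nat_lit 2313966219) (nat_lit 228) (nat_lit 12627766685) (nat_lit 76) (nat_lit 729986279) (nat_lit 53) (nat_lit 5) (nat_lit 56) (nat_lit 5) (nat_lit 54) (nat_lit 5) (nat_lit 495) (nat_lit 355) (nat_lit 290)) (XT.lf (nat_lit 0) (nat_lit 6095135669) (nat_lit 228) (nat_lit 4937675965) (nat_lit 76) (nat_lit 4858734730) (nat_lit 53) (nat_lit 5) (nat_lit 56) (nat_lit 5) (nat_lit 54) (nat_lit 5) (nat_lit 496) (nat_lit 355) (nat_lit 289))) (XT.nd (nat_lit 78) (nat_lit 0) (nat_lit 0) (XT.lf (nat_lit 0) (nat_lit 2889143457) (nat_lit 228) (nat_lit 7049441907) (nat_lit 304) (nat_lit 6177459948) (nat_lit 50) (nat_lit 5) (nat_lit 53) (nat_lit 5) (nat_lit 54) (nat_lit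 5) (nat_lit 497) (nat_lit 355) (nat_lit 288)) (XT.lf (nat_lit 0) (nat_lit 10884827628) (nat_lit 228) (nat_lit 2975384370) (nat_lit 304) (nat_lit 2484804281) (nat_lit 50) (nat_lit 5) (nat_lit 53) (nat_lit 5) (nat_lit 54) (nat_lit 5) (nat_lit 498) (nat_lit 355) (nat_lit 287))))) (XT.nd (nat_lit 234) (nat_lit 228) (nat_lit 0) (XT.nd (nat_lit 78) (nat_lit 228) (nat_lit 0) (XT.lf (nat_lit 0) (nat_lit 1256940089) (nat_lit 228) (nat_lit 14154927970) (nat_lit 76) (nat_lit 1166699146) (nat_lit 47) (nat_lit 5) (nat_lit 50) (nat_lit 5) (nat_lit 48) (nat_lit 5) (nat_lit 499) (nat_lit 355) (nat_lit 286)) (XT.nd (nat_lit 78) (nat_lit 228) (nat_lit 0) (XT.lf (nat_lit 0) (nat_lit 5065572071) (nat_lit 228) (nat_lit 6367389018) (nat_lit 76) (nat_lit 5383000808) (nat_lit 47) (nat_lit 5) (nat_lit 50) (nat_lit 5) (nat_lit 48) (nat_lit 5) (nat_lit 500) (nat_lit 355) (nat_lit 285)) (XT.lf (nat_lit 0) (nat_lit 1543111627) (nat_lit 228)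 (nat_lit 7386602818) (nat_lit 304) (nat_lit 8128810858) (nat_lit 44) (nat_lit 5) (nat_lit 47) (nat_lit 5) (nat_lit 48) (nat_lit 5) (nat_lit 501) (nat_lit 355) (nat_lit 284)))) (XT.nd (nat_lit 156) (nat_lit 76) (nat_lit 0) (XT.nd (nat_lit 78) (nat_lit 152) (nat_lit 0) (XT.lf (nat_lit 0) (nat_lit 9645455512) (nat_lit 228) (nat_lit 3237991103) (nat_lit 304) (nat_lit 4422254647) (nat_lit 44) (nat_lit 5) (nat_lit 47) (nat_lit 5) (nat_lit 48) (nat_lit 5) (nat_lit 502) (nat_lit 355) (nat_lit 283)) (XT.lf (nat_lit 0) (nat_lit 297366883) (nat_lit 152) (nat_lit 16597301559) (nat_lit 228) (nat_lit 663591278) (nat_lit 42) (nat_lit 5) (nat_lit 44) (nat_lit 5) (nat_lit 45) (nat_lit 4) (nat_lit 503) (nat_lit 355) (nat_lit 282))) (XT.nd (nat_lit 78) (nat_lit 0) (nat_lit 0) (XT.lf (nat_lit 0) (nat_lit 3171936280) (nat_lit 228) (nat_lit 9391409655) (nat_lit 76) (nat_lit 5251253358) (nat_lit 41) (nat_lit 5) (nat_lit 44) (nat_lit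 5) (nat_lit 42) (nat_lit 5) (nat_lit 504) (nat_lit 355) (nat_lit 281)) (XT.lf (nat_lit 0) (nat_lit 7045964762) (nat_lit 228) (nat_lit 1420077922) (nat_lit 76) (nat_lit 9610528588) (nat_lit 41) (nat_lit 5) (nat_lit 44) (nat_lit 5) (nat_lit 42) (nat_lit 5) (nat_lit 505) (nat_lit 355) (nat_lit 280))))))) (XT.nd (nat_lit 1092) (nat_lit 608) (nat_lit 0) (XT.nd (nat_lit 546) (nat_lit 532) (nat_lit 0) (XT.nd (nat_lit 234) (nat_lit 152) (nat_lit 0) (XT.nd (nat_lit 78) (nat_lit 228) (nat_lit 0) (XT.lf (nat_lit 0) (nat_lit 6749051876) (nat_lit 152) (nat_lit 4263483959) (nat_lit 228) (nat_lit 7330952341) (nat_lit 39) (nat_lit 5) (nat_lit 41) (nat_lit 5) (nat_lit 42) (nat_lit 5) (nat_lit 506) (nat_lit 355) (nat_lit 279)) (XT.nd (nat_lit 78) (nat_lit 228) (nat_lit 0) (XT.lf (nat_lit 0) (nat_lit 15039525930) (nat_lit 228) (nat_lit 3565204649) (nat_lit 76) (nat_lit 11397681) (nat_lit 39) (nat_lit 5) (nat_lit 42) (nat_lit 5) (nat_lit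 40) (nat_lit 4) (nat_lit 507) (nat_lit 355) (nat_lit 278)) (XT.lf (nat_lit 0) (nat_lit 279768305) (nat_lit 228) (nat_lit 14287928739) (nat_lit 76) (nat_lit 4325892615) (nat_lit 36) (nat_lit 5) (nat_lit 39) (nat_lit 5) (nat_lit 37) (nat_lit 5) (nat_lit 508) (nat_lit 355) (nat_lit 277)))) (XT.nd (nat_lit 156) (nat_lit 0) (nat_lit 0) (XT.nd (nat_lit 78) (nat_lit 152) (nat_lit 0) (XT.lf (nat_lit 0) (nat_lit 4161452312) (nat_lit 228) (nat_lit 6261017149) (nat_lit 76) (nat_lit 8753742678) (nat_lit 36) (nat_lit 5) (nat_lit 39) (nat_lit 5) (nat_lit 37) (nat_lit 5) (nat_lit 509) (nat_lit 355) (nat_lit 276)) (XT.lf (nat_lit 0) (nat_lit 1903036542) (nat_lit 152) (nat_lit 6202588308) (nat_lit 228) (nat_lit 11359171214) (nat_lit 34) (nat_lit 5) (nat_lit 36) (nat_lit 5) (nat_lit 37) (nat_lit 5) (nat_lit 510) (nat_lit 355) (nat_lit 275))) (XT.nd (nat_lit 78) (nat_lit 0) (nat_lit 0) (XT.lf (nat_lit 0) (nat_lit 10267204370) (nat_lit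 152) (nat_lit 1876217611) (nat_lit 228) (nat_lit 7615440834) (nat_lit 34) (nat_lit 5) (nat_lit 36) (nat_lit 5) (nat_lit 37) (nat_lit 5) (nat_lit 511) (nat_lit 355) (nat_lit 274)) (XT.lf (nat_lit 0) (nat_lit 16251573903) (nat_lit 228) (nat_lit 1324128403) (nat_lit 76) (nat_lit 2483322473) (nat_lit 34) (nat_lit 5) (nat_lit 37) (nat_lit 5) (nat_lit 35) (nat_lit 4) (nat_lit 512) (nat_lit 355) (nat_lit 273))))) (XT.nd (nat_lit 234) (nat_lit 152) (nat_lit 0) (XT.nd (nat_lit 78) (nat_lit 152) (nat_lit 0) (XT.lf (nat_lit 0) (nat_lit 107687938) (nat_lit 228) (nat_lit 13325181236) (nat_lit 76) (nat_lit 6931676577) (nat_lit 31) (nat_lit 5) (nat_lit 34) (nat_lit 5) (nat_lit 32) (nat_lit 5) (nat_lit 513) (nat_lit 355) (nat_lit 272)) (XT.nd (nat_lit 78) (nat_lit 152) (nat_lit 0) (XT.lf (nat_lit 0) (nat_lit 4032833358) (nat_lit 228) (nat_lit 5159817510) (nat_lit 76) (nat_lit 11483374735) (nat_lit 31) (nat_lit 5) (nat_lit 34)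 (nat_lit 5) (nat_lit 32) (nat_lit 5) (nat_lit 514) (nat_lit 355) (nat_lit 271)) (XT.lf (nat_lit 0) (nat_lit 3164652068) (nat_lit 152) (nat_lit 4866585946) (nat_lit 228) (nat_lit 12962607319) (nat_lit 29) (nat_lit 5) (nat_lit 31) (nat_lit 5) (nat_lit 32) (nat_lit 5) (nat_lit 515) (nat_lit 355) (nat_lit 270)))) (XT.nd (nat_lit 156) (nat_lit 152) (nat_lit 0) (XT.nd (nat_lit 78) (nat_lit 0) (nat_lit 0) (XT.lf (nat_lit 0) (nat_lit 11680148020) (nat_lit 152) (nat_lit 438508040) (nat_lit 228) (nat_lit 9199189796) (nat_lit 29) (nat_lit 5) (nat_lit 31) (nat_lit 5) (nat_lit 32) (nat_lit 5) (nat_lit 516) (nat_lit 355) (nat_lit 269)) (XT.lf (nat_lit 0) (nat_lit 16289095972) (nat_lit 228) (nat_lit 1353746391) (nat_lit 76) (nat_lit 4005463755) (nat_lit 29) (nat_lit 5) (nat_lit 32) (nat_lit 5) (nat_lit 30) (nat_lit 4) (nat_lit 517) (nat_lit 355) (nat_lit 268))) (XT.nd (nat_lit 78) (nat_lit 76) (nat_lit 0) (XT.lf (nat_lit 0) (nat_lit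 7142641437) (nat_lit 76) (nat_lit 13424871811) (nat_lit 152) (nat_lit 1417376061) (nat_lit 28) (nat_lit 5) (nat_lit 29) (nat_lit 5) (nat_lit 30) (nat_lit 4) (nat_lit 518) (nat_lit 355) (nat_lit 267)) (XT.lf (nat_lit 0) (nat_lit 2553619682) (nat_lit 152) (nat_lit 6561736457) (nat_lit 76) (nat_lit 13212825527) (nat_lit 27) (nat_lit 5) (nat_lit 29) (nat_lit 5) (nat_lit 28) (nat_lit 5) (nat_lit 519) (nat_lit 355) (nat_lit 266)))))) (XT.nd (nat_lit 546) (nat_lit 152) (nat_lit 0) (XT.nd (nat_lit 234) (nat_lit 304) (nat_lit 0) (XT.nd (nat_lit 78) (nat_lit 0) (nat_lit 0) (XT.lf (nat_lit 0) (nat_lit 1856147285) (nat_lit 152) (nat_lit 4716785472) (nat_lit 228) (nat_lit 16105467014) (nat_lit 25) (nat_lit 5) (nat_lit 27) (nat_lit 5) (nat_lit 28) (nat_lit 5) (nat_lit 520) (nat_lit 355) (nat_lit 265)) (XT.nd (nat_lit 78) (nat_lit 0) (nat_lit 0) (XT.lf (nat_lit 0) (nat_lit 10488423935) (nat_lit 152) (nat_lit 204243637) (nat_lit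 228) (nat_lit 12342558669) (nat_lit 25) (nat_lit 5) (nat_lit 27) (nat_lit 5) (nat_lit 28) (nat_lit 5) (nat_lit 521) (nat_lit 355) (nat_lit 264)) (XT.lf (nat_lit 0) (nat_lit 14899708292) (nat_lit 228) (nat_lit 4176825622) (nat_lit 76) (nat_lit 4322561715) (nat_lit 25) (nat_lit 5) (nat_lit 28) (nat_lit 5) (nat_lit 26) (nat_lit 4) (nat_lit 522) (nat_lit 355) (nat_lit 263)))) (XT.nd (nat_lit 156) (nat_lit 228) (nat_lit 0) (XT.nd (nat_lit 78) (nat_lit 0) (nat_lit 0) (XT.lf (nat_lit 0) (nat_lit 4374984339) (nat_lit 76) (nat_lit 14822479976) (nat_lit 152) (nat_lit 4572651129) (nat_lit 24) (nat_lit 5) (nat_lit 25) (nat_lit 5) (nat_lit 26) (nat_lit 4) (nat_lit 523) (nat_lit 355) (nat_lit 262)) (XT.lf (nat_lit 0) (nat_lit 13113129748) (nat_lit 76) (nat_lit 10473077297) (nat_lit 152) (nat_lit 562252414) (nat_lit 24) (nat_lit 5) (nat_lit 25) (nat_lit 5) (nat_lit 26) (nat_lit 4) (nat_lit 524) (nat_lit 355) (nat_lit 261))) (XT.nd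 (nat_lit 78) (nat_lit 152) (nat_lit 0) (XT.lf (nat_lit 0) (nat_lit 3459379481) (nat_lit 152) (nat_lit 2572055189) (nat_lit 76) (nat_lit 18502935777) (nat_lit 23) (nat_lit 5) (nat_lit 25) (nat_lit 5) (nat_lit 24) (nat_lit 5) (nat_lit 525) (nat_lit 355) (nat_lit 260)) (XT.lf (nat_lit 0) (nat_lit 6096706499) (nat_lit 152) (nat_lit 1474545157) (nat_lit 228) (nat_lit 17356331127) (nat_lit 21) (nat_lit 5) (nat_lit 23) (nat_lit 5) (nat_lit 24) (nat_lit 5) (nat_lit 526) (nat_lit 355) (nat_lit 259))))) (XT.nd (nat_lit 312) (nat_lit 76) (nat_lit 0) (XT.nd (nat_lit 156) (nat_lit 76) (nat_lit 0) (XT.nd (nat_lit 78) (nat_lit 0) (nat_lit 0) (XT.lf (nat_lit 0) (nat_lit 11781148597) (nat_lit 228) (nat_lit 10415406338) (nat_lit 76) (nat_lit 3131792782) (nat_lit 21) (nat_lit 5) (nat_lit 24) (nat_lit 5) (nat_lit 22) (nat_lit 4) (nat_lit 527) (nat_lit 355) (nat_lit 258)) (XT.lf (nat_lit 0) (nat_lit 16063252622) (nat_lit 228) (nat_lit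 1880688096) (nat_lit 76) (nat_lit 7793431070) (nat_lit 21) (nat_lit 5) (nat_lit 24) (nat_lit 5) (nat_lit 22) (nat_lit 4) (nat_lit 528) (nat_lit 355) (nat_lit 257))) (XT.nd (nat_lit 78) (nat_lit 0) (nat_lit 0) (XT.lf (nat_lit 0) (nat_lit 6876384129) (nat_lit 76) (nat_lit 13577931177) (nat_lit 152) (nat_lit 5699798640) (nat_lit 20) (nat_lit 5) (nat_lit 21) (nat_lit 5) (nat_lit 22) (nat_lit 4) (nat_lit 529) (nat_lit 355) (nat_lit 256)) (XT.lf (nat_lit 0) (nat_lit 15795819083) (nat_lit 76) (nat_lit 9128840842) (nat_lit 152) (nat_lit 1654705673) (nat_lit 20) (nat_lit 5) (nat_lit 21) (nat_lit 5) (nat_lit 22) (nat_lit 4) (nat_lit 530) (nat_lit 355) (nat_lit 255)))) (XT.nd (nat_lit 51402) (nat_lit 0) (nat_lit 21128) (XT.nd (nat_lit 51324) (nat_lit 0) (nat_lit 21888) (XT.lf (nat_lit 0) (nat_lit 2417991798) (nat_lit 152) (nat_lit 2173327581) (nat_lit 76) (nat_lit 22421903431) (nat_lit 19) (nat_lit 5) (nat_lit 21) (nat_lit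 5) (nat_lit 20) (nat_lit 5) (nat_lit 531) (nat_lit 355) (nat_lit 254)) (XT.lf (nat_lit 0) (nat_lit 1358298269) (nat_lit 760) (nat_lit 1228587385) (nat_lit 760) (nat_lit 1228587385) (nat_lit 307) (nat_lit 4) (nat_lit 317) (nat_lit 5) (nat_lit 317) (nat_lit 4) (nat_lit 428) (nat_lit 356) (nat_lit 356))) (XT.nd (nat_lit 78) (nat_lit 0) (nat_lit 0) (XT.lf (nat_lit 0) (nat_lit 575023027) (nat_lit 684) (nat_lit 400622502) (nat_lit 760) (nat_lit 6707681230) (nat_lit 297) (nat_lit 5) (nat_lit 306) (nat_lit 5) (nat_lit 307) (nat_lit 4) (nat_lit 429) (nat_lit 356) (nat_lit 355)) (XT.lf (nat_lit 0) (nat_lit 4424732141) (nat_lit 760) (nat_lit 1597397224) (nat_lit 0) (nat_lit 1714738385) (nat_lit 297) (nat_lit 5) (nat_lit 307) (nat_lit 4) (nat_lit 297) (nat_lit 4) (nat_lit 430) (nat_lit 356) (nat_lit 354))))))))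
noncomputable def xc48 : XT := (XT.nd (nat_lit 2184) (nat_lit 5700) (nat_lit 0) (XT.nd (nat_lit 1092) (nat_lit 4940) (nat_lit 0) (XT.nd (nat_lit 546) (nat_lit 3116) (nat_lit 0) (XT.nd (nat_lit 234) (nat_lit 2128) (nat_lit 0) (XT.nd (nat_lit 78) (nat_lit 684) (nat_lit 0) (XT.lf (nat_lit 0) (nat_lit 115208033) (nat_lit 836) (nat_lit 3792549084) (nat_lit 76) (nat_lit 3884431273) (nat_lit 286) (nat_lit 5) (nat_lit 297) (nat_lit 5) (nat_lit 287) (nat_lit 4) (nat_lit 431) (nat_lit 356) (nat_lit 353)) (XT.nd (nat_lit 78) (nat_lit 0) (nat_lit 0) (XT.lf (nat_lit 0) (nat_lit 1810084261) (nat_lit 684) (nat_lit 1717063962) (nat_lit 760) (nat_lit 4321866382) (nat_lit 277) (nat_lit 5) (nat_lit 286) (nat_lit 5) (nat_lit 287) (nat_lit 4) (nat_lit 432) (nat_lit 356) (nat_lit 352)) (XT.lf (nat_lit 0) (nat_lit 6974790267) (nat_lit 760) (nat_lit 408049478) (nat_lit 0) (nat_lit 524832468) (nat_lit 277) (nat_lit 5) (nat_lit 287) (nat_lit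 4) (nat_lit 277) (nat_lit 4) (nat_lit 433) (nat_lit 356) (nat_lit 351)))) (XT.nd (nat_lit 156) (nat_lit 760) (nat_lit 0) (XT.nd (nat_lit 78) (nat_lit 608) (nat_lit 0) (XT.lf (nat_lit 0) (nat_lit 2476253432) (nat_lit 760) (nat_lit 2663037172) (nat_lit 76) (nat_lit 2828217604) (nat_lit 267) (nat_lit 5) (nat_lit 277) (nat_lit 5) (nat_lit 268) (nat_lit 4) (nat_lit 434) (nat_lit 356) (nat_lit 350)) (XT.lf (nat_lit 0) (nat_lit 3069206728) (nat_lit 608) (nat_lit 2834536552) (nat_lit 684) (nat_lit 2125462636) (nat_lit 259) (nat_lit 5) (nat_lit 267) (nat_lit 5) (nat_lit 268) (nat_lit 4) (nat_lit 435) (nat_lit 356) (nat_lit 349))) (XT.nd (nat_lit 78) (nat_lit 0) (nat_lit 0) (XT.lf (nat_lit 0) (nat_lit 788658133) (nat_lit 684) (nat_lit 465186361) (nat_lit 760) (nat_lit 6838896270) (nat_lit 249) (nat_lit 5) (nat_lit 258) (nat_lit 5) (nat_lit 259) (nat_lit 5) (nat_lit 436) (nat_lit 356) (nat_lit 348)) (XT.lf (nat_lit 0) (nat_lit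 4659326971) (nat_lit 760) (nat_lit 1538461748) (nat_lit 76) (nat_lit 1959774804) (nat_lit 249) (nat_lit 5) (nat_lit 259) (nat_lit 5) (nat_lit 250) (nat_lit 4) (nat_lit 437) (nat_lit 356) (nat_lit 347))))) (XT.nd (nat_lit 234) (nat_lit 1824) (nat_lit 0) (XT.nd (nat_lit 78) (nat_lit 684) (nat_lit 0) (XT.lf (nat_lit 0) (nat_lit 4323410088) (nat_lit 608) (nat_lit 3782667172) (nat_lit 684) (nat_lit 118180733) (nat_lit 241) (nat_lit 5) (nat_lit 249) (nat_lit 5) (nat_lit 250) (nat_lit 4) (nat_lit 438) (nat_lit 356) (nat_lit 346)) (XT.nd (nat_lit 78) (nat_lit 0) (nat_lit 0) (XT.lf (nat_lit 0) (nat_lit 1962335424) (nat_lit 608) (nat_lit 1288865665) (nat_lit 684) (nat_lit 5041382014) (nat_lit 232) (nat_lit 5) (nat_lit 240) (nat_lit 5) (nat_lit 241) (nat_lit 5) (nat_lit 439) (nat_lit 356) (nat_lit 345)) (XT.lf (nat_lit 0) (nat_lit 6663706260) (nat_lit 684) (nat_lit 448801160) (nat_lit 76) (nat_lit 1250241510) (nat_lit 232)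 (nat_lit 5) (nat_lit 241) (nat_lit 5) (nat_lit 233) (nat_lit 4) (nat_lit 440) (nat_lit 356) (nat_lit 344)))) (XT.nd (nat_lit 156) (nat_lit 608) (nat_lit 0) (XT.nd (nat_lit 78) (nat_lit 608) (nat_lit 0) (XT.lf (nat_lit 0) (nat_lit 1676063446) (nat_lit 608) (nat_lit 2903347633) (nat_lit 76) (nat_lit 3854952745) (nat_lit 224) (nat_lit 5) (nat_lit 232) (nat_lit 5) (nat_lit 225) (nat_lit 5) (nat_lit 441) (nat_lit 356) (nat_lit 343)) (XT.lf (nat_lit 0) (nat_lit 3085898611) (nat_lit 608) (nat_lit 1977284542) (nat_lit 684) (nat_lit 3444692129) (nat_lit 216) (nat_lit 5) (nat_lit 224) (nat_lit 5) (nat_lit 225) (nat_lit 5) (nat_lit 442) (nat_lit 356) (nat_lit 342))) (XT.nd (nat_lit 78) (nat_lit 76) (nat_lit 0) (XT.lf (nat_lit 0) (nat_lit 581910111) (nat_lit 532) (nat_lit 7908611394) (nat_lit 608) (nat_lit 92919385) (nat_lit 209) (nat_lit 5) (nat_lit 216) (nat_lit 5) (nat_lit 217) (nat_lit 4) (nat_lit 443) (nat_lit 356) (nat_lit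 341)) (XT.lf (nat_lit 0) (nat_lit 3276899316) (nat_lit 608) (nat_lit 1988648541) (nat_lit 76) (nat_lit 3394677618) (nat_lit 208) (nat_lit 5) (nat_lit 216) (nat_lit 5) (nat_lit 209) (nat_lit 5) (nat_lit 444) (nat_lit 356) (nat_lit 340)))))) (XT.nd (nat_lit 546) (nat_lit 2280) (nat_lit 0) (XT.nd (nat_lit 234) (nat_lit 1596) (nat_lit 0) (XT.nd (nat_lit 78) (nat_lit 532) (nat_lit 0) (XT.lf (nat_lit 0) (nat_lit 4126128211) (nat_lit 532) (nat_lit 2559523163) (nat_lit 608) (nat_lit 2053457985) (nat_lit 201) (nat_lit 5) (nat_lit 208) (nat_lit 5) (nat_lit 209) (nat_lit 5) (nat_lit 445) (nat_lit 356) (nat_lit 339)) (XT.nd (nat_lit 78) (nat_lit 0) (nat_lit 0) (XT.lf (nat_lit 0) (nat_lit 1296225922) (nat_lit 532) (nat_lit 7311723189) (nat_lit 76) (nat_lit 212061065) (nat_lit 194) (nat_lit 5) (nat_lit 201) (nat_lit 5) (nat_lit 195) (nat_lit 5) (nat_lit 446) (nat_lit 356) (nat_lit 338)) (XT.lf (nat_lit 0) (nat_lit 4680215949)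 (nat_lit 532) (nat_lit 1190788425) (nat_lit 76) (nat_lit 3031386701) (nat_lit 194) (nat_lit 5) (nat_lit 201) (nat_lit 5) (nat_lit 195) (nat_lit 5) (nat_lit 447) (nat_lit 356) (nat_lit 337)))) (XT.nd (nat_lit 156) (nat_lit 532) (nat_lit 0) (XT.nd (nat_lit 78) (nat_lit 532) (nat_lit 0) (XT.lf (nat_lit 0) (nat_lit 5047554182) (nat_lit 532) (nat_lit 3064820842) (nat_lit 608) (nat_lit 874463899) (nat_lit 187) (nat_lit 5) (nat_lit 194) (nat_lit 5) (nat_lit 195) (nat_lit 5) (nat_lit 448) (nat_lit 356) (nat_lit 336)) (XT.lf (nat_lit 0) (nat_lit 2296095144) (nat_lit 456) (nat_lit 181655078) (nat_lit 532) (nat_lit 6595506359) (nat_lit 180) (nat_lit 5) (nat_lit 186) (nat_lit 5) (nat_lit 187) (nat_lit 5) (nat_lit 449) (nat_lit 356) (nat_lit 335))) (XT.nd (nat_lit 78) (nat_lit 532) (nat_lit 0) (XT.lf (nat_lit 0) (nat_lit 5878181008) (nat_lit 532) (nat_lit 547097434) (nat_lit 76) (nat_lit 2736178353) (nat_lit 180) (nat_lit 5)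 (nat_lit 187) (nat_lit 5) (nat_lit 181) (nat_lit 5) (nat_lit 450) (nat_lit 356) (nat_lit 334)) (XT.lf (nat_lit 0) (nat_lit 82144873) (nat_lit 532) (nat_lit 3440144429) (nat_lit 76) (nat_lit 5729381839) (nat_lit 173) (nat_lit 5) (nat_lit 180) (nat_lit 5) (nat_lit 174) (nat_lit 5) (nat_lit 451) (nat_lit 356) (nat_lit 333))))) (XT.nd (nat_lit 234) (nat_lit 1292) (nat_lit 0) (XT.nd (nat_lit 78) (nat_lit 532) (nat_lit 0) (XT.lf (nat_lit 0) (nat_lit 2906731612) (nat_lit 456) (nat_lit 536327940) (nat_lit 532) (nat_lit 5900779054) (nat_lit 167) (nat_lit 5) (nat_lit 173) (nat_lit 5) (nat_lit 174) (nat_lit 5) (nat_lit 452) (nat_lit 356) (nat_lit 332)) (XT.nd (nat_lit 78) (nat_lit 532) (nat_lit 0) (XT.lf (nat_lit 0) (nat_lit 6860663454) (nat_lit 532) (nat_lit 97827936) (nat_lit 76) (nat_lit 2479593958) (nat_lit 167) (nat_lit 5) (nat_lit 174) (nat_lit 5) (nat_lit 168) (nat_lit 5) (nat_lit 453) (nat_lit 356) (nat_lit 331))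 (XT.lf (nat_lit 0) (nat_lit 797583602) (nat_lit 532) (nat_lit 3161007160) (nat_lit 76) (nat_lit 5575628412) (nat_lit 160) (nat_lit 5) (nat_lit 167) (nat_lit 5) (nat_lit 161) (nat_lit 5) (nat_lit 454) (nat_lit 356) (nat_lit 330)))) (XT.nd (nat_lit 156) (nat_lit 456) (nat_lit 0) (XT.nd (nat_lit 78) (nat_lit 456) (nat_lit 0) (XT.lf (nat_lit 0) (nat_lit 3298937599) (nat_lit 380) (nat_lit 879840537) (nat_lit 456) (nat_lit 5453716677) (nat_lit 155) (nat_lit 5) (nat_lit 160) (nat_lit 5) (nat_lit 161) (nat_lit 5) (nat_lit 455) (nat_lit 356) (nat_lit 329)) (XT.lf (nat_lit 0) (nat_lit 114922657) (nat_lit 456) (nat_lit 7500908188) (nat_lit 532) (nat_lit 2117163851) (nat_lit 149) (nat_lit 5) (nat_lit 155) (nat_lit 5) (nat_lit 156) (nat_lit 5) (nat_lit 456) (nat_lit 356) (nat_lit 328))) (XT.nd (nat_lit 78) (nat_lit 380) (nat_lit 0) (XT.lf (nat_lit 0) (nat_lit 1269478105) (nat_lit 532) (nat_lit 3141475742) (nat_lit 76) (nat_lit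 5424401716) (nat_lit 148) (nat_lit 5) (nat_lit 155) (nat_lit 5) (nat_lit 149) (nat_lit 5) (nat_lit 457) (nat_lit 356) (nat_lit 327)) (XT.lf (nat_lit 0) (nat_lit 3426365213) (nat_lit 380) (nat_lit 1243976346) (nat_lit 456) (nat_lit 5269667513) (nat_lit 143) (nat_lit 5) (nat_lit 148) (nat_lit 5) (nat_lit 149) (nat_lit 5) (nat_lit 458) (nat_lit 356) (nat_lit 326))))))) (XT.nd (nat_lit 1092) (nat_lit 2356) (nat_lit 0) (XT.nd (nat_lit 546) (nat_lit 1748) (nat_lit 0) (XT.nd (nat_lit 234) (nat_lit 760) (nat_lit 0) (XT.nd (nat_lit 78) (nat_lit 456) (nat_lit 0) (XT.lf (nat_lit 0) (nat_lit 39729728) (nat_lit 380) (nat_lit 8086774683) (nat_lit 456) (nat_lit 1920527231) (nat_lit 138) (nat_lit 5) (nat_lit 143) (nat_lit 5) (nat_lit 144) (nat_lit 5) (nat_lit 459) (nat_lit 356) (nat_lit 325)) (XT.nd (nat_lit 78) (nat_lit 380) (nat_lit 0) (XT.lf (nat_lit 0) (nat_lit 1481270543) (nat_lit 456) (nat_lit 3430848238) (nat_lit 76) (nat_lit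 5243796675) (nat_lit 137) (nat_lit 5) (nat_lit 143) (nat_lit 5) (nat_lit 138) (nat_lit 5) (nat_lit 460) (nat_lit 356) (nat_lit 324)) (XT.lf (nat_lit 0) (nat_lit 3238502475) (nat_lit 380) (nat_lit 1661909027) (nat_lit 456) (nat_lit 5366831474) (nat_lit 132) (nat_lit 5) (nat_lit 137) (nat_lit 5) (nat_lit 138) (nat_lit 5) (nat_lit 461) (nat_lit 356) (nat_lit 323)))) (XT.nd (nat_lit 156) (nat_lit 304) (nat_lit 0) (XT.nd (nat_lit 78) (nat_lit 456) (nat_lit 0) (XT.lf (nat_lit 0) (nat_lit 8376133604) (nat_lit 456) (nat_lit 372200161) (nat_lit 76) (nat_lit 1632719300) (nat_lit 132) (nat_lit 5) (nat_lit 138) (nat_lit 5) (nat_lit 133) (nat_lit 5) (nat_lit 462) (nat_lit 356) (nat_lit 322)) (XT.lf (nat_lit 0) (nat_lit 1413480259) (nat_lit 456) (nat_lit 4082967616) (nat_lit 76) (nat_lit 5000367180) (nat_lit 126) (nat_lit 5) (nat_lit 132) (nat_lit 5) (nat_lit 127) (nat_lit 5) (nat_lit 463) (nat_lit 356) (nat_lit 321))) (XT.nd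 (nat_lit 78) (nat_lit 0) (nat_lit 0) (XT.lf (nat_lit 0) (nat_lit 2680130282) (nat_lit 304) (nat_lit 2168528656) (nat_lit 380) (nat_lit 5766481992) (nat_lit 122) (nat_lit 5) (nat_lit 126) (nat_lit 5) (nat_lit 127) (nat_lit 5) (nat_lit 464) (nat_lit 356) (nat_lit 320)) (XT.lf (nat_lit 0) (nat_lit 8343689616) (nat_lit 380) (nat_lit 1177446065) (nat_lit 76) (nat_lit 1214893136) (nat_lit 122) (nat_lit 5) (nat_lit 127) (nat_lit 5) (nat_lit 123) (nat_lit 5) (nat_lit 465) (nat_lit 356) (nat_lit 319))))) (XT.nd (nat_lit 234) (nat_lit 988) (nat_lit 0) (XT.nd (nat_lit 78) (nat_lit 304) (nat_lit 0) (XT.lf (nat_lit 0) (nat_lit 1043467666) (nat_lit 456) (nat_lit 5156797568) (nat_lit 76) (nat_lit 4658791866) (nat_lit 116) (nat_lit 5) (nat_lit 122) (nat_lit 5) (nat_lit 117) (nat_lit 5) (nat_lit 466) (nat_lit 356) (nat_lit 318)) (XT.nd (nat_lit 78) (nat_lit 0) (nat_lit 0) (XT.lf (nat_lit 0) (nat_lit 1690729063) (nat_lit 304) (nat_lit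 2800789288) (nat_lit 380) (nat_lit 6493217507) (nat_lit 112) (nat_lit 5) (nat_lit 116) (nat_lit 5) (nat_lit 117) (nat_lit 5) (nat_lit 467) (nat_lit 356) (nat_lit 317)) (XT.lf (nat_lit 0) (nat_lit 8004562604) (nat_lit 380) (nat_lit 2438654124) (nat_lit 76) (nat_lit 669807870) (nat_lit 112) (nat_lit 5) (nat_lit 117) (nat_lit 5) (nat_lit 113) (nat_lit 5) (nat_lit 468) (nat_lit 356) (nat_lit 316)))) (XT.nd (nat_lit 156) (nat_lit 304) (nat_lit 0) (XT.nd (nat_lit 78) (nat_lit 304) (nat_lit 0) (XT.lf (nat_lit 0) (nat_lit 345167485) (nat_lit 380) (nat_lit 6717052527) (nat_lit 76) (nat_lit 4181517020) (nat_lit 107) (nat_lit 5) (nat_lit 112) (nat_lit 5) (nat_lit 108) (nat_lit 5) (nat_lit 469) (nat_lit 356) (nat_lit 315)) (XT.lf (nat_lit 0) (nat_lit 203829324) (nat_lit 304) (nat_lit 3598081102) (nat_lit 380) (nat_lit 7575245162) (nat_lit 103) (nat_lit 5) (nat_lit 107) (nat_lit 5) (nat_lit 108) (nat_lit 5) (nat_lit 470) (nat_lit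 356) (nat_lit 314))) (XT.nd (nat_lit 78) (nat_lit 304) (nat_lit 0) (XT.lf (nat_lit 0) (nat_lit 7288813318) (nat_lit 304) (nat_lit 42280211) (nat_lit 380) (nat_lit 4182098637) (nat_lit 103) (nat_lit 5) (nat_lit 107) (nat_lit 5) (nat_lit 108) (nat_lit 5) (nat_lit 471) (nat_lit 356) (nat_lit 313)) (XT.lf (nat_lit 0) (nat_lit 2812389205) (nat_lit 304) (nat_lit 8118903980) (nat_lit 380) (nat_lit 720663084) (nat_lit 99) (nat_lit 5) (nat_lit 103) (nat_lit 5) (nat_lit 104) (nat_lit 5) (nat_lit 472) (nat_lit 356) (nat_lit 312)))))) (XT.nd (nat_lit 546) (nat_lit 1140) (nat_lit 0) (XT.nd (nat_lit 234) (nat_lit 608) (nat_lit 0) (XT.nd (nat_lit 78) (nat_lit 532) (nat_lit 0) (XT.lf (nat_lit 0) (nat_lit 2760965774) (nat_lit 380) (nat_lit 1829388665) (nat_lit 76) (nat_lit 7203034809) (nat_lit 98) (nat_lit 5) (nat_lit 103) (nat_lit 5) (nat_lit 99) (nat_lit 5) (nat_lit 473) (nat_lit 356) (nat_lit 311)) (XT.nd (nat_lit 78) (nat_lit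 304) (nat_lit 0) (XT.lf (nat_lit 0) (nat_lit 5322394437) (nat_lit 228) (nat_lit 974555222) (nat_lit 304) (nat_lit 5640733073) (nat_lit 95) (nat_lit 5) (nat_lit 98) (nat_lit 5) (nat_lit 99) (nat_lit 5) (nat_lit 474) (nat_lit 356) (nat_lit 310)) (XT.lf (nat_lit 0) (nat_lit 482147925) (nat_lit 304) (nat_lit 9414643796) (nat_lit 380) (nat_lit 2188221869) (nat_lit 91) (nat_lit 5) (nat_lit 95) (nat_lit 5) (nat_lit 96) (nat_lit 5) (nat_lit 475) (nat_lit 356) (nat_lit 309)))) (XT.nd (nat_lit 156) (nat_lit 304) (nat_lit 0) (XT.nd (nat_lit 78) (nat_lit 228) (nat_lit 0) (XT.lf (nat_lit 0) (nat_lit 1327120699) (nat_lit 380) (nat_lit 4502597177) (nat_lit 76) (nat_lit 6405188406) (nat_lit 90) (nat_lit 5) (nat_lit 95) (nat_lit 5) (nat_lit 91) (nat_lit 5) (nat_lit 476) (nat_lit 356) (nat_lit 308)) (XT.lf (nat_lit 0) (nat_lit 2697828555) (nat_lit 228) (nat_lit 2164094623) (nat_lit 304) (nat_lit 7526028749) (nat_lit 87) (nat_lit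 5) (nat_lit 90) (nat_lit 5) (nat_lit 91) (nat_lit 5) (nat_lit 477) (nat_lit 356) (nat_lit 307))) (XT.nd (nat_lit 78) (nat_lit 304) (nat_lit 0) (XT.lf (nat_lit 0) (nat_lit 8469179980) (nat_lit 304) (nat_lit 2513543388) (nat_lit 76) (nat_lit 1561313139) (nat_lit 87) (nat_lit 5) (nat_lit 91) (nat_lit 5) (nat_lit 88) (nat_lit 5) (nat_lit 478) (nat_lit 356) (nat_lit 306)) (XT.lf (nat_lit 0) (nat_lit 4793376082) (nat_lit 304) (nat_lit 7362540211) (nat_lit 380) (nat_lit 547192723) (nat_lit 83) (nat_lit 5) (nat_lit 87) (nat_lit 5) (nat_lit 88) (nat_lit 5) (nat_lit 479) (nat_lit 356) (nat_lit 305))))) (XT.nd (nat_lit 312) (nat_lit 532) (nat_lit 0) (XT.nd (nat_lit 156) (nat_lit 304) (nat_lit 0) (XT.nd (nat_lit 78) (nat_lit 228) (nat_lit 0) (XT.lf (nat_lit 0) (nat_lit 2989956035) (nat_lit 380) (nat_lit 666279041) (nat_lit 76) (nat_lit 9209165214) (nat_lit 82) (nat_lit 5) (nat_lit 87) (nat_lit 5) (nat_lit 83) (nat_lit 5) (nat_lit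 480) (nat_lit 356) (nat_lit 304)) (XT.lf (nat_lit 0) (nat_lit 6598011140) (nat_lit 304) (nat_lit 6285442589) (nat_lit 76) (nat_lit 147273697) (nat_lit 79) (nat_lit 5) (nat_lit 83) (nat_lit 5) (nat_lit 80) (nat_lit 5) (nat_lit 481) (nat_lit 356) (nat_lit 303))) (XT.nd (nat_lit 78) (nat_lit 76) (nat_lit 0) (XT.lf (nat_lit 0) (nat_lit 1043455441) (nat_lit 228) (nat_lit 9233163058) (nat_lit 304) (nat_lit 2922786725) (nat_lit 76) (nat_lit 5) (nat_lit 79) (nat_lit 5) (nat_lit 80) (nat_lit 5) (nat_lit 482) (nat_lit 356) (nat_lit 302)) (XT.lf (nat_lit 0) (nat_lit 654160472) (nat_lit 304) (nat_lit 4831957699) (nat_lit 76) (nat_lit 7885155725) (nat_lit 75) (nat_lit 5) (nat_lit 79) (nat_lit 5) (nat_lit 76) (nat_lit 5) (nat_lit 483) (nat_lit 356) (nat_lit 301)))) (XT.nd (nat_lit 156) (nat_lit 304) (nat_lit 0) (XT.nd (nat_lit 78) (nat_lit 0) (nat_lit 0) (XT.lf (nat_lit 0) (nat_lit 2593436381) (nat_lit 228) (nat_lit 1650657089)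 (nat_lit 304) (nat_lit 9302499672) (nat_lit 72) (nat_lit 5) (nat_lit 75) (nat_lit 5) (nat_lit 76) (nat_lit 5) (nat_lit 484) (nat_lit 356) (nat_lit 300)) (XT.lf (nat_lit 0) (nat_lit 7917030710) (nat_lit 304) (nat_lit 3566752057) (nat_lit 76) (nat_lit 2241422930) (nat_lit 72) (nat_lit 5) (nat_lit 76) (nat_lit 5) (nat_lit 73) (nat_lit 5) (nat_lit 485) (nat_lit 356) (nat_lit 299))) (XT.nd (nat_lit 78) (nat_lit 76) (nat_lit 0) (XT.lf (nat_lit 0) (nat_lit 3949501976) (nat_lit 228) (nat_lit 7715089813) (nat_lit 304) (nat_lit 2242786227) (nat_lit 69) (nat_lit 5) (nat_lit 72) (nat_lit 5) (nat_lit 73) (nat_lit 5) (nat_lit 486) (nat_lit 356) (nat_lit 298)) (XT.lf (nat_lit 0) (nat_lit 1364385536) (nat_lit 304) (nat_lit 2496333642) (nat_lit 76) (nat_lit 10232528867) (nat_lit 68) (nat_lit 5) (nat_lit 72) (nat_lit 5) (nat_lit 69) (nat_lit 5) (nat_lit 487) (nat_lit 356) (nat_lit 297))))))))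
noncomputable def xc49 : XT := (XT.nd (nat_lit 2184) (nat_lit 836) (nat_lit 0) (XT.nd (nat_lit 1092) (nat_lit 1216) (nat_lit 0) (XT.nd (nat_lit 546) (nat_lit 684) (nat_lit 0) (XT.nd (nat_lit 234) (nat_lit 456) (nat_lit 0) (XT.nd (nat_lit 78) (nat_lit 228) (nat_lit 0) (XT.lf (nat_lit 0) (nat_lit 5012852218) (nat_lit 304) (nat_lit 9174300363) (nat_lit 76) (nat_lit 95412942) (nat_lit 65) (nat_lit 5) (nat_lit 69) (nat_lit 5) (nat_lit 66) (nat_lit 5) (nat_lit 488) (nat_lit 356) (nat_lit 296)) (XT.nd (nat_lit 78) (nat_lit 228) (nat_lit 0) (XT.lf (nat_lit 0) (nat_lit 8742232848) (nat_lit 304) (nat_lit 1660072113) (nat_lit 76) (nat_lit 4073215490) (nat_lit 65) (nat_lit 5) (nat_lit 69) (nat_lit 5) (nat_lit 66) (nat_lit 5) (nat_lit 489) (nat_lit 356) (nat_lit 295)) (XT.lf (nat_lit 0) (nat_lit 6026763592) (nat_lit 228) (nat_lit 6524757722) (nat_lit 304) (nat_lit 2120716556) (nat_lit 62) (nat_lit 5) (nat_lit 65) (nat_lit 5)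 (nat_lit 66) (nat_lit 5) (nat_lit 490) (nat_lit 356) (nat_lit 294)))) (XT.nd (nat_lit 156) (nat_lit 228) (nat_lit 0) (XT.nd (nat_lit 78) (nat_lit 152) (nat_lit 0) (XT.lf (nat_lit 0) (nat_lit 1521062271) (nat_lit 304) (nat_lit 1049860999) (nat_lit 76) (nat_lit 12302223283) (nat_lit 61) (nat_lit 5) (nat_lit 65) (nat_lit 5) (nat_lit 62) (nat_lit 5) (nat_lit 491) (nat_lit 356) (nat_lit 293)) (XT.lf (nat_lit 0) (nat_lit 5227556621) (nat_lit 228) (nat_lit 8371306825) (nat_lit 76) (nat_lit 1478533310) (nat_lit 59) (nat_lit 5) (nat_lit 62) (nat_lit 5) (nat_lit 60) (nat_lit 5) (nat_lit 492) (nat_lit 356) (nat_lit 292))) (XT.nd (nat_lit 78) (nat_lit 228) (nat_lit 0) (XT.lf (nat_lit 0) (nat_lit 8999359604) (nat_lit 228) (nat_lit 727115011) (nat_lit 76) (nat_lit 5559442825) (nat_lit 59) (nat_lit 5) (nat_lit 62) (nat_lit 5) (nat_lit 60) (nat_lit 5) (nat_lit 493) (nat_lit 356) (nat_lit 291)) (XT.lf (nat_lit 0) (nat_lit 7108441744)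 (nat_lit 228) (nat_lit 5752016472) (nat_lit 304) (nat_lit 2637882004) (nat_lit 56) (nat_lit 5) (nat_lit 59) (nat_lit 5) (nat_lit 60) (nat_lit 5) (nat_lit 494) (nat_lit 356) (nat_lit 290))))) (XT.nd (nat_lit 234) (nat_lit 456) (nat_lit 0) (XT.nd (nat_lit 78) (nat_lit 152) (nat_lit 0) (XT.lf (nat_lit 0) (nat_lit 1042231517) (nat_lit 304) (nat_lit 666240954) (nat_lit 76) (nat_lit 14006953224) (nat_lit 55) (nat_lit 5) (nat_lit 59) (nat_lit 5) (nat_lit 56) (nat_lit 5) (nat_lit 495) (nat_lit 356) (nat_lit 289)) (XT.nd (nat_lit 78) (nat_lit 0) (nat_lit 0) (XT.lf (nat_lit 0) (nat_lit 4792004467) (nat_lit 228) (nat_lit 8716606292) (nat_lit 76) (nat_lit 2427274187) (nat_lit 53) (nat_lit 5) (nat_lit 56) (nat_lit 5) (nat_lit 54) (nat_lit 5) (nat_lit 496) (nat_lit 356) (nat_lit 288)) (XT.lf (nat_lit 0) (nat_lit 8601115759) (nat_lit 228) (nat_lit 954355241) (nat_lit 76) (nat_lit 6605603721) (nat_lit 53) (nat_lit 5) (nat_lit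 56) (nat_lit 5) (nat_lit 54) (nat_lit 5) (nat_lit 497) (nat_lit 356) (nat_lit 287)))) (XT.nd (nat_lit 156) (nat_lit 228) (nat_lit 0) (XT.nd (nat_lit 78) (nat_lit 0) (nat_lit 0) (XT.lf (nat_lit 0) (nat_lit 7002144817) (nat_lit 228) (nat_lit 5498872183) (nat_lit 304) (nat_lit 3889467174) (nat_lit 50) (nat_lit 5) (nat_lit 53) (nat_lit 5) (nat_lit 54) (nat_lit 5) (nat_lit 498) (nat_lit 356) (nat_lit 286)) (XT.lf (nat_lit 0) (nat_lit 15078228583) (nat_lit 228) (nat_lit 1376501311) (nat_lit 304) (nat_lit 170243530) (nat_lit 50) (nat_lit 5) (nat_lit 53) (nat_lit 5) (nat_lit 54) (nat_lit 5) (nat_lit 499) (nat_lit 356) (nat_lit 285))) (XT.nd (nat_lit 78) (nat_lit 0) (nat_lit 0) (XT.lf (nat_lit 0) (nat_lit 3606252034) (nat_lit 228) (nat_lit 10421079501) (nat_lit 76) (nat_lit 2835749823) (nat_lit 47) (nat_lit 5) (nat_lit 50) (nat_lit 5) (nat_lit 48) (nat_lit 5) (nat_lit 500) (nat_lit 356) (nat_lit 284)) (XT.lf (nat_lit 0)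 (nat_lit 7445484633) (nat_lit 228) (nat_lit 2556553437) (nat_lit 76) (nat_lit 7104108563) (nat_lit 47) (nat_lit 5) (nat_lit 50) (nat_lit 5) (nat_lit 48) (nat_lit 5) (nat_lit 501) (nat_lit 356) (nat_lit 283)))))) (XT.nd (nat_lit 546) (nat_lit 456) (nat_lit 0) (XT.nd (nat_lit 234) (nat_lit 304) (nat_lit 0) (XT.nd (nat_lit 78) (nat_lit 228) (nat_lit 0) (XT.lf (nat_lit 0) (nat_lit 5486248120) (nat_lit 228) (nat_lit 5881384361) (nat_lit 304) (nat_lit 5986325403) (nat_lit 44) (nat_lit 5) (nat_lit 47) (nat_lit 5) (nat_lit 48) (nat_lit 5) (nat_lit 502) (nat_lit 356) (nat_lit 282)) (XT.nd (nat_lit 78) (nat_lit 228) (nat_lit 0) (XT.lf (nat_lit 0) (nat_lit 13673927623) (nat_lit 228) (nat_lit 1682211207) (nat_lit 304) (nat_lit 2250835355) (nat_lit 44) (nat_lit 5) (nat_lit 47) (nat_lit 5) (nat_lit 48) (nat_lit 5) (nat_lit 503) (nat_lit 356) (nat_lit 281)) (XT.lf (nat_lit 0) (nat_lit 1554019485) (nat_lit 228) (nat_lit 13727244392)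 (nat_lit 76) (nat_lit 2583289179) (nat_lit 41) (nat_lit 5) (nat_lit 44) (nat_lit 5) (nat_lit 42) (nat_lit 5) (nat_lit 504) (nat_lit 356) (nat_lit 280)))) (XT.nd (nat_lit 156) (nat_lit 152) (nat_lit 0) (XT.nd (nat_lit 78) (nat_lit 152) (nat_lit 0) (XT.lf (nat_lit 0) (nat_lit 5413811680) (nat_lit 228) (nat_lit 5780736222) (nat_lit 76) (nat_lit 6932265188) (nat_lit 41) (nat_lit 5) (nat_lit 44) (nat_lit 5) (nat_lit 42) (nat_lit 5) (nat_lit 505) (nat_lit 356) (nat_lit 279)) (XT.lf (nat_lit 0) (nat_lit 2305782472) (nat_lit 152) (nat_lit 7031794484) (nat_lit 228) (nat_lit 9057012418) (nat_lit 39) (nat_lit 5) (nat_lit 41) (nat_lit 5) (nat_lit 42) (nat_lit 5) (nat_lit 506) (nat_lit 356) (nat_lit 278))) (XT.nd (nat_lit 78) (nat_lit 152) (nat_lit 0) (XT.lf (nat_lit 0) (nat_lit 10583553976) (nat_lit 152) (nat_lit 2767097644) (nat_lit 228) (nat_lit 5316859347) (nat_lit 39) (nat_lit 5) (nat_lit 41) (nat_lit 5) (nat_lit 42) (nat_lit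 5) (nat_lit 507) (nat_lit 356) (nat_lit 277)) (XT.lf (nat_lit 0) (nat_lit 22709564) (nat_lit 152) (nat_lit 17404160436) (nat_lit 228) (nat_lit 1519369684) (nat_lit 37) (nat_lit 5) (nat_lit 39) (nat_lit 5) (nat_lit 40) (nat_lit 4) (nat_lit 508) (nat_lit 356) (nat_lit 276))))) (XT.nd (nat_lit 234) (nat_lit 228) (nat_lit 0) (XT.nd (nat_lit 78) (nat_lit 152) (nat_lit 0) (XT.lf (nat_lit 0) (nat_lit 2368626809) (nat_lit 228) (nat_lit 10910691793) (nat_lit 76) (nat_lit 5950016159) (nat_lit 36) (nat_lit 5) (nat_lit 39) (nat_lit 5) (nat_lit 37) (nat_lit 5) (nat_lit 509) (nat_lit 356) (nat_lit 275)) (XT.nd (nat_lit 78) (nat_lit 152) (nat_lit 0) (XT.lf (nat_lit 0) (nat_lit 6287096200) (nat_lit 228) (nat_lit 2795065413) (nat_lit 76) (nat_lit 10436274092) (nat_lit 36) (nat_lit 5) (nat_lit 39) (nat_lit 5) (nat_lit 37) (nat_lit 5) (nat_lit 510) (nat_lit 356) (nat_lit 274)) (XT.lf (nat_lit 0) (nat_lit 5508643220) (nat_lit 152)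 (nat_lit 4784624492) (nat_lit 228) (nat_lit 9519870154) (nat_lit 34) (nat_lit 5) (nat_lit 36) (nat_lit 5) (nat_lit 37) (nat_lit 5) (nat_lit 511) (nat_lit 356) (nat_lit 273)))) (XT.nd (nat_lit 156) (nat_lit 76) (nat_lit 0) (XT.nd (nat_lit 78) (nat_lit 152) (nat_lit 0) (XT.lf (nat_lit 0) (nat_lit 13970142523) (nat_lit 152) (nat_lit 401961982) (nat_lit 228) (nat_lit 5741784470) (nat_lit 34) (nat_lit 5) (nat_lit 36) (nat_lit 5) (nat_lit 37) (nat_lit 5) (nat_lit 512) (nat_lit 356) (nat_lit 272)) (XT.lf (nat_lit 0) (nat_lit 2136159739) (nat_lit 152) (nat_lit 16410814579) (nat_lit 228) (nat_lit 1873397290) (nat_lit 32) (nat_lit 5) (nat_lit 34) (nat_lit 5) (nat_lit 35) (nat_lit 4) (nat_lit 513) (nat_lit 356) (nat_lit 271))) (XT.nd (nat_lit 78) (nat_lit 0) (nat_lit 0) (XT.lf (nat_lit 0) (nat_lit 2063550402) (nat_lit 228) (nat_lit 10129311737) (nat_lit 76) (nat_lit 8539490617) (nat_lit 31) (nat_lit 5) (nat_lit 34) (nat_lit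 5) (nat_lit 32) (nat_lit 5) (nat_lit 514) (nat_lit 356) (nat_lit 270)) (XT.lf (nat_lit 0) (nat_lit 6028890716) (nat_lit 228) (nat_lit 1868530406) (nat_lit 76) (nat_lit 13153415277) (nat_lit 31) (nat_lit 5) (nat_lit 34) (nat_lit 5) (nat_lit 32) (nat_lit 5) (nat_lit 515) (nat_lit 356) (nat_lit 269))))))) (XT.nd (nat_lit 1092) (nat_lit 0) (nat_lit 0) (XT.nd (nat_lit 546) (nat_lit 380) (nat_lit 0) (XT.nd (nat_lit 234) (nat_lit 228) (nat_lit 0) (XT.nd (nat_lit 78) (nat_lit 76) (nat_lit 0) (XT.lf (nat_lit 0) (nat_lit 6600096436) (nat_lit 152) (nat_lit 3491504397) (nat_lit 228) (nat_lit 11283732821) (nat_lit 29) (nat_lit 5) (nat_lit 31) (nat_lit 5) (nat_lit 32) (nat_lit 5) (nat_lit 516) (nat_lit 356) (nat_lit 268)) (XT.nd (nat_lit 78) (nat_lit 76) (nat_lit 0) (XT.lf (nat_lit 0) (nat_lit 14229985882) (nat_lit 228) (nat_lit 6493253620) (nat_lit 76) (nat_lit 983198034) (nat_lit 29) (nat_lit 5) (nat_lit 32) (nat_lit 5) (nat_lit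 30) (nat_lit 4) (nat_lit 517) (nat_lit 356) (nat_lit 267)) (XT.lf (nat_lit 0) (nat_lit 1913186293) (nat_lit 76) (nat_lit 16549270848) (nat_lit 152) (nat_lit 3581484981) (nat_lit 28) (nat_lit 5) (nat_lit 29) (nat_lit 5) (nat_lit 30) (nat_lit 4) (nat_lit 518) (nat_lit 356) (nat_lit 266)))) (XT.nd (nat_lit 156) (nat_lit 152) (nat_lit 0) (XT.nd (nat_lit 78) (nat_lit 0) (nat_lit 0) (XT.lf (nat_lit 0) (nat_lit 405916709) (nat_lit 152) (nat_lit 11857577252) (nat_lit 76) (nat_lit 10124263446) (nat_lit 27) (nat_lit 5) (nat_lit 29) (nat_lit 5) (nat_lit 28) (nat_lit 5) (nat_lit 519) (nat_lit 356) (nat_lit 265)) (XT.lf (nat_lit 0) (nat_lit 4401436553) (nat_lit 152) (nat_lit 3485001595) (nat_lit 76) (nat_lit 14852015561) (nat_lit 27) (nat_lit 5) (nat_lit 29) (nat_lit 5) (nat_lit 28) (nat_lit 5) (nat_lit 520) (nat_lit 356) (nat_lit 264))) (XT.nd (nat_lit 78) (nat_lit 0) (nat_lit 0) (XT.lf (nat_lit 0) (nat_lit 5080134759) (nat_lit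 152) (nat_lit 3406462086) (nat_lit 228) (nat_lit 14609377108) (nat_lit 25) (nat_lit 5) (nat_lit 27) (nat_lit 5) (nat_lit 28) (nat_lit 5) (nat_lit 521) (nat_lit 356) (nat_lit 263)) (XT.lf (nat_lit 0) (nat_lit 12661369699) (nat_lit 228) (nat_lit 9645661860) (nat_lit 76) (nat_lit 1153459382) (nat_lit 25) (nat_lit 5) (nat_lit 28) (nat_lit 5) (nat_lit 26) (nat_lit 4) (nat_lit 522) (nat_lit 356) (nat_lit 262))))) (XT.nd (nat_lit 234) (nat_lit 228) (nat_lit 0) (XT.nd (nat_lit 78) (nat_lit 152) (nat_lit 0) (XT.lf (nat_lit 0) (nat_lit 16919468520) (nat_lit 228) (nat_lit 1171417149) (nat_lit 76) (nat_lit 5741420427) (nat_lit 25) (nat_lit 5) (nat_lit 28) (nat_lit 5) (nat_lit 26) (nat_lit 4) (nat_lit 523) (nat_lit 356) (nat_lit 261)) (XT.nd (nat_lit 78) (nat_lit 76) (nat_lit 0) (XT.lf (nat_lit 0) (nat_lit 7531107005) (nat_lit 76) (nat_lit 13758236075) (nat_lit 152) (nat_lit 2921686548) (nat_lit 24) (nat_lit 5) (nat_lit 25)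 (nat_lit 5) (nat_lit 26) (nat_lit 4) (nat_lit 524) (nat_lit 356) (nat_lit 260)) (XT.lf (nat_lit 0) (nat_lit 1119872572) (nat_lit 152) (nat_lit 8221138100) (nat_lit 76) (nat_lit 15256458738) (nat_lit 23) (nat_lit 5) (nat_lit 25) (nat_lit 5) (nat_lit 24) (nat_lit 5) (nat_lit 525) (nat_lit 356) (nat_lit 259)))) (XT.nd (nat_lit 156) (nat_lit 76) (nat_lit 0) (XT.nd (nat_lit 78) (nat_lit 0) (nat_lit 0) (XT.lf (nat_lit 0) (nat_lit 352871562) (nat_lit 152) (nat_lit 4830779244) (nat_lit 228) (nat_lit 19807994847) (nat_lit 21) (nat_lit 5) (nat_lit 23) (nat_lit 5) (nat_lit 24) (nat_lit 5) (nat_lit 526) (nat_lit 356) (nat_lit 258)) (XT.lf (nat_lit 0) (nat_lit 9170829590) (nat_lit 152) (nat_lit 191399628) (nat_lit 228) (nat_lit 16030809730) (nat_lit 21) (nat_lit 5) (nat_lit 23) (nat_lit 5) (nat_lit 24) (nat_lit 5) (nat_lit 527) (nat_lit 356) (nat_lit 257))) (XT.nd (nat_lit 78) (nat_lit 76) (nat_lit 0) (XT.lf (nat_lit 0) (nat_lit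 13632531408) (nat_lit 228) (nat_lit 7705320401) (nat_lit 76) (nat_lit 4464449196) (nat_lit 21) (nat_lit 5) (nat_lit 24) (nat_lit 5) (nat_lit 22) (nat_lit 4) (nat_lit 528) (nat_lit 356) (nat_lit 256)) (XT.lf (nat_lit 0) (nat_lit 955399022) (nat_lit 76) (nat_lit 17019400009) (nat_lit 152) (nat_lit 8245221947) (nat_lit 20) (nat_lit 5) (nat_lit 21) (nat_lit 5) (nat_lit 22) (nat_lit 4) (nat_lit 529) (nat_lit 356) (nat_lit 255)))))) (XT.nd (nat_lit 51636) (nat_lit 0) (nat_lit 16720) (XT.nd (nat_lit 51324) (nat_lit 0) (nat_lit 21052) (XT.nd (nat_lit 78) (nat_lit 0) (nat_lit 0) (XT.lf (nat_lit 0) (nat_lit 9856258972) (nat_lit 76) (nat_lit 12578614959) (nat_lit 152) (nat_lit 4210605968) (nat_lit 20) (nat_lit 5) (nat_lit 21) (nat_lit 5) (nat_lit 22) (nat_lit 4) (nat_lit 530) (nat_lit 356) (nat_lit 254)) (XT.nd (nat_lit 51168) (nat_lit 0) (nat_lit 23408) (XT.lf (nat_lit 0) (nat_lit 18898350328) (nat_lit 76) (nat_lit 8065461931)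 (nat_lit 152) (nat_lit 116046213) (nat_lit 20) (nat_lit 5) (nat_lit 21) (nat_lit 5) (nat_lit 22) (nat_lit 4) (nat_lit 531) (nat_lit 356) (nat_lit 253)) (XT.lf (nat_lit 0) (nat_lit 3477313262) (nat_lit 836) (nat_lit 144061722) (nat_lit 836) (nat_lit 144061722) (nat_lit 328) (nat_lit 4) (nat_lit 339) (nat_lit 5) (nat_lit 339) (nat_lit 4) (nat_lit 426) (nat_lit 357) (nat_lit 357)))) (XT.nd (nat_lit 156) (nat_lit 760) (nat_lit 0) (XT.nd (nat_lit 78) (nat_lit 760) (nat_lit 0) (XT.lf (nat_lit 0) (nat_lit 3126766631) (nat_lit 836) (nat_lit 2750498638) (nat_lit 0) (nat_lit 1703070070) (nat_lit 317) (nat_lit 5) (nat_lit 328) (nat_lit 4) (nat_lit 317) (nat_lit 4) (nat_lit 427) (nat_lit 357) (nat_lit 356)) (XT.lf (nat_lit 0) (nat_lit 2680501298) (nat_lit 760) (nat_lit 3885290207) (nat_lit 760) (nat_lit 1065812704) (nat_lit 307) (nat_lit 4) (nat_lit 317) (nat_lit 5) (nat_lit 317) (nat_lit 4) (nat_lit 428) (nat_lit 357) (nat_lit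 355))) (XT.nd (nat_lit 78) (nat_lit 0) (nat_lit 0) (XT.lf (nat_lit 0) (nat_lit 492324511) (nat_lit 684) (nat_lit 1824613460) (nat_lit 760) (nat_lit 5367526324) (nat_lit 297) (nat_lit 5) (nat_lit 306) (nat_lit 5) (nat_lit 307) (nat_lit 4) (nat_lit 429) (nat_lit 357) (nat_lit 354)) (XT.lf (nat_lit 0) (nat_lit 5725846264) (nat_lit 760) (nat_lit 1708189763) (nat_lit 0) (nat_lit 304796010) (nat_lit 297) (nat_lit 5) (nat_lit 307) (nat_lit 4) (nat_lit 297) (nat_lit 4) (nat_lit 430) (nat_lit 357) (nat_lit 353))))) (XT.nd (nat_lit 312) (nat_lit 2052) (nat_lit 0) (XT.nd (nat_lit 156) (nat_lit 760) (nat_lit 0) (XT.nd (nat_lit 78) (nat_lit 684) (nat_lit 0) (XT.lf (nat_lit 0) (nat_lit 1365800947) (nat_lit 836) (nat_lit 3951618179) (nat_lit 76) (nat_lit 2477217500) (nat_lit 286) (nat_lit 5) (nat_lit 297) (nat_lit 5) (nat_lit 287) (nat_lit 4) (nat_lit 431) (nat_lit 357) (nat_lit 352)) (XT.lf (nat_lit 0) (nat_lit 1612745460) (nat_lit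 684) (nat_lit 3133533429) (nat_lit 760) (nat_lit 3105835045) (nat_lit 277) (nat_lit 5) (nat_lit 286) (nat_lit 5) (nat_lit 287) (nat_lit 4) (nat_lit 432) (nat_lit 357) (nat_lit 351))) (XT.nd (nat_lit 78) (nat_lit 684) (nat_lit 0) (XT.lf (nat_lit 0) (nat_lit 245922152) (nat_lit 760) (nat_lit 642717301) (nat_lit 76) (nat_lit 7022786593) (nat_lit 276) (nat_lit 5) (nat_lit 286) (nat_lit 5) (nat_lit 277) (nat_lit 5) (nat_lit 433) (nat_lit 357) (nat_lit 350)) (XT.lf (nat_lit 0) (nat_lit 3605779923) (nat_lit 760) (nat_lit 2941091943) (nat_lit 76) (nat_lit 1425030476) (nat_lit 267) (nat_lit 5) (nat_lit 277) (nat_lit 5) (nat_lit 268) (nat_lit 4) (nat_lit 434) (nat_lit 357) (nat_lit 349)))) (XT.nd (nat_lit 156) (nat_lit 684) (nat_lit 0) (XT.nd (nat_lit 78) (nat_lit 760) (nat_lit 0) (XT.lf (nat_lit 0) (nat_lit 2751488356) (nat_lit 608) (nat_lit 4250582335) (nat_lit 684) (nat_lit 1032173523) (nat_lit 259) (nat_lit 5) (nat_lit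 267) (nat_lit 5) (nat_lit 268) (nat_lit 4) (nat_lit 435) (nat_lit 357) (nat_lit 348)) (XT.lf (nat_lit 0) (nat_lit 418277512) (nat_lit 684) (nat_lit 1883108545) (nat_lit 760) (nat_lit 5796898614) (nat_lit 249) (nat_lit 5) (nat_lit 258) (nat_lit 5) (nat_lit 259) (nat_lit 5) (nat_lit 436) (nat_lit 357) (nat_lit 347))) (XT.nd (nat_lit 78) (nat_lit 684) (nat_lit 0) (XT.lf (nat_lit 0) (nat_lit 5668953043) (nat_lit 760) (nat_lit 1941161898) (nat_lit 76) (nat_lit 553769818) (nat_lit 249) (nat_lit 5) (nat_lit 259) (nat_lit 5) (nat_lit 250) (nat_lit 4) (nat_lit 437) (nat_lit 357) (nat_lit 346)) (XT.lf (nat_lit 0) (nat_lit 842263764) (nat_lit 684) (nat_lit 4357146367) (nat_lit 76) (nat_lit 3031697477) (nat_lit 240) (nat_lit 5) (nat_lit 249) (nat_lit 5) (nat_lit 241) (nat_lit 5) (nat_lit 438) (nat_lit 357) (nat_lit 345))))))))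
noncomputable def xc50 : XT := (XT.nd (nat_lit 2184) (nat_lit 4560) (nat_lit 0) (XT.nd (nat_lit 1092) (nat_lit 3876) (nat_lit 0) (XT.nd (nat_lit 546) (nat_lit 2584) (nat_lit 0) (XT.nd (nat_lit 234) (nat_lit 1748) (nat_lit 0) (XT.nd (nat_lit 78) (nat_lit 608) (nat_lit 0) (XT.lf (nat_lit 0) (nat_lit 1463290127) (nat_lit 608) (nat_lit 2715540964) (nat_lit 684) (nat_lit 4121229492) (nat_lit 232) (nat_lit 5) (nat_lit 240) (nat_lit 5) (nat_lit 241) (nat_lit 5) (nat_lit 439) (nat_lit 357) (nat_lit 344)) (XT.nd (nat_lit 78) (nat_lit 608) (nat_lit 0) (XT.lf (nat_lit 0) (nat_lit 7388090913) (nat_lit 608) (nat_lit 167316622) (nat_lit 684) (nat_lit 815555019) (nat_lit 232) (nat_lit 5) (nat_lit 240) (nat_lit 5) (nat_lit 241) (nat_lit 5) (nat_lit 440) (nat_lit 357) (nat_lit 343)) (XT.lf (nat_lit 0) (nat_lit 2515703670) (nat_lit 608) (nat_lit 3493299554) (nat_lit 76) (nat_lit 2434121594) (nat_lit 224) (nat_lit 5) (nat_lit 232)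 (nat_lit 5) (nat_lit 225) (nat_lit 5) (nat_lit 441) (nat_lit 357) (nat_lit 342)))) (XT.nd (nat_lit 156) (nat_lit 1064) (nat_lit 0) (XT.nd (nat_lit 78) (nat_lit 76) (nat_lit 0) (XT.lf (nat_lit 0) (nat_lit 2452469111) (nat_lit 608) (nat_lit 3419146420) (nat_lit 684) (nat_lit 2645661460) (nat_lit 216) (nat_lit 5) (nat_lit 224) (nat_lit 5) (nat_lit 225) (nat_lit 5) (nat_lit 442) (nat_lit 357) (nat_lit 341)) (XT.lf (nat_lit 0) (nat_lit 661619082) (nat_lit 684) (nat_lit 103981602) (nat_lit 76) (nat_lit 7827870767) (nat_lit 215) (nat_lit 5) (nat_lit 224) (nat_lit 5) (nat_lit 216) (nat_lit 5) (nat_lit 443) (nat_lit 357) (nat_lit 340))) (XT.nd (nat_lit 78) (nat_lit 532) (nat_lit 0) (XT.lf (nat_lit 0) (nat_lit 3997822321) (nat_lit 608) (nat_lit 2717169920) (nat_lit 76) (nat_lit 1955915267) (nat_lit 208) (nat_lit 5) (nat_lit 216) (nat_lit 5) (nat_lit 209) (nat_lit 5) (nat_lit 444) (nat_lit 357) (nat_lit 339)) (XT.lf (nat_lit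 0) (nat_lit 3352583631) (nat_lit 532) (nat_lit 4022755246) (nat_lit 608) (nat_lit 1375092520) (nat_lit 201) (nat_lit 5) (nat_lit 208) (nat_lit 5) (nat_lit 209) (nat_lit 5) (nat_lit 445) (nat_lit 357) (nat_lit 338))))) (XT.nd (nat_lit 234) (nat_lit 1520) (nat_lit 0) (XT.nd (nat_lit 78) (nat_lit 532) (nat_lit 0) (XT.lf (nat_lit 0) (nat_lit 674474487) (nat_lit 456) (nat_lit 1258291375) (nat_lit 532) (nat_lit 6899151540) (nat_lit 194) (nat_lit 5) (nat_lit 200) (nat_lit 5) (nat_lit 201) (nat_lit 5) (nat_lit 446) (nat_lit 357) (nat_lit 337)) (XT.nd (nat_lit 78) (nat_lit 532) (nat_lit 0) (XT.lf (nat_lit 0) (nat_lit 5282703641) (nat_lit 532) (nat_lit 2063591178) (nat_lit 76) (nat_lit 1568698939) (nat_lit 194) (nat_lit 5) (nat_lit 201) (nat_lit 5) (nat_lit 195) (nat_lit 5) (nat_lit 447) (nat_lit 357) (nat_lit 336)) (XT.lf (nat_lit 0) (nat_lit 4128131576) (nat_lit 532) (nat_lit 4555386555) (nat_lit 608) (nat_lit 316564497)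 (nat_lit 187) (nat_lit 5) (nat_lit 194) (nat_lit 5) (nat_lit 195) (nat_lit 5) (nat_lit 448) (nat_lit 357) (nat_lit 335)))) (XT.nd (nat_lit 156) (nat_lit 988) (nat_lit 0) (XT.nd (nat_lit 78) (nat_lit 0) (nat_lit 0) (XT.lf (nat_lit 0) (nat_lit 1312219244) (nat_lit 456) (nat_lit 1684445100) (nat_lit 532) (nat_lit 6090410446) (nat_lit 180) (nat_lit 5) (nat_lit 186) (nat_lit 5) (nat_lit 187) (nat_lit 5) (nat_lit 449) (nat_lit 357) (nat_lit 334)) (XT.lf (nat_lit 0) (nat_lit 6362268317) (nat_lit 532) (nat_lit 1569942025) (nat_lit 76) (nat_lit 1243774514) (nat_lit 180) (nat_lit 5) (nat_lit 187) (nat_lit 5) (nat_lit 181) (nat_lit 5) (nat_lit 450) (nat_lit 357) (nat_lit 333))) (XT.nd (nat_lit 78) (nat_lit 456) (nat_lit 0) (XT.lf (nat_lit 0) (nat_lit 513791524) (nat_lit 532) (nat_lit 4529271570) (nat_lit 76) (nat_lit 4223723018) (nat_lit 173) (nat_lit 5) (nat_lit 180) (nat_lit 5) (nat_lit 174) (nat_lit 5) (nat_lit 451) (nat_lit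 357) (nat_lit 332)) (XT.lf (nat_lit 0) (nat_lit 1768338245) (nat_lit 456) (nat_lit 2074486129) (nat_lit 532) (nat_lit 5516779388) (nat_lit 167) (nat_lit 5) (nat_lit 173) (nat_lit 5) (nat_lit 174) (nat_lit 5) (nat_lit 452) (nat_lit 357) (nat_lit 331)))))) (XT.nd (nat_lit 546) (nat_lit 2052) (nat_lit 0) (XT.nd (nat_lit 234) (nat_lit 912) (nat_lit 0) (XT.nd (nat_lit 78) (nat_lit 912) (nat_lit 0) (XT.lf (nat_lit 0) (nat_lit 7226145514) (nat_lit 532) (nat_lit 1276542616) (nat_lit 76) (nat_lit 951860330) (nat_lit 167) (nat_lit 5) (nat_lit 174) (nat_lit 5) (nat_lit 168) (nat_lit 5) (nat_lit 453) (nat_lit 357) (nat_lit 330)) (XT.nd (nat_lit 78) (nat_lit 380) (nat_lit 0) (XT.lf (nat_lit 0) (nat_lit 1110005497) (nat_lit 532) (nat_lit 4408868506) (nat_lit 76) (nat_lit 4032415178) (nat_lit 160) (nat_lit 5) (nat_lit 167) (nat_lit 5) (nat_lit 161) (nat_lit 5) (nat_lit 454) (nat_lit 357) (nat_lit 329)) (XT.lf (nat_lit 0) (nat_lit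 2000071534) (nat_lit 380) (nat_lit 2458956624) (nat_lit 456) (nat_lit 5191191692) (nat_lit 155) (nat_lit 5) (nat_lit 160) (nat_lit 5) (nat_lit 161) (nat_lit 5) (nat_lit 455) (nat_lit 357) (nat_lit 328)))) (XT.nd (nat_lit 156) (nat_lit 380) (nat_lit 0) (XT.nd (nat_lit 78) (nat_lit 532) (nat_lit 0) (XT.lf (nat_lit 0) (nat_lit 7861523058) (nat_lit 456) (nat_lit 1227084016) (nat_lit 76) (nat_lit 662815181) (nat_lit 155) (nat_lit 5) (nat_lit 161) (nat_lit 5) (nat_lit 156) (nat_lit 5) (nat_lit 456) (nat_lit 357) (nat_lit 327)) (XT.lf (nat_lit 0) (nat_lit 1462152959) (nat_lit 532) (nat_lit 4554060086) (nat_lit 76) (nat_lit 3838183671) (nat_lit 148) (nat_lit 5) (nat_lit 155) (nat_lit 5) (nat_lit 149) (nat_lit 5) (nat_lit 457) (nat_lit 357) (nat_lit 326))) (XT.nd (nat_lit 78) (nat_lit 0) (nat_lit 0) (XT.lf (nat_lit 0) (nat_lit 1960974493) (nat_lit 380) (nat_lit 2869505282) (nat_lit 456) (nat_lit 5129231895) (nat_lit 143)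 (nat_lit 5) (nat_lit 148) (nat_lit 5) (nat_lit 149) (nat_lit 5) (nat_lit 458) (nat_lit 357) (nat_lit 325)) (XT.lf (nat_lit 0) (nat_lit 8252974408) (nat_lit 456) (nat_lit 1469094746) (nat_lit 76) (nat_lit 345348950) (nat_lit 143) (nat_lit 5) (nat_lit 149) (nat_lit 5) (nat_lit 144) (nat_lit 5) (nat_lit 459) (nat_lit 357) (nat_lit 324))))) (XT.nd (nat_lit 234) (nat_lit 1216) (nat_lit 0) (XT.nd (nat_lit 78) (nat_lit 380) (nat_lit 0) (XT.lf (nat_lit 0) (nat_lit 1553447799) (nat_lit 456) (nat_lit 5014255609) (nat_lit 76) (nat_lit 3609245125) (nat_lit 137) (nat_lit 5) (nat_lit 143) (nat_lit 5) (nat_lit 138) (nat_lit 5) (nat_lit 460) (nat_lit 357) (nat_lit 323)) (XT.nd (nat_lit 78) (nat_lit 0) (nat_lit 0) (XT.lf (nat_lit 0) (nat_lit 1600420303) (nat_lit 380) (nat_lit 3339193851) (nat_lit 456) (nat_lit 5349331285) (nat_lit 132) (nat_lit 5) (nat_lit 137) (nat_lit 5) (nat_lit 138) (nat_lit 5) (nat_lit 461) (nat_lit 357) (nat_lit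 322)) (XT.lf (nat_lit 0) (nat_lit 8348754444) (nat_lit 380) (nat_lit 33725091) (nat_lit 456) (nat_lit 2020942828) (nat_lit 132) (nat_lit 5) (nat_lit 137) (nat_lit 5) (nat_lit 138) (nat_lit 5) (nat_lit 462) (nat_lit 357) (nat_lit 321)))) (XT.nd (nat_lit 156) (nat_lit 456) (nat_lit 0) (XT.nd (nat_lit 78) (nat_lit 304) (nat_lit 0) (XT.lf (nat_lit 0) (nat_lit 1364185290) (nat_lit 456) (nat_lit 5843426919) (nat_lit 76) (nat_lit 3312253182) (nat_lit 126) (nat_lit 5) (nat_lit 132) (nat_lit 5) (nat_lit 127) (nat_lit 5) (nat_lit 463) (nat_lit 357) (nat_lit 320)) (XT.lf (nat_lit 0) (nat_lit 863057325) (nat_lit 304) (nat_lit 3902822123) (nat_lit 380) (nat_lit 5872990649) (nat_lit 122) (nat_lit 5) (nat_lit 126) (nat_lit 5) (nat_lit 127) (nat_lit 5) (nat_lit 464) (nat_lit 357) (nat_lit 319))) (XT.nd (nat_lit 78) (nat_lit 456) (nat_lit 0) (XT.lf (nat_lit 0) (nat_lit 7717095627) (nat_lit 304) (nat_lit 514348692) (nat_lit 380)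 (nat_lit 2528911943) (nat_lit 122) (nat_lit 5) (nat_lit 126) (nat_lit 5) (nat_lit 127) (nat_lit 5) (nat_lit 465) (nat_lit 357) (nat_lit 318)) (XT.lf (nat_lit 0) (nat_lit 871505177) (nat_lit 456) (nat_lit 7100683882) (nat_lit 76) (nat_lit 2911965452) (nat_lit 116) (nat_lit 5) (nat_lit 122) (nat_lit 5) (nat_lit 117) (nat_lit 5) (nat_lit 466) (nat_lit 357) (nat_lit 317))))))) (XT.nd (nat_lit 1092) (nat_lit 1976) (nat_lit 0) (XT.nd (nat_lit 546) (nat_lit 1216) (nat_lit 0) (XT.nd (nat_lit 234) (nat_lit 684) (nat_lit 0) (XT.nd (nat_lit 78) (nat_lit 684) (nat_lit 0) (XT.lf (nat_lit 0) (nat_lit 4287514759) (nat_lit 456) (nat_lit 307694809) (nat_lit 76) (nat_lit 6415272966) (nat_lit 116) (nat_lit 5) (nat_lit 122) (nat_lit 5) (nat_lit 117) (nat_lit 5) (nat_lit 467) (nat_lit 357) (nat_lit 316)) (XT.nd (nat_lit 78) (nat_lit 380) (nat_lit 0) (XT.lf (nat_lit 0) (nat_lit 6644201836) (nat_lit 304) (nat_lit 1129066742) (nat_lit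 380) (nat_lit 3366056784) (nat_lit 112) (nat_lit 5) (nat_lit 116) (nat_lit 5) (nat_lit 117) (nat_lit 5) (nat_lit 468) (nat_lit 357) (nat_lit 315)) (XT.lf (nat_lit 0) (nat_lit 49124141) (nat_lit 380) (nat_lit 8850904112) (nat_lit 76) (nat_lit 2370887490) (nat_lit 107) (nat_lit 5) (nat_lit 112) (nat_lit 5) (nat_lit 108) (nat_lit 5) (nat_lit 469) (nat_lit 357) (nat_lit 314)))) (XT.nd (nat_lit 156) (nat_lit 380) (nat_lit 0) (XT.nd (nat_lit 78) (nat_lit 304) (nat_lit 0) (XT.lf (nat_lit 0) (nat_lit 3484075742) (nat_lit 380) (nat_lit 1964630969) (nat_lit 76) (nat_lit 5956071215) (nat_lit 107) (nat_lit 5) (nat_lit 112) (nat_lit 5) (nat_lit 108) (nat_lit 5) (nat_lit 470) (nat_lit 357) (nat_lit 313)) (XT.lf (nat_lit 0) (nat_lit 5062518765) (nat_lit 304) (nat_lit 1917542282) (nat_lit 380) (nat_lit 4561425061) (nat_lit 103) (nat_lit 5) (nat_lit 107) (nat_lit 5) (nat_lit 108) (nat_lit 5) (nat_lit 471) (nat_lit 357) (nat_lit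 312))) (XT.nd (nat_lit 78) (nat_lit 76) (nat_lit 0) (XT.lf (nat_lit 0) (nat_lit 508322523) (nat_lit 304) (nat_lit 10024855212) (nat_lit 380) (nat_lit 1148021634) (nat_lit 99) (nat_lit 5) (nat_lit 103) (nat_lit 5) (nat_lit 104) (nat_lit 5) (nat_lit 472) (nat_lit 357) (nat_lit 311)) (XT.lf (nat_lit 0) (nat_lit 2319314382) (nat_lit 380) (nat_lit 4191423960) (nat_lit 76) (nat_lit 5312354662) (nat_lit 98) (nat_lit 5) (nat_lit 103) (nat_lit 5) (nat_lit 99) (nat_lit 5) (nat_lit 473) (nat_lit 357) (nat_lit 310))))) (XT.nd (nat_lit 234) (nat_lit 608) (nat_lit 0) (XT.nd (nat_lit 78) (nat_lit 380) (nat_lit 0) (XT.lf (nat_lit 0) (nat_lit 2897675966) (nat_lit 228) (nat_lit 2922371846) (nat_lit 304) (nat_lit 6148050752) (nat_lit 95) (nat_lit 5) (nat_lit 98) (nat_lit 5) (nat_lit 99) (nat_lit 5) (nat_lit 474) (nat_lit 357) (nat_lit 309)) (XT.nd (nat_lit 78) (nat_lit 380) (nat_lit 0) (XT.lf (nat_lit 0) (nat_lit 9384714944) (nat_lit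 304) (nat_lit 1997662385) (nat_lit 76) (nat_lit 733762518) (nat_lit 95) (nat_lit 5) (nat_lit 99) (nat_lit 5) (nat_lit 96) (nat_lit 5) (nat_lit 475) (nat_lit 357) (nat_lit 308)) (XT.lf (nat_lit 0) (nat_lit 758460767) (nat_lit 380) (nat_lit 7067789564) (nat_lit 76) (nat_lit 4440511024) (nat_lit 90) (nat_lit 5) (nat_lit 95) (nat_lit 5) (nat_lit 91) (nat_lit 5) (nat_lit 476) (nat_lit 357) (nat_lit 307)))) (XT.nd (nat_lit 156) (nat_lit 380) (nat_lit 0) (XT.nd (nat_lit 78) (nat_lit 0) (nat_lit 0) (XT.lf (nat_lit 0) (nat_lit 67691487) (nat_lit 228) (nat_lit 4189523057) (nat_lit 304) (nat_lit 8163319959) (nat_lit 87) (nat_lit 5) (nat_lit 90) (nat_lit 5) (nat_lit 91) (nat_lit 5) (nat_lit 477) (nat_lit 357) (nat_lit 306)) (XT.lf (nat_lit 0) (nat_lit 7380583654) (nat_lit 228) (nat_lit 454819389) (nat_lit 304) (nat_lit 4741803805) (nat_lit 87) (nat_lit 5) (nat_lit 90) (nat_lit 5) (nat_lit 91) (nat_lit 5) (nat_lit 478) (nat_lit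 357) (nat_lit 305))) (XT.nd (nat_lit 78) (nat_lit 76) (nat_lit 0) (XT.lf (nat_lit 0) (nat_lit 2047275227) (nat_lit 304) (nat_lit 9435580782) (nat_lit 380) (nat_lit 1254215291) (nat_lit 83) (nat_lit 5) (nat_lit 87) (nat_lit 5) (nat_lit 88) (nat_lit 5) (nat_lit 479) (nat_lit 357) (nat_lit 304)) (XT.lf (nat_lit 0) (nat_lit 2273747407) (nat_lit 380) (nat_lit 3471764394) (nat_lit 76) (nat_lit 7154317788) (nat_lit 82) (nat_lit 5) (nat_lit 87) (nat_lit 5) (nat_lit 83) (nat_lit 5) (nat_lit 480) (nat_lit 357) (nat_lit 303)))))) (XT.nd (nat_lit 546) (nat_lit 912) (nat_lit 0) (XT.nd (nat_lit 234) (nat_lit 608) (nat_lit 0) (XT.nd (nat_lit 78) (nat_lit 228) (nat_lit 0) (XT.lf (nat_lit 0) (nat_lit 3873689122) (nat_lit 228) (nat_lit 1970396910) (nat_lit 304) (nat_lit 7221830933) (nat_lit 79) (nat_lit 5) (nat_lit 82) (nat_lit 5) (nat_lit 83) (nat_lit 5) (nat_lit 481) (nat_lit 357) (nat_lit 302)) (XT.nd (nat_lit 78) (nat_lit 228)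 (nat_lit 0) (XT.lf (nat_lit 0) (nat_lit 9485120307) (nat_lit 304) (nat_lit 1893743479) (nat_lit 76) (nat_lit 1856488236) (nat_lit 79) (nat_lit 5) (nat_lit 83) (nat_lit 5) (nat_lit 80) (nat_lit 5) (nat_lit 482) (nat_lit 357) (nat_lit 301)) (XT.lf (nat_lit 0) (nat_lit 5552012722) (nat_lit 228) (nat_lit 7660401611) (nat_lit 304) (nat_lit 195504145) (nat_lit 76) (nat_lit 5) (nat_lit 79) (nat_lit 5) (nat_lit 80) (nat_lit 5) (nat_lit 483) (nat_lit 357) (nat_lit 300)))) (XT.nd (nat_lit 156) (nat_lit 304) (nat_lit 0) (XT.nd (nat_lit 78) (nat_lit 228) (nat_lit 0) (XT.lf (nat_lit 0) (nat_lit 3362540599) (nat_lit 304) (nat_lit 492247674) (nat_lit 76) (nat_lit 9729169347) (nat_lit 75) (nat_lit 5) (nat_lit 79) (nat_lit 5) (nat_lit 76) (nat_lit 5) (nat_lit 484) (nat_lit 357) (nat_lit 299)) (XT.lf (nat_lit 0) (nat_lit 7000377934) (nat_lit 304) (nat_lit 6711156968) (nat_lit 76) (nat_lit 51742625) (nat_lit 72) (nat_lit 5) (nat_lit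 76) (nat_lit 5) (nat_lit 73) (nat_lit 5) (nat_lit 485) (nat_lit 357) (nat_lit 298))) (XT.nd (nat_lit 78) (nat_lit 76) (nat_lit 0) (XT.lf (nat_lit 0) (nat_lit 734418883) (nat_lit 228) (nat_lit 9975460087) (nat_lit 304) (nat_lit 3236337329) (nat_lit 69) (nat_lit 5) (nat_lit 72) (nat_lit 5) (nat_lit 73) (nat_lit 5) (nat_lit 486) (nat_lit 357) (nat_lit 297)) (XT.lf (nat_lit 0) (nat_lit 366714639) (nat_lit 304) (nat_lit 5772361401) (nat_lit 76) (nat_lit 7993487356) (nat_lit 68) (nat_lit 5) (nat_lit 72) (nat_lit 5) (nat_lit 69) (nat_lit 5) (nat_lit 487) (nat_lit 357) (nat_lit 296))))) (XT.nd (nat_lit 312) (nat_lit 380) (nat_lit 0) (XT.nd (nat_lit 156) (nat_lit 304) (nat_lit 0) (XT.nd (nat_lit 78) (nat_lit 0) (nat_lit 0) (XT.lf (nat_lit 0) (nat_lit 1760971686) (nat_lit 228) (nat_lit 2215030796) (nat_lit 304) (nat_lit 10346666916) (nat_lit 65) (nat_lit 5) (nat_lit 68) (nat_lit 5) (nat_lit 69) (nat_lit 5) (nat_lit 488)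 (nat_lit 357) (nat_lit 295)) (XT.lf (nat_lit 0) (nat_lit 7674264276) (nat_lit 304) (nat_lit 5061166824) (nat_lit 76) (nat_lit 1780820453) (nat_lit 65) (nat_lit 5) (nat_lit 69) (nat_lit 5) (nat_lit 66) (nat_lit 5) (nat_lit 489) (nat_lit 357) (nat_lit 294))) (XT.nd (nat_lit 78) (nat_lit 76) (nat_lit 0) (XT.lf (nat_lit 0) (nat_lit 2552576041) (nat_lit 228) (nat_lit 8892010768) (nat_lit 304) (nat_lit 3269166237) (nat_lit 62) (nat_lit 5) (nat_lit 65) (nat_lit 5) (nat_lit 66) (nat_lit 5) (nat_lit 490) (nat_lit 357) (nat_lit 293)) (XT.lf (nat_lit 0) (nat_lit 371297388) (nat_lit 304) (nat_lit 4585676584) (nat_lit 76) (nat_lit 9958169005) (nat_lit 61) (nat_lit 5) (nat_lit 65) (nat_lit 5) (nat_lit 62) (nat_lit 5) (nat_lit 491) (nat_lit 357) (nat_lit 292)))) (XT.nd (nat_lit 156) (nat_lit 228) (nat_lit 0) (XT.nd (nat_lit 78) (nat_lit 0) (nat_lit 0) (XT.lf (nat_lit 0) (nat_lit 3105818978) (nat_lit 152) (nat_lit 922749599) (nat_lit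 228) (nat_lit 11091813547) (nat_lit 59) (nat_lit 5) (nat_lit 61) (nat_lit 5) (nat_lit 62) (nat_lit 5) (nat_lit 492) (nat_lit 357) (nat_lit 291)) (XT.lf (nat_lit 0) (nat_lit 7778393751) (nat_lit 228) (nat_lit 4391482897) (nat_lit 76) (nat_lit 3159470110) (nat_lit 59) (nat_lit 5) (nat_lit 62) (nat_lit 5) (nat_lit 60) (nat_lit 5) (nat_lit 493) (nat_lit 357) (nat_lit 290))) (XT.nd (nat_lit 78) (nat_lit 0) (nat_lit 0) (XT.lf (nat_lit 0) (nat_lit 3368451978) (nat_lit 228) (nat_lit 8231084647) (nat_lit 304) (nat_lit 3943036333) (nat_lit 56) (nat_lit 5) (nat_lit 59) (nat_lit 5) (nat_lit 60) (nat_lit 5) (nat_lit 494) (nat_lit 357) (nat_lit 289)) (XT.lf (nat_lit 0) (nat_lit 11289792466) (nat_lit 228) (nat_lit 4205393692) (nat_lit 304) (nat_lit 264924379) (nat_lit 56) (nat_lit 5) (nat_lit 59) (nat_lit 5) (nat_lit 60) (nat_lit 5) (nat_lit 495) (nat_lit 357) (nat_lit 288))))))))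
noncomputable def xc51 : XT := (XT.nd (nat_lit 2184) (nat_lit 380) (nat_lit 0) (XT.nd (nat_lit 1092) (nat_lit 836) (nat_lit 0) (XT.nd (nat_lit 546) (nat_lit 608) (nat_lit 0) (XT.nd (nat_lit 234) (nat_lit 456) (nat_lit 0) (XT.nd (nat_lit 78) (nat_lit 228) (nat_lit 0) (XT.lf (nat_lit 0) (nat_lit 3356245144) (nat_lit 152) (nat_lit 75584299) (nat_lit 228) (nat_lit 12549908677) (nat_lit 53) (nat_lit 5) (nat_lit 55) (nat_lit 5) (nat_lit 56) (nat_lit 5) (nat_lit 496) (nat_lit 357) (nat_lit 287)) (XT.nd (nat_lit 78) (nat_lit 228) (nat_lit 0) (XT.lf (nat_lit 0) (nat_lit 7225175317) (nat_lit 228) (nat_lit 4888904847) (nat_lit 76) (nat_lit 4093167019) (nat_lit 53) (nat_lit 5) (nat_lit 56) (nat_lit 5) (nat_lit 54) (nat_lit 5) (nat_lit 497) (nat_lit 357) (nat_lit 286)) (XT.lf (nat_lit 0) (nat_lit 2989325519) (nat_lit 228) (nat_lit 8094721984) (nat_lit 304) (nat_lit 5353433615) (nat_lit 50) (nat_lit 5) (nat_lit 53) (nat_lit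 5) (nat_lit 54) (nat_lit 5) (nat_lit 498) (nat_lit 357) (nat_lit 285)))) (XT.nd (nat_lit 156) (nat_lit 228) (nat_lit 0) (XT.nd (nat_lit 78) (nat_lit 228) (nat_lit 0) (XT.lf (nat_lit 0) (nat_lit 11039937128) (nat_lit 228) (nat_lit 3982976346) (nat_lit 304) (nat_lit 1649357657) (nat_lit 50) (nat_lit 5) (nat_lit 53) (nat_lit 5) (nat_lit 54) (nat_lit 5) (nat_lit 499) (nat_lit 357) (nat_lit 284)) (XT.lf (nat_lit 0) (nat_lit 2087666036) (nat_lit 228) (nat_lit 14607831313) (nat_lit 76) (nat_lit 216254873) (nat_lit 47) (nat_lit 5) (nat_lit 50) (nat_lit 5) (nat_lit 48) (nat_lit 5) (nat_lit 500) (nat_lit 357) (nat_lit 283))) (XT.nd (nat_lit 78) (nat_lit 228) (nat_lit 0) (XT.lf (nat_lit 0) (nat_lit 5912299742) (nat_lit 228) (nat_lit 6768537011) (nat_lit 76) (nat_lit 4474276328) (nat_lit 47) (nat_lit 5) (nat_lit 50) (nat_lit 5) (nat_lit 48) (nat_lit 5) (nat_lit 501) (nat_lit 357) (nat_lit 282)) (XT.lf (nat_lit 0) (nat_lit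 1193223739) (nat_lit 228) (nat_lit 8599038049) (nat_lit 304) (nat_lit 7611509792) (nat_lit 44) (nat_lit 5) (nat_lit 47) (nat_lit 5) (nat_lit 48) (nat_lit 5) (nat_lit 502) (nat_lit 357) (nat_lit 281))))) (XT.nd (nat_lit 234) (nat_lit 380) (nat_lit 0) (XT.nd (nat_lit 78) (nat_lit 228) (nat_lit 0) (XT.lf (nat_lit 0) (nat_lit 9356328965) (nat_lit 228) (nat_lit 4410247618) (nat_lit 304) (nat_lit 3890498592) (nat_lit 44) (nat_lit 5) (nat_lit 47) (nat_lit 5) (nat_lit 48) (nat_lit 5) (nat_lit 503) (nat_lit 357) (nat_lit 280)) (XT.nd (nat_lit 78) (nat_lit 228) (nat_lit 0) (XT.lf (nat_lit 0) (nat_lit 17634029590) (nat_lit 228) (nat_lit 158243244) (nat_lit 304) (nat_lit 123740966) (nat_lit 44) (nat_lit 5) (nat_lit 47) (nat_lit 5) (nat_lit 48) (nat_lit 5) (nat_lit 504) (nat_lit 357) (nat_lit 279)) (XT.lf (nat_lit 0) (nat_lit 3720822104) (nat_lit 228) (nat_lit 10277768079) (nat_lit 76) (nat_lit 4180040024) (nat_lit 41) (nat_lit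 5) (nat_lit 44) (nat_lit 5) (nat_lit 42) (nat_lit 5) (nat_lit 505) (nat_lit 357) (nat_lit 278)))) (XT.nd (nat_lit 156) (nat_lit 228) (nat_lit 0) (XT.nd (nat_lit 78) (nat_lit 152) (nat_lit 0) (XT.lf (nat_lit 0) (nat_lit 7615933237) (nat_lit 228) (nat_lit 2245349769) (nat_lit 76) (nat_lit 8585699768) (nat_lit 41) (nat_lit 5) (nat_lit 44) (nat_lit 5) (nat_lit 42) (nat_lit 5) (nat_lit 506) (nat_lit 357) (nat_lit 277)) (XT.lf (nat_lit 0) (nat_lit 5978879555) (nat_lit 152) (nat_lit 5621787242) (nat_lit 228) (nat_lit 7119807528) (nat_lit 39) (nat_lit 5) (nat_lit 41) (nat_lit 5) (nat_lit 42) (nat_lit 5) (nat_lit 507) (nat_lit 357) (nat_lit 276))) (XT.nd (nat_lit 78) (nat_lit 228) (nat_lit 0) (XT.lf (nat_lit 0) (nat_lit 14351089206) (nat_lit 152) (nat_lit 1302201232) (nat_lit 228) (nat_lit 3346387575) (nat_lit 39) (nat_lit 5) (nat_lit 41) (nat_lit 5) (nat_lit 42) (nat_lit 5) (nat_lit 508) (nat_lit 357) (nat_lit 275)) (XT.lf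 (nat_lit 0) (nat_lit 512983105) (nat_lit 228) (nat_lit 15700766593) (nat_lit 76) (nat_lit 3070315343) (nat_lit 36) (nat_lit 5) (nat_lit 39) (nat_lit 5) (nat_lit 37) (nat_lit 5) (nat_lit 509) (nat_lit 357) (nat_lit 274)))))) (XT.nd (nat_lit 546) (nat_lit 304) (nat_lit 0) (XT.nd (nat_lit 234) (nat_lit 380) (nat_lit 0) (XT.nd (nat_lit 78) (nat_lit 152) (nat_lit 0) (XT.lf (nat_lit 0) (nat_lit 4418366836) (nat_lit 228) (nat_lit 7608148688) (nat_lit 76) (nat_lit 7546915070) (nat_lit 36) (nat_lit 5) (nat_lit 39) (nat_lit 5) (nat_lit 37) (nat_lit 5) (nat_lit 510) (nat_lit 357) (nat_lit 273)) (XT.nd (nat_lit 78) (nat_lit 0) (nat_lit 0) (XT.lf (nat_lit 0) (nat_lit 608739497) (nat_lit 152) (nat_lit 7771156350) (nat_lit 228) (nat_lit 11489132602) (nat_lit 34) (nat_lit 5) (nat_lit 36) (nat_lit 5) (nat_lit 37) (nat_lit 5) (nat_lit 511) (nat_lit 357) (nat_lit 272)) (XT.lf (nat_lit 0) (nat_lit 9047829874) (nat_lit 152) (nat_lit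 3398179745) (nat_lit 228) (nat_lit 7724027184) (nat_lit 34) (nat_lit 5) (nat_lit 36) (nat_lit 5) (nat_lit 37) (nat_lit 5) (nat_lit 512) (nat_lit 357) (nat_lit 271)))) (XT.nd (nat_lit 156) (nat_lit 152) (nat_lit 0) (XT.nd (nat_lit 78) (nat_lit 228) (nat_lit 0) (XT.lf (nat_lit 0) (nat_lit 16575021430) (nat_lit 228) (nat_lit 2873023507) (nat_lit 76) (nat_lit 1029394391) (nat_lit 34) (nat_lit 5) (nat_lit 37) (nat_lit 5) (nat_lit 35) (nat_lit 4) (nat_lit 513) (nat_lit 357) (nat_lit 270)) (XT.lf (nat_lit 0) (nat_lit 29596796) (nat_lit 228) (nat_lit 15243006047) (nat_lit 76) (nat_lit 5517714613) (nat_lit 31) (nat_lit 5) (nat_lit 34) (nat_lit 5) (nat_lit 32) (nat_lit 5) (nat_lit 514) (nat_lit 357) (nat_lit 269))) (XT.nd (nat_lit 78) (nat_lit 152) (nat_lit 0) (XT.lf (nat_lit 0) (nat_lit 3982665225) (nat_lit 228) (nat_lit 7003973017) (nat_lit 76) (nat_lit 10122410868) (nat_lit 31) (nat_lit 5) (nat_lit 34) (nat_lit 5) (nat_lit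 32) (nat_lit 5) (nat_lit 515) (nat_lit 357) (nat_lit 268)) (XT.lf (nat_lit 0) (nat_lit 1374801276) (nat_lit 152) (nat_lit 6624616724) (nat_lit 228) (nat_lit 13435050035) (nat_lit 29) (nat_lit 5) (nat_lit 31) (nat_lit 5) (nat_lit 32) (nat_lit 5) (nat_lit 516) (nat_lit 357) (nat_lit 267))))) (XT.nd (nat_lit 234) (nat_lit 228) (nat_lit 0) (XT.nd (nat_lit 78) (nat_lit 76) (nat_lit 0) (XT.lf (nat_lit 0) (nat_lit 9973304945) (nat_lit 152) (nat_lit 2146096818) (nat_lit 228) (nat_lit 9646540652) (nat_lit 29) (nat_lit 5) (nat_lit 31) (nat_lit 5) (nat_lit 32) (nat_lit 5) (nat_lit 517) (nat_lit 357) (nat_lit 266)) (XT.nd (nat_lit 78) (nat_lit 76) (nat_lit 0) (XT.lf (nat_lit 0) (nat_lit 16313759694) (nat_lit 228) (nat_lit 3418299251) (nat_lit 76) (nat_lit 2372152749) (nat_lit 29) (nat_lit 5) (nat_lit 32) (nat_lit 5) (nat_lit 30) (nat_lit 4) (nat_lit 518) (nat_lit 357) (nat_lit 265)) (XT.lf (nat_lit 0) (nat_lit 5135185121)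 (nat_lit 76) (nat_lit 15481088253) (nat_lit 152) (nat_lit 1832492415) (nat_lit 28) (nat_lit 5) (nat_lit 29) (nat_lit 5) (nat_lit 30) (nat_lit 4) (nat_lit 519) (nat_lit 357) (nat_lit 264)))) (XT.nd (nat_lit 156) (nat_lit 152) (nat_lit 0) (XT.nd (nat_lit 78) (nat_lit 0) (nat_lit 0) (XT.lf (nat_lit 0) (nat_lit 2175549236) (nat_lit 152) (nat_lit 8949660571) (nat_lit 76) (nat_lit 11674722759) (nat_lit 27) (nat_lit 5) (nat_lit 29) (nat_lit 5) (nat_lit 28) (nat_lit 5) (nat_lit 520) (nat_lit 357) (nat_lit 263)) (XT.lf (nat_lit 0) (nat_lit 6216439983) (nat_lit 152) (nat_lit 471301405) (nat_lit 76) (nat_lit 16470599052) (nat_lit 27) (nat_lit 5) (nat_lit 29) (nat_lit 5) (nat_lit 28) (nat_lit 5) (nat_lit 521) (nat_lit 357) (nat_lit 262))) (XT.nd (nat_lit 78) (nat_lit 0) (nat_lit 0) (XT.lf (nat_lit 0) (nat_lit 8244852148) (nat_lit 152) (nat_lit 2124476857) (nat_lit 228) (nat_lit 13153968297) (nat_lit 25) (nat_lit 5) (nat_lit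 27) (nat_lit 5) (nat_lit 28) (nat_lit 5) (nat_lit 522) (nat_lit 357) (nat_lit 261)) (XT.lf (nat_lit 0) (nat_lit 14602603036) (nat_lit 228) (nat_lit 6810197660) (nat_lit 76) (nat_lit 2482810409) (nat_lit 25) (nat_lit 5) (nat_lit 28) (nat_lit 5) (nat_lit 26) (nat_lit 4) (nat_lit 523) (nat_lit 357) (nat_lit 260))))))) (XT.nd (nat_lit 52026) (nat_lit 0) (nat_lit 14288) (XT.nd (nat_lit 546) (nat_lit 0) (nat_lit 0) (XT.nd (nat_lit 234) (nat_lit 228) (nat_lit 0) (XT.nd (nat_lit 78) (nat_lit 76) (nat_lit 0) (XT.lf (nat_lit 0) (nat_lit 1797729541) (nat_lit 76) (nat_lit 17126708189) (nat_lit 152) (nat_lit 5350859817) (nat_lit 24) (nat_lit 5) (nat_lit 25) (nat_lit 5) (nat_lit 26) (nat_lit 4) (nat_lit 524) (nat_lit 357) (nat_lit 259)) (XT.nd (nat_lit 78) (nat_lit 76) (nat_lit 0) (XT.lf (nat_lit 0) (nat_lit 10631193754) (nat_lit 76) (nat_lit 12725544683) (nat_lit 152) (nat_lit 1305362875) (nat_lit 24) (nat_lit 5) (nat_lit 25)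 (nat_lit 5) (nat_lit 26) (nat_lit 4) (nat_lit 525) (nat_lit 357) (nat_lit 258)) (XT.lf (nat_lit 0) (nat_lit 2762654984) (nat_lit 152) (nat_lit 5472090390) (nat_lit 76) (nat_lit 16821961286) (nat_lit 23) (nat_lit 5) (nat_lit 25) (nat_lit 5) (nat_lit 24) (nat_lit 5) (nat_lit 526) (nat_lit 357) (nat_lit 257)))) (XT.nd (nat_lit 156) (nat_lit 76) (nat_lit 0) (XT.nd (nat_lit 78) (nat_lit 0) (nat_lit 0) (XT.lf (nat_lit 0) (nat_lit 3254231897) (nat_lit 152) (nat_lit 3640496366) (nat_lit 228) (nat_lit 18564303745) (nat_lit 21) (nat_lit 5) (nat_lit 23) (nat_lit 5) (nat_lit 24) (nat_lit 5) (nat_lit 527) (nat_lit 357) (nat_lit 256)) (XT.lf (nat_lit 0) (nat_lit 11132284529) (nat_lit 228) (nat_lit 13684215347) (nat_lit 76) (nat_lit 1052451018) (nat_lit 21) (nat_lit 5) (nat_lit 24) (nat_lit 5) (nat_lit 22) (nat_lit 4) (nat_lit 528) (nat_lit 357) (nat_lit 255))) (XT.nd (nat_lit 78) (nat_lit 76) (nat_lit 0) (XT.lf (nat_lit 0) (nat_lit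 15458199951) (nat_lit 228) (nat_lit 5054357543) (nat_lit 76) (nat_lit 5774442292) (nat_lit 21) (nat_lit 5) (nat_lit 24) (nat_lit 5) (nat_lit 22) (nat_lit 4) (nat_lit 529) (nat_lit 357) (nat_lit 254)) (XT.lf (nat_lit 0) (nat_lit 3761121866) (nat_lit 76) (nat_lit 16113832282) (nat_lit 152) (nat_lit 6838372812) (nat_lit 20) (nat_lit 5) (nat_lit 21) (nat_lit 5) (nat_lit 22) (nat_lit 4) (nat_lit 530) (nat_lit 357) (nat_lit 253))))) (XT.nd (nat_lit 51168) (nat_lit 0) (nat_lit 21052) (XT.nd (nat_lit 51012) (nat_lit 0) (nat_lit 23408) (XT.lf (nat_lit 0) (nat_lit 12785359507) (nat_lit 76) (nat_lit 11608662035) (nat_lit 152) (nat_lit 2753883211) (nat_lit 20) (nat_lit 5) (nat_lit 21) (nat_lit 5) (nat_lit 22) (nat_lit 4) (nat_lit 531) (nat_lit 357) (nat_lit 252)) (XT.nd (nat_lit 78) (nat_lit 836) (nat_lit 0) (XT.lf (nat_lit 0) (nat_lit 933689439) (nat_lit 912) (nat_lit 1850193335) (nat_lit 0) (nat_lit 933689439) (nat_lit 339)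 (nat_lit 5) (nat_lit 351) (nat_lit 4) (nat_lit 339) (nat_lit 4) (nat_lit 424) (nat_lit 358) (nat_lit 358)) (XT.lf (nat_lit 0) (nat_lit 1567100901) (nat_lit 836) (nat_lit 3698281006) (nat_lit 836) (nat_lit 2217067103) (nat_lit 328) (nat_lit 4) (nat_lit 339) (nat_lit 5) (nat_lit 339) (nat_lit 4) (nat_lit 425) (nat_lit 358) (nat_lit 357)))) (XT.nd (nat_lit 156) (nat_lit 1520) (nat_lit 0) (XT.nd (nat_lit 78) (nat_lit 760) (nat_lit 0) (XT.lf (nat_lit 0) (nat_lit 1145627409) (nat_lit 912) (nat_lit 619217028) (nat_lit 76) (nat_lit 5766535456) (nat_lit 327) (nat_lit 5) (nat_lit 339) (nat_lit 5) (nat_lit 328) (nat_lit 4) (nat_lit 426) (nat_lit 358) (nat_lit 356)) (XT.lf (nat_lit 0) (nat_lit 4515424263) (nat_lit 836) (nat_lit 2822454764) (nat_lit 0) (nat_lit 243776266) (nat_lit 317) (nat_lit 5) (nat_lit 328) (nat_lit 4) (nat_lit 317) (nat_lit 4) (nat_lit 427) (nat_lit 358) (nat_lit 355))) (XT.nd (nat_lit 78) (nat_lit 684)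 (nat_lit 0) (XT.lf (nat_lit 0) (nat_lit 285546857) (nat_lit 836) (nat_lit 5063256032) (nat_lit 76) (nat_lit 2284738395) (nat_lit 306) (nat_lit 5) (nat_lit 317) (nat_lit 5) (nat_lit 307) (nat_lit 4) (nat_lit 428) (nat_lit 358) (nat_lit 354)) (XT.lf (nat_lit 0) (nat_lit 336077818) (nat_lit 684) (nat_lit 3286555632) (nat_lit 760) (nat_lit 4064286419) (nat_lit 297) (nat_lit 5) (nat_lit 306) (nat_lit 5) (nat_lit 307) (nat_lit 4) (nat_lit 429) (nat_lit 358) (nat_lit 353)))))) (XT.nd (nat_lit 546) (nat_lit 3800) (nat_lit 0) (XT.nd (nat_lit 234) (nat_lit 1444) (nat_lit 0) (XT.nd (nat_lit 78) (nat_lit 1520) (nat_lit 0) (XT.lf (nat_lit 0) (nat_lit 5841547598) (nat_lit 684) (nat_lit 1157692454) (nat_lit 760) (nat_lit 742716321) (nat_lit 297) (nat_lit 5) (nat_lit 306) (nat_lit 5) (nat_lit 307) (nat_lit 4) (nat_lit 430) (nat_lit 358) (nat_lit 352)) (XT.nd (nat_lit 78) (nat_lit 684) (nat_lit 0) (XT.lf (nat_lit 0) (nat_lit 2580440112)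 (nat_lit 836) (nat_lit 4185945431) (nat_lit 76) (nat_lit 1032011727) (nat_lit 286) (nat_lit 5) (nat_lit 297) (nat_lit 5) (nat_lit 287) (nat_lit 4) (nat_lit 431) (nat_lit 358) (nat_lit 351)) (XT.lf (nat_lit 0) (nat_lit 1339857298) (nat_lit 684) (nat_lit 4589699775) (nat_lit 760) (nat_lit 1926966141) (nat_lit 277) (nat_lit 5) (nat_lit 286) (nat_lit 5) (nat_lit 287) (nat_lit 4) (nat_lit 432) (nat_lit 358) (nat_lit 350)))) (XT.nd (nat_lit 156) (nat_lit 684) (nat_lit 0) (XT.nd (nat_lit 78) (nat_lit 684) (nat_lit 0) (XT.lf (nat_lit 0) (nat_lit 1379880988) (nat_lit 760) (nat_lit 962832479) (nat_lit 76) (nat_lit 5573578346) (nat_lit 276) (nat_lit 5) (nat_lit 286) (nat_lit 5) (nat_lit 277) (nat_lit 5) (nat_lit 433) (nat_lit 358) (nat_lit 349)) (XT.lf (nat_lit 0) (nat_lit 4681071368) (nat_lit 684) (nat_lit 18087806) (nat_lit 760) (nat_lit 3278440709) (nat_lit 267) (nat_lit 5) (nat_lit 276) (nat_lit 5) (nat_lit 277) (nat_lit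 5) (nat_lit 434) (nat_lit 358) (nat_lit 348))) (XT.nd (nat_lit 78) (nat_lit 0) (nat_lit 0) (XT.lf (nat_lit 0) (nat_lit 23304754) (nat_lit 684) (nat_lit 5684555761) (nat_lit 76) (nat_lit 2332722939) (nat_lit 258) (nat_lit 5) (nat_lit 267) (nat_lit 5) (nat_lit 259) (nat_lit 5) (nat_lit 435) (nat_lit 358) (nat_lit 347)) (XT.lf (nat_lit 0) (nat_lit 3312176057) (nat_lit 684) (nat_lit 30678342) (nat_lit 76) (nat_lit 4762277522) (nat_lit 258) (nat_lit 5) (nat_lit 267) (nat_lit 5) (nat_lit 259) (nat_lit 5) (nat_lit 436) (nat_lit 358) (nat_lit 346))))) (XT.nd (nat_lit 312) (nat_lit 1748) (nat_lit 0) (XT.nd (nat_lit 156) (nat_lit 684) (nat_lit 0) (XT.nd (nat_lit 78) (nat_lit 684) (nat_lit 0) (XT.lf (nat_lit 0) (nat_lit 5742336840) (nat_lit 684) (nat_lit 905457759) (nat_lit 760) (nat_lit 1523595025) (nat_lit 249) (nat_lit 5) (nat_lit 258) (nat_lit 5) (nat_lit 259) (nat_lit 5) (nat_lit 437) (nat_lit 358) (nat_lit 345)) (XT.lf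 (nat_lit 0) (nat_lit 1763726901) (nat_lit 684) (nat_lit 4894931059) (nat_lit 76) (nat_lit 1580588988) (nat_lit 240) (nat_lit 5) (nat_lit 249) (nat_lit 5) (nat_lit 241) (nat_lit 5) (nat_lit 438) (nat_lit 358) (nat_lit 344))) (XT.nd (nat_lit 78) (nat_lit 76) (nat_lit 0) (XT.lf (nat_lit 0) (nat_lit 883157220) (nat_lit 608) (nat_lit 4185895497) (nat_lit 684) (nat_lit 3239789607) (nat_lit 232) (nat_lit 5) (nat_lit 240) (nat_lit 5) (nat_lit 241) (nat_lit 5) (nat_lit 439) (nat_lit 358) (nat_lit 343)) (XT.lf (nat_lit 0) (nat_lit 37663656) (nat_lit 684) (nat_lit 1607105623) (nat_lit 76) (nat_lit 6735530490) (nat_lit 231) (nat_lit 5) (nat_lit 240) (nat_lit 5) (nat_lit 232) (nat_lit 5) (nat_lit 440) (nat_lit 358) (nat_lit 342)))) (XT.nd (nat_lit 156) (nat_lit 608) (nat_lit 0) (XT.nd (nat_lit 78) (nat_lit 608) (nat_lit 0) (XT.lf (nat_lit 0) (nat_lit 3317404392) (nat_lit 608) (nat_lit 4166093989) (nat_lit 76) (nat_lit 969690743)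 (nat_lit 224) (nat_lit 5) (nat_lit 232) (nat_lit 5) (nat_lit 225) (nat_lit 5) (nat_lit 441) (nat_lit 358) (nat_lit 341)) (XT.lf (nat_lit 0) (nat_lit 1735794936) (nat_lit 608) (nat_lit 4906304269) (nat_lit 684) (nat_lit 1885882664) (nat_lit 216) (nat_lit 5) (nat_lit 224) (nat_lit 5) (nat_lit 225) (nat_lit 5) (nat_lit 442) (nat_lit 358) (nat_lit 340))) (XT.nd (nat_lit 78) (nat_lit 532) (nat_lit 0) (XT.lf (nat_lit 0) (nat_lit 1384978135) (nat_lit 684) (nat_lit 870914403) (nat_lit 76) (nat_lit 6348729835) (nat_lit 215) (nat_lit 5) (nat_lit 224) (nat_lit 5) (nat_lit 216) (nat_lit 5) (nat_lit 443) (nat_lit 358) (nat_lit 339)) (XT.lf (nat_lit 0) (nat_lit 4680213247) (nat_lit 608) (nat_lit 3530715336) (nat_lit 76) (nat_lit 471964505) (nat_lit 208) (nat_lit 5) (nat_lit 216) (nat_lit 5) (nat_lit 209) (nat_lit 5) (nat_lit 444) (nat_lit 358) (nat_lit 338))))))))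
noncomputable def xc52 : XT := (XT.nd (nat_lit 2184) (nat_lit 4256) (nat_lit 0) (XT.nd (nat_lit 1092) (nat_lit 3040) (nat_lit 0) (XT.nd (nat_lit 546) (nat_lit 2280) (nat_lit 0) (XT.nd (nat_lit 234) (nat_lit 1596) (nat_lit 0) (XT.nd (nat_lit 78) (nat_lit 532) (nat_lit 0) (XT.lf (nat_lit 0) (nat_lit 2493578060) (nat_lit 532) (nat_lit 5532875355) (nat_lit 608) (nat_lit 736604087) (nat_lit 201) (nat_lit 5) (nat_lit 208) (nat_lit 5) (nat_lit 209) (nat_lit 5) (nat_lit 445) (nat_lit 358) (nat_lit 337)) (XT.nd (nat_lit 78) (nat_lit 456) (nat_lit 0) (XT.lf (nat_lit 0) (nat_lit 2532902642) (nat_lit 608) (nat_lit 244472320) (nat_lit 76) (nat_lit 6067699602) (nat_lit 200) (nat_lit 5) (nat_lit 208) (nat_lit 5) (nat_lit 201) (nat_lit 5) (nat_lit 446) (nat_lit 358) (nat_lit 336)) (XT.lf (nat_lit 0) (nat_lit 5845983418) (nat_lit 532) (nat_lit 3023664135) (nat_lit 76) (nat_lit 59254640) (nat_lit 194) (nat_lit 5) (nat_lit 201) (nat_lit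 5) (nat_lit 195) (nat_lit 5) (nat_lit 447) (nat_lit 358) (nat_lit 335)))) (XT.nd (nat_lit 156) (nat_lit 532) (nat_lit 0) (XT.nd (nat_lit 78) (nat_lit 456) (nat_lit 0) (XT.lf (nat_lit 0) (nat_lit 198115088) (nat_lit 608) (nat_lit 5894970967) (nat_lit 76) (nat_lit 2921521128) (nat_lit 186) (nat_lit 5) (nat_lit 194) (nat_lit 5) (nat_lit 187) (nat_lit 5) (nat_lit 448) (nat_lit 358) (nat_lit 334)) (XT.lf (nat_lit 0) (nat_lit 239065827) (nat_lit 456) (nat_lit 3236374020) (nat_lit 532) (nat_lit 5626766752) (nat_lit 180) (nat_lit 5) (nat_lit 186) (nat_lit 5) (nat_lit 187) (nat_lit 5) (nat_lit 449) (nat_lit 358) (nat_lit 333))) (XT.nd (nat_lit 78) (nat_lit 532) (nat_lit 0) (XT.lf (nat_lit 0) (nat_lit 6507455949) (nat_lit 456) (nat_lit 300887136) (nat_lit 532) (nat_lit 2383440650) (nat_lit 180) (nat_lit 5) (nat_lit 186) (nat_lit 5) (nat_lit 187) (nat_lit 5) (nat_lit 450) (nat_lit 358) (nat_lit 332)) (XT.lf (nat_lit 0) (nat_lit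 904600047) (nat_lit 532) (nat_lit 5709539958) (nat_lit 76) (nat_lit 2669078146) (nat_lit 173) (nat_lit 5) (nat_lit 180) (nat_lit 5) (nat_lit 174) (nat_lit 5) (nat_lit 451) (nat_lit 358) (nat_lit 331))))) (XT.nd (nat_lit 234) (nat_lit 1292) (nat_lit 0) (XT.nd (nat_lit 78) (nat_lit 532) (nat_lit 0) (XT.lf (nat_lit 0) (nat_lit 538274614) (nat_lit 456) (nat_lit 3663361476) (nat_lit 532) (nat_lit 5175051947) (nat_lit 167) (nat_lit 5) (nat_lit 173) (nat_lit 5) (nat_lit 174) (nat_lit 5) (nat_lit 452) (nat_lit 358) (nat_lit 330)) (XT.nd (nat_lit 78) (nat_lit 532) (nat_lit 0) (XT.lf (nat_lit 0) (nat_lit 6920888426) (nat_lit 456) (nat_lit 634049820) (nat_lit 532) (nat_lit 1917306932) (nat_lit 167) (nat_lit 5) (nat_lit 173) (nat_lit 5) (nat_lit 174) (nat_lit 5) (nat_lit 453) (nat_lit 358) (nat_lit 329)) (XT.lf (nat_lit 0) (nat_lit 1380723509) (nat_lit 532) (nat_lit 5750306190) (nat_lit 76) (nat_lit 2438653353) (nat_lit 160)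 (nat_lit 5) (nat_lit 167) (nat_lit 5) (nat_lit 161) (nat_lit 5) (nat_lit 454) (nat_lit 358) (nat_lit 328)))) (XT.nd (nat_lit 156) (nat_lit 912) (nat_lit 0) (XT.nd (nat_lit 78) (nat_lit 0) (nat_lit 0) (XT.lf (nat_lit 0) (nat_lit 607060478) (nat_lit 380) (nat_lit 4090368033) (nat_lit 456) (nat_lit 4971842928) (nat_lit 155) (nat_lit 5) (nat_lit 160) (nat_lit 5) (nat_lit 161) (nat_lit 5) (nat_lit 455) (nat_lit 358) (nat_lit 327)) (XT.lf (nat_lit 0) (nat_lit 7102690344) (nat_lit 380) (nat_lit 969840664) (nat_lit 456) (nat_lit 1698501826) (nat_lit 155) (nat_lit 5) (nat_lit 160) (nat_lit 5) (nat_lit 161) (nat_lit 5) (nat_lit 456) (nat_lit 358) (nat_lit 326))) (XT.nd (nat_lit 78) (nat_lit 380) (nat_lit 0) (XT.lf (nat_lit 0) (nat_lit 1612176162) (nat_lit 532) (nat_lit 6062742894) (nat_lit 76) (nat_lit 2199851375) (nat_lit 148) (nat_lit 5) (nat_lit 155) (nat_lit 5) (nat_lit 149) (nat_lit 5) (nat_lit 457) (nat_lit 358) (nat_lit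 325)) (XT.lf (nat_lit 0) (nat_lit 398875543) (nat_lit 380) (nat_lit 4548914320) (nat_lit 456) (nat_lit 5032960283) (nat_lit 143) (nat_lit 5) (nat_lit 148) (nat_lit 5) (nat_lit 149) (nat_lit 5) (nat_lit 458) (nat_lit 358) (nat_lit 324)))))) (XT.nd (nat_lit 546) (nat_lit 1444) (nat_lit 0) (XT.nd (nat_lit 234) (nat_lit 1140) (nat_lit 0) (XT.nd (nat_lit 78) (nat_lit 456) (nat_lit 0) (XT.lf (nat_lit 0) (nat_lit 7005829585) (nat_lit 380) (nat_lit 1339842122) (nat_lit 456) (nat_lit 1743287422) (nat_lit 143) (nat_lit 5) (nat_lit 148) (nat_lit 5) (nat_lit 149) (nat_lit 5) (nat_lit 459) (nat_lit 358) (nat_lit 323)) (XT.nd (nat_lit 78) (nat_lit 0) (nat_lit 0) (XT.lf (nat_lit 0) (nat_lit 1581943643) (nat_lit 456) (nat_lit 6696377065) (nat_lit 76) (nat_lit 1921004049) (nat_lit 137) (nat_lit 5) (nat_lit 143) (nat_lit 5) (nat_lit 138) (nat_lit 5) (nat_lit 460) (nat_lit 358) (nat_lit 322)) (XT.lf (nat_lit 0) (nat_lit 4935817942)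 (nat_lit 456) (nat_lit 135231204) (nat_lit 76) (nat_lit 5240928057) (nat_lit 137) (nat_lit 5) (nat_lit 143) (nat_lit 5) (nat_lit 138) (nat_lit 5) (nat_lit 461) (nat_lit 358) (nat_lit 321)))) (XT.nd (nat_lit 156) (nat_lit 304) (nat_lit 0) (XT.nd (nat_lit 78) (nat_lit 456) (nat_lit 0) (XT.lf (nat_lit 0) (nat_lit 6578979611) (nat_lit 380) (nat_lit 1777132515) (nat_lit 456) (nat_lit 2070802935) (nat_lit 132) (nat_lit 5) (nat_lit 137) (nat_lit 5) (nat_lit 138) (nat_lit 5) (nat_lit 462) (nat_lit 358) (nat_lit 320)) (XT.lf (nat_lit 0) (nat_lit 1270096929) (nat_lit 456) (nat_lit 7705315887) (nat_lit 76) (nat_lit 1568858531) (nat_lit 126) (nat_lit 5) (nat_lit 132) (nat_lit 5) (nat_lit 127) (nat_lit 5) (nat_lit 463) (nat_lit 358) (nat_lit 319))) (XT.nd (nat_lit 78) (nat_lit 304) (nat_lit 0) (XT.lf (nat_lit 0) (nat_lit 4644925902) (nat_lit 456) (nat_lit 1042290417) (nat_lit 76) (nat_lit 4976605999) (nat_lit 126) (nat_lit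 5) (nat_lit 132) (nat_lit 5) (nat_lit 127) (nat_lit 5) (nat_lit 464) (nat_lit 358) (nat_lit 318)) (XT.lf (nat_lit 0) (nat_lit 5765968215) (nat_lit 304) (nat_lit 2316613334) (nat_lit 380) (nat_lit 2703293904) (nat_lit 122) (nat_lit 5) (nat_lit 126) (nat_lit 5) (nat_lit 127) (nat_lit 5) (nat_lit 465) (nat_lit 358) (nat_lit 317))))) (XT.nd (nat_lit 234) (nat_lit 684) (nat_lit 0) (XT.nd (nat_lit 78) (nat_lit 304) (nat_lit 0) (XT.lf (nat_lit 0) (nat_lit 653554627) (nat_lit 456) (nat_lit 9148821875) (nat_lit 76) (nat_lit 1108245401) (nat_lit 116) (nat_lit 5) (nat_lit 122) (nat_lit 5) (nat_lit 117) (nat_lit 5) (nat_lit 466) (nat_lit 358) (nat_lit 316)) (XT.nd (nat_lit 78) (nat_lit 304) (nat_lit 0) (XT.lf (nat_lit 0) (nat_lit 4048913457) (nat_lit 456) (nat_lit 2387561569) (nat_lit 76) (nat_lit 4600896195) (nat_lit 116) (nat_lit 5) (nat_lit 122) (nat_lit 5) (nat_lit 117) (nat_lit 5) (nat_lit 467) (nat_lit 358) (nat_lit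 315)) (XT.lf (nat_lit 0) (nat_lit 4505174716) (nat_lit 304) (nat_lit 2995358741) (nat_lit 380) (nat_lit 3666371384) (nat_lit 112) (nat_lit 5) (nat_lit 116) (nat_lit 5) (nat_lit 117) (nat_lit 5) (nat_lit 468) (nat_lit 358) (nat_lit 314)))) (XT.nd (nat_lit 156) (nat_lit 304) (nat_lit 0) (XT.nd (nat_lit 78) (nat_lit 76) (nat_lit 0) (XT.lf (nat_lit 0) (nat_lit 205564215) (nat_lit 304) (nat_lit 10795782882) (nat_lit 380) (nat_lit 298094885) (nat_lit 108) (nat_lit 5) (nat_lit 112) (nat_lit 5) (nat_lit 113) (nat_lit 5) (nat_lit 469) (nat_lit 358) (nat_lit 313)) (XT.lf (nat_lit 0) (nat_lit 3120699671) (nat_lit 380) (nat_lit 4236978459) (nat_lit 76) (nat_lit 4076073724) (nat_lit 107) (nat_lit 5) (nat_lit 112) (nat_lit 5) (nat_lit 108) (nat_lit 5) (nat_lit 470) (nat_lit 358) (nat_lit 312))) (XT.nd (nat_lit 78) (nat_lit 0) (nat_lit 0) (XT.lf (nat_lit 0) (nat_lit 2728869689) (nat_lit 304) (nat_lit 3852990540) (nat_lit 380)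 (nat_lit 4989303802) (nat_lit 103) (nat_lit 5) (nat_lit 107) (nat_lit 5) (nat_lit 108) (nat_lit 5) (nat_lit 471) (nat_lit 358) (nat_lit 311)) (XT.lf (nat_lit 0) (nat_lit 9829871462) (nat_lit 304) (nat_lit 271444414) (nat_lit 380) (nat_lit 1610241986) (nat_lit 103) (nat_lit 5) (nat_lit 107) (nat_lit 5) (nat_lit 108) (nat_lit 5) (nat_lit 472) (nat_lit 358) (nat_lit 310))))))) (XT.nd (nat_lit 1092) (nat_lit 1900) (nat_lit 0) (XT.nd (nat_lit 546) (nat_lit 1140) (nat_lit 0) (XT.nd (nat_lit 234) (nat_lit 608) (nat_lit 0) (XT.nd (nat_lit 78) (nat_lit 228) (nat_lit 0) (XT.lf (nat_lit 0) (nat_lit 1829424661) (nat_lit 380) (nat_lit 6663082726) (nat_lit 76) (nat_lit 3361685827) (nat_lit 98) (nat_lit 5) (nat_lit 103) (nat_lit 5) (nat_lit 99) (nat_lit 5) (nat_lit 473) (nat_lit 358) (nat_lit 309)) (XT.nd (nat_lit 78) (nat_lit 0) (nat_lit 0) (XT.lf (nat_lit 0) (nat_lit 362490774) (nat_lit 228) (nat_lit 4932082140) (nat_lit 304)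 (nat_lit 6705344491) (nat_lit 95) (nat_lit 5) (nat_lit 98) (nat_lit 5) (nat_lit 99) (nat_lit 5) (nat_lit 474) (nat_lit 358) (nat_lit 308)) (XT.lf (nat_lit 0) (nat_lit 7558138377) (nat_lit 228) (nat_lit 1277328926) (nat_lit 304) (nat_lit 3312973631) (nat_lit 95) (nat_lit 5) (nat_lit 98) (nat_lit 5) (nat_lit 99) (nat_lit 5) (nat_lit 475) (nat_lit 358) (nat_lit 307)))) (XT.nd (nat_lit 156) (nat_lit 228) (nat_lit 0) (XT.nd (nat_lit 78) (nat_lit 0) (nat_lit 0) (XT.lf (nat_lit 0) (nat_lit 140103979) (nat_lit 380) (nat_lit 9745794718) (nat_lit 76) (nat_lit 2414134493) (nat_lit 90) (nat_lit 5) (nat_lit 95) (nat_lit 5) (nat_lit 91) (nat_lit 5) (nat_lit 476) (nat_lit 358) (nat_lit 306)) (XT.lf (nat_lit 0) (nat_lit 3619818153) (nat_lit 380) (nat_lit 2641054353) (nat_lit 76) (nat_lit 6193321023) (nat_lit 90) (nat_lit 5) (nat_lit 95) (nat_lit 5) (nat_lit 91) (nat_lit 5) (nat_lit 477) (nat_lit 358) (nat_lit 305))) (XT.nd (nat_lit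 78) (nat_lit 0) (nat_lit 0) (XT.lf (nat_lit 0) (nat_lit 4607083089) (nat_lit 228) (nat_lit 2555120257) (nat_lit 304) (nat_lit 5449384869) (nat_lit 87) (nat_lit 5) (nat_lit 90) (nat_lit 5) (nat_lit 91) (nat_lit 5) (nat_lit 478) (nat_lit 358) (nat_lit 304)) (XT.lf (nat_lit 0) (nat_lit 10764589409) (nat_lit 304) (nat_lit 803191550) (nat_lit 76) (nat_lit 1204579197) (nat_lit 87) (nat_lit 5) (nat_lit 91) (nat_lit 5) (nat_lit 88) (nat_lit 5) (nat_lit 479) (nat_lit 358) (nat_lit 303))))) (XT.nd (nat_lit 234) (nat_lit 532) (nat_lit 0) (XT.nd (nat_lit 78) (nat_lit 228) (nat_lit 0) (XT.lf (nat_lit 0) (nat_lit 1506658964) (nat_lit 380) (nat_lit 6392796318) (nat_lit 76) (nat_lit 5036235246) (nat_lit 82) (nat_lit 5) (nat_lit 87) (nat_lit 5) (nat_lit 83) (nat_lit 5) (nat_lit 480) (nat_lit 358) (nat_lit 302)) (XT.nd (nat_lit 78) (nat_lit 0) (nat_lit 0) (XT.lf (nat_lit 0) (nat_lit 884607611) (nat_lit 228) (nat_lit 4155240867)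 (nat_lit 304) (nat_lit 8062678206) (nat_lit 79) (nat_lit 5) (nat_lit 82) (nat_lit 5) (nat_lit 83) (nat_lit 5) (nat_lit 481) (nat_lit 358) (nat_lit 301)) (XT.lf (nat_lit 0) (nat_lit 8336327584) (nat_lit 228) (nat_lit 314761237) (nat_lit 304) (nat_lit 4621474481) (nat_lit 79) (nat_lit 5) (nat_lit 82) (nat_lit 5) (nat_lit 83) (nat_lit 5) (nat_lit 482) (nat_lit 358) (nat_lit 300)))) (XT.nd (nat_lit 156) (nat_lit 228) (nat_lit 0) (XT.nd (nat_lit 78) (nat_lit 76) (nat_lit 0) (XT.lf (nat_lit 0) (nat_lit 2442405746) (nat_lit 228) (nat_lit 9896437838) (nat_lit 304) (nat_lit 1107082530) (nat_lit 76) (nat_lit 5) (nat_lit 79) (nat_lit 5) (nat_lit 80) (nat_lit 5) (nat_lit 483) (nat_lit 358) (nat_lit 299)) (XT.lf (nat_lit 0) (nat_lit 2445649083) (nat_lit 304) (nat_lit 3662367201) (nat_lit 76) (nat_lit 7514418071) (nat_lit 75) (nat_lit 5) (nat_lit 79) (nat_lit 5) (nat_lit 76) (nat_lit 5) (nat_lit 484) (nat_lit 358) (nat_lit 298)))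 (XT.nd (nat_lit 78) (nat_lit 0) (nat_lit 0) (XT.lf (nat_lit 0) (nat_lit 3811982542) (nat_lit 228) (nat_lit 2233194041) (nat_lit 304) (nat_lit 7757349127) (nat_lit 72) (nat_lit 5) (nat_lit 75) (nat_lit 5) (nat_lit 76) (nat_lit 5) (nat_lit 485) (nat_lit 358) (nat_lit 297)) (XT.lf (nat_lit 0) (nat_lit 9718561288) (nat_lit 304) (nat_lit 2568052710) (nat_lit 76) (nat_lit 1699577957) (nat_lit 72) (nat_lit 5) (nat_lit 76) (nat_lit 5) (nat_lit 73) (nat_lit 5) (nat_lit 486) (nat_lit 358) (nat_lit 296)))))) (XT.nd (nat_lit 546) (nat_lit 912) (nat_lit 0) (XT.nd (nat_lit 234) (nat_lit 456) (nat_lit 0) (XT.nd (nat_lit 78) (nat_lit 304) (nat_lit 0) (XT.lf (nat_lit 0) (nat_lit 4998294347) (nat_lit 228) (nat_lit 8480994072) (nat_lit 304) (nat_lit 693975805) (nat_lit 69) (nat_lit 5) (nat_lit 72) (nat_lit 5) (nat_lit 73) (nat_lit 5) (nat_lit 487) (nat_lit 358) (nat_lit 295)) (XT.nd (nat_lit 78) (nat_lit 228) (nat_lit 0) (XT.lf (nat_lit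 0) (nat_lit 2896495833) (nat_lit 304) (nat_lit 1687674766) (nat_lit 76) (nat_lit 9779852948) (nat_lit 68) (nat_lit 5) (nat_lit 72) (nat_lit 5) (nat_lit 69) (nat_lit 5) (nat_lit 488) (nat_lit 358) (nat_lit 294)) (XT.lf (nat_lit 0) (nat_lit 5968692523) (nat_lit 228) (nat_lit 586907813) (nat_lit 304) (nat_lit 8002793266) (nat_lit 65) (nat_lit 5) (nat_lit 68) (nat_lit 5) (nat_lit 69) (nat_lit 5) (nat_lit 489) (nat_lit 358) (nat_lit 293)))) (XT.nd (nat_lit 156) (nat_lit 228) (nat_lit 0) (XT.nd (nat_lit 78) (nat_lit 228) (nat_lit 0) (XT.lf (nat_lit 0) (nat_lit 10289451805) (nat_lit 304) (nat_lit 1032613588) (nat_lit 76) (nat_lit 3434563786) (nat_lit 65) (nat_lit 5) (nat_lit 69) (nat_lit 5) (nat_lit 66) (nat_lit 5) (nat_lit 490) (nat_lit 358) (nat_lit 292)) (XT.lf (nat_lit 0) (nat_lit 6706234552) (nat_lit 228) (nat_lit 7407314411) (nat_lit 304) (nat_lit 844978363) (nat_lit 62) (nat_lit 5) (nat_lit 65) (nat_lit 5) (nat_lit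 66) (nat_lit 5) (nat_lit 491) (nat_lit 358) (nat_lit 291))) (XT.nd (nat_lit 78) (nat_lit 152) (nat_lit 0) (XT.lf (nat_lit 0) (nat_lit 2787468457) (nat_lit 304) (nat_lit 622543230) (nat_lit 76) (nat_lit 11754587031) (nat_lit 61) (nat_lit 5) (nat_lit 65) (nat_lit 5) (nat_lit 62) (nat_lit 5) (nat_lit 492) (nat_lit 358) (nat_lit 290)) (XT.lf (nat_lit 0) (nat_lit 6501348630) (nat_lit 228) (nat_lit 8182812049) (nat_lit 76) (nat_lit 690125880) (nat_lit 59) (nat_lit 5) (nat_lit 62) (nat_lit 5) (nat_lit 60) (nat_lit 5) (nat_lit 493) (nat_lit 358) (nat_lit 289))))) (XT.nd (nat_lit 312) (nat_lit 456) (nat_lit 0) (XT.nd (nat_lit 156) (nat_lit 228) (nat_lit 0) (XT.nd (nat_lit 78) (nat_lit 228) (nat_lit 0) (XT.lf (nat_lit 0) (nat_lit 10285255356) (nat_lit 228) (nat_lit 493105264) (nat_lit 76) (nat_lit 4809901085) (nat_lit 59) (nat_lit 5) (nat_lit 62) (nat_lit 5) (nat_lit 60) (nat_lit 5) (nat_lit 494) (nat_lit 358) (nat_lit 288))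 (XT.lf (nat_lit 0) (nat_lit 7395803260) (nat_lit 228) (nat_lit 6766624861) (nat_lit 304) (nat_lit 1643744838) (nat_lit 56) (nat_lit 5) (nat_lit 59) (nat_lit 5) (nat_lit 60) (nat_lit 5) (nat_lit 495) (nat_lit 358) (nat_lit 287))) (XT.nd (nat_lit 78) (nat_lit 152) (nat_lit 0) (XT.lf (nat_lit 0) (nat_lit 2034264612) (nat_lit 304) (nat_lit 644447262) (nat_lit 76) (nat_lit 13350008248) (nat_lit 55) (nat_lit 5) (nat_lit 59) (nat_lit 5) (nat_lit 56) (nat_lit 5) (nat_lit 496) (nat_lit 358) (nat_lit 286)) (XT.lf (nat_lit 0) (nat_lit 5791466221) (nat_lit 228) (nat_lit 8953939954) (nat_lit 76) (nat_lit 1509549797) (nat_lit 53) (nat_lit 5) (nat_lit 56) (nat_lit 5) (nat_lit 54) (nat_lit 5) (nat_lit 497) (nat_lit 358) (nat_lit 285)))) (XT.nd (nat_lit 156) (nat_lit 228) (nat_lit 0) (XT.nd (nat_lit 78) (nat_lit 228) (nat_lit 0) (XT.lf (nat_lit 0) (nat_lit 9616248183) (nat_lit 228) (nat_lit 1140053214) (nat_lit 76) (nat_lit 5729574140)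 (nat_lit 53) (nat_lit 5) (nat_lit 56) (nat_lit 5) (nat_lit 54) (nat_lit 5) (nat_lit 498) (nat_lit 358) (nat_lit 284)) (XT.lf (nat_lit 0) (nat_lit 6870434985) (nat_lit 228) (nat_lit 6662623011) (nat_lit 304) (nat_lit 3188052425) (nat_lit 50) (nat_lit 5) (nat_lit 53) (nat_lit 5) (nat_lit 54) (nat_lit 5) (nat_lit 499) (nat_lit 358) (nat_lit 283))) (XT.nd (nat_lit 78) (nat_lit 152) (nat_lit 0) (XT.lf (nat_lit 0) (nat_lit 538392261) (nat_lit 304) (nat_lit 1957892077) (nat_lit 76) (nat_lit 14465125768) (nat_lit 49) (nat_lit 5) (nat_lit 53) (nat_lit 5) (nat_lit 50) (nat_lit 5) (nat_lit 500) (nat_lit 358) (nat_lit 282)) (XT.lf (nat_lit 0) (nat_lit 4319539620) (nat_lit 228) (nat_lit 11114729037) (nat_lit 76) (nat_lit 1771375567) (nat_lit 47) (nat_lit 5) (nat_lit 50) (nat_lit 5) (nat_lit 48) (nat_lit 5) (nat_lit 501) (nat_lit 358) (nat_lit 281))))))))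
noncomputable def xc53 : XT := (XT.nd (nat_lit 2184) (nat_lit 76) (nat_lit 0) (XT.nd (nat_lit 1092) (nat_lit 760) (nat_lit 0) (XT.nd (nat_lit 546) (nat_lit 608) (nat_lit 0) (XT.nd (nat_lit 234) (nat_lit 380) (nat_lit 0) (XT.nd (nat_lit 78) (nat_lit 228) (nat_lit 0) (XT.lf (nat_lit 0) (nat_lit 8177722465) (nat_lit 228) (nat_lit 3192869612) (nat_lit 76) (nat_lit 6084149694) (nat_lit 47) (nat_lit 5) (nat_lit 50) (nat_lit 5) (nat_lit 48) (nat_lit 5) (nat_lit 502) (nat_lit 358) (nat_lit 280)) (XT.nd (nat_lit 78) (nat_lit 0) (nat_lit 0) (XT.lf (nat_lit 0) (nat_lit 4903711628) (nat_lit 228) (nat_lit 7213406623) (nat_lit 304) (nat_lit 5591628891) (nat_lit 44) (nat_lit 5) (nat_lit 47) (nat_lit 5) (nat_lit 48) (nat_lit 5) (nat_lit 503) (nat_lit 358) (nat_lit 279)) (XT.lf (nat_lit 0) (nat_lit 13157792225) (nat_lit 228) (nat_lit 2971381799) (nat_lit 304) (nat_lit 1838787882) (nat_lit 44) (nat_lit 5) (nat_lit 47) (nat_lit 5)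 (nat_lit 48) (nat_lit 5) (nat_lit 504) (nat_lit 358) (nat_lit 278)))) (XT.nd (nat_lit 156) (nat_lit 152) (nat_lit 0) (XT.nd (nat_lit 78) (nat_lit 0) (nat_lit 0) (XT.lf (nat_lit 0) (nat_lit 1966332117) (nat_lit 228) (nat_lit 14912937033) (nat_lit 76) (nat_lit 1352773792) (nat_lit 41) (nat_lit 5) (nat_lit 44) (nat_lit 5) (nat_lit 42) (nat_lit 5) (nat_lit 505) (nat_lit 358) (nat_lit 277)) (XT.lf (nat_lit 0) (nat_lit 5848028079) (nat_lit 228) (nat_lit 6903910521) (nat_lit 76) (nat_lit 5748728350) (nat_lit 41) (nat_lit 5) (nat_lit 44) (nat_lit 5) (nat_lit 42) (nat_lit 5) (nat_lit 506) (nat_lit 358) (nat_lit 276))) (XT.nd (nat_lit 78) (nat_lit 0) (nat_lit 0) (XT.lf (nat_lit 0) (nat_lit 1235171078) (nat_lit 152) (nat_lit 8553639130) (nat_lit 228) (nat_lit 8986230397) (nat_lit 39) (nat_lit 5) (nat_lit 41) (nat_lit 5) (nat_lit 42) (nat_lit 5) (nat_lit 507) (nat_lit 358) (nat_lit 275)) (XT.lf (nat_lit 0) (nat_lit 9584598470)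 (nat_lit 152) (nat_lit 4243793218) (nat_lit 228) (nat_lit 5226116464) (nat_lit 39) (nat_lit 5) (nat_lit 41) (nat_lit 5) (nat_lit 42) (nat_lit 5) (nat_lit 508) (nat_lit 358) (nat_lit 274))))) (XT.nd (nat_lit 234) (nat_lit 380) (nat_lit 0) (XT.nd (nat_lit 78) (nat_lit 228) (nat_lit 0) (XT.lf (nat_lit 0) (nat_lit 17923799471) (nat_lit 228) (nat_lit 1285054259) (nat_lit 76) (nat_lit 131216598) (nat_lit 39) (nat_lit 5) (nat_lit 42) (nat_lit 5) (nat_lit 40) (nat_lit 4) (nat_lit 509) (nat_lit 358) (nat_lit 273)) (XT.nd (nat_lit 78) (nat_lit 0) (nat_lit 0) (XT.lf (nat_lit 0) (nat_lit 2486348150) (nat_lit 228) (nat_lit 12563059434) (nat_lit 76) (nat_lit 4580641834) (nat_lit 36) (nat_lit 5) (nat_lit 39) (nat_lit 5) (nat_lit 37) (nat_lit 5) (nat_lit 510) (nat_lit 358) (nat_lit 272)) (XT.lf (nat_lit 0) (nat_lit 6431347294) (nat_lit 228) (nat_lit 4376270005) (nat_lit 76) (nat_lit 9118363357) (nat_lit 36) (nat_lit 5) (nat_lit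 39) (nat_lit 5) (nat_lit 37) (nat_lit 5) (nat_lit 511) (nat_lit 358) (nat_lit 271)))) (XT.nd (nat_lit 156) (nat_lit 228) (nat_lit 0) (XT.nd (nat_lit 78) (nat_lit 0) (nat_lit 0) (XT.lf (nat_lit 0) (nat_lit 3982692512) (nat_lit 152) (nat_lit 6473503755) (nat_lit 228) (nat_lit 9771620771) (nat_lit 34) (nat_lit 5) (nat_lit 36) (nat_lit 5) (nat_lit 37) (nat_lit 5) (nat_lit 512) (nat_lit 358) (nat_lit 270)) (XT.lf (nat_lit 0) (nat_lit 12524647477) (nat_lit 152) (nat_lit 2041559298) (nat_lit 228) (nat_lit 5969395490) (nat_lit 34) (nat_lit 5) (nat_lit 36) (nat_lit 5) (nat_lit 37) (nat_lit 5) (nat_lit 513) (nat_lit 358) (nat_lit 269))) (XT.nd (nat_lit 78) (nat_lit 76) (nat_lit 0) (XT.lf (nat_lit 0) (nat_lit 333147007) (nat_lit 152) (nat_lit 18419191106) (nat_lit 228) (nat_lit 2097331975) (nat_lit 32) (nat_lit 5) (nat_lit 34) (nat_lit 5) (nat_lit 35) (nat_lit 4) (nat_lit 514) (nat_lit 358) (nat_lit 268)) (XT.lf (nat_lit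 0) (nat_lit 1871212080) (nat_lit 228) (nat_lit 12285194643) (nat_lit 76) (nat_lit 7012510512) (nat_lit 31) (nat_lit 5) (nat_lit 34) (nat_lit 5) (nat_lit 32) (nat_lit 5) (nat_lit 515) (nat_lit 358) (nat_lit 267)))))) (XT.nd (nat_lit 546) (nat_lit 304) (nat_lit 0) (XT.nd (nat_lit 234) (nat_lit 304) (nat_lit 0) (XT.nd (nat_lit 78) (nat_lit 152) (nat_lit 0) (XT.lf (nat_lit 0) (nat_lit 5867243381) (nat_lit 228) (nat_lit 3945354903) (nat_lit 76) (nat_lit 11682154779) (nat_lit 31) (nat_lit 5) (nat_lit 34) (nat_lit 5) (nat_lit 32) (nat_lit 5) (nat_lit 516) (nat_lit 358) (nat_lit 266)) (XT.nd (nat_lit 78) (nat_lit 0) (nat_lit 0) (XT.lf (nat_lit 0) (nat_lit 4579950812) (nat_lit 152) (nat_lit 5369621150) (nat_lit 228) (nat_lit 11877411011) (nat_lit 29) (nat_lit 5) (nat_lit 31) (nat_lit 5) (nat_lit 32) (nat_lit 5) (nat_lit 517) (nat_lit 358) (nat_lit 265)) (XT.lf (nat_lit 0) (nat_lit 13288117623) (nat_lit 152) (nat_lit 828736492)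 (nat_lit 228) (nat_lit 8048942030) (nat_lit 29) (nat_lit 5) (nat_lit 31) (nat_lit 5) (nat_lit 32) (nat_lit 5) (nat_lit 518) (nat_lit 358) (nat_lit 264)))) (XT.nd (nat_lit 156) (nat_lit 228) (nat_lit 0) (XT.nd (nat_lit 78) (nat_lit 76) (nat_lit 0) (XT.lf (nat_lit 0) (nat_lit 18369344859) (nat_lit 228) (nat_lit 406292840) (nat_lit 76) (nat_lit 3735715330) (nat_lit 29) (nat_lit 5) (nat_lit 32) (nat_lit 5) (nat_lit 30) (nat_lit 4) (nat_lit 519) (nat_lit 358) (nat_lit 263)) (XT.lf (nat_lit 0) (nat_lit 8297995612) (nat_lit 76) (nat_lit 14445873405) (nat_lit 152) (nat_lit 119216979) (nat_lit 28) (nat_lit 5) (nat_lit 29) (nat_lit 5) (nat_lit 30) (nat_lit 4) (nat_lit 520) (nat_lit 358) (nat_lit 262))) (XT.nd (nat_lit 78) (nat_lit 152) (nat_lit 0) (XT.lf (nat_lit 0) (nat_lit 3912172672) (nat_lit 152) (nat_lit 6105712388) (nat_lit 76) (nat_lit 13203847782) (nat_lit 27) (nat_lit 5) (nat_lit 29) (nat_lit 5) (nat_lit 28) (nat_lit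 5) (nat_lit 521) (nat_lit 358) (nat_lit 261)) (XT.lf (nat_lit 0) (nat_lit 2515937572) (nat_lit 152) (nat_lit 5501080513) (nat_lit 228) (nat_lit 15570634643) (nat_lit 25) (nat_lit 5) (nat_lit 27) (nat_lit 5) (nat_lit 28) (nat_lit 5) (nat_lit 522) (nat_lit 358) (nat_lit 260))))) (XT.nd (nat_lit 234) (nat_lit 228) (nat_lit 0) (XT.nd (nat_lit 78) (nat_lit 76) (nat_lit 0) (XT.lf (nat_lit 0) (nat_lit 11353919408) (nat_lit 152) (nat_lit 869278514) (nat_lit 228) (nat_lit 11737312606) (nat_lit 25) (nat_lit 5) (nat_lit 27) (nat_lit 5) (nat_lit 28) (nat_lit 5) (nat_lit 523) (nat_lit 358) (nat_lit 259)) (XT.nd (nat_lit 78) (nat_lit 76) (nat_lit 0) (XT.lf (nat_lit 0) (nat_lit 16517113712) (nat_lit 228) (nat_lit 4035619763) (nat_lit 76) (nat_lit 3788023942) (nat_lit 25) (nat_lit 5) (nat_lit 28) (nat_lit 5) (nat_lit 26) (nat_lit 4) (nat_lit 524) (nat_lit 358) (nat_lit 258)) (XT.lf (nat_lit 0) (nat_lit 4725316101) (nat_lit 76)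 (nat_lit 16187030476) (nat_lit 152) (nat_lit 3815957990) (nat_lit 24) (nat_lit 5) (nat_lit 25) (nat_lit 5) (nat_lit 26) (nat_lit 4) (nat_lit 525) (nat_lit 358) (nat_lit 257)))) (XT.nd (nat_lit 156) (nat_lit 152) (nat_lit 0) (XT.nd (nat_lit 78) (nat_lit 0) (nat_lit 0) (XT.lf (nat_lit 0) (nat_lit 274605043) (nat_lit 152) (nat_lit 11446537322) (nat_lit 76) (nat_lit 13402303144) (nat_lit 23) (nat_lit 5) (nat_lit 25) (nat_lit 5) (nat_lit 24) (nat_lit 5) (nat_lit 526) (nat_lit 358) (nat_lit 256)) (XT.lf (nat_lit 0) (nat_lit 4375371521) (nat_lit 152) (nat_lit 2781195334) (nat_lit 76) (nat_lit 18369832050) (nat_lit 23) (nat_lit 5) (nat_lit 25) (nat_lit 5) (nat_lit 24) (nat_lit 5) (nat_lit 527) (nat_lit 358) (nat_lit 255))) (XT.nd (nat_lit 78) (nat_lit 0) (nat_lit 0) (XT.lf (nat_lit 0) (nat_lit 6101230129) (nat_lit 152) (nat_lit 2476379666) (nat_lit 228) (nat_lit 17359416233) (nat_lit 21) (nat_lit 5) (nat_lit 23) (nat_lit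 5) (nat_lit 24) (nat_lit 5) (nat_lit 528) (nat_lit 358) (nat_lit 254)) (XT.lf (nat_lit 0) (nat_lit 12877496803) (nat_lit 228) (nat_lit 11207831746) (nat_lit 76) (nat_lit 2270268776) (nat_lit 21) (nat_lit 5) (nat_lit 24) (nat_lit 5) (nat_lit 22) (nat_lit 4) (nat_lit 529) (nat_lit 358) (nat_lit 253))))))) (XT.nd (nat_lit 51870) (nat_lit 0) (nat_lit 12616) (XT.nd (nat_lit 51324) (nat_lit 0) (nat_lit 19456) (XT.nd (nat_lit 51012) (nat_lit 0) (nat_lit 23332) (XT.nd (nat_lit 78) (nat_lit 76) (nat_lit 0) (XT.lf (nat_lit 0) (nat_lit 17260076287) (nat_lit 228) (nat_lit 2459299686) (nat_lit 76) (nat_lit 7063233822) (nat_lit 21) (nat_lit 5) (nat_lit 24) (nat_lit 5) (nat_lit 22) (nat_lit 4) (nat_lit 530) (nat_lit 358) (nat_lit 252)) (XT.nd (nat_lit 50856) (nat_lit 0) (nat_lit 25156) (XT.lf (nat_lit 0) (nat_lit 6514751515) (nat_lit 76) (nat_lit 15238535179) (nat_lit 152) (nat_lit 5464419802) (nat_lit 20) (nat_lit 5) (nat_lit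 21) (nat_lit 5) (nat_lit 22) (nat_lit 4) (nat_lit 531) (nat_lit 358) (nat_lit 251)) (XT.lf (nat_lit 0) (nat_lit 337426822) (nat_lit 912) (nat_lit 1667394579) (nat_lit 912) (nat_lit 1667394579) (nat_lit 351) (nat_lit 4) (nat_lit 363) (nat_lit 5) (nat_lit 363) (nat_lit 4) (nat_lit 422) (nat_lit 359) (nat_lit 359)))) (XT.nd (nat_lit 156) (nat_lit 912) (nat_lit 0) (XT.nd (nat_lit 78) (nat_lit 836) (nat_lit 0) (XT.lf (nat_lit 0) (nat_lit 13421852) (nat_lit 988) (nat_lit 1513942802) (nat_lit 76) (nat_lit 5862122827) (nat_lit 350) (nat_lit 5) (nat_lit 363) (nat_lit 5) (nat_lit 351) (nat_lit 4) (nat_lit 423) (nat_lit 359) (nat_lit 358)) (XT.lf (nat_lit 0) (nat_lit 3346234696) (nat_lit 912) (nat_lit 3735392871) (nat_lit 0) (nat_lit 354182614) (nat_lit 339) (nat_lit 5) (nat_lit 351) (nat_lit 4) (nat_lit 339) (nat_lit 4) (nat_lit 424) (nat_lit 359) (nat_lit 357))) (XT.nd (nat_lit 78) (nat_lit 76) (nat_lit 0) (XT.lf (nat_lit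 0) (nat_lit 1496853589) (nat_lit 836) (nat_lit 5215572787) (nat_lit 836) (nat_lit 771350212) (nat_lit 328) (nat_lit 4) (nat_lit 339) (nat_lit 5) (nat_lit 339) (nat_lit 4) (nat_lit 425) (nat_lit 359) (nat_lit 356)) (XT.lf (nat_lit 0) (nat_lit 2541191844) (nat_lit 912) (nat_lit 734711609) (nat_lit 76) (nat_lit 4257264721) (nat_lit 327) (nat_lit 5) (nat_lit 339) (nat_lit 5) (nat_lit 328) (nat_lit 4) (nat_lit 426) (nat_lit 359) (nat_lit 355))))) (XT.nd (nat_lit 234) (nat_lit 1596) (nat_lit 0) (XT.nd (nat_lit 78) (nat_lit 1520) (nat_lit 0) (XT.lf (nat_lit 0) (nat_lit 4609501006) (nat_lit 760) (nat_lit 1268321313) (nat_lit 836) (nat_lit 1706308705) (nat_lit 317) (nat_lit 5) (nat_lit 327) (nat_lit 5) (nat_lit 328) (nat_lit 4) (nat_lit 427) (nat_lit 359) (nat_lit 354)) (XT.nd (nat_lit 78) (nat_lit 684) (nat_lit 0) (XT.lf (nat_lit 0) (nat_lit 1587719691) (nat_lit 836) (nat_lit 5255661877) (nat_lit 76) (nat_lit 793280316)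 (nat_lit 306) (nat_lit 5) (nat_lit 317) (nat_lit 5) (nat_lit 307) (nat_lit 4) (nat_lit 428) (nat_lit 359) (nat_lit 353)) (XT.lf (nat_lit 0) (nat_lit 106221675) (nat_lit 684) (nat_lit 4787022327) (nat_lit 760) (nat_lit 2797450441) (nat_lit 297) (nat_lit 5) (nat_lit 306) (nat_lit 5) (nat_lit 307) (nat_lit 4) (nat_lit 429) (nat_lit 359) (nat_lit 352)))) (XT.nd (nat_lit 156) (nat_lit 760) (nat_lit 0) (XT.nd (nat_lit 78) (nat_lit 760) (nat_lit 0) (XT.lf (nat_lit 0) (nat_lit 487324631) (nat_lit 760) (nat_lit 2172071049) (nat_lit 76) (nat_lit 5086887476) (nat_lit 296) (nat_lit 5) (nat_lit 306) (nat_lit 5) (nat_lit 297) (nat_lit 5) (nat_lit 430) (nat_lit 359) (nat_lit 351)) (XT.lf (nat_lit 0) (nat_lit 3304817563) (nat_lit 760) (nat_lit 457756350) (nat_lit 836) (nat_lit 4040838439) (nat_lit 286) (nat_lit 5) (nat_lit 296) (nat_lit 5) (nat_lit 297) (nat_lit 5) (nat_lit 431) (nat_lit 359) (nat_lit 350))) (XT.nd (nat_lit 78)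 (nat_lit 76) (nat_lit 0) (XT.lf (nat_lit 0) (nat_lit 991312760) (nat_lit 684) (nat_lit 6086134046) (nat_lit 760) (nat_lit 784797370) (nat_lit 277) (nat_lit 5) (nat_lit 286) (nat_lit 5) (nat_lit 287) (nat_lit 4) (nat_lit 432) (nat_lit 359) (nat_lit 349)) (XT.lf (nat_lit 0) (nat_lit 2478198451) (nat_lit 760) (nat_lit 1358987948) (nat_lit 76) (nat_lit 4085275675) (nat_lit 276) (nat_lit 5) (nat_lit 286) (nat_lit 5) (nat_lit 277) (nat_lit 5) (nat_lit 433) (nat_lit 359) (nat_lit 348)))))) (XT.nd (nat_lit 546) (nat_lit 3420) (nat_lit 0) (XT.nd (nat_lit 234) (nat_lit 2052) (nat_lit 0) (XT.nd (nat_lit 78) (nat_lit 684) (nat_lit 0) (XT.lf (nat_lit 0) (nat_lit 4245403754) (nat_lit 684) (nat_lit 1520938789) (nat_lit 760) (nat_lit 2218070069) (nat_lit 267) (nat_lit 5) (nat_lit 276) (nat_lit 5) (nat_lit 277) (nat_lit 5) (nat_lit 434) (nat_lit 359) (nat_lit 347)) (XT.nd (nat_lit 78) (nat_lit 0) (nat_lit 0) (XT.lf (nat_lit 0)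 (nat_lit 1028645202) (nat_lit 684) (nat_lit 6171863845) (nat_lit 76) (nat_lit 847590929) (nat_lit 258) (nat_lit 5) (nat_lit 267) (nat_lit 5) (nat_lit 259) (nat_lit 5) (nat_lit 435) (nat_lit 359) (nat_lit 346)) (XT.lf (nat_lit 0) (nat_lit 4289638660) (nat_lit 684) (nat_lit 552269379) (nat_lit 76) (nat_lit 3271316605) (nat_lit 258) (nat_lit 5) (nat_lit 267) (nat_lit 5) (nat_lit 259) (nat_lit 5) (nat_lit 436) (nat_lit 359) (nat_lit 345)))) (XT.nd (nat_lit 156) (nat_lit 684) (nat_lit 0) (XT.nd (nat_lit 78) (nat_lit 684) (nat_lit 0) (XT.lf (nat_lit 0) (nat_lit 5179756725) (nat_lit 684) (nat_lit 2414516612) (nat_lit 760) (nat_lit 585846966) (nat_lit 249) (nat_lit 5) (nat_lit 258) (nat_lit 5) (nat_lit 259) (nat_lit 5) (nat_lit 437) (nat_lit 359) (nat_lit 344)) (XT.lf (nat_lit 0) (nat_lit 2648119997) (nat_lit 684) (nat_lit 5513645572) (nat_lit 76) (nat_lit 86928985) (nat_lit 240) (nat_lit 5) (nat_lit 249) (nat_lit 5) (nat_lit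 241) (nat_lit 5) (nat_lit 438) (nat_lit 359) (nat_lit 343))) (XT.nd (nat_lit 78) (nat_lit 76) (nat_lit 0) (XT.lf (nat_lit 0) (nat_lit 221709201) (nat_lit 608) (nat_lit 5700505874) (nat_lit 684) (nat_lit 2396716694) (nat_lit 232) (nat_lit 5) (nat_lit 240) (nat_lit 5) (nat_lit 241) (nat_lit 5) (nat_lit 439) (nat_lit 359) (nat_lit 342)) (XT.lf (nat_lit 0) (nat_lit 842858813) (nat_lit 684) (nat_lit 2318324292) (nat_lit 76) (nat_lit 5229649605) (nat_lit 231) (nat_lit 5) (nat_lit 240) (nat_lit 5) (nat_lit 232) (nat_lit 5) (nat_lit 440) (nat_lit 359) (nat_lit 341))))) (XT.nd (nat_lit 312) (nat_lit 1672) (nat_lit 0) (XT.nd (nat_lit 156) (nat_lit 608) (nat_lit 0) (XT.nd (nat_lit 78) (nat_lit 608) (nat_lit 0) (XT.lf (nat_lit 0) (nat_lit 3538949511) (nat_lit 532) (nat_lit 546075979) (nat_lit 608) (nat_lit 4379464288) (nat_lit 224) (nat_lit 5) (nat_lit 231) (nat_lit 5) (nat_lit 232) (nat_lit 5) (nat_lit 441) (nat_lit 359)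 (nat_lit 340)) (XT.lf (nat_lit 0) (nat_lit 935595039) (nat_lit 608) (nat_lit 6439341288) (nat_lit 684) (nat_lit 1165057790) (nat_lit 216) (nat_lit 5) (nat_lit 224) (nat_lit 5) (nat_lit 225) (nat_lit 5) (nat_lit 442) (nat_lit 359) (nat_lit 339))) (XT.nd (nat_lit 78) (nat_lit 532) (nat_lit 0) (XT.lf (nat_lit 0) (nat_lit 2070412881) (nat_lit 684) (nat_lit 1721748542) (nat_lit 76) (nat_lit 4824913618) (nat_lit 215) (nat_lit 5) (nat_lit 224) (nat_lit 5) (nat_lit 216) (nat_lit 5) (nat_lit 443) (nat_lit 359) (nat_lit 338)) (XT.lf (nat_lit 0) (nat_lit 4259484986) (nat_lit 532) (nat_lit 1071813637) (nat_lit 608) (nat_lit 3364749116) (nat_lit 208) (nat_lit 5) (nat_lit 215) (nat_lit 5) (nat_lit 216) (nat_lit 5) (nat_lit 444) (nat_lit 359) (nat_lit 337)))) (XT.nd (nat_lit 156) (nat_lit 1064) (nat_lit 0) (XT.nd (nat_lit 78) (nat_lit 76) (nat_lit 0) (XT.lf (nat_lit 0) (nat_lit 1548774632) (nat_lit 532) (nat_lit 7090475695) (nat_lit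 608) (nat_lit 137742298) (nat_lit 201) (nat_lit 5) (nat_lit 208) (nat_lit 5) (nat_lit 209) (nat_lit 5) (nat_lit 445) (nat_lit 359) (nat_lit 336)) (XT.lf (nat_lit 0) (nat_lit 3098813559) (nat_lit 608) (nat_lit 1240749850) (nat_lit 76) (nat_lit 4519884579) (nat_lit 200) (nat_lit 5) (nat_lit 208) (nat_lit 5) (nat_lit 201) (nat_lit 5) (nat_lit 446) (nat_lit 359) (nat_lit 335))) (XT.nd (nat_lit 78) (nat_lit 608) (nat_lit 0) (XT.lf (nat_lit 0) (nat_lit 4862688770) (nat_lit 456) (nat_lit 1517439628) (nat_lit 532) (nat_lit 2563796391) (nat_lit 194) (nat_lit 5) (nat_lit 200) (nat_lit 5) (nat_lit 201) (nat_lit 5) (nat_lit 447) (nat_lit 359) (nat_lit 334)) (XT.lf (nat_lit 0) (nat_lit 668788418) (nat_lit 608) (nat_lit 7009234916) (nat_lit 76) (nat_lit 1352385165) (nat_lit 186) (nat_lit 5) (nat_lit 194) (nat_lit 5) (nat_lit 187) (nat_lit 5) (nat_lit 448) (nat_lit 359) (nat_lit 333))))))))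
noncomputable def xc54 : XT := (XT.nd (nat_lit 2184) (nat_lit 3952) (nat_lit 0) (XT.nd (nat_lit 1092) (nat_lit 2812) (nat_lit 0) (XT.nd (nat_lit 546) (nat_lit 2128) (nat_lit 0) (XT.nd (nat_lit 234) (nat_lit 988) (nat_lit 0) (XT.nd (nat_lit 78) (nat_lit 988) (nat_lit 0) (XT.lf (nat_lit 0) (nat_lit 3920262317) (nat_lit 608) (nat_lit 911670331) (nat_lit 76) (nat_lit 4286605339) (nat_lit 186) (nat_lit 5) (nat_lit 194) (nat_lit 5) (nat_lit 187) (nat_lit 5) (nat_lit 449) (nat_lit 359) (nat_lit 332)) (XT.nd (nat_lit 78) (nat_lit 532) (nat_lit 0) (XT.lf (nat_lit 0) (nat_lit 5311486673) (nat_lit 456) (nat_lit 1911643789) (nat_lit 532) (nat_lit 1985598161) (nat_lit 180) (nat_lit 5) (nat_lit 186) (nat_lit 5) (nat_lit 187) (nat_lit 5) (nat_lit 450) (nat_lit 359) (nat_lit 331)) (XT.lf (nat_lit 0) (nat_lit 1254723699) (nat_lit 532) (nat_lit 6981412442) (nat_lit 76) (nat_lit 1064837560) (nat_lit 173) (nat_lit 5) (nat_lit 180)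 (nat_lit 5) (nat_lit 174) (nat_lit 5) (nat_lit 451) (nat_lit 359) (nat_lit 330)))) (XT.nd (nat_lit 156) (nat_lit 532) (nat_lit 0) (XT.nd (nat_lit 78) (nat_lit 456) (nat_lit 0) (XT.lf (nat_lit 0) (nat_lit 4524725283) (nat_lit 532) (nat_lit 773660122) (nat_lit 76) (nat_lit 4096610932) (nat_lit 173) (nat_lit 5) (nat_lit 180) (nat_lit 5) (nat_lit 174) (nat_lit 5) (nat_lit 452) (nat_lit 359) (nat_lit 329)) (XT.lf (nat_lit 0) (nat_lit 5565886593) (nat_lit 456) (nat_lit 2283760047) (nat_lit 532) (nat_lit 1641486276) (nat_lit 167) (nat_lit 5) (nat_lit 173) (nat_lit 5) (nat_lit 174) (nat_lit 5) (nat_lit 453) (nat_lit 359) (nat_lit 328))) (XT.nd (nat_lit 78) (nat_lit 0) (nat_lit 0) (XT.lf (nat_lit 0) (nat_lit 1609843800) (nat_lit 532) (nat_lit 7185846266) (nat_lit 76) (nat_lit 793717933) (nat_lit 160) (nat_lit 5) (nat_lit 167) (nat_lit 5) (nat_lit 161) (nat_lit 5) (nat_lit 454) (nat_lit 359) (nat_lit 327)) (XT.lf (nat_lit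 0) (nat_lit 4899790395) (nat_lit 532) (nat_lit 869092072) (nat_lit 76) (nat_lit 3920660230) (nat_lit 160) (nat_lit 5) (nat_lit 167) (nat_lit 5) (nat_lit 161) (nat_lit 5) (nat_lit 455) (nat_lit 359) (nat_lit 326))))) (XT.nd (nat_lit 234) (nat_lit 1216) (nat_lit 0) (XT.nd (nat_lit 78) (nat_lit 532) (nat_lit 0) (XT.lf (nat_lit 0) (nat_lit 5582552059) (nat_lit 380) (nat_lit 2664042950) (nat_lit 456) (nat_lit 1545285964) (nat_lit 155) (nat_lit 5) (nat_lit 160) (nat_lit 5) (nat_lit 161) (nat_lit 5) (nat_lit 456) (nat_lit 359) (nat_lit 325)) (XT.nd (nat_lit 78) (nat_lit 0) (nat_lit 0) (XT.lf (nat_lit 0) (nat_lit 1719606545) (nat_lit 532) (nat_lit 7668115804) (nat_lit 76) (nat_lit 508762345) (nat_lit 148) (nat_lit 5) (nat_lit 155) (nat_lit 5) (nat_lit 149) (nat_lit 5) (nat_lit 457) (nat_lit 359) (nat_lit 324)) (XT.lf (nat_lit 0) (nat_lit 5030502116) (nat_lit 532) (nat_lit 1244011960) (nat_lit 76) (nat_lit 3728454988) (nat_lit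 148) (nat_lit 5) (nat_lit 155) (nat_lit 5) (nat_lit 149) (nat_lit 5) (nat_lit 458) (nat_lit 359) (nat_lit 323)))) (XT.nd (nat_lit 156) (nat_lit 380) (nat_lit 0) (XT.nd (nat_lit 78) (nat_lit 456) (nat_lit 0) (XT.lf (nat_lit 0) (nat_lit 5314338938) (nat_lit 380) (nat_lit 3083958032) (nat_lit 456) (nat_lit 1713492910) (nat_lit 143) (nat_lit 5) (nat_lit 148) (nat_lit 5) (nat_lit 149) (nat_lit 5) (nat_lit 459) (nat_lit 359) (nat_lit 322)) (XT.lf (nat_lit 0) (nat_lit 1566769249) (nat_lit 456) (nat_lit 8477872261) (nat_lit 76) (nat_lit 178411391) (nat_lit 137) (nat_lit 5) (nat_lit 143) (nat_lit 5) (nat_lit 138) (nat_lit 5) (nat_lit 460) (nat_lit 359) (nat_lit 321))) (XT.nd (nat_lit 78) (nat_lit 380) (nat_lit 0) (XT.lf (nat_lit 0) (nat_lit 4899171915) (nat_lit 456) (nat_lit 1948628609) (nat_lit 76) (nat_lit 3488343766) (nat_lit 137) (nat_lit 5) (nat_lit 143) (nat_lit 5) (nat_lit 138) (nat_lit 5) (nat_lit 461) (nat_lit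 359) (nat_lit 320)) (XT.lf (nat_lit 0) (nat_lit 4709790783) (nat_lit 380) (nat_lit 3576488680) (nat_lit 456) (nat_lit 2165475740) (nat_lit 132) (nat_lit 5) (nat_lit 137) (nat_lit 5) (nat_lit 138) (nat_lit 5) (nat_lit 462) (nat_lit 359) (nat_lit 319)))))) (XT.nd (nat_lit 546) (nat_lit 1292) (nat_lit 0) (XT.nd (nat_lit 234) (nat_lit 760) (nat_lit 0) (XT.nd (nat_lit 78) (nat_lit 304) (nat_lit 0) (XT.lf (nat_lit 0) (nat_lit 899131044) (nat_lit 380) (nat_lit 233563683) (nat_lit 456) (nat_lit 9437317439) (nat_lit 126) (nat_lit 5) (nat_lit 131) (nat_lit 5) (nat_lit 132) (nat_lit 5) (nat_lit 463) (nat_lit 359) (nat_lit 318)) (XT.nd (nat_lit 78) (nat_lit 304) (nat_lit 0) (XT.lf (nat_lit 0) (nat_lit 4485162501) (nat_lit 456) (nat_lit 3037848636) (nat_lit 76) (nat_lit 3167008010) (nat_lit 126) (nat_lit 5) (nat_lit 132) (nat_lit 5) (nat_lit 127) (nat_lit 5) (nat_lit 464) (nat_lit 359) (nat_lit 317)) (XT.lf (nat_lit 0) (nat_lit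 3712587943) (nat_lit 304) (nat_lit 4176462269) (nat_lit 380) (nat_lit 2923706041) (nat_lit 122) (nat_lit 5) (nat_lit 126) (nat_lit 5) (nat_lit 127) (nat_lit 5) (nat_lit 465) (nat_lit 359) (nat_lit 316)))) (XT.nd (nat_lit 156) (nat_lit 304) (nat_lit 0) (XT.nd (nat_lit 78) (nat_lit 380) (nat_lit 0) (XT.lf (nat_lit 0) (nat_lit 396878177) (nat_lit 380) (nat_lit 363764376) (nat_lit 76) (nat_lit 10177680151) (nat_lit 121) (nat_lit 5) (nat_lit 126) (nat_lit 5) (nat_lit 122) (nat_lit 5) (nat_lit 466) (nat_lit 359) (nat_lit 315)) (XT.lf (nat_lit 0) (nat_lit 3764643539) (nat_lit 456) (nat_lit 4571861067) (nat_lit 76) (nat_lit 2729127402) (nat_lit 116) (nat_lit 5) (nat_lit 122) (nat_lit 5) (nat_lit 117) (nat_lit 5) (nat_lit 467) (nat_lit 359) (nat_lit 314))) (XT.nd (nat_lit 78) (nat_lit 0) (nat_lit 0) (XT.lf (nat_lit 0) (nat_lit 2260945041) (nat_lit 304) (nat_lit 4920898611) (nat_lit 380) (nat_lit 4014018330) (nat_lit 112)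 (nat_lit 5) (nat_lit 116) (nat_lit 5) (nat_lit 117) (nat_lit 5) (nat_lit 468) (nat_lit 359) (nat_lit 313)) (XT.lf (nat_lit 0) (nat_lit 9231182003) (nat_lit 304) (nat_lit 1427179498) (nat_lit 380) (nat_lit 670531341) (nat_lit 112) (nat_lit 5) (nat_lit 116) (nat_lit 5) (nat_lit 117) (nat_lit 5) (nat_lit 469) (nat_lit 359) (nat_lit 312))))) (XT.nd (nat_lit 234) (nat_lit 608) (nat_lit 0) (XT.nd (nat_lit 78) (nat_lit 304) (nat_lit 0) (XT.lf (nat_lit 0) (nat_lit 2710316316) (nat_lit 380) (nat_lit 6616777523) (nat_lit 76) (nat_lit 2137021364) (nat_lit 107) (nat_lit 5) (nat_lit 112) (nat_lit 5) (nat_lit 108) (nat_lit 5) (nat_lit 470) (nat_lit 359) (nat_lit 311)) (XT.nd (nat_lit 78) (nat_lit 0) (nat_lit 0) (XT.lf (nat_lit 0) (nat_lit 286950934) (nat_lit 304) (nat_lit 5849383982) (nat_lit 380) (nat_lit 5465902654) (nat_lit 103) (nat_lit 5) (nat_lit 107) (nat_lit 5) (nat_lit 108) (nat_lit 5) (nat_lit 471) (nat_lit 359) (nat_lit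 310)) (XT.lf (nat_lit 0) (nat_lit 7358057202) (nat_lit 304) (nat_lit 2278630043) (nat_lit 380) (nat_lit 2106333431) (nat_lit 103) (nat_lit 5) (nat_lit 107) (nat_lit 5) (nat_lit 108) (nat_lit 5) (nat_lit 472) (nat_lit 359) (nat_lit 309)))) (XT.nd (nat_lit 156) (nat_lit 228) (nat_lit 0) (XT.nd (nat_lit 78) (nat_lit 0) (nat_lit 0) (XT.lf (nat_lit 0) (nat_lit 1291104498) (nat_lit 380) (nat_lit 9245334241) (nat_lit 76) (nat_lit 1350263335) (nat_lit 98) (nat_lit 5) (nat_lit 103) (nat_lit 5) (nat_lit 99) (nat_lit 5) (nat_lit 473) (nat_lit 359) (nat_lit 308)) (XT.lf (nat_lit 0) (nat_lit 4735149149) (nat_lit 380) (nat_lit 2254198221) (nat_lit 76) (nat_lit 5043507758) (nat_lit 98) (nat_lit 5) (nat_lit 103) (nat_lit 5) (nat_lit 99) (nat_lit 5) (nat_lit 474) (nat_lit 359) (nat_lit 307))) (XT.nd (nat_lit 78) (nat_lit 0) (nat_lit 0) (XT.lf (nat_lit 0) (nat_lit 4882004208) (nat_lit 228) (nat_lit 3360635198) (nat_lit 304) (nat_lit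 3939413992) (nat_lit 95) (nat_lit 5) (nat_lit 98) (nat_lit 5) (nat_lit 99) (nat_lit 5) (nat_lit 475) (nat_lit 359) (nat_lit 306)) (XT.lf (nat_lit 0) (nat_lit 11800794338) (nat_lit 304) (nat_lit 203764525) (nat_lit 76) (nat_lit 330079660) (nat_lit 95) (nat_lit 5) (nat_lit 99) (nat_lit 5) (nat_lit 96) (nat_lit 5) (nat_lit 476) (nat_lit 359) (nat_lit 305))))))) (XT.nd (nat_lit 1092) (nat_lit 1672) (nat_lit 0) (XT.nd (nat_lit 546) (nat_lit 1064) (nat_lit 0) (XT.nd (nat_lit 234) (nat_lit 608) (nat_lit 0) (XT.nd (nat_lit 78) (nat_lit 228) (nat_lit 0) (XT.lf (nat_lit 0) (nat_lit 2933286618) (nat_lit 380) (nat_lit 5462190021) (nat_lit 76) (nat_lit 4093789515) (nat_lit 90) (nat_lit 5) (nat_lit 95) (nat_lit 5) (nat_lit 91) (nat_lit 5) (nat_lit 477) (nat_lit 359) (nat_lit 304)) (XT.nd (nat_lit 78) (nat_lit 0) (nat_lit 0) (XT.lf (nat_lit 0) (nat_lit 1719381012) (nat_lit 228) (nat_lit 4719664081) (nat_lit 304) (nat_lit 6208354433)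 (nat_lit 87) (nat_lit 5) (nat_lit 90) (nat_lit 5) (nat_lit 91) (nat_lit 5) (nat_lit 478) (nat_lit 359) (nat_lit 303)) (XT.lf (nat_lit 0) (nat_lit 9061044986) (nat_lit 228) (nat_lit 954748938) (nat_lit 304) (nat_lit 2792896317) (nat_lit 87) (nat_lit 5) (nat_lit 90) (nat_lit 5) (nat_lit 91) (nat_lit 5) (nat_lit 479) (nat_lit 359) (nat_lit 302)))) (XT.nd (nat_lit 156) (nat_lit 228) (nat_lit 0) (XT.nd (nat_lit 78) (nat_lit 0) (nat_lit 0) (XT.lf (nat_lit 0) (nat_lit 688389888) (nat_lit 380) (nat_lit 9430520317) (nat_lit 76) (nat_lit 2854086968) (nat_lit 82) (nat_lit 5) (nat_lit 87) (nat_lit 5) (nat_lit 83) (nat_lit 5) (nat_lit 480) (nat_lit 359) (nat_lit 301)) (XT.lf (nat_lit 0) (nat_lit 4198441814) (nat_lit 380) (nat_lit 2192999788) (nat_lit 76) (nat_lit 6748860161) (nat_lit 82) (nat_lit 5) (nat_lit 87) (nat_lit 5) (nat_lit 83) (nat_lit 5) (nat_lit 481) (nat_lit 359) (nat_lit 300))) (XT.nd (nat_lit 78) (nat_lit 0)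 (nat_lit 0) (XT.lf (nat_lit 0) (nat_lit 5201480821) (nat_lit 228) (nat_lit 2576538223) (nat_lit 304) (nat_lit 5532958171) (nat_lit 79) (nat_lit 5) (nat_lit 82) (nat_lit 5) (nat_lit 83) (nat_lit 5) (nat_lit 482) (nat_lit 359) (nat_lit 299)) (XT.lf (nat_lit 0) (nat_lit 11418264472) (nat_lit 304) (nat_lit 776021505) (nat_lit 76) (nat_lit 1291009699) (nat_lit 79) (nat_lit 5) (nat_lit 83) (nat_lit 5) (nat_lit 80) (nat_lit 5) (nat_lit 483) (nat_lit 359) (nat_lit 298))))) (XT.nd (nat_lit 234) (nat_lit 532) (nat_lit 0) (XT.nd (nat_lit 78) (nat_lit 228) (nat_lit 0) (XT.lf (nat_lit 0) (nat_lit 1476221050) (nat_lit 304) (nat_lit 6952178770) (nat_lit 76) (nat_lit 5233975386) (nat_lit 75) (nat_lit 5) (nat_lit 79) (nat_lit 5) (nat_lit 76) (nat_lit 5) (nat_lit 484) (nat_lit 359) (nat_lit 297)) (XT.nd (nat_lit 78) (nat_lit 0) (nat_lit 0) (XT.lf (nat_lit 0) (nat_lit 450768276) (nat_lit 228) (nat_lit 4586558959) (nat_lit 304) (nat_lit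 8805912898) (nat_lit 72) (nat_lit 5) (nat_lit 75) (nat_lit 5) (nat_lit 76) (nat_lit 5) (nat_lit 485) (nat_lit 359) (nat_lit 296)) (XT.lf (nat_lit 0) (nat_lit 8041190010) (nat_lit 228) (nat_lit 641891656) (nat_lit 304) (nat_lit 5344382364) (nat_lit 72) (nat_lit 5) (nat_lit 75) (nat_lit 5) (nat_lit 76) (nat_lit 5) (nat_lit 486) (nat_lit 359) (nat_lit 295)))) (XT.nd (nat_lit 156) (nat_lit 228) (nat_lit 0) (XT.nd (nat_lit 78) (nat_lit 76) (nat_lit 0) (XT.lf (nat_lit 0) (nat_lit 1511645297) (nat_lit 228) (nat_lit 10889163907) (nat_lit 304) (nat_lit 1814592032) (nat_lit 69) (nat_lit 5) (nat_lit 72) (nat_lit 5) (nat_lit 73) (nat_lit 5) (nat_lit 487) (nat_lit 359) (nat_lit 294)) (XT.lf (nat_lit 0) (nat_lit 1774415486) (nat_lit 304) (nat_lit 5236095111) (nat_lit 76) (nat_lit 7396123458) (nat_lit 68) (nat_lit 5) (nat_lit 72) (nat_lit 5) (nat_lit 69) (nat_lit 5) (nat_lit 488) (nat_lit 359) (nat_lit 293))) (XT.nd (nat_lit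 78) (nat_lit 0) (nat_lit 0) (XT.lf (nat_lit 0) (nat_lit 2346382513) (nat_lit 228) (nat_lit 3047774721) (nat_lit 304) (nat_lit 9207638793) (nat_lit 65) (nat_lit 5) (nat_lit 68) (nat_lit 5) (nat_lit 69) (nat_lit 5) (nat_lit 489) (nat_lit 359) (nat_lit 292)) (XT.lf (nat_lit 0) (nat_lit 9096259109) (nat_lit 304) (nat_lit 4708807733) (nat_lit 76) (nat_lit 995604325) (nat_lit 65) (nat_lit 5) (nat_lit 69) (nat_lit 5) (nat_lit 66) (nat_lit 5) (nat_lit 490) (nat_lit 359) (nat_lit 291)))))) (XT.nd (nat_lit 546) (nat_lit 760) (nat_lit 0) (XT.nd (nat_lit 234) (nat_lit 456) (nat_lit 0) (XT.nd (nat_lit 78) (nat_lit 228) (nat_lit 0) (XT.lf (nat_lit 0) (nat_lit 2954900505) (nat_lit 228) (nat_lit 9925636854) (nat_lit 304) (nat_lit 2122832814) (nat_lit 62) (nat_lit 5) (nat_lit 65) (nat_lit 5) (nat_lit 66) (nat_lit 5) (nat_lit 491) (nat_lit 359) (nat_lit 290)) (XT.nd (nat_lit 78) (nat_lit 152) (nat_lit 0) (XT.lf (nat_lit 0) (nat_lit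 1510940578) (nat_lit 304) (nat_lit 4436402664) (nat_lit 76) (nat_lit 9262577218) (nat_lit 61) (nat_lit 5) (nat_lit 65) (nat_lit 5) (nat_lit 62) (nat_lit 5) (nat_lit 492) (nat_lit 359) (nat_lit 289)) (XT.lf (nat_lit 0) (nat_lit 3305753697) (nat_lit 152) (nat_lit 1874137888) (nat_lit 228) (nat_lit 10240619521) (nat_lit 59) (nat_lit 5) (nat_lit 61) (nat_lit 5) (nat_lit 62) (nat_lit 5) (nat_lit 493) (nat_lit 359) (nat_lit 288)))) (XT.nd (nat_lit 156) (nat_lit 228) (nat_lit 0) (XT.nd (nat_lit 78) (nat_lit 228) (nat_lit 0) (XT.lf (nat_lit 0) (nat_lit 8936565534) (nat_lit 228) (nat_lit 4438421927) (nat_lit 76) (nat_lit 2260047587) (nat_lit 59) (nat_lit 5) (nat_lit 62) (nat_lit 5) (nat_lit 60) (nat_lit 5) (nat_lit 494) (nat_lit 359) (nat_lit 287)) (XT.lf (nat_lit 0) (nat_lit 3372683990) (nat_lit 228) (nat_lit 9400164303) (nat_lit 304) (nat_lit 3080919867) (nat_lit 56) (nat_lit 5) (nat_lit 59) (nat_lit 5) (nat_lit 60) (nat_lit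 5) (nat_lit 495) (nat_lit 359) (nat_lit 286))) (XT.nd (nat_lit 78) (nat_lit 152) (nat_lit 0) (XT.lf (nat_lit 0) (nat_lit 601196353) (nat_lit 304) (nat_lit 4730904401) (nat_lit 76) (nat_lit 10744699933) (nat_lit 55) (nat_lit 5) (nat_lit 59) (nat_lit 5) (nat_lit 56) (nat_lit 5) (nat_lit 496) (nat_lit 359) (nat_lit 285)) (XT.lf (nat_lit 0) (nat_lit 3145473086) (nat_lit 152) (nat_lit 1161494335) (nat_lit 228) (nat_lit 11997101550) (nat_lit 53) (nat_lit 5) (nat_lit 55) (nat_lit 5) (nat_lit 56) (nat_lit 5) (nat_lit 497) (nat_lit 359) (nat_lit 284))))) (XT.nd (nat_lit 312) (nat_lit 304) (nat_lit 0) (XT.nd (nat_lit 156) (nat_lit 228) (nat_lit 0) (XT.nd (nat_lit 78) (nat_lit 228) (nat_lit 0) (XT.lf (nat_lit 0) (nat_lit 8109814525) (nat_lit 228) (nat_lit 5361813135) (nat_lit 76) (nat_lit 3063803323) (nat_lit 53) (nat_lit 5) (nat_lit 56) (nat_lit 5) (nat_lit 54) (nat_lit 5) (nat_lit 498) (nat_lit 359) (nat_lit 283)) (XT.lf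 (nat_lit 0) (nat_lit 2568087054) (nat_lit 228) (nat_lit 9416492149) (nat_lit 304) (nat_lit 4786931243) (nat_lit 50) (nat_lit 5) (nat_lit 53) (nat_lit 5) (nat_lit 54) (nat_lit 5) (nat_lit 499) (nat_lit 359) (nat_lit 282))) (XT.nd (nat_lit 78) (nat_lit 228) (nat_lit 0) (XT.lf (nat_lit 0) (nat_lit 10680780012) (nat_lit 228) (nat_lit 5263778766) (nat_lit 304) (nat_lit 1067605609) (nat_lit 50) (nat_lit 5) (nat_lit 53) (nat_lit 5) (nat_lit 54) (nat_lit 5) (nat_lit 500) (nat_lit 359) (nat_lit 281)) (XT.lf (nat_lit 0) (nat_lit 1654177509) (nat_lit 152) (nat_lit 1019018287) (nat_lit 228) (nat_lit 14584431762) (nat_lit 47) (nat_lit 5) (nat_lit 49) (nat_lit 5) (nat_lit 50) (nat_lit 5) (nat_lit 501) (nat_lit 359) (nat_lit 280)))) (XT.nd (nat_lit 156) (nat_lit 76) (nat_lit 0) (XT.nd (nat_lit 78) (nat_lit 228) (nat_lit 0) (XT.lf (nat_lit 0) (nat_lit 6511005635) (nat_lit 228) (nat_lit 7698750933) (nat_lit 76) (nat_lit 3297379392)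 (nat_lit 47) (nat_lit 5) (nat_lit 50) (nat_lit 5) (nat_lit 48) (nat_lit 5) (nat_lit 502) (nat_lit 359) (nat_lit 279)) (XT.lf (nat_lit 0) (nat_lit 314329488) (nat_lit 228) (nat_lit 10092787500) (nat_lit 304) (nat_lit 7354893362) (nat_lit 44) (nat_lit 5) (nat_lit 47) (nat_lit 5) (nat_lit 48) (nat_lit 5) (nat_lit 503) (nat_lit 359) (nat_lit 278))) (XT.nd (nat_lit 78) (nat_lit 76) (nat_lit 0) (XT.lf (nat_lit 0) (nat_lit 8545253195) (nat_lit 228) (nat_lit 5860546549) (nat_lit 304) (nat_lit 3615696094) (nat_lit 44) (nat_lit 5) (nat_lit 47) (nat_lit 5) (nat_lit 48) (nat_lit 5) (nat_lit 504) (nat_lit 359) (nat_lit 277)) (XT.lf (nat_lit 0) (nat_lit 169018986) (nat_lit 304) (nat_lit 1392883491) (nat_lit 76) (nat_lit 16724782460) (nat_lit 43) (nat_lit 5) (nat_lit 47) (nat_lit 5) (nat_lit 44) (nat_lit 5) (nat_lit 505) (nat_lit 359) (nat_lit 276))))))))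
noncomputable def xc55 : XT := (XT.nd (nat_lit 52806) (nat_lit 0) (nat_lit 12160) (XT.nd (nat_lit 1092) (nat_lit 684) (nat_lit 0) (XT.nd (nat_lit 546) (nat_lit 532) (nat_lit 0) (XT.nd (nat_lit 234) (nat_lit 228) (nat_lit 0) (XT.nd (nat_lit 78) (nat_lit 152) (nat_lit 0) (XT.lf (nat_lit 0) (nat_lit 4018197517) (nat_lit 228) (nat_lit 11701967421) (nat_lit 76) (nat_lit 2835797430) (nat_lit 41) (nat_lit 5) (nat_lit 44) (nat_lit 5) (nat_lit 42) (nat_lit 5) (nat_lit 506) (nat_lit 359) (nat_lit 275)) (XT.nd (nat_lit 78) (nat_lit 152) (nat_lit 0) (XT.lf (nat_lit 0) (nat_lit 7938065853) (nat_lit 228) (nat_lit 3601568778) (nat_lit 76) (nat_lit 7291122684) (nat_lit 41) (nat_lit 5) (nat_lit 44) (nat_lit 5) (nat_lit 42) (nat_lit 5) (nat_lit 507) (nat_lit 359) (nat_lit 274)) (XT.lf (nat_lit 0) (nat_lit 4677660111) (nat_lit 152) (nat_lit 7263506257) (nat_lit 228) (nat_lit 7169791069) (nat_lit 39) (nat_lit 5) (nat_lit 41) (nat_lit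 5) (nat_lit 42) (nat_lit 5) (nat_lit 508) (nat_lit 359) (nat_lit 273)))) (XT.nd (nat_lit 156) (nat_lit 0) (nat_lit 0) (XT.nd (nat_lit 78) (nat_lit 228) (nat_lit 0) (XT.lf (nat_lit 0) (nat_lit 13127060646) (nat_lit 152) (nat_lit 2896114518) (nat_lit 228) (nat_lit 3373615326) (nat_lit 39) (nat_lit 5) (nat_lit 41) (nat_lit 5) (nat_lit 42) (nat_lit 5) (nat_lit 509) (nat_lit 359) (nat_lit 272)) (XT.lf (nat_lit 0) (nat_lit 490282486) (nat_lit 228) (nat_lit 17661740753) (nat_lit 76) (nat_lit 1536291139) (nat_lit 36) (nat_lit 5) (nat_lit 39) (nat_lit 5) (nat_lit 37) (nat_lit 5) (nat_lit 510) (nat_lit 359) (nat_lit 271))) (XT.nd (nat_lit 78) (nat_lit 0) (nat_lit 0) (XT.lf (nat_lit 0) (nat_lit 4422950722) (nat_lit 228) (nat_lit 9496632724) (nat_lit 76) (nat_lit 6064911519) (nat_lit 36) (nat_lit 5) (nat_lit 39) (nat_lit 5) (nat_lit 37) (nat_lit 5) (nat_lit 511) (nat_lit 359) (nat_lit 270)) (XT.lf (nat_lit 0) (nat_lit 8409852288)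 (nat_lit 228) (nat_lit 1211160209) (nat_lit 76) (nat_lit 10666080475) (nat_lit 36) (nat_lit 5) (nat_lit 39) (nat_lit 5) (nat_lit 37) (nat_lit 5) (nat_lit 512) (nat_lit 359) (nat_lit 269))))) (XT.nd (nat_lit 234) (nat_lit 228) (nat_lit 0) (XT.nd (nat_lit 78) (nat_lit 152) (nat_lit 0) (XT.lf (nat_lit 0) (nat_lit 7293582642) (nat_lit 152) (nat_lit 5206322809) (nat_lit 228) (nat_lit 8095374521) (nat_lit 34) (nat_lit 5) (nat_lit 36) (nat_lit 5) (nat_lit 37) (nat_lit 5) (nat_lit 513) (nat_lit 359) (nat_lit 268)) (XT.nd (nat_lit 78) (nat_lit 152) (nat_lit 0) (XT.lf (nat_lit 0) (nat_lit 15943019132) (nat_lit 152) (nat_lit 713124777) (nat_lit 228) (nat_lit 4253804316) (nat_lit 34) (nat_lit 5) (nat_lit 36) (nat_lit 5) (nat_lit 37) (nat_lit 5) (nat_lit 514) (nat_lit 359) (nat_lit 267)) (XT.lf (nat_lit 0) (nat_lit 3514142486) (nat_lit 152) (nat_lit 17405914201) (nat_lit 228) (nat_lit 310367262) (nat_lit 32) (nat_lit 5) (nat_lit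 34) (nat_lit 5) (nat_lit 35) (nat_lit 4) (nat_lit 515) (nat_lit 359) (nat_lit 266)))) (XT.nd (nat_lit 156) (nat_lit 152) (nat_lit 0) (XT.nd (nat_lit 78) (nat_lit 0) (nat_lit 0) (XT.lf (nat_lit 0) (nat_lit 3678170490) (nat_lit 228) (nat_lit 9394920523) (nat_lit 76) (nat_lit 8483442774) (nat_lit 31) (nat_lit 5) (nat_lit 34) (nat_lit 5) (nat_lit 32) (nat_lit 5) (nat_lit 516) (nat_lit 359) (nat_lit 265)) (XT.lf (nat_lit 0) (nat_lit 7719425668) (nat_lit 228) (nat_lit 949773753) (nat_lit 76) (nat_lit 13220388121) (nat_lit 31) (nat_lit 5) (nat_lit 34) (nat_lit 5) (nat_lit 32) (nat_lit 5) (nat_lit 517) (nat_lit 359) (nat_lit 264))) (XT.nd (nat_lit 78) (nat_lit 0) (nat_lit 0) (XT.lf (nat_lit 0) (nat_lit 7725811180) (nat_lit 152) (nat_lit 4143403511) (nat_lit 228) (nat_lit 10359538216) (nat_lit 29) (nat_lit 5) (nat_lit 31) (nat_lit 5) (nat_lit 32) (nat_lit 5) (nat_lit 518) (nat_lit 359) (nat_lit 263)) (XT.lf (nat_lit 0)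 (nat_lit 16089104809) (nat_lit 228) (nat_lit 6029770834) (nat_lit 76) (nat_lit 456088447) (nat_lit 29) (nat_lit 5) (nat_lit 32) (nat_lit 5) (nat_lit 30) (nat_lit 4) (nat_lit 519) (nat_lit 359) (nat_lit 262)))))) (XT.nd (nat_lit 546) (nat_lit 304) (nat_lit 0) (XT.nd (nat_lit 234) (nat_lit 228) (nat_lit 0) (XT.nd (nat_lit 78) (nat_lit 76) (nat_lit 0) (XT.lf (nat_lit 0) (nat_lit 2580178591) (nat_lit 76) (nat_lit 17835464153) (nat_lit 152) (nat_lit 2512016278) (nat_lit 28) (nat_lit 5) (nat_lit 29) (nat_lit 5) (nat_lit 30) (nat_lit 4) (nat_lit 520) (nat_lit 359) (nat_lit 261)) (XT.nd (nat_lit 78) (nat_lit 0) (nat_lit 0) (XT.lf (nat_lit 0) (nat_lit 1539907671) (nat_lit 152) (nat_lit 11891934643) (nat_lit 76) (nat_lit 9854993374) (nat_lit 27) (nat_lit 5) (nat_lit 29) (nat_lit 5) (nat_lit 28) (nat_lit 5) (nat_lit 521) (nat_lit 359) (nat_lit 260)) (XT.lf (nat_lit 0) (nat_lit 5617782956) (nat_lit 152) (nat_lit 3322269741)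 (nat_lit 76) (nat_lit 14713244392) (nat_lit 27) (nat_lit 5) (nat_lit 29) (nat_lit 5) (nat_lit 28) (nat_lit 5) (nat_lit 522) (nat_lit 359) (nat_lit 259)))) (XT.nd (nat_lit 156) (nat_lit 76) (nat_lit 0) (XT.nd (nat_lit 78) (nat_lit 0) (nat_lit 0) (XT.lf (nat_lit 0) (nat_lit 5452697713) (nat_lit 152) (nat_lit 4338859103) (nat_lit 228) (nat_lit 14235248260) (nat_lit 25) (nat_lit 5) (nat_lit 27) (nat_lit 5) (nat_lit 28) (nat_lit 5) (nat_lit 523) (nat_lit 359) (nat_lit 258)) (XT.lf (nat_lit 0) (nat_lit 14052550770) (nat_lit 228) (nat_lit 9999258435) (nat_lit 76) (nat_lit 355903227) (nat_lit 25) (nat_lit 5) (nat_lit 28) (nat_lit 5) (nat_lit 26) (nat_lit 4) (nat_lit 524) (nat_lit 359) (nat_lit 257))) (XT.nd (nat_lit 78) (nat_lit 76) (nat_lit 0) (XT.lf (nat_lit 0) (nat_lit 18406912555) (nat_lit 228) (nat_lit 1318579515) (nat_lit 76) (nat_lit 5070586923) (nat_lit 25) (nat_lit 5) (nat_lit 28) (nat_lit 5) (nat_lit 26) (nat_lit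 4) (nat_lit 525) (nat_lit 359) (nat_lit 256)) (XT.lf (nat_lit 0) (nat_lit 7599168799) (nat_lit 76) (nat_lit 15278349060) (nat_lit 152) (nat_lit 2314115843) (nat_lit 24) (nat_lit 5) (nat_lit 25) (nat_lit 5) (nat_lit 26) (nat_lit 4) (nat_lit 526) (nat_lit 359) (nat_lit 255))))) (XT.nd (nat_lit 234) (nat_lit 76) (nat_lit 0) (XT.nd (nat_lit 78) (nat_lit 152) (nat_lit 0) (XT.lf (nat_lit 0) (nat_lit 1807022083) (nat_lit 152) (nat_lit 8930039771) (nat_lit 76) (nat_lit 14858027187) (nat_lit 23) (nat_lit 5) (nat_lit 25) (nat_lit 5) (nat_lit 24) (nat_lit 5) (nat_lit 527) (nat_lit 359) (nat_lit 254)) (XT.nd (nat_lit 78) (nat_lit 152) (nat_lit 0) (XT.lf (nat_lit 0) (nat_lit 5959864186) (nat_lit 152) (nat_lit 145222871) (nat_lit 76) (nat_lit 19901618867) (nat_lit 23) (nat_lit 5) (nat_lit 25) (nat_lit 5) (nat_lit 24) (nat_lit 5) (nat_lit 528) (nat_lit 359) (nat_lit 253)) (XT.lf (nat_lit 0) (nat_lit 8897143231) (nat_lit 152)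 (nat_lit 1337012000) (nat_lit 228) (nat_lit 16191635712) (nat_lit 21) (nat_lit 5) (nat_lit 23) (nat_lit 5) (nat_lit 24) (nat_lit 5) (nat_lit 529) (nat_lit 359) (nat_lit 252)))) (XT.nd (nat_lit 50778) (nat_lit 0) (nat_lit 26068) (XT.nd (nat_lit 78) (nat_lit 76) (nat_lit 0) (XT.lf (nat_lit 0) (nat_lit 14598490207) (nat_lit 228) (nat_lit 8788708962) (nat_lit 76) (nat_lit 3465970901) (nat_lit 21) (nat_lit 5) (nat_lit 24) (nat_lit 5) (nat_lit 22) (nat_lit 4) (nat_lit 530) (nat_lit 359) (nat_lit 251)) (XT.lf (nat_lit 0) (nat_lit 84067288) (nat_lit 76) (nat_lit 18956504843) (nat_lit 152) (nat_lit 8248718941) (nat_lit 20) (nat_lit 5) (nat_lit 21) (nat_lit 5) (nat_lit 22) (nat_lit 4) (nat_lit 531) (nat_lit 359) (nat_lit 250))) (XT.nd (nat_lit 78) (nat_lit 912) (nat_lit 0) (XT.lf (nat_lit 0) (nat_lit 2533488473) (nat_lit 1444) (nat_lit 547862690) (nat_lit 1444) (nat_lit 547862690) (nat_lit 375) (nat_lit 4) (nat_lit 394)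 (nat_lit 5) (nat_lit 394) (nat_lit 4) (nat_lit 420) (nat_lit 360) (nat_lit 360)) (XT.lf (nat_lit 0) (nat_lit 2220124533) (nat_lit 912) (nat_lit 4432628638) (nat_lit 0) (nat_lit 648248490) (nat_lit 363) (nat_lit 5) (nat_lit 375) (nat_lit 4) (nat_lit 363) (nat_lit 4) (nat_lit 421) (nat_lit 360) (nat_lit 359))))))) (XT.nd (nat_lit 1092) (nat_lit 5928) (nat_lit 0) (XT.nd (nat_lit 546) (nat_lit 3648) (nat_lit 0) (XT.nd (nat_lit 234) (nat_lit 2508) (nat_lit 0) (XT.nd (nat_lit 78) (nat_lit 912) (nat_lit 0) (XT.lf (nat_lit 0) (nat_lit 640726776) (nat_lit 912) (nat_lit 4908653058) (nat_lit 912) (nat_lit 1795722071) (nat_lit 351) (nat_lit 4) (nat_lit 363) (nat_lit 5) (nat_lit 363) (nat_lit 4) (nat_lit 422) (nat_lit 360) (nat_lit 358)) (XT.nd (nat_lit 78) (nat_lit 836) (nat_lit 0) (XT.lf (nat_lit 0) (nat_lit 1500560014) (nat_lit 988) (nat_lit 1592637938) (nat_lit 76) (nat_lit 4297420603) (nat_lit 350) (nat_lit 5) (nat_lit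 363) (nat_lit 5) (nat_lit 351) (nat_lit 4) (nat_lit 423) (nat_lit 360) (nat_lit 357)) (XT.lf (nat_lit 0) (nat_lit 3589370491) (nat_lit 836) (nat_lit 1209814439) (nat_lit 912) (nat_lit 2638465679) (nat_lit 339) (nat_lit 5) (nat_lit 350) (nat_lit 5) (nat_lit 351) (nat_lit 4) (nat_lit 424) (nat_lit 360) (nat_lit 356)))) (XT.nd (nat_lit 156) (nat_lit 1596) (nat_lit 0) (XT.nd (nat_lit 78) (nat_lit 0) (nat_lit 0) (XT.lf (nat_lit 0) (nat_lit 631050289) (nat_lit 912) (nat_lit 6134252494) (nat_lit 76) (nat_lit 721046449) (nat_lit 327) (nat_lit 5) (nat_lit 339) (nat_lit 5) (nat_lit 328) (nat_lit 4) (nat_lit 425) (nat_lit 360) (nat_lit 355)) (XT.lf (nat_lit 0) (nat_lit 3902895932) (nat_lit 912) (nat_lit 920905240) (nat_lit 76) (nat_lit 2712475206) (nat_lit 327) (nat_lit 5) (nat_lit 339) (nat_lit 5) (nat_lit 328) (nat_lit 4) (nat_lit 426) (nat_lit 360) (nat_lit 354))) (XT.nd (nat_lit 78) (nat_lit 836) (nat_lit 0) (XT.lf (nat_lit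 0) (nat_lit 4387199678) (nat_lit 760) (nat_lit 2820902989) (nat_lit 836) (nat_lit 379788680) (nat_lit 317) (nat_lit 5) (nat_lit 327) (nat_lit 5) (nat_lit 328) (nat_lit 4) (nat_lit 427) (nat_lit 360) (nat_lit 353)) (XT.lf (nat_lit 0) (nat_lit 2114693663) (nat_lit 760) (nat_lit 745340357) (nat_lit 836) (nat_lit 4780974826) (nat_lit 306) (nat_lit 5) (nat_lit 316) (nat_lit 5) (nat_lit 317) (nat_lit 5) (nat_lit 428) (nat_lit 360) (nat_lit 352))))) (XT.nd (nat_lit 234) (nat_lit 2128) (nat_lit 0) (XT.nd (nat_lit 78) (nat_lit 1520) (nat_lit 0) (XT.lf (nat_lit 0) (nat_lit 6130549130) (nat_lit 836) (nat_lit 194745986) (nat_lit 76) (nat_lit 1370468757) (nat_lit 306) (nat_lit 5) (nat_lit 317) (nat_lit 5) (nat_lit 307) (nat_lit 4) (nat_lit 429) (nat_lit 360) (nat_lit 351)) (XT.nd (nat_lit 78) (nat_lit 760) (nat_lit 0) (XT.lf (nat_lit 0) (nat_lit 1672775215) (nat_lit 760) (nat_lit 2522663475) (nat_lit 76) (nat_lit 3556387786)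 (nat_lit 296) (nat_lit 5) (nat_lit 306) (nat_lit 5) (nat_lit 297) (nat_lit 5) (nat_lit 430) (nat_lit 360) (nat_lit 350)) (XT.lf (nat_lit 0) (nat_lit 2915839670) (nat_lit 760) (nat_lit 2000900097) (nat_lit 836) (nat_lit 2892862599) (nat_lit 286) (nat_lit 5) (nat_lit 296) (nat_lit 5) (nat_lit 297) (nat_lit 5) (nat_lit 431) (nat_lit 360) (nat_lit 349)))) (XT.nd (nat_lit 156) (nat_lit 1368) (nat_lit 0) (XT.nd (nat_lit 78) (nat_lit 0) (nat_lit 0) (XT.lf (nat_lit 0) (nat_lit 316907640) (nat_lit 760) (nat_lit 7304388822) (nat_lit 76) (nat_lit 247940903) (nat_lit 276) (nat_lit 5) (nat_lit 286) (nat_lit 5) (nat_lit 277) (nat_lit 5) (nat_lit 432) (nat_lit 360) (nat_lit 348)) (XT.lf (nat_lit 0) (nat_lit 3541305254) (nat_lit 760) (nat_lit 1831339063) (nat_lit 76) (nat_lit 2557294933) (nat_lit 276) (nat_lit 5) (nat_lit 286) (nat_lit 5) (nat_lit 277) (nat_lit 5) (nat_lit 433) (nat_lit 360) (nat_lit 347))) (XT.nd (nat_lit 78)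 (nat_lit 684) (nat_lit 0) (XT.lf (nat_lit 0) (nat_lit 3733199413) (nat_lit 684) (nat_lit 3065173922) (nat_lit 760) (nat_lit 1194157372) (nat_lit 267) (nat_lit 5) (nat_lit 276) (nat_lit 5) (nat_lit 277) (nat_lit 5) (nat_lit 434) (nat_lit 360) (nat_lit 346)) (XT.lf (nat_lit 0) (nat_lit 1314204531) (nat_lit 608) (nat_lit 688041905) (nat_lit 684) (nat_lit 6054594974) (nat_lit 258) (nat_lit 5) (nat_lit 266) (nat_lit 5) (nat_lit 267) (nat_lit 5) (nat_lit 435) (nat_lit 360) (nat_lit 345)))))) (XT.nd (nat_lit 546) (nat_lit 2736) (nat_lit 0) (XT.nd (nat_lit 234) (nat_lit 1824) (nat_lit 0) (XT.nd (nat_lit 78) (nat_lit 1368) (nat_lit 0) (XT.lf (nat_lit 0) (nat_lit 5231441450) (nat_lit 684) (nat_lit 1152185927) (nat_lit 76) (nat_lit 1738992950) (nat_lit 258) (nat_lit 5) (nat_lit 267) (nat_lit 5) (nat_lit 259) (nat_lit 5) (nat_lit 436) (nat_lit 360) (nat_lit 344)) (XT.nd (nat_lit 78) (nat_lit 608) (nat_lit 0) (XT.lf (nat_lit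 0) (nat_lit 310833307) (nat_lit 760) (nat_lit 3653720058) (nat_lit 76) (nat_lit 4225558823) (nat_lit 248) (nat_lit 5) (nat_lit 258) (nat_lit 5) (nat_lit 249) (nat_lit 5) (nat_lit 437) (nat_lit 360) (nat_lit 343)) (XT.lf (nat_lit 0) (nat_lit 2036192211) (nat_lit 608) (nat_lit 1469136268) (nat_lit 684) (nat_lit 4753934876) (nat_lit 240) (nat_lit 5) (nat_lit 248) (nat_lit 5) (nat_lit 249) (nat_lit 5) (nat_lit 438) (nat_lit 360) (nat_lit 342)))) (XT.nd (nat_lit 156) (nat_lit 1140) (nat_lit 0) (XT.nd (nat_lit 78) (nat_lit 684) (nat_lit 0) (XT.lf (nat_lit 0) (nat_lit 6742037449) (nat_lit 684) (nat_lit 514476203) (nat_lit 76) (nat_lit 1073751530) (nat_lit 240) (nat_lit 5) (nat_lit 249) (nat_lit 5) (nat_lit 241) (nat_lit 5) (nat_lit 439) (nat_lit 360) (nat_lit 341)) (XT.lf (nat_lit 0) (nat_lit 1611042362) (nat_lit 684) (nat_lit 3111511436) (nat_lit 76) (nat_lit 3680117609) (nat_lit 231) (nat_lit 5) (nat_lit 240) (nat_lit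 5) (nat_lit 232) (nat_lit 5) (nat_lit 440) (nat_lit 360) (nat_lit 340))) (XT.nd (nat_lit 78) (nat_lit 608) (nat_lit 0) (XT.lf (nat_lit 0) (nat_lit 2701905281) (nat_lit 532) (nat_lit 2120089890) (nat_lit 608) (nat_lit 3654973496) (nat_lit 224) (nat_lit 5) (nat_lit 231) (nat_lit 5) (nat_lit 232) (nat_lit 5) (nat_lit 441) (nat_lit 360) (nat_lit 339)) (XT.lf (nat_lit 0) (nat_lit 51555614) (nat_lit 608) (nat_lit 8018858667) (nat_lit 684) (nat_lit 482904160) (nat_lit 216) (nat_lit 5) (nat_lit 224) (nat_lit 5) (nat_lit 225) (nat_lit 5) (nat_lit 442) (nat_lit 360) (nat_lit 338))))) (XT.nd (nat_lit 312) (nat_lit 1520) (nat_lit 0) (XT.nd (nat_lit 156) (nat_lit 608) (nat_lit 0) (XT.nd (nat_lit 78) (nat_lit 532) (nat_lit 0) (XT.lf (nat_lit 0) (nat_lit 2718192120) (nat_lit 684) (nat_lit 2656817679) (nat_lit 76) (nat_lit 3255824540) (nat_lit 215) (nat_lit 5) (nat_lit 224) (nat_lit 5) (nat_lit 216) (nat_lit 5) (nat_lit 443) (nat_lit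 360) (nat_lit 337)) (XT.lf (nat_lit 0) (nat_lit 3278931802) (nat_lit 532) (nat_lit 2668850419) (nat_lit 608) (nat_lit 2762665430) (nat_lit 208) (nat_lit 5) (nat_lit 215) (nat_lit 5) (nat_lit 216) (nat_lit 5) (nat_lit 444) (nat_lit 360) (nat_lit 336))) (XT.nd (nat_lit 78) (nat_lit 0) (nat_lit 0) (XT.lf (nat_lit 0) (nat_lit 416196659) (nat_lit 608) (nat_lit 8277177531) (nat_lit 76) (nat_lit 98813278) (nat_lit 200) (nat_lit 5) (nat_lit 208) (nat_lit 5) (nat_lit 201) (nat_lit 5) (nat_lit 445) (nat_lit 360) (nat_lit 335)) (XT.lf (nat_lit 0) (nat_lit 3626341402) (nat_lit 608) (nat_lit 2323594654) (nat_lit 76) (nat_lit 2925194834) (nat_lit 200) (nat_lit 5) (nat_lit 208) (nat_lit 5) (nat_lit 201) (nat_lit 5) (nat_lit 446) (nat_lit 360) (nat_lit 334)))) (XT.nd (nat_lit 156) (nat_lit 456) (nat_lit 0) (XT.nd (nat_lit 78) (nat_lit 608) (nat_lit 0) (XT.lf (nat_lit 0) (nat_lit 3732679622) (nat_lit 456) (nat_lit 3143517693) (nat_lit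 532) (nat_lit 2084053137) (nat_lit 194) (nat_lit 5) (nat_lit 200) (nat_lit 5) (nat_lit 201) (nat_lit 5) (nat_lit 447) (nat_lit 360) (nat_lit 333)) (XT.lf (nat_lit 0) (nat_lit 832628504) (nat_lit 532) (nat_lit 268909301) (nat_lit 608) (nat_lit 7945961154) (nat_lit 186) (nat_lit 5) (nat_lit 193) (nat_lit 5) (nat_lit 194) (nat_lit 5) (nat_lit 448) (nat_lit 360) (nat_lit 332))) (XT.nd (nat_lit 78) (nat_lit 456) (nat_lit 0) (XT.lf (nat_lit 0) (nat_lit 4327443527) (nat_lit 608) (nat_lit 2148243089) (nat_lit 76) (nat_lit 2660465994) (nat_lit 186) (nat_lit 5) (nat_lit 194) (nat_lit 5) (nat_lit 187) (nat_lit 5) (nat_lit 449) (nat_lit 360) (nat_lit 331)) (XT.lf (nat_lit 0) (nat_lit 4026012379) (nat_lit 456) (nat_lit 3572598002) (nat_lit 532) (nat_lit 1628379439) (nat_lit 180) (nat_lit 5) (nat_lit 186) (nat_lit 5) (nat_lit 187) (nat_lit 5) (nat_lit 450) (nat_lit 360) (nat_lit 330))))))))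
noncomputable def xc56 : XT := (XT.nd (nat_lit 2184) (nat_lit 3724) (nat_lit 0) (XT.nd (nat_lit 1092) (nat_lit 2736) (nat_lit 0) (XT.nd (nat_lit 546) (nat_lit 1672) (nat_lit 0) (XT.nd (nat_lit 234) (nat_lit 1444) (nat_lit 0) (XT.nd (nat_lit 78) (nat_lit 456) (nat_lit 0) (XT.lf (nat_lit 0) (nat_lit 970715214) (nat_lit 456) (nat_lit 597463699) (nat_lit 532) (nat_lit 7751803229) (nat_lit 173) (nat_lit 5) (nat_lit 179) (nat_lit 5) (nat_lit 180) (nat_lit 5) (nat_lit 451) (nat_lit 360) (nat_lit 329)) (XT.nd (nat_lit 78) (nat_lit 456) (nat_lit 0) (XT.lf (nat_lit 0) (nat_lit 4811223305) (nat_lit 532) (nat_lit 2169991049) (nat_lit 76) (nat_lit 2433341392) (nat_lit 173) (nat_lit 5) (nat_lit 180) (nat_lit 5) (nat_lit 174) (nat_lit 5) (nat_lit 452) (nat_lit 360) (nat_lit 328)) (XT.lf (nat_lit 0) (nat_lit 4118856456) (nat_lit 456) (nat_lit 3985267576) (nat_lit 532) (nat_lit 1407220299) (nat_lit 167) (nat_lit 5) (nat_lit 173)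 (nat_lit 5) (nat_lit 174) (nat_lit 5) (nat_lit 453) (nat_lit 360) (nat_lit 327)))) (XT.nd (nat_lit 156) (nat_lit 912) (nat_lit 0) (XT.nd (nat_lit 78) (nat_lit 0) (nat_lit 0) (XT.lf (nat_lit 0) (nat_lit 888360217) (nat_lit 456) (nat_lit 915037031) (nat_lit 532) (nat_lit 7806955688) (nat_lit 160) (nat_lit 5) (nat_lit 166) (nat_lit 5) (nat_lit 167) (nat_lit 5) (nat_lit 454) (nat_lit 360) (nat_lit 326)) (XT.lf (nat_lit 0) (nat_lit 5065033241) (nat_lit 532) (nat_lit 2431308052) (nat_lit 76) (nat_lit 2214723477) (nat_lit 160) (nat_lit 5) (nat_lit 167) (nat_lit 5) (nat_lit 161) (nat_lit 5) (nat_lit 455) (nat_lit 360) (nat_lit 325))) (XT.nd (nat_lit 78) (nat_lit 532) (nat_lit 0) (XT.lf (nat_lit 0) (nat_lit 3967775091) (nat_lit 380) (nat_lit 4411647603) (nat_lit 456) (nat_lit 1434639365) (nat_lit 155) (nat_lit 5) (nat_lit 160) (nat_lit 5) (nat_lit 161) (nat_lit 5) (nat_lit 456) (nat_lit 360) (nat_lit 324)) (XT.lf (nat_lit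 0) (nat_lit 540447136) (nat_lit 456) (nat_lit 1252169014) (nat_lit 532) (nat_lit 8126769273) (nat_lit 148) (nat_lit 5) (nat_lit 154) (nat_lit 5) (nat_lit 155) (nat_lit 5) (nat_lit 457) (nat_lit 360) (nat_lit 323))))) (XT.nd (nat_lit 234) (nat_lit 1216) (nat_lit 0) (XT.nd (nat_lit 78) (nat_lit 456) (nat_lit 0) (XT.lf (nat_lit 0) (nat_lit 5073687334) (nat_lit 532) (nat_lit 2978354796) (nat_lit 76) (nat_lit 1974434244) (nat_lit 148) (nat_lit 5) (nat_lit 155) (nat_lit 5) (nat_lit 149) (nat_lit 5) (nat_lit 458) (nat_lit 360) (nat_lit 322)) (XT.nd (nat_lit 78) (nat_lit 76) (nat_lit 0) (XT.lf (nat_lit 0) (nat_lit 3525505561) (nat_lit 380) (nat_lit 4883093240) (nat_lit 456) (nat_lit 1727365949) (nat_lit 143) (nat_lit 5) (nat_lit 148) (nat_lit 5) (nat_lit 149) (nat_lit 5) (nat_lit 459) (nat_lit 360) (nat_lit 321)) (XT.lf (nat_lit 0) (nat_lit 1519364572) (nat_lit 456) (nat_lit 120561147) (nat_lit 76) (nat_lit 8607987636)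 (nat_lit 142) (nat_lit 5) (nat_lit 148) (nat_lit 5) (nat_lit 143) (nat_lit 5) (nat_lit 460) (nat_lit 360) (nat_lit 320)))) (XT.nd (nat_lit 156) (nat_lit 456) (nat_lit 0) (XT.nd (nat_lit 78) (nat_lit 380) (nat_lit 0) (XT.lf (nat_lit 0) (nat_lit 4819270712) (nat_lit 456) (nat_lit 3861472846) (nat_lit 76) (nat_lit 1680920439) (nat_lit 137) (nat_lit 5) (nat_lit 143) (nat_lit 5) (nat_lit 138) (nat_lit 5) (nat_lit 461) (nat_lit 360) (nat_lit 319)) (XT.lf (nat_lit 0) (nat_lit 2740454945) (nat_lit 380) (nat_lit 5432499217) (nat_lit 456) (nat_lit 2304998371) (nat_lit 132) (nat_lit 5) (nat_lit 137) (nat_lit 5) (nat_lit 138) (nat_lit 5) (nat_lit 462) (nat_lit 360) (nat_lit 318))) (XT.nd (nat_lit 78) (nat_lit 380) (nat_lit 0) (XT.lf (nat_lit 0) (nat_lit 968589081) (nat_lit 456) (nat_lit 1138032406) (nat_lit 76) (nat_lit 8490143169) (nat_lit 131) (nat_lit 5) (nat_lit 137) (nat_lit 5) (nat_lit 132) (nat_lit 5) (nat_lit 463)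 (nat_lit 360) (nat_lit 317)) (XT.lf (nat_lit 0) (nat_lit 4280923052) (nat_lit 456) (nat_lit 5135719055) (nat_lit 76) (nat_lit 1300940818) (nat_lit 126) (nat_lit 5) (nat_lit 132) (nat_lit 5) (nat_lit 127) (nat_lit 5) (nat_lit 464) (nat_lit 360) (nat_lit 316)))))) (XT.nd (nat_lit 546) (nat_lit 1292) (nat_lit 0) (XT.nd (nat_lit 234) (nat_lit 684) (nat_lit 0) (XT.nd (nat_lit 78) (nat_lit 456) (nat_lit 0) (XT.lf (nat_lit 0) (nat_lit 1556149563) (nat_lit 304) (nat_lit 6094624849) (nat_lit 380) (nat_lit 3190234791) (nat_lit 122) (nat_lit 5) (nat_lit 126) (nat_lit 5) (nat_lit 127) (nat_lit 5) (nat_lit 465) (nat_lit 360) (nat_lit 315)) (XT.nd (nat_lit 78) (nat_lit 380) (nat_lit 0) (XT.lf (nat_lit 0) (nat_lit 113867637) (nat_lit 380) (nat_lit 2577085465) (nat_lit 76) (nat_lit 8276064825) (nat_lit 121) (nat_lit 5) (nat_lit 126) (nat_lit 5) (nat_lit 122) (nat_lit 5) (nat_lit 466) (nat_lit 360) (nat_lit 314)) (XT.lf (nat_lit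 0) (nat_lit 3434593529) (nat_lit 456) (nat_lit 6861449890) (nat_lit 76) (nat_lit 799232559) (nat_lit 116) (nat_lit 5) (nat_lit 122) (nat_lit 5) (nat_lit 117) (nat_lit 5) (nat_lit 467) (nat_lit 360) (nat_lit 313)))) (XT.nd (nat_lit 156) (nat_lit 380) (nat_lit 0) (XT.nd (nat_lit 78) (nat_lit 304) (nat_lit 0) (XT.lf (nat_lit 0) (nat_lit 6817654422) (nat_lit 456) (nat_lit 88195208) (nat_lit 76) (nat_lit 4320346909) (nat_lit 116) (nat_lit 5) (nat_lit 122) (nat_lit 5) (nat_lit 117) (nat_lit 5) (nat_lit 468) (nat_lit 360) (nat_lit 312)) (XT.lf (nat_lit 0) (nat_lit 6851167661) (nat_lit 304) (nat_lit 3423153429) (nat_lit 380) (nat_lit 1085310980) (nat_lit 112) (nat_lit 5) (nat_lit 116) (nat_lit 5) (nat_lit 117) (nat_lit 5) (nat_lit 469) (nat_lit 360) (nat_lit 311))) (XT.nd (nat_lit 78) (nat_lit 0) (nat_lit 0) (XT.lf (nat_lit 0) (nat_lit 2252764743) (nat_lit 380) (nat_lit 9104961414) (nat_lit 76) (nat_lit 138153723) (nat_lit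 107) (nat_lit 5) (nat_lit 112) (nat_lit 5) (nat_lit 108) (nat_lit 5) (nat_lit 470) (nat_lit 360) (nat_lit 310)) (XT.lf (nat_lit 0) (nat_lit 5658011050) (nat_lit 380) (nat_lit 2234499789) (nat_lit 76) (nat_lit 3741914060) (nat_lit 107) (nat_lit 5) (nat_lit 112) (nat_lit 5) (nat_lit 108) (nat_lit 5) (nat_lit 471) (nat_lit 360) (nat_lit 309))))) (XT.nd (nat_lit 234) (nat_lit 608) (nat_lit 0) (XT.nd (nat_lit 78) (nat_lit 380) (nat_lit 0) (XT.lf (nat_lit 0) (nat_lit 4777601834) (nat_lit 304) (nat_lit 4347332145) (nat_lit 380) (nat_lit 2650949680) (nat_lit 103) (nat_lit 5) (nat_lit 107) (nat_lit 5) (nat_lit 108) (nat_lit 5) (nat_lit 472) (nat_lit 360) (nat_lit 308)) (XT.nd (nat_lit 78) (nat_lit 304) (nat_lit 0) (XT.lf (nat_lit 0) (nat_lit 709049386) (nat_lit 380) (nat_lit 23101519) (nat_lit 76) (nat_lit 11188383298) (nat_lit 102) (nat_lit 5) (nat_lit 107) (nat_lit 5) (nat_lit 103) (nat_lit 5) (nat_lit 473) (nat_lit 360)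 (nat_lit 307)) (XT.lf (nat_lit 0) (nat_lit 4129805014) (nat_lit 380) (nat_lit 4977156456) (nat_lit 76) (nat_lit 2960198225) (nat_lit 98) (nat_lit 5) (nat_lit 103) (nat_lit 5) (nat_lit 99) (nat_lit 5) (nat_lit 474) (nat_lit 360) (nat_lit 306)))) (XT.nd (nat_lit 156) (nat_lit 380) (nat_lit 0) (XT.nd (nat_lit 78) (nat_lit 0) (nat_lit 0) (XT.lf (nat_lit 0) (nat_lit 2093949425) (nat_lit 228) (nat_lit 5507221962) (nat_lit 304) (nat_lit 4615915583) (nat_lit 95) (nat_lit 5) (nat_lit 98) (nat_lit 5) (nat_lit 99) (nat_lit 5) (nat_lit 475) (nat_lit 360) (nat_lit 305)) (XT.lf (nat_lit 0) (nat_lit 9316691216) (nat_lit 228) (nat_lit 1822610892) (nat_lit 304) (nat_lit 1230776870) (nat_lit 95) (nat_lit 5) (nat_lit 98) (nat_lit 5) (nat_lit 99) (nat_lit 5) (nat_lit 476) (nat_lit 360) (nat_lit 304))) (XT.nd (nat_lit 78) (nat_lit 0) (nat_lit 0) (XT.lf (nat_lit 0) (nat_lit 2196911214) (nat_lit 380) (nat_lit 8397709631) (nat_lit 76)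 (nat_lit 1931154077) (nat_lit 90) (nat_lit 5) (nat_lit 95) (nat_lit 5) (nat_lit 91) (nat_lit 5) (nat_lit 477) (nat_lit 360) (nat_lit 303)) (XT.lf (nat_lit 0) (nat_lit 5673979032) (nat_lit 380) (nat_lit 1266819644) (nat_lit 76) (nat_lit 5743689461) (nat_lit 90) (nat_lit 5) (nat_lit 95) (nat_lit 5) (nat_lit 91) (nat_lit 5) (nat_lit 478) (nat_lit 360) (nat_lit 302))))))) (XT.nd (nat_lit 1092) (nat_lit 1520) (nat_lit 0) (XT.nd (nat_lit 546) (nat_lit 1064) (nat_lit 0) (XT.nd (nat_lit 234) (nat_lit 532) (nat_lit 0) (XT.nd (nat_lit 78) (nat_lit 380) (nat_lit 0) (XT.lf (nat_lit 0) (nat_lit 6030062980) (nat_lit 228) (nat_lit 3194965477) (nat_lit 304) (nat_lit 3621270297) (nat_lit 87) (nat_lit 5) (nat_lit 90) (nat_lit 5) (nat_lit 91) (nat_lit 5) (nat_lit 479) (nat_lit 360) (nat_lit 301)) (XT.nd (nat_lit 78) (nat_lit 76) (nat_lit 0) (XT.lf (nat_lit 0) (nat_lit 424419339) (nat_lit 304) (nat_lit 12403529785) (nat_lit 380) (nat_lit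 183791163) (nat_lit 83) (nat_lit 5) (nat_lit 87) (nat_lit 5) (nat_lit 88) (nat_lit 5) (nat_lit 480) (nat_lit 360) (nat_lit 300)) (XT.lf (nat_lit 0) (nat_lit 3311618148) (nat_lit 380) (nat_lit 5376334198) (nat_lit 76) (nat_lit 4491463031) (nat_lit 82) (nat_lit 5) (nat_lit 87) (nat_lit 5) (nat_lit 83) (nat_lit 5) (nat_lit 481) (nat_lit 360) (nat_lit 299)))) (XT.nd (nat_lit 156) (nat_lit 304) (nat_lit 0) (XT.nd (nat_lit 78) (nat_lit 0) (nat_lit 0) (XT.lf (nat_lit 0) (nat_lit 1948296916) (nat_lit 228) (nat_lit 4905057940) (nat_lit 304) (nat_lit 6497498244) (nat_lit 79) (nat_lit 5) (nat_lit 82) (nat_lit 5) (nat_lit 83) (nat_lit 5) (nat_lit 482) (nat_lit 360) (nat_lit 298)) (XT.lf (nat_lit 0) (nat_lit 9437749056) (nat_lit 228) (nat_lit 1030791535) (nat_lit 304) (nat_lit 3057137520) (nat_lit 79) (nat_lit 5) (nat_lit 82) (nat_lit 5) (nat_lit 83) (nat_lit 5) (nat_lit 483) (nat_lit 360) (nat_lit 297))) (XT.nd (nat_lit 78)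 (nat_lit 0) (nat_lit 0) (XT.lf (nat_lit 0) (nat_lit 453876330) (nat_lit 304) (nat_lit 10362972501) (nat_lit 76) (nat_lit 2886947000) (nat_lit 75) (nat_lit 5) (nat_lit 79) (nat_lit 5) (nat_lit 76) (nat_lit 5) (nat_lit 484) (nat_lit 360) (nat_lit 296)) (XT.lf (nat_lit 0) (nat_lit 3995783200) (nat_lit 304) (nat_lit 2992721448) (nat_lit 76) (nat_lit 6896545143) (nat_lit 75) (nat_lit 5) (nat_lit 79) (nat_lit 5) (nat_lit 76) (nat_lit 5) (nat_lit 485) (nat_lit 360) (nat_lit 295))))) (XT.nd (nat_lit 234) (nat_lit 532) (nat_lit 0) (XT.nd (nat_lit 78) (nat_lit 304) (nat_lit 0) (XT.lf (nat_lit 0) (nat_lit 4531320717) (nat_lit 228) (nat_lit 3074401643) (nat_lit 304) (nat_lit 6464272582) (nat_lit 72) (nat_lit 5) (nat_lit 75) (nat_lit 5) (nat_lit 76) (nat_lit 5) (nat_lit 486) (nat_lit 360) (nat_lit 294)) (XT.nd (nat_lit 78) (nat_lit 304) (nat_lit 0) (XT.lf (nat_lit 0) (nat_lit 11281964996) (nat_lit 304) (nat_lit 2071127423)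 (nat_lit 76) (nat_lit 905674277) (nat_lit 72) (nat_lit 5) (nat_lit 76) (nat_lit 5) (nat_lit 73) (nat_lit 5) (nat_lit 487) (nat_lit 360) (nat_lit 293)) (XT.lf (nat_lit 0) (nat_lit 597888015) (nat_lit 304) (nat_lit 8908776347) (nat_lit 76) (nat_lit 4944081940) (nat_lit 68) (nat_lit 5) (nat_lit 72) (nat_lit 5) (nat_lit 69) (nat_lit 5) (nat_lit 488) (nat_lit 360) (nat_lit 292)))) (XT.nd (nat_lit 156) (nat_lit 304) (nat_lit 0) (XT.nd (nat_lit 78) (nat_lit 228) (nat_lit 0) (XT.lf (nat_lit 0) (nat_lit 4186861849) (nat_lit 304) (nat_lit 1382937065) (nat_lit 76) (nat_lit 9076729289) (nat_lit 68) (nat_lit 5) (nat_lit 72) (nat_lit 5) (nat_lit 69) (nat_lit 5) (nat_lit 489) (nat_lit 360) (nat_lit 291)) (XT.lf (nat_lit 0) (nat_lit 6325151428) (nat_lit 228) (nat_lit 1532768106) (nat_lit 304) (nat_lit 6988109173) (nat_lit 65) (nat_lit 5) (nat_lit 68) (nat_lit 5) (nat_lit 69) (nat_lit 5) (nat_lit 490) (nat_lit 360) (nat_lit 290)))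 (XT.nd (nat_lit 78) (nat_lit 304) (nat_lit 0) (XT.lf (nat_lit 0) (nat_lit 11597901296) (nat_lit 304) (nat_lit 911403187) (nat_lit 76) (nat_lit 2540313552) (nat_lit 65) (nat_lit 5) (nat_lit 69) (nat_lit 5) (nat_lit 66) (nat_lit 5) (nat_lit 491) (nat_lit 360) (nat_lit 289)) (XT.lf (nat_lit 0) (nat_lit 178319303) (nat_lit 304) (nat_lit 8377988328) (nat_lit 76) (nat_lit 6700460792) (nat_lit 61) (nat_lit 5) (nat_lit 65) (nat_lit 5) (nat_lit 62) (nat_lit 5) (nat_lit 492) (nat_lit 360) (nat_lit 288)))))) (XT.nd (nat_lit 546) (nat_lit 912) (nat_lit 0) (XT.nd (nat_lit 234) (nat_lit 456) (nat_lit 0) (XT.nd (nat_lit 78) (nat_lit 152) (nat_lit 0) (XT.lf (nat_lit 0) (nat_lit 3810973716) (nat_lit 304) (nat_lit 704157934) (nat_lit 76) (nat_lit 10952957489) (nat_lit 61) (nat_lit 5) (nat_lit 65) (nat_lit 5) (nat_lit 62) (nat_lit 5) (nat_lit 493) (nat_lit 360) (nat_lit 287)) (XT.nd (nat_lit 78) (nat_lit 0) (nat_lit 0) (XT.lf (nat_lit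 0) (nat_lit 7167703575) (nat_lit 152) (nat_lit 365739082) (nat_lit 228) (nat_lit 8149858583) (nat_lit 59) (nat_lit 5) (nat_lit 61) (nat_lit 5) (nat_lit 62) (nat_lit 5) (nat_lit 494) (nat_lit 360) (nat_lit 286)) (XT.lf (nat_lit 0) (nat_lit 11330973442) (nat_lit 228) (nat_lit 770898205) (nat_lit 76) (nat_lit 3800941724) (nat_lit 59) (nat_lit 5) (nat_lit 62) (nat_lit 5) (nat_lit 60) (nat_lit 5) (nat_lit 495) (nat_lit 360) (nat_lit 285)))) (XT.nd (nat_lit 156) (nat_lit 152) (nat_lit 0) (XT.nd (nat_lit 78) (nat_lit 76) (nat_lit 0) (XT.lf (nat_lit 0) (nat_lit 7171717381) (nat_lit 228) (nat_lit 8053047727) (nat_lit 304) (nat_lit 901552311) (nat_lit 56) (nat_lit 5) (nat_lit 59) (nat_lit 5) (nat_lit 60) (nat_lit 5) (nat_lit 496) (nat_lit 360) (nat_lit 284)) (XT.lf (nat_lit 0) (nat_lit 2781450691) (nat_lit 304) (nat_lit 1137722637) (nat_lit 76) (nat_lit 12435225036) (nat_lit 55) (nat_lit 5) (nat_lit 59) (nat_lit 5) (nat_lit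 56) (nat_lit 5) (nat_lit 497) (nat_lit 360) (nat_lit 283))) (XT.nd (nat_lit 78) (nat_lit 0) (nat_lit 0) (XT.lf (nat_lit 0) (nat_lit 6544747087) (nat_lit 228) (nat_lit 9716815379) (nat_lit 76) (nat_lit 324992599) (nat_lit 53) (nat_lit 5) (nat_lit 56) (nat_lit 5) (nat_lit 54) (nat_lit 5) (nat_lit 498) (nat_lit 360) (nat_lit 282)) (XT.lf (nat_lit 0) (nat_lit 10389003298) (nat_lit 228) (nat_lit 1844284291) (nat_lit 76) (nat_lit 4589960713) (nat_lit 53) (nat_lit 5) (nat_lit 56) (nat_lit 5) (nat_lit 54) (nat_lit 5) (nat_lit 499) (nat_lit 360) (nat_lit 281))))) (XT.nd (nat_lit 312) (nat_lit 456) (nat_lit 0) (XT.nd (nat_lit 156) (nat_lit 152) (nat_lit 0) (XT.nd (nat_lit 78) (nat_lit 76) (nat_lit 0) (XT.lf (nat_lit 0) (nat_lit 6220366764) (nat_lit 228) (nat_lit 8102766398) (nat_lit 304) (nat_lit 2741289609) (nat_lit 50) (nat_lit 5) (nat_lit 53) (nat_lit 5) (nat_lit 54) (nat_lit 5) (nat_lit 500) (nat_lit 360) (nat_lit 280))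 (XT.lf (nat_lit 0) (nat_lit 997182656) (nat_lit 304) (nat_lit 2892576540) (nat_lit 76) (nat_lit 13420833069) (nat_lit 49) (nat_lit 5) (nat_lit 53) (nat_lit 5) (nat_lit 50) (nat_lit 5) (nat_lit 501) (nat_lit 360) (nat_lit 279))) (XT.nd (nat_lit 78) (nat_lit 0) (nat_lit 0) (XT.lf (nat_lit 0) (nat_lit 4783710485) (nat_lit 228) (nat_lit 12341836579) (nat_lit 76) (nat_lit 435582574) (nat_lit 47) (nat_lit 5) (nat_lit 50) (nat_lit 5) (nat_lit 48) (nat_lit 5) (nat_lit 502) (nat_lit 360) (nat_lit 278)) (XT.lf (nat_lit 0) (nat_lit 8664558335) (nat_lit 228) (nat_lit 4355731829) (nat_lit 76) (nat_lit 4796022399) (nat_lit 47) (nat_lit 5) (nat_lit 50) (nat_lit 5) (nat_lit 48) (nat_lit 5) (nat_lit 503) (nat_lit 360) (nat_lit 277)))) (XT.nd (nat_lit 156) (nat_lit 228) (nat_lit 0) (XT.nd (nat_lit 78) (nat_lit 0) (nat_lit 0) (XT.lf (nat_lit 0) (nat_lit 3794603660) (nat_lit 228) (nat_lit 8826870498) (nat_lit 304) (nat_lit 5455162430)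 (nat_lit 44) (nat_lit 5) (nat_lit 47) (nat_lit 5) (nat_lit 48) (nat_lit 5) (nat_lit 504) (nat_lit 360) (nat_lit 276)) (XT.lf (nat_lit 0) (nat_lit 12122028438) (nat_lit 228) (nat_lit 4538764586) (nat_lit 304) (nat_lit 1681315115) (nat_lit 44) (nat_lit 5) (nat_lit 47) (nat_lit 5) (nat_lit 48) (nat_lit 5) (nat_lit 505) (nat_lit 360) (nat_lit 275))) (XT.nd (nat_lit 78) (nat_lit 0) (nat_lit 0) (XT.lf (nat_lit 0) (nat_lit 1970453654) (nat_lit 152) (nat_lit 156285023) (nat_lit 228) (nat_lit 16486131742) (nat_lit 41) (nat_lit 5) (nat_lit 43) (nat_lit 5) (nat_lit 44) (nat_lit 5) (nat_lit 506) (nat_lit 360) (nat_lit 274)) (XT.lf (nat_lit 0) (nat_lit 6032950892) (nat_lit 228) (nat_lit 8563046031) (nat_lit 76) (nat_lit 4291944523) (nat_lit 41) (nat_lit 5) (nat_lit 44) (nat_lit 5) (nat_lit 42) (nat_lit 5) (nat_lit 507) (nat_lit 360) (nat_lit 273))))))))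
noncomputable def xc57 : XT := (XT.nd (nat_lit 52650) (nat_lit 0) (nat_lit 12084) (XT.nd (nat_lit 1092) (nat_lit 532) (nat_lit 0) (XT.nd (nat_lit 546) (nat_lit 456) (nat_lit 0) (XT.nd (nat_lit 234) (nat_lit 380) (nat_lit 0) (XT.nd (nat_lit 78) (nat_lit 152) (nat_lit 0) (XT.lf (nat_lit 0) (nat_lit 9993287391) (nat_lit 228) (nat_lit 366775900) (nat_lit 76) (nat_lit 8808936456) (nat_lit 41) (nat_lit 5) (nat_lit 44) (nat_lit 5) (nat_lit 42) (nat_lit 5) (nat_lit 508) (nat_lit 360) (nat_lit 272)) (XT.nd (nat_lit 78) (nat_lit 0) (nat_lit 0) (XT.lf (nat_lit 0) (nat_lit 8056282144) (nat_lit 152) (nat_lit 6004311123) (nat_lit 228) (nat_lit 5394536433) (nat_lit 39) (nat_lit 5) (nat_lit 41) (nat_lit 5) (nat_lit 42) (nat_lit 5) (nat_lit 509) (nat_lit 360) (nat_lit 271)) (XT.lf (nat_lit 0) (nat_lit 16610257576) (nat_lit 152) (nat_lit 1577110084) (nat_lit 228) (nat_lit 1560057772) (nat_lit 39) (nat_lit 5) (nat_lit 41) (nat_lit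 5) (nat_lit 42) (nat_lit 5) (nat_lit 510) (nat_lit 360) (nat_lit 270)))) (XT.nd (nat_lit 156) (nat_lit 152) (nat_lit 0) (XT.nd (nat_lit 78) (nat_lit 0) (nat_lit 0) (XT.lf (nat_lit 0) (nat_lit 2349966184) (nat_lit 228) (nat_lit 14762340372) (nat_lit 76) (nat_lit 2932366813) (nat_lit 36) (nat_lit 5) (nat_lit 39) (nat_lit 5) (nat_lit 37) (nat_lit 5) (nat_lit 511) (nat_lit 360) (nat_lit 269)) (XT.lf (nat_lit 0) (nat_lit 6325015665) (nat_lit 228) (nat_lit 6497707343) (nat_lit 76) (nat_lit 7524788035) (nat_lit 36) (nat_lit 5) (nat_lit 39) (nat_lit 5) (nat_lit 37) (nat_lit 5) (nat_lit 512) (nat_lit 360) (nat_lit 268))) (XT.nd (nat_lit 78) (nat_lit 0) (nat_lit 0) (XT.lf (nat_lit 0) (nat_lit 1916077696) (nat_lit 152) (nat_lit 8452457113) (nat_lit 228) (nat_lit 10288096488) (nat_lit 34) (nat_lit 5) (nat_lit 36) (nat_lit 5) (nat_lit 37) (nat_lit 5) (nat_lit 513) (nat_lit 360) (nat_lit 267)) (XT.lf (nat_lit 0) (nat_lit 10545217732)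 (nat_lit 152) (nat_lit 3968031905) (nat_lit 228) (nat_lit 6458282910) (nat_lit 34) (nat_lit 5) (nat_lit 36) (nat_lit 5) (nat_lit 37) (nat_lit 5) (nat_lit 514) (nat_lit 360) (nat_lit 266))))) (XT.nd (nat_lit 234) (nat_lit 228) (nat_lit 0) (XT.nd (nat_lit 78) (nat_lit 228) (nat_lit 0) (XT.lf (nat_lit 0) (nat_lit 18721859735) (nat_lit 228) (nat_lit 1990269899) (nat_lit 76) (nat_lit 580987164) (nat_lit 34) (nat_lit 5) (nat_lit 37) (nat_lit 5) (nat_lit 35) (nat_lit 4) (nat_lit 515) (nat_lit 360) (nat_lit 265)) (XT.nd (nat_lit 78) (nat_lit 0) (nat_lit 0) (XT.lf (nat_lit 0) (nat_lit 1422414744) (nat_lit 228) (nat_lit 14994063432) (nat_lit 76) (nat_lit 5203534778) (nat_lit 31) (nat_lit 5) (nat_lit 34) (nat_lit 5) (nat_lit 32) (nat_lit 5) (nat_lit 516) (nat_lit 360) (nat_lit 264)) (XT.lf (nat_lit 0) (nat_lit 5452554899) (nat_lit 228) (nat_lit 6568614768) (nat_lit 76) (nat_lit 9932121675) (nat_lit 31) (nat_lit 5) (nat_lit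 34) (nat_lit 5) (nat_lit 32) (nat_lit 5) (nat_lit 517) (nat_lit 360) (nat_lit 263)))) (XT.nd (nat_lit 156) (nat_lit 76) (nat_lit 0) (XT.nd (nat_lit 78) (nat_lit 0) (nat_lit 0) (XT.lf (nat_lit 0) (nat_lit 2012730212) (nat_lit 152) (nat_lit 7541623517) (nat_lit 228) (nat_lit 12739065068) (nat_lit 29) (nat_lit 5) (nat_lit 31) (nat_lit 5) (nat_lit 32) (nat_lit 5) (nat_lit 518) (nat_lit 360) (nat_lit 262)) (XT.lf (nat_lit 0) (nat_lit 10815988065) (nat_lit 152) (nat_lit 2944447224) (nat_lit 228) (nat_lit 8879473102) (nat_lit 29) (nat_lit 5) (nat_lit 31) (nat_lit 5) (nat_lit 32) (nat_lit 5) (nat_lit 519) (nat_lit 360) (nat_lit 261))) (XT.nd (nat_lit 78) (nat_lit 76) (nat_lit 0) (XT.lf (nat_lit 0) (nat_lit 18040454314) (nat_lit 228) (nat_lit 3247662543) (nat_lit 76) (nat_lit 1705419040) (nat_lit 29) (nat_lit 5) (nat_lit 32) (nat_lit 5) (nat_lit 30) (nat_lit 4) (nat_lit 520) (nat_lit 360) (nat_lit 260)) (XT.lf (nat_lit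 0) (nat_lit 5515389135) (nat_lit 76) (nat_lit 16924903860) (nat_lit 152) (nat_lit 913262924) (nat_lit 28) (nat_lit 5) (nat_lit 29) (nat_lit 5) (nat_lit 30) (nat_lit 4) (nat_lit 521) (nat_lit 360) (nat_lit 259)))))) (XT.nd (nat_lit 546) (nat_lit 152) (nat_lit 0) (XT.nd (nat_lit 234) (nat_lit 152) (nat_lit 0) (XT.nd (nat_lit 78) (nat_lit 152) (nat_lit 0) (XT.lf (nat_lit 0) (nat_lit 3166163502) (nat_lit 152) (nat_lit 9281188144) (nat_lit 76) (nat_lit 11272994863) (nat_lit 27) (nat_lit 5) (nat_lit 29) (nat_lit 5) (nat_lit 28) (nat_lit 5) (nat_lit 522) (nat_lit 360) (nat_lit 258)) (XT.nd (nat_lit 78) (nat_lit 152) (nat_lit 0) (XT.lf (nat_lit 0) (nat_lit 7294312808) (nat_lit 152) (nat_lit 595984556) (nat_lit 76) (nat_lit 16204471654) (nat_lit 27) (nat_lit 5) (nat_lit 29) (nat_lit 5) (nat_lit 28) (nat_lit 5) (nat_lit 523) (nat_lit 360) (nat_lit 257)) (XT.lf (nat_lit 0) (nat_lit 8336109020) (nat_lit 152) (nat_lit 3202796012)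 (nat_lit 228) (nat_lit 12937101365) (nat_lit 25) (nat_lit 5) (nat_lit 27) (nat_lit 5) (nat_lit 28) (nat_lit 5) (nat_lit 524) (nat_lit 360) (nat_lit 256)))) (XT.nd (nat_lit 156) (nat_lit 76) (nat_lit 0) (XT.nd (nat_lit 78) (nat_lit 76) (nat_lit 0) (XT.lf (nat_lit 0) (nat_lit 15862480775) (nat_lit 228) (nat_lit 7456348855) (nat_lit 76) (nat_lit 1546161000) (nat_lit 25) (nat_lit 5) (nat_lit 28) (nat_lit 5) (nat_lit 26) (nat_lit 4) (nat_lit 525) (nat_lit 360) (nat_lit 255)) (XT.lf (nat_lit 0) (nat_lit 1362024589) (nat_lit 76) (nat_lit 18920770354) (nat_lit 152) (nat_lit 4978758130) (nat_lit 24) (nat_lit 5) (nat_lit 25) (nat_lit 5) (nat_lit 26) (nat_lit 4) (nat_lit 526) (nat_lit 360) (nat_lit 254))) (XT.nd (nat_lit 78) (nat_lit 76) (nat_lit 0) (XT.lf (nat_lit 0) (nat_lit 10422573144) (nat_lit 76) (nat_lit 14399350464) (nat_lit 152) (nat_lit 843518780) (nat_lit 24) (nat_lit 5) (nat_lit 25) (nat_lit 5) (nat_lit 26) (nat_lit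 4) (nat_lit 527) (nat_lit 360) (nat_lit 253)) (XT.lf (nat_lit 0) (nat_lit 3310795107) (nat_lit 152) (nat_lit 6469820596) (nat_lit 76) (nat_lit 16296746727) (nat_lit 23) (nat_lit 5) (nat_lit 25) (nat_lit 5) (nat_lit 24) (nat_lit 5) (nat_lit 528) (nat_lit 360) (nat_lit 252))))) (XT.nd (nat_lit 50700) (nat_lit 0) (nat_lit 25992) (XT.nd (nat_lit 78) (nat_lit 0) (nat_lit 0) (XT.lf (nat_lit 0) (nat_lit 2471363449) (nat_lit 152) (nat_lit 5062599223) (nat_lit 228) (nat_lit 18963509012) (nat_lit 21) (nat_lit 5) (nat_lit 23) (nat_lit 5) (nat_lit 24) (nat_lit 5) (nat_lit 529) (nat_lit 360) (nat_lit 251)) (XT.nd (nat_lit 78) (nat_lit 0) (nat_lit 0) (XT.lf (nat_lit 0) (nat_lit 11645144245) (nat_lit 152) (nat_lit 221023233) (nat_lit 228) (nat_lit 15059327668) (nat_lit 21) (nat_lit 5) (nat_lit 23) (nat_lit 5) (nat_lit 24) (nat_lit 5) (nat_lit 530) (nat_lit 360) (nat_lit 250)) (XT.lf (nat_lit 0) (nat_lit 16297076185) (nat_lit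 228) (nat_lit 6423845483) (nat_lit 76) (nat_lit 4640919643) (nat_lit 21) (nat_lit 5) (nat_lit 24) (nat_lit 5) (nat_lit 22) (nat_lit 4) (nat_lit 531) (nat_lit 360) (nat_lit 249)))) (XT.nd (nat_lit 156) (nat_lit 912) (nat_lit 0) (XT.nd (nat_lit 78) (nat_lit 1444) (nat_lit 0) (XT.lf (nat_lit 0) (nat_lit 569072987) (nat_lit 1748) (nat_lit 2450338881) (nat_lit 0) (nat_lit 569072987) (nat_lit 394) (nat_lit 5) (nat_lit 417) (nat_lit 4) (nat_lit 394) (nat_lit 4) (nat_lit 418) (nat_lit 361) (nat_lit 361)) (XT.lf (nat_lit 0) (nat_lit 17472161) (nat_lit 1444) (nat_lit 4417595195) (nat_lit 1444) (nat_lit 2782215360) (nat_lit 375) (nat_lit 4) (nat_lit 394) (nat_lit 5) (nat_lit 394) (nat_lit 4) (nat_lit 419) (nat_lit 361) (nat_lit 360))) (XT.nd (nat_lit 78) (nat_lit 836) (nat_lit 0) (XT.lf (nat_lit 0) (nat_lit 500247041) (nat_lit 1520) (nat_lit 2228194375) (nat_lit 76) (nat_lit 4530590519) (nat_lit 374) (nat_lit 5) (nat_lit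 394) (nat_lit 5) (nat_lit 375) (nat_lit 4) (nat_lit 420) (nat_lit 361) (nat_lit 359)) (XT.lf (nat_lit 0) (nat_lit 2795261344) (nat_lit 836) (nat_lit 970001420) (nat_lit 912) (nat_lit 3536957273) (nat_lit 363) (nat_lit 5) (nat_lit 374) (nat_lit 5) (nat_lit 375) (nat_lit 4) (nat_lit 421) (nat_lit 361) (nat_lit 358))))))) (XT.nd (nat_lit 1092) (nat_lit 5928) (nat_lit 0) (XT.nd (nat_lit 546) (nat_lit 3648) (nat_lit 0) (XT.nd (nat_lit 234) (nat_lit 2508) (nat_lit 0) (XT.nd (nat_lit 78) (nat_lit 912) (nat_lit 0) (XT.lf (nat_lit 0) (nat_lit 538332787) (nat_lit 912) (nat_lit 6517930970) (nat_lit 912) (nat_lit 290848239) (nat_lit 351) (nat_lit 4) (nat_lit 363) (nat_lit 5) (nat_lit 363) (nat_lit 4) (nat_lit 422) (nat_lit 361) (nat_lit 357)) (XT.nd (nat_lit 78) (nat_lit 836) (nat_lit 0) (XT.lf (nat_lit 0) (nat_lit 2954575797) (nat_lit 988) (nat_lit 1740053522) (nat_lit 76) (nat_lit 2698451939) (nat_lit 350) (nat_lit 5) (nat_lit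 363) (nat_lit 5) (nat_lit 351) (nat_lit 4) (nat_lit 423) (nat_lit 361) (nat_lit 356)) (XT.lf (nat_lit 0) (nat_lit 3406973659) (nat_lit 836) (nat_lit 2814531679) (nat_lit 912) (nat_lit 1219266976) (nat_lit 339) (nat_lit 5) (nat_lit 350) (nat_lit 5) (nat_lit 351) (nat_lit 4) (nat_lit 424) (nat_lit 361) (nat_lit 355)))) (XT.nd (nat_lit 156) (nat_lit 1596) (nat_lit 0) (XT.nd (nat_lit 78) (nat_lit 0) (nat_lit 0) (XT.lf (nat_lit 0) (nat_lit 1126376510) (nat_lit 836) (nat_lit 868671923) (nat_lit 912) (nat_lit 5494994086) (nat_lit 327) (nat_lit 5) (nat_lit 338) (nat_lit 5) (nat_lit 339) (nat_lit 5) (nat_lit 425) (nat_lit 361) (nat_lit 354)) (XT.lf (nat_lit 0) (nat_lit 5231273672) (nat_lit 912) (nat_lit 1177870936) (nat_lit 76) (nat_lit 1131561111) (nat_lit 327) (nat_lit 5) (nat_lit 339) (nat_lit 5) (nat_lit 328) (nat_lit 4) (nat_lit 426) (nat_lit 361) (nat_lit 353))) (XT.nd (nat_lit 78) (nat_lit 760) (nat_lit 0) (XT.lf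 (nat_lit 0) (nat_lit 900249537) (nat_lit 836) (nat_lit 3505047274) (nat_lit 76) (nat_lit 3187554552) (nat_lit 316) (nat_lit 5) (nat_lit 327) (nat_lit 5) (nat_lit 317) (nat_lit 5) (nat_lit 427) (nat_lit 361) (nat_lit 352)) (XT.lf (nat_lit 0) (nat_lit 1770621513) (nat_lit 760) (nat_lit 2332995002) (nat_lit 836) (nat_lit 3542954807) (nat_lit 306) (nat_lit 5) (nat_lit 316) (nat_lit 5) (nat_lit 317) (nat_lit 5) (nat_lit 428) (nat_lit 361) (nat_lit 351))))) (XT.nd (nat_lit 234) (nat_lit 2128) (nat_lit 0) (XT.nd (nat_lit 78) (nat_lit 1520) (nat_lit 0) (XT.lf (nat_lit 0) (nat_lit 7133619549) (nat_lit 760) (nat_lit 202617242) (nat_lit 836) (nat_lit 365869301) (nat_lit 306) (nat_lit 5) (nat_lit 316) (nat_lit 5) (nat_lit 317) (nat_lit 5) (nat_lit 429) (nat_lit 361) (nat_lit 350)) (XT.nd (nat_lit 78) (nat_lit 760) (nat_lit 0) (XT.lf (nat_lit 0) (nat_lit 2823841170) (nat_lit 760) (nat_lit 2947501333) (nat_lit 76) (nat_lit 1987342448)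 (nat_lit 296) (nat_lit 5) (nat_lit 306) (nat_lit 5) (nat_lit 297) (nat_lit 5) (nat_lit 430) (nat_lit 361) (nat_lit 349)) (XT.lf (nat_lit 0) (nat_lit 2452290962) (nat_lit 760) (nat_lit 3584309773) (nat_lit 836) (nat_lit 1780504792) (nat_lit 286) (nat_lit 5) (nat_lit 296) (nat_lit 5) (nat_lit 297) (nat_lit 5) (nat_lit 431) (nat_lit 361) (nat_lit 348)))) (XT.nd (nat_lit 156) (nat_lit 1368) (nat_lit 0) (XT.nd (nat_lit 78) (nat_lit 0) (nat_lit 0) (XT.lf (nat_lit 0) (nat_lit 48636996) (nat_lit 684) (nat_lit 1332988781) (nat_lit 760) (nat_lit 6495651111) (nat_lit 276) (nat_lit 5) (nat_lit 285) (nat_lit 5) (nat_lit 286) (nat_lit 5) (nat_lit 432) (nat_lit 361) (nat_lit 347)) (XT.lf (nat_lit 0) (nat_lit 4569618302) (nat_lit 760) (nat_lit 2380071060) (nat_lit 76) (nat_lit 989036911) (nat_lit 276) (nat_lit 5) (nat_lit 286) (nat_lit 5) (nat_lit 277) (nat_lit 5) (nat_lit 433) (nat_lit 361) (nat_lit 346))) (XT.nd (nat_lit 78)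 (nat_lit 684) (nat_lit 0) (XT.lf (nat_lit 0) (nat_lit 3144257479) (nat_lit 684) (nat_lit 4651398787) (nat_lit 760) (nat_lit 206301084) (nat_lit 267) (nat_lit 5) (nat_lit 276) (nat_lit 5) (nat_lit 277) (nat_lit 5) (nat_lit 434) (nat_lit 361) (nat_lit 345)) (XT.lf (nat_lit 0) (nat_lit 668300714) (nat_lit 608) (nat_lit 2277573641) (nat_lit 684) (nat_lit 5120909151) (nat_lit 258) (nat_lit 5) (nat_lit 266) (nat_lit 5) (nat_lit 267) (nat_lit 5) (nat_lit 435) (nat_lit 361) (nat_lit 344)))))) (XT.nd (nat_lit 546) (nat_lit 3268) (nat_lit 0) (XT.nd (nat_lit 234) (nat_lit 1292) (nat_lit 0) (XT.nd (nat_lit 78) (nat_lit 1368) (nat_lit 0) (XT.lf (nat_lit 0) (nat_lit 6137953761) (nat_lit 684) (nat_lit 1830663250) (nat_lit 76) (nat_lit 164705646) (nat_lit 258) (nat_lit 5) (nat_lit 267) (nat_lit 5) (nat_lit 259) (nat_lit 5) (nat_lit 436) (nat_lit 361) (nat_lit 343)) (XT.nd (nat_lit 78) (nat_lit 608) (nat_lit 0) (XT.lf (nat_lit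 0) (nat_lit 1163726180) (nat_lit 760) (nat_lit 4390898863) (nat_lit 76) (nat_lit 2646713744) (nat_lit 248) (nat_lit 5) (nat_lit 258) (nat_lit 5) (nat_lit 249) (nat_lit 5) (nat_lit 437) (nat_lit 361) (nat_lit 342)) (XT.lf (nat_lit 0) (nat_lit 1256327853) (nat_lit 608) (nat_lit 3070677972) (nat_lit 684) (nat_lit 3944125328) (nat_lit 240) (nat_lit 5) (nat_lit 248) (nat_lit 5) (nat_lit 249) (nat_lit 5) (nat_lit 438) (nat_lit 361) (nat_lit 341)))) (XT.nd (nat_lit 156) (nat_lit 608) (nat_lit 0) (XT.nd (nat_lit 78) (nat_lit 684) (nat_lit 0) (XT.lf (nat_lit 0) (nat_lit 7010886104) (nat_lit 608) (nat_lit 519915844) (nat_lit 684) (nat_lit 812005845) (nat_lit 240) (nat_lit 5) (nat_lit 248) (nat_lit 5) (nat_lit 249) (nat_lit 5) (nat_lit 439) (nat_lit 361) (nat_lit 340)) (XT.lf (nat_lit 0) (nat_lit 2342515553) (nat_lit 684) (nat_lit 3986978107) (nat_lit 76) (nat_lit 2086326845) (nat_lit 231) (nat_lit 5) (nat_lit 240) (nat_lit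 5) (nat_lit 232) (nat_lit 5) (nat_lit 440) (nat_lit 361) (nat_lit 339))) (XT.nd (nat_lit 78) (nat_lit 76) (nat_lit 0) (XT.lf (nat_lit 0) (nat_lit 1782141327) (nat_lit 532) (nat_lit 3740081569) (nat_lit 608) (nat_lit 2968535379) (nat_lit 224) (nat_lit 5) (nat_lit 231) (nat_lit 5) (nat_lit 232) (nat_lit 5) (nat_lit 441) (nat_lit 361) (nat_lit 338)) (XT.lf (nat_lit 0) (nat_lit 171823709) (nat_lit 608) (nat_lit 912827909) (nat_lit 76) (nat_lit 7483025815) (nat_lit 223) (nat_lit 5) (nat_lit 231) (nat_lit 5) (nat_lit 224) (nat_lit 5) (nat_lit 442) (nat_lit 361) (nat_lit 337))))) (XT.nd (nat_lit 312) (nat_lit 1520) (nat_lit 0) (XT.nd (nat_lit 156) (nat_lit 608) (nat_lit 0) (XT.nd (nat_lit 78) (nat_lit 532) (nat_lit 0) (XT.lf (nat_lit 0) (nat_lit 3328569881) (nat_lit 684) (nat_lit 3676488508) (nat_lit 76) (nat_lit 1640847272) (nat_lit 215) (nat_lit 5) (nat_lit 224) (nat_lit 5) (nat_lit 216) (nat_lit 5) (nat_lit 443) (nat_lit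 361) (nat_lit 336)) (XT.lf (nat_lit 0) (nat_lit 2213300801) (nat_lit 532) (nat_lit 4313499969) (nat_lit 608) (nat_lit 2199359801) (nat_lit 208) (nat_lit 5) (nat_lit 215) (nat_lit 5) (nat_lit 216) (nat_lit 5) (nat_lit 444) (nat_lit 361) (nat_lit 335))) (XT.nd (nat_lit 78) (nat_lit 532) (nat_lit 0) (XT.lf (nat_lit 0) (nat_lit 943774756) (nat_lit 608) (nat_lit 608202541) (nat_lit 76) (nat_lit 7256430591) (nat_lit 207) (nat_lit 5) (nat_lit 215) (nat_lit 5) (nat_lit 208) (nat_lit 5) (nat_lit 445) (nat_lit 361) (nat_lit 334)) (XT.lf (nat_lit 0) (nat_lit 4115693045) (nat_lit 608) (nat_lit 3493431377) (nat_lit 76) (nat_lit 1283005000) (nat_lit 200) (nat_lit 5) (nat_lit 208) (nat_lit 5) (nat_lit 201) (nat_lit 5) (nat_lit 446) (nat_lit 361) (nat_lit 333)))) (XT.nd (nat_lit 156) (nat_lit 988) (nat_lit 0) (XT.nd (nat_lit 78) (nat_lit 76) (nat_lit 0) (XT.lf (nat_lit 0) (nat_lit 2515165103) (nat_lit 456) (nat_lit 4818829769)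 (nat_lit 532) (nat_lit 1643898508) (nat_lit 194) (nat_lit 5) (nat_lit 200) (nat_lit 5) (nat_lit 201) (nat_lit 5) (nat_lit 447) (nat_lit 361) (nat_lit 332)) (XT.lf (nat_lit 0) (nat_lit 1506955975) (nat_lit 532) (nat_lit 448133915) (nat_lit 76) (nat_lit 7110586916) (nat_lit 193) (nat_lit 5) (nat_lit 200) (nat_lit 5) (nat_lit 194) (nat_lit 5) (nat_lit 448) (nat_lit 361) (nat_lit 331))) (XT.nd (nat_lit 78) (nat_lit 456) (nat_lit 0) (XT.lf (nat_lit 0) (nat_lit 4695590981) (nat_lit 608) (nat_lit 3474272767) (nat_lit 76) (nat_lit 985224671) (nat_lit 186) (nat_lit 5) (nat_lit 194) (nat_lit 5) (nat_lit 187) (nat_lit 5) (nat_lit 449) (nat_lit 361) (nat_lit 330)) (XT.lf (nat_lit 0) (nat_lit 2650528958) (nat_lit 456) (nat_lit 5284401131) (nat_lit 532) (nat_lit 1311644396) (nat_lit 180) (nat_lit 5) (nat_lit 186) (nat_lit 5) (nat_lit 187) (nat_lit 5) (nat_lit 450) (nat_lit 361) (nat_lit 329))))))))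
noncomputable def xc58 : XT := (XT.nd (nat_lit 2184) (nat_lit 3724) (nat_lit 0) (XT.nd (nat_lit 1092) (nat_lit 2736) (nat_lit 0) (XT.nd (nat_lit 546) (nat_lit 2128) (nat_lit 0) (XT.nd (nat_lit 234) (nat_lit 988) (nat_lit 0) (XT.nd (nat_lit 78) (nat_lit 912) (nat_lit 0) (XT.lf (nat_lit 0) (nat_lit 1851644636) (nat_lit 532) (nat_lit 470662781) (nat_lit 76) (nat_lit 7017812392) (nat_lit 179) (nat_lit 5) (nat_lit 186) (nat_lit 5) (nat_lit 180) (nat_lit 5) (nat_lit 451) (nat_lit 361) (nat_lit 328)) (XT.nd (nat_lit 78) (nat_lit 456) (nat_lit 0) (XT.lf (nat_lit 0) (nat_lit 5057747674) (nat_lit 532) (nat_lit 3658325316) (nat_lit 76) (nat_lit 719370843) (nat_lit 173) (nat_lit 5) (nat_lit 180) (nat_lit 5) (nat_lit 174) (nat_lit 5) (nat_lit 452) (nat_lit 361) (nat_lit 327)) (XT.lf (nat_lit 0) (nat_lit 2579230552) (nat_lit 456) (nat_lit 5739239662) (nat_lit 532) (nat_lit 1214417132) (nat_lit 167) (nat_lit 5) (nat_lit 173)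 (nat_lit 5) (nat_lit 174) (nat_lit 5) (nat_lit 453) (nat_lit 361) (nat_lit 326)))) (XT.nd (nat_lit 156) (nat_lit 456) (nat_lit 0) (XT.nd (nat_lit 78) (nat_lit 456) (nat_lit 0) (XT.lf (nat_lit 0) (nat_lit 1965800039) (nat_lit 532) (nat_lit 716910749) (nat_lit 76) (nat_lit 6949728486) (nat_lit 166) (nat_lit 5) (nat_lit 173) (nat_lit 5) (nat_lit 167) (nat_lit 5) (nat_lit 454) (nat_lit 361) (nat_lit 325)) (XT.lf (nat_lit 0) (nat_lit 5189280410) (nat_lit 532) (nat_lit 4088161805) (nat_lit 76) (nat_lit 456482714) (nat_lit 160) (nat_lit 5) (nat_lit 167) (nat_lit 5) (nat_lit 161) (nat_lit 5) (nat_lit 455) (nat_lit 361) (nat_lit 324))) (XT.nd (nat_lit 78) (nat_lit 76) (nat_lit 0) (XT.lf (nat_lit 0) (nat_lit 2257726193) (nat_lit 380) (nat_lit 6213339960) (nat_lit 456) (nat_lit 1366518639) (nat_lit 155) (nat_lit 5) (nat_lit 160) (nat_lit 5) (nat_lit 161) (nat_lit 5) (nat_lit 456) (nat_lit 361) (nat_lit 323)) (XT.lf (nat_lit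 0) (nat_lit 1834905648) (nat_lit 456) (nat_lit 1231514839) (nat_lit 76) (nat_lit 6876987672) (nat_lit 154) (nat_lit 5) (nat_lit 160) (nat_lit 5) (nat_lit 155) (nat_lit 5) (nat_lit 457) (nat_lit 361) (nat_lit 322))))) (XT.nd (nat_lit 234) (nat_lit 1216) (nat_lit 0) (XT.nd (nat_lit 78) (nat_lit 456) (nat_lit 0) (XT.lf (nat_lit 0) (nat_lit 5074772686) (nat_lit 532) (nat_lit 4810064421) (nat_lit 76) (nat_lit 166495977) (nat_lit 148) (nat_lit 5) (nat_lit 155) (nat_lit 5) (nat_lit 149) (nat_lit 5) (nat_lit 458) (nat_lit 361) (nat_lit 321)) (XT.nd (nat_lit 78) (nat_lit 76) (nat_lit 0) (XT.lf (nat_lit 0) (nat_lit 1638627951) (nat_lit 380) (nat_lit 6737953289) (nat_lit 456) (nat_lit 1784911979) (nat_lit 143) (nat_lit 5) (nat_lit 148) (nat_lit 5) (nat_lit 149) (nat_lit 5) (nat_lit 459) (nat_lit 361) (nat_lit 320)) (XT.lf (nat_lit 0) (nat_lit 1441787793) (nat_lit 456) (nat_lit 2063100257) (nat_lit 76) (nat_lit 6768986280)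 (nat_lit 142) (nat_lit 5) (nat_lit 148) (nat_lit 5) (nat_lit 143) (nat_lit 5) (nat_lit 460) (nat_lit 361) (nat_lit 319)))) (XT.nd (nat_lit 156) (nat_lit 456) (nat_lit 0) (XT.nd (nat_lit 78) (nat_lit 380) (nat_lit 0) (XT.lf (nat_lit 0) (nat_lit 4512810625) (nat_lit 380) (nat_lit 184470076) (nat_lit 456) (nat_lit 5691241676) (nat_lit 137) (nat_lit 5) (nat_lit 142) (nat_lit 5) (nat_lit 143) (nat_lit 5) (nat_lit 461) (nat_lit 361) (nat_lit 318)) (XT.lf (nat_lit 0) (nat_lit 670199809) (nat_lit 380) (nat_lit 7345891971) (nat_lit 456) (nat_lit 2489425541) (nat_lit 132) (nat_lit 5) (nat_lit 137) (nat_lit 5) (nat_lit 138) (nat_lit 5) (nat_lit 462) (nat_lit 361) (nat_lit 317))) (XT.nd (nat_lit 78) (nat_lit 380) (nat_lit 0) (XT.lf (nat_lit 0) (nat_lit 766409014) (nat_lit 456) (nat_lit 3264795979) (nat_lit 76) (nat_lit 6593560447) (nat_lit 131) (nat_lit 5) (nat_lit 137) (nat_lit 5) (nat_lit 132) (nat_lit 5) (nat_lit 463) (nat_lit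 361) (nat_lit 316)) (XT.lf (nat_lit 0) (nat_lit 3405623953) (nat_lit 380) (nat_lit 630597768) (nat_lit 456) (nat_lit 6710220858) (nat_lit 126) (nat_lit 5) (nat_lit 131) (nat_lit 5) (nat_lit 132) (nat_lit 5) (nat_lit 464) (nat_lit 361) (nat_lit 315)))))) (XT.nd (nat_lit 546) (nat_lit 1292) (nat_lit 0) (XT.nd (nat_lit 234) (nat_lit 684) (nat_lit 0) (XT.nd (nat_lit 78) (nat_lit 760) (nat_lit 0) (XT.lf (nat_lit 0) (nat_lit 7372232794) (nat_lit 456) (nat_lit 694956974) (nat_lit 76) (nat_lit 2803364174) (nat_lit 126) (nat_lit 5) (nat_lit 132) (nat_lit 5) (nat_lit 127) (nat_lit 5) (nat_lit 465) (nat_lit 361) (nat_lit 314)) (XT.nd (nat_lit 78) (nat_lit 456) (nat_lit 0) (XT.lf (nat_lit 0) (nat_lit 6100857724) (nat_lit 304) (nat_lit 4678993523) (nat_lit 380) (nat_lit 217214937) (nat_lit 122) (nat_lit 5) (nat_lit 126) (nat_lit 5) (nat_lit 127) (nat_lit 5) (nat_lit 466) (nat_lit 361) (nat_lit 313)) (XT.lf (nat_lit 0) (nat_lit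 1861106367) (nat_lit 380) (nat_lit 1205353581) (nat_lit 456) (nat_lit 8059698290) (nat_lit 116) (nat_lit 5) (nat_lit 121) (nat_lit 5) (nat_lit 122) (nat_lit 5) (nat_lit 467) (nat_lit 361) (nat_lit 312)))) (XT.nd (nat_lit 156) (nat_lit 380) (nat_lit 0) (XT.nd (nat_lit 78) (nat_lit 304) (nat_lit 0) (XT.lf (nat_lit 0) (nat_lit 6422616784) (nat_lit 456) (nat_lit 2513283711) (nat_lit 76) (nat_lit 2321724033) (nat_lit 116) (nat_lit 5) (nat_lit 122) (nat_lit 5) (nat_lit 117) (nat_lit 5) (nat_lit 468) (nat_lit 361) (nat_lit 311)) (XT.lf (nat_lit 0) (nat_lit 4364731376) (nat_lit 304) (nat_lit 5479704458) (nat_lit 380) (nat_lit 1547328674) (nat_lit 112) (nat_lit 5) (nat_lit 116) (nat_lit 5) (nat_lit 117) (nat_lit 5) (nat_lit 469) (nat_lit 361) (nat_lit 310))) (XT.nd (nat_lit 78) (nat_lit 304) (nat_lit 0) (XT.lf (nat_lit 0) (nat_lit 1761715584) (nat_lit 380) (nat_lit 183896680) (nat_lit 76) (nat_lit 9583169076) (nat_lit 111)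 (nat_lit 5) (nat_lit 116) (nat_lit 5) (nat_lit 112) (nat_lit 5) (nat_lit 470) (nat_lit 361) (nat_lit 309)) (XT.lf (nat_lit 0) (nat_lit 5134573379) (nat_lit 380) (nat_lit 4860969187) (nat_lit 76) (nat_lit 1672438629) (nat_lit 107) (nat_lit 5) (nat_lit 112) (nat_lit 5) (nat_lit 108) (nat_lit 5) (nat_lit 471) (nat_lit 361) (nat_lit 308))))) (XT.nd (nat_lit 234) (nat_lit 608) (nat_lit 0) (XT.nd (nat_lit 78) (nat_lit 380) (nat_lit 0) (XT.lf (nat_lit 0) (nat_lit 2087493414) (nat_lit 304) (nat_lit 6478361975) (nat_lit 380) (nat_lit 3244304311) (nat_lit 103) (nat_lit 5) (nat_lit 107) (nat_lit 5) (nat_lit 108) (nat_lit 5) (nat_lit 472) (nat_lit 361) (nat_lit 307)) (XT.nd (nat_lit 78) (nat_lit 304) (nat_lit 0) (XT.lf (nat_lit 0) (nat_lit 105349307) (nat_lit 380) (nat_lit 2772052291) (nat_lit 76) (nat_lit 9077854900) (nat_lit 102) (nat_lit 5) (nat_lit 107) (nat_lit 5) (nat_lit 103) (nat_lit 5) (nat_lit 473) (nat_lit 361)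 (nat_lit 306)) (XT.lf (nat_lit 0) (nat_lit 3475949589) (nat_lit 380) (nat_lit 7812205888) (nat_lit 76) (nat_lit 814736150) (nat_lit 98) (nat_lit 5) (nat_lit 103) (nat_lit 5) (nat_lit 99) (nat_lit 5) (nat_lit 474) (nat_lit 361) (nat_lit 305)))) (XT.nd (nat_lit 156) (nat_lit 380) (nat_lit 0) (XT.nd (nat_lit 78) (nat_lit 228) (nat_lit 0) (XT.lf (nat_lit 0) (nat_lit 6916052042) (nat_lit 380) (nat_lit 796533812) (nat_lit 76) (nat_lit 4540864725) (nat_lit 98) (nat_lit 5) (nat_lit 103) (nat_lit 5) (nat_lit 99) (nat_lit 5) (nat_lit 475) (nat_lit 361) (nat_lit 304)) (XT.lf (nat_lit 0) (nat_lit 6387835201) (nat_lit 228) (nat_lit 4043604627) (nat_lit 304) (nat_lit 1975463893) (nat_lit 95) (nat_lit 5) (nat_lit 98) (nat_lit 5) (nat_lit 99) (nat_lit 5) (nat_lit 476) (nat_lit 361) (nat_lit 303))) (XT.nd (nat_lit 78) (nat_lit 0) (nat_lit 0) (XT.lf (nat_lit 0) (nat_lit 1112987271) (nat_lit 304) (nat_lit 299359535) (nat_lit 380)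 (nat_lit 11151348471) (nat_lit 90) (nat_lit 5) (nat_lit 94) (nat_lit 5) (nat_lit 95) (nat_lit 5) (nat_lit 477) (nat_lit 361) (nat_lit 302)) (XT.lf (nat_lit 0) (nat_lit 4870287361) (nat_lit 380) (nat_lit 4345453845) (nat_lit 76) (nat_lit 3507055743) (nat_lit 90) (nat_lit 5) (nat_lit 95) (nat_lit 5) (nat_lit 91) (nat_lit 5) (nat_lit 478) (nat_lit 361) (nat_lit 301))))))) (XT.nd (nat_lit 1092) (nat_lit 1596) (nat_lit 0) (XT.nd (nat_lit 546) (nat_lit 988) (nat_lit 0) (XT.nd (nat_lit 234) (nat_lit 532) (nat_lit 0) (XT.nd (nat_lit 78) (nat_lit 380) (nat_lit 0) (XT.lf (nat_lit 0) (nat_lit 2883117327) (nat_lit 228) (nat_lit 5500940711) (nat_lit 304) (nat_lit 4501300899) (nat_lit 87) (nat_lit 5) (nat_lit 90) (nat_lit 5) (nat_lit 91) (nat_lit 5) (nat_lit 479) (nat_lit 361) (nat_lit 300)) (XT.nd (nat_lit 78) (nat_lit 380) (nat_lit 0) (XT.lf (nat_lit 0) (nat_lit 10260904866) (nat_lit 228) (nat_lit 1702644212) (nat_lit 304)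 (nat_lit 1087725668) (nat_lit 87) (nat_lit 5) (nat_lit 90) (nat_lit 5) (nat_lit 91) (nat_lit 5) (nat_lit 480) (nat_lit 361) (nat_lit 299)) (XT.lf (nat_lit 0) (nat_lit 2373286246) (nat_lit 380) (nat_lit 8678245771) (nat_lit 76) (nat_lit 2168465713) (nat_lit 82) (nat_lit 5) (nat_lit 87) (nat_lit 5) (nat_lit 83) (nat_lit 5) (nat_lit 481) (nat_lit 361) (nat_lit 298)))) (XT.nd (nat_lit 156) (nat_lit 304) (nat_lit 0) (XT.nd (nat_lit 78) (nat_lit 228) (nat_lit 0) (XT.lf (nat_lit 0) (nat_lit 5885982442) (nat_lit 380) (nat_lit 1405817316) (nat_lit 76) (nat_lit 6100221861) (nat_lit 82) (nat_lit 5) (nat_lit 87) (nat_lit 5) (nat_lit 83) (nat_lit 5) (nat_lit 482) (nat_lit 361) (nat_lit 297)) (XT.lf (nat_lit 0) (nat_lit 6038477186) (nat_lit 228) (nat_lit 3437200812) (nat_lit 304) (nat_lit 4091683685) (nat_lit 79) (nat_lit 5) (nat_lit 82) (nat_lit 5) (nat_lit 83) (nat_lit 5) (nat_lit 483) (nat_lit 361) (nat_lit 296))) (XT.nd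 (nat_lit 78) (nat_lit 304) (nat_lit 0) (XT.lf (nat_lit 0) (nat_lit 13117578385) (nat_lit 304) (nat_lit 151532210) (nat_lit 76) (nat_lit 477500131) (nat_lit 79) (nat_lit 5) (nat_lit 83) (nat_lit 5) (nat_lit 80) (nat_lit 5) (nat_lit 484) (nat_lit 361) (nat_lit 295)) (XT.lf (nat_lit 0) (nat_lit 2904167317) (nat_lit 304) (nat_lit 6552093817) (nat_lit 76) (nat_lit 4472029322) (nat_lit 75) (nat_lit 5) (nat_lit 79) (nat_lit 5) (nat_lit 76) (nat_lit 5) (nat_lit 485) (nat_lit 361) (nat_lit 294))))) (XT.nd (nat_lit 234) (nat_lit 532) (nat_lit 0) (XT.nd (nat_lit 78) (nat_lit 228) (nat_lit 0) (XT.lf (nat_lit 0) (nat_lit 898560010) (nat_lit 228) (nat_lit 5576319430) (nat_lit 304) (nat_lit 7639145556) (nat_lit 72) (nat_lit 5) (nat_lit 75) (nat_lit 5) (nat_lit 76) (nat_lit 5) (nat_lit 486) (nat_lit 361) (nat_lit 293)) (XT.nd (nat_lit 78) (nat_lit 228) (nat_lit 0) (XT.lf (nat_lit 0) (nat_lit 8535381459) (nat_lit 228) (nat_lit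 1594282124) (nat_lit 304) (nat_lit 4173567093) (nat_lit 72) (nat_lit 5) (nat_lit 75) (nat_lit 5) (nat_lit 76) (nat_lit 5) (nat_lit 487) (nat_lit 361) (nat_lit 292)) (XT.lf (nat_lit 0) (nat_lit 1784967404) (nat_lit 228) (nat_lit 12069359335) (nat_lit 304) (nat_lit 641967483) (nat_lit 69) (nat_lit 5) (nat_lit 72) (nat_lit 5) (nat_lit 73) (nat_lit 5) (nat_lit 488) (nat_lit 361) (nat_lit 291)))) (XT.nd (nat_lit 156) (nat_lit 228) (nat_lit 0) (XT.nd (nat_lit 78) (nat_lit 228) (nat_lit 0) (XT.lf (nat_lit 0) (nat_lit 2940196807) (nat_lit 304) (nat_lit 5206677415) (nat_lit 76) (nat_lit 6545594325) (nat_lit 68) (nat_lit 5) (nat_lit 72) (nat_lit 5) (nat_lit 69) (nat_lit 5) (nat_lit 489) (nat_lit 361) (nat_lit 290)) (XT.lf (nat_lit 0) (nat_lit 2425404454) (nat_lit 228) (nat_lit 4145599841) (nat_lit 304) (nat_lit 8321774153) (nat_lit 65) (nat_lit 5) (nat_lit 68) (nat_lit 5) (nat_lit 69) (nat_lit 5) (nat_lit 490) (nat_lit 361)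 (nat_lit 289))) (XT.nd (nat_lit 78) (nat_lit 228) (nat_lit 0) (XT.lf (nat_lit 0) (nat_lit 10230817532) (nat_lit 228) (nat_lit 48657887) (nat_lit 304) (nat_lit 4817526878) (nat_lit 65) (nat_lit 5) (nat_lit 68) (nat_lit 5) (nat_lit 69) (nat_lit 5) (nat_lit 491) (nat_lit 361) (nat_lit 288)) (XT.lf (nat_lit 0) (nat_lit 2848189140) (nat_lit 228) (nat_lit 11229802081) (nat_lit 304) (nat_lit 1227010425) (nat_lit 62) (nat_lit 5) (nat_lit 65) (nat_lit 5) (nat_lit 66) (nat_lit 5) (nat_lit 492) (nat_lit 361) (nat_lit 287)))))) (XT.nd (nat_lit 546) (nat_lit 912) (nat_lit 0) (XT.nd (nat_lit 234) (nat_lit 456) (nat_lit 0) (XT.nd (nat_lit 78) (nat_lit 152) (nat_lit 0) (XT.lf (nat_lit 0) (nat_lit 2407193852) (nat_lit 304) (nat_lit 4799496346) (nat_lit 76) (nat_lit 8310086407) (nat_lit 61) (nat_lit 5) (nat_lit 65) (nat_lit 5) (nat_lit 62) (nat_lit 5) (nat_lit 493) (nat_lit 361) (nat_lit 286)) (XT.nd (nat_lit 78) (nat_lit 0) (nat_lit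 0) (XT.lf (nat_lit 0) (nat_lit 2993620531) (nat_lit 152) (nat_lit 3094683899) (nat_lit 228) (nat_lit 9644515422) (nat_lit 59) (nat_lit 5) (nat_lit 61) (nat_lit 5) (nat_lit 62) (nat_lit 5) (nat_lit 494) (nat_lit 361) (nat_lit 285)) (XT.lf (nat_lit 0) (nat_lit 9853921356) (nat_lit 228) (nat_lit 5000848134) (nat_lit 76) (nat_lit 1098204671) (nat_lit 59) (nat_lit 5) (nat_lit 62) (nat_lit 5) (nat_lit 60) (nat_lit 5) (nat_lit 495) (nat_lit 361) (nat_lit 284)))) (XT.nd (nat_lit 156) (nat_lit 152) (nat_lit 0) (XT.nd (nat_lit 78) (nat_lit 76) (nat_lit 0) (XT.lf (nat_lit 0) (nat_lit 2861645583) (nat_lit 228) (nat_lit 10844166202) (nat_lit 304) (nat_lit 2471508272) (nat_lit 56) (nat_lit 5) (nat_lit 59) (nat_lit 5) (nat_lit 60) (nat_lit 5) (nat_lit 496) (nat_lit 361) (nat_lit 283)) (XT.lf (nat_lit 0) (nat_lit 1218193232) (nat_lit 304) (nat_lit 5512231443) (nat_lit 76) (nat_lit 9675461702) (nat_lit 55) (nat_lit 5) (nat_lit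 59) (nat_lit 5) (nat_lit 56) (nat_lit 5) (nat_lit 497) (nat_lit 361) (nat_lit 282))) (XT.nd (nat_lit 78) (nat_lit 0) (nat_lit 0) (XT.lf (nat_lit 0) (nat_lit 2415804711) (nat_lit 152) (nat_lit 2520995381) (nat_lit 228) (nat_lit 11702140380) (nat_lit 53) (nat_lit 5) (nat_lit 55) (nat_lit 5) (nat_lit 56) (nat_lit 5) (nat_lit 498) (nat_lit 361) (nat_lit 281)) (XT.lf (nat_lit 0) (nat_lit 8751124856) (nat_lit 228) (nat_lit 6357460404) (nat_lit 76) (nat_lit 1767650612) (nat_lit 53) (nat_lit 5) (nat_lit 56) (nat_lit 5) (nat_lit 54) (nat_lit 5) (nat_lit 499) (nat_lit 361) (nat_lit 280))))) (XT.nd (nat_lit 312) (nat_lit 456) (nat_lit 0) (XT.nd (nat_lit 156) (nat_lit 228) (nat_lit 0) (XT.nd (nat_lit 78) (nat_lit 0) (nat_lit 0) (XT.lf (nat_lit 0) (nat_lit 1624141997) (nat_lit 228) (nat_lit 11017973458) (nat_lit 304) (nat_lit 4476161134) (nat_lit 50) (nat_lit 5) (nat_lit 53) (nat_lit 5) (nat_lit 54) (nat_lit 5) (nat_lit 500)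 (nat_lit 361) (nat_lit 279)) (XT.lf (nat_lit 0) (nat_lit 9805864034) (nat_lit 228) (nat_lit 6821092782) (nat_lit 304) (nat_lit 737887546) (nat_lit 50) (nat_lit 5) (nat_lit 53) (nat_lit 5) (nat_lit 54) (nat_lit 5) (nat_lit 501) (nat_lit 361) (nat_lit 278))) (XT.nd (nat_lit 78) (nat_lit 0) (nat_lit 0) (XT.lf (nat_lit 0) (nat_lit 476004437) (nat_lit 152) (nat_lit 2535618120) (nat_lit 228) (nat_lit 14604792163) (nat_lit 47) (nat_lit 5) (nat_lit 49) (nat_lit 5) (nat_lit 50) (nat_lit 5) (nat_lit 502) (nat_lit 361) (nat_lit 277)) (XT.lf (nat_lit 0) (nat_lit 6863044093) (nat_lit 228) (nat_lit 9160247700) (nat_lit 76) (nat_lit 1848897577) (nat_lit 47) (nat_lit 5) (nat_lit 50) (nat_lit 5) (nat_lit 48) (nat_lit 5) (nat_lit 503) (nat_lit 361) (nat_lit 276)))) (XT.nd (nat_lit 156) (nat_lit 228) (nat_lit 0) (XT.nd (nat_lit 78) (nat_lit 228) (nat_lit 0) (XT.lf (nat_lit 0) (nat_lit 10782613618) (nat_lit 228) (nat_lit 1081644886)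 (nat_lit 76) (nat_lit 6269004956) (nat_lit 47) (nat_lit 5) (nat_lit 50) (nat_lit 5) (nat_lit 48) (nat_lit 5) (nat_lit 504) (nat_lit 361) (nat_lit 275)) (XT.lf (nat_lit 0) (nat_lit 7209584144) (nat_lit 228) (nat_lit 7592630561) (nat_lit 304) (nat_lit 3596917737) (nat_lit 44) (nat_lit 5) (nat_lit 47) (nat_lit 5) (nat_lit 48) (nat_lit 5) (nat_lit 505) (nat_lit 361) (nat_lit 274))) (XT.nd (nat_lit 78) (nat_lit 152) (nat_lit 0) (XT.lf (nat_lit 0) (nat_lit 211026641) (nat_lit 304) (nat_lit 3033982089) (nat_lit 76) (nat_lit 15425642354) (nat_lit 43) (nat_lit 5) (nat_lit 47) (nat_lit 5) (nat_lit 44) (nat_lit 5) (nat_lit 506) (nat_lit 361) (nat_lit 273)) (XT.lf (nat_lit 0) (nat_lit 4064698671) (nat_lit 228) (nat_lit 13667405848) (nat_lit 76) (nat_lit 1214671294) (nat_lit 41) (nat_lit 5) (nat_lit 44) (nat_lit 5) (nat_lit 42) (nat_lit 5) (nat_lit 507) (nat_lit 361) (nat_lit 272))))))))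
noncomputable def xc59 : XT := (XT.nd (nat_lit 52494) (nat_lit 0) (nat_lit 13072) (XT.nd (nat_lit 1092) (nat_lit 608) (nat_lit 0) (XT.nd (nat_lit 546) (nat_lit 380) (nat_lit 0) (XT.nd (nat_lit 234) (nat_lit 380) (nat_lit 0) (XT.nd (nat_lit 78) (nat_lit 152) (nat_lit 0) (XT.lf (nat_lit 0) (nat_lit 8012884636) (nat_lit 228) (nat_lit 5492322389) (nat_lit 76) (nat_lit 5722872941) (nat_lit 41) (nat_lit 5) (nat_lit 44) (nat_lit 5) (nat_lit 42) (nat_lit 5) (nat_lit 508) (nat_lit 361) (nat_lit 271)) (XT.nd (nat_lit 78) (nat_lit 0) (nat_lit 0) (XT.lf (nat_lit 0) (nat_lit 2841572554) (nat_lit 152) (nat_lit 9192848317) (nat_lit 228) (nat_lit 7480707227) (nat_lit 39) (nat_lit 5) (nat_lit 41) (nat_lit 5) (nat_lit 42) (nat_lit 5) (nat_lit 509) (nat_lit 361) (nat_lit 270)) (XT.lf (nat_lit 0) (nat_lit 11374913391) (nat_lit 152) (nat_lit 4774469184) (nat_lit 228) (nat_lit 3658280239) (nat_lit 39) (nat_lit 5) (nat_lit 41) (nat_lit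 5) (nat_lit 42) (nat_lit 5) (nat_lit 510) (nat_lit 361) (nat_lit 269)))) (XT.nd (nat_lit 156) (nat_lit 152) (nat_lit 0) (XT.nd (nat_lit 78) (nat_lit 152) (nat_lit 0) (XT.lf (nat_lit 0) (nat_lit 213885820) (nat_lit 228) (nat_lit 69872197) (nat_lit 76) (nat_lit 19822735350) (nat_lit 38) (nat_lit 5) (nat_lit 41) (nat_lit 5) (nat_lit 39) (nat_lit 5) (nat_lit 511) (nat_lit 361) (nat_lit 268)) (XT.lf (nat_lit 0) (nat_lit 4175010536) (nat_lit 228) (nat_lit 11931255773) (nat_lit 76) (nat_lit 4303345801) (nat_lit 36) (nat_lit 5) (nat_lit 39) (nat_lit 5) (nat_lit 37) (nat_lit 5) (nat_lit 512) (nat_lit 361) (nat_lit 267))) (XT.nd (nat_lit 78) (nat_lit 152) (nat_lit 0) (XT.lf (nat_lit 0) (nat_lit 8194697379) (nat_lit 228) (nat_lit 3562630699) (nat_lit 76) (nat_lit 8961883454) (nat_lit 36) (nat_lit 5) (nat_lit 39) (nat_lit 5) (nat_lit 37) (nat_lit 5) (nat_lit 513) (nat_lit 361) (nat_lit 266)) (XT.lf (nat_lit 0) (nat_lit 4999265364)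 (nat_lit 152) (nat_lit 7305410805) (nat_lit 228) (nat_lit 8730133809) (nat_lit 34) (nat_lit 5) (nat_lit 36) (nat_lit 5) (nat_lit 37) (nat_lit 5) (nat_lit 514) (nat_lit 361) (nat_lit 265))))) (XT.nd (nat_lit 234) (nat_lit 152) (nat_lit 0) (XT.nd (nat_lit 78) (nat_lit 228) (nat_lit 0) (XT.lf (nat_lit 0) (nat_lit 13741284944) (nat_lit 152) (nat_lit 2757102885) (nat_lit 228) (nat_lit 4858306794) (nat_lit 34) (nat_lit 5) (nat_lit 36) (nat_lit 5) (nat_lit 37) (nat_lit 5) (nat_lit 515) (nat_lit 361) (nat_lit 264)) (XT.nd (nat_lit 78) (nat_lit 76) (nat_lit 0) (XT.lf (nat_lit 0) (nat_lit 934190519) (nat_lit 152) (nat_lit 19838025340) (nat_lit 228) (nat_lit 912881063) (nat_lit 32) (nat_lit 5) (nat_lit 34) (nat_lit 5) (nat_lit 35) (nat_lit 4) (nat_lit 516) (nat_lit 361) (nat_lit 263)) (XT.lf (nat_lit 0) (nat_lit 3118334607) (nat_lit 228) (nat_lit 12338842578) (nat_lit 76) (nat_lit 6561536891) (nat_lit 31) (nat_lit 5) (nat_lit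 34) (nat_lit 5) (nat_lit 32) (nat_lit 5) (nat_lit 517) (nat_lit 361) (nat_lit 262)))) (XT.nd (nat_lit 156) (nat_lit 0) (nat_lit 0) (XT.nd (nat_lit 78) (nat_lit 152) (nat_lit 0) (XT.lf (nat_lit 0) (nat_lit 7196382044) (nat_lit 228) (nat_lit 3802828120) (nat_lit 76) (nat_lit 11360108636) (nat_lit 31) (nat_lit 5) (nat_lit 34) (nat_lit 5) (nat_lit 32) (nat_lit 5) (nat_lit 518) (nat_lit 361) (nat_lit 261)) (XT.lf (nat_lit 0) (nat_lit 4931083504) (nat_lit 152) (nat_lit 6435765440) (nat_lit 228) (nat_lit 11339673940) (nat_lit 29) (nat_lit 5) (nat_lit 31) (nat_lit 5) (nat_lit 32) (nat_lit 5) (nat_lit 519) (nat_lit 361) (nat_lit 260))) (XT.nd (nat_lit 78) (nat_lit 0) (nat_lit 0) (XT.lf (nat_lit 0) (nat_lit 13853973206) (nat_lit 152) (nat_lit 1771286612) (nat_lit 228) (nat_lit 7435324888) (nat_lit 29) (nat_lit 5) (nat_lit 31) (nat_lit 5) (nat_lit 32) (nat_lit 5) (nat_lit 520) (nat_lit 361) (nat_lit 259)) (XT.lf (nat_lit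 0) (nat_lit 19967552721) (nat_lit 228) (nat_lit 522627609) (nat_lit 76) (nat_lit 2931577426) (nat_lit 29) (nat_lit 5) (nat_lit 32) (nat_lit 5) (nat_lit 30) (nat_lit 4) (nat_lit 521) (nat_lit 361) (nat_lit 258)))))) (XT.nd (nat_lit 546) (nat_lit 152) (nat_lit 0) (XT.nd (nat_lit 234) (nat_lit 152) (nat_lit 0) (XT.nd (nat_lit 78) (nat_lit 152) (nat_lit 0) (XT.lf (nat_lit 0) (nat_lit 644863169) (nat_lit 152) (nat_lit 15396151441) (nat_lit 76) (nat_lit 7748139376) (nat_lit 27) (nat_lit 5) (nat_lit 29) (nat_lit 5) (nat_lit 28) (nat_lit 5) (nat_lit 522) (nat_lit 361) (nat_lit 257)) (XT.nd (nat_lit 78) (nat_lit 152) (nat_lit 0) (XT.lf (nat_lit 0) (nat_lit 4762990883) (nat_lit 152) (nat_lit 6728840750) (nat_lit 76) (nat_lit 12671947284) (nat_lit 27) (nat_lit 5) (nat_lit 29) (nat_lit 5) (nat_lit 28) (nat_lit 5) (nat_lit 523) (nat_lit 361) (nat_lit 256)) (XT.lf (nat_lit 0) (nat_lit 2103975213) (nat_lit 152) (nat_lit 6853319656)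 (nat_lit 228) (nat_lit 15588729142) (nat_lit 25) (nat_lit 5) (nat_lit 27) (nat_lit 5) (nat_lit 28) (nat_lit 5) (nat_lit 524) (nat_lit 361) (nat_lit 255)))) (XT.nd (nat_lit 156) (nat_lit 152) (nat_lit 0) (XT.nd (nat_lit 78) (nat_lit 0) (nat_lit 0) (XT.lf (nat_lit 0) (nat_lit 11169456875) (nat_lit 152) (nat_lit 2091496037) (nat_lit 228) (nat_lit 11674455599) (nat_lit 25) (nat_lit 5) (nat_lit 27) (nat_lit 5) (nat_lit 28) (nat_lit 5) (nat_lit 525) (nat_lit 361) (nat_lit 254)) (XT.lf (nat_lit 0) (nat_lit 17649241145) (nat_lit 228) (nat_lit 4969091030) (nat_lit 76) (nat_lit 2714281172) (nat_lit 25) (nat_lit 5) (nat_lit 28) (nat_lit 5) (nat_lit 26) (nat_lit 4) (nat_lit 526) (nat_lit 361) (nat_lit 253))) (XT.nd (nat_lit 78) (nat_lit 76) (nat_lit 0) (XT.lf (nat_lit 0) (nat_lit 4008305247) (nat_lit 76) (nat_lit 18137846960) (nat_lit 152) (nat_lit 3591196646) (nat_lit 24) (nat_lit 5) (nat_lit 25) (nat_lit 5) (nat_lit 26)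 (nat_lit 4) (nat_lit 527) (nat_lit 361) (nat_lit 252)) (XT.lf (nat_lit 0) (nat_lit 589750475) (nat_lit 152) (nat_lit 12955062010) (nat_lit 76) (nat_lit 12605003032) (nat_lit 23) (nat_lit 5) (nat_lit 25) (nat_lit 5) (nat_lit 24) (nat_lit 5) (nat_lit 528) (nat_lit 361) (nat_lit 251))))) (XT.nd (nat_lit 50544) (nat_lit 0) (nat_lit 28348) (XT.nd (nat_lit 78) (nat_lit 152) (nat_lit 0) (XT.lf (nat_lit 0) (nat_lit 4787653629) (nat_lit 152) (nat_lit 4062865633) (nat_lit 76) (nat_lit 17719912530) (nat_lit 23) (nat_lit 5) (nat_lit 25) (nat_lit 5) (nat_lit 24) (nat_lit 5) (nat_lit 529) (nat_lit 361) (nat_lit 250)) (XT.nd (nat_lit 78) (nat_lit 0) (nat_lit 0) (XT.lf (nat_lit 0) (nat_lit 5040455571) (nat_lit 152) (nat_lit 4043528652) (nat_lit 228) (nat_lit 17915190213) (nat_lit 21) (nat_lit 5) (nat_lit 23) (nat_lit 5) (nat_lit 24) (nat_lit 5) (nat_lit 530) (nat_lit 361) (nat_lit 249)) (XT.lf (nat_lit 0) (nat_lit 13481062563)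 (nat_lit 228) (nat_lit 13093672956) (nat_lit 76) (nat_lit 861463353) (nat_lit 21) (nat_lit 5) (nat_lit 24) (nat_lit 5) (nat_lit 22) (nat_lit 4) (nat_lit 531) (nat_lit 361) (nat_lit 248)))) (XT.nd (nat_lit 156) (nat_lit 1748) (nat_lit 0) (XT.nd (nat_lit 78) (nat_lit 1596) (nat_lit 0) (XT.lf (nat_lit 0) (nat_lit 1686184014) (nat_lit 1596) (nat_lit 177649028) (nat_lit 0) (nat_lit 1686184014) (nat_lit 438) (nat_lit 5) (nat_lit 459) (nat_lit 4) (nat_lit 438) (nat_lit 4) (nat_lit 416) (nat_lit 362) (nat_lit 362)) (XT.lf (nat_lit 0) (nat_lit 4506794513) (nat_lit 1596) (nat_lit 2166377147) (nat_lit 1596) (nat_lit 464927966) (nat_lit 417) (nat_lit 4) (nat_lit 438) (nat_lit 5) (nat_lit 438) (nat_lit 4) (nat_lit 417) (nat_lit 362) (nat_lit 361))) (XT.nd (nat_lit 78) (nat_lit 0) (nat_lit 0) (XT.lf (nat_lit 0) (nat_lit 2240416599) (nat_lit 1672) (nat_lit 536787960) (nat_lit 1748) (nat_lit 4400374553) (nat_lit 394) (nat_lit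 5) (nat_lit 416) (nat_lit 5) (nat_lit 417) (nat_lit 4) (nat_lit 418) (nat_lit 362) (nat_lit 360)) (XT.lf (nat_lit 0) (nat_lit 6038650819) (nat_lit 1748) (nat_lit 48109074) (nat_lit 0) (nat_lit 1131869989) (nat_lit 394) (nat_lit 5) (nat_lit 417) (nat_lit 4) (nat_lit 394) (nat_lit 4) (nat_lit 419) (nat_lit 362) (nat_lit 359))))))) (XT.nd (nat_lit 1092) (nat_lit 6308) (nat_lit 0) (XT.nd (nat_lit 546) (nat_lit 3876) (nat_lit 0) (XT.nd (nat_lit 234) (nat_lit 1748) (nat_lit 0) (XT.nd (nat_lit 78) (nat_lit 1824) (nat_lit 0) (XT.lf (nat_lit 0) (nat_lit 2049455288) (nat_lit 1520) (nat_lit 2338757191) (nat_lit 76) (nat_lit 2872626017) (nat_lit 374) (nat_lit 5) (nat_lit 394) (nat_lit 5) (nat_lit 375) (nat_lit 4) (nat_lit 420) (nat_lit 362) (nat_lit 358)) (XT.nd (nat_lit 78) (nat_lit 988) (nat_lit 0) (XT.lf (nat_lit 0) (nat_lit 2650855546) (nat_lit 836) (nat_lit 2631603544) (nat_lit 912) (nat_lit 2022234377) (nat_lit 363)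 (nat_lit 5) (nat_lit 374) (nat_lit 5) (nat_lit 375) (nat_lit 4) (nat_lit 421) (nat_lit 362) (nat_lit 357)) (XT.lf (nat_lit 0) (nat_lit 354411331) (nat_lit 912) (nat_lit 815826585) (nat_lit 988) (nat_lit 6179965891) (nat_lit 350) (nat_lit 5) (nat_lit 362) (nat_lit 5) (nat_lit 363) (nat_lit 5) (nat_lit 422) (nat_lit 362) (nat_lit 356)))) (XT.nd (nat_lit 156) (nat_lit 836) (nat_lit 0) (XT.nd (nat_lit 78) (nat_lit 912) (nat_lit 0) (XT.lf (nat_lit 0) (nat_lit 4376039405) (nat_lit 988) (nat_lit 1956247362) (nat_lit 76) (nat_lit 1064589788) (nat_lit 350) (nat_lit 5) (nat_lit 363) (nat_lit 5) (nat_lit 351) (nat_lit 4) (nat_lit 423) (nat_lit 362) (nat_lit 355)) (XT.lf (nat_lit 0) (nat_lit 164020672) (nat_lit 912) (nat_lit 4290770169) (nat_lit 76) (nat_lit 2990410699) (nat_lit 338) (nat_lit 5) (nat_lit 350) (nat_lit 5) (nat_lit 339) (nat_lit 5) (nat_lit 424) (nat_lit 362) (nat_lit 354))) (XT.nd (nat_lit 78) (nat_lit 0) (nat_lit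 0) (XT.lf (nat_lit 0) (nat_lit 825382198) (nat_lit 836) (nat_lit 2505256916) (nat_lit 912) (nat_lit 4164332074) (nat_lit 327) (nat_lit 5) (nat_lit 338) (nat_lit 5) (nat_lit 339) (nat_lit 5) (nat_lit 425) (nat_lit 362) (nat_lit 353)) (XT.lf (nat_lit 0) (nat_lit 6037486498) (nat_lit 836) (nat_lit 492557509) (nat_lit 912) (nat_lit 1016349970) (nat_lit 327) (nat_lit 5) (nat_lit 338) (nat_lit 5) (nat_lit 339) (nat_lit 5) (nat_lit 426) (nat_lit 362) (nat_lit 352))))) (XT.nd (nat_lit 234) (nat_lit 2204) (nat_lit 0) (XT.nd (nat_lit 78) (nat_lit 836) (nat_lit 0) (XT.lf (nat_lit 0) (nat_lit 2141741524) (nat_lit 836) (nat_lit 3884136185) (nat_lit 76) (nat_lit 1573208905) (nat_lit 316) (nat_lit 5) (nat_lit 327) (nat_lit 5) (nat_lit 317) (nat_lit 5) (nat_lit 427) (nat_lit 362) (nat_lit 351)) (XT.nd (nat_lit 78) (nat_lit 76) (nat_lit 0) (XT.lf (nat_lit 0) (nat_lit 1353971954) (nat_lit 760) (nat_lit 3959763951) (nat_lit 836)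 (nat_lit 2339719967) (nat_lit 306) (nat_lit 5) (nat_lit 316) (nat_lit 5) (nat_lit 317) (nat_lit 5) (nat_lit 428) (nat_lit 362) (nat_lit 350)) (XT.lf (nat_lit 0) (nat_lit 797862358) (nat_lit 836) (nat_lit 1029742466) (nat_lit 76) (nat_lit 5881868502) (nat_lit 305) (nat_lit 5) (nat_lit 316) (nat_lit 5) (nat_lit 306) (nat_lit 5) (nat_lit 429) (nat_lit 362) (nat_lit 349)))) (XT.nd (nat_lit 156) (nat_lit 760) (nat_lit 0) (XT.nd (nat_lit 78) (nat_lit 760) (nat_lit 0) (XT.lf (nat_lit 0) (nat_lit 3940973894) (nat_lit 760) (nat_lit 3446751226) (nat_lit 76) (nat_lit 379136150) (nat_lit 296) (nat_lit 5) (nat_lit 306) (nat_lit 5) (nat_lit 297) (nat_lit 5) (nat_lit 430) (nat_lit 362) (nat_lit 348)) (XT.lf (nat_lit 0) (nat_lit 1913989654) (nat_lit 760) (nat_lit 5208606323) (nat_lit 836) (nat_lit 703328801) (nat_lit 286) (nat_lit 5) (nat_lit 296) (nat_lit 5) (nat_lit 297) (nat_lit 5) (nat_lit 431) (nat_lit 362) (nat_lit 347)))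 (XT.nd (nat_lit 78) (nat_lit 684) (nat_lit 0) (XT.lf (nat_lit 0) (nat_lit 2416851455) (nat_lit 836) (nat_lit 538281166) (nat_lit 76) (nat_lit 4931399501) (nat_lit 285) (nat_lit 5) (nat_lit 296) (nat_lit 5) (nat_lit 286) (nat_lit 5) (nat_lit 432) (nat_lit 362) (nat_lit 346)) (XT.lf (nat_lit 0) (nat_lit 4939266173) (nat_lit 684) (nat_lit 628354375) (nat_lit 760) (nat_lit 2381124446) (nat_lit 276) (nat_lit 5) (nat_lit 285) (nat_lit 5) (nat_lit 286) (nat_lit 5) (nat_lit 433) (nat_lit 362) (nat_lit 345)))))) (XT.nd (nat_lit 546) (nat_lit 2888) (nat_lit 0) (XT.nd (nat_lit 234) (nat_lit 2052) (nat_lit 0) (XT.nd (nat_lit 78) (nat_lit 608) (nat_lit 0) (XT.lf (nat_lit 0) (nat_lit 736103758) (nat_lit 760) (nat_lit 5539192031) (nat_lit 76) (nat_lit 1737303594) (nat_lit 266) (nat_lit 5) (nat_lit 276) (nat_lit 5) (nat_lit 267) (nat_lit 5) (nat_lit 434) (nat_lit 362) (nat_lit 344)) (XT.nd (nat_lit 78) (nat_lit 608) (nat_lit 0)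 (XT.lf (nat_lit 0) (nat_lit 3854686609) (nat_lit 760) (nat_lit 55305847) (nat_lit 76) (nat_lit 4168041954) (nat_lit 266) (nat_lit 5) (nat_lit 276) (nat_lit 5) (nat_lit 267) (nat_lit 5) (nat_lit 435) (nat_lit 362) (nat_lit 343)) (XT.lf (nat_lit 0) (nat_lit 5547623637) (nat_lit 608) (nat_lit 1471461152) (nat_lit 684) (nat_lit 1126059965) (nat_lit 258) (nat_lit 5) (nat_lit 266) (nat_lit 5) (nat_lit 267) (nat_lit 5) (nat_lit 436) (nat_lit 362) (nat_lit 342)))) (XT.nd (nat_lit 156) (nat_lit 684) (nat_lit 0) (XT.nd (nat_lit 78) (nat_lit 608) (nat_lit 0) (XT.lf (nat_lit 0) (nat_lit 1980849607) (nat_lit 760) (nat_lit 5208385377) (nat_lit 76) (nat_lit 1024645593) (nat_lit 248) (nat_lit 5) (nat_lit 258) (nat_lit 5) (nat_lit 249) (nat_lit 5) (nat_lit 437) (nat_lit 362) (nat_lit 341)) (XT.lf (nat_lit 0) (nat_lit 395733418) (nat_lit 608) (nat_lit 4717168941) (nat_lit 684) (nat_lit 3171411678) (nat_lit 240) (nat_lit 5) (nat_lit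 248) (nat_lit 5) (nat_lit 249) (nat_lit 5) (nat_lit 438) (nat_lit 362) (nat_lit 340))) (XT.nd (nat_lit 78) (nat_lit 684) (nat_lit 0) (XT.lf (nat_lit 0) (nat_lit 6118679948) (nat_lit 608) (nat_lit 2172676679) (nat_lit 684) (nat_lit 65157120) (nat_lit 240) (nat_lit 5) (nat_lit 248) (nat_lit 5) (nat_lit 249) (nat_lit 5) (nat_lit 439) (nat_lit 362) (nat_lit 339)) (XT.lf (nat_lit 0) (nat_lit 3037565238) (nat_lit 684) (nat_lit 4945067626) (nat_lit 76) (nat_lit 447652296) (nat_lit 231) (nat_lit 5) (nat_lit 240) (nat_lit 5) (nat_lit 232) (nat_lit 5) (nat_lit 440) (nat_lit 362) (nat_lit 338))))) (XT.nd (nat_lit 312) (nat_lit 1140) (nat_lit 0) (XT.nd (nat_lit 156) (nat_lit 1140) (nat_lit 0) (XT.nd (nat_lit 78) (nat_lit 76) (nat_lit 0) (XT.lf (nat_lit 0) (nat_lit 779296958) (nat_lit 532) (nat_lit 5406686308) (nat_lit 608) (nat_lit 2319880745) (nat_lit 224) (nat_lit 5) (nat_lit 231) (nat_lit 5) (nat_lit 232) (nat_lit 5) (nat_lit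 441) (nat_lit 362) (nat_lit 337)) (XT.lf (nat_lit 0) (nat_lit 787297924) (nat_lit 608) (nat_lit 1966726562) (nat_lit 76) (nat_lit 5829182620) (nat_lit 223) (nat_lit 5) (nat_lit 231) (nat_lit 5) (nat_lit 224) (nat_lit 5) (nat_lit 442) (nat_lit 362) (nat_lit 336))) (XT.nd (nat_lit 78) (nat_lit 532) (nat_lit 0) (XT.lf (nat_lit 0) (nat_lit 3880995437) (nat_lit 608) (nat_lit 20925957) (nat_lit 684) (nat_lit 4760370806) (nat_lit 215) (nat_lit 5) (nat_lit 223) (nat_lit 5) (nat_lit 224) (nat_lit 5) (nat_lit 443) (nat_lit 362) (nat_lit 335)) (XT.lf (nat_lit 0) (nat_lit 1062174086) (nat_lit 532) (nat_lit 6006407248) (nat_lit 608) (nat_lit 1674611327) (nat_lit 208) (nat_lit 5) (nat_lit 215) (nat_lit 5) (nat_lit 216) (nat_lit 5) (nat_lit 444) (nat_lit 362) (nat_lit 334)))) (XT.nd (nat_lit 156) (nat_lit 532) (nat_lit 0) (XT.nd (nat_lit 78) (nat_lit 532) (nat_lit 0) (XT.lf (nat_lit 0) (nat_lit 1437776846) (nat_lit 608) (nat_lit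 1811249878) (nat_lit 76) (nat_lit 5576835980) (nat_lit 207) (nat_lit 5) (nat_lit 215) (nat_lit 5) (nat_lit 208) (nat_lit 5) (nat_lit 445) (nat_lit 362) (nat_lit 333)) (XT.lf (nat_lit 0) (nat_lit 4156998079) (nat_lit 532) (nat_lit 412742106) (nat_lit 608) (nat_lit 4340656467) (nat_lit 200) (nat_lit 5) (nat_lit 207) (nat_lit 5) (nat_lit 208) (nat_lit 5) (nat_lit 446) (nat_lit 362) (nat_lit 332))) (XT.nd (nat_lit 78) (nat_lit 76) (nat_lit 0) (XT.lf (nat_lit 0) (nat_lit 1209667758) (nat_lit 456) (nat_lit 6544032841) (nat_lit 532) (nat_lit 1243159896) (nat_lit 194) (nat_lit 5) (nat_lit 200) (nat_lit 5) (nat_lit 201) (nat_lit 5) (nat_lit 447) (nat_lit 362) (nat_lit 331)) (XT.lf (nat_lit 0) (nat_lit 1879342971) (nat_lit 532) (nat_lit 1806403299) (nat_lit 76) (nat_lit 5399320079) (nat_lit 193) (nat_lit 5) (nat_lit 200) (nat_lit 5) (nat_lit 194) (nat_lit 5) (nat_lit 448) (nat_lit 362) (nat_lit 330))))))))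
noncomputable def xc60 : XT := (XT.nd (nat_lit 2184) (nat_lit 3876) (nat_lit 0) (XT.nd (nat_lit 1092) (nat_lit 3192) (nat_lit 0) (XT.nd (nat_lit 546) (nat_lit 1748) (nat_lit 0) (XT.nd (nat_lit 234) (nat_lit 1444) (nat_lit 0) (XT.nd (nat_lit 78) (nat_lit 532) (nat_lit 0) (XT.lf (nat_lit 0) (nat_lit 4280109179) (nat_lit 532) (nat_lit 749606816) (nat_lit 608) (nat_lit 4145539507) (nat_lit 186) (nat_lit 5) (nat_lit 193) (nat_lit 5) (nat_lit 194) (nat_lit 5) (nat_lit 449) (nat_lit 362) (nat_lit 329)) (XT.nd (nat_lit 78) (nat_lit 76) (nat_lit 0) (XT.lf (nat_lit 0) (nat_lit 1184497006) (nat_lit 456) (nat_lit 7047724472) (nat_lit 532) (nat_lit 1035268824) (nat_lit 180) (nat_lit 5) (nat_lit 186) (nat_lit 5) (nat_lit 187) (nat_lit 5) (nat_lit 450) (nat_lit 362) (nat_lit 328)) (XT.lf (nat_lit 0) (nat_lit 2102030045) (nat_lit 532) (nat_lit 1990309229) (nat_lit 76) (nat_lit 5269119364) (nat_lit 179) (nat_lit 5) (nat_lit 186)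 (nat_lit 5) (nat_lit 180) (nat_lit 5) (nat_lit 451) (nat_lit 362) (nat_lit 327)))) (XT.nd (nat_lit 156) (nat_lit 532) (nat_lit 0) (XT.nd (nat_lit 78) (nat_lit 456) (nat_lit 0) (XT.lf (nat_lit 0) (nat_lit 4211403176) (nat_lit 456) (nat_lit 1059873289) (nat_lit 532) (nat_lit 4186254694) (nat_lit 173) (nat_lit 5) (nat_lit 179) (nat_lit 5) (nat_lit 180) (nat_lit 5) (nat_lit 452) (nat_lit 362) (nat_lit 326)) (XT.lf (nat_lit 0) (nat_lit 946405107) (nat_lit 456) (nat_lit 7546364138) (nat_lit 532) (nat_lit 1063001164) (nat_lit 167) (nat_lit 5) (nat_lit 173) (nat_lit 5) (nat_lit 174) (nat_lit 5) (nat_lit 453) (nat_lit 362) (nat_lit 325))) (XT.nd (nat_lit 78) (nat_lit 456) (nat_lit 0) (XT.lf (nat_lit 0) (nat_lit 2093559663) (nat_lit 532) (nat_lit 2404189840) (nat_lit 76) (nat_lit 5157997292) (nat_lit 166) (nat_lit 5) (nat_lit 173) (nat_lit 5) (nat_lit 167) (nat_lit 5) (nat_lit 454) (nat_lit 362) (nat_lit 324)) (XT.lf (nat_lit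 0) (nat_lit 3908737966) (nat_lit 456) (nat_lit 1372755499) (nat_lit 532) (nat_lit 4476460416) (nat_lit 160) (nat_lit 5) (nat_lit 166) (nat_lit 5) (nat_lit 167) (nat_lit 5) (nat_lit 455) (nat_lit 362) (nat_lit 323))))) (XT.nd (nat_lit 234) (nat_lit 836) (nat_lit 0) (XT.nd (nat_lit 78) (nat_lit 532) (nat_lit 0) (XT.lf (nat_lit 0) (nat_lit 451734758) (nat_lit 380) (nat_lit 8069826566) (nat_lit 456) (nat_lit 1340897071) (nat_lit 155) (nat_lit 5) (nat_lit 160) (nat_lit 5) (nat_lit 161) (nat_lit 5) (nat_lit 456) (nat_lit 362) (nat_lit 322)) (XT.nd (nat_lit 78) (nat_lit 456) (nat_lit 0) (XT.lf (nat_lit 0) (nat_lit 1839182486) (nat_lit 456) (nat_lit 3092801129) (nat_lit 76) (nat_lit 5036724887) (nat_lit 154) (nat_lit 5) (nat_lit 160) (nat_lit 5) (nat_lit 155) (nat_lit 5) (nat_lit 457) (nat_lit 362) (nat_lit 321)) (XT.lf (nat_lit 0) (nat_lit 3326308279) (nat_lit 456) (nat_lit 1718608668) (nat_lit 532) (nat_lit 5032408834)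 (nat_lit 148) (nat_lit 5) (nat_lit 154) (nat_lit 5) (nat_lit 155) (nat_lit 5) (nat_lit 458) (nat_lit 362) (nat_lit 320)))) (XT.nd (nat_lit 156) (nat_lit 380) (nat_lit 0) (XT.nd (nat_lit 78) (nat_lit 456) (nat_lit 0) (XT.lf (nat_lit 0) (nat_lit 8304484906) (nat_lit 532) (nat_lit 342482432) (nat_lit 76) (nat_lit 1541372900) (nat_lit 148) (nat_lit 5) (nat_lit 155) (nat_lit 5) (nat_lit 149) (nat_lit 5) (nat_lit 459) (nat_lit 362) (nat_lit 319)) (XT.lf (nat_lit 0) (nat_lit 1321496089) (nat_lit 456) (nat_lit 4104905292) (nat_lit 76) (nat_lit 4874794875) (nat_lit 142) (nat_lit 5) (nat_lit 148) (nat_lit 5) (nat_lit 143) (nat_lit 5) (nat_lit 460) (nat_lit 362) (nat_lit 318))) (XT.nd (nat_lit 78) (nat_lit 0) (nat_lit 0) (XT.lf (nat_lit 0) (nat_lit 2414159355) (nat_lit 380) (nat_lit 2129225457) (nat_lit 456) (nat_lit 5873140536) (nat_lit 137) (nat_lit 5) (nat_lit 142) (nat_lit 5) (nat_lit 143) (nat_lit 5) (nat_lit 461) (nat_lit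 362) (nat_lit 317)) (XT.lf (nat_lit 0) (nat_lit 7825381397) (nat_lit 456) (nat_lit 1482090291) (nat_lit 76) (nat_lit 1226793680) (nat_lit 137) (nat_lit 5) (nat_lit 143) (nat_lit 5) (nat_lit 138) (nat_lit 5) (nat_lit 462) (nat_lit 362) (nat_lit 316)))))) (XT.nd (nat_lit 546) (nat_lit 1292) (nat_lit 0) (XT.nd (nat_lit 234) (nat_lit 1064) (nat_lit 0) (XT.nd (nat_lit 78) (nat_lit 380) (nat_lit 0) (XT.lf (nat_lit 0) (nat_lit 520237485) (nat_lit 456) (nat_lit 5493785964) (nat_lit 76) (nat_lit 4640118806) (nat_lit 131) (nat_lit 5) (nat_lit 137) (nat_lit 5) (nat_lit 132) (nat_lit 5) (nat_lit 463) (nat_lit 362) (nat_lit 315)) (XT.nd (nat_lit 78) (nat_lit 0) (nat_lit 0) (XT.lf (nat_lit 0) (nat_lit 1117656203) (nat_lit 380) (nat_lit 2638150585) (nat_lit 456) (nat_lit 7020705753) (nat_lit 126) (nat_lit 5) (nat_lit 131) (nat_lit 5) (nat_lit 132) (nat_lit 5) (nat_lit 464) (nat_lit 362) (nat_lit 314)) (XT.lf (nat_lit 0) (nat_lit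 7059526170) (nat_lit 456) (nat_lit 3029070167) (nat_lit 76) (nat_lit 812681517) (nat_lit 126) (nat_lit 5) (nat_lit 132) (nat_lit 5) (nat_lit 127) (nat_lit 5) (nat_lit 465) (nat_lit 362) (nat_lit 313)))) (XT.nd (nat_lit 156) (nat_lit 684) (nat_lit 0) (XT.nd (nat_lit 78) (nat_lit 76) (nat_lit 0) (XT.lf (nat_lit 0) (nat_lit 3706807060) (nat_lit 304) (nat_lit 6725914065) (nat_lit 380) (nat_lit 595765398) (nat_lit 122) (nat_lit 5) (nat_lit 126) (nat_lit 5) (nat_lit 127) (nat_lit 5) (nat_lit 466) (nat_lit 362) (nat_lit 312)) (XT.lf (nat_lit 0) (nat_lit 2661965594) (nat_lit 380) (nat_lit 614924711) (nat_lit 76) (nat_lit 7881363250) (nat_lit 121) (nat_lit 5) (nat_lit 126) (nat_lit 5) (nat_lit 122) (nat_lit 5) (nat_lit 467) (nat_lit 362) (nat_lit 311))) (XT.nd (nat_lit 78) (nat_lit 304) (nat_lit 0) (XT.lf (nat_lit 0) (nat_lit 5981896266) (nat_lit 456) (nat_lit 5044924183) (nat_lit 76) (nat_lit 263631417) (nat_lit 116) (nat_lit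 5) (nat_lit 122) (nat_lit 5) (nat_lit 117) (nat_lit 5) (nat_lit 468) (nat_lit 362) (nat_lit 310)) (XT.lf (nat_lit 0) (nat_lit 1770898076) (nat_lit 304) (nat_lit 7597639077) (nat_lit 380) (nat_lit 2056765608) (nat_lit 112) (nat_lit 5) (nat_lit 116) (nat_lit 5) (nat_lit 117) (nat_lit 5) (nat_lit 469) (nat_lit 362) (nat_lit 309))))) (XT.nd (nat_lit 234) (nat_lit 912) (nat_lit 0) (XT.nd (nat_lit 78) (nat_lit 304) (nat_lit 0) (XT.lf (nat_lit 0) (nat_lit 1240673188) (nat_lit 380) (nat_lit 2836199599) (nat_lit 76) (nat_lit 7485885760) (nat_lit 111) (nat_lit 5) (nat_lit 116) (nat_lit 5) (nat_lit 112) (nat_lit 5) (nat_lit 470) (nat_lit 362) (nat_lit 308)) (XT.nd (nat_lit 78) (nat_lit 0) (nat_lit 0) (XT.lf (nat_lit 0) (nat_lit 4102631138) (nat_lit 304) (nat_lit 464337203) (nat_lit 380) (nat_lit 7135928241) (nat_lit 107) (nat_lit 5) (nat_lit 111) (nat_lit 5) (nat_lit 112) (nat_lit 5) (nat_lit 471) (nat_lit 362) (nat_lit 307))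 (XT.lf (nat_lit 0) (nat_lit 7963863598) (nat_lit 380) (nat_lit 703967641) (nat_lit 76) (nat_lit 3177938375) (nat_lit 107) (nat_lit 5) (nat_lit 112) (nat_lit 5) (nat_lit 108) (nat_lit 5) (nat_lit 472) (nat_lit 362) (nat_lit 306)))) (XT.nd (nat_lit 156) (nat_lit 228) (nat_lit 0) (XT.nd (nat_lit 78) (nat_lit 380) (nat_lit 0) (XT.lf (nat_lit 0) (nat_lit 6355475917) (nat_lit 304) (nat_lit 5082272117) (nat_lit 380) (nat_lit 553584496) (nat_lit 103) (nat_lit 5) (nat_lit 107) (nat_lit 5) (nat_lit 108) (nat_lit 5) (nat_lit 473) (nat_lit 362) (nat_lit 305)) (XT.lf (nat_lit 0) (nat_lit 1370254042) (nat_lit 304) (nat_lit 1412241627) (nat_lit 380) (nat_lit 9357385882) (nat_lit 98) (nat_lit 5) (nat_lit 102) (nat_lit 5) (nat_lit 103) (nat_lit 5) (nat_lit 474) (nat_lit 362) (nat_lit 304))) (XT.nd (nat_lit 78) (nat_lit 228) (nat_lit 0) (XT.lf (nat_lit 0) (nat_lit 6196106745) (nat_lit 380) (nat_lit 3772209051) (nat_lit 76) (nat_lit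 2322660810) (nat_lit 98) (nat_lit 5) (nat_lit 103) (nat_lit 5) (nat_lit 99) (nat_lit 5) (nat_lit 475) (nat_lit 362) (nat_lit 303)) (XT.lf (nat_lit 0) (nat_lit 3345372390) (nat_lit 228) (nat_lit 6329385936) (nat_lit 304) (nat_lit 2770412297) (nat_lit 95) (nat_lit 5) (nat_lit 98) (nat_lit 5) (nat_lit 99) (nat_lit 5) (nat_lit 476) (nat_lit 362) (nat_lit 302))))))) (XT.nd (nat_lit 1092) (nat_lit 1824) (nat_lit 0) (XT.nd (nat_lit 546) (nat_lit 836) (nat_lit 0) (XT.nd (nat_lit 234) (nat_lit 836) (nat_lit 0) (XT.nd (nat_lit 78) (nat_lit 304) (nat_lit 0) (XT.lf (nat_lit 0) (nat_lit 603657746) (nat_lit 304) (nat_lit 2004117425) (nat_lit 76) (nat_lit 9994779479) (nat_lit 94) (nat_lit 5) (nat_lit 98) (nat_lit 5) (nat_lit 95) (nat_lit 5) (nat_lit 477) (nat_lit 362) (nat_lit 301)) (XT.nd (nat_lit 78) (nat_lit 0) (nat_lit 0) (XT.lf (nat_lit 0) (nat_lit 4016491546) (nat_lit 380) (nat_lit 7540278890) (nat_lit 76) (nat_lit 1205793818)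 (nat_lit 90) (nat_lit 5) (nat_lit 95) (nat_lit 5) (nat_lit 91) (nat_lit 5) (nat_lit 478) (nat_lit 362) (nat_lit 300)) (XT.lf (nat_lit 0) (nat_lit 7495026752) (nat_lit 380) (nat_lit 376028841) (nat_lit 76) (nat_lit 5054781041) (nat_lit 90) (nat_lit 5) (nat_lit 95) (nat_lit 5) (nat_lit 91) (nat_lit 5) (nat_lit 479) (nat_lit 362) (nat_lit 299)))) (XT.nd (nat_lit 156) (nat_lit 228) (nat_lit 0) (XT.nd (nat_lit 78) (nat_lit 380) (nat_lit 0) (XT.lf (nat_lit 0) (nat_lit 6970427347) (nat_lit 228) (nat_lit 4085253080) (nat_lit 304) (nat_lit 2036454334) (nat_lit 87) (nat_lit 5) (nat_lit 90) (nat_lit 5) (nat_lit 91) (nat_lit 5) (nat_lit 480) (nat_lit 362) (nat_lit 298)) (XT.lf (nat_lit 0) (nat_lit 1160552051) (nat_lit 304) (nat_lit 223980312) (nat_lit 380) (nat_lit 11877503291) (nat_lit 82) (nat_lit 5) (nat_lit 86) (nat_lit 5) (nat_lit 87) (nat_lit 5) (nat_lit 481) (nat_lit 362) (nat_lit 297))) (XT.nd (nat_lit 78) (nat_lit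 228) (nat_lit 0) (XT.lf (nat_lit 0) (nat_lit 4879704845) (nat_lit 380) (nat_lit 4853728759) (nat_lit 76) (nat_lit 3700981664) (nat_lit 82) (nat_lit 5) (nat_lit 87) (nat_lit 5) (nat_lit 83) (nat_lit 5) (nat_lit 482) (nat_lit 362) (nat_lit 296)) (XT.lf (nat_lit 0) (nat_lit 2518788869) (nat_lit 228) (nat_lit 5912004981) (nat_lit 304) (nat_lit 5179738759) (nat_lit 79) (nat_lit 5) (nat_lit 82) (nat_lit 5) (nat_lit 83) (nat_lit 5) (nat_lit 483) (nat_lit 362) (nat_lit 295))))) (XT.nd (nat_lit 234) (nat_lit 532) (nat_lit 0) (XT.nd (nat_lit 78) (nat_lit 304) (nat_lit 0) (XT.lf (nat_lit 0) (nat_lit 10053147471) (nat_lit 228) (nat_lit 2000794610) (nat_lit 304) (nat_lit 1736219661) (nat_lit 79) (nat_lit 5) (nat_lit 82) (nat_lit 5) (nat_lit 83) (nat_lit 5) (nat_lit 484) (nat_lit 362) (nat_lit 294)) (XT.nd (nat_lit 78) (nat_lit 0) (nat_lit 0) (XT.lf (nat_lit 0) (nat_lit 1759124815) (nat_lit 304) (nat_lit 10234656569) (nat_lit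 76) (nat_lit 1979256234) (nat_lit 75) (nat_lit 5) (nat_lit 79) (nat_lit 5) (nat_lit 76) (nat_lit 5) (nat_lit 485) (nat_lit 362) (nat_lit 293)) (XT.lf (nat_lit 0) (nat_lit 5308668829) (nat_lit 304) (nat_lit 2821026760) (nat_lit 76) (nat_lit 6029504686) (nat_lit 75) (nat_lit 5) (nat_lit 79) (nat_lit 5) (nat_lit 76) (nat_lit 5) (nat_lit 486) (nat_lit 362) (nat_lit 292)))) (XT.nd (nat_lit 156) (nat_lit 304) (nat_lit 0) (XT.nd (nat_lit 78) (nat_lit 0) (nat_lit 0) (XT.lf (nat_lit 0) (nat_lit 4753231533) (nat_lit 228) (nat_lit 4176465867) (nat_lit 304) (nat_lit 5419388330) (nat_lit 72) (nat_lit 5) (nat_lit 75) (nat_lit 5) (nat_lit 76) (nat_lit 5) (nat_lit 487) (nat_lit 362) (nat_lit 291)) (XT.lf (nat_lit 0) (nat_lit 12467559993) (nat_lit 228) (nat_lit 144422716) (nat_lit 304) (nat_lit 1931018693) (nat_lit 72) (nat_lit 5) (nat_lit 75) (nat_lit 5) (nat_lit 76) (nat_lit 5) (nat_lit 488) (nat_lit 362) (nat_lit 290))) (XT.nd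 (nat_lit 78) (nat_lit 0) (nat_lit 0) (XT.lf (nat_lit 0) (nat_lit 1638438950) (nat_lit 304) (nat_lit 9157111269) (nat_lit 76) (nat_lit 3944389544) (nat_lit 68) (nat_lit 5) (nat_lit 72) (nat_lit 5) (nat_lit 69) (nat_lit 5) (nat_lit 489) (nat_lit 362) (nat_lit 289)) (XT.lf (nat_lit 0) (nat_lit 5238861405) (nat_lit 304) (nat_lit 1581212291) (nat_lit 76) (nat_lit 8120787975) (nat_lit 68) (nat_lit 5) (nat_lit 72) (nat_lit 5) (nat_lit 69) (nat_lit 5) (nat_lit 490) (nat_lit 362) (nat_lit 288)))))) (XT.nd (nat_lit 546) (nat_lit 912) (nat_lit 0) (XT.nd (nat_lit 234) (nat_lit 380) (nat_lit 0) (XT.nd (nat_lit 78) (nat_lit 304) (nat_lit 0) (XT.lf (nat_lit 0) (nat_lit 6178974382) (nat_lit 228) (nat_lit 2743447543) (nat_lit 304) (nat_lit 6223166030) (nat_lit 65) (nat_lit 5) (nat_lit 68) (nat_lit 5) (nat_lit 69) (nat_lit 5) (nat_lit 491) (nat_lit 362) (nat_lit 287)) (XT.nd (nat_lit 78) (nat_lit 304) (nat_lit 0) (XT.lf (nat_lit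 0) (nat_lit 12670663833) (nat_lit 304) (nat_lit 1296062812) (nat_lit 76) (nat_lit 1387870276) (nat_lit 65) (nat_lit 5) (nat_lit 69) (nat_lit 5) (nat_lit 66) (nat_lit 5) (nat_lit 492) (nat_lit 362) (nat_lit 286)) (XT.lf (nat_lit 0) (nat_lit 946538347) (nat_lit 304) (nat_lit 9025223107) (nat_lit 76) (nat_lit 5595260404) (nat_lit 61) (nat_lit 5) (nat_lit 65) (nat_lit 5) (nat_lit 62) (nat_lit 5) (nat_lit 493) (nat_lit 362) (nat_lit 285)))) (XT.nd (nat_lit 156) (nat_lit 228) (nat_lit 0) (XT.nd (nat_lit 78) (nat_lit 152) (nat_lit 0) (XT.lf (nat_lit 0) (nat_lit 4594234465) (nat_lit 304) (nat_lit 1294898280) (nat_lit 76) (nat_lit 9894604550) (nat_lit 61) (nat_lit 5) (nat_lit 65) (nat_lit 5) (nat_lit 62) (nat_lit 5) (nat_lit 494) (nat_lit 362) (nat_lit 284)) (XT.lf (nat_lit 0) (nat_lit 6630392855) (nat_lit 152) (nat_lit 1699858854) (nat_lit 228) (nat_lit 7674235713) (nat_lit 59) (nat_lit 5) (nat_lit 61) (nat_lit 5) (nat_lit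 62) (nat_lit 5) (nat_lit 495) (nat_lit 362) (nat_lit 283))) (XT.nd (nat_lit 78) (nat_lit 228) (nat_lit 0) (XT.lf (nat_lit 0) (nat_lit 12138881327) (nat_lit 228) (nat_lit 1561227099) (nat_lit 76) (nat_lit 2529593859) (nat_lit 59) (nat_lit 5) (nat_lit 62) (nat_lit 5) (nat_lit 60) (nat_lit 5) (nat_lit 496) (nat_lit 362) (nat_lit 282)) (XT.lf (nat_lit 0) (nat_lit 6435229400) (nat_lit 228) (nat_lit 9614471794) (nat_lit 304) (nat_lit 409207322) (nat_lit 56) (nat_lit 5) (nat_lit 59) (nat_lit 5) (nat_lit 60) (nat_lit 5) (nat_lit 497) (nat_lit 362) (nat_lit 281))))) (XT.nd (nat_lit 312) (nat_lit 456) (nat_lit 0) (XT.nd (nat_lit 156) (nat_lit 228) (nat_lit 0) (XT.nd (nat_lit 78) (nat_lit 152) (nat_lit 0) (XT.lf (nat_lit 0) (nat_lit 3285729040) (nat_lit 304) (nat_lit 2147379907) (nat_lit 76) (nat_lit 11259491082) (nat_lit 55) (nat_lit 5) (nat_lit 59) (nat_lit 5) (nat_lit 56) (nat_lit 5) (nat_lit 498) (nat_lit 362) (nat_lit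 280)) (XT.lf (nat_lit 0) (nat_lit 5916354497) (nat_lit 152) (nat_lit 1144705537) (nat_lit 228) (nat_lit 9869618733) (nat_lit 53) (nat_lit 5) (nat_lit 55) (nat_lit 5) (nat_lit 56) (nat_lit 5) (nat_lit 499) (nat_lit 362) (nat_lit 279))) (XT.nd (nat_lit 78) (nat_lit 228) (nat_lit 0) (XT.lf (nat_lit 0) (nat_lit 10921036652) (nat_lit 228) (nat_lit 3068912495) (nat_lit 76) (nat_lit 3183394013) (nat_lit 53) (nat_lit 5) (nat_lit 56) (nat_lit 5) (nat_lit 54) (nat_lit 5) (nat_lit 500) (nat_lit 362) (nat_lit 278)) (XT.lf (nat_lit 0) (nat_lit 5049850264) (nat_lit 228) (nat_lit 9822912394) (nat_lit 304) (nat_lit 2547813911) (nat_lit 50) (nat_lit 5) (nat_lit 53) (nat_lit 5) (nat_lit 54) (nat_lit 5) (nat_lit 501) (nat_lit 362) (nat_lit 277)))) (XT.nd (nat_lit 156) (nat_lit 228) (nat_lit 0) (XT.nd (nat_lit 78) (nat_lit 152) (nat_lit 0) (XT.lf (nat_lit 0) (nat_lit 1209584321) (nat_lit 304) (nat_lit 4352146179) (nat_lit 76) (nat_lit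 12110971641) (nat_lit 49) (nat_lit 5) (nat_lit 53) (nat_lit 5) (nat_lit 50) (nat_lit 5) (nat_lit 502) (nat_lit 362) (nat_lit 276)) (XT.lf (nat_lit 0) (nat_lit 3816591564) (nat_lit 152) (nat_lit 1190967942) (nat_lit 228) (nat_lit 12921989349) (nat_lit 47) (nat_lit 5) (nat_lit 49) (nat_lit 5) (nat_lit 50) (nat_lit 5) (nat_lit 503) (nat_lit 362) (nat_lit 275))) (XT.nd (nat_lit 78) (nat_lit 228) (nat_lit 0) (XT.lf (nat_lit 0) (nat_lit 8906936462) (nat_lit 228) (nat_lit 6048156989) (nat_lit 76) (nat_lit 3235936420) (nat_lit 47) (nat_lit 5) (nat_lit 50) (nat_lit 5) (nat_lit 48) (nat_lit 5) (nat_lit 504) (nat_lit 362) (nat_lit 274)) (XT.lf (nat_lit 0) (nat_lit 2155676323) (nat_lit 228) (nat_lit 10725832203) (nat_lit 304) (nat_lit 5576293922) (nat_lit 44) (nat_lit 5) (nat_lit 47) (nat_lit 5) (nat_lit 48) (nat_lit 5) (nat_lit 505) (nat_lit 362) (nat_lit 273))))))))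
noncomputable def xc61 : XT := (XT.nd (nat_lit 52338) (nat_lit 0) (nat_lit 14744) (XT.nd (nat_lit 1092) (nat_lit 760) (nat_lit 0) (XT.nd (nat_lit 546) (nat_lit 380) (nat_lit 0) (XT.nd (nat_lit 234) (nat_lit 380) (nat_lit 0) (XT.nd (nat_lit 78) (nat_lit 228) (nat_lit 0) (XT.lf (nat_lit 0) (nat_lit 10563203365) (nat_lit 228) (nat_lit 6388488029) (nat_lit 304) (nat_lit 1777902667) (nat_lit 44) (nat_lit 5) (nat_lit 47) (nat_lit 5) (nat_lit 48) (nat_lit 5) (nat_lit 506) (nat_lit 362) (nat_lit 272)) (XT.nd (nat_lit 78) (nat_lit 0) (nat_lit 0) (XT.lf (nat_lit 0) (nat_lit 77602354) (nat_lit 152) (nat_lit 1967710656) (nat_lit 228) (nat_lit 16961714965) (nat_lit 41) (nat_lit 5) (nat_lit 43) (nat_lit 5) (nat_lit 44) (nat_lit 5) (nat_lit 507) (nat_lit 362) (nat_lit 271)) (XT.lf (nat_lit 0) (nat_lit 5968811003) (nat_lit 228) (nat_lit 10762337727) (nat_lit 76) (nat_lit 2557679942) (nat_lit 41) (nat_lit 5) (nat_lit 44) (nat_lit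 5) (nat_lit 42) (nat_lit 5) (nat_lit 508) (nat_lit 362) (nat_lit 270)))) (XT.nd (nat_lit 156) (nat_lit 228) (nat_lit 0) (XT.nd (nat_lit 78) (nat_lit 152) (nat_lit 0) (XT.lf (nat_lit 0) (nat_lit 9960219151) (nat_lit 228) (nat_lit 2486074486) (nat_lit 76) (nat_lit 7130188461) (nat_lit 41) (nat_lit 5) (nat_lit 44) (nat_lit 5) (nat_lit 42) (nat_lit 5) (nat_lit 509) (nat_lit 362) (nat_lit 269)) (XT.lf (nat_lit 0) (nat_lit 5993997735) (nat_lit 152) (nat_lit 8053246301) (nat_lit 228) (nat_lit 5822334193) (nat_lit 39) (nat_lit 5) (nat_lit 41) (nat_lit 5) (nat_lit 42) (nat_lit 5) (nat_lit 510) (nat_lit 362) (nat_lit 268))) (XT.nd (nat_lit 78) (nat_lit 228) (nat_lit 0) (XT.lf (nat_lit 0) (nat_lit 14637307473) (nat_lit 152) (nat_lit 3572449762) (nat_lit 228) (nat_lit 1958909394) (nat_lit 39) (nat_lit 5) (nat_lit 41) (nat_lit 5) (nat_lit 42) (nat_lit 5) (nat_lit 511) (nat_lit 362) (nat_lit 267)) (XT.lf (nat_lit 0) (nat_lit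 1958993761) (nat_lit 228) (nat_lit 17513936302) (nat_lit 76) (nat_lit 1000490464) (nat_lit 36) (nat_lit 5) (nat_lit 39) (nat_lit 5) (nat_lit 37) (nat_lit 5) (nat_lit 512) (nat_lit 362) (nat_lit 266))))) (XT.nd (nat_lit 234) (nat_lit 228) (nat_lit 0) (XT.nd (nat_lit 78) (nat_lit 152) (nat_lit 0) (XT.lf (nat_lit 0) (nat_lit 5967512120) (nat_lit 228) (nat_lit 9164948741) (nat_lit 76) (nat_lit 5650784932) (nat_lit 36) (nat_lit 5) (nat_lit 39) (nat_lit 5) (nat_lit 37) (nat_lit 5) (nat_lit 513) (nat_lit 362) (nat_lit 265)) (XT.nd (nat_lit 78) (nat_lit 152) (nat_lit 0) (XT.lf (nat_lit 0) (nat_lit 10034082869) (nat_lit 228) (nat_lit 687871404) (nat_lit 76) (nat_lit 10377760550) (nat_lit 36) (nat_lit 5) (nat_lit 39) (nat_lit 5) (nat_lit 37) (nat_lit 5) (nat_lit 514) (nat_lit 362) (nat_lit 264)) (XT.lf (nat_lit 0) (nat_lit 8025880924) (nat_lit 152) (nat_lit 6186529160) (nat_lit 228) (nat_lit 7209499452) (nat_lit 34) (nat_lit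 5) (nat_lit 36) (nat_lit 5) (nat_lit 37) (nat_lit 5) (nat_lit 515) (nat_lit 362) (nat_lit 263)))) (XT.nd (nat_lit 156) (nat_lit 0) (nat_lit 0) (XT.nd (nat_lit 78) (nat_lit 228) (nat_lit 0) (XT.lf (nat_lit 0) (nat_lit 16885355988) (nat_lit 152) (nat_lit 1572058805) (nat_lit 228) (nat_lit 3293475839) (nat_lit 34) (nat_lit 5) (nat_lit 36) (nat_lit 5) (nat_lit 37) (nat_lit 5) (nat_lit 516) (nat_lit 362) (nat_lit 262)) (XT.lf (nat_lit 0) (nat_lit 715849413) (nat_lit 228) (nat_lit 18262720018) (nat_lit 76) (nat_lit 3107311971) (nat_lit 31) (nat_lit 5) (nat_lit 34) (nat_lit 5) (nat_lit 32) (nat_lit 5) (nat_lit 517) (nat_lit 362) (nat_lit 261))) (XT.nd (nat_lit 78) (nat_lit 0) (nat_lit 0) (XT.lf (nat_lit 0) (nat_lit 4783422914) (nat_lit 228) (nat_lit 9745267525) (nat_lit 76) (nat_lit 7898007362) (nat_lit 31) (nat_lit 5) (nat_lit 34) (nat_lit 5) (nat_lit 32) (nat_lit 5) (nat_lit 518) (nat_lit 362) (nat_lit 260)) (XT.lf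 (nat_lit 0) (nat_lit 8911605386) (nat_lit 228) (nat_lit 1094225952) (nat_lit 76) (nat_lit 12768918389) (nat_lit 31) (nat_lit 5) (nat_lit 34) (nat_lit 5) (nat_lit 32) (nat_lit 5) (nat_lit 519) (nat_lit 362) (nat_lit 259)))))) (XT.nd (nat_lit 546) (nat_lit 304) (nat_lit 0) (XT.nd (nat_lit 234) (nat_lit 228) (nat_lit 0) (XT.nd (nat_lit 78) (nat_lit 76) (nat_lit 0) (XT.lf (nat_lit 0) (nat_lit 7796043782) (nat_lit 152) (nat_lit 5356589027) (nat_lit 228) (nat_lit 9976528521) (nat_lit 29) (nat_lit 5) (nat_lit 31) (nat_lit 5) (nat_lit 32) (nat_lit 5) (nat_lit 520) (nat_lit 362) (nat_lit 258)) (XT.nd (nat_lit 78) (nat_lit 76) (nat_lit 0) (XT.lf (nat_lit 0) (nat_lit 16843149345) (nat_lit 152) (nat_lit 622504775) (nat_lit 228) (nat_lit 6025267761) (nat_lit 29) (nat_lit 5) (nat_lit 31) (nat_lit 5) (nat_lit 32) (nat_lit 5) (nat_lit 521) (nat_lit 362) (nat_lit 257)) (XT.lf (nat_lit 0) (nat_lit 2177122738) (nat_lit 76) (nat_lit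 19709384759) (nat_lit 152) (nat_lit 1972982810) (nat_lit 28) (nat_lit 5) (nat_lit 29) (nat_lit 5) (nat_lit 30) (nat_lit 4) (nat_lit 522) (nat_lit 362) (nat_lit 256)))) (XT.nd (nat_lit 156) (nat_lit 152) (nat_lit 0) (XT.nd (nat_lit 78) (nat_lit 0) (nat_lit 0) (XT.lf (nat_lit 0) (nat_lit 2161195836) (nat_lit 152) (nat_lit 13019789022) (nat_lit 76) (nat_lit 9053585030) (nat_lit 27) (nat_lit 5) (nat_lit 29) (nat_lit 5) (nat_lit 28) (nat_lit 5) (nat_lit 523) (nat_lit 362) (nat_lit 255)) (XT.lf (nat_lit 0) (nat_lit 6332206978) (nat_lit 152) (nat_lit 4231765166) (nat_lit 76) (nat_lit 14053310608) (nat_lit 27) (nat_lit 5) (nat_lit 29) (nat_lit 5) (nat_lit 28) (nat_lit 5) (nat_lit 524) (nat_lit 362) (nat_lit 254))) (XT.nd (nat_lit 78) (nat_lit 0) (nat_lit 0) (XT.lf (nat_lit 0) (nat_lit 4760393615) (nat_lit 152) (nat_lit 5838076348) (nat_lit 228) (nat_lit 14408947065) (nat_lit 25) (nat_lit 5) (nat_lit 27) (nat_lit 5) (nat_lit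 28) (nat_lit 5) (nat_lit 525) (nat_lit 362) (nat_lit 253)) (XT.lf (nat_lit 0) (nat_lit 13955923363) (nat_lit 152) (nat_lit 1003610565) (nat_lit 228) (nat_lit 10445634260) (nat_lit 25) (nat_lit 5) (nat_lit 27) (nat_lit 5) (nat_lit 28) (nat_lit 5) (nat_lit 526) (nat_lit 362) (nat_lit 252))))) (XT.nd (nat_lit 234) (nat_lit 152) (nat_lit 0) (XT.nd (nat_lit 78) (nat_lit 152) (nat_lit 0) (XT.lf (nat_lit 0) (nat_lit 19414673829) (nat_lit 228) (nat_lit 2534462083) (nat_lit 76) (nat_lit 3861605004) (nat_lit 25) (nat_lit 5) (nat_lit 28) (nat_lit 5) (nat_lit 26) (nat_lit 4) (nat_lit 527) (nat_lit 362) (nat_lit 251)) (XT.nd (nat_lit 78) (nat_lit 76) (nat_lit 0) (XT.lf (nat_lit 0) (nat_lit 6605810996) (nat_lit 76) (nat_lit 17384361299) (nat_lit 152) (nat_lit 2233631260) (nat_lit 24) (nat_lit 5) (nat_lit 25) (nat_lit 5) (nat_lit 26) (nat_lit 4) (nat_lit 528) (nat_lit 362) (nat_lit 250)) (XT.lf (nat_lit 0) (nat_lit 1984528446)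 (nat_lit 152) (nat_lit 10727544255) (nat_lit 76) (nat_lit 13932819631) (nat_lit 23) (nat_lit 5) (nat_lit 25) (nat_lit 5) (nat_lit 24) (nat_lit 5) (nat_lit 529) (nat_lit 362) (nat_lit 249)))) (XT.nd (nat_lit 50310) (nat_lit 0) (nat_lit 31692) (XT.nd (nat_lit 78) (nat_lit 152) (nat_lit 0) (XT.lf (nat_lit 0) (nat_lit 6239272350) (nat_lit 152) (nat_lit 1706261186) (nat_lit 76) (nat_lit 19128934838) (nat_lit 23) (nat_lit 5) (nat_lit 25) (nat_lit 5) (nat_lit 24) (nat_lit 5) (nat_lit 530) (nat_lit 362) (nat_lit 248)) (XT.lf (nat_lit 0) (nat_lit 7563087878) (nat_lit 152) (nat_lit 3047580159) (nat_lit 228) (nat_lit 16901340058) (nat_lit 21) (nat_lit 5) (nat_lit 23) (nat_lit 5) (nat_lit 24) (nat_lit 5) (nat_lit 531) (nat_lit 362) (nat_lit 247))) (XT.nd (nat_lit 78) (nat_lit 1596) (nat_lit 0) (XT.lf (nat_lit 0) (nat_lit 2119037334) (nat_lit 1444) (nat_lit 697382897) (nat_lit 1444) (nat_lit 697382897) (nat_lit 459) (nat_lit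 4) (nat_lit 478) (nat_lit 5) (nat_lit 478) (nat_lit 4) (nat_lit 414) (nat_lit 363) (nat_lit 363)) (XT.lf (nat_lit 0) (nat_lit 1836094367) (nat_lit 1596) (nat_lit 5126777201) (nat_lit 0) (nat_lit 100616203) (nat_lit 438) (nat_lit 5) (nat_lit 459) (nat_lit 4) (nat_lit 438) (nat_lit 4) (nat_lit 415) (nat_lit 363) (nat_lit 362))))))) (XT.nd (nat_lit 1092) (nat_lit 6840) (nat_lit 0) (XT.nd (nat_lit 546) (nat_lit 3420) (nat_lit 0) (XT.nd (nat_lit 234) (nat_lit 3344) (nat_lit 0) (XT.nd (nat_lit 78) (nat_lit 3344) (nat_lit 0) (XT.lf (nat_lit 0) (nat_lit 5075349000) (nat_lit 1596) (nat_lit 386943392) (nat_lit 0) (nat_lit 1638421655) (nat_lit 438) (nat_lit 5) (nat_lit 459) (nat_lit 4) (nat_lit 438) (nat_lit 4) (nat_lit 416) (nat_lit 363) (nat_lit 361)) (XT.nd (nat_lit 78) (nat_lit 1672) (nat_lit 0) (XT.lf (nat_lit 0) (nat_lit 1188629662) (nat_lit 1672) (nat_lit 2703982856) (nat_lit 76) (nat_lit 3246685490) (nat_lit 416)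 (nat_lit 5) (nat_lit 438) (nat_lit 5) (nat_lit 417) (nat_lit 4) (nat_lit 417) (nat_lit 363) (nat_lit 360)) (XT.lf (nat_lit 0) (nat_lit 2132028817) (nat_lit 1672) (nat_lit 2260260008) (nat_lit 1748) (nat_lit 2787104074) (nat_lit 394) (nat_lit 5) (nat_lit 416) (nat_lit 5) (nat_lit 417) (nat_lit 4) (nat_lit 418) (nat_lit 363) (nat_lit 359)))) (XT.nd (nat_lit 156) (nat_lit 1824) (nat_lit 0) (XT.nd (nat_lit 78) (nat_lit 1444) (nat_lit 0) (XT.lf (nat_lit 0) (nat_lit 388625885) (nat_lit 1748) (nat_lit 185137809) (nat_lit 76) (nat_lit 6647430529) (nat_lit 393) (nat_lit 5) (nat_lit 416) (nat_lit 5) (nat_lit 394) (nat_lit 5) (nat_lit 419) (nat_lit 363) (nat_lit 358)) (XT.lf (nat_lit 0) (nat_lit 3566877526) (nat_lit 1520) (nat_lit 2516068394) (nat_lit 76) (nat_lit 1181044464) (nat_lit 374) (nat_lit 5) (nat_lit 394) (nat_lit 5) (nat_lit 375) (nat_lit 4) (nat_lit 420) (nat_lit 363) (nat_lit 357))) (XT.nd (nat_lit 78) (nat_lit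 988) (nat_lit 0) (XT.lf (nat_lit 0) (nat_lit 2439449087) (nat_lit 836) (nat_lit 4328594608) (nat_lit 912) (nat_lit 540464522) (nat_lit 363) (nat_lit 5) (nat_lit 374) (nat_lit 5) (nat_lit 375) (nat_lit 4) (nat_lit 421) (nat_lit 363) (nat_lit 356)) (XT.lf (nat_lit 0) (nat_lit 94618015) (nat_lit 912) (nat_lit 2505975212) (nat_lit 988) (nat_lit 4753897628) (nat_lit 350) (nat_lit 5) (nat_lit 362) (nat_lit 5) (nat_lit 363) (nat_lit 5) (nat_lit 422) (nat_lit 363) (nat_lit 355))))) (XT.nd (nat_lit 234) (nat_lit 1672) (nat_lit 0) (XT.nd (nat_lit 78) (nat_lit 1748) (nat_lit 0) (XT.lf (nat_lit 0) (nat_lit 5156643124) (nat_lit 912) (nat_lit 612844140) (nat_lit 988) (nat_lit 1632439091) (nat_lit 350) (nat_lit 5) (nat_lit 362) (nat_lit 5) (nat_lit 363) (nat_lit 5) (nat_lit 423) (nat_lit 363) (nat_lit 354)) (XT.nd (nat_lit 78) (nat_lit 836) (nat_lit 0) (XT.lf (nat_lit 0) (nat_lit 1498564697) (nat_lit 912) (nat_lit 4625916736)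 (nat_lit 76) (nat_lit 1326326165) (nat_lit 338) (nat_lit 5) (nat_lit 350) (nat_lit 5) (nat_lit 339) (nat_lit 5) (nat_lit 424) (nat_lit 363) (nat_lit 353)) (XT.lf (nat_lit 0) (nat_lit 453834366) (nat_lit 836) (nat_lit 4179767998) (nat_lit 912) (nat_lit 2867629681) (nat_lit 327) (nat_lit 5) (nat_lit 338) (nat_lit 5) (nat_lit 339) (nat_lit 5) (nat_lit 425) (nat_lit 363) (nat_lit 352)))) (XT.nd (nat_lit 156) (nat_lit 836) (nat_lit 0) (XT.nd (nat_lit 78) (nat_lit 760) (nat_lit 0) (XT.lf (nat_lit 0) (nat_lit 247662525) (nat_lit 912) (nat_lit 1920265177) (nat_lit 76) (nat_lit 5385293270) (nat_lit 326) (nat_lit 5) (nat_lit 338) (nat_lit 5) (nat_lit 327) (nat_lit 5) (nat_lit 426) (nat_lit 363) (nat_lit 351)) (XT.lf (nat_lit 0) (nat_lit 3270476518) (nat_lit 760) (nat_lit 80199327) (nat_lit 836) (nat_lit 4255962606) (nat_lit 316) (nat_lit 5) (nat_lit 326) (nat_lit 5) (nat_lit 327) (nat_lit 5) (nat_lit 427) (nat_lit 363) (nat_lit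 350))) (XT.nd (nat_lit 78) (nat_lit 76) (nat_lit 0) (XT.lf (nat_lit 0) (nat_lit 864581595) (nat_lit 760) (nat_lit 5626285152) (nat_lit 836) (nat_lit 1170798450) (nat_lit 306) (nat_lit 5) (nat_lit 316) (nat_lit 5) (nat_lit 317) (nat_lit 5) (nat_lit 428) (nat_lit 363) (nat_lit 349)) (XT.lf (nat_lit 0) (nat_lit 1923491514) (nat_lit 836) (nat_lit 1566583603) (nat_lit 76) (nat_lit 4228035565) (nat_lit 305) (nat_lit 5) (nat_lit 316) (nat_lit 5) (nat_lit 306) (nat_lit 5) (nat_lit 429) (nat_lit 363) (nat_lit 348)))))) (XT.nd (nat_lit 546) (nat_lit 3268) (nat_lit 0) (XT.nd (nat_lit 234) (nat_lit 2052) (nat_lit 0) (XT.nd (nat_lit 78) (nat_lit 836) (nat_lit 0) (XT.lf (nat_lit 0) (nat_lit 3747234972) (nat_lit 684) (nat_lit 1285724281) (nat_lit 760) (nat_lit 2743232432) (nat_lit 296) (nat_lit 5) (nat_lit 305) (nat_lit 5) (nat_lit 306) (nat_lit 5) (nat_lit 430) (nat_lit 363) (nat_lit 347)) (XT.nd (nat_lit 78) (nat_lit 0) (nat_lit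 0) (XT.lf (nat_lit 0) (nat_lit 334640599) (nat_lit 836) (nat_lit 6537540513) (nat_lit 76) (nat_lit 963838435) (nat_lit 285) (nat_lit 5) (nat_lit 296) (nat_lit 5) (nat_lit 286) (nat_lit 5) (nat_lit 431) (nat_lit 363) (nat_lit 346)) (XT.lf (nat_lit 0) (nat_lit 3418628755) (nat_lit 836) (nat_lit 1199988306) (nat_lit 76) (nat_lit 3278476875) (nat_lit 285) (nat_lit 5) (nat_lit 296) (nat_lit 5) (nat_lit 286) (nat_lit 5) (nat_lit 432) (nat_lit 363) (nat_lit 345)))) (XT.nd (nat_lit 156) (nat_lit 608) (nat_lit 0) (XT.nd (nat_lit 78) (nat_lit 760) (nat_lit 0) (XT.lf (nat_lit 0) (nat_lit 4237437488) (nat_lit 684) (nat_lit 2300964587) (nat_lit 760) (nat_lit 1421543294) (nat_lit 276) (nat_lit 5) (nat_lit 285) (nat_lit 5) (nat_lit 286) (nat_lit 5) (nat_lit 433) (nat_lit 363) (nat_lit 344)) (XT.lf (nat_lit 0) (nat_lit 1640970226) (nat_lit 760) (nat_lit 6300340618) (nat_lit 76) (nat_lit 83224822) (nat_lit 266) (nat_lit 5) (nat_lit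 276) (nat_lit 5) (nat_lit 267) (nat_lit 5) (nat_lit 434) (nat_lit 363) (nat_lit 343))) (XT.nd (nat_lit 78) (nat_lit 608) (nat_lit 0) (XT.lf (nat_lit 0) (nat_lit 4733525760) (nat_lit 760) (nat_lit 847836862) (nat_lit 76) (nat_lit 2509146187) (nat_lit 266) (nat_lit 5) (nat_lit 276) (nat_lit 5) (nat_lit 267) (nat_lit 5) (nat_lit 435) (nat_lit 363) (nat_lit 342)) (XT.lf (nat_lit 0) (nat_lit 4713384339) (nat_lit 608) (nat_lit 3153606191) (nat_lit 684) (nat_lit 291264519) (nat_lit 258) (nat_lit 5) (nat_lit 266) (nat_lit 5) (nat_lit 267) (nat_lit 5) (nat_lit 436) (nat_lit 363) (nat_lit 341))))) (XT.nd (nat_lit 312) (nat_lit 1216) (nat_lit 0) (XT.nd (nat_lit 156) (nat_lit 1292) (nat_lit 0) (XT.nd (nat_lit 78) (nat_lit 0) (nat_lit 0) (XT.lf (nat_lit 0) (nat_lit 2116938957) (nat_lit 684) (nat_lit 649804031) (nat_lit 760) (nat_lit 5460915110) (nat_lit 248) (nat_lit 5) (nat_lit 257) (nat_lit 5) (nat_lit 258) (nat_lit 5) (nat_lit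 437) (nat_lit 363) (nat_lit 340)) (XT.lf (nat_lit 0) (nat_lit 5866870808) (nat_lit 760) (nat_lit 538768630) (nat_lit 76) (nat_lit 1893106852) (nat_lit 248) (nat_lit 5) (nat_lit 258) (nat_lit 5) (nat_lit 249) (nat_lit 5) (nat_lit 438) (nat_lit 363) (nat_lit 339))) (XT.nd (nat_lit 78) (nat_lit 608) (nat_lit 0) (XT.lf (nat_lit 0) (nat_lit 636941272) (nat_lit 684) (nat_lit 3229694040) (nat_lit 76) (nat_lit 4504810581) (nat_lit 239) (nat_lit 5) (nat_lit 248) (nat_lit 5) (nat_lit 240) (nat_lit 5) (nat_lit 439) (nat_lit 363) (nat_lit 338)) (XT.lf (nat_lit 0) (nat_lit 2451617438) (nat_lit 608) (nat_lit 1252981735) (nat_lit 684) (nat_lit 4741309166) (nat_lit 231) (nat_lit 5) (nat_lit 239) (nat_lit 5) (nat_lit 240) (nat_lit 5) (nat_lit 440) (nat_lit 363) (nat_lit 337)))) (XT.nd (nat_lit 156) (nat_lit 608) (nat_lit 0) (XT.nd (nat_lit 78) (nat_lit 608) (nat_lit 0) (XT.lf (nat_lit 0) (nat_lit 6815529965) (nat_lit 684) (nat_lit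 302994460) (nat_lit 76) (nat_lit 1403727508) (nat_lit 231) (nat_lit 5) (nat_lit 240) (nat_lit 5) (nat_lit 232) (nat_lit 5) (nat_lit 441) (nat_lit 363) (nat_lit 336)) (XT.lf (nat_lit 0) (nat_lit 1366219020) (nat_lit 608) (nat_lit 3104554994) (nat_lit 76) (nat_lit 4129279725) (nat_lit 223) (nat_lit 5) (nat_lit 231) (nat_lit 5) (nat_lit 224) (nat_lit 5) (nat_lit 442) (nat_lit 363) (nat_lit 335))) (XT.nd (nat_lit 78) (nat_lit 0) (nat_lit 0) (XT.lf (nat_lit 0) (nat_lit 2697135809) (nat_lit 608) (nat_lit 1752305172) (nat_lit 684) (nat_lit 4230340013) (nat_lit 215) (nat_lit 5) (nat_lit 223) (nat_lit 5) (nat_lit 224) (nat_lit 5) (nat_lit 443) (nat_lit 363) (nat_lit 334)) (XT.lf (nat_lit 0) (nat_lit 7574471943) (nat_lit 684) (nat_lit 172605920) (nat_lit 76) (nat_lit 1014450026) (nat_lit 215) (nat_lit 5) (nat_lit 224) (nat_lit 5) (nat_lit 216) (nat_lit 5) (nat_lit 444) (nat_lit 363) (nat_lit 333))))))))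
noncomputable def xc62 : XT := (XT.nd (nat_lit 2184) (nat_lit 4332) (nat_lit 0) (XT.nd (nat_lit 1092) (nat_lit 3116) (nat_lit 0) (XT.nd (nat_lit 546) (nat_lit 2356) (nat_lit 0) (XT.nd (nat_lit 234) (nat_lit 1596) (nat_lit 0) (XT.nd (nat_lit 78) (nat_lit 532) (nat_lit 0) (XT.lf (nat_lit 0) (nat_lit 1894398477) (nat_lit 608) (nat_lit 3100703912) (nat_lit 76) (nat_lit 3849536336) (nat_lit 207) (nat_lit 5) (nat_lit 215) (nat_lit 5) (nat_lit 208) (nat_lit 5) (nat_lit 445) (nat_lit 363) (nat_lit 332)) (XT.nd (nat_lit 78) (nat_lit 0) (nat_lit 0) (XT.lf (nat_lit 0) (nat_lit 2819746701) (nat_lit 532) (nat_lit 2174995255) (nat_lit 608) (nat_lit 3935076168) (nat_lit 200) (nat_lit 5) (nat_lit 207) (nat_lit 5) (nat_lit 208) (nat_lit 5) (nat_lit 446) (nat_lit 363) (nat_lit 331)) (XT.lf (nat_lit 0) (nat_lit 8136675841) (nat_lit 608) (nat_lit 181906925) (nat_lit 76) (nat_lit 698552530) (nat_lit 200) (nat_lit 5) (nat_lit 208) (nat_lit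 5) (nat_lit 201) (nat_lit 5) (nat_lit 447) (nat_lit 363) (nat_lit 330)))) (XT.nd (nat_lit 156) (nat_lit 532) (nat_lit 0) (XT.nd (nat_lit 78) (nat_lit 532) (nat_lit 0) (XT.lf (nat_lit 0) (nat_lit 2213438849) (nat_lit 532) (nat_lit 3253632372) (nat_lit 76) (nat_lit 3638712086) (nat_lit 193) (nat_lit 5) (nat_lit 200) (nat_lit 5) (nat_lit 194) (nat_lit 5) (nat_lit 448) (nat_lit 363) (nat_lit 329)) (XT.lf (nat_lit 0) (nat_lit 2783257212) (nat_lit 532) (nat_lit 2548637088) (nat_lit 608) (nat_lit 3864728574) (nat_lit 186) (nat_lit 5) (nat_lit 193) (nat_lit 5) (nat_lit 194) (nat_lit 5) (nat_lit 449) (nat_lit 363) (nat_lit 328))) (XT.nd (nat_lit 78) (nat_lit 532) (nat_lit 0) (XT.lf (nat_lit 0) (nat_lit 8493020677) (nat_lit 608) (nat_lit 367770909) (nat_lit 76) (nat_lit 428905494) (nat_lit 186) (nat_lit 5) (nat_lit 194) (nat_lit 5) (nat_lit 187) (nat_lit 5) (nat_lit 450) (nat_lit 363) (nat_lit 327)) (XT.lf (nat_lit 0) (nat_lit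 2313130805) (nat_lit 532) (nat_lit 3601551173) (nat_lit 76) (nat_lit 3469451071) (nat_lit 179) (nat_lit 5) (nat_lit 186) (nat_lit 5) (nat_lit 180) (nat_lit 5) (nat_lit 451) (nat_lit 363) (nat_lit 326))))) (XT.nd (nat_lit 234) (nat_lit 1368) (nat_lit 0) (XT.nd (nat_lit 78) (nat_lit 532) (nat_lit 0) (XT.lf (nat_lit 0) (nat_lit 2548649706) (nat_lit 456) (nat_lit 2901434850) (nat_lit 532) (nat_lit 4030778009) (nat_lit 173) (nat_lit 5) (nat_lit 179) (nat_lit 5) (nat_lit 180) (nat_lit 5) (nat_lit 452) (nat_lit 363) (nat_lit 325)) (XT.nd (nat_lit 78) (nat_lit 532) (nat_lit 0) (XT.lf (nat_lit 0) (nat_lit 8632155446) (nat_lit 532) (nat_lit 770026949) (nat_lit 76) (nat_lit 177718782) (nat_lit 173) (nat_lit 5) (nat_lit 180) (nat_lit 5) (nat_lit 174) (nat_lit 5) (nat_lit 453) (nat_lit 363) (nat_lit 324)) (XT.lf (nat_lit 0) (nat_lit 2180958399) (nat_lit 532) (nat_lit 4185789736) (nat_lit 76) (nat_lit 3313651862) (nat_lit 166)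 (nat_lit 5) (nat_lit 173) (nat_lit 5) (nat_lit 167) (nat_lit 5) (nat_lit 454) (nat_lit 363) (nat_lit 323)))) (XT.nd (nat_lit 156) (nat_lit 912) (nat_lit 0) (XT.nd (nat_lit 78) (nat_lit 0) (nat_lit 0) (XT.lf (nat_lit 0) (nat_lit 2073671098) (nat_lit 456) (nat_lit 3262477628) (nat_lit 532) (nat_lit 4447123521) (nat_lit 160) (nat_lit 5) (nat_lit 166) (nat_lit 5) (nat_lit 167) (nat_lit 5) (nat_lit 455) (nat_lit 363) (nat_lit 322)) (XT.lf (nat_lit 0) (nat_lit 8456063865) (nat_lit 456) (nat_lit 84835205) (nat_lit 532) (nat_lit 1347594133) (nat_lit 160) (nat_lit 5) (nat_lit 166) (nat_lit 5) (nat_lit 167) (nat_lit 5) (nat_lit 456) (nat_lit 363) (nat_lit 321))) (XT.nd (nat_lit 78) (nat_lit 456) (nat_lit 0) (XT.lf (nat_lit 0) (nat_lit 1801939402) (nat_lit 456) (nat_lit 5051229713) (nat_lit 76) (nat_lit 3142197442) (nat_lit 154) (nat_lit 5) (nat_lit 160) (nat_lit 5) (nat_lit 155) (nat_lit 5) (nat_lit 457) (nat_lit 363) (nat_lit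 320)) (XT.lf (nat_lit 0) (nat_lit 1312386685) (nat_lit 456) (nat_lit 3662018557) (nat_lit 532) (nat_lit 5130253474) (nat_lit 148) (nat_lit 5) (nat_lit 154) (nat_lit 5) (nat_lit 155) (nat_lit 5) (nat_lit 458) (nat_lit 363) (nat_lit 319)))))) (XT.nd (nat_lit 546) (nat_lit 1444) (nat_lit 0) (XT.nd (nat_lit 234) (nat_lit 836) (nat_lit 0) (XT.nd (nat_lit 78) (nat_lit 836) (nat_lit 0) (XT.lf (nat_lit 0) (nat_lit 7813390887) (nat_lit 456) (nat_lit 390457174) (nat_lit 532) (nat_lit 2012436939) (nat_lit 148) (nat_lit 5) (nat_lit 154) (nat_lit 5) (nat_lit 155) (nat_lit 5) (nat_lit 459) (nat_lit 363) (nat_lit 318)) (XT.nd (nat_lit 78) (nat_lit 380) (nat_lit 0) (XT.lf (nat_lit 0) (nat_lit 1158442286) (nat_lit 456) (nat_lit 6246776961) (nat_lit 76) (nat_lit 2924670600) (nat_lit 142) (nat_lit 5) (nat_lit 148) (nat_lit 5) (nat_lit 143) (nat_lit 5) (nat_lit 460) (nat_lit 363) (nat_lit 317)) (XT.lf (nat_lit 0) (nat_lit 214694201)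 (nat_lit 380) (nat_lit 4131769805) (nat_lit 456) (nat_lit 6099441059) (nat_lit 137) (nat_lit 5) (nat_lit 142) (nat_lit 5) (nat_lit 143) (nat_lit 5) (nat_lit 461) (nat_lit 363) (nat_lit 316)))) (XT.nd (nat_lit 156) (nat_lit 380) (nat_lit 0) (XT.nd (nat_lit 78) (nat_lit 456) (nat_lit 0) (XT.lf (nat_lit 0) (nat_lit 6832384377) (nat_lit 380) (nat_lit 768617221) (nat_lit 456) (nat_lit 2963201281) (nat_lit 137) (nat_lit 5) (nat_lit 142) (nat_lit 5) (nat_lit 143) (nat_lit 5) (nat_lit 462) (nat_lit 363) (nat_lit 315)) (XT.lf (nat_lit 0) (nat_lit 229977957) (nat_lit 456) (nat_lit 7825876474) (nat_lit 76) (nat_lit 2629052189) (nat_lit 131) (nat_lit 5) (nat_lit 137) (nat_lit 5) (nat_lit 132) (nat_lit 5) (nat_lit 463) (nat_lit 363) (nat_lit 314))) (XT.nd (nat_lit 78) (nat_lit 380) (nat_lit 0) (XT.lf (nat_lit 0) (nat_lit 3439282459) (nat_lit 456) (nat_lit 1257495173) (nat_lit 76) (nat_lit 6111032687) (nat_lit 131) (nat_lit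 5) (nat_lit 137) (nat_lit 5) (nat_lit 132) (nat_lit 5) (nat_lit 464) (nat_lit 363) (nat_lit 313)) (XT.lf (nat_lit 0) (nat_lit 5457582637) (nat_lit 380) (nat_lit 1252980899) (nat_lit 456) (nat_lit 4222668819) (nat_lit 126) (nat_lit 5) (nat_lit 131) (nat_lit 5) (nat_lit 132) (nat_lit 5) (nat_lit 465) (nat_lit 363) (nat_lit 312))))) (XT.nd (nat_lit 234) (nat_lit 684) (nat_lit 0) (XT.nd (nat_lit 78) (nat_lit 456) (nat_lit 0) (XT.lf (nat_lit 0) (nat_lit 1207605742) (nat_lit 304) (nat_lit 8833281554) (nat_lit 380) (nat_lit 1020418955) (nat_lit 122) (nat_lit 5) (nat_lit 126) (nat_lit 5) (nat_lit 127) (nat_lit 5) (nat_lit 466) (nat_lit 363) (nat_lit 311)) (XT.nd (nat_lit 78) (nat_lit 380) (nat_lit 0) (XT.lf (nat_lit 0) (nat_lit 2224425450) (nat_lit 380) (nat_lit 3172236793) (nat_lit 76) (nat_lit 5794842800) (nat_lit 121) (nat_lit 5) (nat_lit 126) (nat_lit 5) (nat_lit 122) (nat_lit 5) (nat_lit 467) (nat_lit 363) (nat_lit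 310)) (XT.lf (nat_lit 0) (nat_lit 3628135734) (nat_lit 380) (nat_lit 1879386527) (nat_lit 456) (nat_lit 5816925121) (nat_lit 116) (nat_lit 5) (nat_lit 121) (nat_lit 5) (nat_lit 122) (nat_lit 5) (nat_lit 468) (nat_lit 363) (nat_lit 309)))) (XT.nd (nat_lit 156) (nat_lit 304) (nat_lit 0) (XT.nd (nat_lit 78) (nat_lit 380) (nat_lit 0) (XT.lf (nat_lit 0) (nat_lit 8852485358) (nat_lit 456) (nat_lit 919134612) (nat_lit 76) (nat_lit 1688519071) (nat_lit 116) (nat_lit 5) (nat_lit 122) (nat_lit 5) (nat_lit 117) (nat_lit 5) (nat_lit 469) (nat_lit 363) (nat_lit 308)) (XT.lf (nat_lit 0) (nat_lit 672994870) (nat_lit 380) (nat_lit 5597472808) (nat_lit 76) (nat_lit 5327685914) (nat_lit 111) (nat_lit 5) (nat_lit 116) (nat_lit 5) (nat_lit 112) (nat_lit 5) (nat_lit 470) (nat_lit 363) (nat_lit 307))) (XT.nd (nat_lit 78) (nat_lit 0) (nat_lit 0) (XT.lf (nat_lit 0) (nat_lit 1277158937) (nat_lit 304) (nat_lit 2686209527) (nat_lit 380)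 (nat_lit 7775648386) (nat_lit 107) (nat_lit 5) (nat_lit 111) (nat_lit 5) (nat_lit 112) (nat_lit 5) (nat_lit 471) (nat_lit 363) (nat_lit 306)) (XT.lf (nat_lit 0) (nat_lit 7328368659) (nat_lit 380) (nat_lit 3578390840) (nat_lit 76) (nat_lit 975774943) (nat_lit 107) (nat_lit 5) (nat_lit 112) (nat_lit 5) (nat_lit 108) (nat_lit 5) (nat_lit 472) (nat_lit 363) (nat_lit 305))))))) (XT.nd (nat_lit 1092) (nat_lit 1900) (nat_lit 0) (XT.nd (nat_lit 546) (nat_lit 1140) (nat_lit 0) (XT.nd (nat_lit 234) (nat_lit 608) (nat_lit 0) (XT.nd (nat_lit 78) (nat_lit 380) (nat_lit 0) (XT.lf (nat_lit 0) (nat_lit 3415775866) (nat_lit 304) (nat_lit 7350264085) (nat_lit 380) (nat_lit 1262788197) (nat_lit 103) (nat_lit 5) (nat_lit 107) (nat_lit 5) (nat_lit 108) (nat_lit 5) (nat_lit 473) (nat_lit 363) (nat_lit 304)) (XT.nd (nat_lit 78) (nat_lit 304) (nat_lit 0) (XT.lf (nat_lit 0) (nat_lit 2056614849) (nat_lit 380) (nat_lit 1647087769) (nat_lit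 76) (nat_lit 8474292487) (nat_lit 102) (nat_lit 5) (nat_lit 107) (nat_lit 5) (nat_lit 103) (nat_lit 5) (nat_lit 474) (nat_lit 363) (nat_lit 303)) (XT.lf (nat_lit 0) (nat_lit 5427457857) (nat_lit 380) (nat_lit 6861705747) (nat_lit 76) (nat_lit 40788070) (nat_lit 98) (nat_lit 5) (nat_lit 103) (nat_lit 5) (nat_lit 99) (nat_lit 5) (nat_lit 475) (nat_lit 363) (nat_lit 302)))) (XT.nd (nat_lit 156) (nat_lit 380) (nat_lit 0) (XT.nd (nat_lit 78) (nat_lit 0) (nat_lit 0) (XT.lf (nat_lit 0) (nat_lit 188109662) (nat_lit 228) (nat_lit 8680851205) (nat_lit 304) (nat_lit 3615933825) (nat_lit 95) (nat_lit 5) (nat_lit 98) (nat_lit 5) (nat_lit 99) (nat_lit 5) (nat_lit 476) (nat_lit 363) (nat_lit 301)) (XT.lf (nat_lit 0) (nat_lit 7419040801) (nat_lit 228) (nat_lit 4972982785) (nat_lit 304) (nat_lit 250670335) (nat_lit 95) (nat_lit 5) (nat_lit 98) (nat_lit 5) (nat_lit 99) (nat_lit 5) (nat_lit 477) (nat_lit 363) (nat_lit 300))) (XT.nd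 (nat_lit 78) (nat_lit 0) (nat_lit 0) (XT.lf (nat_lit 0) (nat_lit 1943467081) (nat_lit 304) (nat_lit 1176427832) (nat_lit 380) (nat_lit 9683757968) (nat_lit 90) (nat_lit 5) (nat_lit 94) (nat_lit 5) (nat_lit 95) (nat_lit 5) (nat_lit 478) (nat_lit 363) (nat_lit 299)) (XT.lf (nat_lit 0) (nat_lit 6574599459) (nat_lit 380) (nat_lit 3714286349) (nat_lit 76) (nat_lit 2678521639) (nat_lit 90) (nat_lit 5) (nat_lit 95) (nat_lit 5) (nat_lit 91) (nat_lit 5) (nat_lit 479) (nat_lit 363) (nat_lit 298))))) (XT.nd (nat_lit 234) (nat_lit 532) (nat_lit 0) (XT.nd (nat_lit 78) (nat_lit 380) (nat_lit 0) (XT.lf (nat_lit 0) (nat_lit 3561988385) (nat_lit 228) (nat_lit 6535259891) (nat_lit 304) (nat_lit 3037222856) (nat_lit 87) (nat_lit 5) (nat_lit 90) (nat_lit 5) (nat_lit 91) (nat_lit 5) (nat_lit 480) (nat_lit 363) (nat_lit 297)) (XT.nd (nat_lit 78) (nat_lit 304) (nat_lit 0) (XT.lf (nat_lit 0) (nat_lit 373516507) (nat_lit 304) (nat_lit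 2324473737) (nat_lit 76) (nat_lit 10606984436) (nat_lit 86) (nat_lit 5) (nat_lit 90) (nat_lit 5) (nat_lit 87) (nat_lit 5) (nat_lit 481) (nat_lit 363) (nat_lit 296)) (XT.lf (nat_lit 0) (nat_lit 3821477810) (nat_lit 380) (nat_lit 8422341799) (nat_lit 76) (nat_lit 1234484056) (nat_lit 82) (nat_lit 5) (nat_lit 87) (nat_lit 5) (nat_lit 83) (nat_lit 5) (nat_lit 482) (nat_lit 363) (nat_lit 295)))) (XT.nd (nat_lit 156) (nat_lit 304) (nat_lit 0) (XT.nd (nat_lit 78) (nat_lit 228) (nat_lit 0) (XT.lf (nat_lit 0) (nat_lit 7340767679) (nat_lit 380) (nat_lit 1107971801) (nat_lit 76) (nat_lit 5206322555) (nat_lit 82) (nat_lit 5) (nat_lit 87) (nat_lit 5) (nat_lit 83) (nat_lit 5) (nat_lit 483) (nat_lit 363) (nat_lit 294)) (XT.lf (nat_lit 0) (nat_lit 6386714393) (nat_lit 228) (nat_lit 4554607612) (nat_lit 304) (nat_lit 2893825988) (nat_lit 79) (nat_lit 5) (nat_lit 82) (nat_lit 5) (nat_lit 83) (nat_lit 5) (nat_lit 484) (nat_lit 363)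 (nat_lit 293))) (XT.nd (nat_lit 78) (nat_lit 228) (nat_lit 0) (XT.lf (nat_lit 0) (nat_lit 564212317) (nat_lit 304) (nat_lit 26108622) (nat_lit 76) (nat_lit 13428907771) (nat_lit 78) (nat_lit 5) (nat_lit 82) (nat_lit 5) (nat_lit 79) (nat_lit 5) (nat_lit 485) (nat_lit 363) (nat_lit 292)) (XT.lf (nat_lit 0) (nat_lit 4094717278) (nat_lit 304) (nat_lit 6652968393) (nat_lit 76) (nat_lit 3458091140) (nat_lit 75) (nat_lit 5) (nat_lit 79) (nat_lit 5) (nat_lit 76) (nat_lit 5) (nat_lit 486) (nat_lit 363) (nat_lit 291)))))) (XT.nd (nat_lit 546) (nat_lit 912) (nat_lit 0) (XT.nd (nat_lit 234) (nat_lit 456) (nat_lit 0) (XT.nd (nat_lit 78) (nat_lit 304) (nat_lit 0) (XT.lf (nat_lit 0) (nat_lit 845783848) (nat_lit 228) (nat_lit 6829853636) (nat_lit 304) (nat_lit 6720831518) (nat_lit 72) (nat_lit 5) (nat_lit 75) (nat_lit 5) (nat_lit 76) (nat_lit 5) (nat_lit 487) (nat_lit 363) (nat_lit 290)) (XT.nd (nat_lit 78) (nat_lit 304) (nat_lit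 0) (XT.lf (nat_lit 0) (nat_lit 8536012736) (nat_lit 228) (nat_lit 2807303958) (nat_lit 304) (nat_lit 3247364584) (nat_lit 72) (nat_lit 5) (nat_lit 75) (nat_lit 5) (nat_lit 76) (nat_lit 5) (nat_lit 488) (nat_lit 363) (nat_lit 289)) (XT.lf (nat_lit 0) (nat_lit 281077785) (nat_lit 304) (nat_lit 13235787818) (nat_lit 76) (nat_lit 1272094864) (nat_lit 68) (nat_lit 5) (nat_lit 72) (nat_lit 5) (nat_lit 69) (nat_lit 5) (nat_lit 489) (nat_lit 363) (nat_lit 288)))) (XT.nd (nat_lit 156) (nat_lit 228) (nat_lit 0) (XT.nd (nat_lit 78) (nat_lit 228) (nat_lit 0) (XT.lf (nat_lit 0) (nat_lit 3867149554) (nat_lit 304) (nat_lit 5683784208) (nat_lit 76) (nat_lit 5439239848) (nat_lit 68) (nat_lit 5) (nat_lit 72) (nat_lit 5) (nat_lit 69) (nat_lit 5) (nat_lit 490) (nat_lit 363) (nat_lit 287)) (XT.lf (nat_lit 0) (nat_lit 1998143281) (nat_lit 228) (nat_lit 5511352765) (nat_lit 304) (nat_lit 7686232267) (nat_lit 65) (nat_lit 5) (nat_lit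 68) (nat_lit 5) (nat_lit 69) (nat_lit 5) (nat_lit 491) (nat_lit 363) (nat_lit 286))) (XT.nd (nat_lit 78) (nat_lit 228) (nat_lit 0) (XT.lf (nat_lit 0) (nat_lit 9863743641) (nat_lit 228) (nat_lit 1370919055) (nat_lit 304) (nat_lit 4170540147) (nat_lit 65) (nat_lit 5) (nat_lit 68) (nat_lit 5) (nat_lit 69) (nat_lit 5) (nat_lit 492) (nat_lit 363) (nat_lit 285)) (XT.lf (nat_lit 0) (nat_lit 2232013732) (nat_lit 228) (nat_lit 12807594253) (nat_lit 304) (nat_lit 579161412) (nat_lit 62) (nat_lit 5) (nat_lit 65) (nat_lit 5) (nat_lit 66) (nat_lit 5) (nat_lit 493) (nat_lit 363) (nat_lit 284))))) (XT.nd (nat_lit 312) (nat_lit 456) (nat_lit 0) (XT.nd (nat_lit 156) (nat_lit 228) (nat_lit 0) (XT.nd (nat_lit 78) (nat_lit 152) (nat_lit 0) (XT.lf (nat_lit 0) (nat_lit 3062426697) (nat_lit 304) (nat_lit 5675739341) (nat_lit 76) (nat_lit 7097671902) (nat_lit 61) (nat_lit 5) (nat_lit 65) (nat_lit 5) (nat_lit 62) (nat_lit 5) (nat_lit 494)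 (nat_lit 363) (nat_lit 283)) (XT.lf (nat_lit 0) (nat_lit 2168415688) (nat_lit 152) (nat_lit 4587623027) (nat_lit 228) (nat_lit 9301401206) (nat_lit 59) (nat_lit 5) (nat_lit 61) (nat_lit 5) (nat_lit 62) (nat_lit 5) (nat_lit 495) (nat_lit 363) (nat_lit 282))) (XT.nd (nat_lit 78) (nat_lit 228) (nat_lit 0) (XT.lf (nat_lit 0) (nat_lit 10201005244) (nat_lit 152) (nat_lit 333703470) (nat_lit 228) (nat_lit 5748548938) (nat_lit 59) (nat_lit 5) (nat_lit 61) (nat_lit 5) (nat_lit 62) (nat_lit 5) (nat_lit 496) (nat_lit 363) (nat_lit 281)) (XT.lf (nat_lit 0) (nat_lit 1833788362) (nat_lit 228) (nat_lit 12566583320) (nat_lit 304) (nat_lit 2112998943) (nat_lit 56) (nat_lit 5) (nat_lit 59) (nat_lit 5) (nat_lit 60) (nat_lit 5) (nat_lit 497) (nat_lit 363) (nat_lit 280)))) (XT.nd (nat_lit 156) (nat_lit 228) (nat_lit 0) (XT.nd (nat_lit 78) (nat_lit 152) (nat_lit 0) (XT.lf (nat_lit 0) (nat_lit 1591192442) (nat_lit 304) (nat_lit 6814485691)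 (nat_lit 76) (nat_lit 8341870521) (nat_lit 55) (nat_lit 5) (nat_lit 59) (nat_lit 5) (nat_lit 56) (nat_lit 5) (nat_lit 498) (nat_lit 363) (nat_lit 279)) (XT.lf (nat_lit 0) (nat_lit 1165107029) (nat_lit 152) (nat_lit 4157734325) (nat_lit 228) (nat_lit 11663663077) (nat_lit 53) (nat_lit 5) (nat_lit 55) (nat_lit 5) (nat_lit 56) (nat_lit 5) (nat_lit 499) (nat_lit 363) (nat_lit 278))) (XT.nd (nat_lit 78) (nat_lit 228) (nat_lit 0) (XT.lf (nat_lit 0) (nat_lit 9150474226) (nat_lit 228) (nat_lit 7878307260) (nat_lit 76) (nat_lit 201037542) (nat_lit 53) (nat_lit 5) (nat_lit 56) (nat_lit 5) (nat_lit 54) (nat_lit 5) (nat_lit 500) (nat_lit 363) (nat_lit 277)) (XT.lf (nat_lit 0) (nat_lit 154800933) (nat_lit 228) (nat_lit 12903086838) (nat_lit 304) (nat_lit 4420054179) (nat_lit 50) (nat_lit 5) (nat_lit 53) (nat_lit 5) (nat_lit 54) (nat_lit 5) (nat_lit 501) (nat_lit 363) (nat_lit 276))))))))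
noncomputable def xc63 : XT := (XT.nd (nat_lit 2184) (nat_lit 76) (nat_lit 0) (XT.nd (nat_lit 1092) (nat_lit 760) (nat_lit 0) (XT.nd (nat_lit 546) (nat_lit 532) (nat_lit 0) (XT.nd (nat_lit 234) (nat_lit 456) (nat_lit 0) (XT.nd (nat_lit 78) (nat_lit 228) (nat_lit 0) (XT.lf (nat_lit 0) (nat_lit 8412309617) (nat_lit 228) (nat_lit 8658912612) (nat_lit 304) (nat_lit 659256113) (nat_lit 50) (nat_lit 5) (nat_lit 53) (nat_lit 5) (nat_lit 54) (nat_lit 5) (nat_lit 502) (nat_lit 363) (nat_lit 275)) (XT.nd (nat_lit 78) (nat_lit 152) (nat_lit 0) (XT.lf (nat_lit 0) (nat_lit 3110322086) (nat_lit 304) (nat_lit 1216268029) (nat_lit 76) (nat_lit 13661564488) (nat_lit 49) (nat_lit 5) (nat_lit 53) (nat_lit 5) (nat_lit 50) (nat_lit 5) (nat_lit 503) (nat_lit 363) (nat_lit 274)) (XT.lf (nat_lit 0) (nat_lit 6969070047) (nat_lit 228) (nat_lit 11156647207) (nat_lit 76) (nat_lit 124733961) (nat_lit 47) (nat_lit 5) (nat_lit 50) (nat_lit 5)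 (nat_lit 48) (nat_lit 5) (nat_lit 504) (nat_lit 363) (nat_lit 273)))) (XT.nd (nat_lit 156) (nat_lit 228) (nat_lit 0) (XT.nd (nat_lit 78) (nat_lit 228) (nat_lit 0) (XT.lf (nat_lit 0) (nat_lit 10917669854) (nat_lit 228) (nat_lit 3001784810) (nat_lit 76) (nat_lit 4598291531) (nat_lit 47) (nat_lit 5) (nat_lit 50) (nat_lit 5) (nat_lit 48) (nat_lit 5) (nat_lit 505) (nat_lit 363) (nat_lit 272)) (XT.lf (nat_lit 0) (nat_lit 5345287436) (nat_lit 228) (nat_lit 9610941844) (nat_lit 304) (nat_lit 3833943894) (nat_lit 44) (nat_lit 5) (nat_lit 47) (nat_lit 5) (nat_lit 48) (nat_lit 5) (nat_lit 506) (nat_lit 363) (nat_lit 271))) (XT.nd (nat_lit 78) (nat_lit 152) (nat_lit 0) (XT.lf (nat_lit 0) (nat_lit 4011367) (nat_lit 304) (nat_lit 5208879304) (nat_lit 76) (nat_lit 13855230702) (nat_lit 43) (nat_lit 5) (nat_lit 47) (nat_lit 5) (nat_lit 44) (nat_lit 5) (nat_lit 507) (nat_lit 363) (nat_lit 270)) (XT.lf (nat_lit 0) (nat_lit 3167765043)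 (nat_lit 152) (nat_lit 697025404) (nat_lit 228) (nat_lit 15486388733) (nat_lit 41) (nat_lit 5) (nat_lit 43) (nat_lit 5) (nat_lit 44) (nat_lit 5) (nat_lit 508) (nat_lit 363) (nat_lit 269))))) (XT.nd (nat_lit 234) (nat_lit 380) (nat_lit 0) (XT.nd (nat_lit 78) (nat_lit 152) (nat_lit 0) (XT.lf (nat_lit 0) (nat_lit 7840223324) (nat_lit 228) (nat_lit 7922590020) (nat_lit 76) (nat_lit 3876341444) (nat_lit 41) (nat_lit 5) (nat_lit 44) (nat_lit 5) (nat_lit 42) (nat_lit 5) (nat_lit 509) (nat_lit 363) (nat_lit 268)) (XT.nd (nat_lit 78) (nat_lit 0) (nat_lit 0) (XT.lf (nat_lit 0) (nat_lit 465400443) (nat_lit 152) (nat_lit 11414727230) (nat_lit 228) (nat_lit 8053068283) (nat_lit 39) (nat_lit 5) (nat_lit 41) (nat_lit 5) (nat_lit 42) (nat_lit 5) (nat_lit 510) (nat_lit 363) (nat_lit 267)) (XT.lf (nat_lit 0) (nat_lit 9089265742) (nat_lit 152) (nat_lit 6942243771) (nat_lit 228) (nat_lit 4201000044) (nat_lit 39) (nat_lit 5) (nat_lit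 41) (nat_lit 5) (nat_lit 42) (nat_lit 5) (nat_lit 511) (nat_lit 363) (nat_lit 266)))) (XT.nd (nat_lit 156) (nat_lit 152) (nat_lit 0) (XT.nd (nat_lit 78) (nat_lit 228) (nat_lit 0) (XT.lf (nat_lit 0) (nat_lit 17847100733) (nat_lit 152) (nat_lit 2396773800) (nat_lit 228) (nat_lit 294380883) (nat_lit 39) (nat_lit 5) (nat_lit 41) (nat_lit 5) (nat_lit 42) (nat_lit 5) (nat_lit 512) (nat_lit 363) (nat_lit 265)) (XT.lf (nat_lit 0) (nat_lit 3673665178) (nat_lit 228) (nat_lit 14918203118) (nat_lit 76) (nat_lit 2257139700) (nat_lit 36) (nat_lit 5) (nat_lit 39) (nat_lit 5) (nat_lit 37) (nat_lit 5) (nat_lit 513) (nat_lit 363) (nat_lit 264))) (XT.nd (nat_lit 78) (nat_lit 152) (nat_lit 0) (XT.lf (nat_lit 0) (nat_lit 7729501129) (nat_lit 228) (nat_lit 6460000745) (nat_lit 76) (nat_lit 6976192225) (nat_lit 36) (nat_lit 5) (nat_lit 39) (nat_lit 5) (nat_lit 37) (nat_lit 5) (nat_lit 514) (nat_lit 363) (nat_lit 263)) (XT.lf (nat_lit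 0) (nat_lit 2158292235) (nat_lit 152) (nat_lit 9700915520) (nat_lit 228) (nat_lit 9629655801) (nat_lit 34) (nat_lit 5) (nat_lit 36) (nat_lit 5) (nat_lit 37) (nat_lit 5) (nat_lit 515) (nat_lit 363) (nat_lit 262)))))) (XT.nd (nat_lit 546) (nat_lit 380) (nat_lit 0) (XT.nd (nat_lit 234) (nat_lit 152) (nat_lit 0) (XT.nd (nat_lit 78) (nat_lit 228) (nat_lit 0) (XT.lf (nat_lit 0) (nat_lit 10999384175) (nat_lit 152) (nat_lit 5094390981) (nat_lit 228) (nat_lit 5724280528) (nat_lit 34) (nat_lit 5) (nat_lit 36) (nat_lit 5) (nat_lit 37) (nat_lit 5) (nat_lit 516) (nat_lit 363) (nat_lit 261)) (XT.nd (nat_lit 78) (nat_lit 228) (nat_lit 0) (XT.lf (nat_lit 0) (nat_lit 19980892160) (nat_lit 152) (nat_lit 411471782) (nat_lit 228) (nat_lit 1761885637) (nat_lit 34) (nat_lit 5) (nat_lit 36) (nat_lit 5) (nat_lit 37) (nat_lit 5) (nat_lit 517) (nat_lit 363) (nat_lit 260)) (XT.lf (nat_lit 0) (nat_lit 2301462102) (nat_lit 228) (nat_lit 15843315687)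 (nat_lit 76) (nat_lit 4351065792) (nat_lit 31) (nat_lit 5) (nat_lit 34) (nat_lit 5) (nat_lit 32) (nat_lit 5) (nat_lit 518) (nat_lit 363) (nat_lit 259)))) (XT.nd (nat_lit 156) (nat_lit 0) (nat_lit 0) (XT.nd (nat_lit 78) (nat_lit 152) (nat_lit 0) (XT.lf (nat_lit 0) (nat_lit 6419577354) (nat_lit 228) (nat_lit 7210115296) (nat_lit 76) (nat_lit 9214406314) (nat_lit 31) (nat_lit 5) (nat_lit 34) (nat_lit 5) (nat_lit 32) (nat_lit 5) (nat_lit 519) (nat_lit 363) (nat_lit 258)) (XT.lf (nat_lit 0) (nat_lit 1581153682) (nat_lit 152) (nat_lit 9029230083) (nat_lit 228) (nat_lit 12589133292) (nat_lit 29) (nat_lit 5) (nat_lit 31) (nat_lit 5) (nat_lit 32) (nat_lit 5) (nat_lit 520) (nat_lit 363) (nat_lit 257))) (XT.nd (nat_lit 78) (nat_lit 0) (nat_lit 0) (XT.lf (nat_lit 0) (nat_lit 10610882965) (nat_lit 152) (nat_lit 4302732994) (nat_lit 228) (nat_lit 8647859459) (nat_lit 29) (nat_lit 5) (nat_lit 31) (nat_lit 5) (nat_lit 32) (nat_lit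 5) (nat_lit 521) (nat_lit 363) (nat_lit 256)) (XT.lf (nat_lit 0) (nat_lit 19286794063) (nat_lit 228) (nat_lit 4147537259) (nat_lit 76) (nat_lit 496668019) (nat_lit 29) (nat_lit 5) (nat_lit 32) (nat_lit 5) (nat_lit 30) (nat_lit 4) (nat_lit 522) (nat_lit 363) (nat_lit 255))))) (XT.nd (nat_lit 234) (nat_lit 228) (nat_lit 0) (XT.nd (nat_lit 78) (nat_lit 76) (nat_lit 0) (XT.lf (nat_lit 0) (nat_lit 4832436871) (nat_lit 76) (nat_lit 18955767355) (nat_lit 152) (nat_lit 518898086) (nat_lit 28) (nat_lit 5) (nat_lit 29) (nat_lit 5) (nat_lit 30) (nat_lit 4) (nat_lit 523) (nat_lit 363) (nat_lit 254)) (XT.nd (nat_lit 78) (nat_lit 0) (nat_lit 0) (XT.lf (nat_lit 0) (nat_lit 3649474926) (nat_lit 152) (nat_lit 10700133431) (nat_lit 76) (nat_lit 10340464945) (nat_lit 27) (nat_lit 5) (nat_lit 29) (nat_lit 5) (nat_lit 28) (nat_lit 5) (nat_lit 524) (nat_lit 363) (nat_lit 253)) (XT.lf (nat_lit 0) (nat_lit 7875571876) (nat_lit 152) (nat_lit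 1786938339) (nat_lit 76) (nat_lit 15418502521) (nat_lit 27) (nat_lit 5) (nat_lit 29) (nat_lit 5) (nat_lit 28) (nat_lit 5) (nat_lit 525) (nat_lit 363) (nat_lit 252)))) (XT.nd (nat_lit 156) (nat_lit 76) (nat_lit 0) (XT.nd (nat_lit 78) (nat_lit 0) (nat_lit 0) (XT.lf (nat_lit 0) (nat_lit 7368422418) (nat_lit 152) (nat_lit 4847273764) (nat_lit 228) (nat_lit 13263488309) (nat_lit 25) (nat_lit 5) (nat_lit 27) (nat_lit 5) (nat_lit 28) (nat_lit 5) (nat_lit 526) (nat_lit 363) (nat_lit 251)) (XT.lf (nat_lit 0) (nat_lit 16636830984) (nat_lit 228) (nat_lit 9187259012) (nat_lit 76) (nat_lit 61349093) (nat_lit 25) (nat_lit 5) (nat_lit 28) (nat_lit 5) (nat_lit 26) (nat_lit 4) (nat_lit 527) (nat_lit 363) (nat_lit 250))) (XT.nd (nat_lit 78) (nat_lit 76) (nat_lit 0) (XT.lf (nat_lit 0) (nat_lit 21160568095) (nat_lit 228) (nat_lit 149539284) (nat_lit 76) (nat_lit 4989431307) (nat_lit 25) (nat_lit 5) (nat_lit 28) (nat_lit 5) (nat_lit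 26) (nat_lit 4) (nat_lit 528) (nat_lit 363) (nat_lit 249)) (XT.lf (nat_lit 0) (nat_lit 9157515493) (nat_lit 76) (nat_lit 16659150986) (nat_lit 152) (nat_lit 904419496) (nat_lit 24) (nat_lit 5) (nat_lit 25) (nat_lit 5) (nat_lit 26) (nat_lit 4) (nat_lit 529) (nat_lit 363) (nat_lit 248))))))) (XT.nd (nat_lit 51168) (nat_lit 0) (nat_lit 16416) (XT.nd (nat_lit 50622) (nat_lit 0) (nat_lit 23940) (XT.nd (nat_lit 50310) (nat_lit 0) (nat_lit 29868) (XT.nd (nat_lit 50154) (nat_lit 0) (nat_lit 34580) (XT.lf (nat_lit 0) (nat_lit 3353499062) (nat_lit 152) (nat_lit 8552034591) (nat_lit 76) (nat_lit 15245421177) (nat_lit 23) (nat_lit 5) (nat_lit 25) (nat_lit 5) (nat_lit 24) (nat_lit 5) (nat_lit 530) (nat_lit 363) (nat_lit 247)) (XT.nd (nat_lit 78) (nat_lit 0) (nat_lit 0) (XT.lf (nat_lit 0) (nat_lit 472958146) (nat_lit 1444) (nat_lit 2533916944) (nat_lit 0) (nat_lit 472958146) (nat_lit 478) (nat_lit 5) (nat_lit 497) (nat_lit 4)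 (nat_lit 478) (nat_lit 4) (nat_lit 412) (nat_lit 364) (nat_lit 364)) (XT.lf (nat_lit 0) (nat_lit 4162824776) (nat_lit 1444) (nat_lit 473170366) (nat_lit 0) (nat_lit 2357233294) (nat_lit 478) (nat_lit 5) (nat_lit 497) (nat_lit 4) (nat_lit 478) (nat_lit 4) (nat_lit 413) (nat_lit 364) (nat_lit 363)))) (XT.nd (nat_lit 156) (nat_lit 1672) (nat_lit 0) (XT.nd (nat_lit 78) (nat_lit 1520) (nat_lit 0) (XT.lf (nat_lit 0) (nat_lit 372485219) (nat_lit 1520) (nat_lit 2823359065) (nat_lit 76) (nat_lit 3832398262) (nat_lit 458) (nat_lit 5) (nat_lit 478) (nat_lit 5) (nat_lit 459) (nat_lit 4) (nat_lit 414) (nat_lit 364) (nat_lit 362)) (XT.lf (nat_lit 0) (nat_lit 1862977519) (nat_lit 1520) (nat_lit 1688623912) (nat_lit 1596) (nat_lit 3513040534) (nat_lit 438) (nat_lit 5) (nat_lit 458) (nat_lit 5) (nat_lit 459) (nat_lit 4) (nat_lit 415) (nat_lit 364) (nat_lit 361))) (XT.nd (nat_lit 78) (nat_lit 1672) (nat_lit 0) (XT.lf (nat_lit 0)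 (nat_lit 6620008927) (nat_lit 1520) (nat_lit 128860122) (nat_lit 1596) (nat_lit 353868333) (nat_lit 438) (nat_lit 5) (nat_lit 458) (nat_lit 5) (nat_lit 459) (nat_lit 4) (nat_lit 416) (nat_lit 364) (nat_lit 360)) (XT.lf (nat_lit 0) (nat_lit 2805061388) (nat_lit 1672) (nat_lit 2844358332) (nat_lit 76) (nat_lit 1492375694) (nat_lit 416) (nat_lit 5) (nat_lit 438) (nat_lit 5) (nat_lit 417) (nat_lit 4) (nat_lit 417) (nat_lit 364) (nat_lit 359))))) (XT.nd (nat_lit 234) (nat_lit 2736) (nat_lit 0) (XT.nd (nat_lit 78) (nat_lit 1520) (nat_lit 0) (XT.lf (nat_lit 0) (nat_lit 1958723654) (nat_lit 1672) (nat_lit 4017820680) (nat_lit 1748) (nat_lit 1206017201) (nat_lit 394) (nat_lit 5) (nat_lit 416) (nat_lit 5) (nat_lit 417) (nat_lit 4) (nat_lit 418) (nat_lit 364) (nat_lit 358)) (XT.nd (nat_lit 78) (nat_lit 1444) (nat_lit 0) (XT.lf (nat_lit 0) (nat_lit 1918106902) (nat_lit 1748) (nat_lit 402769013) (nat_lit 76) (nat_lit 4903925657)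 (nat_lit 393) (nat_lit 5) (nat_lit 416) (nat_lit 5) (nat_lit 394) (nat_lit 5) (nat_lit 419) (nat_lit 364) (nat_lit 357)) (XT.lf (nat_lit 0) (nat_lit 4504635308) (nat_lit 1444) (nat_lit 552057841) (nat_lit 1520) (nat_lit 2211724001) (nat_lit 374) (nat_lit 5) (nat_lit 393) (nat_lit 5) (nat_lit 394) (nat_lit 5) (nat_lit 420) (nat_lit 364) (nat_lit 356)))) (XT.nd (nat_lit 156) (nat_lit 1824) (nat_lit 0) (XT.nd (nat_lit 78) (nat_lit 0) (nat_lit 0) (XT.lf (nat_lit 0) (nat_lit 897012554) (nat_lit 912) (nat_lit 5158608117) (nat_lit 76) (nat_lit 1257927084) (nat_lit 362) (nat_lit 5) (nat_lit 374) (nat_lit 5) (nat_lit 363) (nat_lit 5) (nat_lit 421) (nat_lit 364) (nat_lit 355)) (XT.lf (nat_lit 0) (nat_lit 4000667579) (nat_lit 912) (nat_lit 230606682) (nat_lit 76) (nat_lit 3128816842) (nat_lit 362) (nat_lit 5) (nat_lit 374) (nat_lit 5) (nat_lit 363) (nat_lit 5) (nat_lit 422) (nat_lit 364) (nat_lit 354))) (XT.nd (nat_lit 78)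 (nat_lit 912) (nat_lit 0) (XT.lf (nat_lit 0) (nat_lit 4797631518) (nat_lit 912) (nat_lit 2341095719) (nat_lit 988) (nat_lit 269440172) (nat_lit 350) (nat_lit 5) (nat_lit 362) (nat_lit 5) (nat_lit 363) (nat_lit 5) (nat_lit 423) (nat_lit 364) (nat_lit 353)) (XT.lf (nat_lit 0) (nat_lit 2423783873) (nat_lit 836) (nat_lit 379559834) (nat_lit 912) (nat_lit 4654358018) (nat_lit 338) (nat_lit 5) (nat_lit 349) (nat_lit 5) (nat_lit 350) (nat_lit 5) (nat_lit 424) (nat_lit 364) (nat_lit 352)))))) (XT.nd (nat_lit 546) (nat_lit 3496) (nat_lit 0) (XT.nd (nat_lit 234) (nat_lit 2356) (nat_lit 0) (XT.nd (nat_lit 78) (nat_lit 836) (nat_lit 0) (XT.lf (nat_lit 0) (nat_lit 11587309) (nat_lit 836) (nat_lit 5892861840) (nat_lit 912) (nat_lit 1604378395) (nat_lit 327) (nat_lit 5) (nat_lit 338) (nat_lit 5) (nat_lit 339) (nat_lit 5) (nat_lit 425) (nat_lit 364) (nat_lit 351)) (XT.nd (nat_lit 78) (nat_lit 760) (nat_lit 0) (XT.lf (nat_lit 0)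 (nat_lit 1465901902) (nat_lit 912) (nat_lit 2409416242) (nat_lit 76) (nat_lit 3685925020) (nat_lit 326) (nat_lit 5) (nat_lit 338) (nat_lit 5) (nat_lit 327) (nat_lit 5) (nat_lit 426) (nat_lit 364) (nat_lit 350)) (XT.lf (nat_lit 0) (nat_lit 2743922899) (nat_lit 760) (nat_lit 1793687174) (nat_lit 836) (nat_lit 3077698090) (nat_lit 316) (nat_lit 5) (nat_lit 326) (nat_lit 5) (nat_lit 327) (nat_lit 5) (nat_lit 427) (nat_lit 364) (nat_lit 349)))) (XT.nd (nat_lit 156) (nat_lit 1520) (nat_lit 0) (XT.nd (nat_lit 78) (nat_lit 76) (nat_lit 0) (XT.lf (nat_lit 0) (nat_lit 302258517) (nat_lit 760) (nat_lit 7333212143) (nat_lit 836) (nat_lit 35731853) (nat_lit 306) (nat_lit 5) (nat_lit 316) (nat_lit 5) (nat_lit 317) (nat_lit 5) (nat_lit 428) (nat_lit 364) (nat_lit 348)) (XT.lf (nat_lit 0) (nat_lit 3016258032) (nat_lit 836) (nat_lit 2176845014) (nat_lit 76) (nat_lit 2534966012) (nat_lit 305) (nat_lit 5) (nat_lit 316) (nat_lit 5)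 (nat_lit 306) (nat_lit 5) (nat_lit 429) (nat_lit 364) (nat_lit 347))) (XT.nd (nat_lit 78) (nat_lit 836) (nat_lit 0) (XT.lf (nat_lit 0) (nat_lit 3098036250) (nat_lit 684) (nat_lit 2996598535) (nat_lit 760) (nat_lit 1692156883) (nat_lit 296) (nat_lit 5) (nat_lit 305) (nat_lit 5) (nat_lit 306) (nat_lit 5) (nat_lit 430) (nat_lit 364) (nat_lit 346)) (XT.lf (nat_lit 0) (nat_lit 598461042) (nat_lit 760) (nat_lit 735801900) (nat_lit 836) (nat_lit 6512992484) (nat_lit 285) (nat_lit 5) (nat_lit 295) (nat_lit 5) (nat_lit 296) (nat_lit 5) (nat_lit 431) (nat_lit 364) (nat_lit 345))))) (XT.nd (nat_lit 312) (nat_lit 2052) (nat_lit 0) (XT.nd (nat_lit 156) (nat_lit 760) (nat_lit 0) (XT.nd (nat_lit 78) (nat_lit 684) (nat_lit 0) (XT.lf (nat_lit 0) (nat_lit 4387034747) (nat_lit 836) (nat_lit 1937381800) (nat_lit 76) (nat_lit 1584556240) (nat_lit 285) (nat_lit 5) (nat_lit 296) (nat_lit 5) (nat_lit 286) (nat_lit 5) (nat_lit 432) (nat_lit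 364) (nat_lit 344)) (XT.lf (nat_lit 0) (nat_lit 3459530888) (nat_lit 684) (nat_lit 4016305870) (nat_lit 760) (nat_lit 496625168) (nat_lit 276) (nat_lit 5) (nat_lit 285) (nat_lit 5) (nat_lit 286) (nat_lit 5) (nat_lit 433) (nat_lit 364) (nat_lit 343))) (XT.nd (nat_lit 78) (nat_lit 0) (nat_lit 0) (XT.lf (nat_lit 0) (nat_lit 886864443) (nat_lit 684) (nat_lit 1635110623) (nat_lit 760) (nat_lit 5515610280) (nat_lit 266) (nat_lit 5) (nat_lit 275) (nat_lit 5) (nat_lit 276) (nat_lit 5) (nat_lit 434) (nat_lit 364) (nat_lit 342)) (XT.lf (nat_lit 0) (nat_lit 5578397402) (nat_lit 760) (nat_lit 1718368010) (nat_lit 76) (nat_lit 807532966) (nat_lit 266) (nat_lit 5) (nat_lit 276) (nat_lit 5) (nat_lit 267) (nat_lit 5) (nat_lit 435) (nat_lit 364) (nat_lit 341)))) (XT.nd (nat_lit 156) (nat_lit 684) (nat_lit 0) (XT.nd (nat_lit 78) (nat_lit 684) (nat_lit 0) (XT.lf (nat_lit 0) (nat_lit 501573898) (nat_lit 684) (nat_lit 4375260560) (nat_lit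 76) (nat_lit 3295779896) (nat_lit 257) (nat_lit 5) (nat_lit 266) (nat_lit 5) (nat_lit 258) (nat_lit 5) (nat_lit 436) (nat_lit 364) (nat_lit 340)) (XT.lf (nat_lit 0) (nat_lit 1141553152) (nat_lit 684) (nat_lit 2382974687) (nat_lit 760) (nat_lit 4718092647) (nat_lit 248) (nat_lit 5) (nat_lit 257) (nat_lit 5) (nat_lit 258) (nat_lit 5) (nat_lit 437) (nat_lit 364) (nat_lit 339))) (XT.nd (nat_lit 78) (nat_lit 684) (nat_lit 0) (XT.lf (nat_lit 0) (nat_lit 6588759029) (nat_lit 760) (nat_lit 1548449348) (nat_lit 76) (nat_lit 177234146) (nat_lit 248) (nat_lit 5) (nat_lit 258) (nat_lit 5) (nat_lit 249) (nat_lit 5) (nat_lit 438) (nat_lit 364) (nat_lit 338)) (XT.lf (nat_lit 0) (nat_lit 1302650289) (nat_lit 684) (nat_lit 4303888593) (nat_lit 76) (nat_lit 2781151262) (nat_lit 239) (nat_lit 5) (nat_lit 248) (nat_lit 5) (nat_lit 240) (nat_lit 5) (nat_lit 439) (nat_lit 364) (nat_lit 337))))))))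
noncomputable def xc64 : XT := (XT.nd (nat_lit 2184) (nat_lit 4712) (nat_lit 0) (XT.nd (nat_lit 1092) (nat_lit 3952) (nat_lit 0) (XT.nd (nat_lit 546) (nat_lit 2052) (nat_lit 0) (XT.nd (nat_lit 234) (nat_lit 1748) (nat_lit 0) (XT.nd (nat_lit 78) (nat_lit 608) (nat_lit 0) (XT.lf (nat_lit 0) (nat_lit 1332624001) (nat_lit 608) (nat_lit 3006365504) (nat_lit 684) (nat_lit 4123804456) (nat_lit 231) (nat_lit 5) (nat_lit 239) (nat_lit 5) (nat_lit 240) (nat_lit 5) (nat_lit 440) (nat_lit 364) (nat_lit 336)) (XT.nd (nat_lit 78) (nat_lit 608) (nat_lit 0) (XT.lf (nat_lit 0) (nat_lit 7079758881) (nat_lit 608) (nat_lit 337150271) (nat_lit 684) (nat_lit 1122903326) (nat_lit 231) (nat_lit 5) (nat_lit 239) (nat_lit 5) (nat_lit 240) (nat_lit 5) (nat_lit 441) (nat_lit 364) (nat_lit 335)) (XT.lf (nat_lit 0) (nat_lit 1908814023) (nat_lit 608) (nat_lit 4326759414) (nat_lit 76) (nat_lit 2382650502) (nat_lit 223) (nat_lit 5) (nat_lit 231)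 (nat_lit 5) (nat_lit 224) (nat_lit 5) (nat_lit 442) (nat_lit 364) (nat_lit 334)))) (XT.nd (nat_lit 156) (nat_lit 1140) (nat_lit 0) (XT.nd (nat_lit 78) (nat_lit 0) (nat_lit 0) (XT.lf (nat_lit 0) (nat_lit 1428384962) (nat_lit 608) (nat_lit 3532163347) (nat_lit 684) (nat_lit 3738046494) (nat_lit 215) (nat_lit 5) (nat_lit 223) (nat_lit 5) (nat_lit 224) (nat_lit 5) (nat_lit 443) (nat_lit 364) (nat_lit 333)) (XT.lf (nat_lit 0) (nat_lit 7297268837) (nat_lit 608) (nat_lit 758649305) (nat_lit 684) (nat_lit 725030360) (nat_lit 215) (nat_lit 5) (nat_lit 223) (nat_lit 5) (nat_lit 224) (nat_lit 5) (nat_lit 444) (nat_lit 364) (nat_lit 332))) (XT.nd (nat_lit 78) (nat_lit 532) (nat_lit 0) (XT.lf (nat_lit 0) (nat_lit 2313818715) (nat_lit 608) (nat_lit 4477070310) (nat_lit 76) (nat_lit 2073854286) (nat_lit 207) (nat_lit 5) (nat_lit 215) (nat_lit 5) (nat_lit 208) (nat_lit 5) (nat_lit 445) (nat_lit 364) (nat_lit 331)) (XT.lf (nat_lit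 0) (nat_lit 1395029138) (nat_lit 532) (nat_lit 3987395064) (nat_lit 608) (nat_lit 3568146069) (nat_lit 200) (nat_lit 5) (nat_lit 207) (nat_lit 5) (nat_lit 208) (nat_lit 5) (nat_lit 446) (nat_lit 364) (nat_lit 330))))) (XT.nd (nat_lit 234) (nat_lit 988) (nat_lit 0) (XT.nd (nat_lit 78) (nat_lit 1064) (nat_lit 0) (XT.lf (nat_lit 0) (nat_lit 7385727897) (nat_lit 532) (nat_lit 1111796263) (nat_lit 608) (nat_lit 540912510) (nat_lit 200) (nat_lit 5) (nat_lit 207) (nat_lit 5) (nat_lit 208) (nat_lit 5) (nat_lit 447) (nat_lit 364) (nat_lit 329)) (XT.nd (nat_lit 78) (nat_lit 532) (nat_lit 0) (XT.lf (nat_lit 0) (nat_lit 2509374630) (nat_lit 532) (nat_lit 4790388677) (nat_lit 76) (nat_lit 1828072502) (nat_lit 193) (nat_lit 5) (nat_lit 200) (nat_lit 5) (nat_lit 194) (nat_lit 5) (nat_lit 448) (nat_lit 364) (nat_lit 328)) (XT.lf (nat_lit 0) (nat_lit 1196284127) (nat_lit 532) (nat_lit 4399478529) (nat_lit 608) (nat_lit 3623565892)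 (nat_lit 186) (nat_lit 5) (nat_lit 193) (nat_lit 5) (nat_lit 194) (nat_lit 5) (nat_lit 449) (nat_lit 364) (nat_lit 327)))) (XT.nd (nat_lit 156) (nat_lit 456) (nat_lit 0) (XT.nd (nat_lit 78) (nat_lit 532) (nat_lit 0) (XT.lf (nat_lit 0) (nat_lit 7308621367) (nat_lit 532) (nat_lit 1423919266) (nat_lit 608) (nat_lit 580360681) (nat_lit 186) (nat_lit 5) (nat_lit 193) (nat_lit 5) (nat_lit 194) (nat_lit 5) (nat_lit 450) (nat_lit 364) (nat_lit 326)) (XT.lf (nat_lit 0) (nat_lit 2485029700) (nat_lit 532) (nat_lit 5305020471) (nat_lit 76) (nat_lit 1618101761) (nat_lit 179) (nat_lit 5) (nat_lit 186) (nat_lit 5) (nat_lit 180) (nat_lit 5) (nat_lit 451) (nat_lit 364) (nat_lit 325))) (XT.nd (nat_lit 78) (nat_lit 0) (nat_lit 0) (XT.lf (nat_lit 0) (nat_lit 793033404) (nat_lit 456) (nat_lit 4796475961) (nat_lit 532) (nat_lit 3916032489) (nat_lit 173) (nat_lit 5) (nat_lit 179) (nat_lit 5) (nat_lit 180) (nat_lit 5) (nat_lit 452) (nat_lit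 364) (nat_lit 324)) (XT.lf (nat_lit 0) (nat_lit 7026520323) (nat_lit 456) (nat_lit 1723040678) (nat_lit 532) (nat_lit 855470559) (nat_lit 173) (nat_lit 5) (nat_lit 179) (nat_lit 5) (nat_lit 180) (nat_lit 5) (nat_lit 453) (nat_lit 364) (nat_lit 323)))))) (XT.nd (nat_lit 546) (nat_lit 1596) (nat_lit 0) (XT.nd (nat_lit 234) (nat_lit 1368) (nat_lit 0) (XT.nd (nat_lit 78) (nat_lit 456) (nat_lit 0) (XT.lf (nat_lit 0) (nat_lit 2228030522) (nat_lit 532) (nat_lit 6062409104) (nat_lit 76) (nat_lit 1415968922) (nat_lit 166) (nat_lit 5) (nat_lit 173) (nat_lit 5) (nat_lit 167) (nat_lit 5) (nat_lit 454) (nat_lit 364) (nat_lit 322)) (XT.nd (nat_lit 78) (nat_lit 0) (nat_lit 0) (XT.lf (nat_lit 0) (nat_lit 142906126) (nat_lit 456) (nat_lit 5207358323) (nat_lit 532) (nat_lit 4459685568) (nat_lit 160) (nat_lit 5) (nat_lit 166) (nat_lit 5) (nat_lit 167) (nat_lit 5) (nat_lit 455) (nat_lit 364) (nat_lit 321)) (XT.lf (nat_lit 0) (nat_lit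 6496665245) (nat_lit 456) (nat_lit 2038143451) (nat_lit 532) (nat_lit 1380776294) (nat_lit 160) (nat_lit 5) (nat_lit 166) (nat_lit 5) (nat_lit 167) (nat_lit 5) (nat_lit 456) (nat_lit 364) (nat_lit 320)))) (XT.nd (nat_lit 156) (nat_lit 912) (nat_lit 0) (XT.nd (nat_lit 78) (nat_lit 0) (nat_lit 0) (XT.lf (nat_lit 0) (nat_lit 1723161788) (nat_lit 456) (nat_lit 7107568601) (nat_lit 76) (nat_lit 1192662385) (nat_lit 154) (nat_lit 5) (nat_lit 160) (nat_lit 5) (nat_lit 155) (nat_lit 5) (nat_lit 457) (nat_lit 364) (nat_lit 319)) (XT.lf (nat_lit 0) (nat_lit 4867309780) (nat_lit 456) (nat_lit 789674258) (nat_lit 76) (nat_lit 4476276577) (nat_lit 154) (nat_lit 5) (nat_lit 160) (nat_lit 5) (nat_lit 155) (nat_lit 5) (nat_lit 458) (nat_lit 364) (nat_lit 318))) (XT.nd (nat_lit 78) (nat_lit 456) (nat_lit 0) (XT.lf (nat_lit 0) (nat_lit 5672513284) (nat_lit 456) (nat_lit 2399451411) (nat_lit 532) (nat_lit 2173427101) (nat_lit 148)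 (nat_lit 5) (nat_lit 154) (nat_lit 5) (nat_lit 155) (nat_lit 5) (nat_lit 459) (nat_lit 364) (nat_lit 317)) (XT.lf (nat_lit 0) (nat_lit 952562442) (nat_lit 456) (nat_lit 8489555214) (nat_lit 76) (nat_lit 917848701) (nat_lit 142) (nat_lit 5) (nat_lit 148) (nat_lit 5) (nat_lit 143) (nat_lit 5) (nat_lit 460) (nat_lit 364) (nat_lit 316))))) (XT.nd (nat_lit 234) (nat_lit 836) (nat_lit 0) (XT.nd (nat_lit 78) (nat_lit 760) (nat_lit 0) (XT.lf (nat_lit 0) (nat_lit 4119987660) (nat_lit 456) (nat_lit 2059083239) (nat_lit 76) (nat_lit 4297331219) (nat_lit 142) (nat_lit 5) (nat_lit 148) (nat_lit 5) (nat_lit 143) (nat_lit 5) (nat_lit 461) (nat_lit 364) (nat_lit 315)) (XT.nd (nat_lit 78) (nat_lit 380) (nat_lit 0) (XT.lf (nat_lit 0) (nat_lit 4503244785) (nat_lit 380) (nat_lit 2838726039) (nat_lit 456) (nat_lit 3253388639) (nat_lit 137) (nat_lit 5) (nat_lit 142) (nat_lit 5) (nat_lit 143) (nat_lit 5) (nat_lit 462) (nat_lit 364) (nat_lit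 314)) (XT.lf (nat_lit 0) (nat_lit 454387408) (nat_lit 380) (nat_lit 10156797520) (nat_lit 456) (nat_lit 105871926) (nat_lit 132) (nat_lit 5) (nat_lit 137) (nat_lit 5) (nat_lit 138) (nat_lit 5) (nat_lit 463) (nat_lit 364) (nat_lit 313)))) (XT.nd (nat_lit 156) (nat_lit 380) (nat_lit 0) (XT.nd (nat_lit 78) (nat_lit 380) (nat_lit 0) (XT.lf (nat_lit 0) (nat_lit 3086185579) (nat_lit 456) (nat_lit 3721446444) (nat_lit 76) (nat_lit 4032722944) (nat_lit 131) (nat_lit 5) (nat_lit 137) (nat_lit 5) (nat_lit 132) (nat_lit 5) (nat_lit 464) (nat_lit 364) (nat_lit 312)) (XT.lf (nat_lit 0) (nat_lit 2933224255) (nat_lit 380) (nat_lit 3389582470) (nat_lit 456) (nat_lit 4643671279) (nat_lit 126) (nat_lit 5) (nat_lit 131) (nat_lit 5) (nat_lit 132) (nat_lit 5) (nat_lit 465) (nat_lit 364) (nat_lit 311))) (XT.nd (nat_lit 78) (nat_lit 380) (nat_lit 0) (XT.lf (nat_lit 0) (nat_lit 9613271063) (nat_lit 456) (nat_lit 1379394879) (nat_lit 76)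 (nat_lit 102690793) (nat_lit 126) (nat_lit 5) (nat_lit 132) (nat_lit 5) (nat_lit 127) (nat_lit 5) (nat_lit 466) (nat_lit 364) (nat_lit 310)) (XT.lf (nat_lit 0) (nat_lit 1741584396) (nat_lit 380) (nat_lit 5836241489) (nat_lit 76) (nat_lit 3648341526) (nat_lit 121) (nat_lit 5) (nat_lit 126) (nat_lit 5) (nat_lit 122) (nat_lit 5) (nat_lit 467) (nat_lit 364) (nat_lit 309))))))) (XT.nd (nat_lit 1092) (nat_lit 2128) (nat_lit 0) (XT.nd (nat_lit 546) (nat_lit 1140) (nat_lit 0) (XT.nd (nat_lit 234) (nat_lit 684) (nat_lit 0) (XT.nd (nat_lit 78) (nat_lit 380) (nat_lit 0) (XT.lf (nat_lit 0) (nat_lit 901410522) (nat_lit 380) (nat_lit 4087827651) (nat_lit 456) (nat_lit 6370587646) (nat_lit 116) (nat_lit 5) (nat_lit 121) (nat_lit 5) (nat_lit 122) (nat_lit 5) (nat_lit 468) (nat_lit 364) (nat_lit 308)) (XT.nd (nat_lit 78) (nat_lit 380) (nat_lit 0) (XT.lf (nat_lit 0) (nat_lit 7798828406) (nat_lit 380) (nat_lit 506698804) (nat_lit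 456) (nat_lit 3190570814) (nat_lit 116) (nat_lit 5) (nat_lit 121) (nat_lit 5) (nat_lit 122) (nat_lit 5) (nat_lit 469) (nat_lit 364) (nat_lit 307)) (XT.lf (nat_lit 0) (nat_lit 58458013) (nat_lit 380) (nat_lit 8468799160) (nat_lit 76) (nat_lit 3107723185) (nat_lit 111) (nat_lit 5) (nat_lit 116) (nat_lit 5) (nat_lit 112) (nat_lit 5) (nat_lit 470) (nat_lit 364) (nat_lit 306)))) (XT.nd (nat_lit 156) (nat_lit 380) (nat_lit 0) (XT.nd (nat_lit 78) (nat_lit 304) (nat_lit 0) (XT.lf (nat_lit 0) (nat_lit 3323307366) (nat_lit 380) (nat_lit 1637527793) (nat_lit 76) (nat_lit 6815525599) (nat_lit 111) (nat_lit 5) (nat_lit 116) (nat_lit 5) (nat_lit 112) (nat_lit 5) (nat_lit 471) (nat_lit 364) (nat_lit 305)) (XT.lf (nat_lit 0) (nat_lit 5347807807) (nat_lit 304) (nat_lit 1306241142) (nat_lit 380) (nat_lit 5266521100) (nat_lit 107) (nat_lit 5) (nat_lit 111) (nat_lit 5) (nat_lit 112) (nat_lit 5) (nat_lit 472) (nat_lit 364) (nat_lit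 304))) (XT.nd (nat_lit 78) (nat_lit 76) (nat_lit 0) (XT.lf (nat_lit 0) (nat_lit 363658183) (nat_lit 304) (nat_lit 9682973860) (nat_lit 380) (nat_lit 2021139877) (nat_lit 103) (nat_lit 5) (nat_lit 107) (nat_lit 5) (nat_lit 108) (nat_lit 5) (nat_lit 473) (nat_lit 364) (nat_lit 303)) (XT.lf (nat_lit 0) (nat_lit 1291462171) (nat_lit 380) (nat_lit 4759480046) (nat_lit 76) (nat_lit 6166436224) (nat_lit 102) (nat_lit 5) (nat_lit 107) (nat_lit 5) (nat_lit 103) (nat_lit 5) (nat_lit 474) (nat_lit 364) (nat_lit 302))))) (XT.nd (nat_lit 234) (nat_lit 608) (nat_lit 0) (XT.nd (nat_lit 78) (nat_lit 228) (nat_lit 0) (XT.lf (nat_lit 0) (nat_lit 2288683486) (nat_lit 304) (nat_lit 2336289198) (nat_lit 380) (nat_lit 7745115006) (nat_lit 98) (nat_lit 5) (nat_lit 102) (nat_lit 5) (nat_lit 103) (nat_lit 5) (nat_lit 475) (nat_lit 364) (nat_lit 301)) (XT.nd (nat_lit 78) (nat_lit 228) (nat_lit 0) (XT.lf (nat_lit 0) (nat_lit 8033762557)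 (nat_lit 380) (nat_lit 3044728290) (nat_lit 76) (nat_lit 1447200037) (nat_lit 98) (nat_lit 5) (nat_lit 103) (nat_lit 5) (nat_lit 99) (nat_lit 5) (nat_lit 476) (nat_lit 364) (nat_lit 300)) (XT.lf (nat_lit 0) (nat_lit 4120068877) (nat_lit 228) (nat_lit 7400555612) (nat_lit 304) (nat_lit 1163595435) (nat_lit 95) (nat_lit 5) (nat_lit 98) (nat_lit 5) (nat_lit 99) (nat_lit 5) (nat_lit 477) (nat_lit 364) (nat_lit 299)))) (XT.nd (nat_lit 156) (nat_lit 228) (nat_lit 0) (XT.nd (nat_lit 78) (nat_lit 304) (nat_lit 0) (XT.lf (nat_lit 0) (nat_lit 2190361493) (nat_lit 304) (nat_lit 1441977943) (nat_lit 76) (nat_lit 9213535196) (nat_lit 94) (nat_lit 5) (nat_lit 98) (nat_lit 5) (nat_lit 95) (nat_lit 5) (nat_lit 478) (nat_lit 364) (nat_lit 298)) (XT.lf (nat_lit 0) (nat_lit 5603696097) (nat_lit 380) (nat_lit 7170776918) (nat_lit 76) (nat_lit 235989043) (nat_lit 90) (nat_lit 5) (nat_lit 95) (nat_lit 5) (nat_lit 91) (nat_lit 5) (nat_lit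 479) (nat_lit 364) (nat_lit 297))) (XT.nd (nat_lit 78) (nat_lit 0) (nat_lit 0) (XT.lf (nat_lit 0) (nat_lit 34251337) (nat_lit 228) (nat_lit 9053625432) (nat_lit 304) (nat_lit 4090423693) (nat_lit 87) (nat_lit 5) (nat_lit 90) (nat_lit 5) (nat_lit 91) (nat_lit 5) (nat_lit 480) (nat_lit 364) (nat_lit 296)) (XT.lf (nat_lit 0) (nat_lit 7430455155) (nat_lit 228) (nat_lit 5228257829) (nat_lit 304) (nat_lit 690453816) (nat_lit 87) (nat_lit 5) (nat_lit 90) (nat_lit 5) (nat_lit 91) (nat_lit 5) (nat_lit 481) (nat_lit 364) (nat_lit 295)))))) (XT.nd (nat_lit 546) (nat_lit 988) (nat_lit 0) (XT.nd (nat_lit 234) (nat_lit 532) (nat_lit 0) (XT.nd (nat_lit 78) (nat_lit 228) (nat_lit 0) (XT.lf (nat_lit 0) (nat_lit 1401922848) (nat_lit 304) (nat_lit 1317517697) (nat_lit 380) (nat_lit 10804092392) (nat_lit 82) (nat_lit 5) (nat_lit 86) (nat_lit 5) (nat_lit 87) (nat_lit 5) (nat_lit 482) (nat_lit 364) (nat_lit 294)) (XT.nd (nat_lit 78)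 (nat_lit 228) (nat_lit 0) (XT.lf (nat_lit 0) (nat_lit 6215033579) (nat_lit 380) (nat_lit 4823306739) (nat_lit 76) (nat_lit 2662429872) (nat_lit 82) (nat_lit 5) (nat_lit 87) (nat_lit 5) (nat_lit 83) (nat_lit 5) (nat_lit 483) (nat_lit 364) (nat_lit 293)) (XT.lf (nat_lit 0) (nat_lit 2597545742) (nat_lit 228) (nat_lit 7178594645) (nat_lit 304) (nat_lit 4105509562) (nat_lit 79) (nat_lit 5) (nat_lit 82) (nat_lit 5) (nat_lit 83) (nat_lit 5) (nat_lit 484) (nat_lit 364) (nat_lit 292)))) (XT.nd (nat_lit 156) (nat_lit 228) (nat_lit 0) (XT.nd (nat_lit 78) (nat_lit 304) (nat_lit 0) (XT.lf (nat_lit 0) (nat_lit 10183758318) (nat_lit 228) (nat_lit 3227363097) (nat_lit 304) (nat_lit 654982451) (nat_lit 79) (nat_lit 5) (nat_lit 82) (nat_lit 5) (nat_lit 83) (nat_lit 5) (nat_lit 485) (nat_lit 364) (nat_lit 291)) (XT.lf (nat_lit 0) (nat_lit 2826714680) (nat_lit 304) (nat_lit 10610552386) (nat_lit 76) (nat_lit 816622484) (nat_lit 75)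 (nat_lit 5) (nat_lit 79) (nat_lit 5) (nat_lit 76) (nat_lit 5) (nat_lit 486) (nat_lit 364) (nat_lit 290))) (XT.nd (nat_lit 78) (nat_lit 228) (nat_lit 0) (XT.lf (nat_lit 0) (nat_lit 6387693868) (nat_lit 304) (nat_lit 3146676254) (nat_lit 76) (nat_lit 4910614921) (nat_lit 75) (nat_lit 5) (nat_lit 79) (nat_lit 5) (nat_lit 76) (nat_lit 5) (nat_lit 487) (nat_lit 364) (nat_lit 289)) (XT.lf (nat_lit 0) (nat_lit 4478107930) (nat_lit 228) (nat_lit 5542243624) (nat_lit 304) (nat_lit 4619550588) (nat_lit 72) (nat_lit 5) (nat_lit 75) (nat_lit 5) (nat_lit 76) (nat_lit 5) (nat_lit 488) (nat_lit 364) (nat_lit 288))))) (XT.nd (nat_lit 312) (nat_lit 456) (nat_lit 0) (XT.nd (nat_lit 156) (nat_lit 228) (nat_lit 0) (XT.nd (nat_lit 78) (nat_lit 304) (nat_lit 0) (XT.lf (nat_lit 0) (nat_lit 12251251034) (nat_lit 228) (nat_lit 1467168581) (nat_lit 304) (nat_lit 1120451522) (nat_lit 72) (nat_lit 5) (nat_lit 75) (nat_lit 5) (nat_lit 76)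 (nat_lit 5) (nat_lit 489) (nat_lit 364) (nat_lit 287)) (XT.lf (nat_lit 0) (nat_lit 2439583482) (nat_lit 304) (nat_lit 9915729764) (nat_lit 76) (nat_lit 2685735303) (nat_lit 68) (nat_lit 5) (nat_lit 72) (nat_lit 5) (nat_lit 69) (nat_lit 5) (nat_lit 490) (nat_lit 364) (nat_lit 286))) (XT.nd (nat_lit 78) (nat_lit 228) (nat_lit 0) (XT.lf (nat_lit 0) (nat_lit 6055163273) (nat_lit 304) (nat_lit 2282975764) (nat_lit 76) (nat_lit 6909003608) (nat_lit 68) (nat_lit 5) (nat_lit 72) (nat_lit 5) (nat_lit 69) (nat_lit 5) (nat_lit 491) (nat_lit 364) (nat_lit 285)) (XT.lf (nat_lit 0) (nat_lit 5529468668) (nat_lit 228) (nat_lit 4222170567) (nat_lit 304) (nat_lit 5705555733) (nat_lit 65) (nat_lit 5) (nat_lit 68) (nat_lit 5) (nat_lit 69) (nat_lit 5) (nat_lit 492) (nat_lit 364) (nat_lit 284)))) (XT.nd (nat_lit 156) (nat_lit 152) (nat_lit 0) (XT.nd (nat_lit 78) (nat_lit 304) (nat_lit 0) (XT.lf (nat_lit 0) (nat_lit 13483922947) (nat_lit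 228) (nat_lit 26367580) (nat_lit 304) (nat_lit 2161400774) (nat_lit 65) (nat_lit 5) (nat_lit 68) (nat_lit 5) (nat_lit 69) (nat_lit 5) (nat_lit 493) (nat_lit 364) (nat_lit 283)) (XT.lf (nat_lit 0) (nat_lit 1472843849) (nat_lit 304) (nat_lit 10189882499) (nat_lit 76) (nat_lit 4226804602) (nat_lit 61) (nat_lit 5) (nat_lit 65) (nat_lit 5) (nat_lit 62) (nat_lit 5) (nat_lit 494) (nat_lit 364) (nat_lit 282))) (XT.nd (nat_lit 78) (nat_lit 152) (nat_lit 0) (XT.lf (nat_lit 0) (nat_lit 5139205396) (nat_lit 304) (nat_lit 2396339644) (nat_lit 76) (nat_lit 8576136576) (nat_lit 61) (nat_lit 5) (nat_lit 65) (nat_lit 5) (nat_lit 62) (nat_lit 5) (nat_lit 495) (nat_lit 364) (nat_lit 281)) (XT.lf (nat_lit 0) (nat_lit 5582376679) (nat_lit 152) (nat_lit 3306676899) (nat_lit 228) (nat_lit 7449025809) (nat_lit 59) (nat_lit 5) (nat_lit 61) (nat_lit 5) (nat_lit 62) (nat_lit 5) (nat_lit 496) (nat_lit 364) (nat_lit 280))))))))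
noncomputable def xc65 : XT := (XT.nd (nat_lit 2184) (nat_lit 304) (nat_lit 0) (XT.nd (nat_lit 1092) (nat_lit 1064) (nat_lit 0) (XT.nd (nat_lit 546) (nat_lit 608) (nat_lit 0) (XT.nd (nat_lit 234) (nat_lit 456) (nat_lit 0) (XT.nd (nat_lit 78) (nat_lit 304) (nat_lit 0) (XT.lf (nat_lit 0) (nat_lit 12710650342) (nat_lit 228) (nat_lit 2866207559) (nat_lit 76) (nat_lit 992219317) (nat_lit 59) (nat_lit 5) (nat_lit 62) (nat_lit 5) (nat_lit 60) (nat_lit 5) (nat_lit 497) (nat_lit 364) (nat_lit 279)) (XT.nd (nat_lit 78) (nat_lit 76) (nat_lit 0) (XT.lf (nat_lit 0) (nat_lit 5184000123) (nat_lit 228) (nat_lit 11454772480) (nat_lit 304) (nat_lit 165327528) (nat_lit 56) (nat_lit 5) (nat_lit 59) (nat_lit 5) (nat_lit 60) (nat_lit 5) (nat_lit 498) (nat_lit 364) (nat_lit 278)) (XT.lf (nat_lit 0) (nat_lit 3548342846) (nat_lit 304) (nat_lit 3676114674) (nat_lit 76) (nat_lit 9819026122) (nat_lit 55) (nat_lit 5) (nat_lit 59) (nat_lit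 5) (nat_lit 56) (nat_lit 5) (nat_lit 499) (nat_lit 364) (nat_lit 277)))) (XT.nd (nat_lit 156) (nat_lit 304) (nat_lit 0) (XT.nd (nat_lit 78) (nat_lit 0) (nat_lit 0) (XT.lf (nat_lit 0) (nat_lit 4441526080) (nat_lit 152) (nat_lit 2896468547) (nat_lit 228) (nat_lit 9949566497) (nat_lit 53) (nat_lit 5) (nat_lit 55) (nat_lit 5) (nat_lit 56) (nat_lit 5) (nat_lit 500) (nat_lit 364) (nat_lit 276)) (XT.lf (nat_lit 0) (nat_lit 11213312452) (nat_lit 228) (nat_lit 4817185723) (nat_lit 76) (nat_lit 1505830987) (nat_lit 53) (nat_lit 5) (nat_lit 56) (nat_lit 5) (nat_lit 54) (nat_lit 5) (nat_lit 501) (nat_lit 364) (nat_lit 275))) (XT.nd (nat_lit 78) (nat_lit 76) (nat_lit 0) (XT.lf (nat_lit 0) (nat_lit 3355409057) (nat_lit 228) (nat_lit 11827366193) (nat_lit 304) (nat_lit 2606970874) (nat_lit 50) (nat_lit 5) (nat_lit 53) (nat_lit 5) (nat_lit 54) (nat_lit 5) (nat_lit 502) (nat_lit 364) (nat_lit 274)) (XT.lf (nat_lit 0) (nat_lit 1176129010)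 (nat_lit 304) (nat_lit 6340439623) (nat_lit 76) (nat_lit 10531350144) (nat_lit 49) (nat_lit 5) (nat_lit 53) (nat_lit 5) (nat_lit 50) (nat_lit 5) (nat_lit 503) (nat_lit 364) (nat_lit 273))))) (XT.nd (nat_lit 234) (nat_lit 456) (nat_lit 0) (XT.nd (nat_lit 78) (nat_lit 0) (nat_lit 0) (XT.lf (nat_lit 0) (nat_lit 1881858643) (nat_lit 152) (nat_lit 3106565667) (nat_lit 228) (nat_lit 13322723089) (nat_lit 47) (nat_lit 5) (nat_lit 49) (nat_lit 5) (nat_lit 50) (nat_lit 5) (nat_lit 504) (nat_lit 364) (nat_lit 272)) (XT.nd (nat_lit 78) (nat_lit 0) (nat_lit 0) (XT.lf (nat_lit 0) (nat_lit 8905112882) (nat_lit 228) (nat_lit 8274549446) (nat_lit 76) (nat_lit 1399421172) (nat_lit 47) (nat_lit 5) (nat_lit 50) (nat_lit 5) (nat_lit 48) (nat_lit 5) (nat_lit 505) (nat_lit 364) (nat_lit 271)) (XT.lf (nat_lit 0) (nat_lit 12897456029) (nat_lit 228) (nat_lit 17476678) (nat_lit 76) (nat_lit 5937504941) (nat_lit 47) (nat_lit 5) (nat_lit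 50) (nat_lit 5) (nat_lit 48) (nat_lit 5) (nat_lit 506) (nat_lit 364) (nat_lit 270)))) (XT.nd (nat_lit 156) (nat_lit 152) (nat_lit 0) (XT.nd (nat_lit 78) (nat_lit 76) (nat_lit 0) (XT.lf (nat_lit 0) (nat_lit 8476508435) (nat_lit 228) (nat_lit 8525376172) (nat_lit 304) (nat_lit 2128735127) (nat_lit 44) (nat_lit 5) (nat_lit 47) (nat_lit 5) (nat_lit 48) (nat_lit 5) (nat_lit 507) (nat_lit 364) (nat_lit 269)) (XT.lf (nat_lit 0) (nat_lit 1728128720) (nat_lit 304) (nat_lit 2324720657) (nat_lit 76) (nat_lit 15361743945) (nat_lit 43) (nat_lit 5) (nat_lit 47) (nat_lit 5) (nat_lit 44) (nat_lit 5) (nat_lit 508) (nat_lit 364) (nat_lit 268))) (XT.nd (nat_lit 78) (nat_lit 0) (nat_lit 0) (XT.lf (nat_lit 0) (nat_lit 5655152645) (nat_lit 228) (nat_lit 13507373749) (nat_lit 76) (nat_lit 541013340) (nat_lit 41) (nat_lit 5) (nat_lit 44) (nat_lit 5) (nat_lit 42) (nat_lit 5) (nat_lit 509) (nat_lit 364) (nat_lit 267)) (XT.lf (nat_lit 0)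 (nat_lit 9681030193) (nat_lit 228) (nat_lit 5144676518) (nat_lit 76) (nat_lit 5172157300) (nat_lit 41) (nat_lit 5) (nat_lit 44) (nat_lit 5) (nat_lit 42) (nat_lit 5) (nat_lit 510) (nat_lit 364) (nat_lit 266)))))) (XT.nd (nat_lit 546) (nat_lit 532) (nat_lit 0) (XT.nd (nat_lit 234) (nat_lit 152) (nat_lit 0) (XT.nd (nat_lit 78) (nat_lit 228) (nat_lit 0) (XT.lf (nat_lit 0) (nat_lit 3391755562) (nat_lit 152) (nat_lit 10395896817) (nat_lit 228) (nat_lit 6510422949) (nat_lit 39) (nat_lit 5) (nat_lit 41) (nat_lit 5) (nat_lit 42) (nat_lit 5) (nat_lit 511) (nat_lit 364) (nat_lit 265)) (XT.nd (nat_lit 78) (nat_lit 228) (nat_lit 0) (XT.lf (nat_lit 0) (nat_lit 12130901165) (nat_lit 152) (nat_lit 5858417119) (nat_lit 228) (nat_lit 2614719360) (nat_lit 39) (nat_lit 5) (nat_lit 41) (nat_lit 5) (nat_lit 42) (nat_lit 5) (nat_lit 512) (nat_lit 364) (nat_lit 264)) (XT.lf (nat_lit 0) (nat_lit 83684510) (nat_lit 152) (nat_lit 1236601332)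 (nat_lit 228) (nat_lit 19596077515) (nat_lit 36) (nat_lit 5) (nat_lit 38) (nat_lit 5) (nat_lit 39) (nat_lit 5) (nat_lit 513) (nat_lit 364) (nat_lit 263)))) (XT.nd (nat_lit 156) (nat_lit 152) (nat_lit 0) (XT.nd (nat_lit 78) (nat_lit 0) (nat_lit 0) (XT.lf (nat_lit 0) (nat_lit 5357568645) (nat_lit 228) (nat_lit 12384952504) (nat_lit 76) (nat_lit 3490901704) (nat_lit 36) (nat_lit 5) (nat_lit 39) (nat_lit 5) (nat_lit 37) (nat_lit 5) (nat_lit 514) (nat_lit 364) (nat_lit 262)) (XT.lf (nat_lit 0) (nat_lit 9462944254) (nat_lit 228) (nat_lit 3813107940) (nat_lit 76) (nat_lit 8281029021) (nat_lit 36) (nat_lit 5) (nat_lit 39) (nat_lit 5) (nat_lit 37) (nat_lit 5) (nat_lit 515) (nat_lit 364) (nat_lit 261))) (XT.nd (nat_lit 78) (nat_lit 0) (nat_lit 0) (XT.lf (nat_lit 0) (nat_lit 4959287131) (nat_lit 152) (nat_lit 8702905632) (nat_lit 228) (nat_lit 8224789198) (nat_lit 34) (nat_lit 5) (nat_lit 36) (nat_lit 5) (nat_lit 37) (nat_lit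 5) (nat_lit 516) (nat_lit 364) (nat_lit 260)) (XT.lf (nat_lit 0) (nat_lit 13923125831) (nat_lit 152) (nat_lit 4027623704) (nat_lit 228) (nat_lit 4272629159) (nat_lit 34) (nat_lit 5) (nat_lit 36) (nat_lit 5) (nat_lit 37) (nat_lit 5) (nat_lit 517) (nat_lit 364) (nat_lit 259))))) (XT.nd (nat_lit 234) (nat_lit 304) (nat_lit 0) (XT.nd (nat_lit 78) (nat_lit 76) (nat_lit 0) (XT.lf (nat_lit 0) (nat_lit 465738449) (nat_lit 152) (nat_lit 21847209480) (nat_lit 228) (nat_lit 253802373) (nat_lit 32) (nat_lit 5) (nat_lit 34) (nat_lit 5) (nat_lit 35) (nat_lit 4) (nat_lit 518) (nat_lit 364) (nat_lit 258)) (XT.nd (nat_lit 78) (nat_lit 0) (nat_lit 0) (XT.lf (nat_lit 0) (nat_lit 3857771718) (nat_lit 228) (nat_lit 13483654962) (nat_lit 76) (nat_lit 5573811426) (nat_lit 31) (nat_lit 5) (nat_lit 34) (nat_lit 5) (nat_lit 32) (nat_lit 5) (nat_lit 519) (nat_lit 364) (nat_lit 257)) (XT.lf (nat_lit 0) (nat_lit 8028635934) (nat_lit 228) (nat_lit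 4730271485) (nat_lit 76) (nat_lit 10512149654) (nat_lit 31) (nat_lit 5) (nat_lit 34) (nat_lit 5) (nat_lit 32) (nat_lit 5) (nat_lit 520) (nat_lit 364) (nat_lit 256)))) (XT.nd (nat_lit 156) (nat_lit 152) (nat_lit 0) (XT.nd (nat_lit 78) (nat_lit 0) (nat_lit 0) (XT.lf (nat_lit 0) (nat_lit 4219559410) (nat_lit 152) (nat_lit 8071591338) (nat_lit 228) (nat_lit 11342681024) (nat_lit 29) (nat_lit 5) (nat_lit 31) (nat_lit 5) (nat_lit 32) (nat_lit 5) (nat_lit 521) (nat_lit 364) (nat_lit 255)) (XT.lf (nat_lit 0) (nat_lit 13378769894) (nat_lit 152) (nat_lit 3272882412) (nat_lit 228) (nat_lit 7351958870) (nat_lit 29) (nat_lit 5) (nat_lit 31) (nat_lit 5) (nat_lit 32) (nat_lit 5) (nat_lit 522) (nat_lit 364) (nat_lit 254))) (XT.nd (nat_lit 78) (nat_lit 152) (nat_lit 0) (XT.lf (nat_lit 0) (nat_lit 21091166439) (nat_lit 228) (nat_lit 1703509746) (nat_lit 76) (nat_lit 1586277795) (nat_lit 29) (nat_lit 5) (nat_lit 32) (nat_lit 5) (nat_lit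 30) (nat_lit 4) (nat_lit 523) (nat_lit 364) (nat_lit 253)) (XT.lf (nat_lit 0) (nat_lit 894386261) (nat_lit 152) (nat_lit 17331260209) (nat_lit 76) (nat_lit 6539050946) (nat_lit 27) (nat_lit 5) (nat_lit 29) (nat_lit 5) (nat_lit 28) (nat_lit 5) (nat_lit 524) (nat_lit 364) (nat_lit 252))))))) (XT.nd (nat_lit 51012) (nat_lit 0) (nat_lit 19912) (XT.nd (nat_lit 50466) (nat_lit 0) (nat_lit 29868) (XT.nd (nat_lit 234) (nat_lit 152) (nat_lit 0) (XT.nd (nat_lit 78) (nat_lit 152) (nat_lit 0) (XT.lf (nat_lit 0) (nat_lit 5111406345) (nat_lit 152) (nat_lit 8434271266) (nat_lit 76) (nat_lit 11610142578) (nat_lit 27) (nat_lit 5) (nat_lit 29) (nat_lit 5) (nat_lit 28) (nat_lit 5) (nat_lit 525) (nat_lit 364) (nat_lit 251)) (XT.nd (nat_lit 78) (nat_lit 0) (nat_lit 0) (XT.lf (nat_lit 0) (nat_lit 616650406) (nat_lit 152) (nat_lit 8782144376) (nat_lit 228) (nat_lit 16156253647) (nat_lit 25) (nat_lit 5) (nat_lit 27) (nat_lit 5) (nat_lit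 28) (nat_lit 5) (nat_lit 526) (nat_lit 364) (nat_lit 250)) (XT.lf (nat_lit 0) (nat_lit 9931035899) (nat_lit 152) (nat_lit 3879663193) (nat_lit 228) (nat_lit 12150790277) (nat_lit 25) (nat_lit 5) (nat_lit 27) (nat_lit 5) (nat_lit 28) (nat_lit 5) (nat_lit 527) (nat_lit 364) (nat_lit 249)))) (XT.nd (nat_lit 156) (nat_lit 76) (nat_lit 0) (XT.nd (nat_lit 78) (nat_lit 76) (nat_lit 0) (XT.lf (nat_lit 0) (nat_lit 18300548770) (nat_lit 228) (nat_lit 6983149250) (nat_lit 76) (nat_lit 1092570391) (nat_lit 25) (nat_lit 5) (nat_lit 28) (nat_lit 5) (nat_lit 26) (nat_lit 4) (nat_lit 528) (nat_lit 364) (nat_lit 248)) (XT.lf (nat_lit 0) (nat_lit 2217588255) (nat_lit 76) (nat_lit 20685472752) (nat_lit 152) (nat_lit 3895828081) (nat_lit 24) (nat_lit 5) (nat_lit 25) (nat_lit 5) (nat_lit 26) (nat_lit 4) (nat_lit 529) (nat_lit 364) (nat_lit 247))) (XT.nd (nat_lit 49998) (nat_lit 0) (nat_lit 37316) (XT.lf (nat_lit 0) (nat_lit 392806703)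 (nat_lit 152) (nat_lit 15565655742) (nat_lit 76) (nat_lit 11270855876) (nat_lit 23) (nat_lit 5) (nat_lit 25) (nat_lit 5) (nat_lit 24) (nat_lit 5) (nat_lit 530) (nat_lit 364) (nat_lit 246)) (XT.lf (nat_lit 0) (nat_lit 1650204038) (nat_lit 1292) (nat_lit 147591024) (nat_lit 0) (nat_lit 1650204038) (nat_lit 514) (nat_lit 5) (nat_lit 531) (nat_lit 4) (nat_lit 514) (nat_lit 4) (nat_lit 410) (nat_lit 365) (nat_lit 365))))) (XT.nd (nat_lit 234) (nat_lit 4712) (nat_lit 0) (XT.nd (nat_lit 78) (nat_lit 1444) (nat_lit 0) (XT.lf (nat_lit 0) (nat_lit 4239781809) (nat_lit 1292) (nat_lit 2283094718) (nat_lit 1292) (nat_lit 404557340) (nat_lit 497) (nat_lit 4) (nat_lit 514) (nat_lit 5) (nat_lit 514) (nat_lit 4) (nat_lit 411) (nat_lit 365) (nat_lit 364)) (XT.nd (nat_lit 78) (nat_lit 0) (nat_lit 0) (XT.lf (nat_lit 0) (nat_lit 1855641292) (nat_lit 1368) (nat_lit 904696322) (nat_lit 1444) (nat_lit 4199906325) (nat_lit 478) (nat_lit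 5) (nat_lit 496) (nat_lit 5) (nat_lit 497) (nat_lit 4) (nat_lit 412) (nat_lit 365) (nat_lit 363)) (XT.lf (nat_lit 0) (nat_lit 5938866447) (nat_lit 1444) (nat_lit 534354324) (nat_lit 0) (nat_lit 521383926) (nat_lit 478) (nat_lit 5) (nat_lit 497) (nat_lit 4) (nat_lit 478) (nat_lit 4) (nat_lit 413) (nat_lit 365) (nat_lit 362)))) (XT.nd (nat_lit 156) (nat_lit 1672) (nat_lit 0) (XT.nd (nat_lit 78) (nat_lit 1520) (nat_lit 0) (XT.lf (nat_lit 0) (nat_lit 2091164092) (nat_lit 1520) (nat_lit 2928809216) (nat_lit 76) (nat_lit 2010099271) (nat_lit 458) (nat_lit 5) (nat_lit 478) (nat_lit 5) (nat_lit 459) (nat_lit 4) (nat_lit 414) (nat_lit 365) (nat_lit 361)) (XT.lf (nat_lit 0) (nat_lit 1725777830) (nat_lit 1520) (nat_lit 3511938850) (nat_lit 1596) (nat_lit 1829435993) (nat_lit 438) (nat_lit 5) (nat_lit 458) (nat_lit 5) (nat_lit 459) (nat_lit 4) (nat_lit 415) (nat_lit 365) (nat_lit 360))) (XT.nd (nat_lit 78) (nat_lit 1596) (nat_lit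 0) (XT.lf (nat_lit 0) (nat_lit 1280816136) (nat_lit 1596) (nat_lit 661272097) (nat_lit 76) (nat_lit 5163645054) (nat_lit 437) (nat_lit 5) (nat_lit 458) (nat_lit 5) (nat_lit 438) (nat_lit 5) (nat_lit 416) (nat_lit 365) (nat_lit 359)) (XT.lf (nat_lit 0) (nat_lit 4094206203) (nat_lit 1596) (nat_lit 298832736) (nat_lit 1672) (nat_lit 2752575453) (nat_lit 416) (nat_lit 5) (nat_lit 437) (nat_lit 5) (nat_lit 438) (nat_lit 5) (nat_lit 417) (nat_lit 365) (nat_lit 358)))))) (XT.nd (nat_lit 546) (nat_lit 4028) (nat_lit 0) (XT.nd (nat_lit 234) (nat_lit 2736) (nat_lit 0) (XT.nd (nat_lit 78) (nat_lit 1444) (nat_lit 0) (XT.lf (nat_lit 0) (nat_lit 339000952) (nat_lit 1748) (nat_lit 5468883387) (nat_lit 76) (nat_lit 1379157321) (nat_lit 393) (nat_lit 5) (nat_lit 416) (nat_lit 5) (nat_lit 394) (nat_lit 5) (nat_lit 418) (nat_lit 365) (nat_lit 357)) (XT.nd (nat_lit 78) (nat_lit 1444) (nat_lit 0) (XT.lf (nat_lit 0) (nat_lit 3417043595)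 (nat_lit 1748) (nat_lit 685930998) (nat_lit 76) (nat_lit 3126781894) (nat_lit 393) (nat_lit 5) (nat_lit 416) (nat_lit 5) (nat_lit 394) (nat_lit 5) (nat_lit 419) (nat_lit 365) (nat_lit 356)) (XT.lf (nat_lit 0) (nat_lit 4187623285) (nat_lit 1444) (nat_lit 2336277393) (nat_lit 1520) (nat_lit 750131566) (nat_lit 374) (nat_lit 5) (nat_lit 393) (nat_lit 5) (nat_lit 394) (nat_lit 5) (nat_lit 420) (nat_lit 365) (nat_lit 355)))) (XT.nd (nat_lit 156) (nat_lit 1824) (nat_lit 0) (XT.nd (nat_lit 78) (nat_lit 0) (nat_lit 0) (XT.lf (nat_lit 0) (nat_lit 1796539396) (nat_lit 836) (nat_lit 502739611) (nat_lit 912) (nat_lit 5020521790) (nat_lit 362) (nat_lit 5) (nat_lit 373) (nat_lit 5) (nat_lit 374) (nat_lit 5) (nat_lit 421) (nat_lit 365) (nat_lit 354)) (XT.lf (nat_lit 0) (nat_lit 5370552155) (nat_lit 912) (nat_lit 622315185) (nat_lit 76) (nat_lit 1374148562) (nat_lit 362) (nat_lit 5) (nat_lit 374) (nat_lit 5) (nat_lit 363) (nat_lit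 5) (nat_lit 422) (nat_lit 365) (nat_lit 353))) (XT.nd (nat_lit 78) (nat_lit 836) (nat_lit 0) (XT.lf (nat_lit 0) (nat_lit 1047627738) (nat_lit 988) (nat_lit 3052036986) (nat_lit 76) (nat_lit 3315939674) (nat_lit 349) (nat_lit 5) (nat_lit 362) (nat_lit 5) (nat_lit 350) (nat_lit 5) (nat_lit 423) (nat_lit 365) (nat_lit 352)) (XT.lf (nat_lit 0) (nat_lit 1944315807) (nat_lit 836) (nat_lit 2141060732) (nat_lit 912) (nat_lit 3380379942) (nat_lit 338) (nat_lit 5) (nat_lit 349) (nat_lit 5) (nat_lit 350) (nat_lit 5) (nat_lit 424) (nat_lit 365) (nat_lit 351))))) (XT.nd (nat_lit 312) (nat_lit 2280) (nat_lit 0) (XT.nd (nat_lit 156) (nat_lit 836) (nat_lit 0) (XT.nd (nat_lit 78) (nat_lit 912) (nat_lit 0) (XT.lf (nat_lit 0) (nat_lit 7021907425) (nat_lit 836) (nat_lit 125843758) (nat_lit 912) (nat_lit 369928016) (nat_lit 338) (nat_lit 5) (nat_lit 349) (nat_lit 5) (nat_lit 350) (nat_lit 5) (nat_lit 425) (nat_lit 365) (nat_lit 350))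 (XT.lf (nat_lit 0) (nat_lit 2652175511) (nat_lit 912) (nat_lit 2969953679) (nat_lit 76) (nat_lit 1948466484) (nat_lit 326) (nat_lit 5) (nat_lit 338) (nat_lit 5) (nat_lit 327) (nat_lit 5) (nat_lit 426) (nat_lit 365) (nat_lit 349))) (XT.nd (nat_lit 78) (nat_lit 76) (nat_lit 0) (XT.lf (nat_lit 0) (nat_lit 2145640142) (nat_lit 760) (nat_lit 3547019471) (nat_lit 836) (nat_lit 1932646540) (nat_lit 316) (nat_lit 5) (nat_lit 326) (nat_lit 5) (nat_lit 327) (nat_lit 5) (nat_lit 427) (nat_lit 365) (nat_lit 348)) (XT.lf (nat_lit 0) (nat_lit 1063374464) (nat_lit 836) (nat_lit 345034124) (nat_lit 76) (nat_lit 6273295974) (nat_lit 315) (nat_lit 5) (nat_lit 326) (nat_lit 5) (nat_lit 316) (nat_lit 5) (nat_lit 428) (nat_lit 365) (nat_lit 347)))) (XT.nd (nat_lit 156) (nat_lit 836) (nat_lit 0) (XT.nd (nat_lit 78) (nat_lit 684) (nat_lit 0) (XT.lf (nat_lit 0) (nat_lit 4076590446) (nat_lit 836) (nat_lit 2860766019) (nat_lit 76) (nat_lit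 801995894) (nat_lit 305) (nat_lit 5) (nat_lit 316) (nat_lit 5) (nat_lit 306) (nat_lit 5) (nat_lit 429) (nat_lit 365) (nat_lit 346)) (XT.lf (nat_lit 0) (nat_lit 2374803494) (nat_lit 684) (nat_lit 4749119022) (nat_lit 760) (nat_lit 674792746) (nat_lit 296) (nat_lit 5) (nat_lit 305) (nat_lit 5) (nat_lit 306) (nat_lit 5) (nat_lit 430) (nat_lit 365) (nat_lit 345))) (XT.nd (nat_lit 78) (nat_lit 760) (nat_lit 0) (XT.lf (nat_lit 0) (nat_lit 2308182732) (nat_lit 760) (nat_lit 181146872) (nat_lit 76) (nat_lit 5370337982) (nat_lit 295) (nat_lit 5) (nat_lit 305) (nat_lit 5) (nat_lit 296) (nat_lit 5) (nat_lit 431) (nat_lit 365) (nat_lit 344)) (XT.lf (nat_lit 0) (nat_lit 5170409045) (nat_lit 760) (nat_lit 153033751) (nat_lit 836) (nat_lit 2598710666) (nat_lit 285) (nat_lit 5) (nat_lit 295) (nat_lit 5) (nat_lit 296) (nat_lit 5) (nat_lit 432) (nat_lit 365) (nat_lit 343))))))))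
noncomputable def xc66 : XT := (XT.nd (nat_lit 2184) (nat_lit 5700) (nat_lit 0) (XT.nd (nat_lit 1092) (nat_lit 4560) (nat_lit 0) (XT.nd (nat_lit 546) (nat_lit 2432) (nat_lit 0) (XT.nd (nat_lit 234) (nat_lit 2052) (nat_lit 0) (XT.nd (nat_lit 78) (nat_lit 684) (nat_lit 0) (XT.lf (nat_lit 0) (nat_lit 388825360) (nat_lit 760) (nat_lit 5383616323) (nat_lit 76) (nat_lit 2213806729) (nat_lit 275) (nat_lit 5) (nat_lit 285) (nat_lit 5) (nat_lit 276) (nat_lit 5) (nat_lit 433) (nat_lit 365) (nat_lit 342)) (XT.nd (nat_lit 78) (nat_lit 684) (nat_lit 0) (XT.lf (nat_lit 0) (nat_lit 3369864789) (nat_lit 760) (nat_lit 28550846) (nat_lit 76) (nat_lit 4653529884) (nat_lit 275) (nat_lit 5) (nat_lit 285) (nat_lit 5) (nat_lit 276) (nat_lit 5) (nat_lit 434) (nat_lit 365) (nat_lit 341)) (XT.lf (nat_lit 0) (nat_lit 5445876966) (nat_lit 684) (nat_lit 949923423) (nat_lit 760) (nat_lit 1723484786) (nat_lit 266) (nat_lit 5) (nat_lit 275) (nat_lit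 5) (nat_lit 276) (nat_lit 5) (nat_lit 435) (nat_lit 365) (nat_lit 340)))) (XT.nd (nat_lit 156) (nat_lit 684) (nat_lit 0) (XT.nd (nat_lit 78) (nat_lit 684) (nat_lit 0) (XT.lf (nat_lit 0) (nat_lit 1256073225) (nat_lit 684) (nat_lit 5387418387) (nat_lit 76) (nat_lit 1544769434) (nat_lit 257) (nat_lit 5) (nat_lit 266) (nat_lit 5) (nat_lit 258) (nat_lit 5) (nat_lit 436) (nat_lit 365) (nat_lit 339)) (XT.lf (nat_lit 0) (nat_lit 85831192) (nat_lit 684) (nat_lit 4161929048) (nat_lit 760) (nat_lit 4011148190) (nat_lit 248) (nat_lit 5) (nat_lit 257) (nat_lit 5) (nat_lit 258) (nat_lit 5) (nat_lit 437) (nat_lit 365) (nat_lit 338))) (XT.nd (nat_lit 78) (nat_lit 684) (nat_lit 0) (XT.lf (nat_lit 0) (nat_lit 5681937914) (nat_lit 684) (nat_lit 1604762017) (nat_lit 760) (nat_lit 1044551968) (nat_lit 248) (nat_lit 5) (nat_lit 257) (nat_lit 5) (nat_lit 258) (nat_lit 5) (nat_lit 438) (nat_lit 365) (nat_lit 337)) (XT.lf (nat_lit 0) (nat_lit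 1933085542) (nat_lit 684) (nat_lit 5460415666) (nat_lit 76) (nat_lit 1011760123) (nat_lit 239) (nat_lit 5) (nat_lit 248) (nat_lit 5) (nat_lit 240) (nat_lit 5) (nat_lit 439) (nat_lit 365) (nat_lit 336))))) (XT.nd (nat_lit 234) (nat_lit 1216) (nat_lit 0) (XT.nd (nat_lit 78) (nat_lit 608) (nat_lit 0) (XT.lf (nat_lit 0) (nat_lit 130802386) (nat_lit 608) (nat_lit 4807237546) (nat_lit 684) (nat_lit 3542967613) (nat_lit 231) (nat_lit 5) (nat_lit 239) (nat_lit 5) (nat_lit 240) (nat_lit 5) (nat_lit 440) (nat_lit 365) (nat_lit 335)) (XT.nd (nat_lit 78) (nat_lit 608) (nat_lit 0) (XT.lf (nat_lit 0) (nat_lit 5848599122) (nat_lit 608) (nat_lit 2144050560) (nat_lit 684) (nat_lit 565856992) (nat_lit 231) (nat_lit 5) (nat_lit 239) (nat_lit 5) (nat_lit 240) (nat_lit 5) (nat_lit 441) (nat_lit 365) (nat_lit 334)) (XT.lf (nat_lit 0) (nat_lit 2415295717) (nat_lit 608) (nat_lit 5633819117) (nat_lit 76) (nat_lit 588609999) (nat_lit 223)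 (nat_lit 5) (nat_lit 231) (nat_lit 5) (nat_lit 224) (nat_lit 5) (nat_lit 442) (nat_lit 365) (nat_lit 333)))) (XT.nd (nat_lit 156) (nat_lit 608) (nat_lit 0) (XT.nd (nat_lit 78) (nat_lit 0) (nat_lit 0) (XT.lf (nat_lit 0) (nat_lit 74245345) (nat_lit 608) (nat_lit 5361198466) (nat_lit 684) (nat_lit 3283297192) (nat_lit 215) (nat_lit 5) (nat_lit 223) (nat_lit 5) (nat_lit 224) (nat_lit 5) (nat_lit 443) (nat_lit 365) (nat_lit 332)) (XT.lf (nat_lit 0) (nat_lit 5914001986) (nat_lit 608) (nat_lit 2594275270) (nat_lit 684) (nat_lit 293281489) (nat_lit 215) (nat_lit 5) (nat_lit 223) (nat_lit 5) (nat_lit 224) (nat_lit 5) (nat_lit 444) (nat_lit 365) (nat_lit 331))) (XT.nd (nat_lit 78) (nat_lit 0) (nat_lit 0) (XT.lf (nat_lit 0) (nat_lit 2696202041) (nat_lit 608) (nat_lit 5940888826) (nat_lit 76) (nat_lit 249093485) (nat_lit 207) (nat_lit 5) (nat_lit 215) (nat_lit 5) (nat_lit 208) (nat_lit 5) (nat_lit 445) (nat_lit 365) (nat_lit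 330)) (XT.lf (nat_lit 0) (nat_lit 5733703229) (nat_lit 608) (nat_lit 116169490) (nat_lit 76) (nat_lit 3122773226) (nat_lit 207) (nat_lit 5) (nat_lit 215) (nat_lit 5) (nat_lit 208) (nat_lit 5) (nat_lit 446) (nat_lit 365) (nat_lit 329)))))) (XT.nd (nat_lit 546) (nat_lit 1976) (nat_lit 0) (XT.nd (nat_lit 234) (nat_lit 1520) (nat_lit 0) (XT.nd (nat_lit 78) (nat_lit 532) (nat_lit 0) (XT.lf (nat_lit 0) (nat_lit 5844092722) (nat_lit 532) (nat_lit 2982144047) (nat_lit 608) (nat_lit 234739204) (nat_lit 200) (nat_lit 5) (nat_lit 207) (nat_lit 5) (nat_lit 208) (nat_lit 5) (nat_lit 447) (nat_lit 365) (nat_lit 328)) (XT.nd (nat_lit 78) (nat_lit 0) (nat_lit 0) (XT.lf (nat_lit 0) (nat_lit 2733734119) (nat_lit 456) (nat_lit 33751381) (nat_lit 532) (nat_lit 6383742617) (nat_lit 193) (nat_lit 5) (nat_lit 199) (nat_lit 5) (nat_lit 200) (nat_lit 5) (nat_lit 448) (nat_lit 365) (nat_lit 327)) (XT.lf (nat_lit 0) (nat_lit 5824550318)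 (nat_lit 532) (nat_lit 475118347) (nat_lit 76) (nat_lit 2943650248) (nat_lit 193) (nat_lit 5) (nat_lit 200) (nat_lit 5) (nat_lit 194) (nat_lit 5) (nat_lit 449) (nat_lit 365) (nat_lit 326)))) (XT.nd (nat_lit 156) (nat_lit 456) (nat_lit 0) (XT.nd (nat_lit 78) (nat_lit 532) (nat_lit 0) (XT.lf (nat_lit 0) (nat_lit 5602267662) (nat_lit 532) (nat_lit 3334830292) (nat_lit 608) (nat_lit 400289697) (nat_lit 186) (nat_lit 5) (nat_lit 193) (nat_lit 5) (nat_lit 194) (nat_lit 5) (nat_lit 450) (nat_lit 365) (nat_lit 325)) (XT.lf (nat_lit 0) (nat_lit 2330222663) (nat_lit 456) (nat_lit 289450785) (nat_lit 532) (nat_lit 6813813673) (nat_lit 179) (nat_lit 5) (nat_lit 185) (nat_lit 5) (nat_lit 186) (nat_lit 5) (nat_lit 451) (nat_lit 365) (nat_lit 324))) (XT.nd (nat_lit 78) (nat_lit 456) (nat_lit 0) (XT.lf (nat_lit 0) (nat_lit 5696462691) (nat_lit 532) (nat_lit 1042282817) (nat_lit 76) (nat_lit 2792696053) (nat_lit 179) (nat_lit 5)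 (nat_lit 186) (nat_lit 5) (nat_lit 180) (nat_lit 5) (nat_lit 452) (nat_lit 365) (nat_lit 323)) (XT.lf (nat_lit 0) (nat_lit 5148989780) (nat_lit 456) (nat_lit 3680226196) (nat_lit 532) (nat_lit 802271756) (nat_lit 173) (nat_lit 5) (nat_lit 179) (nat_lit 5) (nat_lit 180) (nat_lit 5) (nat_lit 453) (nat_lit 365) (nat_lit 322))))) (XT.nd (nat_lit 234) (nat_lit 988) (nat_lit 0) (XT.nd (nat_lit 78) (nat_lit 456) (nat_lit 0) (XT.lf (nat_lit 0) (nat_lit 1695403303) (nat_lit 456) (nat_lit 542916158) (nat_lit 532) (nat_lit 7495392687) (nat_lit 166) (nat_lit 5) (nat_lit 172) (nat_lit 5) (nat_lit 173) (nat_lit 5) (nat_lit 454) (nat_lit 365) (nat_lit 321)) (XT.nd (nat_lit 78) (nat_lit 456) (nat_lit 0) (XT.lf (nat_lit 0) (nat_lit 5336080388) (nat_lit 532) (nat_lit 1859600994) (nat_lit 76) (nat_lit 2642071589) (nat_lit 166) (nat_lit 5) (nat_lit 173) (nat_lit 5) (nat_lit 167) (nat_lit 5) (nat_lit 455) (nat_lit 365) (nat_lit 320))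 (XT.lf (nat_lit 0) (nat_lit 4441372802) (nat_lit 456) (nat_lit 4047207716) (nat_lit 532) (nat_lit 1455458008) (nat_lit 160) (nat_lit 5) (nat_lit 166) (nat_lit 5) (nat_lit 167) (nat_lit 5) (nat_lit 456) (nat_lit 365) (nat_lit 319)))) (XT.nd (nat_lit 156) (nat_lit 532) (nat_lit 0) (XT.nd (nat_lit 78) (nat_lit 0) (nat_lit 0) (XT.lf (nat_lit 0) (nat_lit 784720672) (nat_lit 380) (nat_lit 823444428) (nat_lit 456) (nat_lit 8444526120) (nat_lit 154) (nat_lit 5) (nat_lit 159) (nat_lit 5) (nat_lit 160) (nat_lit 5) (nat_lit 457) (nat_lit 365) (nat_lit 318)) (XT.lf (nat_lit 0) (nat_lit 4727557956) (nat_lit 456) (nat_lit 2972680709) (nat_lit 76) (nat_lit 2462824639) (nat_lit 154) (nat_lit 5) (nat_lit 160) (nat_lit 5) (nat_lit 155) (nat_lit 5) (nat_lit 458) (nat_lit 365) (nat_lit 317))) (XT.nd (nat_lit 78) (nat_lit 76) (nat_lit 0) (XT.lf (nat_lit 0) (nat_lit 3432728862) (nat_lit 456) (nat_lit 4465913618) (nat_lit 532) (nat_lit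 2377232374) (nat_lit 148) (nat_lit 5) (nat_lit 154) (nat_lit 5) (nat_lit 155) (nat_lit 5) (nat_lit 459) (nat_lit 365) (nat_lit 316)) (XT.lf (nat_lit 0) (nat_lit 714242440) (nat_lit 532) (nat_lit 444468573) (nat_lit 76) (nat_lit 9232517233) (nat_lit 147) (nat_lit 5) (nat_lit 154) (nat_lit 5) (nat_lit 148) (nat_lit 5) (nat_lit 460) (nat_lit 365) (nat_lit 315))))))) (XT.nd (nat_lit 1092) (nat_lit 2280) (nat_lit 0) (XT.nd (nat_lit 546) (nat_lit 1444) (nat_lit 0) (XT.nd (nat_lit 234) (nat_lit 1216) (nat_lit 0) (XT.nd (nat_lit 78) (nat_lit 380) (nat_lit 0) (XT.lf (nat_lit 0) (nat_lit 3852374993) (nat_lit 456) (nat_lit 4431278415) (nat_lit 76) (nat_lit 2224604897) (nat_lit 142) (nat_lit 5) (nat_lit 148) (nat_lit 5) (nat_lit 143) (nat_lit 5) (nat_lit 461) (nat_lit 365) (nat_lit 314)) (XT.nd (nat_lit 78) (nat_lit 0) (nat_lit 0) (XT.lf (nat_lit 0) (nat_lit 2072075347) (nat_lit 380) (nat_lit 4968041140) (nat_lit 456) (nat_lit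 3587792276) (nat_lit 137) (nat_lit 5) (nat_lit 142) (nat_lit 5) (nat_lit 143) (nat_lit 5) (nat_lit 462) (nat_lit 365) (nat_lit 313)) (XT.lf (nat_lit 0) (nat_lit 8711203472) (nat_lit 380) (nat_lit 1573240696) (nat_lit 456) (nat_lit 465667829) (nat_lit 137) (nat_lit 5) (nat_lit 142) (nat_lit 5) (nat_lit 143) (nat_lit 5) (nat_lit 463) (nat_lit 365) (nat_lit 312)))) (XT.nd (nat_lit 156) (nat_lit 380) (nat_lit 0) (XT.nd (nat_lit 78) (nat_lit 380) (nat_lit 0) (XT.lf (nat_lit 0) (nat_lit 2689121114) (nat_lit 456) (nat_lit 6289822129) (nat_lit 76) (nat_lit 1895361138) (nat_lit 131) (nat_lit 5) (nat_lit 137) (nat_lit 5) (nat_lit 132) (nat_lit 5) (nat_lit 464) (nat_lit 365) (nat_lit 311)) (XT.lf (nat_lit 0) (nat_lit 303596116) (nat_lit 380) (nat_lit 5587160968) (nat_lit 456) (nat_lit 5110377685) (nat_lit 126) (nat_lit 5) (nat_lit 131) (nat_lit 5) (nat_lit 132) (nat_lit 5) (nat_lit 465) (nat_lit 365) (nat_lit 310))) (XT.nd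 (nat_lit 78) (nat_lit 380) (nat_lit 0) (XT.lf (nat_lit 0) (nat_lit 7060434501) (nat_lit 380) (nat_lit 2102378023) (nat_lit 456) (nat_lit 1967576652) (nat_lit 126) (nat_lit 5) (nat_lit 131) (nat_lit 5) (nat_lit 132) (nat_lit 5) (nat_lit 466) (nat_lit 365) (nat_lit 309)) (XT.lf (nat_lit 0) (nat_lit 1213253082) (nat_lit 380) (nat_lit 8607983509) (nat_lit 76) (nat_lit 1441017663) (nat_lit 121) (nat_lit 5) (nat_lit 126) (nat_lit 5) (nat_lit 122) (nat_lit 5) (nat_lit 467) (nat_lit 365) (nat_lit 308))))) (XT.nd (nat_lit 234) (nat_lit 760) (nat_lit 0) (XT.nd (nat_lit 78) (nat_lit 684) (nat_lit 0) (XT.lf (nat_lit 0) (nat_lit 4437662809) (nat_lit 380) (nat_lit 1908584074) (nat_lit 76) (nat_lit 5050137727) (nat_lit 121) (nat_lit 5) (nat_lit 126) (nat_lit 5) (nat_lit 122) (nat_lit 5) (nat_lit 468) (nat_lit 365) (nat_lit 307)) (XT.nd (nat_lit 78) (nat_lit 304) (nat_lit 0) (XT.lf (nat_lit 0) (nat_lit 4937213200) (nat_lit 380)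 (nat_lit 2786961211) (nat_lit 456) (nat_lit 3809084881) (nat_lit 116) (nat_lit 5) (nat_lit 121) (nat_lit 5) (nat_lit 122) (nat_lit 5) (nat_lit 469) (nat_lit 365) (nat_lit 306)) (XT.lf (nat_lit 0) (nat_lit 217900974) (nat_lit 304) (nat_lit 10844078641) (nat_lit 380) (nat_lit 611194302) (nat_lit 112) (nat_lit 5) (nat_lit 116) (nat_lit 5) (nat_lit 117) (nat_lit 5) (nat_lit 470) (nat_lit 365) (nat_lit 305)))) (XT.nd (nat_lit 156) (nat_lit 380) (nat_lit 0) (XT.nd (nat_lit 78) (nat_lit 304) (nat_lit 0) (XT.lf (nat_lit 0) (nat_lit 2644776780) (nat_lit 380) (nat_lit 4646121740) (nat_lit 76) (nat_lit 4524079576) (nat_lit 111) (nat_lit 5) (nat_lit 116) (nat_lit 5) (nat_lit 112) (nat_lit 5) (nat_lit 471) (nat_lit 365) (nat_lit 304)) (XT.lf (nat_lit 0) (nat_lit 2273314423) (nat_lit 304) (nat_lit 3665679354) (nat_lit 380) (nat_lit 6020930501) (nat_lit 107) (nat_lit 5) (nat_lit 111) (nat_lit 5) (nat_lit 112) (nat_lit 5) (nat_lit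 472) (nat_lit 365) (nat_lit 303))) (XT.nd (nat_lit 78) (nat_lit 380) (nat_lit 0) (XT.lf (nat_lit 0) (nat_lit 9297435111) (nat_lit 380) (nat_lit 2765324337) (nat_lit 76) (nat_lit 45055811) (nat_lit 107) (nat_lit 5) (nat_lit 112) (nat_lit 5) (nat_lit 108) (nat_lit 5) (nat_lit 473) (nat_lit 365) (nat_lit 302)) (XT.lf (nat_lit 0) (nat_lit 477840976) (nat_lit 380) (nat_lit 7986114464) (nat_lit 76) (nat_lit 3794269494) (nat_lit 102) (nat_lit 5) (nat_lit 107) (nat_lit 5) (nat_lit 103) (nat_lit 5) (nat_lit 474) (nat_lit 365) (nat_lit 301)))))) (XT.nd (nat_lit 546) (nat_lit 1140) (nat_lit 0) (XT.nd (nat_lit 234) (nat_lit 608) (nat_lit 0) (XT.nd (nat_lit 78) (nat_lit 532) (nat_lit 0) (XT.lf (nat_lit 0) (nat_lit 3780395225) (nat_lit 380) (nat_lit 993202475) (nat_lit 76) (nat_lit 7637961521) (nat_lit 102) (nat_lit 5) (nat_lit 107) (nat_lit 5) (nat_lit 103) (nat_lit 5) (nat_lit 475) (nat_lit 365) (nat_lit 300)) (XT.nd (nat_lit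 78) (nat_lit 228) (nat_lit 0) (XT.lf (nat_lit 0) (nat_lit 6170519939) (nat_lit 304) (nat_lit 986666120) (nat_lit 380) (nat_lit 5410622133) (nat_lit 98) (nat_lit 5) (nat_lit 102) (nat_lit 5) (nat_lit 103) (nat_lit 5) (nat_lit 476) (nat_lit 365) (nat_lit 299)) (XT.lf (nat_lit 0) (nat_lit 704278601) (nat_lit 228) (nat_lit 9895496502) (nat_lit 304) (nat_lit 2127453270) (nat_lit 95) (nat_lit 5) (nat_lit 98) (nat_lit 5) (nat_lit 99) (nat_lit 5) (nat_lit 477) (nat_lit 365) (nat_lit 298)))) (XT.nd (nat_lit 156) (nat_lit 228) (nat_lit 0) (XT.nd (nat_lit 78) (nat_lit 304) (nat_lit 0) (XT.lf (nat_lit 0) (nat_lit 1223494611) (nat_lit 304) (nat_lit 4919406402) (nat_lit 76) (nat_lit 6746425694) (nat_lit 94) (nat_lit 5) (nat_lit 98) (nat_lit 5) (nat_lit 95) (nat_lit 5) (nat_lit 478) (nat_lit 365) (nat_lit 297)) (XT.lf (nat_lit 0) (nat_lit 2292903095) (nat_lit 304) (nat_lit 2303991868) (nat_lit 380) (nat_lit 8457823210) (nat_lit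 90) (nat_lit 5) (nat_lit 94) (nat_lit 5) (nat_lit 95) (nat_lit 5) (nat_lit 479) (nat_lit 365) (nat_lit 296))) (XT.nd (nat_lit 78) (nat_lit 228) (nat_lit 0) (XT.lf (nat_lit 0) (nat_lit 8050635646) (nat_lit 380) (nat_lit 3566766769) (nat_lit 76) (nat_lit 1605768213) (nat_lit 90) (nat_lit 5) (nat_lit 95) (nat_lit 5) (nat_lit 91) (nat_lit 5) (nat_lit 480) (nat_lit 365) (nat_lit 295)) (XT.lf (nat_lit 0) (nat_lit 3757707935) (nat_lit 228) (nat_lit 7825181020) (nat_lit 304) (nat_lit 1811924817) (nat_lit 87) (nat_lit 5) (nat_lit 90) (nat_lit 5) (nat_lit 91) (nat_lit 5) (nat_lit 481) (nat_lit 365) (nat_lit 294))))) (XT.nd (nat_lit 312) (nat_lit 532) (nat_lit 0) (XT.nd (nat_lit 156) (nat_lit 228) (nat_lit 0) (XT.nd (nat_lit 78) (nat_lit 304) (nat_lit 0) (XT.lf (nat_lit 0) (nat_lit 1588651577) (nat_lit 304) (nat_lit 2351631386) (nat_lit 76) (nat_lit 9629528043) (nat_lit 86) (nat_lit 5) (nat_lit 90) (nat_lit 5) (nat_lit 87)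 (nat_lit 5) (nat_lit 482) (nat_lit 365) (nat_lit 293)) (XT.lf (nat_lit 0) (nat_lit 5036796439) (nat_lit 380) (nat_lit 8661707307) (nat_lit 76) (nat_lit 49498328) (nat_lit 82) (nat_lit 5) (nat_lit 87) (nat_lit 5) (nat_lit 83) (nat_lit 5) (nat_lit 483) (nat_lit 365) (nat_lit 292))) (XT.nd (nat_lit 78) (nat_lit 228) (nat_lit 0) (XT.lf (nat_lit 0) (nat_lit 8566483628) (nat_lit 380) (nat_lit 1298586893) (nat_lit 76) (nat_lit 4064444459) (nat_lit 82) (nat_lit 5) (nat_lit 87) (nat_lit 5) (nat_lit 83) (nat_lit 5) (nat_lit 484) (nat_lit 365) (nat_lit 291)) (XT.lf (nat_lit 0) (nat_lit 6246859047) (nat_lit 228) (nat_lit 5931640393) (nat_lit 304) (nat_lit 1935933424) (nat_lit 79) (nat_lit 5) (nat_lit 82) (nat_lit 5) (nat_lit 83) (nat_lit 5) (nat_lit 485) (nat_lit 365) (nat_lit 290)))) (XT.nd (nat_lit 156) (nat_lit 228) (nat_lit 0) (XT.nd (nat_lit 78) (nat_lit 228) (nat_lit 0) (XT.lf (nat_lit 0) (nat_lit 1519263306) (nat_lit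 304) (nat_lit 399191070) (nat_lit 76) (nat_lit 12384800994) (nat_lit 78) (nat_lit 5) (nat_lit 82) (nat_lit 5) (nat_lit 79) (nat_lit 5) (nat_lit 486) (nat_lit 365) (nat_lit 289)) (XT.lf (nat_lit 0) (nat_lit 5050976663) (nat_lit 304) (nat_lit 7254771761) (nat_lit 76) (nat_lit 2189192148) (nat_lit 75) (nat_lit 5) (nat_lit 79) (nat_lit 5) (nat_lit 76) (nat_lit 5) (nat_lit 487) (nat_lit 365) (nat_lit 288))) (XT.nd (nat_lit 78) (nat_lit 0) (nat_lit 0) (XT.lf (nat_lit 0) (nat_lit 292254239) (nat_lit 228) (nat_lit 8350314240) (nat_lit 304) (nat_lit 6048114817) (nat_lit 72) (nat_lit 5) (nat_lit 75) (nat_lit 5) (nat_lit 76) (nat_lit 5) (nat_lit 488) (nat_lit 365) (nat_lit 287)) (XT.lf (nat_lit 0) (nat_lit 8042687778) (nat_lit 228) (nat_lit 4284185109) (nat_lit 304) (nat_lit 2563058900) (nat_lit 72) (nat_lit 5) (nat_lit 75) (nat_lit 5) (nat_lit 76) (nat_lit 5) (nat_lit 489) (nat_lit 365) (nat_lit 286))))))))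
noncomputable def xc67 : XT := (XT.nd (nat_lit 2184) (nat_lit 760) (nat_lit 0) (XT.nd (nat_lit 1092) (nat_lit 1216) (nat_lit 0) (XT.nd (nat_lit 546) (nat_lit 684) (nat_lit 0) (XT.nd (nat_lit 234) (nat_lit 456) (nat_lit 0) (XT.nd (nat_lit 78) (nat_lit 228) (nat_lit 0) (XT.lf (nat_lit 0) (nat_lit 813853017) (nat_lit 228) (nat_lit 142676694) (nat_lit 304) (nat_lit 14136958202) (nat_lit 68) (nat_lit 5) (nat_lit 71) (nat_lit 5) (nat_lit 72) (nat_lit 5) (nat_lit 490) (nat_lit 365) (nat_lit 285)) (XT.nd (nat_lit 78) (nat_lit 228) (nat_lit 0) (XT.lf (nat_lit 0) (nat_lit 4557660179) (nat_lit 304) (nat_lit 6668471685) (nat_lit 76) (nat_lit 4073743110) (nat_lit 68) (nat_lit 5) (nat_lit 72) (nat_lit 5) (nat_lit 69) (nat_lit 5) (nat_lit 491) (nat_lit 365) (nat_lit 284)) (XT.lf (nat_lit 0) (nat_lit 1063322815) (nat_lit 228) (nat_lit 7148558331) (nat_lit 304) (nat_lit 7298895152) (nat_lit 65) (nat_lit 5) (nat_lit 68) (nat_lit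 5) (nat_lit 69) (nat_lit 5) (nat_lit 492) (nat_lit 365) (nat_lit 283)))) (XT.nd (nat_lit 156) (nat_lit 228) (nat_lit 0) (XT.nd (nat_lit 78) (nat_lit 228) (nat_lit 0) (XT.lf (nat_lit 0) (nat_lit 8995846701) (nat_lit 228) (nat_lit 2961545492) (nat_lit 304) (nat_lit 3768147067) (nat_lit 65) (nat_lit 5) (nat_lit 68) (nat_lit 5) (nat_lit 69) (nat_lit 5) (nat_lit 493) (nat_lit 365) (nat_lit 282)) (XT.lf (nat_lit 0) (nat_lit 1104564110) (nat_lit 228) (nat_lit 14662785299) (nat_lit 304) (nat_lit 177464929) (nat_lit 62) (nat_lit 5) (nat_lit 65) (nat_lit 5) (nat_lit 66) (nat_lit 5) (nat_lit 494) (nat_lit 365) (nat_lit 281))) (XT.nd (nat_lit 78) (nat_lit 152) (nat_lit 0) (XT.lf (nat_lit 0) (nat_lit 3478310692) (nat_lit 304) (nat_lit 7067293401) (nat_lit 76) (nat_lit 5621645827) (nat_lit 61) (nat_lit 5) (nat_lit 65) (nat_lit 5) (nat_lit 62) (nat_lit 5) (nat_lit 495) (nat_lit 365) (nat_lit 280)) (XT.lf (nat_lit 0) (nat_lit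 827753172) (nat_lit 152) (nat_lit 6356875326) (nat_lit 228) (nat_lit 9209893333) (nat_lit 59) (nat_lit 5) (nat_lit 61) (nat_lit 5) (nat_lit 62) (nat_lit 5) (nat_lit 496) (nat_lit 365) (nat_lit 279))))) (XT.nd (nat_lit 234) (nat_lit 380) (nat_lit 0) (XT.nd (nat_lit 78) (nat_lit 304) (nat_lit 0) (XT.lf (nat_lit 0) (nat_lit 8933732669) (nat_lit 152) (nat_lit 2053415407) (nat_lit 228) (nat_lit 5638756594) (nat_lit 59) (nat_lit 5) (nat_lit 61) (nat_lit 5) (nat_lit 62) (nat_lit 5) (nat_lit 497) (nat_lit 365) (nat_lit 278)) (XT.nd (nat_lit 78) (nat_lit 76) (nat_lit 0) (XT.lf (nat_lit 0) (nat_lit 286180791) (nat_lit 228) (nat_lit 14571599274) (nat_lit 304) (nat_lit 2004300718) (nat_lit 56) (nat_lit 5) (nat_lit 59) (nat_lit 5) (nat_lit 60) (nat_lit 5) (nat_lit 498) (nat_lit 365) (nat_lit 277)) (XT.lf (nat_lit 0) (nat_lit 1721152641) (nat_lit 304) (nat_lit 8640955427) (nat_lit 76) (nat_lit 6739844998) (nat_lit 55) (nat_lit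 5) (nat_lit 59) (nat_lit 5) (nat_lit 56) (nat_lit 5) (nat_lit 499) (nat_lit 365) (nat_lit 276)))) (XT.nd (nat_lit 156) (nat_lit 228) (nat_lit 0) (XT.nd (nat_lit 78) (nat_lit 152) (nat_lit 0) (XT.lf (nat_lit 0) (nat_lit 5469873482) (nat_lit 304) (nat_lit 602135303) (nat_lit 76) (nat_lit 11274843582) (nat_lit 55) (nat_lit 5) (nat_lit 59) (nat_lit 5) (nat_lit 56) (nat_lit 5) (nat_lit 500) (nat_lit 365) (nat_lit 275)) (XT.lf (nat_lit 0) (nat_lit 7657151018) (nat_lit 152) (nat_lit 1662182939) (nat_lit 228) (nat_lit 8276806730) (nat_lit 53) (nat_lit 5) (nat_lit 55) (nat_lit 5) (nat_lit 56) (nat_lit 5) (nat_lit 501) (nat_lit 365) (nat_lit 274))) (XT.nd (nat_lit 78) (nat_lit 228) (nat_lit 0) (XT.lf (nat_lit 0) (nat_lit 13244411401) (nat_lit 228) (nat_lit 1819827321) (nat_lit 76) (nat_lit 2786209711) (nat_lit 53) (nat_lit 5) (nat_lit 56) (nat_lit 5) (nat_lit 54) (nat_lit 5) (nat_lit 502) (nat_lit 365) (nat_lit 273)) (XT.lf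 (nat_lit 0) (nat_lit 6495866051) (nat_lit 228) (nat_lit 10781923531) (nat_lit 304) (nat_lit 831462859) (nat_lit 50) (nat_lit 5) (nat_lit 53) (nat_lit 5) (nat_lit 54) (nat_lit 5) (nat_lit 503) (nat_lit 365) (nat_lit 272)))))) (XT.nd (nat_lit 546) (nat_lit 532) (nat_lit 0) (XT.nd (nat_lit 234) (nat_lit 456) (nat_lit 0) (XT.nd (nat_lit 78) (nat_lit 152) (nat_lit 0) (XT.lf (nat_lit 0) (nat_lit 2967962872) (nat_lit 304) (nat_lit 3430217906) (nat_lit 76) (nat_lit 11974886637) (nat_lit 49) (nat_lit 5) (nat_lit 53) (nat_lit 5) (nat_lit 50) (nat_lit 5) (nat_lit 504) (nat_lit 365) (nat_lit 271)) (XT.nd (nat_lit 78) (nat_lit 0) (nat_lit 0) (XT.lf (nat_lit 0) (nat_lit 4936545862) (nat_lit 152) (nat_lit 1904874137) (nat_lit 228) (nat_lit 11800450990) (nat_lit 47) (nat_lit 5) (nat_lit 49) (nat_lit 5) (nat_lit 50) (nat_lit 5) (nat_lit 505) (nat_lit 365) (nat_lit 270)) (XT.lf (nat_lit 0) (nat_lit 10810110020) (nat_lit 228) (nat_lit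 5455389623) (nat_lit 76) (nat_lit 2650201340) (nat_lit 47) (nat_lit 5) (nat_lit 50) (nat_lit 5) (nat_lit 48) (nat_lit 5) (nat_lit 506) (nat_lit 365) (nat_lit 269)))) (XT.nd (nat_lit 156) (nat_lit 228) (nat_lit 0) (XT.nd (nat_lit 78) (nat_lit 0) (nat_lit 0) (XT.lf (nat_lit 0) (nat_lit 2946951838) (nat_lit 228) (nat_lit 11920621074) (nat_lit 304) (nat_lit 4327252203) (nat_lit 44) (nat_lit 5) (nat_lit 47) (nat_lit 5) (nat_lit 48) (nat_lit 5) (nat_lit 507) (nat_lit 365) (nat_lit 268)) (XT.lf (nat_lit 0) (nat_lit 11552916007) (nat_lit 228) (nat_lit 7467717116) (nat_lit 304) (nat_lit 458615054) (nat_lit 44) (nat_lit 5) (nat_lit 47) (nat_lit 5) (nat_lit 48) (nat_lit 5) (nat_lit 508) (nat_lit 365) (nat_lit 267))) (XT.nd (nat_lit 78) (nat_lit 0) (nat_lit 0) (XT.lf (nat_lit 0) (nat_lit 507739519) (nat_lit 152) (nat_lit 2915339019) (nat_lit 228) (nat_lit 16346205080) (nat_lit 41) (nat_lit 5) (nat_lit 43) (nat_lit 5) (nat_lit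 44) (nat_lit 5) (nat_lit 509) (nat_lit 365) (nat_lit 266)) (XT.lf (nat_lit 0) (nat_lit 7419238446) (nat_lit 228) (nat_lit 10898731712) (nat_lit 76) (nat_lit 1746234613) (nat_lit 41) (nat_lit 5) (nat_lit 44) (nat_lit 5) (nat_lit 42) (nat_lit 5) (nat_lit 510) (nat_lit 365) (nat_lit 265))))) (XT.nd (nat_lit 234) (nat_lit 380) (nat_lit 0) (XT.nd (nat_lit 78) (nat_lit 152) (nat_lit 0) (XT.lf (nat_lit 0) (nat_lit 11493261335) (nat_lit 228) (nat_lit 2425227388) (nat_lit 76) (nat_lit 6446581825) (nat_lit 41) (nat_lit 5) (nat_lit 44) (nat_lit 5) (nat_lit 42) (nat_lit 5) (nat_lit 511) (nat_lit 365) (nat_lit 264)) (XT.nd (nat_lit 78) (nat_lit 0) (nat_lit 0) (XT.lf (nat_lit 0) (nat_lit 6263365289) (nat_lit 152) (nat_lit 9405117178) (nat_lit 228) (nat_lit 5003081717) (nat_lit 39) (nat_lit 5) (nat_lit 41) (nat_lit 5) (nat_lit 42) (nat_lit 5) (nat_lit 512) (nat_lit 365) (nat_lit 263)) (XT.lf (nat_lit 0) (nat_lit 15122317831)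 (nat_lit 152) (nat_lit 4800391760) (nat_lit 228) (nat_lit 1061572873) (nat_lit 39) (nat_lit 5) (nat_lit 41) (nat_lit 5) (nat_lit 42) (nat_lit 5) (nat_lit 513) (nat_lit 365) (nat_lit 262)))) (XT.nd (nat_lit 156) (nat_lit 152) (nat_lit 0) (XT.nd (nat_lit 78) (nat_lit 0) (nat_lit 0) (XT.lf (nat_lit 0) (nat_lit 2837344116) (nat_lit 152) (nat_lit 80534011) (nat_lit 228) (nat_lit 18385039059) (nat_lit 36) (nat_lit 5) (nat_lit 38) (nat_lit 5) (nat_lit 39) (nat_lit 5) (nat_lit 514) (nat_lit 365) (nat_lit 261)) (XT.lf (nat_lit 0) (nat_lit 7012615216) (nat_lit 228) (nat_lit 9910991926) (nat_lit 76) (nat_lit 4703183416) (nat_lit 36) (nat_lit 5) (nat_lit 39) (nat_lit 5) (nat_lit 37) (nat_lit 5) (nat_lit 515) (nat_lit 365) (nat_lit 260))) (XT.nd (nat_lit 78) (nat_lit 152) (nat_lit 0) (XT.lf (nat_lit 0) (nat_lit 11169747450) (nat_lit 228) (nat_lit 1221076346) (nat_lit 76) (nat_lit 9566712030) (nat_lit 36) (nat_lit 5) (nat_lit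 39) (nat_lit 5) (nat_lit 37) (nat_lit 5) (nat_lit 516) (nat_lit 365) (nat_lit 259)) (XT.lf (nat_lit 0) (nat_lit 7709212062) (nat_lit 152) (nat_lit 7731223453) (nat_lit 228) (nat_lit 6853856571) (nat_lit 34) (nat_lit 5) (nat_lit 36) (nat_lit 5) (nat_lit 37) (nat_lit 5) (nat_lit 517) (nat_lit 365) (nat_lit 258))))))) (XT.nd (nat_lit 50856) (nat_lit 0) (nat_lit 24700) (XT.nd (nat_lit 546) (nat_lit 304) (nat_lit 0) (XT.nd (nat_lit 234) (nat_lit 228) (nat_lit 0) (XT.nd (nat_lit 78) (nat_lit 228) (nat_lit 0) (XT.lf (nat_lit 0) (nat_lit 16800352258) (nat_lit 152) (nat_lit 2984901383) (nat_lit 228) (nat_lit 2852759771) (nat_lit 34) (nat_lit 5) (nat_lit 36) (nat_lit 5) (nat_lit 37) (nat_lit 5) (nat_lit 518) (nat_lit 365) (nat_lit 257)) (XT.nd (nat_lit 78) (nat_lit 0) (nat_lit 0) (XT.lf (nat_lit 0) (nat_lit 1225183849) (nat_lit 228) (nat_lit 19917305163) (nat_lit 76) (nat_lit 1845706042) (nat_lit 31) (nat_lit 5) (nat_lit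 34) (nat_lit 5) (nat_lit 32) (nat_lit 5) (nat_lit 519) (nat_lit 365) (nat_lit 256)) (XT.lf (nat_lit 0) (nat_lit 5386561499) (nat_lit 228) (nat_lit 11180733830) (nat_lit 76) (nat_lit 6776910413) (nat_lit 31) (nat_lit 5) (nat_lit 34) (nat_lit 5) (nat_lit 32) (nat_lit 5) (nat_lit 520) (nat_lit 365) (nat_lit 255)))) (XT.nd (nat_lit 156) (nat_lit 76) (nat_lit 0) (XT.nd (nat_lit 78) (nat_lit 152) (nat_lit 0) (XT.lf (nat_lit 0) (nat_lit 9612379580) (nat_lit 228) (nat_lit 2302725708) (nat_lit 76) (nat_lit 11792611038) (nat_lit 31) (nat_lit 5) (nat_lit 34) (nat_lit 5) (nat_lit 32) (nat_lit 5) (nat_lit 521) (nat_lit 365) (nat_lit 254)) (XT.lf (nat_lit 0) (nat_lit 6809508706) (nat_lit 152) (nat_lit 7138998418) (nat_lit 228) (nat_lit 10129477999) (nat_lit 29) (nat_lit 5) (nat_lit 31) (nat_lit 5) (nat_lit 32) (nat_lit 5) (nat_lit 522) (nat_lit 365) (nat_lit 253))) (XT.nd (nat_lit 78) (nat_lit 76) (nat_lit 0) (XT.lf (nat_lit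 0) (nat_lit 16102774809) (nat_lit 152) (nat_lit 2265766779) (nat_lit 228) (nat_lit 6087177806) (nat_lit 29) (nat_lit 5) (nat_lit 31) (nat_lit 5) (nat_lit 32) (nat_lit 5) (nat_lit 523) (nat_lit 365) (nat_lit 252)) (XT.lf (nat_lit 0) (nat_lit 700459321) (nat_lit 76) (nat_lit 22180627403) (nat_lit 152) (nat_lit 1959843141) (nat_lit 28) (nat_lit 5) (nat_lit 29) (nat_lit 5) (nat_lit 30) (nat_lit 4) (nat_lit 524) (nat_lit 365) (nat_lit 251))))) (XT.nd (nat_lit 234) (nat_lit 76) (nat_lit 0) (XT.nd (nat_lit 78) (nat_lit 152) (nat_lit 0) (XT.lf (nat_lit 0) (nat_lit 2273981751) (nat_lit 152) (nat_lit 15246645381) (nat_lit 76) (nat_lit 7711859744) (nat_lit 27) (nat_lit 5) (nat_lit 29) (nat_lit 5) (nat_lit 28) (nat_lit 5) (nat_lit 525) (nat_lit 365) (nat_lit 250)) (XT.nd (nat_lit 78) (nat_lit 152) (nat_lit 0) (XT.lf (nat_lit 0) (nat_lit 6548642085) (nat_lit 152) (nat_lit 6219388032) (nat_lit 76) (nat_lit 12863941291) (nat_lit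 27) (nat_lit 5) (nat_lit 29) (nat_lit 5) (nat_lit 28) (nat_lit 5) (nat_lit 526) (nat_lit 365) (nat_lit 249)) (XT.lf (nat_lit 0) (nat_lit 2996870701) (nat_lit 152) (nat_lit 7914104864) (nat_lit 228) (nat_lit 15128429898) (nat_lit 25) (nat_lit 5) (nat_lit 27) (nat_lit 5) (nat_lit 28) (nat_lit 5) (nat_lit 527) (nat_lit 365) (nat_lit 248)))) (XT.nd (nat_lit 156) (nat_lit 76) (nat_lit 0) (XT.nd (nat_lit 78) (nat_lit 0) (nat_lit 0) (XT.lf (nat_lit 0) (nat_lit 12451114741) (nat_lit 152) (nat_lit 2934038419) (nat_lit 228) (nat_lit 11069346453) (nat_lit 25) (nat_lit 5) (nat_lit 27) (nat_lit 5) (nat_lit 28) (nat_lit 5) (nat_lit 528) (nat_lit 365) (nat_lit 247)) (XT.lf (nat_lit 0) (nat_lit 19945857291) (nat_lit 228) (nat_lit 4827680611) (nat_lit 76) (nat_lit 2104420181) (nat_lit 25) (nat_lit 5) (nat_lit 28) (nat_lit 5) (nat_lit 26) (nat_lit 4) (nat_lit 529) (nat_lit 365) (nat_lit 246))) (XT.nd (nat_lit 49842) (nat_lit 0)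 (nat_lit 38532) (XT.lf (nat_lit 0) (nat_lit 4541972094) (nat_lit 76) (nat_lit 20088166893) (nat_lit 152) (nat_lit 2679102697) (nat_lit 24) (nat_lit 5) (nat_lit 25) (nat_lit 5) (nat_lit 26) (nat_lit 4) (nat_lit 530) (nat_lit 365) (nat_lit 245)) (XT.lf (nat_lit 0) (nat_lit 2275907676) (nat_lit 1140) (nat_lit 571227649) (nat_lit 1140) (nat_lit 571227649) (nat_lit 531) (nat_lit 4) (nat_lit 546) (nat_lit 5) (nat_lit 546) (nat_lit 4) (nat_lit 408) (nat_lit 366) (nat_lit 366)))))) (XT.nd (nat_lit 546) (nat_lit 6764) (nat_lit 0) (XT.nd (nat_lit 234) (nat_lit 4408) (nat_lit 0) (XT.nd (nat_lit 78) (nat_lit 1368) (nat_lit 0) (XT.lf (nat_lit 0) (nat_lit 2018489817) (nat_lit 1292) (nat_lit 4745147861) (nat_lit 0) (nat_lit 102381691) (nat_lit 514) (nat_lit 5) (nat_lit 531) (nat_lit 4) (nat_lit 514) (nat_lit 4) (nat_lit 409) (nat_lit 366) (nat_lit 365)) (XT.nd (nat_lit 78) (nat_lit 1368) (nat_lit 0) (XT.lf (nat_lit 0) (nat_lit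 5183325143) (nat_lit 1292) (nat_lit 324690351) (nat_lit 0) (nat_lit 1388679641) (nat_lit 514) (nat_lit 5) (nat_lit 531) (nat_lit 4) (nat_lit 514) (nat_lit 4) (nat_lit 410) (nat_lit 366) (nat_lit 364)) (XT.lf (nat_lit 0) (nat_lit 1425108184) (nat_lit 1368) (nat_lit 2757630280) (nat_lit 76) (nat_lit 2745895777) (nat_lit 496) (nat_lit 5) (nat_lit 514) (nat_lit 5) (nat_lit 497) (nat_lit 4) (nat_lit 411) (nat_lit 366) (nat_lit 363)))) (XT.nd (nat_lit 156) (nat_lit 2964) (nat_lit 0) (XT.nd (nat_lit 78) (nat_lit 76) (nat_lit 0) (XT.lf (nat_lit 0) (nat_lit 1752483211) (nat_lit 1368) (nat_lit 2799211594) (nat_lit 1444) (nat_lit 2410388227) (nat_lit 478) (nat_lit 5) (nat_lit 496) (nat_lit 5) (nat_lit 497) (nat_lit 4) (nat_lit 412) (nat_lit 366) (nat_lit 362)) (XT.lf (nat_lit 0) (nat_lit 688574869) (nat_lit 1444) (nat_lit 670127931) (nat_lit 76) (nat_lit 5638387322) (nat_lit 477) (nat_lit 5) (nat_lit 496) (nat_lit 5) (nat_lit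 478) (nat_lit 5) (nat_lit 413) (nat_lit 366) (nat_lit 361))) (XT.nd (nat_lit 78) (nat_lit 1520) (nat_lit 0) (XT.lf (nat_lit 0) (nat_lit 3780237421) (nat_lit 1520) (nat_lit 3096867650) (nat_lit 76) (nat_lit 156173117) (nat_lit 458) (nat_lit 5) (nat_lit 478) (nat_lit 5) (nat_lit 459) (nat_lit 4) (nat_lit 414) (nat_lit 366) (nat_lit 360)) (XT.lf (nat_lit 0) (nat_lit 1525732890) (nat_lit 1520) (nat_lit 5368706497) (nat_lit 1596) (nat_lit 176594732) (nat_lit 438) (nat_lit 5) (nat_lit 458) (nat_lit 5) (nat_lit 459) (nat_lit 4) (nat_lit 415) (nat_lit 366) (nat_lit 359))))) (XT.nd (nat_lit 312) (nat_lit 3344) (nat_lit 0) (XT.nd (nat_lit 156) (nat_lit 1748) (nat_lit 0) (XT.nd (nat_lit 78) (nat_lit 1596) (nat_lit 0) (XT.lf (nat_lit 0) (nat_lit 2881117006) (nat_lit 1596) (nat_lit 905537390) (nat_lit 76) (nat_lit 3323390677) (nat_lit 437) (nat_lit 5) (nat_lit 458) (nat_lit 5) (nat_lit 438) (nat_lit 5) (nat_lit 416) (nat_lit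 366) (nat_lit 358)) (XT.lf (nat_lit 0) (nat_lit 3817281975) (nat_lit 1596) (nat_lit 2144001937) (nat_lit 1672) (nat_lit 1189310548) (nat_lit 416) (nat_lit 5) (nat_lit 437) (nat_lit 5) (nat_lit 438) (nat_lit 5) (nat_lit 417) (nat_lit 366) (nat_lit 357))) (XT.nd (nat_lit 78) (nat_lit 0) (nat_lit 0) (XT.lf (nat_lit 0) (nat_lit 1401827121) (nat_lit 1672) (nat_lit 438673085) (nat_lit 1748) (nat_lit 5352169899) (nat_lit 393) (nat_lit 5) (nat_lit 415) (nat_lit 5) (nat_lit 416) (nat_lit 5) (nat_lit 418) (nat_lit 366) (nat_lit 356)) (XT.lf (nat_lit 0) (nat_lit 4886023782) (nat_lit 1748) (nat_lit 1034734808) (nat_lit 76) (nat_lit 1315302320) (nat_lit 393) (nat_lit 5) (nat_lit 416) (nat_lit 5) (nat_lit 394) (nat_lit 5) (nat_lit 419) (nat_lit 366) (nat_lit 355)))) (XT.nd (nat_lit 156) (nat_lit 988) (nat_lit 0) (XT.nd (nat_lit 78) (nat_lit 836) (nat_lit 0) (XT.lf (nat_lit 0) (nat_lit 671389774) (nat_lit 1520) (nat_lit 3480723274)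 (nat_lit 76) (nat_lit 3128791879) (nat_lit 373) (nat_lit 5) (nat_lit 393) (nat_lit 5) (nat_lit 374) (nat_lit 5) (nat_lit 420) (nat_lit 366) (nat_lit 354)) (XT.lf (nat_lit 0) (nat_lit 1362332919) (nat_lit 836) (nat_lit 2316889260) (nat_lit 912) (nat_lit 3648012815) (nat_lit 362) (nat_lit 5) (nat_lit 373) (nat_lit 5) (nat_lit 374) (nat_lit 5) (nat_lit 421) (nat_lit 366) (nat_lit 353))) (XT.nd (nat_lit 78) (nat_lit 988) (nat_lit 0) (XT.lf (nat_lit 0) (nat_lit 6290581328) (nat_lit 836) (nat_lit 422330565) (nat_lit 912) (nat_lit 662313523) (nat_lit 362) (nat_lit 5) (nat_lit 373) (nat_lit 5) (nat_lit 374) (nat_lit 5) (nat_lit 422) (nat_lit 366) (nat_lit 352)) (XT.lf (nat_lit 0) (nat_lit 2330088214) (nat_lit 988) (nat_lit 3564609614) (nat_lit 76) (nat_lit 1529649410) (nat_lit 349) (nat_lit 5) (nat_lit 362) (nat_lit 5) (nat_lit 350) (nat_lit 5) (nat_lit 423) (nat_lit 366) (nat_lit 351))))))))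
noncomputable def xc68 : XT := (XT.nd (nat_lit 2184) (nat_lit 6764) (nat_lit 0) (XT.nd (nat_lit 1092) (nat_lit 5928) (nat_lit 0) (XT.nd (nat_lit 546) (nat_lit 2888) (nat_lit 0) (XT.nd (nat_lit 234) (nat_lit 2356) (nat_lit 0) (XT.nd (nat_lit 78) (nat_lit 912) (nat_lit 0) (XT.lf (nat_lit 0) (nat_lit 1395198984) (nat_lit 836) (nat_lit 3941241136) (nat_lit 912) (nat_lit 2138709422) (nat_lit 338) (nat_lit 5) (nat_lit 349) (nat_lit 5) (nat_lit 350) (nat_lit 5) (nat_lit 424) (nat_lit 366) (nat_lit 350)) (XT.nd (nat_lit 78) (nat_lit 836) (nat_lit 0) (XT.lf (nat_lit 0) (nat_lit 832630726) (nat_lit 912) (nat_lit 1089480229) (nat_lit 76) (nat_lit 5605423100) (nat_lit 337) (nat_lit 5) (nat_lit 349) (nat_lit 5) (nat_lit 338) (nat_lit 5) (nat_lit 425) (nat_lit 366) (nat_lit 349)) (XT.lf (nat_lit 0) (nat_lit 3806948559) (nat_lit 912) (nat_lit 3602097307) (nat_lit 76) (nat_lit 172236305) (nat_lit 326) (nat_lit 5) (nat_lit 338)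 (nat_lit 5) (nat_lit 327) (nat_lit 5) (nat_lit 426) (nat_lit 366) (nat_lit 348)))) (XT.nd (nat_lit 156) (nat_lit 1520) (nat_lit 0) (XT.nd (nat_lit 78) (nat_lit 76) (nat_lit 0) (XT.lf (nat_lit 0) (nat_lit 1475393626) (nat_lit 760) (nat_lit 5340883800) (nat_lit 836) (nat_lit 820358914) (nat_lit 316) (nat_lit 5) (nat_lit 326) (nat_lit 5) (nat_lit 327) (nat_lit 5) (nat_lit 427) (nat_lit 366) (nat_lit 347)) (XT.lf (nat_lit 0) (nat_lit 2134411987) (nat_lit 836) (nat_lit 1063326290) (nat_lit 76) (nat_lit 4495705071) (nat_lit 315) (nat_lit 5) (nat_lit 326) (nat_lit 5) (nat_lit 316) (nat_lit 5) (nat_lit 428) (nat_lit 366) (nat_lit 346))) (XT.nd (nat_lit 78) (nat_lit 760) (nat_lit 0) (XT.lf (nat_lit 0) (nat_lit 4126830551) (nat_lit 760) (nat_lit 984465829) (nat_lit 836) (nat_lit 2640540795) (nat_lit 305) (nat_lit 5) (nat_lit 315) (nat_lit 5) (nat_lit 316) (nat_lit 5) (nat_lit 429) (nat_lit 366) (nat_lit 345)) (XT.lf (nat_lit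 0) (nat_lit 305202957) (nat_lit 760) (nat_lit 6236721975) (nat_lit 76) (nat_lit 1270002054) (nat_lit 295) (nat_lit 5) (nat_lit 305) (nat_lit 5) (nat_lit 296) (nat_lit 5) (nat_lit 430) (nat_lit 366) (nat_lit 344))))) (XT.nd (nat_lit 234) (nat_lit 1368) (nat_lit 0) (XT.nd (nat_lit 78) (nat_lit 1520) (nat_lit 0) (XT.lf (nat_lit 0) (nat_lit 3253626615) (nat_lit 760) (nat_lit 1027747337) (nat_lit 76) (nat_lit 3591950048) (nat_lit 295) (nat_lit 5) (nat_lit 305) (nat_lit 5) (nat_lit 296) (nat_lit 5) (nat_lit 431) (nat_lit 366) (nat_lit 343)) (XT.nd (nat_lit 78) (nat_lit 760) (nat_lit 0) (XT.lf (nat_lit 0) (nat_lit 4283342130) (nat_lit 760) (nat_lit 1954587288) (nat_lit 836) (nat_lit 1698517525) (nat_lit 285) (nat_lit 5) (nat_lit 295) (nat_lit 5) (nat_lit 296) (nat_lit 5) (nat_lit 432) (nat_lit 366) (nat_lit 342)) (XT.lf (nat_lit 0) (nat_lit 1234256785) (nat_lit 760) (nat_lit 6335350104) (nat_lit 76) (nat_lit 431694448)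 (nat_lit 275) (nat_lit 5) (nat_lit 285) (nat_lit 5) (nat_lit 276) (nat_lit 5) (nat_lit 433) (nat_lit 366) (nat_lit 341)))) (XT.nd (nat_lit 156) (nat_lit 684) (nat_lit 0) (XT.nd (nat_lit 78) (nat_lit 684) (nat_lit 0) (XT.lf (nat_lit 0) (nat_lit 4190502717) (nat_lit 760) (nat_lit 1009573057) (nat_lit 76) (nat_lit 2867435427) (nat_lit 275) (nat_lit 5) (nat_lit 285) (nat_lit 5) (nat_lit 276) (nat_lit 5) (nat_lit 434) (nat_lit 366) (nat_lit 340)) (XT.lf (nat_lit 0) (nat_lit 4422721743) (nat_lit 684) (nat_lit 2762766222) (nat_lit 760) (nat_lit 949998455) (nat_lit 266) (nat_lit 5) (nat_lit 275) (nat_lit 5) (nat_lit 276) (nat_lit 5) (nat_lit 435) (nat_lit 366) (nat_lit 339))) (XT.nd (nat_lit 78) (nat_lit 0) (nat_lit 0) (XT.lf (nat_lit 0) (nat_lit 1723704974) (nat_lit 608) (nat_lit 254295411) (nat_lit 684) (nat_lit 6227205676) (nat_lit 257) (nat_lit 5) (nat_lit 265) (nat_lit 5) (nat_lit 266) (nat_lit 5) (nat_lit 436) (nat_lit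 366) (nat_lit 338)) (XT.lf (nat_lit 0) (nat_lit 4943545270) (nat_lit 684) (nat_lit 1036861585) (nat_lit 76) (nat_lit 2295985034) (nat_lit 257) (nat_lit 5) (nat_lit 266) (nat_lit 5) (nat_lit 258) (nat_lit 5) (nat_lit 437) (nat_lit 366) (nat_lit 337)))))) (XT.nd (nat_lit 546) (nat_lit 2660) (nat_lit 0) (XT.nd (nat_lit 234) (nat_lit 1900) (nat_lit 0) (XT.nd (nat_lit 78) (nat_lit 684) (nat_lit 0) (XT.lf (nat_lit 0) (nat_lit 4516522031) (nat_lit 684) (nat_lit 3435489037) (nat_lit 760) (nat_lit 397349064) (nat_lit 248) (nat_lit 5) (nat_lit 257) (nat_lit 5) (nat_lit 258) (nat_lit 5) (nat_lit 438) (nat_lit 366) (nat_lit 336)) (XT.nd (nat_lit 78) (nat_lit 0) (nat_lit 0) (XT.lf (nat_lit 0) (nat_lit 1719041900) (nat_lit 608) (nat_lit 814742205) (nat_lit 684) (nat_lit 5890276441) (nat_lit 239) (nat_lit 5) (nat_lit 247) (nat_lit 5) (nat_lit 248) (nat_lit 5) (nat_lit 439) (nat_lit 366) (nat_lit 335)) (XT.lf (nat_lit 0) (nat_lit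 5509479980) (nat_lit 684) (nat_lit 1139179612) (nat_lit 76) (nat_lit 1851746753) (nat_lit 239) (nat_lit 5) (nat_lit 248) (nat_lit 5) (nat_lit 240) (nat_lit 5) (nat_lit 440) (nat_lit 366) (nat_lit 334)))) (XT.nd (nat_lit 156) (nat_lit 684) (nat_lit 0) (XT.nd (nat_lit 78) (nat_lit 608) (nat_lit 0) (XT.lf (nat_lit 0) (nat_lit 4534715141) (nat_lit 608) (nat_lit 3999027146) (nat_lit 684) (nat_lit 44784267) (nat_lit 231) (nat_lit 5) (nat_lit 239) (nat_lit 5) (nat_lit 240) (nat_lit 5) (nat_lit 441) (nat_lit 366) (nat_lit 333)) (XT.lf (nat_lit 0) (nat_lit 1623905443) (nat_lit 532) (nat_lit 1270204286) (nat_lit 608) (nat_lit 5764289398) (nat_lit 223) (nat_lit 5) (nat_lit 230) (nat_lit 5) (nat_lit 231) (nat_lit 5) (nat_lit 442) (nat_lit 366) (nat_lit 332))) (XT.nd (nat_lit 78) (nat_lit 684) (nat_lit 0) (XT.lf (nat_lit 0) (nat_lit 5883181492) (nat_lit 608) (nat_lit 1347901179) (nat_lit 76) (nat_lit 1508967468) (nat_lit 223)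 (nat_lit 5) (nat_lit 231) (nat_lit 5) (nat_lit 224) (nat_lit 5) (nat_lit 443) (nat_lit 366) (nat_lit 331)) (XT.lf (nat_lit 0) (nat_lit 100220607) (nat_lit 684) (nat_lit 4378773075) (nat_lit 76) (nat_lit 4344493312) (nat_lit 214) (nat_lit 5) (nat_lit 223) (nat_lit 5) (nat_lit 215) (nat_lit 5) (nat_lit 444) (nat_lit 366) (nat_lit 330))))) (XT.nd (nat_lit 234) (nat_lit 1520) (nat_lit 0) (XT.nd (nat_lit 78) (nat_lit 608) (nat_lit 0) (XT.lf (nat_lit 0) (nat_lit 1405329044) (nat_lit 532) (nat_lit 1647063189) (nat_lit 608) (nat_lit 5856364142) (nat_lit 207) (nat_lit 5) (nat_lit 214) (nat_lit 5) (nat_lit 215) (nat_lit 5) (nat_lit 445) (nat_lit 366) (nat_lit 329)) (XT.nd (nat_lit 78) (nat_lit 608) (nat_lit 0) (XT.lf (nat_lit 0) (nat_lit 6057585041) (nat_lit 608) (nat_lit 1696527949) (nat_lit 76) (nat_lit 1241763447) (nat_lit 207) (nat_lit 5) (nat_lit 215) (nat_lit 5) (nat_lit 208) (nat_lit 5) (nat_lit 446) (nat_lit 366)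 (nat_lit 328)) (XT.lf (nat_lit 0) (nat_lit 33053608) (nat_lit 608) (nat_lit 4870665478) (nat_lit 76) (nat_lit 4181130526) (nat_lit 199) (nat_lit 5) (nat_lit 207) (nat_lit 5) (nat_lit 200) (nat_lit 5) (nat_lit 447) (nat_lit 366) (nat_lit 327)))) (XT.nd (nat_lit 156) (nat_lit 1064) (nat_lit 0) (XT.nd (nat_lit 78) (nat_lit 0) (nat_lit 0) (XT.lf (nat_lit 0) (nat_lit 1027993866) (nat_lit 456) (nat_lit 1972025016) (nat_lit 532) (nat_lit 6175707600) (nat_lit 193) (nat_lit 5) (nat_lit 199) (nat_lit 5) (nat_lit 200) (nat_lit 5) (nat_lit 448) (nat_lit 366) (nat_lit 326)) (XT.lf (nat_lit 0) (nat_lit 6023580511) (nat_lit 532) (nat_lit 2221033983) (nat_lit 76) (nat_lit 1023884212) (nat_lit 193) (nat_lit 5) (nat_lit 200) (nat_lit 5) (nat_lit 194) (nat_lit 5) (nat_lit 449) (nat_lit 366) (nat_lit 325))) (XT.nd (nat_lit 78) (nat_lit 532) (nat_lit 0) (XT.lf (nat_lit 0) (nat_lit 3805074081) (nat_lit 532) (nat_lit 5298877032) (nat_lit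 608) (nat_lit 259271014) (nat_lit 186) (nat_lit 5) (nat_lit 193) (nat_lit 5) (nat_lit 194) (nat_lit 5) (nat_lit 450) (nat_lit 366) (nat_lit 324)) (XT.lf (nat_lit 0) (nat_lit 453862864) (nat_lit 456) (nat_lit 2272367043) (nat_lit 532) (nat_lit 6733736342) (nat_lit 179) (nat_lit 5) (nat_lit 185) (nat_lit 5) (nat_lit 186) (nat_lit 5) (nat_lit 451) (nat_lit 366) (nat_lit 323))))))) (XT.nd (nat_lit 1092) (nat_lit 3116) (nat_lit 0) (XT.nd (nat_lit 546) (nat_lit 1748) (nat_lit 0) (XT.nd (nat_lit 234) (nat_lit 1368) (nat_lit 0) (XT.nd (nat_lit 78) (nat_lit 532) (nat_lit 0) (XT.lf (nat_lit 0) (nat_lit 5769887669) (nat_lit 532) (nat_lit 2960238282) (nat_lit 76) (nat_lit 828467867) (nat_lit 179) (nat_lit 5) (nat_lit 186) (nat_lit 5) (nat_lit 180) (nat_lit 5) (nat_lit 452) (nat_lit 366) (nat_lit 322)) (XT.nd (nat_lit 78) (nat_lit 76) (nat_lit 0) (XT.lf (nat_lit 0) (nat_lit 3177738901) (nat_lit 456) (nat_lit 5692243508) (nat_lit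 532) (nat_lit 789321047) (nat_lit 173) (nat_lit 5) (nat_lit 179) (nat_lit 5) (nat_lit 180) (nat_lit 5) (nat_lit 453) (nat_lit 366) (nat_lit 321)) (XT.lf (nat_lit 0) (nat_lit 2220305094) (nat_lit 532) (nat_lit 353517326) (nat_lit 76) (nat_lit 7188329569) (nat_lit 172) (nat_lit 5) (nat_lit 179) (nat_lit 5) (nat_lit 173) (nat_lit 5) (nat_lit 454) (nat_lit 366) (nat_lit 320)))) (XT.nd (nat_lit 156) (nat_lit 456) (nat_lit 0) (XT.nd (nat_lit 78) (nat_lit 456) (nat_lit 0) (XT.lf (nat_lit 0) (nat_lit 5282911220) (nat_lit 532) (nat_lit 3956208677) (nat_lit 76) (nat_lit 627785711) (nat_lit 166) (nat_lit 5) (nat_lit 173) (nat_lit 5) (nat_lit 167) (nat_lit 5) (nat_lit 455) (nat_lit 366) (nat_lit 319)) (XT.lf (nat_lit 0) (nat_lit 2289380539) (nat_lit 456) (nat_lit 6112815869) (nat_lit 532) (nat_lit 1571668562) (nat_lit 160) (nat_lit 5) (nat_lit 166) (nat_lit 5) (nat_lit 167) (nat_lit 5) (nat_lit 456) (nat_lit 366) (nat_lit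 318))) (XT.nd (nat_lit 78) (nat_lit 380) (nat_lit 0) (XT.lf (nat_lit 0) (nat_lit 1469207787) (nat_lit 532) (nat_lit 1433881375) (nat_lit 76) (nat_lit 7179938151) (nat_lit 159) (nat_lit 5) (nat_lit 166) (nat_lit 5) (nat_lit 160) (nat_lit 5) (nat_lit 457) (nat_lit 366) (nat_lit 317)) (XT.lf (nat_lit 0) (nat_lit 4546574081) (nat_lit 456) (nat_lit 5254700936) (nat_lit 76) (nat_lit 392973872) (nat_lit 154) (nat_lit 5) (nat_lit 160) (nat_lit 5) (nat_lit 155) (nat_lit 5) (nat_lit 458) (nat_lit 366) (nat_lit 316))))) (XT.nd (nat_lit 234) (nat_lit 836) (nat_lit 0) (XT.nd (nat_lit 78) (nat_lit 456) (nat_lit 0) (XT.lf (nat_lit 0) (nat_lit 1093159274) (nat_lit 456) (nat_lit 6590654172) (nat_lit 532) (nat_lit 2623932682) (nat_lit 148) (nat_lit 5) (nat_lit 154) (nat_lit 5) (nat_lit 155) (nat_lit 5) (nat_lit 459) (nat_lit 366) (nat_lit 315)) (XT.nd (nat_lit 78) (nat_lit 380) (nat_lit 0) (XT.lf (nat_lit 0) (nat_lit 452184265)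 (nat_lit 532) (nat_lit 2841251972) (nat_lit 76) (nat_lit 7130075629) (nat_lit 147) (nat_lit 5) (nat_lit 154) (nat_lit 5) (nat_lit 148) (nat_lit 5) (nat_lit 460) (nat_lit 366) (nat_lit 314)) (XT.lf (nat_lit 0) (nat_lit 3542127122) (nat_lit 456) (nat_lit 6905637351) (nat_lit 76) (nat_lit 93749525) (nat_lit 142) (nat_lit 5) (nat_lit 148) (nat_lit 5) (nat_lit 143) (nat_lit 5) (nat_lit 461) (nat_lit 366) (nat_lit 313)))) (XT.nd (nat_lit 156) (nat_lit 456) (nat_lit 0) (XT.nd (nat_lit 78) (nat_lit 380) (nat_lit 0) (XT.lf (nat_lit 0) (nat_lit 6698320323) (nat_lit 456) (nat_lit 456017109) (nat_lit 76) (nat_lit 3507466106) (nat_lit 142) (nat_lit 5) (nat_lit 148) (nat_lit 5) (nat_lit 143) (nat_lit 5) (nat_lit 462) (nat_lit 366) (nat_lit 312)) (XT.lf (nat_lit 0) (nat_lit 6150667630) (nat_lit 380) (nat_lit 3771068763) (nat_lit 456) (nat_lit 862696570) (nat_lit 137) (nat_lit 5) (nat_lit 142) (nat_lit 5) (nat_lit 143) (nat_lit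 5) (nat_lit 463) (nat_lit 366) (nat_lit 311))) (XT.nd (nat_lit 78) (nat_lit 0) (nat_lit 0) (XT.lf (nat_lit 0) (nat_lit 1944016594) (nat_lit 380) (nat_lit 305902882) (nat_lit 456) (nat_lit 8659712674) (nat_lit 131) (nat_lit 5) (nat_lit 136) (nat_lit 5) (nat_lit 137) (nat_lit 5) (nat_lit 464) (nat_lit 366) (nat_lit 310)) (XT.lf (nat_lit 0) (nat_lit 5430037503) (nat_lit 456) (nat_lit 2400432520) (nat_lit 76) (nat_lit 3206430372) (nat_lit 131) (nat_lit 5) (nat_lit 137) (nat_lit 5) (nat_lit 132) (nat_lit 5) (nat_lit 465) (nat_lit 366) (nat_lit 309)))))) (XT.nd (nat_lit 546) (nat_lit 1596) (nat_lit 0) (XT.nd (nat_lit 234) (nat_lit 760) (nat_lit 0) (XT.nd (nat_lit 78) (nat_lit 380) (nat_lit 0) (XT.lf (nat_lit 0) (nat_lit 4298438392) (nat_lit 380) (nat_lit 4370476642) (nat_lit 456) (nat_lit 2497910677) (nat_lit 126) (nat_lit 5) (nat_lit 131) (nat_lit 5) (nat_lit 132) (nat_lit 5) (nat_lit 466) (nat_lit 366) (nat_lit 308))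 (XT.nd (nat_lit 78) (nat_lit 304) (nat_lit 0) (XT.lf (nat_lit 0) (nat_lit 645933348) (nat_lit 456) (nat_lit 191777736) (nat_lit 76) (nat_lit 10461934460) (nat_lit 125) (nat_lit 5) (nat_lit 131) (nat_lit 5) (nat_lit 126) (nat_lit 5) (nat_lit 467) (nat_lit 366) (nat_lit 307)) (XT.lf (nat_lit 0) (nat_lit 3846583561) (nat_lit 380) (nat_lit 4815062547) (nat_lit 76) (nat_lit 2772611909) (nat_lit 121) (nat_lit 5) (nat_lit 126) (nat_lit 5) (nat_lit 122) (nat_lit 5) (nat_lit 468) (nat_lit 366) (nat_lit 306)))) (XT.nd (nat_lit 156) (nat_lit 380) (nat_lit 0) (XT.nd (nat_lit 78) (nat_lit 0) (nat_lit 0) (XT.lf (nat_lit 0) (nat_lit 1966367460) (nat_lit 380) (nat_lit 5130722838) (nat_lit 456) (nat_lit 4474769289) (nat_lit 116) (nat_lit 5) (nat_lit 121) (nat_lit 5) (nat_lit 122) (nat_lit 5) (nat_lit 469) (nat_lit 366) (nat_lit 305)) (XT.lf (nat_lit 0) (nat_lit 8897716852) (nat_lit 380) (nat_lit 1513766377) (nat_lit 456) (nat_lit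 1300765888) (nat_lit 116) (nat_lit 5) (nat_lit 121) (nat_lit 5) (nat_lit 122) (nat_lit 5) (nat_lit 470) (nat_lit 366) (nat_lit 304))) (XT.nd (nat_lit 78) (nat_lit 0) (nat_lit 0) (XT.lf (nat_lit 0) (nat_lit 1919218451) (nat_lit 380) (nat_lit 7766552912) (nat_lit 76) (nat_lit 2169278487) (nat_lit 111) (nat_lit 5) (nat_lit 116) (nat_lit 5) (nat_lit 112) (nat_lit 5) (nat_lit 471) (nat_lit 366) (nat_lit 303)) (XT.lf (nat_lit 0) (nat_lit 5182437412) (nat_lit 380) (nat_lit 902007072) (nat_lit 76) (nat_lit 5916177784) (nat_lit 111) (nat_lit 5) (nat_lit 116) (nat_lit 5) (nat_lit 112) (nat_lit 5) (nat_lit 472) (nat_lit 366) (nat_lit 302))))) (XT.nd (nat_lit 312) (nat_lit 608) (nat_lit 0) (XT.nd (nat_lit 156) (nat_lit 380) (nat_lit 0) (XT.nd (nat_lit 78) (nat_lit 304) (nat_lit 0) (XT.lf (nat_lit 0) (nat_lit 6130574150) (nat_lit 304) (nat_lit 2387992407) (nat_lit 380) (nat_lit 3630399086) (nat_lit 107) (nat_lit 5) (nat_lit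 111) (nat_lit 5) (nat_lit 112) (nat_lit 5) (nat_lit 473) (nat_lit 366) (nat_lit 301)) (XT.lf (nat_lit 0) (nat_lit 969713583) (nat_lit 304) (nat_lit 10941107916) (nat_lit 380) (nat_lit 389678504) (nat_lit 103) (nat_lit 5) (nat_lit 107) (nat_lit 5) (nat_lit 108) (nat_lit 5) (nat_lit 474) (nat_lit 366) (nat_lit 300))) (XT.nd (nat_lit 78) (nat_lit 304) (nat_lit 0) (XT.lf (nat_lit 0) (nat_lit 2902205453) (nat_lit 380) (nat_lit 4360084624) (nat_lit 76) (nat_lit 5191916229) (nat_lit 102) (nat_lit 5) (nat_lit 107) (nat_lit 5) (nat_lit 103) (nat_lit 5) (nat_lit 475) (nat_lit 366) (nat_lit 299)) (XT.lf (nat_lit 0) (nat_lit 2734316219) (nat_lit 304) (nat_lit 3506898392) (nat_lit 380) (nat_lit 6370001983) (nat_lit 98) (nat_lit 5) (nat_lit 102) (nat_lit 5) (nat_lit 103) (nat_lit 5) (nat_lit 476) (nat_lit 366) (nat_lit 298)))) (XT.nd (nat_lit 156) (nat_lit 304) (nat_lit 0) (XT.nd (nat_lit 78) (nat_lit 304) (nat_lit 0) (XT.lf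 (nat_lit 0) (nat_lit 9647486403) (nat_lit 380) (nat_lit 2792557926) (nat_lit 76) (nat_lit 331324363) (nat_lit 98) (nat_lit 5) (nat_lit 103) (nat_lit 5) (nat_lit 99) (nat_lit 5) (nat_lit 477) (nat_lit 366) (nat_lit 297)) (XT.lf (nat_lit 0) (nat_lit 206296828) (nat_lit 304) (nat_lit 8515670912) (nat_lit 76) (nat_lit 4212310773) (nat_lit 94) (nat_lit 5) (nat_lit 98) (nat_lit 5) (nat_lit 95) (nat_lit 5) (nat_lit 478) (nat_lit 366) (nat_lit 296))) (XT.nd (nat_lit 78) (nat_lit 304) (nat_lit 0) (XT.lf (nat_lit 0) (nat_lit 3549767634) (nat_lit 304) (nat_lit 1357354568) (nat_lit 76) (nat_lit 8193151618) (nat_lit 94) (nat_lit 5) (nat_lit 98) (nat_lit 5) (nat_lit 95) (nat_lit 5) (nat_lit 479) (nat_lit 366) (nat_lit 295)) (XT.lf (nat_lit 0) (nat_lit 5975119278) (nat_lit 304) (nat_lit 993992970) (nat_lit 380) (nat_lit 6300307095) (nat_lit 90) (nat_lit 5) (nat_lit 94) (nat_lit 5) (nat_lit 95) (nat_lit 5) (nat_lit 480) (nat_lit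 366) (nat_lit 294))))))))
noncomputable def xc69 : XT := (XT.nd (nat_lit 2184) (nat_lit 1444) (nat_lit 0) (XT.nd (nat_lit 1092) (nat_lit 1596) (nat_lit 0) (XT.nd (nat_lit 546) (nat_lit 760) (nat_lit 0) (XT.nd (nat_lit 234) (nat_lit 532) (nat_lit 0) (XT.nd (nat_lit 78) (nat_lit 608) (nat_lit 0) (XT.lf (nat_lit 0) (nat_lit 10455848308) (nat_lit 380) (nat_lit 36193523) (nat_lit 76) (nat_lit 2949936047) (nat_lit 90) (nat_lit 5) (nat_lit 95) (nat_lit 5) (nat_lit 91) (nat_lit 5) (nat_lit 481) (nat_lit 366) (nat_lit 293)) (XT.nd (nat_lit 78) (nat_lit 304) (nat_lit 0) (XT.lf (nat_lit 0) (nat_lit 414975617) (nat_lit 304) (nat_lit 6209140657) (nat_lit 76) (nat_lit 6993313586) (nat_lit 86) (nat_lit 5) (nat_lit 90) (nat_lit 5) (nat_lit 87) (nat_lit 5) (nat_lit 482) (nat_lit 366) (nat_lit 292)) (XT.lf (nat_lit 0) (nat_lit 1154425299) (nat_lit 304) (nat_lit 2668494542) (nat_lit 380) (nat_lit 9973509854) (nat_lit 82) (nat_lit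 5) (nat_lit 86) (nat_lit 5) (nat_lit 87) (nat_lit 5) (nat_lit 483) (nat_lit 366) (nat_lit 291)))) (XT.nd (nat_lit 156) (nat_lit 304) (nat_lit 0) (XT.nd (nat_lit 78) (nat_lit 228) (nat_lit 0) (XT.lf (nat_lit 0) (nat_lit 7321012150) (nat_lit 380) (nat_lit 5284759118) (nat_lit 76) (nat_lit 1372807892) (nat_lit 82) (nat_lit 5) (nat_lit 87) (nat_lit 5) (nat_lit 83) (nat_lit 5) (nat_lit 484) (nat_lit 366) (nat_lit 290)) (XT.lf (nat_lit 0) (nat_lit 2184664553) (nat_lit 228) (nat_lit 8707999492) (nat_lit 304) (nat_lit 3271644847) (nat_lit 79) (nat_lit 5) (nat_lit 82) (nat_lit 5) (nat_lit 83) (nat_lit 5) (nat_lit 485) (nat_lit 366) (nat_lit 289))) (XT.nd (nat_lit 78) (nat_lit 228) (nat_lit 0) (XT.lf (nat_lit 0) (nat_lit 187111894) (nat_lit 304) (nat_lit 4525375368) (nat_lit 76) (nat_lit 9641101138) (nat_lit 78) (nat_lit 5) (nat_lit 82) (nat_lit 5) (nat_lit 79) (nat_lit 5) (nat_lit 486) (nat_lit 366) (nat_lit 288)) (XT.lf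 (nat_lit 0) (nat_lit 3051204134) (nat_lit 228) (nat_lit 612241221) (nat_lit 304) (nat_lit 10882940152) (nat_lit 75) (nat_lit 5) (nat_lit 78) (nat_lit 5) (nat_lit 79) (nat_lit 5) (nat_lit 487) (nat_lit 366) (nat_lit 287))))) (XT.nd (nat_lit 234) (nat_lit 532) (nat_lit 0) (XT.nd (nat_lit 78) (nat_lit 228) (nat_lit 0) (XT.lf (nat_lit 0) (nat_lit 7235548379) (nat_lit 304) (nat_lit 3970424988) (nat_lit 76) (nat_lit 3536548861) (nat_lit 75) (nat_lit 5) (nat_lit 79) (nat_lit 5) (nat_lit 76) (nat_lit 5) (nat_lit 488) (nat_lit 366) (nat_lit 286)) (XT.nd (nat_lit 78) (nat_lit 0) (nat_lit 0) (XT.lf (nat_lit 0) (nat_lit 3704979412) (nat_lit 228) (nat_lit 7175258379) (nat_lit 304) (nat_lit 4062329368) (nat_lit 72) (nat_lit 5) (nat_lit 75) (nat_lit 5) (nat_lit 76) (nat_lit 5) (nat_lit 489) (nat_lit 366) (nat_lit 285)) (XT.lf (nat_lit 0) (nat_lit 11543620051) (nat_lit 228) (nat_lit 3054121610) (nat_lit 304) (nat_lit 548881112)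 (nat_lit 72) (nat_lit 5) (nat_lit 75) (nat_lit 5) (nat_lit 76) (nat_lit 5) (nat_lit 490) (nat_lit 366) (nat_lit 284)))) (XT.nd (nat_lit 156) (nat_lit 228) (nat_lit 0) (XT.nd (nat_lit 78) (nat_lit 0) (nat_lit 0) (XT.lf (nat_lit 0) (nat_lit 3003426238) (nat_lit 304) (nat_lit 11186270290) (nat_lit 76) (nat_lit 1164508918) (nat_lit 68) (nat_lit 5) (nat_lit 72) (nat_lit 5) (nat_lit 69) (nat_lit 5) (nat_lit 491) (nat_lit 366) (nat_lit 283)) (XT.lf (nat_lit 0) (nat_lit 6637745550) (nat_lit 304) (nat_lit 3490064230) (nat_lit 76) (nat_lit 5437698846) (nat_lit 68) (nat_lit 5) (nat_lit 72) (nat_lit 5) (nat_lit 69) (nat_lit 5) (nat_lit 492) (nat_lit 366) (nat_lit 282))) (XT.nd (nat_lit 78) (nat_lit 0) (nat_lit 0) (XT.lf (nat_lit 0) (nat_lit 4374578153) (nat_lit 228) (nat_lit 5972834903) (nat_lit 304) (nat_lit 5433579153) (nat_lit 65) (nat_lit 5) (nat_lit 68) (nat_lit 5) (nat_lit 69) (nat_lit 5) (nat_lit 493) (nat_lit 366)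 (nat_lit 281)) (XT.lf (nat_lit 0) (nat_lit 12401242932) (nat_lit 228) (nat_lit 1727938564) (nat_lit 304) (nat_lit 1871653242) (nat_lit 65) (nat_lit 5) (nat_lit 68) (nat_lit 5) (nat_lit 69) (nat_lit 5) (nat_lit 494) (nat_lit 366) (nat_lit 280)))))) (XT.nd (nat_lit 546) (nat_lit 684) (nat_lit 0) (XT.nd (nat_lit 234) (nat_lit 456) (nat_lit 0) (XT.nd (nat_lit 78) (nat_lit 152) (nat_lit 0) (XT.lf (nat_lit 0) (nat_lit 1758624478) (nat_lit 304) (nat_lit 11874716489) (nat_lit 76) (nat_lit 2591107232) (nat_lit 61) (nat_lit 5) (nat_lit 65) (nat_lit 5) (nat_lit 62) (nat_lit 5) (nat_lit 495) (nat_lit 366) (nat_lit 279)) (XT.nd (nat_lit 78) (nat_lit 152) (nat_lit 0) (XT.lf (nat_lit 0) (nat_lit 5447155996) (nat_lit 304) (nat_lit 4011420172) (nat_lit 76) (nat_lit 6993503131) (nat_lit 61) (nat_lit 5) (nat_lit 65) (nat_lit 5) (nat_lit 62) (nat_lit 5) (nat_lit 496) (nat_lit 366) (nat_lit 278)) (XT.lf (nat_lit 0) (nat_lit 4020492997)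 (nat_lit 152) (nat_lit 5190488294) (nat_lit 228) (nat_lit 7473258129) (nat_lit 59) (nat_lit 5) (nat_lit 61) (nat_lit 5) (nat_lit 62) (nat_lit 5) (nat_lit 497) (nat_lit 366) (nat_lit 277)))) (XT.nd (nat_lit 156) (nat_lit 228) (nat_lit 0) (XT.nd (nat_lit 78) (nat_lit 228) (nat_lit 0) (XT.lf (nat_lit 0) (nat_lit 12226313951) (nat_lit 152) (nat_lit 826322403) (nat_lit 228) (nat_lit 3868362048) (nat_lit 59) (nat_lit 5) (nat_lit 61) (nat_lit 5) (nat_lit 62) (nat_lit 5) (nat_lit 498) (nat_lit 366) (nat_lit 276)) (XT.lf (nat_lit 0) (nat_lit 3414323381) (nat_lit 228) (nat_lit 13578511631) (nat_lit 304) (nat_lit 169229936) (nat_lit 56) (nat_lit 5) (nat_lit 59) (nat_lit 5) (nat_lit 60) (nat_lit 5) (nat_lit 499) (nat_lit 366) (nat_lit 275))) (XT.nd (nat_lit 78) (nat_lit 152) (nat_lit 0) (XT.lf (nat_lit 0) (nat_lit 3569853908) (nat_lit 304) (nat_lit 5727988590) (nat_lit 76) (nat_lit 8109383994) (nat_lit 55) (nat_lit 5) (nat_lit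 59) (nat_lit 5) (nat_lit 56) (nat_lit 5) (nat_lit 500) (nat_lit 366) (nat_lit 274)) (XT.lf (nat_lit 0) (nat_lit 2443144610) (nat_lit 152) (nat_lit 4930692988) (nat_lit 228) (nat_lit 10283589826) (nat_lit 53) (nat_lit 5) (nat_lit 55) (nat_lit 5) (nat_lit 56) (nat_lit 5) (nat_lit 501) (nat_lit 366) (nat_lit 273))))) (XT.nd (nat_lit 234) (nat_lit 380) (nat_lit 0) (XT.nd (nat_lit 78) (nat_lit 304) (nat_lit 0) (XT.lf (nat_lit 0) (nat_lit 10815671217) (nat_lit 152) (nat_lit 453389901) (nat_lit 228) (nat_lit 6643274144) (nat_lit 53) (nat_lit 5) (nat_lit 55) (nat_lit 5) (nat_lit 56) (nat_lit 5) (nat_lit 502) (nat_lit 366) (nat_lit 272)) (XT.nd (nat_lit 78) (nat_lit 76) (nat_lit 0) (XT.lf (nat_lit 0) (nat_lit 1132194966) (nat_lit 228) (nat_lit 14121126808) (nat_lit 304) (nat_lit 2918802804) (nat_lit 50) (nat_lit 5) (nat_lit 53) (nat_lit 5) (nat_lit 54) (nat_lit 5) (nat_lit 503) (nat_lit 366) (nat_lit 271)) (XT.lf (nat_lit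 0) (nat_lit 896669276) (nat_lit 304) (nat_lit 8862666849) (nat_lit 76) (nat_lit 8677103907) (nat_lit 49) (nat_lit 5) (nat_lit 53) (nat_lit 5) (nat_lit 50) (nat_lit 5) (nat_lit 504) (nat_lit 366) (nat_lit 270)))) (XT.nd (nat_lit 156) (nat_lit 228) (nat_lit 0) (XT.nd (nat_lit 78) (nat_lit 152) (nat_lit 0) (XT.lf (nat_lit 0) (nat_lit 4726967729) (nat_lit 304) (nat_lit 579723351) (nat_lit 76) (nat_lit 13399418482) (nat_lit 49) (nat_lit 5) (nat_lit 53) (nat_lit 5) (nat_lit 50) (nat_lit 5) (nat_lit 505) (nat_lit 366) (nat_lit 269)) (XT.lf (nat_lit 0) (nat_lit 7935171094) (nat_lit 152) (nat_lit 728224557) (nat_lit 228) (nat_lit 10317191881) (nat_lit 47) (nat_lit 5) (nat_lit 49) (nat_lit 5) (nat_lit 50) (nat_lit 5) (nat_lit 506) (nat_lit 366) (nat_lit 268))) (XT.nd (nat_lit 78) (nat_lit 228) (nat_lit 0) (XT.lf (nat_lit 0) (nat_lit 12686149668) (nat_lit 228) (nat_lit 2695744233) (nat_lit 76) (nat_lit 3878514618) (nat_lit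 47) (nat_lit 5) (nat_lit 50) (nat_lit 5) (nat_lit 48) (nat_lit 5) (nat_lit 507) (nat_lit 366) (nat_lit 267)) (XT.lf (nat_lit 0) (nat_lit 5855770682) (nat_lit 228) (nat_lit 10954948613) (nat_lit 304) (nat_lit 2734684722) (nat_lit 44) (nat_lit 5) (nat_lit 47) (nat_lit 5) (nat_lit 48) (nat_lit 5) (nat_lit 508) (nat_lit 366) (nat_lit 266))))))) (XT.nd (nat_lit 1092) (nat_lit 304) (nat_lit 0) (XT.nd (nat_lit 546) (nat_lit 532) (nat_lit 0) (XT.nd (nat_lit 234) (nat_lit 380) (nat_lit 0) (XT.nd (nat_lit 78) (nat_lit 152) (nat_lit 0) (XT.lf (nat_lit 0) (nat_lit 1162946448) (nat_lit 304) (nat_lit 5265845652) (nat_lit 76) (nat_lit 13407223706) (nat_lit 43) (nat_lit 5) (nat_lit 47) (nat_lit 5) (nat_lit 44) (nat_lit 5) (nat_lit 509) (nat_lit 366) (nat_lit 265)) (XT.nd (nat_lit 78) (nat_lit 0) (nat_lit 0) (XT.lf (nat_lit 0) (nat_lit 3315344127) (nat_lit 152) (nat_lit 1787102694) (nat_lit 228) (nat_lit 15029625802) (nat_lit 41)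 (nat_lit 5) (nat_lit 43) (nat_lit 5) (nat_lit 44) (nat_lit 5) (nat_lit 510) (nat_lit 366) (nat_lit 264)) (XT.lf (nat_lit 0) (nat_lit 9154496291) (nat_lit 228) (nat_lit 8349703738) (nat_lit 76) (nat_lit 2929180265) (nat_lit 41) (nat_lit 5) (nat_lit 44) (nat_lit 5) (nat_lit 42) (nat_lit 5) (nat_lit 511) (nat_lit 366) (nat_lit 263)))) (XT.nd (nat_lit 156) (nat_lit 228) (nat_lit 0) (XT.nd (nat_lit 78) (nat_lit 0) (nat_lit 0) (XT.lf (nat_lit 0) (nat_lit 242192110) (nat_lit 152) (nat_lit 13038264840) (nat_lit 228) (nat_lit 7460404568) (nat_lit 39) (nat_lit 5) (nat_lit 41) (nat_lit 5) (nat_lit 42) (nat_lit 5) (nat_lit 512) (nat_lit 366) (nat_lit 262)) (XT.lf (nat_lit 0) (nat_lit 9083533225) (nat_lit 152) (nat_lit 8441068834) (nat_lit 228) (nat_lit 3529181710) (nat_lit 39) (nat_lit 5) (nat_lit 41) (nat_lit 5) (nat_lit 42) (nat_lit 5) (nat_lit 513) (nat_lit 366) (nat_lit 261))) (XT.nd (nat_lit 78) (nat_lit 152) (nat_lit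 0) (XT.lf (nat_lit 0) (nat_lit 454258461) (nat_lit 228) (nat_lit 3309533323) (nat_lit 76) (nat_lit 17609516854) (nat_lit 38) (nat_lit 5) (nat_lit 41) (nat_lit 5) (nat_lit 39) (nat_lit 5) (nat_lit 514) (nat_lit 366) (nat_lit 260)) (XT.lf (nat_lit 0) (nat_lit 4493246664) (nat_lit 228) (nat_lit 16166057442) (nat_lit 76) (nat_lit 1038995079) (nat_lit 36) (nat_lit 5) (nat_lit 39) (nat_lit 5) (nat_lit 37) (nat_lit 5) (nat_lit 515) (nat_lit 366) (nat_lit 259))))) (XT.nd (nat_lit 234) (nat_lit 380) (nat_lit 0) (XT.nd (nat_lit 78) (nat_lit 152) (nat_lit 0) (XT.lf (nat_lit 0) (nat_lit 8640656061) (nat_lit 228) (nat_lit 7493237498) (nat_lit 76) (nat_lit 5895347505) (nat_lit 36) (nat_lit 5) (nat_lit 39) (nat_lit 5) (nat_lit 37) (nat_lit 5) (nat_lit 516) (nat_lit 366) (nat_lit 258)) (XT.nd (nat_lit 78) (nat_lit 0) (nat_lit 0) (XT.lf (nat_lit 0) (nat_lit 1336714025) (nat_lit 152) (nat_lit 11523723424) (nat_lit 228) (nat_lit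 9506580119) (nat_lit 34) (nat_lit 5) (nat_lit 36) (nat_lit 5) (nat_lit 37) (nat_lit 5) (nat_lit 517) (nat_lit 366) (nat_lit 257)) (XT.lf (nat_lit 0) (nat_lit 10411204059) (nat_lit 152) (nat_lit 6784598123) (nat_lit 228) (nat_lit 5515127848) (nat_lit 34) (nat_lit 5) (nat_lit 36) (nat_lit 5) (nat_lit 37) (nat_lit 5) (nat_lit 518) (nat_lit 366) (nat_lit 256)))) (XT.nd (nat_lit 156) (nat_lit 152) (nat_lit 0) (XT.nd (nat_lit 78) (nat_lit 228) (nat_lit 0) (XT.lf (nat_lit 0) (nat_lit 19634210043) (nat_lit 152) (nat_lit 1964942745) (nat_lit 228) (nat_lit 1462946481) (nat_lit 34) (nat_lit 5) (nat_lit 36) (nat_lit 5) (nat_lit 37) (nat_lit 5) (nat_lit 519) (nat_lit 366) (nat_lit 255)) (XT.lf (nat_lit 0) (nat_lit 2672858454) (nat_lit 228) (nat_lit 17793500059) (nat_lit 76) (nat_lit 2952838554) (nat_lit 31) (nat_lit 5) (nat_lit 34) (nat_lit 5) (nat_lit 32) (nat_lit 5) (nat_lit 520) (nat_lit 366) (nat_lit 254))) (XT.nd (nat_lit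 78) (nat_lit 152) (nat_lit 0) (XT.lf (nat_lit 0) (nat_lit 6889558344) (nat_lit 228) (nat_lit 8931651244) (nat_lit 76) (nat_lit 7961682338) (nat_lit 31) (nat_lit 5) (nat_lit 34) (nat_lit 5) (nat_lit 32) (nat_lit 5) (nat_lit 521) (nat_lit 366) (nat_lit 253)) (XT.lf (nat_lit 0) (nat_lit 76435241) (nat_lit 152) (nat_lit 11096595664) (nat_lit 228) (nat_lit 12981184792) (nat_lit 29) (nat_lit 5) (nat_lit 31) (nat_lit 5) (nat_lit 32) (nat_lit 5) (nat_lit 522) (nat_lit 366) (nat_lit 252)))))) (XT.nd (nat_lit 546) (nat_lit 0) (nat_lit 0) (XT.nd (nat_lit 234) (nat_lit 228) (nat_lit 0) (XT.nd (nat_lit 78) (nat_lit 76) (nat_lit 0) (XT.lf (nat_lit 0) (nat_lit 9353963113) (nat_lit 152) (nat_lit 6230235954) (nat_lit 228) (nat_lit 8947930068) (nat_lit 29) (nat_lit 5) (nat_lit 31) (nat_lit 5) (nat_lit 32) (nat_lit 5) (nat_lit 523) (nat_lit 366) (nat_lit 251)) (XT.nd (nat_lit 78) (nat_lit 76) (nat_lit 0) (XT.lf (nat_lit 0) (nat_lit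 18785873670) (nat_lit 152) (nat_lit 1280158161) (nat_lit 228) (nat_lit 4851923822) (nat_lit 29) (nat_lit 5) (nat_lit 31) (nat_lit 5) (nat_lit 32) (nat_lit 5) (nat_lit 524) (nat_lit 366) (nat_lit 250)) (XT.lf (nat_lit 0) (nat_lit 3080030585) (nat_lit 76) (nat_lit 21584637509) (nat_lit 152) (nat_lit 646290842) (nat_lit 28) (nat_lit 5) (nat_lit 29) (nat_lit 5) (nat_lit 30) (nat_lit 4) (nat_lit 525) (nat_lit 366) (nat_lit 249)))) (XT.nd (nat_lit 156) (nat_lit 152) (nat_lit 0) (XT.nd (nat_lit 78) (nat_lit 0) (nat_lit 0) (XT.lf (nat_lit 0) (nat_lit 3628292379) (nat_lit 152) (nat_lit 13214746270) (nat_lit 76) (nat_lit 8867661508) (nat_lit 27) (nat_lit 5) (nat_lit 29) (nat_lit 5) (nat_lit 28) (nat_lit 5) (nat_lit 526) (nat_lit 366) (nat_lit 248)) (XT.lf (nat_lit 0) (nat_lit 7962782567) (nat_lit 152) (nat_lit 4052764010) (nat_lit 76) (nat_lit 14103146165) (nat_lit 27) (nat_lit 5) (nat_lit 29) (nat_lit 5) (nat_lit 28) (nat_lit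 5) (nat_lit 527) (nat_lit 366) (nat_lit 247))) (XT.nd (nat_lit 78) (nat_lit 0) (nat_lit 0) (XT.lf (nat_lit 0) (nat_lit 5332747452) (nat_lit 152) (nat_lit 7069232023) (nat_lit 228) (nat_lit 14132508663) (nat_lit 25) (nat_lit 5) (nat_lit 27) (nat_lit 5) (nat_lit 28) (nat_lit 5) (nat_lit 528) (nat_lit 366) (nat_lit 246)) (XT.lf (nat_lit 0) (nat_lit 14931450111) (nat_lit 152) (nat_lit 2009233953) (nat_lit 228) (nat_lit 10017704134) (nat_lit 25) (nat_lit 5) (nat_lit 27) (nat_lit 5) (nat_lit 28) (nat_lit 5) (nat_lit 529) (nat_lit 366) (nat_lit 245))))) (XT.nd (nat_lit 49920) (nat_lit 0) (nat_lit 34428) (XT.nd (nat_lit 49764) (nat_lit 0) (nat_lit 38380) (XT.nd (nat_lit 49686) (nat_lit 0) (nat_lit 39596) (XT.lf (nat_lit 0) (nat_lit 21574395299) (nat_lit 228) (nat_lit 2718225357) (nat_lit 76) (nat_lit 3098064122) (nat_lit 25) (nat_lit 5) (nat_lit 28) (nat_lit 5) (nat_lit 26) (nat_lit 4) (nat_lit 530) (nat_lit 366) (nat_lit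 244)) (XT.lf (nat_lit 0) (nat_lit 665765966) (nat_lit 1140) (nat_lit 2059316686) (nat_lit 0) (nat_lit 665765966) (nat_lit 546) (nat_lit 5) (nat_lit 561) (nat_lit 4) (nat_lit 546) (nat_lit 4) (nat_lit 406) (nat_lit 367) (nat_lit 367))) (XT.nd (nat_lit 78) (nat_lit 76) (nat_lit 0) (XT.lf (nat_lit 0) (nat_lit 160416345) (nat_lit 1140) (nat_lit 4320980139) (nat_lit 1140) (nat_lit 2327461246) (nat_lit 531) (nat_lit 4) (nat_lit 546) (nat_lit 5) (nat_lit 546) (nat_lit 4) (nat_lit 407) (nat_lit 367) (nat_lit 366)) (XT.lf (nat_lit 0) (nat_lit 806208081) (nat_lit 1216) (nat_lit 2319408855) (nat_lit 76) (nat_lit 3711706145) (nat_lit 530) (nat_lit 5) (nat_lit 546) (nat_lit 5) (nat_lit 531) (nat_lit 4) (nat_lit 408) (nat_lit 367) (nat_lit 365)))) (XT.nd (nat_lit 156) (nat_lit 2660) (nat_lit 0) (XT.nd (nat_lit 78) (nat_lit 76) (nat_lit 0) (XT.lf (nat_lit 0) (nat_lit 2050303688) (nat_lit 1216) (nat_lit 1867696804) (nat_lit 1292)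 (nat_lit 2949184155) (nat_lit 514) (nat_lit 5) (nat_lit 530) (nat_lit 5) (nat_lit 531) (nat_lit 4) (nat_lit 409) (nat_lit 367) (nat_lit 364)) (XT.lf (nat_lit 0) (nat_lit 141214666) (nat_lit 1292) (nat_lit 417791466) (nat_lit 76) (nat_lit 6339688782) (nat_lit 513) (nat_lit 5) (nat_lit 530) (nat_lit 5) (nat_lit 514) (nat_lit 5) (nat_lit 410) (nat_lit 367) (nat_lit 363))) (XT.nd (nat_lit 78) (nat_lit 1368) (nat_lit 0) (XT.lf (nat_lit 0) (nat_lit 3220642964) (nat_lit 1368) (nat_lit 2890671796) (nat_lit 76) (nat_lit 819859550) (nat_lit 496) (nat_lit 5) (nat_lit 514) (nat_lit 5) (nat_lit 497) (nat_lit 4) (nat_lit 411) (nat_lit 367) (nat_lit 362)) (XT.lf (nat_lit 0) (nat_lit 1588665483) (nat_lit 1368) (nat_lit 4725801741) (nat_lit 1444) (nat_lit 650841713) (nat_lit 478) (nat_lit 5) (nat_lit 496) (nat_lit 5) (nat_lit 497) (nat_lit 4) (nat_lit 412) (nat_lit 367) (nat_lit 361))))))))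
noncomputable def xc70 : XT := (XT.nd (nat_lit 2184) (nat_lit 8968) (nat_lit 0) (XT.nd (nat_lit 1092) (nat_lit 6612) (nat_lit 0) (XT.nd (nat_lit 546) (nat_lit 5092) (nat_lit 0) (XT.nd (nat_lit 234) (nat_lit 3344) (nat_lit 0) (XT.nd (nat_lit 78) (nat_lit 3040) (nat_lit 0) (XT.lf (nat_lit 0) (nat_lit 2393546136) (nat_lit 1444) (nat_lit 877483081) (nat_lit 76) (nat_lit 3729717699) (nat_lit 477) (nat_lit 5) (nat_lit 496) (nat_lit 5) (nat_lit 478) (nat_lit 5) (nat_lit 413) (nat_lit 367) (nat_lit 360)) (XT.nd (nat_lit 78) (nat_lit 1596) (nat_lit 0) (XT.lf (nat_lit 0) (nat_lit 3698650427) (nat_lit 1444) (nat_lit 1753099444) (nat_lit 1520) (nat_lit 1585883113) (nat_lit 458) (nat_lit 5) (nat_lit 477) (nat_lit 5) (nat_lit 478) (nat_lit 5) (nat_lit 414) (nat_lit 367) (nat_lit 359)) (XT.lf (nat_lit 0) (nat_lit 1252019736) (nat_lit 1520) (nat_lit 176290002) (nat_lit 1596) (nat_lit 5647767412) (nat_lit 437) (nat_lit 5) (nat_lit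 457) (nat_lit 5) (nat_lit 458) (nat_lit 5) (nat_lit 415) (nat_lit 367) (nat_lit 358)))) (XT.nd (nat_lit 156) (nat_lit 1672) (nat_lit 0) (XT.nd (nat_lit 78) (nat_lit 1672) (nat_lit 0) (XT.lf (nat_lit 0) (nat_lit 4452302893) (nat_lit 1596) (nat_lit 1213322577) (nat_lit 76) (nat_lit 1450094916) (nat_lit 437) (nat_lit 5) (nat_lit 458) (nat_lit 5) (nat_lit 438) (nat_lit 5) (nat_lit 416) (nat_lit 367) (nat_lit 357)) (XT.lf (nat_lit 0) (nat_lit 339151955) (nat_lit 1672) (nat_lit 3682594773) (nat_lit 76) (nat_lit 3135142585) (nat_lit 415) (nat_lit 5) (nat_lit 437) (nat_lit 5) (nat_lit 416) (nat_lit 5) (nat_lit 417) (nat_lit 367) (nat_lit 356))) (XT.nd (nat_lit 78) (nat_lit 0) (nat_lit 0) (XT.lf (nat_lit 0) (nat_lit 1011009300) (nat_lit 1672) (nat_lit 2310331835) (nat_lit 1748) (nat_lit 3878135454) (nat_lit 393) (nat_lit 5) (nat_lit 415) (nat_lit 5) (nat_lit 416) (nat_lit 5) (nat_lit 418) (nat_lit 367) (nat_lit 355)) (XT.lf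 (nat_lit 0) (nat_lit 5790835296) (nat_lit 1672) (nat_lit 538283127) (nat_lit 1748) (nat_lit 914528991) (nat_lit 393) (nat_lit 5) (nat_lit 415) (nat_lit 5) (nat_lit 416) (nat_lit 5) (nat_lit 419) (nat_lit 367) (nat_lit 354))))) (XT.nd (nat_lit 234) (nat_lit 2660) (nat_lit 0) (XT.nd (nat_lit 78) (nat_lit 912) (nat_lit 0) (XT.lf (nat_lit 0) (nat_lit 2052886448) (nat_lit 1520) (nat_lit 3947132405) (nat_lit 76) (nat_lit 1289013983) (nat_lit 373) (nat_lit 5) (nat_lit 393) (nat_lit 5) (nat_lit 374) (nat_lit 5) (nat_lit 420) (nat_lit 367) (nat_lit 353)) (XT.nd (nat_lit 78) (nat_lit 76) (nat_lit 0) (XT.lf (nat_lit 0) (nat_lit 860591283) (nat_lit 836) (nat_lit 4168516106) (nat_lit 912) (nat_lit 2306911390) (nat_lit 362) (nat_lit 5) (nat_lit 373) (nat_lit 5) (nat_lit 374) (nat_lit 5) (nat_lit 421) (nat_lit 367) (nat_lit 352)) (XT.lf (nat_lit 0) (nat_lit 641693959) (nat_lit 912) (nat_lit 1628536944) (nat_lit 76) (nat_lit 5114276713)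 (nat_lit 361) (nat_lit 5) (nat_lit 373) (nat_lit 5) (nat_lit 362) (nat_lit 5) (nat_lit 422) (nat_lit 367) (nat_lit 351)))) (XT.nd (nat_lit 156) (nat_lit 912) (nat_lit 0) (XT.nd (nat_lit 78) (nat_lit 836) (nat_lit 0) (XT.lf (nat_lit 0) (nat_lit 3285754381) (nat_lit 912) (nat_lit 298159405) (nat_lit 988) (nat_lit 3850481844) (nat_lit 349) (nat_lit 5) (nat_lit 361) (nat_lit 5) (nat_lit 362) (nat_lit 5) (nat_lit 423) (nat_lit 367) (nat_lit 350)) (XT.lf (nat_lit 0) (nat_lit 776218064) (nat_lit 836) (nat_lit 5780807000) (nat_lit 912) (nat_lit 928859529) (nat_lit 338) (nat_lit 5) (nat_lit 349) (nat_lit 5) (nat_lit 350) (nat_lit 5) (nat_lit 424) (nat_lit 367) (nat_lit 349))) (XT.nd (nat_lit 78) (nat_lit 836) (nat_lit 0) (XT.lf (nat_lit 0) (nat_lit 1999477223) (nat_lit 912) (nat_lit 1756010798) (nat_lit 76) (nat_lit 3783187698) (nat_lit 337) (nat_lit 5) (nat_lit 349) (nat_lit 5) (nat_lit 338) (nat_lit 5) (nat_lit 425) (nat_lit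 367) (nat_lit 348)) (XT.lf (nat_lit 0) (nat_lit 3276183324) (nat_lit 836) (nat_lit 1665302823) (nat_lit 912) (nat_lit 2651604453) (nat_lit 326) (nat_lit 5) (nat_lit 337) (nat_lit 5) (nat_lit 338) (nat_lit 5) (nat_lit 426) (nat_lit 367) (nat_lit 347)))))) (XT.nd (nat_lit 546) (nat_lit 2736) (nat_lit 0) (XT.nd (nat_lit 234) (nat_lit 2280) (nat_lit 0) (XT.nd (nat_lit 78) (nat_lit 760) (nat_lit 0) (XT.lf (nat_lit 0) (nat_lit 256196263) (nat_lit 836) (nat_lit 6918068162) (nat_lit 76) (nat_lit 475005034) (nat_lit 315) (nat_lit 5) (nat_lit 326) (nat_lit 5) (nat_lit 316) (nat_lit 5) (nat_lit 427) (nat_lit 367) (nat_lit 346)) (XT.nd (nat_lit 78) (nat_lit 760) (nat_lit 0) (XT.lf (nat_lit 0) (nat_lit 3174068550) (nat_lit 836) (nat_lit 1854393495) (nat_lit 76) (nat_lit 2678050083) (nat_lit 315) (nat_lit 5) (nat_lit 326) (nat_lit 5) (nat_lit 316) (nat_lit 5) (nat_lit 428) (nat_lit 367) (nat_lit 345)) (XT.lf (nat_lit 0) (nat_lit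 3296525267) (nat_lit 760) (nat_lit 2823409860) (nat_lit 836) (nat_lit 1645610203) (nat_lit 305) (nat_lit 5) (nat_lit 315) (nat_lit 5) (nat_lit 316) (nat_lit 5) (nat_lit 429) (nat_lit 367) (nat_lit 344)))) (XT.nd (nat_lit 156) (nat_lit 1520) (nat_lit 0) (XT.nd (nat_lit 78) (nat_lit 0) (nat_lit 0) (XT.lf (nat_lit 0) (nat_lit 693053818) (nat_lit 684) (nat_lit 554399638) (nat_lit 760) (nat_lit 6578863397) (nat_lit 295) (nat_lit 5) (nat_lit 304) (nat_lit 5) (nat_lit 305) (nat_lit 5) (nat_lit 430) (nat_lit 367) (nat_lit 343)) (XT.lf (nat_lit 0) (nat_lit 4167079750) (nat_lit 760) (nat_lit 1949521276) (nat_lit 76) (nat_lit 1771706711) (nat_lit 295) (nat_lit 5) (nat_lit 305) (nat_lit 5) (nat_lit 296) (nat_lit 5) (nat_lit 431) (nat_lit 367) (nat_lit 342))) (XT.nd (nat_lit 78) (nat_lit 760) (nat_lit 0) (XT.lf (nat_lit 0) (nat_lit 3320675579) (nat_lit 760) (nat_lit 3799752944) (nat_lit 836) (nat_lit 831638807) (nat_lit 285)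 (nat_lit 5) (nat_lit 295) (nat_lit 5) (nat_lit 296) (nat_lit 5) (nat_lit 432) (nat_lit 367) (nat_lit 341)) (XT.lf (nat_lit 0) (nat_lit 643054729) (nat_lit 684) (nat_lit 1412630983) (nat_lit 760) (nat_lit 5961821943) (nat_lit 275) (nat_lit 5) (nat_lit 284) (nat_lit 5) (nat_lit 285) (nat_lit 5) (nat_lit 433) (nat_lit 367) (nat_lit 340))))) (XT.nd (nat_lit 234) (nat_lit 1368) (nat_lit 0) (XT.nd (nat_lit 78) (nat_lit 1368) (nat_lit 0) (XT.lf (nat_lit 0) (nat_lit 4978452558) (nat_lit 760) (nat_lit 2068218290) (nat_lit 76) (nat_lit 1037732811) (nat_lit 275) (nat_lit 5) (nat_lit 285) (nat_lit 5) (nat_lit 276) (nat_lit 5) (nat_lit 434) (nat_lit 367) (nat_lit 339)) (XT.nd (nat_lit 78) (nat_lit 684) (nat_lit 0) (XT.lf (nat_lit 0) (nat_lit 3321482434) (nat_lit 684) (nat_lit 4620974660) (nat_lit 760) (nat_lit 210557629) (nat_lit 266) (nat_lit 5) (nat_lit 275) (nat_lit 5) (nat_lit 276) (nat_lit 5) (nat_lit 435) (nat_lit 367)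 (nat_lit 338)) (XT.lf (nat_lit 0) (nat_lit 556532035) (nat_lit 608) (nat_lit 2119916545) (nat_lit 684) (nat_lit 5546831261) (nat_lit 257) (nat_lit 5) (nat_lit 265) (nat_lit 5) (nat_lit 266) (nat_lit 5) (nat_lit 436) (nat_lit 367) (nat_lit 337)))) (XT.nd (nat_lit 156) (nat_lit 608) (nat_lit 0) (XT.nd (nat_lit 78) (nat_lit 760) (nat_lit 0) (XT.lf (nat_lit 0) (nat_lit 5606416102) (nat_lit 684) (nat_lit 2238559612) (nat_lit 76) (nat_lit 450216799) (nat_lit 257) (nat_lit 5) (nat_lit 266) (nat_lit 5) (nat_lit 258) (nat_lit 5) (nat_lit 437) (nat_lit 367) (nat_lit 336)) (XT.lf (nat_lit 0) (nat_lit 212170058) (nat_lit 760) (nat_lit 5099715664) (nat_lit 76) (nat_lit 3056884002) (nat_lit 247) (nat_lit 5) (nat_lit 257) (nat_lit 5) (nat_lit 248) (nat_lit 5) (nat_lit 438) (nat_lit 367) (nat_lit 335))) (XT.nd (nat_lit 78) (nat_lit 0) (nat_lit 0) (XT.lf (nat_lit 0) (nat_lit 404201547) (nat_lit 608) (nat_lit 2702454514) (nat_lit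 684) (nat_lit 5337405613) (nat_lit 239) (nat_lit 5) (nat_lit 247) (nat_lit 5) (nat_lit 248) (nat_lit 5) (nat_lit 439) (nat_lit 367) (nat_lit 334)) (XT.lf (nat_lit 0) (nat_lit 6030859129) (nat_lit 608) (nat_lit 16678723) (nat_lit 684) (nat_lit 2473580033) (nat_lit 239) (nat_lit 5) (nat_lit 247) (nat_lit 5) (nat_lit 248) (nat_lit 5) (nat_lit 440) (nat_lit 367) (nat_lit 333))))))) (XT.nd (nat_lit 1092) (nat_lit 3876) (nat_lit 0) (XT.nd (nat_lit 546) (nat_lit 2052) (nat_lit 0) (XT.nd (nat_lit 234) (nat_lit 1824) (nat_lit 0) (XT.nd (nat_lit 78) (nat_lit 532) (nat_lit 0) (XT.lf (nat_lit 0) (nat_lit 434741702) (nat_lit 684) (nat_lit 5465148424) (nat_lit 76) (nat_lit 2699932639) (nat_lit 230) (nat_lit 5) (nat_lit 239) (nat_lit 5) (nat_lit 231) (nat_lit 5) (nat_lit 441) (nat_lit 367) (nat_lit 332)) (XT.nd (nat_lit 78) (nat_lit 0) (nat_lit 0) (XT.lf (nat_lit 0) (nat_lit 155060170) (nat_lit 532) (nat_lit 3186327151) (nat_lit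 608) (nat_lit 5338948738) (nat_lit 223) (nat_lit 5) (nat_lit 230) (nat_lit 5) (nat_lit 231) (nat_lit 5) (nat_lit 442) (nat_lit 367) (nat_lit 331)) (XT.lf (nat_lit 0) (nat_lit 5905660233) (nat_lit 532) (nat_lit 393000638) (nat_lit 608) (nat_lit 2463975218) (nat_lit 223) (nat_lit 5) (nat_lit 230) (nat_lit 5) (nat_lit 231) (nat_lit 5) (nat_lit 443) (nat_lit 367) (nat_lit 330)))) (XT.nd (nat_lit 156) (nat_lit 1140) (nat_lit 0) (XT.nd (nat_lit 78) (nat_lit 0) (nat_lit 0) (XT.lf (nat_lit 0) (nat_lit 453598320) (nat_lit 684) (nat_lit 5958919306) (nat_lit 76) (nat_lit 2434204105) (nat_lit 214) (nat_lit 5) (nat_lit 223) (nat_lit 5) (nat_lit 215) (nat_lit 5) (nat_lit 444) (nat_lit 367) (nat_lit 329)) (XT.lf (nat_lit 0) (nat_lit 3375256055) (nat_lit 684) (nat_lit 220992130) (nat_lit 76) (nat_lit 5336365506) (nat_lit 214) (nat_lit 5) (nat_lit 223) (nat_lit 5) (nat_lit 215) (nat_lit 5) (nat_lit 445) (nat_lit 367) (nat_lit 328)))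 (XT.nd (nat_lit 78) (nat_lit 608) (nat_lit 0) (XT.lf (nat_lit 0) (nat_lit 5650862055) (nat_lit 532) (nat_lit 698814309) (nat_lit 608) (nat_lit 2670684901) (nat_lit 207) (nat_lit 5) (nat_lit 214) (nat_lit 5) (nat_lit 215) (nat_lit 5) (nat_lit 446) (nat_lit 367) (nat_lit 327)) (XT.lf (nat_lit 0) (nat_lit 260427963) (nat_lit 608) (nat_lit 6615764878) (nat_lit 76) (nat_lit 2233852890) (nat_lit 199) (nat_lit 5) (nat_lit 207) (nat_lit 5) (nat_lit 200) (nat_lit 5) (nat_lit 447) (nat_lit 367) (nat_lit 326))))) (XT.nd (nat_lit 234) (nat_lit 1064) (nat_lit 0) (XT.nd (nat_lit 78) (nat_lit 988) (nat_lit 0) (XT.lf (nat_lit 0) (nat_lit 3200026674) (nat_lit 608) (nat_lit 758100459) (nat_lit 76) (nat_lit 5243354163) (nat_lit 199) (nat_lit 5) (nat_lit 207) (nat_lit 5) (nat_lit 200) (nat_lit 5) (nat_lit 448) (nat_lit 367) (nat_lit 325)) (XT.nd (nat_lit 78) (nat_lit 532) (nat_lit 0) (XT.lf (nat_lit 0) (nat_lit 5230834845) (nat_lit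 456) (nat_lit 960566002) (nat_lit 532) (nat_lit 3103507565) (nat_lit 193) (nat_lit 5) (nat_lit 199) (nat_lit 5) (nat_lit 200) (nat_lit 5) (nat_lit 449) (nat_lit 367) (nat_lit 324)) (XT.lf (nat_lit 0) (nat_lit 1916335842) (nat_lit 532) (nat_lit 7316829701) (nat_lit 608) (nat_lit 157249332) (nat_lit 186) (nat_lit 5) (nat_lit 193) (nat_lit 5) (nat_lit 194) (nat_lit 5) (nat_lit 450) (nat_lit 367) (nat_lit 323)))) (XT.nd (nat_lit 156) (nat_lit 532) (nat_lit 0) (XT.nd (nat_lit 78) (nat_lit 456) (nat_lit 0) (XT.lf (nat_lit 0) (nat_lit 2803937206) (nat_lit 608) (nat_lit 1495945122) (nat_lit 76) (nat_lit 5187733448) (nat_lit 185) (nat_lit 5) (nat_lit 193) (nat_lit 5) (nat_lit 186) (nat_lit 5) (nat_lit 451) (nat_lit 367) (nat_lit 322)) (XT.lf (nat_lit 0) (nat_lit 4607143922) (nat_lit 456) (nat_lit 1205346178) (nat_lit 532) (nat_lit 3774465636) (nat_lit 179) (nat_lit 5) (nat_lit 185) (nat_lit 5) (nat_lit 186) (nat_lit 5)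 (nat_lit 452) (nat_lit 367) (nat_lit 321))) (XT.nd (nat_lit 78) (nat_lit 76) (nat_lit 0) (XT.lf (nat_lit 0) (nat_lit 1111994645) (nat_lit 456) (nat_lit 7759881638) (nat_lit 532) (nat_lit 816613353) (nat_lit 173) (nat_lit 5) (nat_lit 179) (nat_lit 5) (nat_lit 180) (nat_lit 5) (nat_lit 453) (nat_lit 367) (nat_lit 320)) (XT.lf (nat_lit 0) (nat_lit 2173971179) (nat_lit 532) (nat_lit 2475265096) (nat_lit 76) (nat_lit 5142503129) (nat_lit 172) (nat_lit 5) (nat_lit 179) (nat_lit 5) (nat_lit 173) (nat_lit 5) (nat_lit 454) (nat_lit 367) (nat_lit 319)))))) (XT.nd (nat_lit 546) (nat_lit 1596) (nat_lit 0) (XT.nd (nat_lit 234) (nat_lit 1292) (nat_lit 0) (XT.nd (nat_lit 78) (nat_lit 532) (nat_lit 0) (XT.lf (nat_lit 0) (nat_lit 3738148085) (nat_lit 456) (nat_lit 1461146900) (nat_lit 532) (nat_lit 4697953193) (nat_lit 166) (nat_lit 5) (nat_lit 172) (nat_lit 5) (nat_lit 173) (nat_lit 5) (nat_lit 455) (nat_lit 367) (nat_lit 318))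 (XT.nd (nat_lit 78) (nat_lit 76) (nat_lit 0) (XT.lf (nat_lit 0) (nat_lit 39844537) (nat_lit 456) (nat_lit 8235777951) (nat_lit 532) (nat_lit 1729453529) (nat_lit 160) (nat_lit 5) (nat_lit 166) (nat_lit 5) (nat_lit 167) (nat_lit 5) (nat_lit 456) (nat_lit 367) (nat_lit 317)) (XT.lf (nat_lit 0) (nat_lit 1294692242) (nat_lit 532) (nat_lit 3740315847) (nat_lit 76) (nat_lit 5079635721) (nat_lit 159) (nat_lit 5) (nat_lit 166) (nat_lit 5) (nat_lit 160) (nat_lit 5) (nat_lit 457) (nat_lit 367) (nat_lit 316)))) (XT.nd (nat_lit 156) (nat_lit 912) (nat_lit 0) (XT.nd (nat_lit 78) (nat_lit 0) (nat_lit 0) (XT.lf (nat_lit 0) (nat_lit 2578563112) (nat_lit 380) (nat_lit 1757132540) (nat_lit 456) (nat_lit 5890905778) (nat_lit 154) (nat_lit 5) (nat_lit 159) (nat_lit 5) (nat_lit 160) (nat_lit 5) (nat_lit 458) (nat_lit 367) (nat_lit 315)) (XT.lf (nat_lit 0) (nat_lit 7436139696) (nat_lit 456) (nat_lit 1329445330) (nat_lit 76) (nat_lit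 1575258162) (nat_lit 154) (nat_lit 5) (nat_lit 160) (nat_lit 5) (nat_lit 155) (nat_lit 5) (nat_lit 459) (nat_lit 367) (nat_lit 314))) (XT.nd (nat_lit 78) (nat_lit 380) (nat_lit 0) (XT.lf (nat_lit 0) (nat_lit 148062731) (nat_lit 532) (nat_lit 5339331280) (nat_lit 76) (nat_lit 4969800315) (nat_lit 147) (nat_lit 5) (nat_lit 154) (nat_lit 5) (nat_lit 148) (nat_lit 5) (nat_lit 460) (nat_lit 367) (nat_lit 313)) (XT.lf (nat_lit 0) (nat_lit 1078986118) (nat_lit 380) (nat_lit 2123926200) (nat_lit 456) (nat_lit 7372994121) (nat_lit 142) (nat_lit 5) (nat_lit 147) (nat_lit 5) (nat_lit 148) (nat_lit 5) (nat_lit 461) (nat_lit 367) (nat_lit 312))))) (XT.nd (nat_lit 312) (nat_lit 760) (nat_lit 0) (XT.nd (nat_lit 156) (nat_lit 456) (nat_lit 0) (XT.nd (nat_lit 78) (nat_lit 380) (nat_lit 0) (XT.lf (nat_lit 0) (nat_lit 6327575380) (nat_lit 456) (nat_lit 3059547281) (nat_lit 76) (nat_lit 1309711879) (nat_lit 142) (nat_lit 5) (nat_lit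 148) (nat_lit 5) (nat_lit 143) (nat_lit 5) (nat_lit 462) (nat_lit 367) (nat_lit 311)) (XT.lf (nat_lit 0) (nat_lit 3486672072) (nat_lit 380) (nat_lit 6029630596) (nat_lit 456) (nat_lit 1303862872) (nat_lit 137) (nat_lit 5) (nat_lit 142) (nat_lit 5) (nat_lit 143) (nat_lit 5) (nat_lit 463) (nat_lit 367) (nat_lit 310))) (XT.nd (nat_lit 78) (nat_lit 380) (nat_lit 0) (XT.lf (nat_lit 0) (nat_lit 1784579769) (nat_lit 456) (nat_lit 803939897) (nat_lit 76) (nat_lit 8357509034) (nat_lit 136) (nat_lit 5) (nat_lit 142) (nat_lit 5) (nat_lit 137) (nat_lit 5) (nat_lit 464) (nat_lit 367) (nat_lit 309)) (XT.lf (nat_lit 0) (nat_lit 4927337084) (nat_lit 456) (nat_lit 5206445107) (nat_lit 76) (nat_lit 940269320) (nat_lit 131) (nat_lit 5) (nat_lit 137) (nat_lit 5) (nat_lit 132) (nat_lit 5) (nat_lit 465) (nat_lit 367) (nat_lit 308)))) (XT.nd (nat_lit 156) (nat_lit 304) (nat_lit 0) (XT.nd (nat_lit 78) (nat_lit 76) (nat_lit 0) (XT.lf (nat_lit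 0) (nat_lit 1429579505) (nat_lit 380) (nat_lit 6701129807) (nat_lit 456) (nat_lit 3073984830) (nat_lit 126) (nat_lit 5) (nat_lit 131) (nat_lit 5) (nat_lit 132) (nat_lit 5) (nat_lit 466) (nat_lit 367) (nat_lit 307)) (XT.lf (nat_lit 0) (nat_lit 60586387) (nat_lit 456) (nat_lit 3120050137) (nat_lit 76) (nat_lit 8157295746) (nat_lit 125) (nat_lit 5) (nat_lit 131) (nat_lit 5) (nat_lit 126) (nat_lit 5) (nat_lit 467) (nat_lit 367) (nat_lit 306))) (XT.nd (nat_lit 78) (nat_lit 0) (nat_lit 0) (XT.lf (nat_lit 0) (nat_lit 3209916078) (nat_lit 380) (nat_lit 7830986852) (nat_lit 76) (nat_lit 432675013) (nat_lit 121) (nat_lit 5) (nat_lit 126) (nat_lit 5) (nat_lit 122) (nat_lit 5) (nat_lit 468) (nat_lit 367) (nat_lit 305)) (XT.lf (nat_lit 0) (nat_lit 6431267459) (nat_lit 380) (nat_lit 1100252079) (nat_lit 76) (nat_lit 4080249741) (nat_lit 121) (nat_lit 5) (nat_lit 126) (nat_lit 5) (nat_lit 122) (nat_lit 5) (nat_lit 469) (nat_lit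 367) (nat_lit 304))))))))
noncomputable def xc71 : XT := (XT.nd (nat_lit 2184) (nat_lit 2584) (nat_lit 0) (XT.nd (nat_lit 1092) (nat_lit 1900) (nat_lit 0) (XT.nd (nat_lit 546) (nat_lit 1216) (nat_lit 0) (XT.nd (nat_lit 234) (nat_lit 684) (nat_lit 0) (XT.nd (nat_lit 78) (nat_lit 380) (nat_lit 0) (XT.lf (nat_lit 0) (nat_lit 5791733425) (nat_lit 380) (nat_lit 3930460768) (nat_lit 456) (nat_lit 2030440468) (nat_lit 116) (nat_lit 5) (nat_lit 121) (nat_lit 5) (nat_lit 122) (nat_lit 5) (nat_lit 470) (nat_lit 367) (nat_lit 303)) (XT.nd (nat_lit 78) (nat_lit 0) (nat_lit 0) (XT.lf (nat_lit 0) (nat_lit 894870432) (nat_lit 304) (nat_lit 253120845) (nat_lit 380) (nat_lit 10748567591) (nat_lit 111) (nat_lit 5) (nat_lit 115) (nat_lit 5) (nat_lit 116) (nat_lit 5) (nat_lit 471) (nat_lit 367) (nat_lit 302)) (XT.lf (nat_lit 0) (nat_lit 4393647033) (nat_lit 380) (nat_lit 4160082889) (nat_lit 76) (nat_lit 3488758779) (nat_lit 111)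 (nat_lit 5) (nat_lit 116) (nat_lit 5) (nat_lit 112) (nat_lit 5) (nat_lit 472) (nat_lit 367) (nat_lit 301)))) (XT.nd (nat_lit 156) (nat_lit 380) (nat_lit 0) (XT.nd (nat_lit 78) (nat_lit 0) (nat_lit 0) (XT.lf (nat_lit 0) (nat_lit 2804778233) (nat_lit 304) (nat_lit 4887797047) (nat_lit 380) (nat_lit 4499006843) (nat_lit 107) (nat_lit 5) (nat_lit 111) (nat_lit 5) (nat_lit 112) (nat_lit 5) (nat_lit 473) (nat_lit 367) (nat_lit 300)) (XT.lf (nat_lit 0) (nat_lit 9916962486) (nat_lit 304) (nat_lit 1137212718) (nat_lit 380) (nat_lit 1289560293) (nat_lit 107) (nat_lit 5) (nat_lit 111) (nat_lit 5) (nat_lit 112) (nat_lit 5) (nat_lit 474) (nat_lit 367) (nat_lit 299))) (XT.nd (nat_lit 78) (nat_lit 0) (nat_lit 0) (XT.lf (nat_lit 0) (nat_lit 1975199330) (nat_lit 380) (nat_lit 7843299801) (nat_lit 76) (nat_lit 2679843734) (nat_lit 102) (nat_lit 5) (nat_lit 107) (nat_lit 5) (nat_lit 103) (nat_lit 5) (nat_lit 475) (nat_lit 367) (nat_lit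 298)) (XT.lf (nat_lit 0) (nat_lit 5281287296) (nat_lit 380) (nat_lit 808539556) (nat_lit 76) (nat_lit 6566190296) (nat_lit 102) (nat_lit 5) (nat_lit 107) (nat_lit 5) (nat_lit 103) (nat_lit 5) (nat_lit 476) (nat_lit 367) (nat_lit 297))))) (XT.nd (nat_lit 234) (nat_lit 608) (nat_lit 0) (XT.nd (nat_lit 78) (nat_lit 304) (nat_lit 0) (XT.lf (nat_lit 0) (nat_lit 6403810181) (nat_lit 304) (nat_lit 2261225641) (nat_lit 380) (nat_lit 4151589351) (nat_lit 98) (nat_lit 5) (nat_lit 102) (nat_lit 5) (nat_lit 103) (nat_lit 5) (nat_lit 477) (nat_lit 367) (nat_lit 296)) (XT.nd (nat_lit 78) (nat_lit 76) (nat_lit 0) (XT.lf (nat_lit 0) (nat_lit 742783908) (nat_lit 228) (nat_lit 11364769019) (nat_lit 304) (nat_lit 873081376) (nat_lit 95) (nat_lit 5) (nat_lit 98) (nat_lit 5) (nat_lit 99) (nat_lit 5) (nat_lit 478) (nat_lit 367) (nat_lit 295)) (XT.lf (nat_lit 0) (nat_lit 2467092501) (nat_lit 304) (nat_lit 5097317700) (nat_lit 76) (nat_lit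 5582632881) (nat_lit 94) (nat_lit 5) (nat_lit 98) (nat_lit 5) (nat_lit 95) (nat_lit 5) (nat_lit 479) (nat_lit 367) (nat_lit 294)))) (XT.nd (nat_lit 156) (nat_lit 304) (nat_lit 0) (XT.nd (nat_lit 78) (nat_lit 0) (nat_lit 0) (XT.lf (nat_lit 0) (nat_lit 2162156023) (nat_lit 304) (nat_lit 3685066425) (nat_lit 380) (nat_lit 7469755496) (nat_lit 90) (nat_lit 5) (nat_lit 94) (nat_lit 5) (nat_lit 95) (nat_lit 5) (nat_lit 480) (nat_lit 367) (nat_lit 293)) (XT.lf (nat_lit 0) (nat_lit 9302107787) (nat_lit 380) (nat_lit 3902320409) (nat_lit 76) (nat_lit 285750244) (nat_lit 90) (nat_lit 5) (nat_lit 95) (nat_lit 5) (nat_lit 91) (nat_lit 5) (nat_lit 481) (nat_lit 367) (nat_lit 292))) (XT.nd (nat_lit 78) (nat_lit 76) (nat_lit 0) (XT.lf (nat_lit 0) (nat_lit 3470642790) (nat_lit 228) (nat_lit 9373911128) (nat_lit 304) (nat_lit 821929565) (nat_lit 87) (nat_lit 5) (nat_lit 90) (nat_lit 5) (nat_lit 91) (nat_lit 5) (nat_lit 482) (nat_lit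 367) (nat_lit 291)) (XT.lf (nat_lit 0) (nat_lit 2575235853) (nat_lit 304) (nat_lit 2864746196) (nat_lit 76) (nat_lit 8406043832) (nat_lit 86) (nat_lit 5) (nat_lit 90) (nat_lit 5) (nat_lit 87) (nat_lit 5) (nat_lit 483) (nat_lit 367) (nat_lit 290)))))) (XT.nd (nat_lit 546) (nat_lit 836) (nat_lit 0) (XT.nd (nat_lit 234) (nat_lit 532) (nat_lit 0) (XT.nd (nat_lit 78) (nat_lit 228) (nat_lit 0) (XT.lf (nat_lit 0) (nat_lit 4623271491) (nat_lit 304) (nat_lit 1408244306) (nat_lit 380) (nat_lit 7997500367) (nat_lit 82) (nat_lit 5) (nat_lit 86) (nat_lit 5) (nat_lit 87) (nat_lit 5) (nat_lit 484) (nat_lit 367) (nat_lit 289)) (XT.nd (nat_lit 78) (nat_lit 228) (nat_lit 0) (XT.lf (nat_lit 0) (nat_lit 9566124994) (nat_lit 380) (nat_lit 1978129873) (nat_lit 76) (nat_lit 2671236365) (nat_lit 82) (nat_lit 5) (nat_lit 87) (nat_lit 5) (nat_lit 83) (nat_lit 5) (nat_lit 485) (nat_lit 367) (nat_lit 288)) (XT.lf (nat_lit 0) (nat_lit 5618232769)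 (nat_lit 228) (nat_lit 7571835639) (nat_lit 304) (nat_lit 1215263426) (nat_lit 79) (nat_lit 5) (nat_lit 82) (nat_lit 5) (nat_lit 83) (nat_lit 5) (nat_lit 486) (nat_lit 367) (nat_lit 287)))) (XT.nd (nat_lit 156) (nat_lit 228) (nat_lit 0) (XT.nd (nat_lit 78) (nat_lit 228) (nat_lit 0) (XT.lf (nat_lit 0) (nat_lit 2243781918) (nat_lit 304) (nat_lit 1264547645) (nat_lit 76) (nat_lit 11090625937) (nat_lit 78) (nat_lit 5) (nat_lit 82) (nat_lit 5) (nat_lit 79) (nat_lit 5) (nat_lit 487) (nat_lit 367) (nat_lit 286)) (XT.lf (nat_lit 0) (nat_lit 5775357903) (nat_lit 304) (nat_lit 8358832180) (nat_lit 76) (nat_lit 661716818) (nat_lit 75) (nat_lit 5) (nat_lit 79) (nat_lit 5) (nat_lit 76) (nat_lit 5) (nat_lit 488) (nat_lit 367) (nat_lit 285))) (XT.nd (nat_lit 78) (nat_lit 228) (nat_lit 0) (XT.lf (nat_lit 0) (nat_lit 9382904658) (nat_lit 304) (nat_lit 753560701) (nat_lit 76) (nat_lit 4860233385) (nat_lit 75) (nat_lit 5) (nat_lit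 79) (nat_lit 5) (nat_lit 76) (nat_lit 5) (nat_lit 489) (nat_lit 367) (nat_lit 284)) (XT.lf (nat_lit 0) (nat_lit 7053665782) (nat_lit 228) (nat_lit 6028815311) (nat_lit 304) (nat_lit 2118635793) (nat_lit 72) (nat_lit 5) (nat_lit 75) (nat_lit 5) (nat_lit 76) (nat_lit 5) (nat_lit 490) (nat_lit 367) (nat_lit 283))))) (XT.nd (nat_lit 234) (nat_lit 532) (nat_lit 0) (XT.nd (nat_lit 78) (nat_lit 228) (nat_lit 0) (XT.lf (nat_lit 0) (nat_lit 1406682646) (nat_lit 304) (nat_lit 434426681) (nat_lit 76) (nat_lit 13568749423) (nat_lit 71) (nat_lit 5) (nat_lit 75) (nat_lit 5) (nat_lit 72) (nat_lit 5) (nat_lit 491) (nat_lit 367) (nat_lit 282)) (XT.nd (nat_lit 78) (nat_lit 0) (nat_lit 0) (XT.lf (nat_lit 0) (nat_lit 5013428260) (nat_lit 304) (nat_lit 8163155609) (nat_lit 76) (nat_lit 2445133286) (nat_lit 68) (nat_lit 5) (nat_lit 72) (nat_lit 5) (nat_lit 69) (nat_lit 5) (nat_lit 492) (nat_lit 367) (nat_lit 281)) (XT.lf (nat_lit 0)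 (nat_lit 8682199969) (nat_lit 304) (nat_lit 376688960) (nat_lit 76) (nat_lit 6779133401) (nat_lit 68) (nat_lit 5) (nat_lit 72) (nat_lit 5) (nat_lit 69) (nat_lit 5) (nat_lit 493) (nat_lit 367) (nat_lit 280)))) (XT.nd (nat_lit 156) (nat_lit 304) (nat_lit 0) (XT.nd (nat_lit 78) (nat_lit 0) (nat_lit 0) (XT.lf (nat_lit 0) (nat_lit 7624304321) (nat_lit 228) (nat_lit 4824803525) (nat_lit 304) (nat_lit 3609057828) (nat_lit 65) (nat_lit 5) (nat_lit 68) (nat_lit 5) (nat_lit 69) (nat_lit 5) (nat_lit 494) (nat_lit 367) (nat_lit 279)) (XT.lf (nat_lit 0) (nat_lit 15749497794) (nat_lit 228) (nat_lit 519861967) (nat_lit 304) (nat_lit 13799141) (nat_lit 65) (nat_lit 5) (nat_lit 68) (nat_lit 5) (nat_lit 69) (nat_lit 5) (nat_lit 495) (nat_lit 367) (nat_lit 278))) (XT.nd (nat_lit 78) (nat_lit 0) (nat_lit 0) (XT.lf (nat_lit 0) (nat_lit 3655835292) (nat_lit 304) (nat_lit 8977682292) (nat_lit 76) (nat_lit 3877659168) (nat_lit 61) (nat_lit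 5) (nat_lit 65) (nat_lit 5) (nat_lit 62) (nat_lit 5) (nat_lit 496) (nat_lit 367) (nat_lit 277)) (XT.lf (nat_lit 0) (nat_lit 7381626885) (nat_lit 304) (nat_lit 1018581393) (nat_lit 76) (nat_lit 8343892598) (nat_lit 61) (nat_lit 5) (nat_lit 65) (nat_lit 5) (nat_lit 62) (nat_lit 5) (nat_lit 497) (nat_lit 367) (nat_lit 276))))))) (XT.nd (nat_lit 1092) (nat_lit 1064) (nat_lit 0) (XT.nd (nat_lit 546) (nat_lit 684) (nat_lit 0) (XT.nd (nat_lit 234) (nat_lit 380) (nat_lit 0) (XT.nd (nat_lit 78) (nat_lit 304) (nat_lit 0) (XT.lf (nat_lit 0) (nat_lit 7153752492) (nat_lit 152) (nat_lit 4051002656) (nat_lit 228) (nat_lit 5776478510) (nat_lit 59) (nat_lit 5) (nat_lit 61) (nat_lit 5) (nat_lit 62) (nat_lit 5) (nat_lit 498) (nat_lit 367) (nat_lit 275)) (XT.nd (nat_lit 78) (nat_lit 304) (nat_lit 0) (XT.lf (nat_lit 0) (nat_lit 15090203541) (nat_lit 228) (nat_lit 1762058859) (nat_lit 76) (nat_lit 371136009) (nat_lit 59) (nat_lit 5)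 (nat_lit 62) (nat_lit 5) (nat_lit 60) (nat_lit 5) (nat_lit 499) (nat_lit 367) (nat_lit 274)) (XT.lf (nat_lit 0) (nat_lit 1608353467) (nat_lit 304) (nat_lit 10996295332) (nat_lit 76) (nat_lit 4864635122) (nat_lit 55) (nat_lit 5) (nat_lit 59) (nat_lit 5) (nat_lit 56) (nat_lit 5) (nat_lit 500) (nat_lit 367) (nat_lit 273)))) (XT.nd (nat_lit 156) (nat_lit 228) (nat_lit 0) (XT.nd (nat_lit 78) (nat_lit 152) (nat_lit 0) (XT.lf (nat_lit 0) (nat_lit 5385078566) (nat_lit 304) (nat_lit 2876587245) (nat_lit 76) (nat_lit 9458367230) (nat_lit 55) (nat_lit 5) (nat_lit 59) (nat_lit 5) (nat_lit 56) (nat_lit 5) (nat_lit 501) (nat_lit 367) (nat_lit 272)) (XT.lf (nat_lit 0) (nat_lit 5438455716) (nat_lit 152) (nat_lit 3811623812) (nat_lit 228) (nat_lit 8725468759) (nat_lit 53) (nat_lit 5) (nat_lit 55) (nat_lit 5) (nat_lit 56) (nat_lit 5) (nat_lit 502) (nat_lit 367) (nat_lit 271))) (XT.nd (nat_lit 78) (nat_lit 228) (nat_lit 0) (XT.lf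 (nat_lit 0) (nat_lit 13194058568) (nat_lit 228) (nat_lit 4320330144) (nat_lit 76) (nat_lit 721757421) (nat_lit 53) (nat_lit 5) (nat_lit 56) (nat_lit 5) (nat_lit 54) (nat_lit 5) (nat_lit 503) (nat_lit 367) (nat_lit 270)) (XT.lf (nat_lit 0) (nat_lit 4050924094) (nat_lit 228) (nat_lit 13195501547) (nat_lit 304) (nat_lit 1254945865) (nat_lit 50) (nat_lit 5) (nat_lit 53) (nat_lit 5) (nat_lit 54) (nat_lit 5) (nat_lit 504) (nat_lit 367) (nat_lit 269))))) (XT.nd (nat_lit 234) (nat_lit 456) (nat_lit 0) (XT.nd (nat_lit 78) (nat_lit 152) (nat_lit 0) (XT.lf (nat_lit 0) (nat_lit 2580921877) (nat_lit 304) (nat_lit 6178058507) (nat_lit 76) (nat_lit 10012444134) (nat_lit 49) (nat_lit 5) (nat_lit 53) (nat_lit 5) (nat_lit 50) (nat_lit 5) (nat_lit 505) (nat_lit 367) (nat_lit 268)) (XT.nd (nat_lit 78) (nat_lit 0) (nat_lit 0) (XT.lf (nat_lit 0) (nat_lit 2243857520) (nat_lit 152) (nat_lit 4225864464) (nat_lit 228) (nat_lit 12577135736)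 (nat_lit 47) (nat_lit 5) (nat_lit 49) (nat_lit 5) (nat_lit 50) (nat_lit 5) (nat_lit 506) (nat_lit 367) (nat_lit 267)) (XT.lf (nat_lit 0) (nat_lit 10459132501) (nat_lit 228) (nat_lit 8448998967) (nat_lit 76) (nat_lit 419216734) (nat_lit 47) (nat_lit 5) (nat_lit 50) (nat_lit 5) (nat_lit 48) (nat_lit 5) (nat_lit 507) (nat_lit 367) (nat_lit 266)))) (XT.nd (nat_lit 156) (nat_lit 228) (nat_lit 0) (XT.nd (nat_lit 78) (nat_lit 0) (nat_lit 0) (XT.lf (nat_lit 0) (nat_lit 7799170) (nat_lit 228) (nat_lit 14527508065) (nat_lit 304) (nat_lit 5078006937) (nat_lit 44) (nat_lit 5) (nat_lit 47) (nat_lit 5) (nat_lit 48) (nat_lit 5) (nat_lit 508) (nat_lit 367) (nat_lit 265)) (XT.lf (nat_lit 0) (nat_lit 8712101597) (nat_lit 228) (nat_lit 10016718787) (nat_lit 304) (nat_lit 1175467876) (nat_lit 44) (nat_lit 5) (nat_lit 47) (nat_lit 5) (nat_lit 48) (nat_lit 5) (nat_lit 509) (nat_lit 367) (nat_lit 264))) (XT.nd (nat_lit 78) (nat_lit 152)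 (nat_lit 0) (XT.lf (nat_lit 0) (nat_lit 2747718919) (nat_lit 304) (nat_lit 2664534369) (nat_lit 76) (nat_lit 14788881454) (nat_lit 43) (nat_lit 5) (nat_lit 47) (nat_lit 5) (nat_lit 44) (nat_lit 5) (nat_lit 510) (nat_lit 367) (nat_lit 263)) (XT.lf (nat_lit 0) (nat_lit 6070472442) (nat_lit 152) (nat_lit 682376558) (nat_lit 228) (nat_lit 13750534178) (nat_lit 41) (nat_lit 5) (nat_lit 43) (nat_lit 5) (nat_lit 44) (nat_lit 5) (nat_lit 511) (nat_lit 367) (nat_lit 262)))))) (XT.nd (nat_lit 546) (nat_lit 532) (nat_lit 0) (XT.nd (nat_lit 234) (nat_lit 380) (nat_lit 0) (XT.nd (nat_lit 78) (nat_lit 152) (nat_lit 0) (XT.lf (nat_lit 0) (nat_lit 10862839077) (nat_lit 228) (nat_lit 5857141289) (nat_lit 76) (nat_lit 4091205778) (nat_lit 41) (nat_lit 5) (nat_lit 44) (nat_lit 5) (nat_lit 42) (nat_lit 5) (nat_lit 512) (nat_lit 367) (nat_lit 261)) (XT.nd (nat_lit 78) (nat_lit 0) (nat_lit 0) (XT.lf (nat_lit 0) (nat_lit 2889095394)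 (nat_lit 152) (nat_lit 12169470639) (nat_lit 228) (nat_lit 6066513011) (nat_lit 39) (nat_lit 5) (nat_lit 41) (nat_lit 5) (nat_lit 42) (nat_lit 5) (nat_lit 513) (nat_lit 367) (nat_lit 260)) (XT.lf (nat_lit 0) (nat_lit 11855458244) (nat_lit 152) (nat_lit 7502478938) (nat_lit 228) (nat_lit 2086922552) (nat_lit 39) (nat_lit 5) (nat_lit 41) (nat_lit 5) (nat_lit 42) (nat_lit 5) (nat_lit 514) (nat_lit 367) (nat_lit 259)))) (XT.nd (nat_lit 156) (nat_lit 152) (nat_lit 0) (XT.nd (nat_lit 78) (nat_lit 152) (nat_lit 0) (XT.lf (nat_lit 0) (nat_lit 1927070676) (nat_lit 228) (nat_lit 816477238) (nat_lit 76) (nat_lit 19027622820) (nat_lit 38) (nat_lit 5) (nat_lit 41) (nat_lit 5) (nat_lit 39) (nat_lit 5) (nat_lit 515) (nat_lit 367) (nat_lit 258)) (XT.lf (nat_lit 0) (nat_lit 6041727813) (nat_lit 228) (nat_lit 13924697936) (nat_lit 76) (nat_lit 2136344020) (nat_lit 36) (nat_lit 5) (nat_lit 39) (nat_lit 5) (nat_lit 37) (nat_lit 5)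 (nat_lit 516) (nat_lit 367) (nat_lit 257))) (XT.nd (nat_lit 78) (nat_lit 152) (nat_lit 0) (XT.lf (nat_lit 0) (nat_lit 10243485080) (nat_lit 228) (nat_lit 5128709449) (nat_lit 76) (nat_lit 7068714298) (nat_lit 36) (nat_lit 5) (nat_lit 39) (nat_lit 5) (nat_lit 37) (nat_lit 5) (nat_lit 517) (nat_lit 367) (nat_lit 256)) (XT.lf (nat_lit 0) (nat_lit 3861299046) (nat_lit 152) (nat_lit 10674541227) (nat_lit 228) (nat_lit 8249843237) (nat_lit 34) (nat_lit 5) (nat_lit 36) (nat_lit 5) (nat_lit 37) (nat_lit 5) (nat_lit 518) (nat_lit 367) (nat_lit 255))))) (XT.nd (nat_lit 312) (nat_lit 304) (nat_lit 0) (XT.nd (nat_lit 156) (nat_lit 228) (nat_lit 0) (XT.nd (nat_lit 78) (nat_lit 0) (nat_lit 0) (XT.lf (nat_lit 0) (nat_lit 13068301415) (nat_lit 152) (nat_lit 5861803159) (nat_lit 228) (nat_lit 4206931891) (nat_lit 34) (nat_lit 5) (nat_lit 36) (nat_lit 5) (nat_lit 37) (nat_lit 5) (nat_lit 519) (nat_lit 367) (nat_lit 254)) (XT.lf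 (nat_lit 0) (nat_lit 22427750396) (nat_lit 152) (nat_lit 966509318) (nat_lit 228) (nat_lit 101520593) (nat_lit 34) (nat_lit 5) (nat_lit 36) (nat_lit 5) (nat_lit 37) (nat_lit 5) (nat_lit 520) (nat_lit 367) (nat_lit 253))) (XT.nd (nat_lit 78) (nat_lit 0) (nat_lit 0) (XT.lf (nat_lit 0) (nat_lit 4094223089) (nat_lit 228) (nat_lit 15725157058) (nat_lit 76) (nat_lit 4040555832) (nat_lit 31) (nat_lit 5) (nat_lit 34) (nat_lit 5) (nat_lit 32) (nat_lit 5) (nat_lit 521) (nat_lit 367) (nat_lit 252)) (XT.lf (nat_lit 0) (nat_lit 8368435262) (nat_lit 228) (nat_lit 6733604855) (nat_lit 76) (nat_lit 9129406678) (nat_lit 31) (nat_lit 5) (nat_lit 34) (nat_lit 5) (nat_lit 32) (nat_lit 5) (nat_lit 522) (nat_lit 367) (nat_lit 251)))) (XT.nd (nat_lit 156) (nat_lit 152) (nat_lit 0) (XT.nd (nat_lit 78) (nat_lit 0) (nat_lit 0) (XT.lf (nat_lit 0) (nat_lit 2439007311) (nat_lit 152) (nat_lit 10287603624) (nat_lit 228) (nat_lit 11883810948)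 (nat_lit 29) (nat_lit 5) (nat_lit 31) (nat_lit 5) (nat_lit 32) (nat_lit 5) (nat_lit 523) (nat_lit 367) (nat_lit 250)) (XT.lf (nat_lit 0) (nat_lit 11855790772) (nat_lit 152) (nat_lit 5344130914) (nat_lit 228) (nat_lit 7796498924) (nat_lit 29) (nat_lit 5) (nat_lit 31) (nat_lit 5) (nat_lit 32) (nat_lit 5) (nat_lit 524) (nat_lit 367) (nat_lit 249))) (XT.nd (nat_lit 78) (nat_lit 152) (nat_lit 0) (XT.lf (nat_lit 0) (nat_lit 21430952317) (nat_lit 152) (nat_lit 314869404) (nat_lit 228) (nat_lit 3644658627) (nat_lit 29) (nat_lit 5) (nat_lit 31) (nat_lit 5) (nat_lit 32) (nat_lit 5) (nat_lit 525) (nat_lit 367) (nat_lit 248)) (XT.lf (nat_lit 0) (nat_lit 632596725) (nat_lit 152) (nat_lit 20380255064) (nat_lit 76) (nat_lit 4778493833) (nat_lit 27) (nat_lit 5) (nat_lit 29) (nat_lit 5) (nat_lit 28) (nat_lit 5) (nat_lit 526) (nat_lit 367) (nat_lit 247))))))))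
noncomputable def xc72 : XT := (XT.nd (nat_lit 51636) (nat_lit 0) (nat_lit 10716) (XT.nd (nat_lit 50544) (nat_lit 0) (nat_lit 22800) (XT.nd (nat_lit 49998) (nat_lit 0) (nat_lit 34352) (XT.nd (nat_lit 234) (nat_lit 0) (nat_lit 0) (XT.nd (nat_lit 78) (nat_lit 152) (nat_lit 0) (XT.lf (nat_lit 0) (nat_lit 4958865717) (nat_lit 152) (nat_lit 11232951212) (nat_lit 76) (nat_lit 10007687335) (nat_lit 27) (nat_lit 5) (nat_lit 29) (nat_lit 5) (nat_lit 28) (nat_lit 5) (nat_lit 527) (nat_lit 367) (nat_lit 246)) (XT.nd (nat_lit 78) (nat_lit 152) (nat_lit 0) (XT.lf (nat_lit 0) (nat_lit 9355378895) (nat_lit 152) (nat_lit 1931770287) (nat_lit 76) (nat_lit 15329005752) (nat_lit 27) (nat_lit 5) (nat_lit 29) (nat_lit 5) (nat_lit 28) (nat_lit 5) (nat_lit 528) (nat_lit 367) (nat_lit 245)) (XT.lf (nat_lit 0) (nat_lit 7626964240) (nat_lit 152) (nat_lit 6246415453) (nat_lit 228) (nat_lit 13167090946) (nat_lit 25) (nat_lit 5) (nat_lit 27)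 (nat_lit 5) (nat_lit 28) (nat_lit 5) (nat_lit 529) (nat_lit 367) (nat_lit 244)))) (XT.nd (nat_lit 49608) (nat_lit 0) (nat_lit 39596) (XT.nd (nat_lit 49530) (nat_lit 0) (nat_lit 40736) (XT.lf (nat_lit 0) (nat_lit 17374747583) (nat_lit 152) (nat_lit 1104123328) (nat_lit 228) (nat_lit 8994462247) (nat_lit 25) (nat_lit 5) (nat_lit 27) (nat_lit 5) (nat_lit 28) (nat_lit 5) (nat_lit 530) (nat_lit 367) (nat_lit 243)) (XT.lf (nat_lit 0) (nat_lit 468984757) (nat_lit 988) (nat_lit 1448236461) (nat_lit 988) (nat_lit 1448236461) (nat_lit 561) (nat_lit 4) (nat_lit 574) (nat_lit 5) (nat_lit 574) (nat_lit 4) (nat_lit 404) (nat_lit 368) (nat_lit 368))) (XT.nd (nat_lit 78) (nat_lit 1064) (nat_lit 0) (XT.lf (nat_lit 0) (nat_lit 233205787) (nat_lit 1064) (nat_lit 1602981366) (nat_lit 76) (nat_lit 4919823994) (nat_lit 560) (nat_lit 5) (nat_lit 574) (nat_lit 5) (nat_lit 561) (nat_lit 4) (nat_lit 405) (nat_lit 368) (nat_lit 367)) (XT.lf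 (nat_lit 0) (nat_lit 2630427751) (nat_lit 1064) (nat_lit 705153476) (nat_lit 1140) (nat_lit 3446737948) (nat_lit 546) (nat_lit 5) (nat_lit 560) (nat_lit 5) (nat_lit 561) (nat_lit 4) (nat_lit 406) (nat_lit 368) (nat_lit 366))))) (XT.nd (nat_lit 234) (nat_lit 2812) (nat_lit 0) (XT.nd (nat_lit 78) (nat_lit 1292) (nat_lit 0) (XT.lf (nat_lit 0) (nat_lit 102864435) (nat_lit 1140) (nat_lit 6344376119) (nat_lit 1140) (nat_lit 363037667) (nat_lit 531) (nat_lit 4) (nat_lit 546) (nat_lit 5) (nat_lit 546) (nat_lit 4) (nat_lit 407) (nat_lit 368) (nat_lit 365)) (XT.nd (nat_lit 78) (nat_lit 1216) (nat_lit 0) (XT.lf (nat_lit 0) (nat_lit 2711834891) (nat_lit 1216) (nat_lit 2419540096) (nat_lit 76) (nat_lit 1707807270) (nat_lit 530) (nat_lit 5) (nat_lit 546) (nat_lit 5) (nat_lit 531) (nat_lit 4) (nat_lit 408) (nat_lit 368) (nat_lit 364)) (XT.lf (nat_lit 0) (nat_lit 1920624128) (nat_lit 1216) (nat_lit 3869775913) (nat_lit 1292) (nat_lit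 1079340789) (nat_lit 514) (nat_lit 5) (nat_lit 530) (nat_lit 5) (nat_lit 531) (nat_lit 4) (nat_lit 409) (nat_lit 368) (nat_lit 363)))) (XT.nd (nat_lit 156) (nat_lit 1444) (nat_lit 0) (XT.nd (nat_lit 78) (nat_lit 1292) (nat_lit 0) (XT.lf (nat_lit 0) (nat_lit 1954361930) (nat_lit 1292) (nat_lit 590290574) (nat_lit 76) (nat_lit 4357030444) (nat_lit 513) (nat_lit 5) (nat_lit 530) (nat_lit 5) (nat_lit 514) (nat_lit 5) (nat_lit 410) (nat_lit 368) (nat_lit 362)) (XT.lf (nat_lit 0) (nat_lit 3843274591) (nat_lit 1292) (nat_lit 1152263638) (nat_lit 1368) (nat_lit 1939419744) (nat_lit 496) (nat_lit 5) (nat_lit 513) (nat_lit 5) (nat_lit 514) (nat_lit 5) (nat_lit 411) (nat_lit 368) (nat_lit 361))) (XT.nd (nat_lit 78) (nat_lit 0) (nat_lit 0) (XT.lf (nat_lit 0) (nat_lit 1065266406) (nat_lit 1444) (nat_lit 5612807384) (nat_lit 76) (nat_lit 291708961) (nat_lit 477) (nat_lit 5) (nat_lit 496) (nat_lit 5) (nat_lit 478) (nat_lit 5)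 (nat_lit 412) (nat_lit 368) (nat_lit 360)) (XT.lf (nat_lit 0) (nat_lit 4070237489) (nat_lit 1444) (nat_lit 1146193661) (nat_lit 76) (nat_lit 1789351510) (nat_lit 477) (nat_lit 5) (nat_lit 496) (nat_lit 5) (nat_lit 478) (nat_lit 5) (nat_lit 413) (nat_lit 368) (nat_lit 359)))))) (XT.nd (nat_lit 546) (nat_lit 3648) (nat_lit 0) (XT.nd (nat_lit 234) (nat_lit 4864) (nat_lit 0) (XT.nd (nat_lit 78) (nat_lit 1520) (nat_lit 0) (XT.lf (nat_lit 0) (nat_lit 52180411) (nat_lit 1520) (nat_lit 3645450605) (nat_lit 76) (nat_lit 3345703622) (nat_lit 457) (nat_lit 5) (nat_lit 477) (nat_lit 5) (nat_lit 458) (nat_lit 5) (nat_lit 414) (nat_lit 368) (nat_lit 358)) (XT.nd (nat_lit 78) (nat_lit 0) (nat_lit 0) (XT.lf (nat_lit 0) (nat_lit 902663248) (nat_lit 1520) (nat_lit 2110556716) (nat_lit 1596) (nat_lit 4069027155) (nat_lit 437) (nat_lit 5) (nat_lit 457) (nat_lit 5) (nat_lit 458) (nat_lit 5) (nat_lit 415) (nat_lit 368) (nat_lit 357))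 (XT.lf (nat_lit 0) (nat_lit 5534946536) (nat_lit 1520) (nat_lit 463049838) (nat_lit 1596) (nat_lit 1124704946) (nat_lit 437) (nat_lit 5) (nat_lit 457) (nat_lit 5) (nat_lit 458) (nat_lit 5) (nat_lit 416) (nat_lit 368) (nat_lit 356)))) (XT.nd (nat_lit 156) (nat_lit 1520) (nat_lit 0) (XT.nd (nat_lit 78) (nat_lit 1672) (nat_lit 0) (XT.lf (nat_lit 0) (nat_lit 1822711795) (nat_lit 1672) (nat_lit 4104688885) (nat_lit 76) (nat_lit 1236994800) (nat_lit 415) (nat_lit 5) (nat_lit 437) (nat_lit 5) (nat_lit 416) (nat_lit 5) (nat_lit 417) (nat_lit 368) (nat_lit 355)) (XT.lf (nat_lit 0) (nat_lit 554806422) (nat_lit 1672) (nat_lit 4218224635) (nat_lit 1748) (nat_lit 2434614191) (nat_lit 393) (nat_lit 5) (nat_lit 415) (nat_lit 5) (nat_lit 416) (nat_lit 5) (nat_lit 418) (nat_lit 368) (nat_lit 354))) (XT.nd (nat_lit 78) (nat_lit 1444) (nat_lit 0) (XT.lf (nat_lit 0) (nat_lit 493318739) (nat_lit 1748) (nat_lit 1948964774) (nat_lit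 76) (nat_lit 4810062703) (nat_lit 392) (nat_lit 5) (nat_lit 415) (nat_lit 5) (nat_lit 393) (nat_lit 5) (nat_lit 419) (nat_lit 368) (nat_lit 353)) (XT.lf (nat_lit 0) (nat_lit 2813627434) (nat_lit 1444) (nat_lit 594973859) (nat_lit 1520) (nat_lit 3889838011) (nat_lit 373) (nat_lit 5) (nat_lit 392) (nat_lit 5) (nat_lit 393) (nat_lit 5) (nat_lit 420) (nat_lit 368) (nat_lit 352))))) (XT.nd (nat_lit 234) (nat_lit 1824) (nat_lit 0) (XT.nd (nat_lit 78) (nat_lit 988) (nat_lit 0) (XT.lf (nat_lit 0) (nat_lit 291117727) (nat_lit 836) (nat_lit 6058346275) (nat_lit 912) (nat_lit 996691593) (nat_lit 362) (nat_lit 5) (nat_lit 373) (nat_lit 5) (nat_lit 374) (nat_lit 5) (nat_lit 421) (nat_lit 368) (nat_lit 351)) (XT.nd (nat_lit 78) (nat_lit 912) (nat_lit 0) (XT.lf (nat_lit 0) (nat_lit 1907091247) (nat_lit 912) (nat_lit 2245046577) (nat_lit 76) (nat_lit 3242911531) (nat_lit 361) (nat_lit 5) (nat_lit 373) (nat_lit 5) (nat_lit 362)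 (nat_lit 5) (nat_lit 422) (nat_lit 368) (nat_lit 350)) (XT.lf (nat_lit 0) (nat_lit 2632846007) (nat_lit 912) (nat_lit 2185129148) (nat_lit 988) (nat_lit 2627610779) (nat_lit 349) (nat_lit 5) (nat_lit 361) (nat_lit 5) (nat_lit 362) (nat_lit 5) (nat_lit 423) (nat_lit 368) (nat_lit 349)))) (XT.nd (nat_lit 156) (nat_lit 912) (nat_lit 0) (XT.nd (nat_lit 78) (nat_lit 0) (nat_lit 0) (XT.lf (nat_lit 0) (nat_lit 84397360) (nat_lit 836) (nat_lit 163031206) (nat_lit 912) (nat_lit 7250483687) (nat_lit 337) (nat_lit 5) (nat_lit 348) (nat_lit 5) (nat_lit 349) (nat_lit 5) (nat_lit 424) (nat_lit 368) (nat_lit 348)) (XT.lf (nat_lit 0) (nat_lit 3135920735) (nat_lit 912) (nat_lit 2493223046) (nat_lit 76) (nat_lit 1922012818) (nat_lit 337) (nat_lit 5) (nat_lit 349) (nat_lit 5) (nat_lit 338) (nat_lit 5) (nat_lit 425) (nat_lit 368) (nat_lit 347))) (XT.nd (nat_lit 78) (nat_lit 76) (nat_lit 0) (XT.lf (nat_lit 0) (nat_lit 2500969081) (nat_lit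 836) (nat_lit 3545845099) (nat_lit 912) (nat_lit 1559399792) (nat_lit 326) (nat_lit 5) (nat_lit 337) (nat_lit 5) (nat_lit 338) (nat_lit 5) (nat_lit 426) (nat_lit 368) (nat_lit 346)) (XT.lf (nat_lit 0) (nat_lit 1300242841) (nat_lit 912) (nat_lit 98687670) (nat_lit 76) (nat_lit 6264016565) (nat_lit 325) (nat_lit 5) (nat_lit 337) (nat_lit 5) (nat_lit 326) (nat_lit 5) (nat_lit 427) (nat_lit 368) (nat_lit 345))))))) (XT.nd (nat_lit 1092) (nat_lit 4864) (nat_lit 0) (XT.nd (nat_lit 546) (nat_lit 3420) (nat_lit 0) (XT.nd (nat_lit 234) (nat_lit 2204) (nat_lit 0) (XT.nd (nat_lit 78) (nat_lit 836) (nat_lit 0) (XT.lf (nat_lit 0) (nat_lit 4182751860) (nat_lit 836) (nat_lit 2718545963) (nat_lit 76) (nat_lit 819618205) (nat_lit 315) (nat_lit 5) (nat_lit 326) (nat_lit 5) (nat_lit 316) (nat_lit 5) (nat_lit 428) (nat_lit 368) (nat_lit 344)) (XT.nd (nat_lit 78) (nat_lit 76) (nat_lit 0) (XT.lf (nat_lit 0) (nat_lit 2392726696) (nat_lit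 760) (nat_lit 4704899248) (nat_lit 836) (nat_lit 682961782) (nat_lit 305) (nat_lit 5) (nat_lit 315) (nat_lit 5) (nat_lit 316) (nat_lit 5) (nat_lit 429) (nat_lit 368) (nat_lit 343)) (XT.lf (nat_lit 0) (nat_lit 2167983395) (nat_lit 836) (nat_lit 269086672) (nat_lit 76) (nat_lit 5404771964) (nat_lit 304) (nat_lit 5) (nat_lit 315) (nat_lit 5) (nat_lit 305) (nat_lit 5) (nat_lit 430) (nat_lit 368) (nat_lit 342)))) (XT.nd (nat_lit 156) (nat_lit 684) (nat_lit 0) (XT.nd (nat_lit 78) (nat_lit 836) (nat_lit 0) (XT.lf (nat_lit 0) (nat_lit 4957183134) (nat_lit 684) (nat_lit 92316598) (nat_lit 760) (nat_lit 2855112951) (nat_lit 295) (nat_lit 5) (nat_lit 304) (nat_lit 5) (nat_lit 305) (nat_lit 5) (nat_lit 431) (nat_lit 368) (nat_lit 341)) (XT.lf (nat_lit 0) (nat_lit 2235727) (nat_lit 836) (nat_lit 5687003582) (nat_lit 76) (nat_lit 2279781146) (nat_lit 284) (nat_lit 5) (nat_lit 295) (nat_lit 5) (nat_lit 285) (nat_lit 5) (nat_lit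 432) (nat_lit 368) (nat_lit 340))) (XT.nd (nat_lit 78) (nat_lit 684) (nat_lit 0) (XT.lf (nat_lit 0) (nat_lit 2850379690) (nat_lit 836) (nat_lit 454257731) (nat_lit 76) (nat_lit 4730297394) (nat_lit 284) (nat_lit 5) (nat_lit 295) (nat_lit 5) (nat_lit 285) (nat_lit 5) (nat_lit 433) (nat_lit 368) (nat_lit 339)) (XT.lf (nat_lit 0) (nat_lit 4892115833) (nat_lit 684) (nat_lit 847409421) (nat_lit 760) (nat_lit 2362994221) (nat_lit 275) (nat_lit 5) (nat_lit 284) (nat_lit 5) (nat_lit 285) (nat_lit 5) (nat_lit 434) (nat_lit 368) (nat_lit 338))))) (XT.nd (nat_lit 234) (nat_lit 2052) (nat_lit 0) (XT.nd (nat_lit 78) (nat_lit 608) (nat_lit 0) (XT.lf (nat_lit 0) (nat_lit 488633981) (nat_lit 760) (nat_lit 6033364474) (nat_lit 76) (nat_lit 1649814208) (nat_lit 265) (nat_lit 5) (nat_lit 275) (nat_lit 5) (nat_lit 266) (nat_lit 5) (nat_lit 435) (nat_lit 368) (nat_lit 337)) (XT.nd (nat_lit 78) (nat_lit 608) (nat_lit 0) (XT.lf (nat_lit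 0) (nat_lit 3346013676) (nat_lit 760) (nat_lit 681708113) (nat_lit 76) (nat_lit 4214881247) (nat_lit 265) (nat_lit 5) (nat_lit 275) (nat_lit 5) (nat_lit 266) (nat_lit 5) (nat_lit 436) (nat_lit 368) (nat_lit 336)) (XT.lf (nat_lit 0) (nat_lit 4784795047) (nat_lit 608) (nat_lit 1460764618) (nat_lit 684) (nat_lit 2069579468) (nat_lit 257) (nat_lit 5) (nat_lit 265) (nat_lit 5) (nat_lit 266) (nat_lit 5) (nat_lit 437) (nat_lit 368) (nat_lit 335)))) (XT.nd (nat_lit 156) (nat_lit 1292) (nat_lit 0) (XT.nd (nat_lit 78) (nat_lit 0) (nat_lit 0) (XT.lf (nat_lit 0) (nat_lit 782307958) (nat_lit 760) (nat_lit 6451402138) (nat_lit 76) (nat_lit 1155759022) (nat_lit 247) (nat_lit 5) (nat_lit 257) (nat_lit 5) (nat_lit 248) (nat_lit 5) (nat_lit 438) (nat_lit 368) (nat_lit 334)) (XT.lf (nat_lit 0) (nat_lit 3651719570) (nat_lit 760) (nat_lit 980372934) (nat_lit 76) (nat_lit 3833184182) (nat_lit 247) (nat_lit 5) (nat_lit 257) (nat_lit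 5) (nat_lit 248) (nat_lit 5) (nat_lit 439) (nat_lit 368) (nat_lit 333))) (XT.nd (nat_lit 78) (nat_lit 684) (nat_lit 0) (XT.lf (nat_lit 0) (nat_lit 4605850667) (nat_lit 608) (nat_lit 1958113088) (nat_lit 684) (nat_lit 1978955748) (nat_lit 239) (nat_lit 5) (nat_lit 247) (nat_lit 5) (nat_lit 248) (nat_lit 5) (nat_lit 440) (nat_lit 368) (nat_lit 332)) (XT.lf (nat_lit 0) (nat_lit 878567991) (nat_lit 684) (nat_lit 6971674472) (nat_lit 76) (nat_lit 772217224) (nat_lit 230) (nat_lit 5) (nat_lit 239) (nat_lit 5) (nat_lit 231) (nat_lit 5) (nat_lit 441) (nat_lit 368) (nat_lit 331)))))) (XT.nd (nat_lit 546) (nat_lit 2508) (nat_lit 0) (XT.nd (nat_lit 234) (nat_lit 1140) (nat_lit 0) (XT.nd (nat_lit 78) (nat_lit 1216) (nat_lit 0) (XT.lf (nat_lit 0) (nat_lit 3762516360) (nat_lit 684) (nat_lit 1380904739) (nat_lit 76) (nat_lit 3560018883) (nat_lit 230) (nat_lit 5) (nat_lit 239) (nat_lit 5) (nat_lit 231) (nat_lit 5) (nat_lit 442)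 (nat_lit 368) (nat_lit 330)) (XT.nd (nat_lit 78) (nat_lit 684) (nat_lit 0) (XT.lf (nat_lit 0) (nat_lit 4324118904) (nat_lit 532) (nat_lit 2365144150) (nat_lit 608) (nat_lit 2097100294) (nat_lit 223) (nat_lit 5) (nat_lit 230) (nat_lit 5) (nat_lit 231) (nat_lit 5) (nat_lit 443) (nat_lit 368) (nat_lit 329)) (XT.lf (nat_lit 0) (nat_lit 770836669) (nat_lit 684) (nat_lit 7626710940) (nat_lit 76) (nat_lit 473762542) (nat_lit 214) (nat_lit 5) (nat_lit 223) (nat_lit 5) (nat_lit 215) (nat_lit 5) (nat_lit 444) (nat_lit 368) (nat_lit 328)))) (XT.nd (nat_lit 156) (nat_lit 608) (nat_lit 0) (XT.nd (nat_lit 78) (nat_lit 532) (nat_lit 0) (XT.lf (nat_lit 0) (nat_lit 3671524243) (nat_lit 684) (nat_lit 1915983568) (nat_lit 76) (nat_lit 3370125764) (nat_lit 214) (nat_lit 5) (nat_lit 223) (nat_lit 5) (nat_lit 215) (nat_lit 5) (nat_lit 445) (nat_lit 368) (nat_lit 327)) (XT.lf (nat_lit 0) (nat_lit 3906324214) (nat_lit 532) (nat_lit 2707734660)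 (nat_lit 608) (nat_lit 2431971811) (nat_lit 207) (nat_lit 5) (nat_lit 214) (nat_lit 5) (nat_lit 215) (nat_lit 5) (nat_lit 446) (nat_lit 368) (nat_lit 326))) (XT.nd (nat_lit 78) (nat_lit 0) (nat_lit 0) (XT.lf (nat_lit 0) (nat_lit 450551672) (nat_lit 608) (nat_lit 8451341722) (nat_lit 76) (nat_lit 234711297) (nat_lit 199) (nat_lit 5) (nat_lit 207) (nat_lit 5) (nat_lit 200) (nat_lit 5) (nat_lit 447) (nat_lit 368) (nat_lit 325)) (XT.lf (nat_lit 0) (nat_lit 3369863967) (nat_lit 608) (nat_lit 2620650442) (nat_lit 76) (nat_lit 3237942719) (nat_lit 199) (nat_lit 5) (nat_lit 207) (nat_lit 5) (nat_lit 200) (nat_lit 5) (nat_lit 448) (nat_lit 368) (nat_lit 324))))) (XT.nd (nat_lit 312) (nat_lit 988) (nat_lit 0) (XT.nd (nat_lit 156) (nat_lit 1064) (nat_lit 0) (XT.nd (nat_lit 78) (nat_lit 0) (nat_lit 0) (XT.lf (nat_lit 0) (nat_lit 3316736869) (nat_lit 456) (nat_lit 3012185034) (nat_lit 532) (nat_lit 2993619589) (nat_lit 193)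 (nat_lit 5) (nat_lit 199) (nat_lit 5) (nat_lit 200) (nat_lit 5) (nat_lit 449) (nat_lit 368) (nat_lit 323)) (XT.lf (nat_lit 0) (nat_lit 9325211911) (nat_lit 532) (nat_lit 63839345) (nat_lit 76) (nat_lit 29916902) (nat_lit 193) (nat_lit 5) (nat_lit 200) (nat_lit 5) (nat_lit 194) (nat_lit 5) (nat_lit 450) (nat_lit 368) (nat_lit 322))) (XT.nd (nat_lit 78) (nat_lit 456) (nat_lit 0) (XT.lf (nat_lit 0) (nat_lit 2846537954) (nat_lit 608) (nat_lit 3532667406) (nat_lit 76) (nat_lit 3137366940) (nat_lit 185) (nat_lit 5) (nat_lit 193) (nat_lit 5) (nat_lit 186) (nat_lit 5) (nat_lit 451) (nat_lit 368) (nat_lit 321)) (XT.lf (nat_lit 0) (nat_lit 2516802947) (nat_lit 456) (nat_lit 3305464221) (nat_lit 532) (nat_lit 3794311657) (nat_lit 179) (nat_lit 5) (nat_lit 185) (nat_lit 5) (nat_lit 186) (nat_lit 5) (nat_lit 452) (nat_lit 368) (nat_lit 320)))) (XT.nd (nat_lit 156) (nat_lit 456) (nat_lit 0) (XT.nd (nat_lit 78) (nat_lit 532)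 (nat_lit 0) (XT.lf (nat_lit 0) (nat_lit 8682566117) (nat_lit 456) (nat_lit 160183391) (nat_lit 532) (nat_lit 876151189) (nat_lit 179) (nat_lit 5) (nat_lit 185) (nat_lit 5) (nat_lit 186) (nat_lit 5) (nat_lit 453) (nat_lit 368) (nat_lit 319)) (XT.lf (nat_lit 0) (nat_lit 2088291864) (nat_lit 532) (nat_lit 4692907583) (nat_lit 76) (nat_lit 3041506704) (nat_lit 172) (nat_lit 5) (nat_lit 179) (nat_lit 5) (nat_lit 173) (nat_lit 5) (nat_lit 454) (nat_lit 368) (nat_lit 318))) (XT.nd (nat_lit 78) (nat_lit 0) (nat_lit 0) (XT.lf (nat_lit 0) (nat_lit 1464743181) (nat_lit 456) (nat_lit 3615465792) (nat_lit 532) (nat_lit 4848683409) (nat_lit 166) (nat_lit 5) (nat_lit 172) (nat_lit 5) (nat_lit 173) (nat_lit 5) (nat_lit 455) (nat_lit 368) (nat_lit 317)) (XT.lf (nat_lit 0) (nat_lit 7757093840) (nat_lit 456) (nat_lit 369097538) (nat_lit 532) (nat_lit 1911144886) (nat_lit 166) (nat_lit 5) (nat_lit 172) (nat_lit 5) (nat_lit 173) (nat_lit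 5) (nat_lit 456) (nat_lit 368) (nat_lit 316))))))))
noncomputable def xc73 : XT := (XT.nd (nat_lit 2184) (nat_lit 3116) (nat_lit 0) (XT.nd (nat_lit 1092) (nat_lit 2584) (nat_lit 0) (XT.nd (nat_lit 546) (nat_lit 1596) (nat_lit 0) (XT.nd (nat_lit 234) (nat_lit 1292) (nat_lit 0) (XT.nd (nat_lit 78) (nat_lit 380) (nat_lit 0) (XT.lf (nat_lit 0) (nat_lit 1079455102) (nat_lit 532) (nat_lit 6145778980) (nat_lit 76) (nat_lit 2922420928) (nat_lit 159) (nat_lit 5) (nat_lit 166) (nat_lit 5) (nat_lit 160) (nat_lit 5) (nat_lit 457) (nat_lit 368) (nat_lit 315)) (XT.nd (nat_lit 78) (nat_lit 0) (nat_lit 0) (XT.lf (nat_lit 0) (nat_lit 115116825) (nat_lit 380) (nat_lit 3971277429) (nat_lit 456) (nat_lit 6173908274) (nat_lit 154) (nat_lit 5) (nat_lit 159) (nat_lit 5) (nat_lit 160) (nat_lit 5) (nat_lit 458) (nat_lit 368) (nat_lit 314)) (XT.lf (nat_lit 0) (nat_lit 6533016683) (nat_lit 380) (nat_lit 625576857) (nat_lit 456) (nat_lit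 3216524087) (nat_lit 154) (nat_lit 5) (nat_lit 159) (nat_lit 5) (nat_lit 160) (nat_lit 5) (nat_lit 459) (nat_lit 368) (nat_lit 313)))) (XT.nd (nat_lit 156) (nat_lit 760) (nat_lit 0) (XT.nd (nat_lit 78) (nat_lit 76) (nat_lit 0) (XT.lf (nat_lit 0) (nat_lit 2551272395) (nat_lit 456) (nat_lit 7740114406) (nat_lit 532) (nat_lit 200875948) (nat_lit 148) (nat_lit 5) (nat_lit 154) (nat_lit 5) (nat_lit 155) (nat_lit 5) (nat_lit 460) (nat_lit 368) (nat_lit 312)) (XT.lf (nat_lit 0) (nat_lit 2832081707) (nat_lit 532) (nat_lit 1560910029) (nat_lit 76) (nat_lit 6218507698) (nat_lit 147) (nat_lit 5) (nat_lit 154) (nat_lit 5) (nat_lit 148) (nat_lit 5) (nat_lit 461) (nat_lit 368) (nat_lit 311))) (XT.nd (nat_lit 78) (nat_lit 380) (nat_lit 0) (XT.lf (nat_lit 0) (nat_lit 4960213139) (nat_lit 380) (nat_lit 960304778) (nat_lit 456) (nat_lit 4812641956) (nat_lit 142) (nat_lit 5) (nat_lit 147) (nat_lit 5) (nat_lit 148) (nat_lit 5) (nat_lit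 462) (nat_lit 368) (nat_lit 310)) (XT.lf (nat_lit 0) (nat_lit 718172095) (nat_lit 380) (nat_lit 8349811909) (nat_lit 456) (nat_lit 1789339742) (nat_lit 137) (nat_lit 5) (nat_lit 142) (nat_lit 5) (nat_lit 143) (nat_lit 5) (nat_lit 463) (nat_lit 368) (nat_lit 309))))) (XT.nd (nat_lit 234) (nat_lit 1140) (nat_lit 0) (XT.nd (nat_lit 78) (nat_lit 380) (nat_lit 0) (XT.lf (nat_lit 0) (nat_lit 1288472433) (nat_lit 456) (nat_lit 3631540720) (nat_lit 76) (nat_lit 6063584097) (nat_lit 136) (nat_lit 5) (nat_lit 142) (nat_lit 5) (nat_lit 137) (nat_lit 5) (nat_lit 464) (nat_lit 368) (nat_lit 308)) (XT.nd (nat_lit 78) (nat_lit 0) (nat_lit 0) (XT.lf (nat_lit 0) (nat_lit 2983808375) (nat_lit 380) (nat_lit 1405806597) (nat_lit 456) (nat_lit 6722844591) (nat_lit 131) (nat_lit 5) (nat_lit 136) (nat_lit 5) (nat_lit 137) (nat_lit 5) (nat_lit 465) (nat_lit 368) (nat_lit 307)) (XT.lf (nat_lit 0) (nat_lit 7558030179) (nat_lit 456) (nat_lit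 1526974515) (nat_lit 76) (nat_lit 2158803705) (nat_lit 131) (nat_lit 5) (nat_lit 137) (nat_lit 5) (nat_lit 132) (nat_lit 5) (nat_lit 466) (nat_lit 368) (nat_lit 306)))) (XT.nd (nat_lit 156) (nat_lit 380) (nat_lit 0) (XT.nd (nat_lit 78) (nat_lit 380) (nat_lit 0) (XT.lf (nat_lit 0) (nat_lit 5216878487) (nat_lit 380) (nat_lit 5583345457) (nat_lit 456) (nat_lit 577366056) (nat_lit 126) (nat_lit 5) (nat_lit 131) (nat_lit 5) (nat_lit 132) (nat_lit 5) (nat_lit 467) (nat_lit 368) (nat_lit 305)) (XT.lf (nat_lit 0) (nat_lit 543596405) (nat_lit 304) (nat_lit 1996778695) (nat_lit 380) (nat_lit 8973725422) (nat_lit 121) (nat_lit 5) (nat_lit 125) (nat_lit 5) (nat_lit 126) (nat_lit 5) (nat_lit 468) (nat_lit 368) (nat_lit 304))) (XT.nd (nat_lit 78) (nat_lit 380) (nat_lit 0) (XT.lf (nat_lit 0) (nat_lit 5732695015) (nat_lit 380) (nat_lit 4251222551) (nat_lit 76) (nat_lit 1668961449) (nat_lit 121) (nat_lit 5) (nat_lit 126) (nat_lit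 5) (nat_lit 122) (nat_lit 5) (nat_lit 469) (nat_lit 368) (nat_lit 303)) (XT.lf (nat_lit 0) (nat_lit 2574631237) (nat_lit 380) (nat_lit 6412350936) (nat_lit 456) (nat_lit 2807501414) (nat_lit 116) (nat_lit 5) (nat_lit 121) (nat_lit 5) (nat_lit 122) (nat_lit 5) (nat_lit 470) (nat_lit 368) (nat_lit 302)))))) (XT.nd (nat_lit 546) (nat_lit 1216) (nat_lit 0) (XT.nd (nat_lit 234) (nat_lit 988) (nat_lit 0) (XT.nd (nat_lit 78) (nat_lit 304) (nat_lit 0) (XT.lf (nat_lit 0) (nat_lit 359604491) (nat_lit 456) (nat_lit 2394768112) (nat_lit 76) (nat_lit 9184572588) (nat_lit 115) (nat_lit 5) (nat_lit 121) (nat_lit 5) (nat_lit 116) (nat_lit 5) (nat_lit 471) (nat_lit 368) (nat_lit 301)) (XT.nd (nat_lit 78) (nat_lit 0) (nat_lit 0) (XT.lf (nat_lit 0) (nat_lit 3557553446) (nat_lit 380) (nat_lit 7532005631) (nat_lit 76) (nat_lit 996276114) (nat_lit 111) (nat_lit 5) (nat_lit 116) (nat_lit 5) (nat_lit 112) (nat_lit 5) (nat_lit 472) (nat_lit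 368) (nat_lit 300)) (XT.lf (nat_lit 0) (nat_lit 6822969620) (nat_lit 380) (nat_lit 627558785) (nat_lit 76) (nat_lit 4785076363) (nat_lit 111) (nat_lit 5) (nat_lit 116) (nat_lit 5) (nat_lit 112) (nat_lit 5) (nat_lit 473) (nat_lit 368) (nat_lit 299)))) (XT.nd (nat_lit 156) (nat_lit 304) (nat_lit 0) (XT.nd (nat_lit 78) (nat_lit 380) (nat_lit 0) (XT.lf (nat_lit 0) (nat_lit 6452811890) (nat_lit 304) (nat_lit 3712475010) (nat_lit 380) (nat_lit 2222862691) (nat_lit 107) (nat_lit 5) (nat_lit 111) (nat_lit 5) (nat_lit 112) (nat_lit 5) (nat_lit 474) (nat_lit 368) (nat_lit 298)) (XT.lf (nat_lit 0) (nat_lit 999013324) (nat_lit 380) (nat_lit 11444213973) (nat_lit 76) (nat_lit 100758907) (nat_lit 102) (nat_lit 5) (nat_lit 107) (nat_lit 5) (nat_lit 103) (nat_lit 5) (nat_lit 475) (nat_lit 368) (nat_lit 297))) (XT.nd (nat_lit 78) (nat_lit 304) (nat_lit 0) (XT.lf (nat_lit 0) (nat_lit 4290230506) (nat_lit 380) (nat_lit 4432767012)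 (nat_lit 76) (nat_lit 3978965845) (nat_lit 102) (nat_lit 5) (nat_lit 107) (nat_lit 5) (nat_lit 103) (nat_lit 5) (nat_lit 476) (nat_lit 368) (nat_lit 296)) (XT.lf (nat_lit 0) (nat_lit 2708258742) (nat_lit 304) (nat_lit 4927147121) (nat_lit 380) (nat_lit 5227942345) (nat_lit 98) (nat_lit 5) (nat_lit 102) (nat_lit 5) (nat_lit 103) (nat_lit 5) (nat_lit 477) (nat_lit 368) (nat_lit 295))))) (XT.nd (nat_lit 234) (nat_lit 912) (nat_lit 0) (XT.nd (nat_lit 78) (nat_lit 304) (nat_lit 0) (XT.lf (nat_lit 0) (nat_lit 10006326635) (nat_lit 304) (nat_lit 1041733969) (nat_lit 380) (nat_lit 1979899232) (nat_lit 98) (nat_lit 5) (nat_lit 102) (nat_lit 5) (nat_lit 103) (nat_lit 5) (nat_lit 478) (nat_lit 368) (nat_lit 294)) (XT.nd (nat_lit 78) (nat_lit 0) (nat_lit 0) (XT.lf (nat_lit 0) (nat_lit 1333557937) (nat_lit 304) (nat_lit 8958524791) (nat_lit 76) (nat_lit 2903259313) (nat_lit 94) (nat_lit 5) (nat_lit 98) (nat_lit 5) (nat_lit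 95) (nat_lit 5) (nat_lit 479) (nat_lit 368) (nat_lit 293)) (XT.lf (nat_lit 0) (nat_lit 4685474851) (nat_lit 304) (nat_lit 1749949723) (nat_lit 76) (nat_lit 6930421536) (nat_lit 94) (nat_lit 5) (nat_lit 98) (nat_lit 5) (nat_lit 95) (nat_lit 5) (nat_lit 480) (nat_lit 368) (nat_lit 292)))) (XT.nd (nat_lit 156) (nat_lit 608) (nat_lit 0) (XT.nd (nat_lit 78) (nat_lit 0) (nat_lit 0) (XT.lf (nat_lit 0) (nat_lit 5632020617) (nat_lit 304) (nat_lit 2480904474) (nat_lit 380) (nat_lit 5426675069) (nat_lit 90) (nat_lit 5) (nat_lit 94) (nat_lit 5) (nat_lit 95) (nat_lit 5) (nat_lit 481) (nat_lit 368) (nat_lit 291)) (XT.lf (nat_lit 0) (nat_lit 11602909678) (nat_lit 380) (nat_lit 586207915) (nat_lit 76) (nat_lit 1527841595) (nat_lit 90) (nat_lit 5) (nat_lit 95) (nat_lit 5) (nat_lit 91) (nat_lit 5) (nat_lit 482) (nat_lit 368) (nat_lit 290))) (XT.nd (nat_lit 78) (nat_lit 304) (nat_lit 0) (XT.lf (nat_lit 0) (nat_lit 1282392607) (nat_lit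 304) (nat_lit 6993748311) (nat_lit 76) (nat_lit 5620886419) (nat_lit 86) (nat_lit 5) (nat_lit 90) (nat_lit 5) (nat_lit 87) (nat_lit 5) (nat_lit 483) (nat_lit 368) (nat_lit 289)) (XT.lf (nat_lit 0) (nat_lit 417320300) (nat_lit 304) (nat_lit 4280527256) (nat_lit 380) (nat_lit 9382991045) (nat_lit 82) (nat_lit 5) (nat_lit 86) (nat_lit 5) (nat_lit 87) (nat_lit 5) (nat_lit 484) (nat_lit 368) (nat_lit 288))))))) (XT.nd (nat_lit 1092) (nat_lit 1368) (nat_lit 0) (XT.nd (nat_lit 546) (nat_lit 988) (nat_lit 0) (XT.nd (nat_lit 234) (nat_lit 456) (nat_lit 0) (XT.nd (nat_lit 78) (nat_lit 304) (nat_lit 0) (XT.lf (nat_lit 0) (nat_lit 8027691637) (nat_lit 304) (nat_lit 173798537) (nat_lit 380) (nat_lit 6066447219) (nat_lit 82) (nat_lit 5) (nat_lit 86) (nat_lit 5) (nat_lit 87) (nat_lit 5) (nat_lit 485) (nat_lit 368) (nat_lit 287)) (XT.nd (nat_lit 78) (nat_lit 76) (nat_lit 0) (XT.lf (nat_lit 0) (nat_lit 1278900247) (nat_lit 228)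 (nat_lit 10504048525) (nat_lit 304) (nat_lit 2675683225) (nat_lit 79) (nat_lit 5) (nat_lit 82) (nat_lit 5) (nat_lit 83) (nat_lit 5) (nat_lit 486) (nat_lit 368) (nat_lit 286)) (XT.lf (nat_lit 0) (nat_lit 789362772) (nat_lit 304) (nat_lit 5669170169) (nat_lit 76) (nat_lit 8194179563) (nat_lit 78) (nat_lit 5) (nat_lit 82) (nat_lit 5) (nat_lit 79) (nat_lit 5) (nat_lit 487) (nat_lit 368) (nat_lit 285)))) (XT.nd (nat_lit 156) (nat_lit 228) (nat_lit 0) (XT.nd (nat_lit 78) (nat_lit 0) (nat_lit 0) (XT.lf (nat_lit 0) (nat_lit 1957026961) (nat_lit 228) (nat_lit 2317547010) (nat_lit 304) (nat_lit 10576021287) (nat_lit 75) (nat_lit 5) (nat_lit 78) (nat_lit 5) (nat_lit 79) (nat_lit 5) (nat_lit 488) (nat_lit 368) (nat_lit 284)) (XT.lf (nat_lit 0) (nat_lit 7854242818) (nat_lit 304) (nat_lit 5294368836) (nat_lit 76) (nat_lit 1903336985) (nat_lit 75) (nat_lit 5) (nat_lit 79) (nat_lit 5) (nat_lit 76) (nat_lit 5) (nat_lit 489) (nat_lit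 368) (nat_lit 283))) (XT.nd (nat_lit 78) (nat_lit 0) (nat_lit 0) (XT.lf (nat_lit 0) (nat_lit 2431532569) (nat_lit 228) (nat_lit 9079697458) (nat_lit 304) (nat_lit 3745992440) (nat_lit 72) (nat_lit 5) (nat_lit 75) (nat_lit 5) (nat_lit 76) (nat_lit 5) (nat_lit 490) (nat_lit 368) (nat_lit 282)) (XT.lf (nat_lit 0) (nat_lit 10342169684) (nat_lit 228) (nat_lit 4909533643) (nat_lit 304) (nat_lit 214699241) (nat_lit 72) (nat_lit 5) (nat_lit 75) (nat_lit 5) (nat_lit 76) (nat_lit 5) (nat_lit 491) (nat_lit 368) (nat_lit 281))))) (XT.nd (nat_lit 234) (nat_lit 456) (nat_lit 0) (XT.nd (nat_lit 78) (nat_lit 228) (nat_lit 0) (XT.lf (nat_lit 0) (nat_lit 2703648038) (nat_lit 228) (nat_lit 631842796) (nat_lit 304) (nat_lit 12343989122) (nat_lit 68) (nat_lit 5) (nat_lit 71) (nat_lit 5) (nat_lit 72) (nat_lit 5) (nat_lit 492) (nat_lit 368) (nat_lit 280)) (XT.nd (nat_lit 78) (nat_lit 228) (nat_lit 0) (XT.lf (nat_lit 0) (nat_lit 6987912029)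 (nat_lit 304) (nat_lit 5205657393) (nat_lit 76) (nat_lit 3702546322) (nat_lit 68) (nat_lit 5) (nat_lit 72) (nat_lit 5) (nat_lit 69) (nat_lit 5) (nat_lit 493) (nat_lit 368) (nat_lit 279)) (XT.lf (nat_lit 0) (nat_lit 2710901146) (nat_lit 228) (nat_lit 8000009676) (nat_lit 304) (nat_lit 5406229980) (nat_lit 65) (nat_lit 5) (nat_lit 68) (nat_lit 5) (nat_lit 69) (nat_lit 5) (nat_lit 494) (nat_lit 368) (nat_lit 278)))) (XT.nd (nat_lit 156) (nat_lit 152) (nat_lit 0) (XT.nd (nat_lit 78) (nat_lit 304) (nat_lit 0) (XT.lf (nat_lit 0) (nat_lit 10816231588) (nat_lit 228) (nat_lit 3703029626) (nat_lit 304) (nat_lit 1823114312) (nat_lit 65) (nat_lit 5) (nat_lit 68) (nat_lit 5) (nat_lit 69) (nat_lit 5) (nat_lit 495) (nat_lit 368) (nat_lit 277)) (XT.lf (nat_lit 0) (nat_lit 1804589584) (nat_lit 304) (nat_lit 14083836873) (nat_lit 76) (nat_lit 683518394) (nat_lit 61) (nat_lit 5) (nat_lit 65) (nat_lit 5) (nat_lit 62) (nat_lit 5) (nat_lit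 496) (nat_lit 368) (nat_lit 276))) (XT.nd (nat_lit 78) (nat_lit 152) (nat_lit 0) (XT.lf (nat_lit 0) (nat_lit 5518685104) (nat_lit 304) (nat_lit 6144424975) (nat_lit 76) (nat_lit 5141996081) (nat_lit 61) (nat_lit 5) (nat_lit 65) (nat_lit 5) (nat_lit 62) (nat_lit 5) (nat_lit 497) (nat_lit 368) (nat_lit 275)) (XT.lf (nat_lit 0) (nat_lit 1940229678) (nat_lit 152) (nat_lit 7356267302) (nat_lit 228) (nat_lit 7746651490) (nat_lit 59) (nat_lit 5) (nat_lit 61) (nat_lit 5) (nat_lit 62) (nat_lit 5) (nat_lit 498) (nat_lit 368) (nat_lit 274)))))) (XT.nd (nat_lit 546) (nat_lit 608) (nat_lit 0) (XT.nd (nat_lit 234) (nat_lit 456) (nat_lit 0) (XT.nd (nat_lit 78) (nat_lit 304) (nat_lit 0) (XT.lf (nat_lit 0) (nat_lit 10231131305) (nat_lit 152) (nat_lit 2937005980) (nat_lit 228) (nat_lit 4117455234) (nat_lit 59) (nat_lit 5) (nat_lit 61) (nat_lit 5) (nat_lit 62) (nat_lit 5) (nat_lit 499) (nat_lit 368) (nat_lit 273)) (XT.nd (nat_lit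 78) (nat_lit 76) (nat_lit 0) (XT.lf (nat_lit 0) (nat_lit 1121139928) (nat_lit 228) (nat_lit 15990936942) (nat_lit 304) (nat_lit 420917464) (nat_lit 56) (nat_lit 5) (nat_lit 59) (nat_lit 5) (nat_lit 60) (nat_lit 5) (nat_lit 500) (nat_lit 368) (nat_lit 272)) (XT.lf (nat_lit 0) (nat_lit 3350155418) (nat_lit 304) (nat_lit 8308416222) (nat_lit 76) (nat_lit 6125452880) (nat_lit 55) (nat_lit 5) (nat_lit 59) (nat_lit 5) (nat_lit 56) (nat_lit 5) (nat_lit 501) (nat_lit 368) (nat_lit 271)))) (XT.nd (nat_lit 156) (nat_lit 304) (nat_lit 0) (XT.nd (nat_lit 78) (nat_lit 152) (nat_lit 0) (XT.lf (nat_lit 0) (nat_lit 7168892767) (nat_lit 304) (nat_lit 83329759) (nat_lit 76) (nat_lit 10788245412) (nat_lit 55) (nat_lit 5) (nat_lit 59) (nat_lit 5) (nat_lit 56) (nat_lit 5) (nat_lit 502) (nat_lit 368) (nat_lit 270)) (XT.lf (nat_lit 0) (nat_lit 8379258870) (nat_lit 152) (nat_lit 2717457369) (nat_lit 228) (nat_lit 7204675497) (nat_lit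 53) (nat_lit 5) (nat_lit 55) (nat_lit 5) (nat_lit 56) (nat_lit 5) (nat_lit 503) (nat_lit 368) (nat_lit 269))) (XT.nd (nat_lit 78) (nat_lit 304) (nat_lit 0) (XT.lf (nat_lit 0) (nat_lit 15094443784) (nat_lit 228) (nat_lit 1604675423) (nat_lit 76) (nat_lit 1868593478) (nat_lit 53) (nat_lit 5) (nat_lit 56) (nat_lit 5) (nat_lit 54) (nat_lit 5) (nat_lit 504) (nat_lit 368) (nat_lit 268)) (XT.lf (nat_lit 0) (nat_lit 370389525) (nat_lit 304) (nat_lit 11925398716) (nat_lit 76) (nat_lit 6542694252) (nat_lit 49) (nat_lit 5) (nat_lit 53) (nat_lit 5) (nat_lit 50) (nat_lit 5) (nat_lit 505) (nat_lit 368) (nat_lit 267))))) (XT.nd (nat_lit 312) (nat_lit 228) (nat_lit 0) (XT.nd (nat_lit 156) (nat_lit 228) (nat_lit 0) (XT.nd (nat_lit 78) (nat_lit 152) (nat_lit 0) (XT.lf (nat_lit 0) (nat_lit 4234154324) (nat_lit 304) (nat_lit 3550887574) (nat_lit 76) (nat_lit 11329377128) (nat_lit 49) (nat_lit 5) (nat_lit 53) (nat_lit 5) (nat_lit 50)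 (nat_lit 5) (nat_lit 506) (nat_lit 368) (nat_lit 266)) (XT.lf (nat_lit 0) (nat_lit 5021369852) (nat_lit 152) (nat_lit 3165698466) (nat_lit 228) (nat_lit 11208573694) (nat_lit 47) (nat_lit 5) (nat_lit 49) (nat_lit 5) (nat_lit 50) (nat_lit 5) (nat_lit 507) (nat_lit 368) (nat_lit 265))) (XT.nd (nat_lit 78) (nat_lit 228) (nat_lit 0) (XT.lf (nat_lit 0) (nat_lit 12232417049) (nat_lit 228) (nat_lit 5914688750) (nat_lit 76) (nat_lit 1535121226) (nat_lit 47) (nat_lit 5) (nat_lit 50) (nat_lit 5) (nat_lit 48) (nat_lit 5) (nat_lit 508) (nat_lit 368) (nat_lit 264)) (XT.lf (nat_lit 0) (nat_lit 2693460547) (nat_lit 228) (nat_lit 13683422149) (nat_lit 304) (nat_lit 3597301841) (nat_lit 44) (nat_lit 5) (nat_lit 47) (nat_lit 5) (nat_lit 48) (nat_lit 5) (nat_lit 509) (nat_lit 368) (nat_lit 263)))) (XT.nd (nat_lit 156) (nat_lit 152) (nat_lit 0) (XT.nd (nat_lit 78) (nat_lit 0) (nat_lit 0) (XT.lf (nat_lit 0) (nat_lit 347643197) (nat_lit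 304) (nat_lit 8754688787) (nat_lit 76) (nat_lit 11169215987) (nat_lit 43) (nat_lit 5) (nat_lit 47) (nat_lit 5) (nat_lit 44) (nat_lit 5) (nat_lit 510) (nat_lit 368) (nat_lit 262)) (XT.lf (nat_lit 0) (nat_lit 4303551366) (nat_lit 304) (nat_lit 116298532) (nat_lit 76) (nat_lit 16154933279) (nat_lit 43) (nat_lit 5) (nat_lit 47) (nat_lit 5) (nat_lit 44) (nat_lit 5) (nat_lit 511) (nat_lit 368) (nat_lit 261))) (XT.nd (nat_lit 78) (nat_lit 0) (nat_lit 0) (XT.lf (nat_lit 0) (nat_lit 8378732872) (nat_lit 228) (nat_lit 12109641544) (nat_lit 76) (nat_lit 394910182) (nat_lit 41) (nat_lit 5) (nat_lit 44) (nat_lit 5) (nat_lit 42) (nat_lit 5) (nat_lit 512) (nat_lit 368) (nat_lit 260)) (XT.lf (nat_lit 0) (nat_lit 12546121291) (nat_lit 228) (nat_lit 3418001412) (nat_lit 76) (nat_lit 5233623806) (nat_lit 41) (nat_lit 5) (nat_lit 44) (nat_lit 5) (nat_lit 42) (nat_lit 5) (nat_lit 513) (nat_lit 368) (nat_lit 259))))))))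
noncomputable def xc74 : XT := (XT.nd (nat_lit 51480) (nat_lit 0) (nat_lit 15580) (XT.nd (nat_lit 1092) (nat_lit 152) (nat_lit 0) (XT.nd (nat_lit 546) (nat_lit 532) (nat_lit 0) (XT.nd (nat_lit 234) (nat_lit 152) (nat_lit 0) (XT.nd (nat_lit 78) (nat_lit 228) (nat_lit 0) (XT.lf (nat_lit 0) (nat_lit 5486342355) (nat_lit 152) (nat_lit 11327162726) (nat_lit 228) (nat_lit 4704664063) (nat_lit 39) (nat_lit 5) (nat_lit 41) (nat_lit 5) (nat_lit 42) (nat_lit 5) (nat_lit 514) (nat_lit 368) (nat_lit 258)) (XT.nd (nat_lit 78) (nat_lit 228) (nat_lit 0) (XT.lf (nat_lit 0) (nat_lit 14582239030) (nat_lit 152) (nat_lit 6588119374) (nat_lit 228) (nat_lit 674563740) (nat_lit 39) (nat_lit 5) (nat_lit 41) (nat_lit 5) (nat_lit 42) (nat_lit 5) (nat_lit 515) (nat_lit 368) (nat_lit 257)) (XT.lf (nat_lit 0) (nat_lit 1648684084) (nat_lit 152) (nat_lit 1734521097) (nat_lit 228) (nat_lit 18794720368) (nat_lit 36) (nat_lit 5) (nat_lit 38) (nat_lit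 5) (nat_lit 39) (nat_lit 5) (nat_lit 516) (nat_lit 368) (nat_lit 256)))) (XT.nd (nat_lit 156) (nat_lit 152) (nat_lit 0) (XT.nd (nat_lit 78) (nat_lit 0) (nat_lit 0) (XT.lf (nat_lit 0) (nat_lit 7564538741) (nat_lit 228) (nat_lit 11738100916) (nat_lit 76) (nat_lit 3213835453) (nat_lit 36) (nat_lit 5) (nat_lit 39) (nat_lit 5) (nat_lit 37) (nat_lit 5) (nat_lit 517) (nat_lit 368) (nat_lit 255)) (XT.lf (nat_lit 0) (nat_lit 11822841420) (nat_lit 228) (nat_lit 2814527777) (nat_lit 76) (nat_lit 8224563635) (nat_lit 36) (nat_lit 5) (nat_lit 39) (nat_lit 5) (nat_lit 37) (nat_lit 5) (nat_lit 518) (nat_lit 368) (nat_lit 254))) (XT.nd (nat_lit 78) (nat_lit 0) (nat_lit 0) (XT.lf (nat_lit 0) (nat_lit 6339381179) (nat_lit 152) (nat_lit 9850299770) (nat_lit 228) (nat_lit 7024155284) (nat_lit 34) (nat_lit 5) (nat_lit 36) (nat_lit 5) (nat_lit 37) (nat_lit 5) (nat_lit 519) (nat_lit 368) (nat_lit 253)) (XT.lf (nat_lit 0) (nat_lit 15683447984)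 (nat_lit 152) (nat_lit 4961654632) (nat_lit 228) (nat_lit 2927654040) (nat_lit 34) (nat_lit 5) (nat_lit 36) (nat_lit 5) (nat_lit 37) (nat_lit 5) (nat_lit 520) (nat_lit 368) (nat_lit 252))))) (XT.nd (nat_lit 234) (nat_lit 304) (nat_lit 0) (XT.nd (nat_lit 78) (nat_lit 0) (nat_lit 0) (XT.lf (nat_lit 0) (nat_lit 1225277604) (nat_lit 228) (nat_lit 22685907269) (nat_lit 76) (nat_lit 27693821) (nat_lit 31) (nat_lit 5) (nat_lit 34) (nat_lit 5) (nat_lit 32) (nat_lit 5) (nat_lit 521) (nat_lit 368) (nat_lit 251)) (XT.nd (nat_lit 78) (nat_lit 0) (nat_lit 0) (XT.lf (nat_lit 0) (nat_lit 5490897502) (nat_lit 228) (nat_lit 13709582342) (nat_lit 76) (nat_lit 5110083314) (nat_lit 31) (nat_lit 5) (nat_lit 34) (nat_lit 5) (nat_lit 32) (nat_lit 5) (nat_lit 522) (nat_lit 368) (nat_lit 250)) (XT.lf (nat_lit 0) (nat_lit 9824813724) (nat_lit 228) (nat_lit 4583886897) (nat_lit 76) (nat_lit 10281324581) (nat_lit 31) (nat_lit 5) (nat_lit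 34) (nat_lit 5) (nat_lit 32) (nat_lit 5) (nat_lit 523) (nat_lit 368) (nat_lit 249)))) (XT.nd (nat_lit 156) (nat_lit 152) (nat_lit 0) (XT.nd (nat_lit 78) (nat_lit 0) (nat_lit 0) (XT.lf (nat_lit 0) (nat_lit 4757148631) (nat_lit 152) (nat_lit 9502463776) (nat_lit 228) (nat_lit 10817183495) (nat_lit 29) (nat_lit 5) (nat_lit 31) (nat_lit 5) (nat_lit 32) (nat_lit 5) (nat_lit 524) (nat_lit 368) (nat_lit 248)) (XT.lf (nat_lit 0) (nat_lit 14317770483) (nat_lit 152) (nat_lit 4479550866) (nat_lit 228) (nat_lit 6673699812) (nat_lit 29) (nat_lit 5) (nat_lit 31) (nat_lit 5) (nat_lit 32) (nat_lit 5) (nat_lit 525) (nat_lit 368) (nat_lit 247))) (XT.nd (nat_lit 78) (nat_lit 152) (nat_lit 0) (XT.lf (nat_lit 0) (nat_lit 23413661369) (nat_lit 228) (nat_lit 1836746721) (nat_lit 76) (nat_lit 622968660) (nat_lit 29) (nat_lit 5) (nat_lit 32) (nat_lit 5) (nat_lit 30) (nat_lit 4) (nat_lit 526) (nat_lit 368) (nat_lit 246)) (XT.lf (nat_lit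 0) (nat_lit 1878589337) (nat_lit 152) (nat_lit 18585811161) (nat_lit 76) (nat_lit 5817860373) (nat_lit 27) (nat_lit 5) (nat_lit 29) (nat_lit 5) (nat_lit 28) (nat_lit 5) (nat_lit 527) (nat_lit 368) (nat_lit 245)))))) (XT.nd (nat_lit 49842) (nat_lit 0) (nat_lit 34352) (XT.nd (nat_lit 49530) (nat_lit 0) (nat_lit 40660) (XT.nd (nat_lit 78) (nat_lit 152) (nat_lit 0) (XT.lf (nat_lit 0) (nat_lit 6267200557) (nat_lit 152) (nat_lit 9298738664) (nat_lit 76) (nat_lit 11133131928) (nat_lit 27) (nat_lit 5) (nat_lit 29) (nat_lit 5) (nat_lit 28) (nat_lit 5) (nat_lit 528) (nat_lit 368) (nat_lit 244)) (XT.nd (nat_lit 78) (nat_lit 0) (nat_lit 0) (XT.lf (nat_lit 0) (nat_lit 148077122) (nat_lit 152) (nat_lit 10580819321) (nat_lit 228) (nat_lit 16395618049) (nat_lit 25) (nat_lit 5) (nat_lit 27) (nat_lit 5) (nat_lit 28) (nat_lit 5) (nat_lit 529) (nat_lit 368) (nat_lit 243)) (XT.lf (nat_lit 0) (nat_lit 9882119671) (nat_lit 152) (nat_lit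 5444583660) (nat_lit 228) (nat_lit 12230828873) (nat_lit 25) (nat_lit 5) (nat_lit 27) (nat_lit 5) (nat_lit 28) (nat_lit 5) (nat_lit 530) (nat_lit 368) (nat_lit 242)))) (XT.nd (nat_lit 156) (nat_lit 1064) (nat_lit 0) (XT.nd (nat_lit 78) (nat_lit 988) (nat_lit 0) (XT.lf (nat_lit 0) (nat_lit 3042650769) (nat_lit 836) (nat_lit 149814652) (nat_lit 836) (nat_lit 149814652) (nat_lit 587) (nat_lit 4) (nat_lit 598) (nat_lit 5) (nat_lit 598) (nat_lit 4) (nat_lit 402) (nat_lit 369) (nat_lit 369)) (XT.lf (nat_lit 0) (nat_lit 2807393512) (nat_lit 988) (nat_lit 3208037189) (nat_lit 0) (nat_lit 691855314) (nat_lit 574) (nat_lit 5) (nat_lit 587) (nat_lit 4) (nat_lit 574) (nat_lit 4) (nat_lit 403) (nat_lit 369) (nat_lit 368))) (XT.nd (nat_lit 78) (nat_lit 76) (nat_lit 0) (XT.lf (nat_lit 0) (nat_lit 910351977) (nat_lit 988) (nat_lit 5005439490) (nat_lit 988) (nat_lit 815844236) (nat_lit 561) (nat_lit 4) (nat_lit 574) (nat_lit 5)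 (nat_lit 574) (nat_lit 4) (nat_lit 404) (nat_lit 369) (nat_lit 367)) (XT.lf (nat_lit 0) (nat_lit 2252770512) (nat_lit 1064) (nat_lit 1672388090) (nat_lit 76) (nat_lit 2832013370) (nat_lit 560) (nat_lit 5) (nat_lit 574) (nat_lit 5) (nat_lit 561) (nat_lit 4) (nat_lit 405) (nat_lit 369) (nat_lit 366))))) (XT.nd (nat_lit 234) (nat_lit 4028) (nat_lit 0) (XT.nd (nat_lit 78) (nat_lit 1216) (nat_lit 0) (XT.lf (nat_lit 0) (nat_lit 2532719941) (nat_lit 1064) (nat_lit 2788677761) (nat_lit 1140) (nat_lit 1462791711) (nat_lit 546) (nat_lit 5) (nat_lit 560) (nat_lit 5) (nat_lit 561) (nat_lit 4) (nat_lit 406) (nat_lit 369) (nat_lit 365)) (XT.nd (nat_lit 78) (nat_lit 1140) (nat_lit 0) (XT.lf (nat_lit 0) (nat_lit 1563008421) (nat_lit 1140) (nat_lit 32813318) (nat_lit 76) (nat_lit 5216882186) (nat_lit 545) (nat_lit 5) (nat_lit 560) (nat_lit 5) (nat_lit 546) (nat_lit 5) (nat_lit 407) (nat_lit 369) (nat_lit 364)) (XT.lf (nat_lit 0)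 (nat_lit 4262341402) (nat_lit 1140) (nat_lit 329956837) (nat_lit 1216) (nat_lit 2250111471) (nat_lit 530) (nat_lit 5) (nat_lit 545) (nat_lit 5) (nat_lit 546) (nat_lit 5) (nat_lit 408) (nat_lit 369) (nat_lit 363)))) (XT.nd (nat_lit 156) (nat_lit 2736) (nat_lit 0) (XT.nd (nat_lit 78) (nat_lit 0) (nat_lit 0) (XT.lf (nat_lit 0) (nat_lit 752052400) (nat_lit 1292) (nat_lit 5146181097) (nat_lit 76) (nat_lit 975369941) (nat_lit 513) (nat_lit 5) (nat_lit 530) (nat_lit 5) (nat_lit 514) (nat_lit 5) (nat_lit 409) (nat_lit 369) (nat_lit 362)) (XT.lf (nat_lit 0) (nat_lit 3740057441) (nat_lit 1292) (nat_lit 821934434) (nat_lit 76) (nat_lit 2344074954) (nat_lit 513) (nat_lit 5) (nat_lit 530) (nat_lit 5) (nat_lit 514) (nat_lit 5) (nat_lit 410) (nat_lit 369) (nat_lit 361))) (XT.nd (nat_lit 78) (nat_lit 1444) (nat_lit 0) (XT.lf (nat_lit 0) (nat_lit 3581162031) (nat_lit 1292) (nat_lit 3167446439) (nat_lit 1368) (nat_lit 191415880)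 (nat_lit 496) (nat_lit 5) (nat_lit 513) (nat_lit 5) (nat_lit 514) (nat_lit 5) (nat_lit 411) (nat_lit 369) (nat_lit 360)) (XT.lf (nat_lit 0) (nat_lit 1049050263) (nat_lit 1368) (nat_lit 1706641106) (nat_lit 1444) (nat_lit 4219652670) (nat_lit 477) (nat_lit 5) (nat_lit 495) (nat_lit 5) (nat_lit 496) (nat_lit 5) (nat_lit 412) (nat_lit 369) (nat_lit 359))))))) (XT.nd (nat_lit 1092) (nat_lit 7296) (nat_lit 0) (XT.nd (nat_lit 546) (nat_lit 5016) (nat_lit 0) (XT.nd (nat_lit 234) (nat_lit 3420) (nat_lit 0) (XT.nd (nat_lit 78) (nat_lit 3040) (nat_lit 0) (XT.lf (nat_lit 0) (nat_lit 5534603085) (nat_lit 1368) (nat_lit 185910421) (nat_lit 1444) (nat_lit 1291661681) (nat_lit 477) (nat_lit 5) (nat_lit 495) (nat_lit 5) (nat_lit 496) (nat_lit 5) (nat_lit 413) (nat_lit 369) (nat_lit 358)) (XT.nd (nat_lit 78) (nat_lit 1520) (nat_lit 0) (XT.lf (nat_lit 0) (nat_lit 1641016558) (nat_lit 1520) (nat_lit 4025130674) (nat_lit 76) (nat_lit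 1384063384) (nat_lit 457) (nat_lit 5) (nat_lit 477) (nat_lit 5) (nat_lit 458) (nat_lit 5) (nat_lit 414) (nat_lit 369) (nat_lit 357)) (XT.lf (nat_lit 0) (nat_lit 490111745) (nat_lit 1520) (nat_lit 4079769823) (nat_lit 1596) (nat_lit 2519911649) (nat_lit 437) (nat_lit 5) (nat_lit 457) (nat_lit 5) (nat_lit 458) (nat_lit 5) (nat_lit 415) (nat_lit 369) (nat_lit 356)))) (XT.nd (nat_lit 156) (nat_lit 1748) (nat_lit 0) (XT.nd (nat_lit 78) (nat_lit 1596) (nat_lit 0) (XT.lf (nat_lit 0) (nat_lit 389531141) (nat_lit 1596) (nat_lit 2038303177) (nat_lit 76) (nat_lit 4702969850) (nat_lit 436) (nat_lit 5) (nat_lit 457) (nat_lit 5) (nat_lit 437) (nat_lit 5) (nat_lit 416) (nat_lit 369) (nat_lit 355)) (XT.lf (nat_lit 0) (nat_lit 2576559132) (nat_lit 1596) (nat_lit 705570682) (nat_lit 1672) (nat_lit 3891048909) (nat_lit 415) (nat_lit 5) (nat_lit 436) (nat_lit 5) (nat_lit 437) (nat_lit 5) (nat_lit 417) (nat_lit 369) (nat_lit 354)))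 (XT.nd (nat_lit 78) (nat_lit 76) (nat_lit 0) (XT.lf (nat_lit 0) (nat_lit 33039583) (nat_lit 1672) (nat_lit 6163099681) (nat_lit 1748) (nat_lit 1021040025) (nat_lit 393) (nat_lit 5) (nat_lit 415) (nat_lit 5) (nat_lit 416) (nat_lit 5) (nat_lit 418) (nat_lit 369) (nat_lit 353)) (XT.lf (nat_lit 0) (nat_lit 1860181368) (nat_lit 1748) (nat_lit 2517234249) (nat_lit 76) (nat_lit 2884868175) (nat_lit 392) (nat_lit 5) (nat_lit 415) (nat_lit 5) (nat_lit 393) (nat_lit 5) (nat_lit 419) (nat_lit 369) (nat_lit 352))))) (XT.nd (nat_lit 234) (nat_lit 2660) (nat_lit 0) (XT.nd (nat_lit 78) (nat_lit 912) (nat_lit 0) (XT.lf (nat_lit 0) (nat_lit 2210198057) (nat_lit 1444) (nat_lit 2533728141) (nat_lit 1520) (nat_lit 2565104619) (nat_lit 373) (nat_lit 5) (nat_lit 392) (nat_lit 5) (nat_lit 393) (nat_lit 5) (nat_lit 420) (nat_lit 369) (nat_lit 351)) (XT.nd (nat_lit 78) (nat_lit 836) (nat_lit 0) (XT.lf (nat_lit 0) (nat_lit 285863854) (nat_lit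 1520) (nat_lit 347776289) (nat_lit 76) (nat_lit 6723844163) (nat_lit 372) (nat_lit 5) (nat_lit 392) (nat_lit 5) (nat_lit 373) (nat_lit 5) (nat_lit 421) (nat_lit 369) (nat_lit 350)) (XT.lf (nat_lit 0) (nat_lit 3143060933) (nat_lit 912) (nat_lit 2930114578) (nat_lit 76) (nat_lit 1333765256) (nat_lit 361) (nat_lit 5) (nat_lit 373) (nat_lit 5) (nat_lit 362) (nat_lit 5) (nat_lit 422) (nat_lit 369) (nat_lit 349)))) (XT.nd (nat_lit 156) (nat_lit 1672) (nat_lit 0) (XT.nd (nat_lit 78) (nat_lit 76) (nat_lit 0) (XT.lf (nat_lit 0) (nat_lit 1911021212) (nat_lit 912) (nat_lit 4111671568) (nat_lit 988) (nat_lit 1435431025) (nat_lit 349) (nat_lit 5) (nat_lit 361) (nat_lit 5) (nat_lit 362) (nat_lit 5) (nat_lit 423) (nat_lit 369) (nat_lit 348)) (XT.lf (nat_lit 0) (nat_lit 1397009715) (nat_lit 988) (nat_lit 686294633) (nat_lit 76) (nat_lit 5427550814) (nat_lit 348) (nat_lit 5) (nat_lit 361) (nat_lit 5) (nat_lit 349) (nat_lit 5) (nat_lit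 424) (nat_lit 369) (nat_lit 347))) (XT.nd (nat_lit 78) (nat_lit 836) (nat_lit 0) (XT.lf (nat_lit 0) (nat_lit 4242406925) (nat_lit 912) (nat_lit 3301406078) (nat_lit 76) (nat_lit 21168587) (nat_lit 337) (nat_lit 5) (nat_lit 349) (nat_lit 5) (nat_lit 338) (nat_lit 5) (nat_lit 425) (nat_lit 369) (nat_lit 346)) (XT.lf (nat_lit 0) (nat_lit 1654393927) (nat_lit 836) (nat_lit 5467839059) (nat_lit 912) (nat_lit 498447110) (nat_lit 326) (nat_lit 5) (nat_lit 337) (nat_lit 5) (nat_lit 338) (nat_lit 5) (nat_lit 426) (nat_lit 369) (nat_lit 345)))))) (XT.nd (nat_lit 546) (nat_lit 4104) (nat_lit 0) (XT.nd (nat_lit 234) (nat_lit 1520) (nat_lit 0) (XT.nd (nat_lit 78) (nat_lit 1596) (nat_lit 0) (XT.lf (nat_lit 0) (nat_lit 2321849125) (nat_lit 912) (nat_lit 994083954) (nat_lit 76) (nat_lit 4361870008) (nat_lit 325) (nat_lit 5) (nat_lit 337) (nat_lit 5) (nat_lit 326) (nat_lit 5) (nat_lit 427) (nat_lit 369) (nat_lit 344)) (XT.nd (nat_lit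 78) (nat_lit 836) (nat_lit 0) (XT.lf (nat_lit 0) (nat_lit 4073288610) (nat_lit 760) (nat_lit 1094676235) (nat_lit 836) (nat_lit 2568553706) (nat_lit 315) (nat_lit 5) (nat_lit 325) (nat_lit 5) (nat_lit 326) (nat_lit 5) (nat_lit 428) (nat_lit 369) (nat_lit 343)) (XT.lf (nat_lit 0) (nat_lit 244532271) (nat_lit 836) (nat_lit 6383498621) (nat_lit 76) (nat_lit 1168907195) (nat_lit 304) (nat_lit 5) (nat_lit 315) (nat_lit 5) (nat_lit 305) (nat_lit 5) (nat_lit 429) (nat_lit 369) (nat_lit 342)))) (XT.nd (nat_lit 156) (nat_lit 836) (nat_lit 0) (XT.nd (nat_lit 78) (nat_lit 684) (nat_lit 0) (XT.lf (nat_lit 0) (nat_lit 3062016938) (nat_lit 836) (nat_lit 1296570117) (nat_lit 76) (nat_lit 3500024288) (nat_lit 304) (nat_lit 5) (nat_lit 315) (nat_lit 5) (nat_lit 305) (nat_lit 5) (nat_lit 430) (nat_lit 369) (nat_lit 341)) (XT.lf (nat_lit 0) (nat_lit 3888813700) (nat_lit 684) (nat_lit 2023760126) (nat_lit 760) (nat_lit 2009444585)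 (nat_lit 295) (nat_lit 5) (nat_lit 304) (nat_lit 5) (nat_lit 305) (nat_lit 5) (nat_lit 431) (nat_lit 369) (nat_lit 340))) (XT.nd (nat_lit 78) (nat_lit 0) (nat_lit 0) (XT.lf (nat_lit 0) (nat_lit 792983897) (nat_lit 836) (nat_lit 6825527138) (nat_lit 76) (nat_lit 368698472) (nat_lit 284) (nat_lit 5) (nat_lit 295) (nat_lit 5) (nat_lit 285) (nat_lit 5) (nat_lit 432) (nat_lit 369) (nat_lit 339)) (XT.lf (nat_lit 0) (nat_lit 3617502049) (nat_lit 836) (nat_lit 1620102169) (nat_lit 76) (nat_lit 2816008397) (nat_lit 284) (nat_lit 5) (nat_lit 295) (nat_lit 5) (nat_lit 285) (nat_lit 5) (nat_lit 433) (nat_lit 369) (nat_lit 338))))) (XT.nd (nat_lit 312) (nat_lit 2052) (nat_lit 0) (XT.nd (nat_lit 156) (nat_lit 608) (nat_lit 0) (XT.nd (nat_lit 78) (nat_lit 760) (nat_lit 0) (XT.lf (nat_lit 0) (nat_lit 3683636795) (nat_lit 684) (nat_lit 2792002011) (nat_lit 760) (nat_lit 1646194560) (nat_lit 275) (nat_lit 5) (nat_lit 284) (nat_lit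 5) (nat_lit 285) (nat_lit 5) (nat_lit 434) (nat_lit 369) (nat_lit 337)) (XT.lf (nat_lit 0) (nat_lit 873405427) (nat_lit 684) (nat_lit 280439757) (nat_lit 760) (nat_lit 7038047338) (nat_lit 265) (nat_lit 5) (nat_lit 274) (nat_lit 5) (nat_lit 275) (nat_lit 5) (nat_lit 435) (nat_lit 369) (nat_lit 336))) (XT.nd (nat_lit 78) (nat_lit 608) (nat_lit 0) (XT.lf (nat_lit 0) (nat_lit 3986608354) (nat_lit 760) (nat_lit 1992207841) (nat_lit 76) (nat_lit 2284374025) (nat_lit 265) (nat_lit 5) (nat_lit 275) (nat_lit 5) (nat_lit 266) (nat_lit 5) (nat_lit 436) (nat_lit 369) (nat_lit 335)) (XT.lf (nat_lit 0) (nat_lit 3429860493) (nat_lit 608) (nat_lit 3425147968) (nat_lit 684) (nat_lit 1481355477) (nat_lit 257) (nat_lit 5) (nat_lit 265) (nat_lit 5) (nat_lit 266) (nat_lit 5) (nat_lit 437) (nat_lit 369) (nat_lit 334)))) (XT.nd (nat_lit 156) (nat_lit 1292) (nat_lit 0) (XT.nd (nat_lit 78) (nat_lit 0) (nat_lit 0) (XT.lf (nat_lit 0) (nat_lit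 520349981) (nat_lit 684) (nat_lit 803365521) (nat_lit 760) (nat_lit 7087698203) (nat_lit 247) (nat_lit 5) (nat_lit 256) (nat_lit 5) (nat_lit 257) (nat_lit 5) (nat_lit 438) (nat_lit 369) (nat_lit 333)) (XT.lf (nat_lit 0) (nat_lit 4165901283) (nat_lit 760) (nat_lit 2441864453) (nat_lit 76) (nat_lit 1880013908) (nat_lit 247) (nat_lit 5) (nat_lit 257) (nat_lit 5) (nat_lit 248) (nat_lit 5) (nat_lit 439) (nat_lit 369) (nat_lit 332))) (XT.nd (nat_lit 78) (nat_lit 684) (nat_lit 0) (XT.lf (nat_lit 0) (nat_lit 3098068715) (nat_lit 608) (nat_lit 3948708949) (nat_lit 684) (nat_lit 1519285735) (nat_lit 239) (nat_lit 5) (nat_lit 247) (nat_lit 5) (nat_lit 248) (nat_lit 5) (nat_lit 440) (nat_lit 369) (nat_lit 331)) (XT.lf (nat_lit 0) (nat_lit 74678304) (nat_lit 608) (nat_lit 1220703313) (nat_lit 684) (nat_lit 7350911887) (nat_lit 230) (nat_lit 5) (nat_lit 238) (nat_lit 5) (nat_lit 239) (nat_lit 5) (nat_lit 441) (nat_lit 369) (nat_lit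 330))))))))
noncomputable def xc75 : XT := (XT.nd (nat_lit 2184) (nat_lit 4560) (nat_lit 0) (XT.nd (nat_lit 1092) (nat_lit 3876) (nat_lit 0) (XT.nd (nat_lit 546) (nat_lit 2052) (nat_lit 0) (XT.nd (nat_lit 234) (nat_lit 1748) (nat_lit 0) (XT.nd (nat_lit 78) (nat_lit 608) (nat_lit 0) (XT.lf (nat_lit 0) (nat_lit 4150139178) (nat_lit 684) (nat_lit 2999787714) (nat_lit 76) (nat_lit 1577943521) (nat_lit 230) (nat_lit 5) (nat_lit 239) (nat_lit 5) (nat_lit 231) (nat_lit 5) (nat_lit 442) (nat_lit 369) (nat_lit 329)) (XT.nd (nat_lit 78) (nat_lit 76) (nat_lit 0) (XT.lf (nat_lit 0) (nat_lit 2657030727) (nat_lit 532) (nat_lit 4388183075) (nat_lit 608) (nat_lit 1766225967) (nat_lit 223) (nat_lit 5) (nat_lit 230) (nat_lit 5) (nat_lit 231) (nat_lit 5) (nat_lit 443) (nat_lit 369) (nat_lit 328)) (XT.lf (nat_lit 0) (nat_lit 1065395292) (nat_lit 608) (nat_lit 489354950) (nat_lit 76) (nat_lit 7342244949) (nat_lit 222) (nat_lit 5) (nat_lit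 230) (nat_lit 5) (nat_lit 223) (nat_lit 5) (nat_lit 444) (nat_lit 369) (nat_lit 327)))) (XT.nd (nat_lit 156) (nat_lit 608) (nat_lit 0) (XT.nd (nat_lit 78) (nat_lit 532) (nat_lit 0) (XT.lf (nat_lit 0) (nat_lit 3932188654) (nat_lit 684) (nat_lit 3698741115) (nat_lit 76) (nat_lit 1353078555) (nat_lit 214) (nat_lit 5) (nat_lit 223) (nat_lit 5) (nat_lit 215) (nat_lit 5) (nat_lit 445) (nat_lit 369) (nat_lit 326)) (XT.lf (nat_lit 0) (nat_lit 2073383720) (nat_lit 532) (nat_lit 4769283036) (nat_lit 608) (nat_lit 2230391401) (nat_lit 207) (nat_lit 5) (nat_lit 214) (nat_lit 5) (nat_lit 215) (nat_lit 5) (nat_lit 446) (nat_lit 369) (nat_lit 325))) (XT.nd (nat_lit 78) (nat_lit 532) (nat_lit 0) (XT.lf (nat_lit 0) (nat_lit 623412284) (nat_lit 608) (nat_lit 1209696257) (nat_lit 76) (nat_lit 7331030109) (nat_lit 206) (nat_lit 5) (nat_lit 214) (nat_lit 5) (nat_lit 207) (nat_lit 5) (nat_lit 447) (nat_lit 369) (nat_lit 324)) (XT.lf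 (nat_lit 0) (nat_lit 3502922946) (nat_lit 608) (nat_lit 4573868818) (nat_lit 76) (nat_lit 1180006280) (nat_lit 199) (nat_lit 5) (nat_lit 207) (nat_lit 5) (nat_lit 200) (nat_lit 5) (nat_lit 448) (nat_lit 369) (nat_lit 323))))) (XT.nd (nat_lit 234) (nat_lit 988) (nat_lit 0) (XT.nd (nat_lit 78) (nat_lit 608) (nat_lit 0) (XT.lf (nat_lit 0) (nat_lit 1311290971) (nat_lit 456) (nat_lit 5118170556) (nat_lit 532) (nat_lit 2922081977) (nat_lit 193) (nat_lit 5) (nat_lit 199) (nat_lit 5) (nat_lit 200) (nat_lit 5) (nat_lit 449) (nat_lit 369) (nat_lit 322)) (XT.nd (nat_lit 78) (nat_lit 608) (nat_lit 0) (XT.lf (nat_lit 0) (nat_lit 7324128498) (nat_lit 456) (nat_lit 2082142651) (nat_lit 532) (nat_lit 42099127) (nat_lit 193) (nat_lit 5) (nat_lit 199) (nat_lit 5) (nat_lit 200) (nat_lit 5) (nat_lit 450) (nat_lit 369) (nat_lit 321)) (XT.lf (nat_lit 0) (nat_lit 2851102081) (nat_lit 608) (nat_lit 5663055193) (nat_lit 76) (nat_lit 1032748839)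 (nat_lit 185) (nat_lit 5) (nat_lit 193) (nat_lit 5) (nat_lit 186) (nat_lit 5) (nat_lit 451) (nat_lit 369) (nat_lit 320)))) (XT.nd (nat_lit 156) (nat_lit 532) (nat_lit 0) (XT.nd (nat_lit 78) (nat_lit 0) (nat_lit 0) (XT.lf (nat_lit 0) (nat_lit 332072325) (nat_lit 456) (nat_lit 5461699936) (nat_lit 532) (nat_lit 3853811452) (nat_lit 179) (nat_lit 5) (nat_lit 185) (nat_lit 5) (nat_lit 186) (nat_lit 5) (nat_lit 452) (nat_lit 369) (nat_lit 319)) (XT.lf (nat_lit 0) (nat_lit 6472314806) (nat_lit 456) (nat_lit 2323269868) (nat_lit 532) (nat_lit 954704008) (nat_lit 179) (nat_lit 5) (nat_lit 185) (nat_lit 5) (nat_lit 186) (nat_lit 5) (nat_lit 453) (nat_lit 369) (nat_lit 318))) (XT.nd (nat_lit 78) (nat_lit 0) (nat_lit 0) (XT.lf (nat_lit 0) (nat_lit 1963233549) (nat_lit 532) (nat_lit 7007314450) (nat_lit 76) (nat_lit 884516375) (nat_lit 172) (nat_lit 5) (nat_lit 179) (nat_lit 5) (nat_lit 173) (nat_lit 5) (nat_lit 454) (nat_lit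 369) (nat_lit 317)) (XT.lf (nat_lit 0) (nat_lit 4927359944) (nat_lit 532) (nat_lit 894311607) (nat_lit 76) (nat_lit 4140144011) (nat_lit 172) (nat_lit 5) (nat_lit 179) (nat_lit 5) (nat_lit 173) (nat_lit 5) (nat_lit 455) (nat_lit 369) (nat_lit 316)))))) (XT.nd (nat_lit 546) (nat_lit 1596) (nat_lit 0) (XT.nd (nat_lit 234) (nat_lit 1292) (nat_lit 0) (XT.nd (nat_lit 78) (nat_lit 532) (nat_lit 0) (XT.lf (nat_lit 0) (nat_lit 5360883921) (nat_lit 456) (nat_lit 2588488540) (nat_lit 532) (nat_lit 2121375341) (nat_lit 166) (nat_lit 5) (nat_lit 172) (nat_lit 5) (nat_lit 173) (nat_lit 5) (nat_lit 456) (nat_lit 369) (nat_lit 315)) (XT.nd (nat_lit 78) (nat_lit 0) (nat_lit 0) (XT.lf (nat_lit 0) (nat_lit 823411960) (nat_lit 532) (nat_lit 8651214094) (nat_lit 76) (nat_lit 707447804) (nat_lit 159) (nat_lit 5) (nat_lit 166) (nat_lit 5) (nat_lit 160) (nat_lit 5) (nat_lit 457) (nat_lit 369) (nat_lit 314)) (XT.lf (nat_lit 0) (nat_lit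 3811888079) (nat_lit 532) (nat_lit 2416999254) (nat_lit 76) (nat_lit 4066211747) (nat_lit 159) (nat_lit 5) (nat_lit 166) (nat_lit 5) (nat_lit 160) (nat_lit 5) (nat_lit 458) (nat_lit 369) (nat_lit 313)))) (XT.nd (nat_lit 156) (nat_lit 912) (nat_lit 0) (XT.nd (nat_lit 78) (nat_lit 0) (nat_lit 0) (XT.lf (nat_lit 0) (nat_lit 3943774366) (nat_lit 380) (nat_lit 2906881082) (nat_lit 456) (nat_lit 3559935648) (nat_lit 154) (nat_lit 5) (nat_lit 159) (nat_lit 5) (nat_lit 160) (nat_lit 5) (nat_lit 459) (nat_lit 369) (nat_lit 312)) (XT.lf (nat_lit 0) (nat_lit 9934837968) (nat_lit 456) (nat_lit 116911602) (nat_lit 76) (nat_lit 476966980) (nat_lit 154) (nat_lit 5) (nat_lit 160) (nat_lit 5) (nat_lit 155) (nat_lit 5) (nat_lit 460) (nat_lit 369) (nat_lit 311))) (XT.nd (nat_lit 78) (nat_lit 380) (nat_lit 0) (XT.lf (nat_lit 0) (nat_lit 2426281708) (nat_lit 532) (nat_lit 4289452528) (nat_lit 76) (nat_lit 3932636866) (nat_lit 147)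 (nat_lit 5) (nat_lit 154) (nat_lit 5) (nat_lit 148) (nat_lit 5) (nat_lit 461) (nat_lit 369) (nat_lit 310)) (XT.lf (nat_lit 0) (nat_lit 2170681162) (nat_lit 380) (nat_lit 3309084661) (nat_lit 456) (nat_lit 5290972407) (nat_lit 142) (nat_lit 5) (nat_lit 147) (nat_lit 5) (nat_lit 148) (nat_lit 5) (nat_lit 462) (nat_lit 369) (nat_lit 309))))) (XT.nd (nat_lit 234) (nat_lit 1140) (nat_lit 0) (XT.nd (nat_lit 78) (nat_lit 456) (nat_lit 0) (XT.lf (nat_lit 0) (nat_lit 8590602236) (nat_lit 456) (nat_lit 2127642734) (nat_lit 76) (nat_lit 177397226) (nat_lit 142) (nat_lit 5) (nat_lit 148) (nat_lit 5) (nat_lit 143) (nat_lit 5) (nat_lit 463) (nat_lit 369) (nat_lit 308)) (XT.nd (nat_lit 78) (nat_lit 0) (nat_lit 0) (XT.lf (nat_lit 0) (nat_lit 748781069) (nat_lit 456) (nat_lit 6565390865) (nat_lit 76) (nat_lit 3708433031) (nat_lit 136) (nat_lit 5) (nat_lit 142) (nat_lit 5) (nat_lit 137) (nat_lit 5) (nat_lit 464) (nat_lit 369) (nat_lit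 307)) (XT.lf (nat_lit 0) (nat_lit 3814213199) (nat_lit 456) (nat_lit 13295174) (nat_lit 76) (nat_lit 7324680179) (nat_lit 136) (nat_lit 5) (nat_lit 142) (nat_lit 5) (nat_lit 137) (nat_lit 5) (nat_lit 465) (nat_lit 369) (nat_lit 306)))) (XT.nd (nat_lit 156) (nat_lit 380) (nat_lit 0) (XT.nd (nat_lit 78) (nat_lit 380) (nat_lit 0) (XT.lf (nat_lit 0) (nat_lit 6710078821) (nat_lit 380) (nat_lit 242086684) (nat_lit 456) (nat_lit 4331988069) (nat_lit 131) (nat_lit 5) (nat_lit 136) (nat_lit 5) (nat_lit 137) (nat_lit 5) (nat_lit 466) (nat_lit 369) (nat_lit 305)) (XT.lf (nat_lit 0) (nat_lit 2106794699) (nat_lit 380) (nat_lit 8049894816) (nat_lit 456) (nat_lit 1262005847) (nat_lit 126) (nat_lit 5) (nat_lit 131) (nat_lit 5) (nat_lit 132) (nat_lit 5) (nat_lit 467) (nat_lit 369) (nat_lit 304))) (XT.nd (nat_lit 78) (nat_lit 304) (nat_lit 0) (XT.lf (nat_lit 0) (nat_lit 1845327578) (nat_lit 456) (nat_lit 2634103912) (nat_lit 76)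 (nat_lit 7076257562) (nat_lit 125) (nat_lit 5) (nat_lit 131) (nat_lit 5) (nat_lit 126) (nat_lit 5) (nat_lit 468) (nat_lit 369) (nat_lit 303)) (XT.lf (nat_lit 0) (nat_lit 4176479718) (nat_lit 304) (nat_lit 817157866) (nat_lit 380) (nat_lit 6701716558) (nat_lit 121) (nat_lit 5) (nat_lit 125) (nat_lit 5) (nat_lit 126) (nat_lit 5) (nat_lit 469) (nat_lit 369) (nat_lit 302))))))) (XT.nd (nat_lit 1092) (nat_lit 1976) (nat_lit 0) (XT.nd (nat_lit 546) (nat_lit 1140) (nat_lit 0) (XT.nd (nat_lit 234) (nat_lit 684) (nat_lit 0) (XT.nd (nat_lit 78) (nat_lit 760) (nat_lit 0) (XT.lf (nat_lit 0) (nat_lit 8210459848) (nat_lit 380) (nat_lit 744951310) (nat_lit 76) (nat_lit 2882303130) (nat_lit 121) (nat_lit 5) (nat_lit 126) (nat_lit 5) (nat_lit 122) (nat_lit 5) (nat_lit 470) (nat_lit 369) (nat_lit 301)) (XT.nd (nat_lit 78) (nat_lit 380) (nat_lit 0) (XT.lf (nat_lit 0) (nat_lit 6193792608) (nat_lit 380) (nat_lit 5312868304) (nat_lit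 456) (nat_lit 475972301) (nat_lit 116) (nat_lit 5) (nat_lit 121) (nat_lit 5) (nat_lit 122) (nat_lit 5) (nat_lit 471) (nat_lit 369) (nat_lit 300)) (XT.lf (nat_lit 0) (nat_lit 1101097613) (nat_lit 304) (nat_lit 1583009102) (nat_lit 380) (nat_lit 9446366466) (nat_lit 111) (nat_lit 5) (nat_lit 115) (nat_lit 5) (nat_lit 116) (nat_lit 5) (nat_lit 472) (nat_lit 369) (nat_lit 299)))) (XT.nd (nat_lit 156) (nat_lit 380) (nat_lit 0) (XT.nd (nat_lit 78) (nat_lit 304) (nat_lit 0) (XT.lf (nat_lit 0) (nat_lit 5924243384) (nat_lit 380) (nat_lit 4137816566) (nat_lit 76) (nat_lit 2218694194) (nat_lit 111) (nat_lit 5) (nat_lit 116) (nat_lit 5) (nat_lit 112) (nat_lit 5) (nat_lit 473) (nat_lit 369) (nat_lit 298)) (XT.lf (nat_lit 0) (nat_lit 2872891247) (nat_lit 304) (nat_lit 6355718785) (nat_lit 380) (nat_lit 3205453631) (nat_lit 107) (nat_lit 5) (nat_lit 111) (nat_lit 5) (nat_lit 112) (nat_lit 5) (nat_lit 474) (nat_lit 369) (nat_lit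 297))) (XT.nd (nat_lit 78) (nat_lit 304) (nat_lit 0) (XT.lf (nat_lit 0) (nat_lit 6834033) (nat_lit 380) (nat_lit 2556201809) (nat_lit 76) (nat_lit 10027446991) (nat_lit 106) (nat_lit 5) (nat_lit 111) (nat_lit 5) (nat_lit 107) (nat_lit 5) (nat_lit 475) (nat_lit 369) (nat_lit 296)) (XT.lf (nat_lit 0) (nat_lit 3249902599) (nat_lit 380) (nat_lit 8175648463) (nat_lit 76) (nat_lit 1323877259) (nat_lit 102) (nat_lit 5) (nat_lit 107) (nat_lit 5) (nat_lit 103) (nat_lit 5) (nat_lit 476) (nat_lit 369) (nat_lit 295))))) (XT.nd (nat_lit 234) (nat_lit 532) (nat_lit 0) (XT.nd (nat_lit 78) (nat_lit 608) (nat_lit 0) (XT.lf (nat_lit 0) (nat_lit 6563200812) (nat_lit 380) (nat_lit 1092550010) (nat_lit 76) (nat_lit 5255705136) (nat_lit 102) (nat_lit 5) (nat_lit 107) (nat_lit 5) (nat_lit 103) (nat_lit 5) (nat_lit 477) (nat_lit 369) (nat_lit 294)) (XT.nd (nat_lit 78) (nat_lit 304) (nat_lit 0) (XT.lf (nat_lit 0) (nat_lit 6168737888) (nat_lit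 304) (nat_lit 3785772235) (nat_lit 380) (nat_lit 3121989519) (nat_lit 98) (nat_lit 5) (nat_lit 102) (nat_lit 5) (nat_lit 103) (nat_lit 5) (nat_lit 478) (nat_lit 369) (nat_lit 293)) (XT.lf (nat_lit 0) (nat_lit 148719419) (nat_lit 304) (nat_lit 12942490038) (nat_lit 76) (nat_lit 153980179) (nat_lit 94) (nat_lit 5) (nat_lit 98) (nat_lit 5) (nat_lit 95) (nat_lit 5) (nat_lit 479) (nat_lit 369) (nat_lit 292)))) (XT.nd (nat_lit 156) (nat_lit 228) (nat_lit 0) (XT.nd (nat_lit 78) (nat_lit 304) (nat_lit 0) (XT.lf (nat_lit 0) (nat_lit 3486739390) (nat_lit 304) (nat_lit 5756014570) (nat_lit 76) (nat_lit 4173222536) (nat_lit 94) (nat_lit 5) (nat_lit 98) (nat_lit 5) (nat_lit 95) (nat_lit 5) (nat_lit 480) (nat_lit 369) (nat_lit 291)) (XT.lf (nat_lit 0) (nat_lit 1550763069) (nat_lit 304) (nat_lit 5323303875) (nat_lit 380) (nat_lit 6716470810) (nat_lit 90) (nat_lit 5) (nat_lit 94) (nat_lit 5) (nat_lit 95) (nat_lit 5) (nat_lit 481)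 (nat_lit 369) (nat_lit 290))) (XT.nd (nat_lit 78) (nat_lit 228) (nat_lit 0) (XT.lf (nat_lit 0) (nat_lit 9038222614) (nat_lit 304) (nat_lit 1302280272) (nat_lit 380) (nat_lit 3427869530) (nat_lit 90) (nat_lit 5) (nat_lit 94) (nat_lit 5) (nat_lit 95) (nat_lit 5) (nat_lit 482) (nat_lit 369) (nat_lit 289)) (XT.lf (nat_lit 0) (nat_lit 2699836341) (nat_lit 228) (nat_lit 11185301695) (nat_lit 304) (nat_lit 64457560) (nat_lit 87) (nat_lit 5) (nat_lit 90) (nat_lit 5) (nat_lit 91) (nat_lit 5) (nat_lit 483) (nat_lit 369) (nat_lit 288)))))) (XT.nd (nat_lit 546) (nat_lit 1064) (nat_lit 0) (XT.nd (nat_lit 234) (nat_lit 532) (nat_lit 0) (XT.nd (nat_lit 78) (nat_lit 304) (nat_lit 0) (XT.lf (nat_lit 0) (nat_lit 3335881113) (nat_lit 304) (nat_lit 3865105443) (nat_lit 76) (nat_lit 6932752300) (nat_lit 86) (nat_lit 5) (nat_lit 90) (nat_lit 5) (nat_lit 87) (nat_lit 5) (nat_lit 484) (nat_lit 369) (nat_lit 287)) (XT.nd (nat_lit 78) (nat_lit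 0) (nat_lit 0) (XT.lf (nat_lit 0) (nat_lit 3672681133) (nat_lit 304) (nat_lit 3128284218) (nat_lit 380) (nat_lit 7520647771) (nat_lit 82) (nat_lit 5) (nat_lit 86) (nat_lit 5) (nat_lit 87) (nat_lit 5) (nat_lit 485) (nat_lit 369) (nat_lit 286)) (XT.lf (nat_lit 0) (nat_lit 10342013905) (nat_lit 380) (nat_lit 3148390167) (nat_lit 76) (nat_lit 1022716078) (nat_lit 82) (nat_lit 5) (nat_lit 87) (nat_lit 5) (nat_lit 83) (nat_lit 5) (nat_lit 486) (nat_lit 369) (nat_lit 285)))) (XT.nd (nat_lit 156) (nat_lit 228) (nat_lit 0) (XT.nd (nat_lit 78) (nat_lit 76) (nat_lit 0) (XT.lf (nat_lit 0) (nat_lit 4498833105) (nat_lit 228) (nat_lit 9479382073) (nat_lit 304) (nat_lit 729763867) (nat_lit 79) (nat_lit 5) (nat_lit 82) (nat_lit 5) (nat_lit 83) (nat_lit 5) (nat_lit 487) (nat_lit 369) (nat_lit 284)) (XT.lf (nat_lit 0) (nat_lit 2739669732) (nat_lit 304) (nat_lit 2624515533) (nat_lit 76) (nat_lit 9542282248) (nat_lit 78) (nat_lit 5)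 (nat_lit 82) (nat_lit 5) (nat_lit 79) (nat_lit 5) (nat_lit 488) (nat_lit 369) (nat_lit 283))) (XT.nd (nat_lit 78) (nat_lit 0) (nat_lit 0) (XT.lf (nat_lit 0) (nat_lit 5133428973) (nat_lit 228) (nat_lit 1143593606) (nat_lit 304) (nat_lit 8831648535) (nat_lit 75) (nat_lit 5) (nat_lit 78) (nat_lit 5) (nat_lit 79) (nat_lit 5) (nat_lit 489) (nat_lit 369) (nat_lit 282)) (XT.lf (nat_lit 0) (nat_lit 9898465079) (nat_lit 304) (nat_lit 2294104745) (nat_lit 76) (nat_lit 3122089836) (nat_lit 75) (nat_lit 5) (nat_lit 79) (nat_lit 5) (nat_lit 76) (nat_lit 5) (nat_lit 490) (nat_lit 369) (nat_lit 281))))) (XT.nd (nat_lit 312) (nat_lit 532) (nat_lit 0) (XT.nd (nat_lit 156) (nat_lit 228) (nat_lit 0) (XT.nd (nat_lit 78) (nat_lit 76) (nat_lit 0) (XT.lf (nat_lit 0) (nat_lit 5565879481) (nat_lit 228) (nat_lit 8045744373) (nat_lit 304) (nat_lit 1912765947) (nat_lit 72) (nat_lit 5) (nat_lit 75) (nat_lit 5) (nat_lit 76) (nat_lit 5) (nat_lit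 491) (nat_lit 369) (nat_lit 280)) (XT.lf (nat_lit 0) (nat_lit 1630075633) (nat_lit 304) (nat_lit 2174997239) (nat_lit 76) (nat_lit 11933210799) (nat_lit 71) (nat_lit 5) (nat_lit 75) (nat_lit 5) (nat_lit 72) (nat_lit 5) (nat_lit 492) (nat_lit 369) (nat_lit 279))) (XT.nd (nat_lit 78) (nat_lit 0) (nat_lit 0) (XT.lf (nat_lit 0) (nat_lit 5235482147) (nat_lit 304) (nat_lit 10171594237) (nat_lit 76) (nat_lit 548786903) (nat_lit 68) (nat_lit 5) (nat_lit 72) (nat_lit 5) (nat_lit 69) (nat_lit 5) (nat_lit 493) (nat_lit 369) (nat_lit 278)) (XT.lf (nat_lit 0) (nat_lit 8929107412) (nat_lit 304) (nat_lit 2310192178) (nat_lit 76) (nat_lit 4938179689) (nat_lit 68) (nat_lit 5) (nat_lit 72) (nat_lit 5) (nat_lit 69) (nat_lit 5) (nat_lit 494) (nat_lit 369) (nat_lit 277)))) (XT.nd (nat_lit 156) (nat_lit 304) (nat_lit 0) (XT.nd (nat_lit 78) (nat_lit 0) (nat_lit 0) (XT.lf (nat_lit 0) (nat_lit 5744963464) (nat_lit 228) (nat_lit 6965627546)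 (nat_lit 304) (nat_lit 3692663725) (nat_lit 65) (nat_lit 5) (nat_lit 68) (nat_lit 5) (nat_lit 69) (nat_lit 5) (nat_lit 495) (nat_lit 369) (nat_lit 276)) (XT.lf (nat_lit 0) (nat_lit 13953972194) (nat_lit 228) (nat_lit 2606127156) (nat_lit 304) (nat_lit 73605172) (nat_lit 65) (nat_lit 5) (nat_lit 68) (nat_lit 5) (nat_lit 69) (nat_lit 5) (nat_lit 496) (nat_lit 369) (nat_lit 275))) (XT.nd (nat_lit 78) (nat_lit 0) (nat_lit 0) (XT.lf (nat_lit 0) (nat_lit 3595321676) (nat_lit 304) (nat_lit 11411777372) (nat_lit 76) (nat_lit 1860702222) (nat_lit 61) (nat_lit 5) (nat_lit 65) (nat_lit 5) (nat_lit 62) (nat_lit 5) (nat_lit 497) (nat_lit 369) (nat_lit 274)) (XT.lf (nat_lit 0) (nat_lit 7349294394) (nat_lit 304) (nat_lit 3371493632) (nat_lit 76) (nat_lit 6385535473) (nat_lit 61) (nat_lit 5) (nat_lit 65) (nat_lit 5) (nat_lit 62) (nat_lit 5) (nat_lit 498) (nat_lit 369) (nat_lit 273))))))))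
noncomputable def xc76 : XT := (XT.nd (nat_lit 2184) (nat_lit 304) (nat_lit 0) (XT.nd (nat_lit 1092) (nat_lit 912) (nat_lit 0) (XT.nd (nat_lit 546) (nat_lit 684) (nat_lit 0) (XT.nd (nat_lit 234) (nat_lit 380) (nat_lit 0) (XT.nd (nat_lit 78) (nat_lit 304) (nat_lit 0) (XT.lf (nat_lit 0) (nat_lit 4855802667) (nat_lit 152) (nat_lit 6331807620) (nat_lit 228) (nat_lit 6161826827) (nat_lit 59) (nat_lit 5) (nat_lit 61) (nat_lit 5) (nat_lit 62) (nat_lit 5) (nat_lit 499) (nat_lit 369) (nat_lit 272)) (XT.nd (nat_lit 78) (nat_lit 304) (nat_lit 0) (XT.lf (nat_lit 0) (nat_lit 13256115103) (nat_lit 152) (nat_lit 1847133327) (nat_lit 228) (nat_lit 2494159542) (nat_lit 59) (nat_lit 5) (nat_lit 61) (nat_lit 5) (nat_lit 62) (nat_lit 5) (nat_lit 500) (nat_lit 369) (nat_lit 271)) (XT.lf (nat_lit 0) (nat_lit 1252407632) (nat_lit 304) (nat_lit 13886514731) (nat_lit 76) (nat_lit 2710821846) (nat_lit 55) (nat_lit 5) (nat_lit 59) (nat_lit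 5) (nat_lit 56) (nat_lit 5) (nat_lit 501) (nat_lit 369) (nat_lit 270)))) (XT.nd (nat_lit 156) (nat_lit 228) (nat_lit 0) (XT.nd (nat_lit 78) (nat_lit 152) (nat_lit 0) (XT.lf (nat_lit 0) (nat_lit 5060406203) (nat_lit 304) (nat_lit 5679693143) (nat_lit 76) (nat_lit 7366305896) (nat_lit 55) (nat_lit 5) (nat_lit 59) (nat_lit 5) (nat_lit 56) (nat_lit 5) (nat_lit 502) (nat_lit 369) (nat_lit 269)) (XT.lf (nat_lit 0) (nat_lit 2690378048) (nat_lit 152) (nat_lit 6250387426) (nat_lit 228) (nat_lit 9427515636) (nat_lit 53) (nat_lit 5) (nat_lit 55) (nat_lit 5) (nat_lit 56) (nat_lit 5) (nat_lit 503) (nat_lit 369) (nat_lit 268))) (XT.nd (nat_lit 78) (nat_lit 228) (nat_lit 0) (XT.lf (nat_lit 0) (nat_lit 11268906753) (nat_lit 152) (nat_lit 1646855613) (nat_lit 228) (nat_lit 5719297038) (nat_lit 53) (nat_lit 5) (nat_lit 55) (nat_lit 5) (nat_lit 56) (nat_lit 5) (nat_lit 504) (nat_lit 369) (nat_lit 267)) (XT.lf (nat_lit 0) (nat_lit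 1070525064) (nat_lit 228) (nat_lit 15905714752) (nat_lit 304) (nat_lit 1930819244) (nat_lit 50) (nat_lit 5) (nat_lit 53) (nat_lit 5) (nat_lit 54) (nat_lit 5) (nat_lit 505) (nat_lit 369) (nat_lit 266))))) (XT.nd (nat_lit 234) (nat_lit 456) (nat_lit 0) (XT.nd (nat_lit 78) (nat_lit 152) (nat_lit 0) (XT.lf (nat_lit 0) (nat_lit 1948007128) (nat_lit 304) (nat_lit 9467110511) (nat_lit 76) (nat_lit 7768336481) (nat_lit 49) (nat_lit 5) (nat_lit 53) (nat_lit 5) (nat_lit 50) (nat_lit 5) (nat_lit 506) (nat_lit 369) (nat_lit 265)) (XT.nd (nat_lit 78) (nat_lit 152) (nat_lit 0) (XT.lf (nat_lit 0) (nat_lit 5858258796) (nat_lit 304) (nat_lit 977987503) (nat_lit 76) (nat_lit 12629286577) (nat_lit 49) (nat_lit 5) (nat_lit 53) (nat_lit 5) (nat_lit 50) (nat_lit 5) (nat_lit 507) (nat_lit 369) (nat_lit 264)) (XT.lf (nat_lit 0) (nat_lit 7748320875) (nat_lit 152) (nat_lit 2128778595) (nat_lit 228) (nat_lit 9875551054) (nat_lit 47) (nat_lit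 5) (nat_lit 49) (nat_lit 5) (nat_lit 50) (nat_lit 5) (nat_lit 508) (nat_lit 369) (nat_lit 263)))) (XT.nd (nat_lit 156) (nat_lit 228) (nat_lit 0) (XT.nd (nat_lit 78) (nat_lit 228) (nat_lit 0) (XT.lf (nat_lit 0) (nat_lit 13980431306) (nat_lit 228) (nat_lit 3434664381) (nat_lit 76) (nat_lit 2630337450) (nat_lit 47) (nat_lit 5) (nat_lit 50) (nat_lit 5) (nat_lit 48) (nat_lit 5) (nat_lit 509) (nat_lit 369) (nat_lit 262)) (XT.lf (nat_lit 0) (nat_lit 5328553703) (nat_lit 228) (nat_lit 12866513817) (nat_lit 304) (nat_lit 2148423930) (nat_lit 44) (nat_lit 5) (nat_lit 47) (nat_lit 5) (nat_lit 48) (nat_lit 5) (nat_lit 510) (nat_lit 369) (nat_lit 261))) (XT.nd (nat_lit 78) (nat_lit 152) (nat_lit 0) (XT.lf (nat_lit 0) (nat_lit 1826045147) (nat_lit 304) (nat_lit 6379266362) (nat_lit 76) (nat_lit 12441888734) (nat_lit 43) (nat_lit 5) (nat_lit 47) (nat_lit 5) (nat_lit 44) (nat_lit 5) (nat_lit 511) (nat_lit 369) (nat_lit 260)) (XT.lf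 (nat_lit 0) (nat_lit 2413535529) (nat_lit 152) (nat_lit 3434354281) (nat_lit 228) (nat_lit 15108880833) (nat_lit 41) (nat_lit 5) (nat_lit 43) (nat_lit 5) (nat_lit 44) (nat_lit 5) (nat_lit 512) (nat_lit 369) (nat_lit 259)))))) (XT.nd (nat_lit 546) (nat_lit 532) (nat_lit 0) (XT.nd (nat_lit 234) (nat_lit 228) (nat_lit 0) (XT.nd (nat_lit 78) (nat_lit 152) (nat_lit 0) (XT.lf (nat_lit 0) (nat_lit 9983587365) (nat_lit 228) (nat_lit 9845674863) (nat_lit 76) (nat_lit 1442606339) (nat_lit 41) (nat_lit 5) (nat_lit 44) (nat_lit 5) (nat_lit 42) (nat_lit 5) (nat_lit 513) (nat_lit 369) (nat_lit 258)) (XT.nd (nat_lit 78) (nat_lit 152) (nat_lit 0) (XT.lf (nat_lit 0) (nat_lit 14206141596) (nat_lit 228) (nat_lit 1029342311) (nat_lit 76) (nat_lit 6357706041) (nat_lit 41) (nat_lit 5) (nat_lit 44) (nat_lit 5) (nat_lit 42) (nat_lit 5) (nat_lit 514) (nat_lit 369) (nat_lit 257)) (XT.lf (nat_lit 0) (nat_lit 8036923733) (nat_lit 152) (nat_lit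 10510167605) (nat_lit 228) (nat_lit 3373171792) (nat_lit 39) (nat_lit 5) (nat_lit 41) (nat_lit 5) (nat_lit 42) (nat_lit 5) (nat_lit 515) (nat_lit 369) (nat_lit 256)))) (XT.nd (nat_lit 156) (nat_lit 0) (nat_lit 0) (XT.nd (nat_lit 78) (nat_lit 152) (nat_lit 0) (XT.lf (nat_lit 0) (nat_lit 700271637) (nat_lit 228) (nat_lit 4991834095) (nat_lit 76) (nat_lit 16561907620) (nat_lit 38) (nat_lit 5) (nat_lit 41) (nat_lit 5) (nat_lit 39) (nat_lit 5) (nat_lit 516) (nat_lit 369) (nat_lit 255)) (XT.lf (nat_lit 0) (nat_lit 4077427117) (nat_lit 152) (nat_lit 741254628) (nat_lit 228) (nat_lit 17775141626) (nat_lit 36) (nat_lit 5) (nat_lit 38) (nat_lit 5) (nat_lit 39) (nat_lit 5) (nat_lit 517) (nat_lit 369) (nat_lit 254))) (XT.nd (nat_lit 78) (nat_lit 0) (nat_lit 0) (XT.lf (nat_lit 0) (nat_lit 9063365435) (nat_lit 228) (nat_lit 9603494443) (nat_lit 76) (nat_lit 4272695545) (nat_lit 36) (nat_lit 5) (nat_lit 39) (nat_lit 5) (nat_lit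 37) (nat_lit 5) (nat_lit 518) (nat_lit 369) (nat_lit 253)) (XT.lf (nat_lit 0) (nat_lit 13380411895) (nat_lit 228) (nat_lit 547908046) (nat_lit 76) (nat_lit 9364136656) (nat_lit 36) (nat_lit 5) (nat_lit 39) (nat_lit 5) (nat_lit 37) (nat_lit 5) (nat_lit 519) (nat_lit 369) (nat_lit 252))))) (XT.nd (nat_lit 234) (nat_lit 152) (nat_lit 0) (XT.nd (nat_lit 78) (nat_lit 228) (nat_lit 0) (XT.lf (nat_lit 0) (nat_lit 8773796784) (nat_lit 152) (nat_lit 9049869893) (nat_lit 228) (nat_lit 5827955558) (nat_lit 34) (nat_lit 5) (nat_lit 36) (nat_lit 5) (nat_lit 37) (nat_lit 5) (nat_lit 520) (nat_lit 369) (nat_lit 251)) (XT.nd (nat_lit 78) (nat_lit 228) (nat_lit 0) (XT.lf (nat_lit 0) (nat_lit 18259497318) (nat_lit 152) (nat_lit 4083009419) (nat_lit 228) (nat_lit 1675733757) (nat_lit 34) (nat_lit 5) (nat_lit 36) (nat_lit 5) (nat_lit 37) (nat_lit 5) (nat_lit 521) (nat_lit 369) (nat_lit 250)) (XT.lf (nat_lit 0) (nat_lit 2538792913)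 (nat_lit 228) (nat_lit 20855235358) (nat_lit 76) (nat_lit 997577468) (nat_lit 31) (nat_lit 5) (nat_lit 34) (nat_lit 5) (nat_lit 32) (nat_lit 5) (nat_lit 522) (nat_lit 369) (nat_lit 249)))) (XT.nd (nat_lit 156) (nat_lit 152) (nat_lit 0) (XT.nd (nat_lit 78) (nat_lit 0) (nat_lit 0) (XT.lf (nat_lit 0) (nat_lit 6864450508) (nat_lit 228) (nat_lit 11744175896) (nat_lit 76) (nat_lit 6162608284) (nat_lit 31) (nat_lit 5) (nat_lit 34) (nat_lit 5) (nat_lit 32) (nat_lit 5) (nat_lit 523) (nat_lit 369) (nat_lit 248)) (XT.lf (nat_lit 0) (nat_lit 11260265935) (nat_lit 228) (nat_lit 2479880229) (nat_lit 76) (nat_lit 11418640587) (nat_lit 31) (nat_lit 5) (nat_lit 34) (nat_lit 5) (nat_lit 32) (nat_lit 5) (nat_lit 524) (nat_lit 369) (nat_lit 247))) (XT.nd (nat_lit 78) (nat_lit 0) (nat_lit 0) (XT.lf (nat_lit 0) (nat_lit 7033530717) (nat_lit 152) (nat_lit 8740098673) (nat_lit 228) (nat_lit 9779871194) (nat_lit 29) (nat_lit 5) (nat_lit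 31) (nat_lit 5) (nat_lit 32) (nat_lit 5) (nat_lit 525) (nat_lit 369) (nat_lit 246)) (XT.lf (nat_lit 0) (nat_lit 16742595612) (nat_lit 152) (nat_lit 3635402296) (nat_lit 228) (nat_lit 5578099328) (nat_lit 29) (nat_lit 5) (nat_lit 31) (nat_lit 5) (nat_lit 32) (nat_lit 5) (nat_lit 526) (nat_lit 369) (nat_lit 245))))))) (XT.nd (nat_lit 50232) (nat_lit 0) (nat_lit 24548) (XT.nd (nat_lit 49686) (nat_lit 0) (nat_lit 37088) (XT.nd (nat_lit 234) (nat_lit 152) (nat_lit 0) (XT.nd (nat_lit 78) (nat_lit 76) (nat_lit 0) (XT.lf (nat_lit 0) (nat_lit 244183215) (nat_lit 76) (nat_lit 24826388338) (nat_lit 152) (nat_lit 1296255144) (nat_lit 28) (nat_lit 5) (nat_lit 29) (nat_lit 5) (nat_lit 30) (nat_lit 4) (nat_lit 527) (nat_lit 369) (nat_lit 244)) (XT.nd (nat_lit 78) (nat_lit 0) (nat_lit 0) (XT.lf (nat_lit 0) (nat_lit 3101609678) (nat_lit 152) (nat_lit 16840986628) (nat_lit 76) (nat_lit 6841365470) (nat_lit 27) (nat_lit 5) (nat_lit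 29) (nat_lit 5) (nat_lit 28) (nat_lit 5) (nat_lit 528) (nat_lit 369) (nat_lit 243)) (XT.lf (nat_lit 0) (nat_lit 7554749034) (nat_lit 152) (nat_lit 7409673480) (nat_lit 76) (nat_lit 12245155242) (nat_lit 27) (nat_lit 5) (nat_lit 29) (nat_lit 5) (nat_lit 28) (nat_lit 5) (nat_lit 529) (nat_lit 369) (nat_lit 242)))) (XT.nd (nat_lit 49296) (nat_lit 0) (nat_lit 42636) (XT.nd (nat_lit 49218) (nat_lit 0) (nat_lit 43548) (XT.lf (nat_lit 0) (nat_lit 2212427043) (nat_lit 152) (nat_lit 9883847372) (nat_lit 228) (nat_lit 15547448162) (nat_lit 25) (nat_lit 5) (nat_lit 27) (nat_lit 5) (nat_lit 28) (nat_lit 5) (nat_lit 530) (nat_lit 369) (nat_lit 241)) (XT.lf (nat_lit 0) (nat_lit 1166509506) (nat_lit 836) (nat_lit 987965888) (nat_lit 0) (nat_lit 1166509506) (nat_lit 598) (nat_lit 5) (nat_lit 609) (nat_lit 4) (nat_lit 598) (nat_lit 4) (nat_lit 400) (nat_lit 370) (nat_lit 370))) (XT.nd (nat_lit 78) (nat_lit 76) (nat_lit 0) (XT.lf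 (nat_lit 0) (nat_lit 2014731394) (nat_lit 836) (nat_lit 3424547178) (nat_lit 836) (nat_lit 1223541237) (nat_lit 587) (nat_lit 4) (nat_lit 598) (nat_lit 5) (nat_lit 598) (nat_lit 4) (nat_lit 401) (nat_lit 370) (nat_lit 369)) (XT.lf (nat_lit 0) (nat_lit 1841874968) (nat_lit 912) (nat_lit 638267465) (nat_lit 76) (nat_lit 4204899396) (nat_lit 586) (nat_lit 5) (nat_lit 598) (nat_lit 5) (nat_lit 587) (nat_lit 4) (nat_lit 402) (nat_lit 370) (nat_lit 368))))) (XT.nd (nat_lit 234) (nat_lit 3572) (nat_lit 0) (XT.nd (nat_lit 78) (nat_lit 1064) (nat_lit 0) (XT.lf (nat_lit 0) (nat_lit 3435904592) (nat_lit 912) (nat_lit 1470183374) (nat_lit 988) (nat_lit 1802454985) (nat_lit 574) (nat_lit 5) (nat_lit 586) (nat_lit 5) (nat_lit 587) (nat_lit 4) (nat_lit 403) (nat_lit 370) (nat_lit 367)) (XT.nd (nat_lit 78) (nat_lit 0) (nat_lit 0) (XT.lf (nat_lit 0) (nat_lit 816598848) (nat_lit 988) (nat_lit 407079768) (nat_lit 1064) (nat_lit 5509904869)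 (nat_lit 560) (nat_lit 5) (nat_lit 573) (nat_lit 5) (nat_lit 574) (nat_lit 5) (nat_lit 404) (nat_lit 370) (nat_lit 366)) (XT.lf (nat_lit 0) (nat_lit 4245836524) (nat_lit 1064) (nat_lit 1797762601) (nat_lit 76) (nat_lit 716164276) (nat_lit 560) (nat_lit 5) (nat_lit 574) (nat_lit 5) (nat_lit 561) (nat_lit 4) (nat_lit 405) (nat_lit 370) (nat_lit 365)))) (XT.nd (nat_lit 156) (nat_lit 2432) (nat_lit 0) (XT.nd (nat_lit 78) (nat_lit 0) (nat_lit 0) (XT.lf (nat_lit 0) (nat_lit 487043588) (nat_lit 1140) (nat_lit 4411850727) (nat_lit 76) (nat_lit 1888525491) (nat_lit 545) (nat_lit 5) (nat_lit 560) (nat_lit 5) (nat_lit 546) (nat_lit 5) (nat_lit 406) (nat_lit 370) (nat_lit 364)) (XT.lf (nat_lit 0) (nat_lit 3461415483) (nat_lit 1140) (nat_lit 229468505) (nat_lit 76) (nat_lit 3125537712) (nat_lit 545) (nat_lit 5) (nat_lit 560) (nat_lit 5) (nat_lit 546) (nat_lit 5) (nat_lit 407) (nat_lit 370) (nat_lit 363))) (XT.nd (nat_lit 78)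 (nat_lit 1292) (nat_lit 0) (XT.lf (nat_lit 0) (nat_lit 4036472413) (nat_lit 1140) (nat_lit 2421155160) (nat_lit 1216) (nat_lit 389193293) (nat_lit 530) (nat_lit 5) (nat_lit 545) (nat_lit 5) (nat_lit 546) (nat_lit 5) (nat_lit 408) (nat_lit 370) (nat_lit 362)) (XT.lf (nat_lit 0) (nat_lit 1461505099) (nat_lit 1216) (nat_lit 1087475403) (nat_lit 1292) (nat_lit 4329614711) (nat_lit 513) (nat_lit 5) (nat_lit 529) (nat_lit 5) (nat_lit 530) (nat_lit 5) (nat_lit 409) (nat_lit 370) (nat_lit 361)))))) (XT.nd (nat_lit 546) (nat_lit 6688) (nat_lit 0) (XT.nd (nat_lit 234) (nat_lit 3116) (nat_lit 0) (XT.nd (nat_lit 78) (nat_lit 2736) (nat_lit 0) (XT.lf (nat_lit 0) (nat_lit 5499001470) (nat_lit 1292) (nat_lit 1112813886) (nat_lit 76) (nat_lit 300032919) (nat_lit 513) (nat_lit 5) (nat_lit 530) (nat_lit 5) (nat_lit 514) (nat_lit 5) (nat_lit 410) (nat_lit 370) (nat_lit 360)) (XT.nd (nat_lit 78) (nat_lit 1368) (nat_lit 0) (XT.lf (nat_lit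 0) (nat_lit 1508615345) (nat_lit 1368) (nat_lit 3696844670) (nat_lit 76) (nat_lit 1740824784) (nat_lit 495) (nat_lit 5) (nat_lit 513) (nat_lit 5) (nat_lit 496) (nat_lit 5) (nat_lit 411) (nat_lit 370) (nat_lit 359)) (XT.lf (nat_lit 0) (nat_lit 678206210) (nat_lit 1368) (nat_lit 3742478152) (nat_lit 1444) (nat_lit 2561574086) (nat_lit 477) (nat_lit 5) (nat_lit 495) (nat_lit 5) (nat_lit 496) (nat_lit 5) (nat_lit 412) (nat_lit 370) (nat_lit 358)))) (XT.nd (nat_lit 156) (nat_lit 1596) (nat_lit 0) (XT.nd (nat_lit 78) (nat_lit 1444) (nat_lit 0) (XT.lf (nat_lit 0) (nat_lit 331685238) (nat_lit 1444) (nat_lit 1884713647) (nat_lit 76) (nat_lit 4803268815) (nat_lit 476) (nat_lit 5) (nat_lit 495) (nat_lit 5) (nat_lit 477) (nat_lit 5) (nat_lit 413) (nat_lit 370) (nat_lit 357)) (XT.lf (nat_lit 0) (nat_lit 2586491320) (nat_lit 1444) (nat_lit 619578937) (nat_lit 1520) (nat_lit 3852318832) (nat_lit 457) (nat_lit 5) (nat_lit 476)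 (nat_lit 5) (nat_lit 477) (nat_lit 5) (nat_lit 414) (nat_lit 370) (nat_lit 356))) (XT.nd (nat_lit 78) (nat_lit 76) (nat_lit 0) (XT.lf (nat_lit 0) (nat_lit 14203444) (nat_lit 1520) (nat_lit 6084701563) (nat_lit 1596) (nat_lit 999813396) (nat_lit 437) (nat_lit 5) (nat_lit 457) (nat_lit 5) (nat_lit 458) (nat_lit 5) (nat_lit 415) (nat_lit 370) (nat_lit 355)) (XT.lf (nat_lit 0) (nat_lit 1860954602) (nat_lit 1596) (nat_lit 2560158344) (nat_lit 76) (nat_lit 2719018880) (nat_lit 436) (nat_lit 5) (nat_lit 457) (nat_lit 5) (nat_lit 437) (nat_lit 5) (nat_lit 416) (nat_lit 370) (nat_lit 354))))) (XT.nd (nat_lit 312) (nat_lit 1900) (nat_lit 0) (XT.nd (nat_lit 156) (nat_lit 3116) (nat_lit 0) (XT.nd (nat_lit 78) (nat_lit 76) (nat_lit 0) (XT.lf (nat_lit 0) (nat_lit 2020795224) (nat_lit 1596) (nat_lit 2700974733) (nat_lit 1672) (nat_lit 2461396694) (nat_lit 415) (nat_lit 5) (nat_lit 436) (nat_lit 5) (nat_lit 437) (nat_lit 5) (nat_lit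 417) (nat_lit 370) (nat_lit 353)) (XT.lf (nat_lit 0) (nat_lit 368055944) (nat_lit 1672) (nat_lit 555658341) (nat_lit 76) (nat_lit 6304127464) (nat_lit 414) (nat_lit 5) (nat_lit 436) (nat_lit 5) (nat_lit 415) (nat_lit 5) (nat_lit 418) (nat_lit 370) (nat_lit 352))) (XT.nd (nat_lit 78) (nat_lit 1444) (nat_lit 0) (XT.lf (nat_lit 0) (nat_lit 3198589132) (nat_lit 1748) (nat_lit 3151905664) (nat_lit 76) (nat_lit 923087995) (nat_lit 392) (nat_lit 5) (nat_lit 415) (nat_lit 5) (nat_lit 393) (nat_lit 5) (nat_lit 419) (nat_lit 370) (nat_lit 351)) (XT.lf (nat_lit 0) (nat_lit 1540025624) (nat_lit 1444) (nat_lit 4510878840) (nat_lit 1520) (nat_lit 1270076672) (nat_lit 373) (nat_lit 5) (nat_lit 392) (nat_lit 5) (nat_lit 393) (nat_lit 5) (nat_lit 420) (nat_lit 370) (nat_lit 350)))) (XT.nd (nat_lit 156) (nat_lit 988) (nat_lit 0) (XT.nd (nat_lit 78) (nat_lit 836) (nat_lit 0) (XT.lf (nat_lit 0) (nat_lit 1536988699) (nat_lit 1520)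 (nat_lit 1065222652) (nat_lit 76) (nat_lit 4767615327) (nat_lit 372) (nat_lit 5) (nat_lit 392) (nat_lit 5) (nat_lit 373) (nat_lit 5) (nat_lit 421) (nat_lit 370) (nat_lit 349)) (XT.lf (nat_lit 0) (nat_lit 3732057253) (nat_lit 836) (nat_lit 622069346) (nat_lit 912) (nat_lit 3065979141) (nat_lit 361) (nat_lit 5) (nat_lit 372) (nat_lit 5) (nat_lit 373) (nat_lit 5) (nat_lit 422) (nat_lit 370) (nat_lit 348))) (XT.nd (nat_lit 78) (nat_lit 76) (nat_lit 0) (XT.lf (nat_lit 0) (nat_lit 1119996928) (nat_lit 912) (nat_lit 6078542174) (nat_lit 988) (nat_lit 273475060) (nat_lit 349) (nat_lit 5) (nat_lit 361) (nat_lit 5) (nat_lit 362) (nat_lit 5) (nat_lit 423) (nat_lit 370) (nat_lit 347)) (XT.lf (nat_lit 0) (nat_lit 2517829368) (nat_lit 988) (nat_lit 1525696621) (nat_lit 76) (nat_lit 3481606771) (nat_lit 348) (nat_lit 5) (nat_lit 361) (nat_lit 5) (nat_lit 349) (nat_lit 5) (nat_lit 424) (nat_lit 370) (nat_lit 346))))))))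
noncomputable def xc77 : XT := (XT.nd (nat_lit 2184) (nat_lit 6916) (nat_lit 0) (XT.nd (nat_lit 1092) (nat_lit 5396) (nat_lit 0) (XT.nd (nat_lit 546) (nat_lit 2964) (nat_lit 0) (XT.nd (nat_lit 234) (nat_lit 2280) (nat_lit 0) (XT.nd (nat_lit 78) (nat_lit 912) (nat_lit 0) (XT.lf (nat_lit 0) (nat_lit 3386394468) (nat_lit 836) (nat_lit 1945607415) (nat_lit 912) (nat_lit 2247901586) (nat_lit 337) (nat_lit 5) (nat_lit 348) (nat_lit 5) (nat_lit 349) (nat_lit 5) (nat_lit 425) (nat_lit 370) (nat_lit 345)) (XT.nd (nat_lit 78) (nat_lit 0) (nat_lit 0) (XT.lf (nat_lit 0) (nat_lit 524696708) (nat_lit 912) (nat_lit 6903820728) (nat_lit 76) (nat_lit 207908172) (nat_lit 325) (nat_lit 5) (nat_lit 337) (nat_lit 5) (nat_lit 326) (nat_lit 5) (nat_lit 426) (nat_lit 370) (nat_lit 344)) (XT.lf (nat_lit 0) (nat_lit 3313522570) (nat_lit 912) (nat_lit 1961782798) (nat_lit 76) (nat_lit 2418695814) (nat_lit 325) (nat_lit 5) (nat_lit 337) (nat_lit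 5) (nat_lit 326) (nat_lit 5) (nat_lit 427) (nat_lit 370) (nat_lit 343)))) (XT.nd (nat_lit 156) (nat_lit 684) (nat_lit 0) (XT.nd (nat_lit 78) (nat_lit 836) (nat_lit 0) (XT.lf (nat_lit 0) (nat_lit 3065978680) (nat_lit 760) (nat_lit 3062675221) (nat_lit 836) (nat_lit 1624700712) (nat_lit 315) (nat_lit 5) (nat_lit 325) (nat_lit 5) (nat_lit 326) (nat_lit 5) (nat_lit 428) (nat_lit 370) (nat_lit 342)) (XT.lf (nat_lit 0) (nat_lit 350397450) (nat_lit 760) (nat_lit 786653164) (nat_lit 836) (nat_lit 6677397658) (nat_lit 304) (nat_lit 5) (nat_lit 314) (nat_lit 5) (nat_lit 315) (nat_lit 5) (nat_lit 429) (nat_lit 370) (nat_lit 341))) (XT.nd (nat_lit 78) (nat_lit 684) (nat_lit 0) (XT.lf (nat_lit 0) (nat_lit 3925404922) (nat_lit 836) (nat_lit 2398888978) (nat_lit 76) (nat_lit 1552427463) (nat_lit 304) (nat_lit 5) (nat_lit 315) (nat_lit 5) (nat_lit 305) (nat_lit 5) (nat_lit 430) (nat_lit 370) (nat_lit 340)) (XT.lf (nat_lit 0) (nat_lit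 2745148274) (nat_lit 684) (nat_lit 3999836253) (nat_lit 760) (nat_lit 1195780336) (nat_lit 295) (nat_lit 5) (nat_lit 304) (nat_lit 5) (nat_lit 305) (nat_lit 5) (nat_lit 431) (nat_lit 370) (nat_lit 339))))) (XT.nd (nat_lit 234) (nat_lit 1444) (nat_lit 0) (XT.nd (nat_lit 78) (nat_lit 1444) (nat_lit 0) (XT.lf (nat_lit 0) (nat_lit 1562562303) (nat_lit 760) (nat_lit 45307777) (nat_lit 76) (nat_lit 6398664745) (nat_lit 294) (nat_lit 5) (nat_lit 304) (nat_lit 5) (nat_lit 295) (nat_lit 5) (nat_lit 432) (nat_lit 370) (nat_lit 338)) (XT.nd (nat_lit 78) (nat_lit 684) (nat_lit 0) (XT.lf (nat_lit 0) (nat_lit 4353178485) (nat_lit 836) (nat_lit 2863369559) (nat_lit 76) (nat_lit 857083842) (nat_lit 284) (nat_lit 5) (nat_lit 295) (nat_lit 5) (nat_lit 285) (nat_lit 5) (nat_lit 433) (nat_lit 370) (nat_lit 337)) (XT.lf (nat_lit 0) (nat_lit 2397238075) (nat_lit 684) (nat_lit 4783016621) (nat_lit 760) (nat_lit 962234754) (nat_lit 275)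 (nat_lit 5) (nat_lit 284) (nat_lit 5) (nat_lit 285) (nat_lit 5) (nat_lit 434) (nat_lit 370) (nat_lit 336)))) (XT.nd (nat_lit 156) (nat_lit 684) (nat_lit 0) (XT.nd (nat_lit 78) (nat_lit 684) (nat_lit 0) (XT.lf (nat_lit 0) (nat_lit 1800567848) (nat_lit 760) (nat_lit 475947469) (nat_lit 76) (nat_lit 5936524807) (nat_lit 274) (nat_lit 5) (nat_lit 284) (nat_lit 5) (nat_lit 275) (nat_lit 5) (nat_lit 435) (nat_lit 370) (nat_lit 335)) (XT.lf (nat_lit 0) (nat_lit 4594870453) (nat_lit 760) (nat_lit 3382780088) (nat_lit 76) (nat_lit 307471195) (nat_lit 265) (nat_lit 5) (nat_lit 275) (nat_lit 5) (nat_lit 266) (nat_lit 5) (nat_lit 436) (nat_lit 370) (nat_lit 334))) (XT.nd (nat_lit 78) (nat_lit 76) (nat_lit 0) (XT.lf (nat_lit 0) (nat_lit 1994319081) (nat_lit 608) (nat_lit 5437720452) (nat_lit 684) (nat_lit 926894954) (nat_lit 257) (nat_lit 5) (nat_lit 265) (nat_lit 5) (nat_lit 266) (nat_lit 5) (nat_lit 437) (nat_lit 370) (nat_lit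 333)) (XT.lf (nat_lit 0) (nat_lit 1845718867) (nat_lit 684) (nat_lit 974459838) (nat_lit 76) (nat_lit 5614251112) (nat_lit 256) (nat_lit 5) (nat_lit 265) (nat_lit 5) (nat_lit 257) (nat_lit 5) (nat_lit 438) (nat_lit 370) (nat_lit 332)))))) (XT.nd (nat_lit 546) (nat_lit 2204) (nat_lit 0) (XT.nd (nat_lit 234) (nat_lit 1824) (nat_lit 0) (XT.nd (nat_lit 78) (nat_lit 684) (nat_lit 0) (XT.lf (nat_lit 0) (nat_lit 4524670597) (nat_lit 684) (nat_lit 122905887) (nat_lit 760) (nat_lit 3864039416) (nat_lit 247) (nat_lit 5) (nat_lit 256) (nat_lit 5) (nat_lit 257) (nat_lit 5) (nat_lit 439) (nat_lit 370) (nat_lit 331)) (XT.nd (nat_lit 78) (nat_lit 76) (nat_lit 0) (XT.lf (nat_lit 0) (nat_lit 1506921988) (nat_lit 608) (nat_lit 5989246931) (nat_lit 684) (nat_lit 1094389731) (nat_lit 239) (nat_lit 5) (nat_lit 247) (nat_lit 5) (nat_lit 248) (nat_lit 5) (nat_lit 440) (nat_lit 370) (nat_lit 330)) (XT.lf (nat_lit 0) (nat_lit 1693160782)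 (nat_lit 684) (nat_lit 1570819131) (nat_lit 76) (nat_lit 5407197352) (nat_lit 238) (nat_lit 5) (nat_lit 247) (nat_lit 5) (nat_lit 239) (nat_lit 5) (nat_lit 441) (nat_lit 370) (nat_lit 329)))) (XT.nd (nat_lit 156) (nat_lit 684) (nat_lit 0) (XT.nd (nat_lit 78) (nat_lit 532) (nat_lit 0) (XT.lf (nat_lit 0) (nat_lit 4046353230) (nat_lit 608) (nat_lit 460034651) (nat_lit 684) (nat_lit 4247209450) (nat_lit 230) (nat_lit 5) (nat_lit 238) (nat_lit 5) (nat_lit 239) (nat_lit 5) (nat_lit 442) (nat_lit 370) (nat_lit 328)) (XT.lf (nat_lit 0) (nat_lit 903741942) (nat_lit 532) (nat_lit 6462910760) (nat_lit 608) (nat_lit 1471222483) (nat_lit 223) (nat_lit 5) (nat_lit 230) (nat_lit 5) (nat_lit 231) (nat_lit 5) (nat_lit 443) (nat_lit 370) (nat_lit 327))) (XT.nd (nat_lit 78) (nat_lit 608) (nat_lit 0) (XT.lf (nat_lit 0) (nat_lit 1336178807) (nat_lit 608) (nat_lit 2296931439) (nat_lit 76) (nat_lit 5290700897) (nat_lit 222) (nat_lit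 5) (nat_lit 230) (nat_lit 5) (nat_lit 223) (nat_lit 5) (nat_lit 444) (nat_lit 370) (nat_lit 326)) (XT.lf (nat_lit 0) (nat_lit 3436982558) (nat_lit 608) (nat_lit 725076628) (nat_lit 684) (nat_lit 4849594941) (nat_lit 214) (nat_lit 5) (nat_lit 222) (nat_lit 5) (nat_lit 223) (nat_lit 5) (nat_lit 445) (nat_lit 370) (nat_lit 325))))) (XT.nd (nat_lit 234) (nat_lit 1064) (nat_lit 0) (XT.nd (nat_lit 78) (nat_lit 608) (nat_lit 0) (XT.lf (nat_lit 0) (nat_lit 151321772) (nat_lit 532) (nat_lit 6884267887) (nat_lit 608) (nat_lit 2065864619) (nat_lit 207) (nat_lit 5) (nat_lit 214) (nat_lit 5) (nat_lit 215) (nat_lit 5) (nat_lit 446) (nat_lit 370) (nat_lit 324)) (XT.nd (nat_lit 78) (nat_lit 532) (nat_lit 0) (XT.lf (nat_lit 0) (nat_lit 766102373) (nat_lit 608) (nat_lit 3186957347) (nat_lit 76) (nat_lit 5239858188) (nat_lit 206) (nat_lit 5) (nat_lit 214) (nat_lit 5) (nat_lit 207) (nat_lit 5) (nat_lit 447) (nat_lit 370) (nat_lit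 323)) (XT.lf (nat_lit 0) (nat_lit 2661744343) (nat_lit 532) (nat_lit 943638172) (nat_lit 608) (nat_lit 5681010107) (nat_lit 199) (nat_lit 5) (nat_lit 206) (nat_lit 5) (nat_lit 207) (nat_lit 5) (nat_lit 448) (nat_lit 370) (nat_lit 322)))) (XT.nd (nat_lit 156) (nat_lit 608) (nat_lit 0) (XT.nd (nat_lit 78) (nat_lit 456) (nat_lit 0) (XT.lf (nat_lit 0) (nat_lit 6498164258) (nat_lit 608) (nat_lit 775976972) (nat_lit 76) (nat_lit 2107682488) (nat_lit 199) (nat_lit 5) (nat_lit 207) (nat_lit 5) (nat_lit 200) (nat_lit 5) (nat_lit 449) (nat_lit 370) (nat_lit 321)) (XT.lf (nat_lit 0) (nat_lit 5201298057) (nat_lit 456) (nat_lit 4249665257) (nat_lit 532) (nat_lit 28177681) (nat_lit 193) (nat_lit 5) (nat_lit 199) (nat_lit 5) (nat_lit 200) (nat_lit 5) (nat_lit 450) (nat_lit 370) (nat_lit 320))) (XT.nd (nat_lit 78) (nat_lit 0) (nat_lit 0) (XT.lf (nat_lit 0) (nat_lit 1683122778) (nat_lit 532) (nat_lit 1141922718) (nat_lit 608) (nat_lit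 6753435331) (nat_lit 185) (nat_lit 5) (nat_lit 192) (nat_lit 5) (nat_lit 193) (nat_lit 5) (nat_lit 451) (nat_lit 370) (nat_lit 319)) (XT.lf (nat_lit 0) (nat_lit 5739641294) (nat_lit 608) (nat_lit 1922357579) (nat_lit 76) (nat_lit 2017730741) (nat_lit 185) (nat_lit 5) (nat_lit 193) (nat_lit 5) (nat_lit 186) (nat_lit 5) (nat_lit 452) (nat_lit 370) (nat_lit 318))))))) (XT.nd (nat_lit 1092) (nat_lit 2812) (nat_lit 0) (XT.nd (nat_lit 546) (nat_lit 1748) (nat_lit 0) (XT.nd (nat_lit 234) (nat_lit 1368) (nat_lit 0) (XT.nd (nat_lit 78) (nat_lit 532) (nat_lit 0) (XT.lf (nat_lit 0) (nat_lit 4167317497) (nat_lit 456) (nat_lit 4543185270) (nat_lit 532) (nat_lit 1072560345) (nat_lit 179) (nat_lit 5) (nat_lit 185) (nat_lit 5) (nat_lit 186) (nat_lit 5) (nat_lit 453) (nat_lit 370) (nat_lit 317)) (XT.nd (nat_lit 78) (nat_lit 0) (nat_lit 0) (XT.lf (nat_lit 0) (nat_lit 460513060) (nat_lit 456) (nat_lit 1346979617) (nat_lit 532) (nat_lit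 8081159177) (nat_lit 172) (nat_lit 5) (nat_lit 178) (nat_lit 5) (nat_lit 179) (nat_lit 5) (nat_lit 454) (nat_lit 370) (nat_lit 316)) (XT.lf (nat_lit 0) (nat_lit 4744951400) (nat_lit 532) (nat_lit 3331329242) (nat_lit 76) (nat_lit 1919664714) (nat_lit 172) (nat_lit 5) (nat_lit 179) (nat_lit 5) (nat_lit 173) (nat_lit 5) (nat_lit 455) (nat_lit 370) (nat_lit 315)))) (XT.nd (nat_lit 156) (nat_lit 836) (nat_lit 0) (XT.nd (nat_lit 78) (nat_lit 76) (nat_lit 0) (XT.lf (nat_lit 0) (nat_lit 2866704899) (nat_lit 456) (nat_lit 4866494380) (nat_lit 532) (nat_lit 2372362395) (nat_lit 166) (nat_lit 5) (nat_lit 172) (nat_lit 5) (nat_lit 173) (nat_lit 5) (nat_lit 456) (nat_lit 370) (nat_lit 314)) (XT.lf (nat_lit 0) (nat_lit 543584631) (nat_lit 532) (nat_lit 1036426008) (nat_lit 76) (nat_lit 8637560767) (nat_lit 165) (nat_lit 5) (nat_lit 172) (nat_lit 5) (nat_lit 166) (nat_lit 5) (nat_lit 457) (nat_lit 370) (nat_lit 313))) (XT.nd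 (nat_lit 78) (nat_lit 380) (nat_lit 0) (XT.lf (nat_lit 0) (nat_lit 3497570272) (nat_lit 532) (nat_lit 5048066507) (nat_lit 76) (nat_lit 1785657938) (nat_lit 159) (nat_lit 5) (nat_lit 166) (nat_lit 5) (nat_lit 160) (nat_lit 5) (nat_lit 458) (nat_lit 370) (nat_lit 312)) (XT.lf (nat_lit 0) (nat_lit 1253226331) (nat_lit 380) (nat_lit 5248614789) (nat_lit 456) (nat_lit 3945643660) (nat_lit 154) (nat_lit 5) (nat_lit 159) (nat_lit 5) (nat_lit 160) (nat_lit 5) (nat_lit 459) (nat_lit 370) (nat_lit 311))))) (XT.nd (nat_lit 234) (nat_lit 1216) (nat_lit 0) (XT.nd (nat_lit 78) (nat_lit 532) (nat_lit 0) (XT.lf (nat_lit 0) (nat_lit 7700423022) (nat_lit 380) (nat_lit 1865612806) (nat_lit 456) (nat_lit 999982121) (nat_lit 154) (nat_lit 5) (nat_lit 159) (nat_lit 5) (nat_lit 160) (nat_lit 5) (nat_lit 460) (nat_lit 370) (nat_lit 310)) (XT.nd (nat_lit 78) (nat_lit 0) (nat_lit 0) (XT.lf (nat_lit 0) (nat_lit 1978347693) (nat_lit 532)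 (nat_lit 7121862490) (nat_lit 76) (nat_lit 1586465831) (nat_lit 147) (nat_lit 5) (nat_lit 154) (nat_lit 5) (nat_lit 148) (nat_lit 5) (nat_lit 461) (nat_lit 370) (nat_lit 309)) (XT.lf (nat_lit 0) (nat_lit 5001227912) (nat_lit 532) (nat_lit 714123422) (nat_lit 76) (nat_lit 5094311384) (nat_lit 147) (nat_lit 5) (nat_lit 154) (nat_lit 5) (nat_lit 148) (nat_lit 5) (nat_lit 462) (nat_lit 370) (nat_lit 308)))) (XT.nd (nat_lit 156) (nat_lit 380) (nat_lit 0) (XT.nd (nat_lit 78) (nat_lit 456) (nat_lit 0) (XT.lf (nat_lit 0) (nat_lit 5851126638) (nat_lit 380) (nat_lit 2238731437) (nat_lit 456) (nat_lit 2845160085) (nat_lit 142) (nat_lit 5) (nat_lit 147) (nat_lit 5) (nat_lit 148) (nat_lit 5) (nat_lit 463) (nat_lit 370) (nat_lit 307)) (XT.lf (nat_lit 0) (nat_lit 165294035) (nat_lit 456) (nat_lit 9606640861) (nat_lit 76) (nat_lit 1291132249) (nat_lit 136) (nat_lit 5) (nat_lit 142) (nat_lit 5) (nat_lit 137) (nat_lit 5) (nat_lit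 464) (nat_lit 370) (nat_lit 306))) (XT.nd (nat_lit 78) (nat_lit 380) (nat_lit 0) (XT.lf (nat_lit 0) (nat_lit 3214708963) (nat_lit 456) (nat_lit 3078192447) (nat_lit 76) (nat_lit 4900076594) (nat_lit 136) (nat_lit 5) (nat_lit 142) (nat_lit 5) (nat_lit 137) (nat_lit 5) (nat_lit 465) (nat_lit 370) (nat_lit 305)) (XT.lf (nat_lit 0) (nat_lit 3580958975) (nat_lit 380) (nat_lit 2735682833) (nat_lit 456) (nat_lit 5009028398) (nat_lit 131) (nat_lit 5) (nat_lit 136) (nat_lit 5) (nat_lit 137) (nat_lit 5) (nat_lit 466) (nat_lit 370) (nat_lit 304)))))) (XT.nd (nat_lit 546) (nat_lit 1292) (nat_lit 0) (XT.nd (nat_lit 234) (nat_lit 760) (nat_lit 0) (XT.nd (nat_lit 78) (nat_lit 760) (nat_lit 0) (XT.lf (nat_lit 0) (nat_lit 9475703656) (nat_lit 456) (nat_lit 1098582718) (nat_lit 76) (nat_lit 886841522) (nat_lit 131) (nat_lit 5) (nat_lit 137) (nat_lit 5) (nat_lit 132) (nat_lit 5) (nat_lit 467) (nat_lit 370) (nat_lit 303)) (XT.nd (nat_lit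 78) (nat_lit 304) (nat_lit 0) (XT.lf (nat_lit 0) (nat_lit 1108574980) (nat_lit 456) (nat_lit 5915272967) (nat_lit 76) (nat_lit 4574830416) (nat_lit 125) (nat_lit 5) (nat_lit 131) (nat_lit 5) (nat_lit 126) (nat_lit 5) (nat_lit 468) (nat_lit 370) (nat_lit 302)) (XT.lf (nat_lit 0) (nat_lit 828499591) (nat_lit 304) (nat_lit 3391406336) (nat_lit 380) (nat_lit 7519183381) (nat_lit 121) (nat_lit 5) (nat_lit 125) (nat_lit 5) (nat_lit 126) (nat_lit 5) (nat_lit 469) (nat_lit 370) (nat_lit 301)))) (XT.nd (nat_lit 156) (nat_lit 380) (nat_lit 0) (XT.nd (nat_lit 78) (nat_lit 380) (nat_lit 0) (XT.lf (nat_lit 0) (nat_lit 7404874119) (nat_lit 380) (nat_lit 4142962142) (nat_lit 76) (nat_lit 334256426) (nat_lit 121) (nat_lit 5) (nat_lit 126) (nat_lit 5) (nat_lit 122) (nat_lit 5) (nat_lit 470) (nat_lit 370) (nat_lit 300)) (XT.lf (nat_lit 0) (nat_lit 2727766110) (nat_lit 380) (nat_lit 7935961856) (nat_lit 456) (nat_lit 1364036621)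 (nat_lit 116) (nat_lit 5) (nat_lit 121) (nat_lit 5) (nat_lit 122) (nat_lit 5) (nat_lit 471) (nat_lit 370) (nat_lit 299))) (XT.nd (nat_lit 78) (nat_lit 304) (nat_lit 0) (XT.lf (nat_lit 0) (nat_lit 1785739366) (nat_lit 456) (nat_lit 2441347641) (nat_lit 76) (nat_lit 7949077665) (nat_lit 115) (nat_lit 5) (nat_lit 121) (nat_lit 5) (nat_lit 116) (nat_lit 5) (nat_lit 472) (nat_lit 370) (nat_lit 298)) (XT.lf (nat_lit 0) (nat_lit 4560473276) (nat_lit 304) (nat_lit 420087861) (nat_lit 380) (nat_lit 7346796479) (nat_lit 111) (nat_lit 5) (nat_lit 115) (nat_lit 5) (nat_lit 116) (nat_lit 5) (nat_lit 473) (nat_lit 370) (nat_lit 297))))) (XT.nd (nat_lit 312) (nat_lit 608) (nat_lit 0) (XT.nd (nat_lit 156) (nat_lit 380) (nat_lit 0) (XT.nd (nat_lit 78) (nat_lit 304) (nat_lit 0) (XT.lf (nat_lit 0) (nat_lit 8249128549) (nat_lit 380) (nat_lit 813393757) (nat_lit 76) (nat_lit 3418866384) (nat_lit 111) (nat_lit 5) (nat_lit 116) (nat_lit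 5) (nat_lit 112) (nat_lit 5) (nat_lit 474) (nat_lit 370) (nat_lit 296)) (XT.lf (nat_lit 0) (nat_lit 6315112560) (nat_lit 304) (nat_lit 5283183349) (nat_lit 380) (nat_lit 1039910939) (nat_lit 107) (nat_lit 5) (nat_lit 111) (nat_lit 5) (nat_lit 112) (nat_lit 5) (nat_lit 475) (nat_lit 370) (nat_lit 295))) (XT.nd (nat_lit 78) (nat_lit 0) (nat_lit 0) (XT.lf (nat_lit 0) (nat_lit 750383409) (nat_lit 304) (nat_lit 1418723488) (nat_lit 380) (nat_lit 10629139511) (nat_lit 102) (nat_lit 5) (nat_lit 106) (nat_lit 5) (nat_lit 107) (nat_lit 5) (nat_lit 476) (nat_lit 370) (nat_lit 294)) (XT.lf (nat_lit 0) (nat_lit 5459180745) (nat_lit 380) (nat_lit 4977521881) (nat_lit 76) (nat_lit 2524041053) (nat_lit 102) (nat_lit 5) (nat_lit 107) (nat_lit 5) (nat_lit 103) (nat_lit 5) (nat_lit 477) (nat_lit 370) (nat_lit 293)))) (XT.nd (nat_lit 156) (nat_lit 304) (nat_lit 0) (XT.nd (nat_lit 78) (nat_lit 0) (nat_lit 0) (XT.lf (nat_lit 0) (nat_lit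 2210312687) (nat_lit 304) (nat_lit 6600738342) (nat_lit 380) (nat_lit 4315530160) (nat_lit 98) (nat_lit 5) (nat_lit 102) (nat_lit 5) (nat_lit 103) (nat_lit 5) (nat_lit 478) (nat_lit 370) (nat_lit 292)) (XT.lf (nat_lit 0) (nat_lit 9566155294) (nat_lit 304) (nat_lit 2669717372) (nat_lit 380) (nat_lit 1059754499) (nat_lit 98) (nat_lit 5) (nat_lit 102) (nat_lit 5) (nat_lit 103) (nat_lit 5) (nat_lit 479) (nat_lit 370) (nat_lit 291))) (XT.nd (nat_lit 78) (nat_lit 0) (nat_lit 0) (XT.lf (nat_lit 0) (nat_lit 2236507822) (nat_lit 304) (nat_lit 9885966587) (nat_lit 76) (nat_lit 1345195113) (nat_lit 94) (nat_lit 5) (nat_lit 98) (nat_lit 5) (nat_lit 95) (nat_lit 5) (nat_lit 480) (nat_lit 370) (nat_lit 290)) (XT.lf (nat_lit 0) (nat_lit 5600409485) (nat_lit 304) (nat_lit 2620768929) (nat_lit 76) (nat_lit 5421525546) (nat_lit 94) (nat_lit 5) (nat_lit 98) (nat_lit 5) (nat_lit 95) (nat_lit 5) (nat_lit 481) (nat_lit 370) (nat_lit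 289))))))))
noncomputable def xc78 : XT := (XT.nd (nat_lit 2184) (nat_lit 1520) (nat_lit 0) (XT.nd (nat_lit 1092) (nat_lit 1368) (nat_lit 0) (XT.nd (nat_lit 546) (nat_lit 988) (nat_lit 0) (XT.nd (nat_lit 234) (nat_lit 608) (nat_lit 0) (XT.nd (nat_lit 78) (nat_lit 304) (nat_lit 0) (XT.lf (nat_lit 0) (nat_lit 4810760277) (nat_lit 304) (nat_lit 4225610843) (nat_lit 380) (nat_lit 4784781559) (nat_lit 90) (nat_lit 5) (nat_lit 94) (nat_lit 5) (nat_lit 95) (nat_lit 5) (nat_lit 482) (nat_lit 370) (nat_lit 288)) (XT.nd (nat_lit 78) (nat_lit 304) (nat_lit 0) (XT.lf (nat_lit 0) (nat_lit 12384655642) (nat_lit 304) (nat_lit 147777731) (nat_lit 380) (nat_lit 1470918424) (nat_lit 90) (nat_lit 5) (nat_lit 94) (nat_lit 5) (nat_lit 95) (nat_lit 5) (nat_lit 483) (nat_lit 370) (nat_lit 287)) (XT.lf (nat_lit 0) (nat_lit 1923194640) (nat_lit 304) (nat_lit 8269898321) (nat_lit 76) (nat_lit 3995082469) (nat_lit 86) (nat_lit 5) (nat_lit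 90) (nat_lit 5) (nat_lit 87) (nat_lit 5) (nat_lit 484) (nat_lit 370) (nat_lit 286)))) (XT.nd (nat_lit 156) (nat_lit 304) (nat_lit 0) (XT.nd (nat_lit 78) (nat_lit 304) (nat_lit 0) (XT.lf (nat_lit 0) (nat_lit 5351695864) (nat_lit 304) (nat_lit 800810249) (nat_lit 76) (nat_lit 8224279465) (nat_lit 86) (nat_lit 5) (nat_lit 90) (nat_lit 5) (nat_lit 87) (nat_lit 5) (nat_lit 485) (nat_lit 370) (nat_lit 285)) (XT.lf (nat_lit 0) (nat_lit 6867063655) (nat_lit 304) (nat_lit 2001063681) (nat_lit 380) (nat_lit 5700661751) (nat_lit 82) (nat_lit 5) (nat_lit 86) (nat_lit 5) (nat_lit 87) (nat_lit 5) (nat_lit 486) (nat_lit 370) (nat_lit 284))) (XT.nd (nat_lit 78) (nat_lit 304) (nat_lit 0) (XT.lf (nat_lit 0) (nat_lit 12449704733) (nat_lit 380) (nat_lit 120710602) (nat_lit 76) (nat_lit 2194329184) (nat_lit 82) (nat_lit 5) (nat_lit 87) (nat_lit 5) (nat_lit 83) (nat_lit 5) (nat_lit 487) (nat_lit 370) (nat_lit 283)) (XT.lf (nat_lit 0)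 (nat_lit 1161991204) (nat_lit 304) (nat_lit 7312380262) (nat_lit 76) (nat_lit 6489335151) (nat_lit 78) (nat_lit 5) (nat_lit 82) (nat_lit 5) (nat_lit 79) (nat_lit 5) (nat_lit 488) (nat_lit 370) (nat_lit 282))))) (XT.nd (nat_lit 234) (nat_lit 532) (nat_lit 0) (XT.nd (nat_lit 78) (nat_lit 228) (nat_lit 0) (XT.lf (nat_lit 0) (nat_lit 363164698) (nat_lit 228) (nat_lit 4293056281) (nat_lit 304) (nat_lit 10510555524) (nat_lit 75) (nat_lit 5) (nat_lit 78) (nat_lit 5) (nat_lit 79) (nat_lit 5) (nat_lit 489) (nat_lit 370) (nat_lit 281)) (XT.nd (nat_lit 78) (nat_lit 228) (nat_lit 0) (XT.lf (nat_lit 0) (nat_lit 8245124275) (nat_lit 304) (nat_lit 7121926979) (nat_lit 76) (nat_lit 6368329) (nat_lit 75) (nat_lit 5) (nat_lit 79) (nat_lit 5) (nat_lit 76) (nat_lit 5) (nat_lit 490) (nat_lit 370) (nat_lit 280)) (XT.lf (nat_lit 0) (nat_lit 654127987) (nat_lit 228) (nat_lit 11260410986) (nat_lit 304) (nat_lit 3669489309) (nat_lit 72)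 (nat_lit 5) (nat_lit 75) (nat_lit 5) (nat_lit 76) (nat_lit 5) (nat_lit 491) (nat_lit 370) (nat_lit 279)))) (XT.nd (nat_lit 156) (nat_lit 228) (nat_lit 0) (XT.nd (nat_lit 78) (nat_lit 304) (nat_lit 0) (XT.lf (nat_lit 0) (nat_lit 8643091209) (nat_lit 228) (nat_lit 7038313400) (nat_lit 304) (nat_lit 116970573) (nat_lit 72) (nat_lit 5) (nat_lit 75) (nat_lit 5) (nat_lit 76) (nat_lit 5) (nat_lit 492) (nat_lit 370) (nat_lit 278)) (XT.lf (nat_lit 0) (nat_lit 722834568) (nat_lit 228) (nat_lit 2719042354) (nat_lit 304) (nat_lit 12575058390) (nat_lit 68) (nat_lit 5) (nat_lit 71) (nat_lit 5) (nat_lit 72) (nat_lit 5) (nat_lit 493) (nat_lit 370) (nat_lit 277))) (XT.nd (nat_lit 78) (nat_lit 228) (nat_lit 0) (XT.lf (nat_lit 0) (nat_lit 7106306636) (nat_lit 304) (nat_lit 7434263021) (nat_lit 76) (nat_lit 1698568955) (nat_lit 68) (nat_lit 5) (nat_lit 72) (nat_lit 5) (nat_lit 69) (nat_lit 5) (nat_lit 494) (nat_lit 370) (nat_lit 276))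 (XT.lf (nat_lit 0) (nat_lit 533704690) (nat_lit 228) (nat_lit 10308935178) (nat_lit 304) (nat_lit 5623180536) (nat_lit 65) (nat_lit 5) (nat_lit 68) (nat_lit 5) (nat_lit 69) (nat_lit 5) (nat_lit 495) (nat_lit 370) (nat_lit 275)))))) (XT.nd (nat_lit 546) (nat_lit 608) (nat_lit 0) (XT.nd (nat_lit 234) (nat_lit 456) (nat_lit 0) (XT.nd (nat_lit 78) (nat_lit 304) (nat_lit 0) (XT.lf (nat_lit 0) (nat_lit 8723996042) (nat_lit 228) (nat_lit 5956937095) (nat_lit 304) (nat_lit 2015564621) (nat_lit 65) (nat_lit 5) (nat_lit 68) (nat_lit 5) (nat_lit 69) (nat_lit 5) (nat_lit 496) (nat_lit 370) (nat_lit 274)) (XT.nd (nat_lit 78) (nat_lit 0) (nat_lit 0) (XT.lf (nat_lit 0) (nat_lit 99432229) (nat_lit 228) (nat_lit 1521226925) (nat_lit 304) (nat_lit 15311354101) (nat_lit 61) (nat_lit 5) (nat_lit 64) (nat_lit 5) (nat_lit 65) (nat_lit 5) (nat_lit 497) (nat_lit 370) (nat_lit 273)) (XT.lf (nat_lit 0) (nat_lit 5353733588) (nat_lit 304)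 (nat_lit 8800973859) (nat_lit 76) (nat_lit 3016249081) (nat_lit 61) (nat_lit 5) (nat_lit 65) (nat_lit 5) (nat_lit 62) (nat_lit 5) (nat_lit 498) (nat_lit 370) (nat_lit 272)))) (XT.nd (nat_lit 156) (nat_lit 304) (nat_lit 0) (XT.nd (nat_lit 78) (nat_lit 152) (nat_lit 0) (XT.lf (nat_lit 0) (nat_lit 9149717027) (nat_lit 304) (nat_lit 655551877) (nat_lit 76) (nat_lit 7609650903) (nat_lit 61) (nat_lit 5) (nat_lit 65) (nat_lit 5) (nat_lit 62) (nat_lit 5) (nat_lit 499) (nat_lit 370) (nat_lit 271)) (XT.lf (nat_lit 0) (nat_lit 7717978693) (nat_lit 152) (nat_lit 5332352819) (nat_lit 228) (nat_lit 4612862582) (nat_lit 59) (nat_lit 5) (nat_lit 61) (nat_lit 5) (nat_lit 62) (nat_lit 5) (nat_lit 500) (nat_lit 370) (nat_lit 270))) (XT.nd (nat_lit 78) (nat_lit 304) (nat_lit 0) (XT.lf (nat_lit 0) (nat_lit 16232080516) (nat_lit 152) (nat_lit 780065255) (nat_lit 228) (nat_lit 904630203) (nat_lit 59) (nat_lit 5) (nat_lit 61) (nat_lit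 5) (nat_lit 62) (nat_lit 5) (nat_lit 501) (nat_lit 370) (nat_lit 269)) (XT.lf (nat_lit 0) (nat_lit 2888482918) (nat_lit 304) (nat_lit 11424155414) (nat_lit 76) (nat_lit 3861453928) (nat_lit 55) (nat_lit 5) (nat_lit 59) (nat_lit 5) (nat_lit 56) (nat_lit 5) (nat_lit 502) (nat_lit 370) (nat_lit 268))))) (XT.nd (nat_lit 234) (nat_lit 456) (nat_lit 0) (XT.nd (nat_lit 78) (nat_lit 152) (nat_lit 0) (XT.lf (nat_lit 0) (nat_lit 6741052693) (nat_lit 304) (nat_lit 3106924643) (nat_lit 76) (nat_lit 8588549314) (nat_lit 55) (nat_lit 5) (nat_lit 59) (nat_lit 5) (nat_lit 56) (nat_lit 5) (nat_lit 503) (nat_lit 370) (nat_lit 267)) (XT.nd (nat_lit 78) (nat_lit 0) (nat_lit 0) (XT.lf (nat_lit 0) (nat_lit 5412874536) (nat_lit 152) (nat_lit 5272502132) (nat_lit 228) (nat_lit 8018544411) (nat_lit 53) (nat_lit 5) (nat_lit 55) (nat_lit 5) (nat_lit 56) (nat_lit 5) (nat_lit 504) (nat_lit 370) (nat_lit 266)) (XT.lf (nat_lit 0) (nat_lit 14110646581)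 (nat_lit 152) (nat_lit 598525037) (nat_lit 228) (nat_lit 4267485392) (nat_lit 53) (nat_lit 5) (nat_lit 55) (nat_lit 5) (nat_lit 56) (nat_lit 5) (nat_lit 505) (nat_lit 370) (nat_lit 265)))) (XT.nd (nat_lit 156) (nat_lit 152) (nat_lit 0) (XT.nd (nat_lit 78) (nat_lit 76) (nat_lit 0) (XT.lf (nat_lit 0) (nat_lit 3715009185) (nat_lit 228) (nat_lit 15129662938) (nat_lit 304) (nat_lit 409556143) (nat_lit 50) (nat_lit 5) (nat_lit 53) (nat_lit 5) (nat_lit 54) (nat_lit 5) (nat_lit 506) (nat_lit 370) (nat_lit 264)) (XT.lf (nat_lit 0) (nat_lit 3496203924) (nat_lit 304) (nat_lit 7064376424) (nat_lit 76) (nat_lit 8975979590) (nat_lit 49) (nat_lit 5) (nat_lit 53) (nat_lit 5) (nat_lit 50) (nat_lit 5) (nat_lit 507) (nat_lit 370) (nat_lit 263))) (XT.nd (nat_lit 78) (nat_lit 0) (nat_lit 0) (XT.lf (nat_lit 0) (nat_lit 1564219031) (nat_lit 152) (nat_lit 5901004665) (nat_lit 228) (nat_lit 12359452733) (nat_lit 47) (nat_lit 5) (nat_lit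 49) (nat_lit 5) (nat_lit 50) (nat_lit 5) (nat_lit 508) (nat_lit 370) (nat_lit 262)) (XT.lf (nat_lit 0) (nat_lit 10427819806) (nat_lit 152) (nat_lit 1113843748) (nat_lit 228) (nat_lit 8576335706) (nat_lit 47) (nat_lit 5) (nat_lit 49) (nat_lit 5) (nat_lit 50) (nat_lit 5) (nat_lit 509) (nat_lit 370) (nat_lit 261))))))) (XT.nd (nat_lit 1092) (nat_lit 304) (nat_lit 0) (XT.nd (nat_lit 546) (nat_lit 608) (nat_lit 0) (XT.nd (nat_lit 234) (nat_lit 304) (nat_lit 0) (XT.nd (nat_lit 78) (nat_lit 304) (nat_lit 0) (XT.lf (nat_lit 0) (nat_lit 15705028317) (nat_lit 228) (nat_lit 1005935385) (nat_lit 76) (nat_lit 3706121631) (nat_lit 47) (nat_lit 5) (nat_lit 50) (nat_lit 5) (nat_lit 48) (nat_lit 5) (nat_lit 510) (nat_lit 370) (nat_lit 260)) (XT.nd (nat_lit 78) (nat_lit 76) (nat_lit 0) (XT.lf (nat_lit 0) (nat_lit 7916116651) (nat_lit 228) (nat_lit 12075615744) (nat_lit 304) (nat_lit 729623909) (nat_lit 44) (nat_lit 5) (nat_lit 47)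 (nat_lit 5) (nat_lit 48) (nat_lit 5) (nat_lit 511) (nat_lit 370) (nat_lit 259)) (XT.lf (nat_lit 0) (nat_lit 3276876975) (nat_lit 304) (nat_lit 4055375141) (nat_lit 76) (nat_lit 13699269788) (nat_lit 43) (nat_lit 5) (nat_lit 47) (nat_lit 5) (nat_lit 44) (nat_lit 5) (nat_lit 512) (nat_lit 370) (nat_lit 258)))) (XT.nd (nat_lit 156) (nat_lit 152) (nat_lit 0) (XT.nd (nat_lit 78) (nat_lit 0) (nat_lit 0) (XT.lf (nat_lit 0) (nat_lit 4897154652) (nat_lit 152) (nat_lit 2470084189) (nat_lit 228) (nat_lit 13980289854) (nat_lit 41) (nat_lit 5) (nat_lit 43) (nat_lit 5) (nat_lit 44) (nat_lit 5) (nat_lit 513) (nat_lit 370) (nat_lit 257)) (XT.lf (nat_lit 0) (nat_lit 11564727621) (nat_lit 228) (nat_lit 7633746076) (nat_lit 76) (nat_lit 2470879798) (nat_lit 41) (nat_lit 5) (nat_lit 44) (nat_lit 5) (nat_lit 42) (nat_lit 5) (nat_lit 514) (nat_lit 370) (nat_lit 256))) (XT.nd (nat_lit 78) (nat_lit 0) (nat_lit 0) (XT.lf (nat_lit 0) (nat_lit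 1329112474) (nat_lit 152) (nat_lit 14524162324) (nat_lit 228) (nat_lit 6144202002) (nat_lit 39) (nat_lit 5) (nat_lit 41) (nat_lit 5) (nat_lit 42) (nat_lit 5) (nat_lit 515) (nat_lit 370) (nat_lit 255)) (XT.lf (nat_lit 0) (nat_lit 10543735382) (nat_lit 152) (nat_lit 9717354449) (nat_lit 228) (nat_lit 2070406901) (nat_lit 39) (nat_lit 5) (nat_lit 41) (nat_lit 5) (nat_lit 42) (nat_lit 5) (nat_lit 516) (nat_lit 370) (nat_lit 254))))) (XT.nd (nat_lit 234) (nat_lit 380) (nat_lit 0) (XT.nd (nat_lit 78) (nat_lit 152) (nat_lit 0) (XT.lf (nat_lit 0) (nat_lit 2040019752) (nat_lit 228) (nat_lit 2773682145) (nat_lit 76) (nat_lit 17858578397) (nat_lit 38) (nat_lit 5) (nat_lit 41) (nat_lit 5) (nat_lit 39) (nat_lit 5) (nat_lit 517) (nat_lit 370) (nat_lit 253)) (XT.nd (nat_lit 78) (nat_lit 0) (nat_lit 0) (XT.lf (nat_lit 0) (nat_lit 6231260056) (nat_lit 228) (nat_lit 16558904923) (nat_lit 76) (nat_lit 228918148) (nat_lit 36) (nat_lit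 5) (nat_lit 39) (nat_lit 5) (nat_lit 37) (nat_lit 5) (nat_lit 518) (nat_lit 370) (nat_lit 252)) (XT.lf (nat_lit 0) (nat_lit 10539842202) (nat_lit 228) (nat_lit 7518201306) (nat_lit 76) (nat_lit 5314111954) (nat_lit 36) (nat_lit 5) (nat_lit 39) (nat_lit 5) (nat_lit 37) (nat_lit 5) (nat_lit 519) (nat_lit 370) (nat_lit 251)))) (XT.nd (nat_lit 156) (nat_lit 228) (nat_lit 0) (XT.nd (nat_lit 78) (nat_lit 0) (nat_lit 0) (XT.lf (nat_lit 0) (nat_lit 1696087128) (nat_lit 152) (nat_lit 13232758321) (nat_lit 228) (nat_lit 8803562519) (nat_lit 34) (nat_lit 5) (nat_lit 36) (nat_lit 5) (nat_lit 37) (nat_lit 5) (nat_lit 520) (nat_lit 370) (nat_lit 250)) (XT.lf (nat_lit 0) (nat_lit 11167292694) (nat_lit 152) (nat_lit 8272163069) (nat_lit 228) (nat_lit 4659736861) (nat_lit 34) (nat_lit 5) (nat_lit 36) (nat_lit 5) (nat_lit 37) (nat_lit 5) (nat_lit 521) (nat_lit 370) (nat_lit 249))) (XT.nd (nat_lit 78) (nat_lit 228) (nat_lit 0) (XT.lf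 (nat_lit 0) (nat_lit 20799216651) (nat_lit 152) (nat_lit 3224763507) (nat_lit 228) (nat_lit 449662345) (nat_lit 34) (nat_lit 5) (nat_lit 36) (nat_lit 5) (nat_lit 37) (nat_lit 5) (nat_lit 522) (nat_lit 370) (nat_lit 248)) (XT.lf (nat_lit 0) (nat_lit 3828524708) (nat_lit 228) (nat_lit 19076655660) (nat_lit 76) (nat_lit 1949218531) (nat_lit 31) (nat_lit 5) (nat_lit 34) (nat_lit 5) (nat_lit 32) (nat_lit 5) (nat_lit 523) (nat_lit 370) (nat_lit 247)))))) (XT.nd (nat_lit 49530) (nat_lit 0) (nat_lit 40508) (XT.nd (nat_lit 234) (nat_lit 152) (nat_lit 0) (XT.nd (nat_lit 78) (nat_lit 152) (nat_lit 0) (XT.lf (nat_lit 0) (nat_lit 8216402201) (nat_lit 228) (nat_lit 9826427643) (nat_lit 76) (nat_lit 7199281541) (nat_lit 31) (nat_lit 5) (nat_lit 34) (nat_lit 5) (nat_lit 32) (nat_lit 5) (nat_lit 524) (nat_lit 370) (nat_lit 246)) (XT.nd (nat_lit 78) (nat_lit 152) (nat_lit 0) (XT.lf (nat_lit 0) (nat_lit 12676317022) (nat_lit 228)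 (nat_lit 419054530) (nat_lit 76) (nat_lit 12542524273) (nat_lit 31) (nat_lit 5) (nat_lit 34) (nat_lit 5) (nat_lit 32) (nat_lit 5) (nat_lit 525) (nat_lit 370) (nat_lit 245)) (XT.lf (nat_lit 0) (nat_lit 9270740272) (nat_lit 152) (nat_lit 7999469678) (nat_lit 228) (nat_lit 8770493637) (nat_lit 29) (nat_lit 5) (nat_lit 31) (nat_lit 5) (nat_lit 32) (nat_lit 5) (nat_lit 526) (nat_lit 370) (nat_lit 244)))) (XT.nd (nat_lit 156) (nat_lit 76) (nat_lit 0) (XT.nd (nat_lit 78) (nat_lit 76) (nat_lit 0) (XT.lf (nat_lit 0) (nat_lit 19132877858) (nat_lit 152) (nat_lit 2810629000) (nat_lit 228) (nat_lit 4508313293) (nat_lit 29) (nat_lit 5) (nat_lit 31) (nat_lit 5) (nat_lit 32) (nat_lit 5) (nat_lit 527) (nat_lit 370) (nat_lit 243)) (XT.lf (nat_lit 0) (nat_lit 2308431024) (nat_lit 76) (nat_lit 24417879616) (nat_lit 152) (nat_lit 144530695) (nat_lit 28) (nat_lit 5) (nat_lit 29) (nat_lit 5) (nat_lit 30) (nat_lit 4) (nat_lit 528) (nat_lit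 370) (nat_lit 242))) (XT.nd (nat_lit 78) (nat_lit 0) (nat_lit 0) (XT.lf (nat_lit 0) (nat_lit 4303058015) (nat_lit 152) (nat_lit 15143453461) (nat_lit 76) (nat_lit 7850115010) (nat_lit 27) (nat_lit 5) (nat_lit 29) (nat_lit 5) (nat_lit 28) (nat_lit 5) (nat_lit 529) (nat_lit 370) (nat_lit 241)) (XT.lf (nat_lit 0) (nat_lit 8822918665) (nat_lit 152) (nat_lit 5563403322) (nat_lit 76) (nat_lit 13344884063) (nat_lit 27) (nat_lit 5) (nat_lit 29) (nat_lit 5) (nat_lit 28) (nat_lit 5) (nat_lit 530) (nat_lit 370) (nat_lit 240))))) (XT.nd (nat_lit 312) (nat_lit 1976) (nat_lit 0) (XT.nd (nat_lit 156) (nat_lit 912) (nat_lit 0) (XT.nd (nat_lit 78) (nat_lit 836) (nat_lit 0) (XT.lf (nat_lit 0) (nat_lit 1713504930) (nat_lit 684) (nat_lit 794188759) (nat_lit 684) (nat_lit 794188759) (nat_lit 609) (nat_lit 4) (nat_lit 618) (nat_lit 5) (nat_lit 618) (nat_lit 4) (nat_lit 398) (nat_lit 371) (nat_lit 371)) (XT.lf (nat_lit 0) (nat_lit 702965353)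 (nat_lit 760) (nat_lit 778664317) (nat_lit 836) (nat_lit 5140997032) (nat_lit 598) (nat_lit 5) (nat_lit 608) (nat_lit 5) (nat_lit 609) (nat_lit 4) (nat_lit 399) (nat_lit 371) (nat_lit 370))) (XT.nd (nat_lit 78) (nat_lit 912) (nat_lit 0) (XT.lf (nat_lit 0) (nat_lit 4543232280) (nat_lit 836) (nat_lit 2002272291) (nat_lit 0) (nat_lit 97200279) (nat_lit 598) (nat_lit 5) (nat_lit 609) (nat_lit 4) (nat_lit 598) (nat_lit 4) (nat_lit 400) (nat_lit 371) (nat_lit 369)) (XT.lf (nat_lit 0) (nat_lit 938267027) (nat_lit 912) (nat_lit 4708581567) (nat_lit 76) (nat_lit 1017310313) (nat_lit 586) (nat_lit 5) (nat_lit 598) (nat_lit 5) (nat_lit 587) (nat_lit 4) (nat_lit 401) (nat_lit 371) (nat_lit 368)))) (XT.nd (nat_lit 156) (nat_lit 988) (nat_lit 0) (XT.nd (nat_lit 78) (nat_lit 988) (nat_lit 0) (XT.lf (nat_lit 0) (nat_lit 3953749240) (nat_lit 912) (nat_lit 732845695) (nat_lit 76) (nat_lit 2000341410) (nat_lit 586) (nat_lit 5) (nat_lit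 598) (nat_lit 5) (nat_lit 587) (nat_lit 4) (nat_lit 402) (nat_lit 371) (nat_lit 367)) (XT.lf (nat_lit 0) (nat_lit 269217490) (nat_lit 988) (nat_lit 3398824332) (nat_lit 76) (nat_lit 3043076329) (nat_lit 573) (nat_lit 5) (nat_lit 586) (nat_lit 5) (nat_lit 574) (nat_lit 5) (nat_lit 403) (nat_lit 371) (nat_lit 366))) (XT.nd (nat_lit 78) (nat_lit 0) (nat_lit 0) (XT.lf (nat_lit 0) (nat_lit 650600340) (nat_lit 988) (nat_lit 2587045526) (nat_lit 1064) (nat_lit 3498994528) (nat_lit 560) (nat_lit 5) (nat_lit 573) (nat_lit 5) (nat_lit 574) (nat_lit 5) (nat_lit 404) (nat_lit 371) (nat_lit 365)) (XT.lf (nat_lit 0) (nat_lit 4775046041) (nat_lit 988) (nat_lit 1447537750) (nat_lit 1064) (nat_lit 541014693) (nat_lit 560) (nat_lit 5) (nat_lit 573) (nat_lit 5) (nat_lit 574) (nat_lit 5) (nat_lit 405) (nat_lit 371) (nat_lit 364))))))))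
noncomputable def xc79 : XT := (XT.nd (nat_lit 2184) (nat_lit 10412) (nat_lit 0) (XT.nd (nat_lit 1092) (nat_lit 8208) (nat_lit 0) (XT.nd (nat_lit 546) (nat_lit 6460) (nat_lit 0) (XT.nd (nat_lit 234) (nat_lit 3952) (nat_lit 0) (XT.nd (nat_lit 78) (nat_lit 1216) (nat_lit 0) (XT.lf (nat_lit 0) (nat_lit 2151073260) (nat_lit 1064) (nat_lit 241671159) (nat_lit 1140) (nat_lit 4399113467) (nat_lit 545) (nat_lit 5) (nat_lit 559) (nat_lit 5) (nat_lit 560) (nat_lit 5) (nat_lit 406) (nat_lit 371) (nat_lit 363)) (XT.nd (nat_lit 78) (nat_lit 1216) (nat_lit 0) (XT.lf (nat_lit 0) (nat_lit 5333935987) (nat_lit 1140) (nat_lit 483084805) (nat_lit 76) (nat_lit 1004534420) (nat_lit 545) (nat_lit 5) (nat_lit 560) (nat_lit 5) (nat_lit 546) (nat_lit 5) (nat_lit 407) (nat_lit 371) (nat_lit 362)) (XT.lf (nat_lit 0) (nat_lit 1425729459) (nat_lit 1216) (nat_lit 3108615060) (nat_lit 76) (nat_lit 2318110049) (nat_lit 529) (nat_lit 5) (nat_lit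 545) (nat_lit 5) (nat_lit 530) (nat_lit 5) (nat_lit 408) (nat_lit 371) (nat_lit 361)))) (XT.nd (nat_lit 156) (nat_lit 2660) (nat_lit 0) (XT.nd (nat_lit 78) (nat_lit 76) (nat_lit 0) (XT.lf (nat_lit 0) (nat_lit 1130362086) (nat_lit 1216) (nat_lit 3195504588) (nat_lit 1292) (nat_lit 2559000338) (nat_lit 513) (nat_lit 5) (nat_lit 529) (nat_lit 5) (nat_lit 530) (nat_lit 5) (nat_lit 409) (nat_lit 371) (nat_lit 360)) (XT.lf (nat_lit 0) (nat_lit 320512014) (nat_lit 1292) (nat_lit 1476835167) (nat_lit 76) (nat_lit 5121406529) (nat_lit 512) (nat_lit 5) (nat_lit 529) (nat_lit 5) (nat_lit 513) (nat_lit 5) (nat_lit 410) (nat_lit 371) (nat_lit 359))) (XT.nd (nat_lit 78) (nat_lit 1368) (nat_lit 0) (XT.lf (nat_lit 0) (nat_lit 2854856879) (nat_lit 1292) (nat_lit 326507126) (nat_lit 1368) (nat_lit 3772512635) (nat_lit 495) (nat_lit 5) (nat_lit 512) (nat_lit 5) (nat_lit 513) (nat_lit 5) (nat_lit 411) (nat_lit 371) (nat_lit 358))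 (XT.lf (nat_lit 0) (nat_lit 246255300) (nat_lit 1368) (nat_lit 5812723884) (nat_lit 1444) (nat_lit 931587888) (nat_lit 477) (nat_lit 5) (nat_lit 495) (nat_lit 5) (nat_lit 496) (nat_lit 5) (nat_lit 412) (nat_lit 371) (nat_lit 357))))) (XT.nd (nat_lit 234) (nat_lit 4864) (nat_lit 0) (XT.nd (nat_lit 78) (nat_lit 1520) (nat_lit 0) (XT.lf (nat_lit 0) (nat_lit 1910954619) (nat_lit 1444) (nat_lit 2362030701) (nat_lit 76) (nat_lit 2755392759) (nat_lit 476) (nat_lit 5) (nat_lit 495) (nat_lit 5) (nat_lit 477) (nat_lit 5) (nat_lit 413) (nat_lit 371) (nat_lit 356)) (XT.nd (nat_lit 78) (nat_lit 76) (nat_lit 0) (XT.lf (nat_lit 0) (nat_lit 2076530579) (nat_lit 1444) (nat_lit 2676734080) (nat_lit 1520) (nat_lit 2314502417) (nat_lit 457) (nat_lit 5) (nat_lit 476) (nat_lit 5) (nat_lit 477) (nat_lit 5) (nat_lit 414) (nat_lit 371) (nat_lit 355)) (XT.lf (nat_lit 0) (nat_lit 495558938) (nat_lit 1520) (nat_lit 528288909) (nat_lit 76)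 (nat_lit 6084911539) (nat_lit 456) (nat_lit 5) (nat_lit 476) (nat_lit 5) (nat_lit 457) (nat_lit 5) (nat_lit 415) (nat_lit 371) (nat_lit 354)))) (XT.nd (nat_lit 156) (nat_lit 1748) (nat_lit 0) (XT.nd (nat_lit 78) (nat_lit 1596) (nat_lit 0) (XT.lf (nat_lit 0) (nat_lit 3304893173) (nat_lit 1596) (nat_lit 3146222606) (nat_lit 76) (nat_lit 699718224) (nat_lit 436) (nat_lit 5) (nat_lit 457) (nat_lit 5) (nat_lit 437) (nat_lit 5) (nat_lit 416) (nat_lit 371) (nat_lit 353)) (XT.lf (nat_lit 0) (nat_lit 1400497810) (nat_lit 1596) (nat_lit 4733560855) (nat_lit 1672) (nat_lit 1060467279) (nat_lit 415) (nat_lit 5) (nat_lit 436) (nat_lit 5) (nat_lit 437) (nat_lit 5) (nat_lit 417) (nat_lit 371) (nat_lit 352))) (XT.nd (nat_lit 78) (nat_lit 1672) (nat_lit 0) (XT.lf (nat_lit 0) (nat_lit 1723158929) (nat_lit 1672) (nat_lit 1222724974) (nat_lit 76) (nat_lit 4293707467) (nat_lit 414) (nat_lit 5) (nat_lit 436) (nat_lit 5) (nat_lit 415)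 (nat_lit 5) (nat_lit 418) (nat_lit 371) (nat_lit 351)) (XT.lf (nat_lit 0) (nat_lit 3425798892) (nat_lit 1672) (nat_lit 1090347262) (nat_lit 1748) (nat_lit 2769959906) (nat_lit 392) (nat_lit 5) (nat_lit 414) (nat_lit 5) (nat_lit 415) (nat_lit 5) (nat_lit 419) (nat_lit 371) (nat_lit 350)))))) (XT.nd (nat_lit 546) (nat_lit 3952) (nat_lit 0) (XT.nd (nat_lit 234) (nat_lit 1900) (nat_lit 0) (XT.nd (nat_lit 78) (nat_lit 912) (nat_lit 0) (XT.lf (nat_lit 0) (nat_lit 802847322) (nat_lit 1444) (nat_lit 6527201308) (nat_lit 1520) (nat_lit 4246314) (nat_lit 373) (nat_lit 5) (nat_lit 392) (nat_lit 5) (nat_lit 393) (nat_lit 5) (nat_lit 420) (nat_lit 371) (nat_lit 349)) (XT.nd (nat_lit 78) (nat_lit 836) (nat_lit 0) (XT.lf (nat_lit 0) (nat_lit 2759826701) (nat_lit 1520) (nat_lit 1850321051) (nat_lit 76) (nat_lit 2773377596) (nat_lit 372) (nat_lit 5) (nat_lit 392) (nat_lit 5) (nat_lit 373) (nat_lit 5) (nat_lit 421) (nat_lit 371)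 (nat_lit 348)) (XT.lf (nat_lit 0) (nat_lit 2910311234) (nat_lit 836) (nat_lit 2635444750) (nat_lit 912) (nat_lit 1888693596) (nat_lit 361) (nat_lit 5) (nat_lit 372) (nat_lit 5) (nat_lit 373) (nat_lit 5) (nat_lit 422) (nat_lit 371) (nat_lit 347)))) (XT.nd (nat_lit 156) (nat_lit 912) (nat_lit 0) (XT.nd (nat_lit 78) (nat_lit 0) (nat_lit 0) (XT.lf (nat_lit 0) (nat_lit 249792242) (nat_lit 912) (nat_lit 601564121) (nat_lit 988) (nat_lit 6635716470) (nat_lit 348) (nat_lit 5) (nat_lit 360) (nat_lit 5) (nat_lit 361) (nat_lit 5) (nat_lit 423) (nat_lit 371) (nat_lit 346)) (XT.lf (nat_lit 0) (nat_lit 3609779100) (nat_lit 988) (nat_lit 2435244665) (nat_lit 76) (nat_lit 1495737840) (nat_lit 348) (nat_lit 5) (nat_lit 361) (nat_lit 5) (nat_lit 349) (nat_lit 5) (nat_lit 424) (nat_lit 371) (nat_lit 345))) (XT.nd (nat_lit 78) (nat_lit 76) (nat_lit 0) (XT.lf (nat_lit 0) (nat_lit 2438517932) (nat_lit 836) (nat_lit 3954388004) (nat_lit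 912) (nat_lit 1203266690) (nat_lit 337) (nat_lit 5) (nat_lit 348) (nat_lit 5) (nat_lit 349) (nat_lit 5) (nat_lit 425) (nat_lit 371) (nat_lit 344)) (XT.lf (nat_lit 0) (nat_lit 1524745708) (nat_lit 912) (nat_lit 272628776) (nat_lit 76) (nat_lit 5855820984) (nat_lit 336) (nat_lit 5) (nat_lit 348) (nat_lit 5) (nat_lit 337) (nat_lit 5) (nat_lit 426) (nat_lit 371) (nat_lit 343))))) (XT.nd (nat_lit 234) (nat_lit 2280) (nat_lit 0) (XT.nd (nat_lit 78) (nat_lit 836) (nat_lit 0) (XT.lf (nat_lit 0) (nat_lit 4275652069) (nat_lit 912) (nat_lit 3002163690) (nat_lit 76) (nat_lit 433731952) (nat_lit 325) (nat_lit 5) (nat_lit 337) (nat_lit 5) (nat_lit 326) (nat_lit 5) (nat_lit 427) (nat_lit 371) (nat_lit 342)) (XT.nd (nat_lit 78) (nat_lit 76) (nat_lit 0) (XT.lf (nat_lit 0) (nat_lit 1985545322) (nat_lit 760) (nat_lit 5074258222) (nat_lit 836) (nat_lit 711735117) (nat_lit 315) (nat_lit 5) (nat_lit 325) (nat_lit 5) (nat_lit 326) (nat_lit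 5) (nat_lit 428) (nat_lit 371) (nat_lit 341)) (XT.lf (nat_lit 0) (nat_lit 2011931444) (nat_lit 836) (nat_lit 784789162) (nat_lit 76) (nat_lit 5036332611) (nat_lit 314) (nat_lit 5) (nat_lit 325) (nat_lit 5) (nat_lit 315) (nat_lit 5) (nat_lit 429) (nat_lit 371) (nat_lit 340)))) (XT.nd (nat_lit 156) (nat_lit 836) (nat_lit 0) (XT.nd (nat_lit 78) (nat_lit 684) (nat_lit 0) (XT.lf (nat_lit 0) (nat_lit 4316759196) (nat_lit 760) (nat_lit 444613460) (nat_lit 836) (nat_lit 3134748799) (nat_lit 304) (nat_lit 5) (nat_lit 314) (nat_lit 5) (nat_lit 315) (nat_lit 5) (nat_lit 430) (nat_lit 371) (nat_lit 339)) (XT.lf (nat_lit 0) (nat_lit 1525738361) (nat_lit 684) (nat_lit 6021319910) (nat_lit 760) (nat_lit 413801122) (nat_lit 295) (nat_lit 5) (nat_lit 304) (nat_lit 5) (nat_lit 305) (nat_lit 5) (nat_lit 431) (nat_lit 371) (nat_lit 338))) (XT.nd (nat_lit 78) (nat_lit 760) (nat_lit 0) (XT.lf (nat_lit 0) (nat_lit 2311314773) (nat_lit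 760) (nat_lit 1315871171) (nat_lit 76) (nat_lit 4399817200) (nat_lit 294) (nat_lit 5) (nat_lit 304) (nat_lit 5) (nat_lit 295) (nat_lit 5) (nat_lit 432) (nat_lit 371) (nat_lit 337)) (XT.lf (nat_lit 0) (nat_lit 3902754407) (nat_lit 760) (nat_lit 1162490751) (nat_lit 836) (nat_lit 3029604365) (nat_lit 284) (nat_lit 5) (nat_lit 294) (nat_lit 5) (nat_lit 295) (nat_lit 5) (nat_lit 433) (nat_lit 371) (nat_lit 336))))))) (XT.nd (nat_lit 1092) (nat_lit 4484) (nat_lit 0) (XT.nd (nat_lit 546) (nat_lit 3116) (nat_lit 0) (XT.nd (nat_lit 234) (nat_lit 1368) (nat_lit 0) (XT.nd (nat_lit 78) (nat_lit 760) (nat_lit 0) (XT.lf (nat_lit 0) (nat_lit 1032415203) (nat_lit 684) (nat_lit 6821234040) (nat_lit 760) (nat_lit 310846581) (nat_lit 275) (nat_lit 5) (nat_lit 284) (nat_lit 5) (nat_lit 285) (nat_lit 5) (nat_lit 434) (nat_lit 371) (nat_lit 335)) (XT.nd (nat_lit 78) (nat_lit 684) (nat_lit 0) (XT.lf (nat_lit 0) (nat_lit 2421259850)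 (nat_lit 760) (nat_lit 1892890767) (nat_lit 76) (nat_lit 3921269061) (nat_lit 274) (nat_lit 5) (nat_lit 284) (nat_lit 5) (nat_lit 275) (nat_lit 5) (nat_lit 435) (nat_lit 371) (nat_lit 334)) (XT.lf (nat_lit 0) (nat_lit 3442916700) (nat_lit 684) (nat_lit 1739415243) (nat_lit 760) (nat_lit 3125848371) (nat_lit 265) (nat_lit 5) (nat_lit 274) (nat_lit 5) (nat_lit 275) (nat_lit 5) (nat_lit 436) (nat_lit 371) (nat_lit 333)))) (XT.nd (nat_lit 156) (nat_lit 684) (nat_lit 0) (XT.nd (nat_lit 78) (nat_lit 76) (nat_lit 0) (XT.lf (nat_lit 0) (nat_lit 477607856) (nat_lit 608) (nat_lit 7499271315) (nat_lit 684) (nat_lit 405980462) (nat_lit 257) (nat_lit 5) (nat_lit 265) (nat_lit 5) (nat_lit 266) (nat_lit 5) (nat_lit 437) (nat_lit 371) (nat_lit 332)) (XT.lf (nat_lit 0) (nat_lit 2338422204) (nat_lit 684) (nat_lit 2544236616) (nat_lit 76) (nat_lit 3576069667) (nat_lit 256) (nat_lit 5) (nat_lit 265) (nat_lit 5) (nat_lit 257) (nat_lit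 5) (nat_lit 438) (nat_lit 371) (nat_lit 331))) (XT.nd (nat_lit 78) (nat_lit 0) (nat_lit 0) (XT.lf (nat_lit 0) (nat_lit 2908443490) (nat_lit 684) (nat_lit 2200382647) (nat_lit 760) (nat_lit 3427730824) (nat_lit 247) (nat_lit 5) (nat_lit 256) (nat_lit 5) (nat_lit 257) (nat_lit 5) (nat_lit 439) (nat_lit 371) (nat_lit 330)) (XT.lf (nat_lit 0) (nat_lit 7913405905) (nat_lit 760) (nat_lit 166007344) (nat_lit 76) (nat_lit 536979770) (nat_lit 247) (nat_lit 5) (nat_lit 257) (nat_lit 5) (nat_lit 248) (nat_lit 5) (nat_lit 440) (nat_lit 371) (nat_lit 329))))) (XT.nd (nat_lit 234) (nat_lit 1824) (nat_lit 0) (XT.nd (nat_lit 78) (nat_lit 608) (nat_lit 0) (XT.lf (nat_lit 0) (nat_lit 2057684235) (nat_lit 684) (nat_lit 3299950064) (nat_lit 76) (nat_lit 3339773974) (nat_lit 238) (nat_lit 5) (nat_lit 247) (nat_lit 5) (nat_lit 239) (nat_lit 5) (nat_lit 441) (nat_lit 371) (nat_lit 328)) (XT.nd (nat_lit 78) (nat_lit 0) (nat_lit 0) (XT.lf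 (nat_lit 0) (nat_lit 2268806286) (nat_lit 608) (nat_lit 2570322405) (nat_lit 684) (nat_lit 3941347603) (nat_lit 230) (nat_lit 5) (nat_lit 238) (nat_lit 5) (nat_lit 239) (nat_lit 5) (nat_lit 442) (nat_lit 371) (nat_lit 327)) (XT.lf (nat_lit 0) (nat_lit 7659785766) (nat_lit 684) (nat_lit 924153501) (nat_lit 76) (nat_lit 281619096) (nat_lit 230) (nat_lit 5) (nat_lit 239) (nat_lit 5) (nat_lit 231) (nat_lit 5) (nat_lit 443) (nat_lit 371) (nat_lit 326)))) (XT.nd (nat_lit 156) (nat_lit 608) (nat_lit 0) (XT.nd (nat_lit 78) (nat_lit 608) (nat_lit 0) (XT.lf (nat_lit 0) (nat_lit 1572075140) (nat_lit 608) (nat_lit 4192024749) (nat_lit 76) (nat_lit 3187892998) (nat_lit 222) (nat_lit 5) (nat_lit 230) (nat_lit 5) (nat_lit 223) (nat_lit 5) (nat_lit 444) (nat_lit 371) (nat_lit 325)) (XT.lf (nat_lit 0) (nat_lit 1491443385) (nat_lit 608) (nat_lit 2874319710) (nat_lit 684) (nat_lit 4674727989) (nat_lit 214) (nat_lit 5) (nat_lit 222)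 (nat_lit 5) (nat_lit 223) (nat_lit 5) (nat_lit 445) (nat_lit 371) (nat_lit 324))) (XT.nd (nat_lit 78) (nat_lit 608) (nat_lit 0) (XT.lf (nat_lit 0) (nat_lit 7204983589) (nat_lit 684) (nat_lit 1836213073) (nat_lit 76) (nat_lit 89791916) (nat_lit 214) (nat_lit 5) (nat_lit 223) (nat_lit 5) (nat_lit 215) (nat_lit 5) (nat_lit 446) (nat_lit 371) (nat_lit 323)) (XT.lf (nat_lit 0) (nat_lit 872674332) (nat_lit 608) (nat_lit 5254728664) (nat_lit 76) (nat_lit 3095670827) (nat_lit 206) (nat_lit 5) (nat_lit 214) (nat_lit 5) (nat_lit 207) (nat_lit 5) (nat_lit 447) (nat_lit 371) (nat_lit 322)))))) (XT.nd (nat_lit 546) (nat_lit 2356) (nat_lit 0) (XT.nd (nat_lit 234) (nat_lit 1140) (nat_lit 0) (XT.nd (nat_lit 78) (nat_lit 456) (nat_lit 0) (XT.lf (nat_lit 0) (nat_lit 541429221) (nat_lit 532) (nat_lit 3137844021) (nat_lit 608) (nat_lit 5637939418) (nat_lit 199) (nat_lit 5) (nat_lit 206) (nat_lit 5) (nat_lit 207) (nat_lit 5) (nat_lit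 448) (nat_lit 371) (nat_lit 321)) (XT.nd (nat_lit 78) (nat_lit 456) (nat_lit 0) (XT.lf (nat_lit 0) (nat_lit 6475102526) (nat_lit 532) (nat_lit 64382721) (nat_lit 608) (nat_lit 2873820198) (nat_lit 199) (nat_lit 5) (nat_lit 206) (nat_lit 5) (nat_lit 207) (nat_lit 5) (nat_lit 449) (nat_lit 371) (nat_lit 320)) (XT.lf (nat_lit 0) (nat_lit 2986005765) (nat_lit 456) (nat_lit 6473103345) (nat_lit 532) (nat_lit 52187209) (nat_lit 193) (nat_lit 5) (nat_lit 199) (nat_lit 5) (nat_lit 200) (nat_lit 5) (nat_lit 450) (nat_lit 371) (nat_lit 319)))) (XT.nd (nat_lit 156) (nat_lit 532) (nat_lit 0) (XT.nd (nat_lit 78) (nat_lit 532) (nat_lit 0) (XT.lf (nat_lit 0) (nat_lit 2772121473) (nat_lit 532) (nat_lit 610766001) (nat_lit 76) (nat_lit 6228346082) (nat_lit 192) (nat_lit 5) (nat_lit 199) (nat_lit 5) (nat_lit 193) (nat_lit 5) (nat_lit 451) (nat_lit 371) (nat_lit 318)) (XT.lf (nat_lit 0) (nat_lit 5444545271) (nat_lit 532) (nat_lit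 206778502) (nat_lit 608) (nat_lit 4061875949) (nat_lit 185) (nat_lit 5) (nat_lit 192) (nat_lit 5) (nat_lit 193) (nat_lit 5) (nat_lit 452) (nat_lit 371) (nat_lit 317))) (XT.nd (nat_lit 78) (nat_lit 76) (nat_lit 0) (XT.lf (nat_lit 0) (nat_lit 1766670270) (nat_lit 456) (nat_lit 6820800153) (nat_lit 532) (nat_lit 1229766417) (nat_lit 179) (nat_lit 5) (nat_lit 185) (nat_lit 5) (nat_lit 186) (nat_lit 5) (nat_lit 453) (nat_lit 371) (nat_lit 316)) (XT.lf (nat_lit 0) (nat_lit 1631639815) (nat_lit 532) (nat_lit 2003620067) (nat_lit 76) (nat_lit 6288009246) (nat_lit 178) (nat_lit 5) (nat_lit 185) (nat_lit 5) (nat_lit 179) (nat_lit 5) (nat_lit 454) (nat_lit 371) (nat_lit 315))))) (XT.nd (nat_lit 312) (nat_lit 912) (nat_lit 0) (XT.nd (nat_lit 156) (nat_lit 532) (nat_lit 0) (XT.nd (nat_lit 78) (nat_lit 456) (nat_lit 0) (XT.lf (nat_lit 0) (nat_lit 4162604566) (nat_lit 456) (nat_lit 363155001) (nat_lit 532) (nat_lit 5505678628)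 (nat_lit 172) (nat_lit 5) (nat_lit 178) (nat_lit 5) (nat_lit 179) (nat_lit 5) (nat_lit 455) (nat_lit 371) (nat_lit 314)) (XT.lf (nat_lit 0) (nat_lit 273578665) (nat_lit 456) (nat_lit 7204008396) (nat_lit 532) (nat_lit 2664204474) (nat_lit 166) (nat_lit 5) (nat_lit 172) (nat_lit 5) (nat_lit 173) (nat_lit 5) (nat_lit 456) (nat_lit 371) (nat_lit 313))) (XT.nd (nat_lit 78) (nat_lit 456) (nat_lit 0) (XT.lf (nat_lit 0) (nat_lit 238405827) (nat_lit 532) (nat_lit 3687936326) (nat_lit 76) (nat_lit 6327848575) (nat_lit 165) (nat_lit 5) (nat_lit 172) (nat_lit 5) (nat_lit 166) (nat_lit 5) (nat_lit 457) (nat_lit 371) (nat_lit 312)) (XT.lf (nat_lit 0) (nat_lit 2584572582) (nat_lit 456) (nat_lit 561644141) (nat_lit 532) (nat_lit 7222628927) (nat_lit 159) (nat_lit 5) (nat_lit 165) (nat_lit 5) (nat_lit 166) (nat_lit 5) (nat_lit 458) (nat_lit 371) (nat_lit 311)))) (XT.nd (nat_lit 156) (nat_lit 532) (nat_lit 0) (XT.nd (nat_lit 78)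 (nat_lit 380) (nat_lit 0) (XT.lf (nat_lit 0) (nat_lit 6122010406) (nat_lit 532) (nat_lit 1519489325) (nat_lit 76) (nat_lit 2844113482) (nat_lit 159) (nat_lit 5) (nat_lit 166) (nat_lit 5) (nat_lit 160) (nat_lit 5) (nat_lit 459) (nat_lit 371) (nat_lit 310)) (XT.lf (nat_lit 0) (nat_lit 4883950827) (nat_lit 380) (nat_lit 4275738165) (nat_lit 456) (nat_lit 1444995513) (nat_lit 154) (nat_lit 5) (nat_lit 159) (nat_lit 5) (nat_lit 160) (nat_lit 5) (nat_lit 460) (nat_lit 371) (nat_lit 309))) (XT.nd (nat_lit 78) (nat_lit 0) (nat_lit 0) (XT.lf (nat_lit 0) (nat_lit 661669683) (nat_lit 456) (nat_lit 831835142) (nat_lit 532) (nat_lit 9232816349) (nat_lit 147) (nat_lit 5) (nat_lit 153) (nat_lit 5) (nat_lit 154) (nat_lit 5) (nat_lit 461) (nat_lit 371) (nat_lit 308)) (XT.lf (nat_lit 0) (nat_lit 4494797558) (nat_lit 532) (nat_lit 3674968214) (nat_lit 76) (nat_lit 2679981207) (nat_lit 147) (nat_lit 5) (nat_lit 154) (nat_lit 5) (nat_lit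 148) (nat_lit 5) (nat_lit 462) (nat_lit 371) (nat_lit 307))))))))
noncomputable def xc80 : XT := (XT.nd (nat_lit 2184) (nat_lit 2964) (nat_lit 0) (XT.nd (nat_lit 1092) (nat_lit 2356) (nat_lit 0) (XT.nd (nat_lit 546) (nat_lit 1444) (nat_lit 0) (XT.nd (nat_lit 234) (nat_lit 836) (nat_lit 0) (XT.nd (nat_lit 78) (nat_lit 456) (nat_lit 0) (XT.lf (nat_lit 0) (nat_lit 2827631480) (nat_lit 380) (nat_lit 4720296430) (nat_lit 456) (nat_lit 3427891715) (nat_lit 142) (nat_lit 5) (nat_lit 147) (nat_lit 5) (nat_lit 148) (nat_lit 5) (nat_lit 463) (nat_lit 371) (nat_lit 306)) (XT.nd (nat_lit 78) (nat_lit 456) (nat_lit 0) (XT.lf (nat_lit 0) (nat_lit 9463950644) (nat_lit 380) (nat_lit 1191104185) (nat_lit 456) (nat_lit 449514488) (nat_lit 142) (nat_lit 5) (nat_lit 147) (nat_lit 5) (nat_lit 148) (nat_lit 5) (nat_lit 464) (nat_lit 371) (nat_lit 305)) (XT.lf (nat_lit 0) (nat_lit 2571494300) (nat_lit 456) (nat_lit 6251218545) (nat_lit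 76) (nat_lit 2412518524) (nat_lit 136) (nat_lit 5) (nat_lit 142) (nat_lit 5) (nat_lit 137) (nat_lit 5) (nat_lit 465) (nat_lit 371) (nat_lit 304)))) (XT.nd (nat_lit 156) (nat_lit 456) (nat_lit 0) (XT.nd (nat_lit 78) (nat_lit 0) (nat_lit 0) (XT.lf (nat_lit 0) (nat_lit 342733949) (nat_lit 380) (nat_lit 5294273258) (nat_lit 456) (nat_lit 5731651423) (nat_lit 131) (nat_lit 5) (nat_lit 136) (nat_lit 5) (nat_lit 137) (nat_lit 5) (nat_lit 466) (nat_lit 371) (nat_lit 303)) (XT.lf (nat_lit 0) (nat_lit 7107691835) (nat_lit 380) (nat_lit 1667302766) (nat_lit 456) (nat_lit 2729549734) (nat_lit 131) (nat_lit 5) (nat_lit 136) (nat_lit 5) (nat_lit 137) (nat_lit 5) (nat_lit 467) (nat_lit 371) (nat_lit 302))) (XT.nd (nat_lit 78) (nat_lit 0) (nat_lit 0) (XT.lf (nat_lit 0) (nat_lit 326298994) (nat_lit 456) (nat_lit 9308326858) (nat_lit 76) (nat_lit 2008530049) (nat_lit 125) (nat_lit 5) (nat_lit 131) (nat_lit 5) (nat_lit 126) (nat_lit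 5) (nat_lit 468) (nat_lit 371) (nat_lit 301)) (XT.lf (nat_lit 0) (nat_lit 3417307881) (nat_lit 456) (nat_lit 2597872876) (nat_lit 76) (nat_lit 5768798682) (nat_lit 125) (nat_lit 5) (nat_lit 131) (nat_lit 5) (nat_lit 126) (nat_lit 5) (nat_lit 469) (nat_lit 371) (nat_lit 300))))) (XT.nd (nat_lit 234) (nat_lit 684) (nat_lit 0) (XT.nd (nat_lit 78) (nat_lit 456) (nat_lit 0) (XT.lf (nat_lit 0) (nat_lit 4258171808) (nat_lit 304) (nat_lit 2310019226) (nat_lit 380) (nat_lit 5359479514) (nat_lit 121) (nat_lit 5) (nat_lit 125) (nat_lit 5) (nat_lit 126) (nat_lit 5) (nat_lit 470) (nat_lit 371) (nat_lit 299)) (XT.nd (nat_lit 78) (nat_lit 456) (nat_lit 0) (XT.lf (nat_lit 0) (nat_lit 9779783812) (nat_lit 380) (nat_lit 841663244) (nat_lit 76) (nat_lit 1452846527) (nat_lit 121) (nat_lit 5) (nat_lit 126) (nat_lit 5) (nat_lit 122) (nat_lit 5) (nat_lit 471) (nat_lit 371) (nat_lit 298)) (XT.lf (nat_lit 0) (nat_lit 847384731) (nat_lit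 456) (nat_lit 6084692894) (nat_lit 76) (nat_lit 5291144246) (nat_lit 115) (nat_lit 5) (nat_lit 121) (nat_lit 5) (nat_lit 116) (nat_lit 5) (nat_lit 472) (nat_lit 371) (nat_lit 297)))) (XT.nd (nat_lit 156) (nat_lit 380) (nat_lit 0) (XT.nd (nat_lit 78) (nat_lit 0) (nat_lit 0) (XT.lf (nat_lit 0) (nat_lit 846686914) (nat_lit 304) (nat_lit 3157180872) (nat_lit 380) (nat_lit 8371319376) (nat_lit 111) (nat_lit 5) (nat_lit 115) (nat_lit 5) (nat_lit 116) (nat_lit 5) (nat_lit 473) (nat_lit 371) (nat_lit 296)) (XT.lf (nat_lit 0) (nat_lit 7240527868) (nat_lit 380) (nat_lit 4579068283) (nat_lit 76) (nat_lit 710265693) (nat_lit 111) (nat_lit 5) (nat_lit 116) (nat_lit 5) (nat_lit 112) (nat_lit 5) (nat_lit 474) (nat_lit 371) (nat_lit 295))) (XT.nd (nat_lit 78) (nat_lit 76) (nat_lit 0) (XT.lf (nat_lit 0) (nat_lit 2477708177) (nat_lit 304) (nat_lit 8073212953) (nat_lit 380) (nat_lit 2136539709) (nat_lit 107) (nat_lit 5) (nat_lit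 111) (nat_lit 5) (nat_lit 112) (nat_lit 5) (nat_lit 475) (nat_lit 371) (nat_lit 294)) (XT.lf (nat_lit 0) (nat_lit 1068167131) (nat_lit 380) (nat_lit 3160445973) (nat_lit 76) (nat_lit 8619408712) (nat_lit 106) (nat_lit 5) (nat_lit 111) (nat_lit 5) (nat_lit 107) (nat_lit 5) (nat_lit 476) (nat_lit 371) (nat_lit 293)))))) (XT.nd (nat_lit 546) (nat_lit 1140) (nat_lit 0) (XT.nd (nat_lit 234) (nat_lit 608) (nat_lit 0) (XT.nd (nat_lit 78) (nat_lit 304) (nat_lit 0) (XT.lf (nat_lit 0) (nat_lit 4026020876) (nat_lit 304) (nat_lit 281133329) (nat_lit 380) (nat_lit 8704391664) (nat_lit 102) (nat_lit 5) (nat_lit 106) (nat_lit 5) (nat_lit 107) (nat_lit 5) (nat_lit 477) (nat_lit 371) (nat_lit 292)) (XT.nd (nat_lit 78) (nat_lit 304) (nat_lit 0) (XT.lf (nat_lit 0) (nat_lit 7629379444) (nat_lit 380) (nat_lit 1845969328) (nat_lit 76) (nat_lit 3702632456) (nat_lit 102) (nat_lit 5) (nat_lit 107) (nat_lit 5) (nat_lit 103) (nat_lit 5)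 (nat_lit 478) (nat_lit 371) (nat_lit 291)) (XT.lf (nat_lit 0) (nat_lit 5464364675) (nat_lit 304) (nat_lit 5564350846) (nat_lit 380) (nat_lit 2318826244) (nat_lit 98) (nat_lit 5) (nat_lit 102) (nat_lit 5) (nat_lit 103) (nat_lit 5) (nat_lit 479) (nat_lit 371) (nat_lit 290)))) (XT.nd (nat_lit 156) (nat_lit 304) (nat_lit 0) (XT.nd (nat_lit 78) (nat_lit 228) (nat_lit 0) (XT.lf (nat_lit 0) (nat_lit 948614915) (nat_lit 380) (nat_lit 622638684) (nat_lit 76) (nat_lit 11949405362) (nat_lit 97) (nat_lit 5) (nat_lit 102) (nat_lit 5) (nat_lit 98) (nat_lit 5) (nat_lit 480) (nat_lit 371) (nat_lit 289)) (XT.lf (nat_lit 0) (nat_lit 4285096123) (nat_lit 304) (nat_lit 6897052651) (nat_lit 76) (nat_lit 2514097603) (nat_lit 94) (nat_lit 5) (nat_lit 98) (nat_lit 5) (nat_lit 95) (nat_lit 5) (nat_lit 481) (nat_lit 371) (nat_lit 288))) (XT.nd (nat_lit 78) (nat_lit 0) (nat_lit 0) (XT.lf (nat_lit 0) (nat_lit 456959054) (nat_lit 304) (nat_lit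 7222992310) (nat_lit 380) (nat_lit 6195570341) (nat_lit 90) (nat_lit 5) (nat_lit 94) (nat_lit 5) (nat_lit 95) (nat_lit 5) (nat_lit 482) (nat_lit 371) (nat_lit 287)) (XT.lf (nat_lit 0) (nat_lit 8010572125) (nat_lit 304) (nat_lit 3152722917) (nat_lit 380) (nat_lit 2894684547) (nat_lit 90) (nat_lit 5) (nat_lit 94) (nat_lit 5) (nat_lit 95) (nat_lit 5) (nat_lit 483) (nat_lit 371) (nat_lit 286))))) (XT.nd (nat_lit 234) (nat_lit 532) (nat_lit 0) (XT.nd (nat_lit 78) (nat_lit 304) (nat_lit 0) (XT.lf (nat_lit 0) (nat_lit 456524623) (nat_lit 304) (nat_lit 12804258932) (nat_lit 76) (nat_lit 983440306) (nat_lit 86) (nat_lit 5) (nat_lit 90) (nat_lit 5) (nat_lit 87) (nat_lit 5) (nat_lit 484) (nat_lit 371) (nat_lit 285)) (XT.nd (nat_lit 78) (nat_lit 304) (nat_lit 0) (XT.lf (nat_lit 0) (nat_lit 3872538071) (nat_lit 304) (nat_lit 5355298931) (nat_lit 76) (nat_lit 5205250902) (nat_lit 86) (nat_lit 5) (nat_lit 90) (nat_lit 5) (nat_lit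 87) (nat_lit 5) (nat_lit 485) (nat_lit 371) (nat_lit 284)) (XT.lf (nat_lit 0) (nat_lit 2232052566) (nat_lit 304) (nat_lit 5114580492) (nat_lit 380) (nat_lit 7279309143) (nat_lit 82) (nat_lit 5) (nat_lit 86) (nat_lit 5) (nat_lit 87) (nat_lit 5) (nat_lit 486) (nat_lit 371) (nat_lit 283)))) (XT.nd (nat_lit 156) (nat_lit 304) (nat_lit 0) (XT.nd (nat_lit 78) (nat_lit 228) (nat_lit 0) (XT.lf (nat_lit 0) (nat_lit 10004144355) (nat_lit 304) (nat_lit 897499583) (nat_lit 380) (nat_lit 3920789004) (nat_lit 82) (nat_lit 5) (nat_lit 86) (nat_lit 5) (nat_lit 87) (nat_lit 5) (nat_lit 487) (nat_lit 371) (nat_lit 282)) (XT.lf (nat_lit 0) (nat_lit 2885350843) (nat_lit 228) (nat_lit 11659119801) (nat_lit 304) (nat_lit 478056422) (nat_lit 79) (nat_lit 5) (nat_lit 82) (nat_lit 5) (nat_lit 83) (nat_lit 5) (nat_lit 488) (nat_lit 371) (nat_lit 281))) (XT.nd (nat_lit 78) (nat_lit 228) (nat_lit 0) (XT.lf (nat_lit 0) (nat_lit 3008172152)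 (nat_lit 304) (nat_lit 4482738090) (nat_lit 76) (nat_lit 7735037956) (nat_lit 78) (nat_lit 5) (nat_lit 82) (nat_lit 5) (nat_lit 79) (nat_lit 5) (nat_lit 489) (nat_lit 371) (nat_lit 280)) (XT.lf (nat_lit 0) (nat_lit 3326739547) (nat_lit 228) (nat_lit 3228997368) (nat_lit 304) (nat_lit 8877684809) (nat_lit 75) (nat_lit 5) (nat_lit 78) (nat_lit 5) (nat_lit 79) (nat_lit 5) (nat_lit 490) (nat_lit 371) (nat_lit 279))))))) (XT.nd (nat_lit 1092) (nat_lit 1444) (nat_lit 0) (XT.nd (nat_lit 546) (nat_lit 760) (nat_lit 0) (XT.nd (nat_lit 234) (nat_lit 456) (nat_lit 0) (XT.nd (nat_lit 78) (nat_lit 304) (nat_lit 0) (XT.lf (nat_lit 0) (nat_lit 10188318486) (nat_lit 304) (nat_lit 4337369616) (nat_lit 76) (nat_lit 1119082588) (nat_lit 75) (nat_lit 5) (nat_lit 79) (nat_lit 5) (nat_lit 76) (nat_lit 5) (nat_lit 491) (nat_lit 371) (nat_lit 278)) (XT.nd (nat_lit 78) (nat_lit 76) (nat_lit 0) (XT.lf (nat_lit 0) (nat_lit 3574949897) (nat_lit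 228) (nat_lit 10340182088) (nat_lit 304) (nat_lit 1944790180) (nat_lit 72) (nat_lit 5) (nat_lit 75) (nat_lit 5) (nat_lit 76) (nat_lit 5) (nat_lit 492) (nat_lit 371) (nat_lit 277)) (XT.lf (nat_lit 0) (nat_lit 1621967194) (nat_lit 304) (nat_lit 4423250653) (nat_lit 76) (nat_lit 10033826439) (nat_lit 71) (nat_lit 5) (nat_lit 75) (nat_lit 5) (nat_lit 72) (nat_lit 5) (nat_lit 493) (nat_lit 371) (nat_lit 276)))) (XT.nd (nat_lit 156) (nat_lit 228) (nat_lit 0) (XT.nd (nat_lit 78) (nat_lit 0) (nat_lit 0) (XT.lf (nat_lit 0) (nat_lit 3592745328) (nat_lit 228) (nat_lit 1642109034) (nat_lit 304) (nat_lit 11067427404) (nat_lit 68) (nat_lit 5) (nat_lit 71) (nat_lit 5) (nat_lit 72) (nat_lit 5) (nat_lit 494) (nat_lit 371) (nat_lit 275)) (XT.lf (nat_lit 0) (nat_lit 8945967222) (nat_lit 304) (nat_lit 4756378596) (nat_lit 76) (nat_lit 2827125411) (nat_lit 68) (nat_lit 5) (nat_lit 72) (nat_lit 5) (nat_lit 69) (nat_lit 5) (nat_lit 495)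 (nat_lit 371) (nat_lit 274))) (XT.nd (nat_lit 78) (nat_lit 0) (nat_lit 0) (XT.lf (nat_lit 0) (nat_lit 3352352616) (nat_lit 228) (nat_lit 9389620742) (nat_lit 304) (nat_lit 4019024168) (nat_lit 65) (nat_lit 5) (nat_lit 68) (nat_lit 5) (nat_lit 69) (nat_lit 5) (nat_lit 496) (nat_lit 371) (nat_lit 273)) (XT.lf (nat_lit 0) (nat_lit 11651391484) (nat_lit 228) (nat_lit 4972651191) (nat_lit 304) (nat_lit 372915149) (nat_lit 65) (nat_lit 5) (nat_lit 68) (nat_lit 5) (nat_lit 69) (nat_lit 5) (nat_lit 497) (nat_lit 371) (nat_lit 272))))) (XT.nd (nat_lit 234) (nat_lit 304) (nat_lit 0) (XT.nd (nat_lit 78) (nat_lit 152) (nat_lit 0) (XT.lf (nat_lit 0) (nat_lit 2858619791) (nat_lit 228) (nat_lit 440676102) (nat_lit 304) (nat_lit 13937971728) (nat_lit 61) (nat_lit 5) (nat_lit 64) (nat_lit 5) (nat_lit 65) (nat_lit 5) (nat_lit 498) (nat_lit 371) (nat_lit 271)) (XT.nd (nat_lit 78) (nat_lit 152) (nat_lit 0) (XT.lf (nat_lit 0) (nat_lit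 7081824676) (nat_lit 304) (nat_lit 6248197622) (nat_lit 76) (nat_lit 4151480651) (nat_lit 61) (nat_lit 5) (nat_lit 65) (nat_lit 5) (nat_lit 62) (nat_lit 5) (nat_lit 499) (nat_lit 371) (nat_lit 270)) (XT.lf (nat_lit 0) (nat_lit 2033294017) (nat_lit 152) (nat_lit 8901850624) (nat_lit 228) (nat_lit 6795581386) (nat_lit 59) (nat_lit 5) (nat_lit 61) (nat_lit 5) (nat_lit 62) (nat_lit 5) (nat_lit 500) (nat_lit 371) (nat_lit 269)))) (XT.nd (nat_lit 156) (nat_lit 0) (nat_lit 0) (XT.nd (nat_lit 78) (nat_lit 304) (nat_lit 0) (XT.lf (nat_lit 0) (nat_lit 10530027591) (nat_lit 152) (nat_lit 4356636406) (nat_lit 228) (nat_lit 3097852648) (nat_lit 59) (nat_lit 5) (nat_lit 61) (nat_lit 5) (nat_lit 62) (nat_lit 5) (nat_lit 501) (nat_lit 371) (nat_lit 268)) (XT.lf (nat_lit 0) (nat_lit 652271177) (nat_lit 304) (nat_lit 17318969301) (nat_lit 76) (nat_lit 272315058) (nat_lit 55) (nat_lit 5) (nat_lit 59) (nat_lit 5) (nat_lit 56) (nat_lit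 5) (nat_lit 502) (nat_lit 371) (nat_lit 267))) (XT.nd (nat_lit 78) (nat_lit 0) (nat_lit 0) (XT.lf (nat_lit 0) (nat_lit 4494721563) (nat_lit 304) (nat_lit 9018949930) (nat_lit 76) (nat_lit 4992523497) (nat_lit 55) (nat_lit 5) (nat_lit 59) (nat_lit 5) (nat_lit 56) (nat_lit 5) (nat_lit 503) (nat_lit 371) (nat_lit 266)) (XT.lf (nat_lit 0) (nat_lit 8393980596) (nat_lit 304) (nat_lit 587015496) (nat_lit 76) (nat_lit 9793497251) (nat_lit 55) (nat_lit 5) (nat_lit 59) (nat_lit 5) (nat_lit 56) (nat_lit 5) (nat_lit 504) (nat_lit 371) (nat_lit 265)))))) (XT.nd (nat_lit 546) (nat_lit 608) (nat_lit 0) (XT.nd (nat_lit 234) (nat_lit 380) (nat_lit 0) (XT.nd (nat_lit 78) (nat_lit 304) (nat_lit 0) (XT.lf (nat_lit 0) (nat_lit 8086192511) (nat_lit 152) (nat_lit 4317885814) (nat_lit 228) (nat_lit 6643427469) (nat_lit 53) (nat_lit 5) (nat_lit 55) (nat_lit 5) (nat_lit 56) (nat_lit 5) (nat_lit 505) (nat_lit 371) (nat_lit 264)) (XT.nd (nat_lit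 78) (nat_lit 304) (nat_lit 0) (XT.lf (nat_lit 0) (nat_lit 16481623443) (nat_lit 228) (nat_lit 2421453624) (nat_lit 76) (nat_lit 423161612) (nat_lit 53) (nat_lit 5) (nat_lit 56) (nat_lit 5) (nat_lit 54) (nat_lit 5) (nat_lit 506) (nat_lit 371) (nat_lit 263)) (XT.lf (nat_lit 0) (nat_lit 1067375340) (nat_lit 304) (nat_lit 13306039900) (nat_lit 76) (nat_lit 5235987851) (nat_lit 49) (nat_lit 5) (nat_lit 53) (nat_lit 5) (nat_lit 50) (nat_lit 5) (nat_lit 507) (nat_lit 371) (nat_lit 262)))) (XT.nd (nat_lit 156) (nat_lit 228) (nat_lit 0) (XT.nd (nat_lit 78) (nat_lit 152) (nat_lit 0) (XT.lf (nat_lit 0) (nat_lit 5016759156) (nat_lit 304) (nat_lit 4714241138) (nat_lit 76) (nat_lit 10166914386) (nat_lit 49) (nat_lit 5) (nat_lit 53) (nat_lit 5) (nat_lit 50) (nat_lit 5) (nat_lit 508) (nat_lit 371) (nat_lit 261)) (XT.lf (nat_lit 0) (nat_lit 4070535287) (nat_lit 152) (nat_lit 4982249837) (nat_lit 228) (nat_lit 11139262994) (nat_lit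 47) (nat_lit 5) (nat_lit 49) (nat_lit 5) (nat_lit 50) (nat_lit 5) (nat_lit 509) (nat_lit 371) (nat_lit 260))) (XT.nd (nat_lit 78) (nat_lit 228) (nat_lit 0) (XT.lf (nat_lit 0) (nat_lit 13062878041) (nat_lit 152) (nat_lit 119674622) (nat_lit 228) (nat_lit 7309255760) (nat_lit 47) (nat_lit 5) (nat_lit 49) (nat_lit 5) (nat_lit 50) (nat_lit 5) (nat_lit 510) (nat_lit 371) (nat_lit 259)) (XT.lf (nat_lit 0) (nat_lit 1392655162) (nat_lit 228) (nat_lit 16024393487) (nat_lit 304) (nat_lit 3380077147) (nat_lit 44) (nat_lit 5) (nat_lit 47) (nat_lit 5) (nat_lit 48) (nat_lit 5) (nat_lit 511) (nat_lit 371) (nat_lit 258))))) (XT.nd (nat_lit 312) (nat_lit 380) (nat_lit 0) (XT.nd (nat_lit 156) (nat_lit 152) (nat_lit 0) (XT.nd (nat_lit 78) (nat_lit 0) (nat_lit 0) (XT.lf (nat_lit 0) (nat_lit 652123482) (nat_lit 304) (nat_lit 10653104119) (nat_lit 76) (nat_lit 9802591346) (nat_lit 43) (nat_lit 5) (nat_lit 47) (nat_lit 5) (nat_lit 44)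 (nat_lit 5) (nat_lit 512) (nat_lit 371) (nat_lit 257)) (XT.lf (nat_lit 0) (nat_lit 4701806022) (nat_lit 304) (nat_lit 1780199917) (nat_lit 76) (nat_lit 14942635498) (nat_lit 43) (nat_lit 5) (nat_lit 47) (nat_lit 5) (nat_lit 44) (nat_lit 5) (nat_lit 513) (nat_lit 371) (nat_lit 256))) (XT.nd (nat_lit 78) (nat_lit 0) (nat_lit 0) (XT.lf (nat_lit 0) (nat_lit 7335878611) (nat_lit 152) (nat_lit 1526639681) (nat_lit 228) (nat_lit 12884685544) (nat_lit 41) (nat_lit 5) (nat_lit 43) (nat_lit 5) (nat_lit 44) (nat_lit 5) (nat_lit 514) (nat_lit 371) (nat_lit 255)) (XT.lf (nat_lit 0) (nat_lit 13123846576) (nat_lit 228) (nat_lit 5471116995) (nat_lit 76) (nat_lit 3480909977) (nat_lit 41) (nat_lit 5) (nat_lit 44) (nat_lit 5) (nat_lit 42) (nat_lit 5) (nat_lit 515) (nat_lit 371) (nat_lit 254)))) (XT.nd (nat_lit 156) (nat_lit 228) (nat_lit 0) (XT.nd (nat_lit 78) (nat_lit 0) (nat_lit 0) (XT.lf (nat_lit 0) (nat_lit 3655766463) (nat_lit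 152) (nat_lit 13831296052) (nat_lit 228) (nat_lit 4923724937) (nat_lit 39) (nat_lit 5) (nat_lit 41) (nat_lit 5) (nat_lit 42) (nat_lit 5) (nat_lit 516) (nat_lit 371) (nat_lit 253)) (XT.lf (nat_lit 0) (nat_lit 13009582383) (nat_lit 152) (nat_lit 8947633383) (nat_lit 228) (nat_lit 794794347) (nat_lit 39) (nat_lit 5) (nat_lit 41) (nat_lit 5) (nat_lit 42) (nat_lit 5) (nat_lit 517) (nat_lit 371) (nat_lit 252))) (XT.nd (nat_lit 78) (nat_lit 152) (nat_lit 0) (XT.lf (nat_lit 0) (nat_lit 3355082626) (nat_lit 228) (nat_lit 601177479) (nat_lit 76) (nat_lit 19143693665) (nat_lit 38) (nat_lit 5) (nat_lit 41) (nat_lit 5) (nat_lit 39) (nat_lit 5) (nat_lit 518) (nat_lit 371) (nat_lit 251)) (XT.lf (nat_lit 0) (nat_lit 7625698451) (nat_lit 228) (nat_lit 14657374173) (nat_lit 76) (nat_lit 1170714647) (nat_lit 36) (nat_lit 5) (nat_lit 39) (nat_lit 5) (nat_lit 37) (nat_lit 5) (nat_lit 519) (nat_lit 371) (nat_lit 250))))))))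
noncomputable def xc81 : XT := (XT.nd (nat_lit 51012) (nat_lit 0) (nat_lit 16036) (XT.nd (nat_lit 49920) (nat_lit 0) (nat_lit 35492) (XT.nd (nat_lit 546) (nat_lit 152) (nat_lit 0) (XT.nd (nat_lit 234) (nat_lit 380) (nat_lit 0) (XT.nd (nat_lit 78) (nat_lit 152) (nat_lit 0) (XT.lf (nat_lit 0) (nat_lit 11995553941) (nat_lit 228) (nat_lit 5479635089) (nat_lit 76) (nat_lit 6339235503) (nat_lit 36) (nat_lit 5) (nat_lit 39) (nat_lit 5) (nat_lit 37) (nat_lit 5) (nat_lit 520) (nat_lit 371) (nat_lit 249)) (XT.nd (nat_lit 78) (nat_lit 0) (nat_lit 0) (XT.lf (nat_lit 0) (nat_lit 3904538257) (nat_lit 152) (nat_lit 12557507388) (nat_lit 228) (nat_lit 7720047682) (nat_lit 34) (nat_lit 5) (nat_lit 36) (nat_lit 5) (nat_lit 37) (nat_lit 5) (nat_lit 521) (nat_lit 371) (nat_lit 248)) (XT.lf (nat_lit 0) (nat_lit 13522530104) (nat_lit 152) (nat_lit 7516129762) (nat_lit 228) (nat_lit 3518043278) (nat_lit 34) (nat_lit 5) (nat_lit 36) (nat_lit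 5) (nat_lit 37) (nat_lit 5) (nat_lit 522) (nat_lit 371) (nat_lit 247)))) (XT.nd (nat_lit 156) (nat_lit 152) (nat_lit 0) (XT.nd (nat_lit 78) (nat_lit 152) (nat_lit 0) (XT.lf (nat_lit 0) (nat_lit 742156363) (nat_lit 228) (nat_lit 1638713754) (nat_lit 76) (nat_lit 22558154121) (nat_lit 33) (nat_lit 5) (nat_lit 36) (nat_lit 5) (nat_lit 34) (nat_lit 5) (nat_lit 523) (nat_lit 371) (nat_lit 246)) (XT.lf (nat_lit 0) (nat_lit 5095940971) (nat_lit 228) (nat_lit 17347765469) (nat_lit 76) (nat_lit 2883713776) (nat_lit 31) (nat_lit 5) (nat_lit 34) (nat_lit 5) (nat_lit 32) (nat_lit 5) (nat_lit 524) (nat_lit 371) (nat_lit 245))) (XT.nd (nat_lit 78) (nat_lit 152) (nat_lit 0) (XT.lf (nat_lit 0) (nat_lit 9548226096) (nat_lit 228) (nat_lit 7953913741) (nat_lit 76) (nat_lit 8221219010) (nat_lit 31) (nat_lit 5) (nat_lit 34) (nat_lit 5) (nat_lit 32) (nat_lit 5) (nat_lit 525) (nat_lit 371) (nat_lit 244)) (XT.lf (nat_lit 0) (nat_lit 1622314318)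 (nat_lit 152) (nat_lit 12462665960) (nat_lit 228) (nat_lit 12042330676) (nat_lit 29) (nat_lit 5) (nat_lit 31) (nat_lit 5) (nat_lit 32) (nat_lit 5) (nat_lit 526) (nat_lit 371) (nat_lit 243))))) (XT.nd (nat_lit 234) (nat_lit 0) (nat_lit 0) (XT.nd (nat_lit 78) (nat_lit 152) (nat_lit 0) (XT.lf (nat_lit 0) (nat_lit 11471282856) (nat_lit 152) (nat_lit 7279575404) (nat_lit 228) (nat_lit 7787719175) (nat_lit 29) (nat_lit 5) (nat_lit 31) (nat_lit 5) (nat_lit 32) (nat_lit 5) (nat_lit 527) (nat_lit 371) (nat_lit 242)) (XT.nd (nat_lit 78) (nat_lit 152) (nat_lit 0) (XT.lf (nat_lit 0) (nat_lit 21491150884) (nat_lit 152) (nat_lit 2004210533) (nat_lit 228) (nat_lit 3463004722) (nat_lit 29) (nat_lit 5) (nat_lit 31) (nat_lit 5) (nat_lit 32) (nat_lit 5) (nat_lit 528) (nat_lit 371) (nat_lit 241)) (XT.lf (nat_lit 0) (nat_lit 971586797) (nat_lit 152) (nat_lit 23058237734) (nat_lit 76) (nat_lit 3355889513) (nat_lit 27) (nat_lit 5) (nat_lit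 29) (nat_lit 5) (nat_lit 28) (nat_lit 5) (nat_lit 529) (nat_lit 371) (nat_lit 240)))) (XT.nd (nat_lit 48984) (nat_lit 0) (nat_lit 44156) (XT.nd (nat_lit 48906) (nat_lit 0) (nat_lit 44916) (XT.lf (nat_lit 0) (nat_lit 5484290401) (nat_lit 152) (nat_lit 13490966033) (nat_lit 76) (nat_lit 8845181738) (nat_lit 27) (nat_lit 5) (nat_lit 29) (nat_lit 5) (nat_lit 28) (nat_lit 5) (nat_lit 530) (nat_lit 371) (nat_lit 239)) (XT.lf (nat_lit 0) (nat_lit 589443041) (nat_lit 684) (nat_lit 2105959681) (nat_lit 0) (nat_lit 589443041) (nat_lit 618) (nat_lit 5) (nat_lit 627) (nat_lit 4) (nat_lit 618) (nat_lit 4) (nat_lit 396) (nat_lit 372) (nat_lit 372))) (XT.nd (nat_lit 78) (nat_lit 760) (nat_lit 0) (XT.lf (nat_lit 0) (nat_lit 4241084528) (nat_lit 684) (nat_lit 439962393) (nat_lit 0) (nat_lit 1905359415) (nat_lit 618) (nat_lit 5) (nat_lit 627) (nat_lit 4) (nat_lit 618) (nat_lit 4) (nat_lit 397) (nat_lit 372) (nat_lit 371)) (XT.lf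 (nat_lit 0) (nat_lit 702144325) (nat_lit 760) (nat_lit 3207320156) (nat_lit 76) (nat_lit 2694950976) (nat_lit 608) (nat_lit 5) (nat_lit 618) (nat_lit 5) (nat_lit 609) (nat_lit 4) (nat_lit 398) (nat_lit 372) (nat_lit 370)))))) (XT.nd (nat_lit 546) (nat_lit 4940) (nat_lit 0) (XT.nd (nat_lit 234) (nat_lit 2052) (nat_lit 0) (XT.nd (nat_lit 78) (nat_lit 912) (nat_lit 0) (XT.lf (nat_lit 0) (nat_lit 636000511) (nat_lit 760) (nat_lit 3080176847) (nat_lit 836) (nat_lit 2907635287) (nat_lit 598) (nat_lit 5) (nat_lit 608) (nat_lit 5) (nat_lit 609) (nat_lit 4) (nat_lit 399) (nat_lit 372) (nat_lit 369)) (XT.nd (nat_lit 78) (nat_lit 836) (nat_lit 0) (XT.lf (nat_lit 0) (nat_lit 97035950) (nat_lit 836) (nat_lit 2096186643) (nat_lit 76) (nat_lit 4451390049) (nat_lit 597) (nat_lit 5) (nat_lit 608) (nat_lit 5) (nat_lit 598) (nat_lit 5) (nat_lit 400) (nat_lit 372) (nat_lit 368)) (XT.lf (nat_lit 0) (nat_lit 1827407053) (nat_lit 836)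 (nat_lit 1239129954) (nat_lit 912) (nat_lit 3600107698) (nat_lit 586) (nat_lit 5) (nat_lit 597) (nat_lit 5) (nat_lit 598) (nat_lit 5) (nat_lit 401) (nat_lit 372) (nat_lit 367)))) (XT.nd (nat_lit 156) (nat_lit 1064) (nat_lit 0) (XT.nd (nat_lit 78) (nat_lit 988) (nat_lit 0) (XT.lf (nat_lit 0) (nat_lit 5807644503) (nat_lit 836) (nat_lit 234630259) (nat_lit 912) (nat_lit 647978110) (nat_lit 586) (nat_lit 5) (nat_lit 597) (nat_lit 5) (nat_lit 598) (nat_lit 5) (nat_lit 402) (nat_lit 372) (nat_lit 366)) (XT.lf (nat_lit 0) (nat_lit 2291575480) (nat_lit 988) (nat_lit 3591854869) (nat_lit 76) (nat_lit 831478071) (nat_lit 573) (nat_lit 5) (nat_lit 586) (nat_lit 5) (nat_lit 574) (nat_lit 5) (nat_lit 403) (nat_lit 372) (nat_lit 365))) (XT.nd (nat_lit 78) (nat_lit 76) (nat_lit 0) (XT.lf (nat_lit 0) (nat_lit 429242438) (nat_lit 988) (nat_lit 4796983104) (nat_lit 1064) (nat_lit 1514914459) (nat_lit 560) (nat_lit 5) (nat_lit 573)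 (nat_lit 5) (nat_lit 574) (nat_lit 5) (nat_lit 404) (nat_lit 372) (nat_lit 364)) (XT.lf (nat_lit 0) (nat_lit 1392024614) (nat_lit 1064) (nat_lit 2249495493) (nat_lit 76) (nat_lit 3127065354) (nat_lit 559) (nat_lit 5) (nat_lit 573) (nat_lit 5) (nat_lit 560) (nat_lit 5) (nat_lit 405) (nat_lit 372) (nat_lit 363))))) (XT.nd (nat_lit 234) (nat_lit 2660) (nat_lit 0) (XT.nd (nat_lit 78) (nat_lit 1216) (nat_lit 0) (XT.lf (nat_lit 0) (nat_lit 1857556091) (nat_lit 1064) (nat_lit 2427741423) (nat_lit 1140) (nat_lit 2512176737) (nat_lit 545) (nat_lit 5) (nat_lit 559) (nat_lit 5) (nat_lit 560) (nat_lit 5) (nat_lit 406) (nat_lit 372) (nat_lit 362)) (XT.nd (nat_lit 78) (nat_lit 1140) (nat_lit 0) (XT.lf (nat_lit 0) (nat_lit 356161284) (nat_lit 1140) (nat_lit 803650627) (nat_lit 76) (nat_lit 5668096785) (nat_lit 544) (nat_lit 5) (nat_lit 559) (nat_lit 5) (nat_lit 545) (nat_lit 5) (nat_lit 407) (nat_lit 372) (nat_lit 361)) (XT.lf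 (nat_lit 0) (nat_lit 3209564115) (nat_lit 1216) (nat_lit 3467957576) (nat_lit 76) (nat_lit 181931888) (nat_lit 529) (nat_lit 5) (nat_lit 545) (nat_lit 5) (nat_lit 530) (nat_lit 5) (nat_lit 408) (nat_lit 372) (nat_lit 360)))) (XT.nd (nat_lit 156) (nat_lit 1368) (nat_lit 0) (XT.nd (nat_lit 78) (nat_lit 76) (nat_lit 0) (XT.lf (nat_lit 0) (nat_lit 740408690) (nat_lit 1216) (nat_lit 5336582138) (nat_lit 1292) (nat_lit 815558807) (nat_lit 513) (nat_lit 5) (nat_lit 529) (nat_lit 5) (nat_lit 530) (nat_lit 5) (nat_lit 409) (nat_lit 372) (nat_lit 359)) (XT.lf (nat_lit 0) (nat_lit 2011111140) (nat_lit 1292) (nat_lit 1911546234) (nat_lit 76) (nat_lit 3004180365) (nat_lit 512) (nat_lit 5) (nat_lit 529) (nat_lit 5) (nat_lit 513) (nat_lit 5) (nat_lit 410) (nat_lit 372) (nat_lit 358))) (XT.nd (nat_lit 78) (nat_lit 76) (nat_lit 0) (XT.lf (nat_lit 0) (nat_lit 2388782707) (nat_lit 1292) (nat_lit 2450765288) (nat_lit 1368) (nat_lit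 2123088684) (nat_lit 495) (nat_lit 5) (nat_lit 512) (nat_lit 5) (nat_lit 513) (nat_lit 5) (nat_lit 411) (nat_lit 372) (nat_lit 357)) (XT.lf (nat_lit 0) (nat_lit 669827994) (nat_lit 1368) (nat_lit 254167919) (nat_lit 76) (nat_lit 6076036484) (nat_lit 494) (nat_lit 5) (nat_lit 512) (nat_lit 5) (nat_lit 495) (nat_lit 5) (nat_lit 412) (nat_lit 372) (nat_lit 356))))))) (XT.nd (nat_lit 1092) (nat_lit 7448) (nat_lit 0) (XT.nd (nat_lit 546) (nat_lit 4256) (nat_lit 0) (XT.nd (nat_lit 234) (nat_lit 4864) (nat_lit 0) (XT.nd (nat_lit 78) (nat_lit 1520) (nat_lit 0) (XT.lf (nat_lit 0) (nat_lit 3463706158) (nat_lit 1444) (nat_lit 2901324125) (nat_lit 76) (nat_lit 673447188) (nat_lit 476) (nat_lit 5) (nat_lit 495) (nat_lit 5) (nat_lit 477) (nat_lit 5) (nat_lit 413) (nat_lit 372) (nat_lit 355)) (XT.nd (nat_lit 78) (nat_lit 76) (nat_lit 0) (XT.lf (nat_lit 0) (nat_lit 1504285529) (nat_lit 1444) (nat_lit 4769815299) (nat_lit 1520)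 (nat_lit 804429543) (nat_lit 457) (nat_lit 5) (nat_lit 476) (nat_lit 5) (nat_lit 477) (nat_lit 5) (nat_lit 414) (nat_lit 372) (nat_lit 354)) (XT.lf (nat_lit 0) (nat_lit 1957806826) (nat_lit 1520) (nat_lit 1146777740) (nat_lit 76) (nat_lit 4015327031) (nat_lit 456) (nat_lit 5) (nat_lit 476) (nat_lit 5) (nat_lit 457) (nat_lit 5) (nat_lit 415) (nat_lit 372) (nat_lit 353)))) (XT.nd (nat_lit 156) (nat_lit 1672) (nat_lit 0) (XT.nd (nat_lit 78) (nat_lit 1672) (nat_lit 0) (XT.lf (nat_lit 0) (nat_lit 3357091482) (nat_lit 1520) (nat_lit 1373740859) (nat_lit 1596) (nat_lit 2431904168) (nat_lit 436) (nat_lit 5) (nat_lit 456) (nat_lit 5) (nat_lit 457) (nat_lit 5) (nat_lit 416) (nat_lit 372) (nat_lit 352)) (XT.lf (nat_lit 0) (nat_lit 308192996) (nat_lit 1672) (nat_lit 6493865007) (nat_lit 76) (nat_lit 405162503) (nat_lit 414) (nat_lit 5) (nat_lit 436) (nat_lit 5) (nat_lit 415) (nat_lit 5) (nat_lit 417) (nat_lit 372) (nat_lit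 351))) (XT.nd (nat_lit 78) (nat_lit 1672) (nat_lit 0) (XT.lf (nat_lit 0) (nat_lit 3050996291) (nat_lit 1672) (nat_lit 1955245303) (nat_lit 76) (nat_lit 2246467655) (nat_lit 414) (nat_lit 5) (nat_lit 436) (nat_lit 5) (nat_lit 415) (nat_lit 5) (nat_lit 418) (nat_lit 372) (nat_lit 350)) (XT.lf (nat_lit 0) (nat_lit 2657915280) (nat_lit 1672) (nat_lit 3154695671) (nat_lit 1748) (nat_lit 1487262722) (nat_lit 392) (nat_lit 5) (nat_lit 414) (nat_lit 5) (nat_lit 415) (nat_lit 5) (nat_lit 419) (nat_lit 372) (nat_lit 349))))) (XT.nd (nat_lit 234) (nat_lit 1900) (nat_lit 0) (XT.nd (nat_lit 78) (nat_lit 2280) (nat_lit 0) (XT.lf (nat_lit 0) (nat_lit 1224899487) (nat_lit 1748) (nat_lit 17784861) (nat_lit 76) (nat_lit 6105969303) (nat_lit 391) (nat_lit 5) (nat_lit 414) (nat_lit 5) (nat_lit 392) (nat_lit 5) (nat_lit 420) (nat_lit 372) (nat_lit 348)) (XT.nd (nat_lit 78) (nat_lit 836) (nat_lit 0) (XT.lf (nat_lit 0) (nat_lit 3954857404)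 (nat_lit 1520) (nat_lit 2703379369) (nat_lit 76) (nat_lit 740348915) (nat_lit 372) (nat_lit 5) (nat_lit 392) (nat_lit 5) (nat_lit 373) (nat_lit 5) (nat_lit 421) (nat_lit 372) (nat_lit 347)) (XT.lf (nat_lit 0) (nat_lit 2020216147) (nat_lit 836) (nat_lit 4689425476) (nat_lit 912) (nat_lit 740511785) (nat_lit 361) (nat_lit 5) (nat_lit 372) (nat_lit 5) (nat_lit 373) (nat_lit 5) (nat_lit 422) (nat_lit 372) (nat_lit 346)))) (XT.nd (nat_lit 156) (nat_lit 912) (nat_lit 0) (XT.nd (nat_lit 78) (nat_lit 912) (nat_lit 0) (XT.lf (nat_lit 0) (nat_lit 1957639857) (nat_lit 912) (nat_lit 692288569) (nat_lit 76) (nat_lit 4853255719) (nat_lit 360) (nat_lit 5) (nat_lit 372) (nat_lit 5) (nat_lit 361) (nat_lit 5) (nat_lit 423) (nat_lit 372) (nat_lit 345)) (XT.lf (nat_lit 0) (nat_lit 4138890196) (nat_lit 912) (nat_lit 537889263) (nat_lit 988) (nat_lit 2880898520) (nat_lit 348) (nat_lit 5) (nat_lit 360) (nat_lit 5) (nat_lit 361) (nat_lit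 5) (nat_lit 424) (nat_lit 372) (nat_lit 344))) (XT.nd (nat_lit 78) (nat_lit 76) (nat_lit 0) (XT.lf (nat_lit 0) (nat_lit 1419716240) (nat_lit 836) (nat_lit 6005679616) (nat_lit 912) (nat_lit 188402370) (nat_lit 337) (nat_lit 5) (nat_lit 348) (nat_lit 5) (nat_lit 349) (nat_lit 5) (nat_lit 425) (nat_lit 372) (nat_lit 343)) (XT.lf (nat_lit 0) (nat_lit 2502033341) (nat_lit 912) (nat_lit 1341208115) (nat_lit 76) (nat_lit 3827951440) (nat_lit 336) (nat_lit 5) (nat_lit 348) (nat_lit 5) (nat_lit 337) (nat_lit 5) (nat_lit 426) (nat_lit 372) (nat_lit 342)))))) (XT.nd (nat_lit 546) (nat_lit 3496) (nat_lit 0) (XT.nd (nat_lit 234) (nat_lit 2280) (nat_lit 0) (XT.nd (nat_lit 78) (nat_lit 836) (nat_lit 0) (XT.lf (nat_lit 0) (nat_lit 3604119697) (nat_lit 836) (nat_lit 1614980755) (nat_lit 912) (nat_lit 2511139394) (nat_lit 325) (nat_lit 5) (nat_lit 336) (nat_lit 5) (nat_lit 337) (nat_lit 5) (nat_lit 427) (nat_lit 372) (nat_lit 341))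 (XT.nd (nat_lit 78) (nat_lit 0) (nat_lit 0) (XT.lf (nat_lit 0) (nat_lit 168462328) (nat_lit 836) (nat_lit 6960621295) (nat_lit 76) (nat_lit 661972037) (nat_lit 314) (nat_lit 5) (nat_lit 325) (nat_lit 5) (nat_lit 315) (nat_lit 5) (nat_lit 428) (nat_lit 372) (nat_lit 340)) (XT.lf (nat_lit 0) (nat_lit 2859425683) (nat_lit 836) (nat_lit 1989573569) (nat_lit 76) (nat_lit 3003962804) (nat_lit 314) (nat_lit 5) (nat_lit 325) (nat_lit 5) (nat_lit 315) (nat_lit 5) (nat_lit 429) (nat_lit 372) (nat_lit 339)))) (XT.nd (nat_lit 156) (nat_lit 760) (nat_lit 0) (XT.nd (nat_lit 78) (nat_lit 760) (nat_lit 0) (XT.lf (nat_lit 0) (nat_lit 3070596439) (nat_lit 760) (nat_lit 2507269078) (nat_lit 836) (nat_lit 2338801362) (nat_lit 304) (nat_lit 5) (nat_lit 314) (nat_lit 5) (nat_lit 315) (nat_lit 5) (nat_lit 430) (nat_lit 372) (nat_lit 338)) (XT.lf (nat_lit 0) (nat_lit 227173999) (nat_lit 684) (nat_lit 105896074) (nat_lit 760) (nat_lit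 7649182321) (nat_lit 294) (nat_lit 5) (nat_lit 303) (nat_lit 5) (nat_lit 304) (nat_lit 5) (nat_lit 431) (nat_lit 372) (nat_lit 337))) (XT.nd (nat_lit 78) (nat_lit 760) (nat_lit 0) (XT.lf (nat_lit 0) (nat_lit 3029550810) (nat_lit 760) (nat_lit 2663300034) (nat_lit 76) (nat_lit 2355971331) (nat_lit 294) (nat_lit 5) (nat_lit 304) (nat_lit 5) (nat_lit 295) (nat_lit 5) (nat_lit 432) (nat_lit 372) (nat_lit 336)) (XT.lf (nat_lit 0) (nat_lit 2512114130) (nat_lit 760) (nat_lit 3240259150) (nat_lit 836) (nat_lit 2364932728) (nat_lit 284) (nat_lit 5) (nat_lit 294) (nat_lit 5) (nat_lit 295) (nat_lit 5) (nat_lit 433) (nat_lit 372) (nat_lit 335))))) (XT.nd (nat_lit 312) (nat_lit 1976) (nat_lit 0) (XT.nd (nat_lit 156) (nat_lit 760) (nat_lit 0) (XT.nd (nat_lit 78) (nat_lit 684) (nat_lit 0) (XT.lf (nat_lit 0) (nat_lit 311619351) (nat_lit 836) (nat_lit 412738608) (nat_lit 76) (nat_lit 7463314411) (nat_lit 283) (nat_lit 5) (nat_lit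 294) (nat_lit 5) (nat_lit 284) (nat_lit 5) (nat_lit 434) (nat_lit 372) (nat_lit 334)) (XT.lf (nat_lit 0) (nat_lit 3010493870) (nat_lit 760) (nat_lit 3389435001) (nat_lit 76) (nat_lit 1859224503) (nat_lit 274) (nat_lit 5) (nat_lit 284) (nat_lit 5) (nat_lit 275) (nat_lit 5) (nat_lit 435) (nat_lit 372) (nat_lit 333))) (XT.nd (nat_lit 78) (nat_lit 76) (nat_lit 0) (XT.lf (nat_lit 0) (nat_lit 1901273874) (nat_lit 684) (nat_lit 3838989855) (nat_lit 760) (nat_lit 2592290456) (nat_lit 265) (nat_lit 5) (nat_lit 274) (nat_lit 5) (nat_lit 275) (nat_lit 5) (nat_lit 436) (nat_lit 372) (nat_lit 332)) (XT.lf (nat_lit 0) (nat_lit 95762912) (nat_lit 760) (nat_lit 1114660650) (nat_lit 76) (nat_lit 7197409786) (nat_lit 264) (nat_lit 5) (nat_lit 274) (nat_lit 5) (nat_lit 265) (nat_lit 5) (nat_lit 437) (nat_lit 372) (nat_lit 331)))) (XT.nd (nat_lit 156) (nat_lit 684) (nat_lit 0) (XT.nd (nat_lit 78) (nat_lit 684) (nat_lit 0) (XT.lf (nat_lit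 0) (nat_lit 2798640274) (nat_lit 684) (nat_lit 4196420435) (nat_lit 76) (nat_lit 1489326108) (nat_lit 256) (nat_lit 5) (nat_lit 265) (nat_lit 5) (nat_lit 257) (nat_lit 5) (nat_lit 438) (nat_lit 372) (nat_lit 330)) (XT.lf (nat_lit 0) (nat_lit 1209215937) (nat_lit 684) (nat_lit 4328246673) (nat_lit 760) (nat_lit 3025397367) (nat_lit 247) (nat_lit 5) (nat_lit 256) (nat_lit 5) (nat_lit 257) (nat_lit 5) (nat_lit 439) (nat_lit 372) (nat_lit 329))) (XT.nd (nat_lit 78) (nat_lit 684) (nat_lit 0) (XT.lf (nat_lit 0) (nat_lit 6730166362) (nat_lit 684) (nat_lit 1588037404) (nat_lit 760) (nat_lit 324981839) (nat_lit 247) (nat_lit 5) (nat_lit 256) (nat_lit 5) (nat_lit 257) (nat_lit 5) (nat_lit 440) (nat_lit 372) (nat_lit 328)) (XT.lf (nat_lit 0) (nat_lit 2388610066) (nat_lit 684) (nat_lit 5114372005) (nat_lit 76) (nat_lit 1222024442) (nat_lit 238) (nat_lit 5) (nat_lit 247) (nat_lit 5) (nat_lit 239) (nat_lit 5) (nat_lit 441) (nat_lit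 372) (nat_lit 327))))))))
noncomputable def xc82 : XT := (XT.nd (nat_lit 2184) (nat_lit 4636) (nat_lit 0) (XT.nd (nat_lit 1092) (nat_lit 3572) (nat_lit 0) (XT.nd (nat_lit 546) (nat_lit 2584) (nat_lit 0) (XT.nd (nat_lit 234) (nat_lit 1216) (nat_lit 0) (XT.nd (nat_lit 78) (nat_lit 608) (nat_lit 0) (XT.lf (nat_lit 0) (nat_lit 405333622) (nat_lit 608) (nat_lit 4732777265) (nat_lit 684) (nat_lit 3670614581) (nat_lit 230) (nat_lit 5) (nat_lit 238) (nat_lit 5) (nat_lit 239) (nat_lit 5) (nat_lit 442) (nat_lit 372) (nat_lit 326)) (XT.nd (nat_lit 78) (nat_lit 608) (nat_lit 0) (XT.lf (nat_lit 0) (nat_lit 6055372980) (nat_lit 608) (nat_lit 1881927863) (nat_lit 684) (nat_lit 956947860) (nat_lit 230) (nat_lit 5) (nat_lit 238) (nat_lit 5) (nat_lit 239) (nat_lit 5) (nat_lit 443) (nat_lit 372) (nat_lit 325)) (XT.lf (nat_lit 0) (nat_lit 1773176799) (nat_lit 608) (nat_lit 6175378054) (nat_lit 76) (nat_lit 1032996622) (nat_lit 222)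 (nat_lit 5) (nat_lit 230) (nat_lit 5) (nat_lit 223) (nat_lit 5) (nat_lit 444) (nat_lit 372) (nat_lit 324)))) (XT.nd (nat_lit 156) (nat_lit 608) (nat_lit 0) (XT.nd (nat_lit 78) (nat_lit 608) (nat_lit 0) (XT.lf (nat_lit 0) (nat_lit 4538004165) (nat_lit 608) (nat_lit 535911415) (nat_lit 76) (nat_lit 3996722446) (nat_lit 222) (nat_lit 5) (nat_lit 230) (nat_lit 5) (nat_lit 223) (nat_lit 5) (nat_lit 445) (nat_lit 372) (nat_lit 323)) (XT.lf (nat_lit 0) (nat_lit 5236621122) (nat_lit 608) (nat_lit 2117528296) (nat_lit 684) (nat_lit 1807458530) (nat_lit 214) (nat_lit 5) (nat_lit 222) (nat_lit 5) (nat_lit 223) (nat_lit 5) (nat_lit 446) (nat_lit 372) (nat_lit 322))) (XT.nd (nat_lit 78) (nat_lit 0) (nat_lit 0) (XT.lf (nat_lit 0) (nat_lit 943169957) (nat_lit 608) (nat_lit 7413821099) (nat_lit 76) (nat_lit 897627166) (nat_lit 206) (nat_lit 5) (nat_lit 214) (nat_lit 5) (nat_lit 207) (nat_lit 5) (nat_lit 447) (nat_lit 372) (nat_lit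 321)) (XT.lf (nat_lit 0) (nat_lit 3727709687) (nat_lit 608) (nat_lit 1649014635) (nat_lit 76) (nat_lit 3972484214) (nat_lit 206) (nat_lit 5) (nat_lit 214) (nat_lit 5) (nat_lit 207) (nat_lit 5) (nat_lit 448) (nat_lit 372) (nat_lit 320))))) (XT.nd (nat_lit 234) (nat_lit 1520) (nat_lit 0) (XT.nd (nat_lit 78) (nat_lit 532) (nat_lit 0) (XT.lf (nat_lit 0) (nat_lit 4238653194) (nat_lit 532) (nat_lit 2320083045) (nat_lit 608) (nat_lit 2887158882) (nat_lit 199) (nat_lit 5) (nat_lit 206) (nat_lit 5) (nat_lit 207) (nat_lit 5) (nat_lit 449) (nat_lit 372) (nat_lit 319)) (XT.nd (nat_lit 78) (nat_lit 76) (nat_lit 0) (XT.lf (nat_lit 0) (nat_lit 677382880) (nat_lit 456) (nat_lit 8753328851) (nat_lit 532) (nat_lit 114137126) (nat_lit 193) (nat_lit 5) (nat_lit 199) (nat_lit 5) (nat_lit 200) (nat_lit 5) (nat_lit 450) (nat_lit 372) (nat_lit 318)) (XT.lf (nat_lit 0) (nat_lit 2693041456) (nat_lit 532) (nat_lit 2976580961) (nat_lit 76)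 (nat_lit 3975540081) (nat_lit 192) (nat_lit 5) (nat_lit 199) (nat_lit 5) (nat_lit 193) (nat_lit 5) (nat_lit 451) (nat_lit 372) (nat_lit 317)))) (XT.nd (nat_lit 156) (nat_lit 988) (nat_lit 0) (XT.nd (nat_lit 78) (nat_lit 0) (nat_lit 0) (XT.lf (nat_lit 0) (nat_lit 3023406287) (nat_lit 532) (nat_lit 2515527061) (nat_lit 608) (nat_lit 4208870849) (nat_lit 185) (nat_lit 5) (nat_lit 192) (nat_lit 5) (nat_lit 193) (nat_lit 5) (nat_lit 452) (nat_lit 372) (nat_lit 316)) (XT.lf (nat_lit 0) (nat_lit 8431182726) (nat_lit 608) (nat_lit 720986771) (nat_lit 76) (nat_lit 700558902) (nat_lit 185) (nat_lit 5) (nat_lit 193) (nat_lit 5) (nat_lit 186) (nat_lit 5) (nat_lit 453) (nat_lit 372) (nat_lit 315))) (XT.nd (nat_lit 78) (nat_lit 456) (nat_lit 0) (XT.lf (nat_lit 0) (nat_lit 1420229835) (nat_lit 532) (nat_lit 4558985311) (nat_lit 76) (nat_lit 3980022151) (nat_lit 178) (nat_lit 5) (nat_lit 185) (nat_lit 5) (nat_lit 179) (nat_lit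 5) (nat_lit 454) (nat_lit 372) (nat_lit 314)) (XT.lf (nat_lit 0) (nat_lit 1549619742) (nat_lit 456) (nat_lit 2730734030) (nat_lit 532) (nat_lit 5787741121) (nat_lit 172) (nat_lit 5) (nat_lit 178) (nat_lit 5) (nat_lit 179) (nat_lit 5) (nat_lit 455) (nat_lit 372) (nat_lit 313)))))) (XT.nd (nat_lit 546) (nat_lit 1672) (nat_lit 0) (XT.nd (nat_lit 234) (nat_lit 1368) (nat_lit 0) (XT.nd (nat_lit 78) (nat_lit 532) (nat_lit 0) (XT.lf (nat_lit 0) (nat_lit 7198144641) (nat_lit 532) (nat_lit 2387779361) (nat_lit 76) (nat_lit 593213407) (nat_lit 172) (nat_lit 5) (nat_lit 179) (nat_lit 5) (nat_lit 173) (nat_lit 5) (nat_lit 456) (nat_lit 372) (nat_lit 312)) (XT.nd (nat_lit 78) (nat_lit 76) (nat_lit 0) (XT.lf (nat_lit 0) (nat_lit 3851418115) (nat_lit 456) (nat_lit 6332517695) (nat_lit 532) (nat_lit 108288799) (nat_lit 166) (nat_lit 5) (nat_lit 172) (nat_lit 5) (nat_lit 173) (nat_lit 5) (nat_lit 457) (nat_lit 372) (nat_lit 311))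 (XT.lf (nat_lit 0) (nat_lit 2767663786) (nat_lit 532) (nat_lit 224606840) (nat_lit 76) (nat_lit 7415296495) (nat_lit 165) (nat_lit 5) (nat_lit 172) (nat_lit 5) (nat_lit 166) (nat_lit 5) (nat_lit 458) (nat_lit 372) (nat_lit 310)))) (XT.nd (nat_lit 156) (nat_lit 532) (nat_lit 0) (XT.nd (nat_lit 78) (nat_lit 380) (nat_lit 0) (XT.lf (nat_lit 0) (nat_lit 5709822274) (nat_lit 532) (nat_lit 4377867942) (nat_lit 76) (nat_lit 437324973) (nat_lit 159) (nat_lit 5) (nat_lit 166) (nat_lit 5) (nat_lit 160) (nat_lit 5) (nat_lit 459) (nat_lit 372) (nat_lit 309)) (XT.lf (nat_lit 0) (nat_lit 1964484564) (nat_lit 380) (nat_lit 6748015604) (nat_lit 456) (nat_lit 1932293976) (nat_lit 154) (nat_lit 5) (nat_lit 159) (nat_lit 5) (nat_lit 160) (nat_lit 5) (nat_lit 460) (nat_lit 372) (nat_lit 308))) (XT.nd (nat_lit 78) (nat_lit 456) (nat_lit 0) (XT.lf (nat_lit 0) (nat_lit 992310809) (nat_lit 456) (nat_lit 2326288459) (nat_lit 76) (nat_lit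 7448307904) (nat_lit 153) (nat_lit 5) (nat_lit 159) (nat_lit 5) (nat_lit 154) (nat_lit 5) (nat_lit 461) (nat_lit 372) (nat_lit 307)) (XT.lf (nat_lit 0) (nat_lit 3946182660) (nat_lit 532) (nat_lit 6741483203) (nat_lit 76) (nat_lit 203622740) (nat_lit 147) (nat_lit 5) (nat_lit 154) (nat_lit 5) (nat_lit 148) (nat_lit 5) (nat_lit 462) (nat_lit 372) (nat_lit 306))))) (XT.nd (nat_lit 234) (nat_lit 836) (nat_lit 0) (XT.nd (nat_lit 78) (nat_lit 836) (nat_lit 0) (XT.lf (nat_lit 0) (nat_lit 6965396039) (nat_lit 532) (nat_lit 298514171) (nat_lit 76) (nat_lit 3754136443) (nat_lit 147) (nat_lit 5) (nat_lit 154) (nat_lit 5) (nat_lit 148) (nat_lit 5) (nat_lit 463) (nat_lit 372) (nat_lit 305)) (XT.nd (nat_lit 78) (nat_lit 456) (nat_lit 0) (XT.lf (nat_lit 0) (nat_lit 6311440456) (nat_lit 380) (nat_lit 3743720122) (nat_lit 456) (nat_lit 1091989942) (nat_lit 142) (nat_lit 5) (nat_lit 147) (nat_lit 5) (nat_lit 148) (nat_lit 5) (nat_lit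 464) (nat_lit 372) (nat_lit 304)) (XT.lf (nat_lit 0) (nat_lit 1744414868) (nat_lit 380) (nat_lit 140816376) (nat_lit 456) (nat_lit 9393715691) (nat_lit 136) (nat_lit 5) (nat_lit 141) (nat_lit 5) (nat_lit 142) (nat_lit 5) (nat_lit 465) (nat_lit 372) (nat_lit 303)))) (XT.nd (nat_lit 156) (nat_lit 456) (nat_lit 0) (XT.nd (nat_lit 78) (nat_lit 380) (nat_lit 0) (XT.lf (nat_lit 0) (nat_lit 4932511254) (nat_lit 456) (nat_lit 2966443673) (nat_lit 76) (nat_lit 3513790453) (nat_lit 136) (nat_lit 5) (nat_lit 142) (nat_lit 5) (nat_lit 137) (nat_lit 5) (nat_lit 466) (nat_lit 372) (nat_lit 302)) (XT.lf (nat_lit 0) (nat_lit 3736954981) (nat_lit 380) (nat_lit 4299086445) (nat_lit 456) (nat_lit 3513285204) (nat_lit 131) (nat_lit 5) (nat_lit 136) (nat_lit 5) (nat_lit 137) (nat_lit 5) (nat_lit 467) (nat_lit 372) (nat_lit 301))) (XT.nd (nat_lit 78) (nat_lit 456) (nat_lit 0) (XT.lf (nat_lit 0) (nat_lit 10570793077) (nat_lit 380) (nat_lit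 621166196) (nat_lit 456) (nat_lit 496886565) (nat_lit 131) (nat_lit 5) (nat_lit 136) (nat_lit 5) (nat_lit 137) (nat_lit 5) (nat_lit 468) (nat_lit 372) (nat_lit 300)) (XT.lf (nat_lit 0) (nat_lit 2574551838) (nat_lit 456) (nat_lit 6126154620) (nat_lit 76) (nat_lit 3129555217) (nat_lit 125) (nat_lit 5) (nat_lit 131) (nat_lit 5) (nat_lit 126) (nat_lit 5) (nat_lit 469) (nat_lit 372) (nat_lit 299))))))) (XT.nd (nat_lit 1092) (nat_lit 1976) (nat_lit 0) (XT.nd (nat_lit 546) (nat_lit 1292) (nat_lit 0) (XT.nd (nat_lit 234) (nat_lit 684) (nat_lit 0) (XT.nd (nat_lit 78) (nat_lit 380) (nat_lit 0) (XT.lf (nat_lit 0) (nat_lit 661133466) (nat_lit 304) (nat_lit 5026584524) (nat_lit 380) (nat_lit 6286995046) (nat_lit 121) (nat_lit 5) (nat_lit 125) (nat_lit 5) (nat_lit 126) (nat_lit 5) (nat_lit 470) (nat_lit 372) (nat_lit 298)) (XT.nd (nat_lit 78) (nat_lit 380) (nat_lit 0) (XT.lf (nat_lit 0) (nat_lit 7623902550) (nat_lit 304) (nat_lit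 1251629802) (nat_lit 380) (nat_lit 3246285085) (nat_lit 121) (nat_lit 5) (nat_lit 125) (nat_lit 5) (nat_lit 126) (nat_lit 5) (nat_lit 471) (nat_lit 372) (nat_lit 297)) (XT.lf (nat_lit 0) (nat_lit 2426068977) (nat_lit 380) (nat_lit 9705404539) (nat_lit 456) (nat_lit 140314477) (nat_lit 116) (nat_lit 5) (nat_lit 121) (nat_lit 5) (nat_lit 122) (nat_lit 5) (nat_lit 472) (nat_lit 372) (nat_lit 296)))) (XT.nd (nat_lit 156) (nat_lit 304) (nat_lit 0) (XT.nd (nat_lit 78) (nat_lit 304) (nat_lit 0) (XT.lf (nat_lit 0) (nat_lit 2998564171) (nat_lit 456) (nat_lit 2945840617) (nat_lit 76) (nat_lit 6479761071) (nat_lit 115) (nat_lit 5) (nat_lit 121) (nat_lit 5) (nat_lit 116) (nat_lit 5) (nat_lit 473) (nat_lit 372) (nat_lit 295)) (XT.lf (nat_lit 0) (nat_lit 4102715825) (nat_lit 304) (nat_lit 2094643735) (nat_lit 380) (nat_lit 6382243630) (nat_lit 111) (nat_lit 5) (nat_lit 115) (nat_lit 5) (nat_lit 116) (nat_lit 5) (nat_lit 474)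 (nat_lit 372) (nat_lit 294))) (XT.nd (nat_lit 78) (nat_lit 304) (nat_lit 0) (XT.lf (nat_lit 0) (nat_lit 9464478705) (nat_lit 380) (nat_lit 1459988647) (nat_lit 76) (nat_lit 1813605565) (nat_lit 111) (nat_lit 5) (nat_lit 116) (nat_lit 5) (nat_lit 112) (nat_lit 5) (nat_lit 475) (nat_lit 372) (nat_lit 293)) (XT.lf (nat_lit 0) (nat_lit 5716800572) (nat_lit 304) (nat_lit 7104220400) (nat_lit 380) (nat_lit 78219847) (nat_lit 107) (nat_lit 5) (nat_lit 111) (nat_lit 5) (nat_lit 112) (nat_lit 5) (nat_lit 476) (nat_lit 372) (nat_lit 292))))) (XT.nd (nat_lit 234) (nat_lit 608) (nat_lit 0) (XT.nd (nat_lit 78) (nat_lit 608) (nat_lit 0) (XT.lf (nat_lit 0) (nat_lit 3122368708) (nat_lit 380) (nat_lit 68884252) (nat_lit 76) (nat_lit 9872315505) (nat_lit 106) (nat_lit 5) (nat_lit 111) (nat_lit 5) (nat_lit 107) (nat_lit 5) (nat_lit 477) (nat_lit 372) (nat_lit 291)) (XT.nd (nat_lit 78) (nat_lit 304) (nat_lit 0) (XT.lf (nat_lit 0)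 (nat_lit 6412038503) (nat_lit 380) (nat_lit 5995625653) (nat_lit 76) (nat_lit 822995626) (nat_lit 102) (nat_lit 5) (nat_lit 107) (nat_lit 5) (nat_lit 103) (nat_lit 5) (nat_lit 478) (nat_lit 372) (nat_lit 290)) (XT.lf (nat_lit 0) (nat_lit 1238996266) (nat_lit 304) (nat_lit 8531998508) (nat_lit 380) (nat_lit 3630037896) (nat_lit 98) (nat_lit 5) (nat_lit 102) (nat_lit 5) (nat_lit 103) (nat_lit 5) (nat_lit 479) (nat_lit 372) (nat_lit 289)))) (XT.nd (nat_lit 156) (nat_lit 304) (nat_lit 0) (XT.nd (nat_lit 78) (nat_lit 304) (nat_lit 0) (XT.lf (nat_lit 0) (nat_lit 8658855480) (nat_lit 304) (nat_lit 4552606084) (nat_lit 380) (nat_lit 363074241) (nat_lit 98) (nat_lit 5) (nat_lit 102) (nat_lit 5) (nat_lit 103) (nat_lit 5) (nat_lit 480) (nat_lit 372) (nat_lit 288)) (XT.lf (nat_lit 0) (nat_lit 2448154926) (nat_lit 228) (nat_lit 472455030) (nat_lit 304) (nat_lit 10830716069) (nat_lit 94) (nat_lit 5) (nat_lit 97) (nat_lit 5)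 (nat_lit 98) (nat_lit 5) (nat_lit 481) (nat_lit 372) (nat_lit 287))) (XT.nd (nat_lit 78) (nat_lit 304) (nat_lit 0) (XT.lf (nat_lit 0) (nat_lit 6296843936) (nat_lit 304) (nat_lit 3972101291) (nat_lit 76) (nat_lit 3662032946) (nat_lit 94) (nat_lit 5) (nat_lit 98) (nat_lit 5) (nat_lit 95) (nat_lit 5) (nat_lit 482) (nat_lit 372) (nat_lit 286)) (XT.lf (nat_lit 0) (nat_lit 3508840041) (nat_lit 304) (nat_lit 6232746134) (nat_lit 380) (nat_lit 4372626215) (nat_lit 90) (nat_lit 5) (nat_lit 94) (nat_lit 5) (nat_lit 95) (nat_lit 5) (nat_lit 483) (nat_lit 372) (nat_lit 285)))))) (XT.nd (nat_lit 546) (nat_lit 1064) (nat_lit 0) (XT.nd (nat_lit 234) (nat_lit 608) (nat_lit 0) (XT.nd (nat_lit 78) (nat_lit 304) (nat_lit 0) (XT.lf (nat_lit 0) (nat_lit 11153863769) (nat_lit 304) (nat_lit 2103320490) (nat_lit 380) (nat_lit 1043896343) (nat_lit 90) (nat_lit 5) (nat_lit 94) (nat_lit 5) (nat_lit 95) (nat_lit 5) (nat_lit 484) (nat_lit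 372) (nat_lit 284)) (XT.nd (nat_lit 78) (nat_lit 0) (nat_lit 0) (XT.lf (nat_lit 0) (nat_lit 2339066427) (nat_lit 304) (nat_lit 10040738860) (nat_lit 76) (nat_lit 2111213801) (nat_lit 86) (nat_lit 5) (nat_lit 90) (nat_lit 5) (nat_lit 87) (nat_lit 5) (nat_lit 485) (nat_lit 372) (nat_lit 283)) (XT.lf (nat_lit 0) (nat_lit 5786666589) (nat_lit 304) (nat_lit 2502007605) (nat_lit 76) (nat_lit 6395733067) (nat_lit 86) (nat_lit 5) (nat_lit 90) (nat_lit 5) (nat_lit 87) (nat_lit 5) (nat_lit 486) (nat_lit 372) (nat_lit 282)))) (XT.nd (nat_lit 156) (nat_lit 304) (nat_lit 0) (XT.nd (nat_lit 78) (nat_lit 0) (nat_lit 0) (XT.lf (nat_lit 0) (nat_lit 5217614624) (nat_lit 304) (nat_lit 4095709973) (nat_lit 380) (nat_lit 5568144363) (nat_lit 82) (nat_lit 5) (nat_lit 86) (nat_lit 5) (nat_lit 87) (nat_lit 5) (nat_lit 487) (nat_lit 372) (nat_lit 281)) (XT.lf (nat_lit 0) (nat_lit 12904947039) (nat_lit 380) (nat_lit 1996324612) (nat_lit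 76) (nat_lit 181319343) (nat_lit 82) (nat_lit 5) (nat_lit 87) (nat_lit 5) (nat_lit 83) (nat_lit 5) (nat_lit 488) (nat_lit 372) (nat_lit 280))) (XT.nd (nat_lit 78) (nat_lit 0) (nat_lit 0) (XT.lf (nat_lit 0) (nat_lit 1305974822) (nat_lit 304) (nat_lit 9459214814) (nat_lit 76) (nat_lit 4521544868) (nat_lit 78) (nat_lit 5) (nat_lit 82) (nat_lit 5) (nat_lit 79) (nat_lit 5) (nat_lit 489) (nat_lit 372) (nat_lit 279)) (XT.lf (nat_lit 0) (nat_lit 4820489694) (nat_lit 304) (nat_lit 1712060502) (nat_lit 76) (nat_lit 8962322434) (nat_lit 78) (nat_lit 5) (nat_lit 82) (nat_lit 5) (nat_lit 79) (nat_lit 5) (nat_lit 490) (nat_lit 372) (nat_lit 278))))) (XT.nd (nat_lit 312) (nat_lit 532) (nat_lit 0) (XT.nd (nat_lit 156) (nat_lit 304) (nat_lit 0) (XT.nd (nat_lit 78) (nat_lit 0) (nat_lit 0) (XT.lf (nat_lit 0) (nat_lit 6234788712) (nat_lit 228) (nat_lit 2188310073) (nat_lit 304) (nat_lit 7283725793) (nat_lit 75) (nat_lit 5) (nat_lit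 78) (nat_lit 5) (nat_lit 79) (nat_lit 5) (nat_lit 491) (nat_lit 372) (nat_lit 277)) (XT.lf (nat_lit 0) (nat_lit 12101323346) (nat_lit 304) (nat_lit 1610779923) (nat_lit 76) (nat_lit 2210848028) (nat_lit 75) (nat_lit 5) (nat_lit 79) (nat_lit 5) (nat_lit 76) (nat_lit 5) (nat_lit 492) (nat_lit 372) (nat_lit 276))) (XT.nd (nat_lit 78) (nat_lit 76) (nat_lit 0) (XT.lf (nat_lit 0) (nat_lit 6441277184) (nat_lit 228) (nat_lit 9446027330) (nat_lit 304) (nat_lit 255419053) (nat_lit 72) (nat_lit 5) (nat_lit 75) (nat_lit 5) (nat_lit 76) (nat_lit 5) (nat_lit 493) (nat_lit 372) (nat_lit 275)) (XT.lf (nat_lit 0) (nat_lit 3326563792) (nat_lit 304) (nat_lit 1748966378) (nat_lit 76) (nat_lit 11291152392) (nat_lit 71) (nat_lit 5) (nat_lit 75) (nat_lit 5) (nat_lit 72) (nat_lit 5) (nat_lit 494) (nat_lit 372) (nat_lit 274)))) (XT.nd (nat_lit 156) (nat_lit 304) (nat_lit 0) (XT.nd (nat_lit 78) (nat_lit 0) (nat_lit 0) (XT.lf (nat_lit 0)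 (nat_lit 6409173541) (nat_lit 228) (nat_lit 587567355) (nat_lit 304) (nat_lit 9597953044) (nat_lit 68) (nat_lit 5) (nat_lit 71) (nat_lit 5) (nat_lit 72) (nat_lit 5) (nat_lit 495) (nat_lit 372) (nat_lit 273)) (XT.lf (nat_lit 0) (nat_lit 10756503689) (nat_lit 304) (nat_lit 2134695628) (nat_lit 76) (nat_lit 3935748924) (nat_lit 68) (nat_lit 5) (nat_lit 72) (nat_lit 5) (nat_lit 69) (nat_lit 5) (nat_lit 496) (nat_lit 372) (nat_lit 272))) (XT.nd (nat_lit 78) (nat_lit 76) (nat_lit 0) (XT.lf (nat_lit 0) (nat_lit 6118336454) (nat_lit 228) (nat_lit 8495624289) (nat_lit 304) (nat_lit 2449443118) (nat_lit 65) (nat_lit 5) (nat_lit 68) (nat_lit 5) (nat_lit 69) (nat_lit 5) (nat_lit 497) (nat_lit 372) (nat_lit 271)) (XT.lf (nat_lit 0) (nat_lit 1221009322) (nat_lit 304) (nat_lit 2782323955) (nat_lit 76) (nat_lit 13301232833) (nat_lit 64) (nat_lit 5) (nat_lit 68) (nat_lit 5) (nat_lit 65) (nat_lit 5) (nat_lit 498) (nat_lit 372) (nat_lit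 270))))))))
noncomputable def xc83 : XT := (XT.nd (nat_lit 2184) (nat_lit 304) (nat_lit 0) (XT.nd (nat_lit 1092) (nat_lit 988) (nat_lit 0) (XT.nd (nat_lit 546) (nat_lit 684) (nat_lit 0) (XT.nd (nat_lit 234) (nat_lit 456) (nat_lit 0) (XT.nd (nat_lit 78) (nat_lit 152) (nat_lit 0) (XT.lf (nat_lit 0) (nat_lit 4951595207) (nat_lit 304) (nat_lit 11988012487) (nat_lit 76) (nat_lit 610235501) (nat_lit 61) (nat_lit 5) (nat_lit 65) (nat_lit 5) (nat_lit 62) (nat_lit 5) (nat_lit 499) (nat_lit 372) (nat_lit 269)) (XT.nd (nat_lit 78) (nat_lit 152) (nat_lit 0) (XT.lf (nat_lit 0) (nat_lit 8781531542) (nat_lit 304) (nat_lit 3750328324) (nat_lit 76) (nat_lit 5267676919) (nat_lit 61) (nat_lit 5) (nat_lit 65) (nat_lit 5) (nat_lit 62) (nat_lit 5) (nat_lit 500) (nat_lit 372) (nat_lit 268)) (XT.lf (nat_lit 0) (nat_lit 4679537666) (nat_lit 152) (nat_lit 8018746980) (nat_lit 228) (nat_lit 5355740870) (nat_lit 59) (nat_lit 5) (nat_lit 61)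 (nat_lit 5) (nat_lit 62) (nat_lit 5) (nat_lit 501) (nat_lit 372) (nat_lit 267)))) (XT.nd (nat_lit 156) (nat_lit 152) (nat_lit 0) (XT.nd (nat_lit 78) (nat_lit 304) (nat_lit 0) (XT.lf (nat_lit 0) (nat_lit 13295116151) (nat_lit 152) (nat_lit 3403435158) (nat_lit 228) (nat_lit 1614954658) (nat_lit 59) (nat_lit 5) (nat_lit 61) (nat_lit 5) (nat_lit 62) (nat_lit 5) (nat_lit 502) (nat_lit 372) (nat_lit 266)) (XT.lf (nat_lit 0) (nat_lit 2183423450) (nat_lit 304) (nat_lit 15083301048) (nat_lit 76) (nat_lit 1310938310) (nat_lit 55) (nat_lit 5) (nat_lit 59) (nat_lit 5) (nat_lit 56) (nat_lit 5) (nat_lit 503) (nat_lit 372) (nat_lit 265))) (XT.nd (nat_lit 78) (nat_lit 152) (nat_lit 0) (XT.lf (nat_lit 0) (nat_lit 6072956042) (nat_lit 304) (nat_lit 6667909675) (nat_lit 76) (nat_lit 6105292547) (nat_lit 55) (nat_lit 5) (nat_lit 59) (nat_lit 5) (nat_lit 56) (nat_lit 5) (nat_lit 504) (nat_lit 372) (nat_lit 264)) (XT.lf (nat_lit 0)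 (nat_lit 1908052223) (nat_lit 152) (nat_lit 8125353235) (nat_lit 228) (nat_lit 9086760744) (nat_lit 53) (nat_lit 5) (nat_lit 55) (nat_lit 5) (nat_lit 56) (nat_lit 5) (nat_lit 505) (nat_lit 372) (nat_lit 263))))) (XT.nd (nat_lit 234) (nat_lit 380) (nat_lit 0) (XT.nd (nat_lit 78) (nat_lit 304) (nat_lit 0) (XT.lf (nat_lit 0) (nat_lit 10713372420) (nat_lit 152) (nat_lit 3385340838) (nat_lit 228) (nat_lit 5300433052) (nat_lit 53) (nat_lit 5) (nat_lit 55) (nat_lit 5) (nat_lit 56) (nat_lit 5) (nat_lit 506) (nat_lit 372) (nat_lit 262)) (XT.nd (nat_lit 78) (nat_lit 304) (nat_lit 0) (XT.lf (nat_lit 0) (nat_lit 18235931165) (nat_lit 228) (nat_lit 30519691) (nat_lit 76) (nat_lit 1417447982) (nat_lit 53) (nat_lit 5) (nat_lit 56) (nat_lit 5) (nat_lit 54) (nat_lit 5) (nat_lit 507) (nat_lit 372) (nat_lit 261)) (XT.lf (nat_lit 0) (nat_lit 2510910253) (nat_lit 304) (nat_lit 11129589310) (nat_lit 76) (nat_lit 6332291142) (nat_lit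 49) (nat_lit 5) (nat_lit 53) (nat_lit 5) (nat_lit 50) (nat_lit 5) (nat_lit 508) (nat_lit 372) (nat_lit 260)))) (XT.nd (nat_lit 156) (nat_lit 228) (nat_lit 0) (XT.nd (nat_lit 78) (nat_lit 152) (nat_lit 0) (XT.lf (nat_lit 0) (nat_lit 6511395717) (nat_lit 304) (nat_lit 2413848130) (nat_lit 76) (nat_lit 11342393393) (nat_lit 49) (nat_lit 5) (nat_lit 53) (nat_lit 5) (nat_lit 50) (nat_lit 5) (nat_lit 509) (nat_lit 372) (nat_lit 259)) (XT.lf (nat_lit 0) (nat_lit 6530869364) (nat_lit 152) (nat_lit 4085379147) (nat_lit 228) (nat_lit 9951649568) (nat_lit 47) (nat_lit 5) (nat_lit 49) (nat_lit 5) (nat_lit 50) (nat_lit 5) (nat_lit 510) (nat_lit 372) (nat_lit 258))) (XT.nd (nat_lit 78) (nat_lit 228) (nat_lit 0) (XT.lf (nat_lit 0) (nat_lit 14807055997) (nat_lit 228) (nat_lit 5223339646) (nat_lit 76) (nat_lit 843695776) (nat_lit 47) (nat_lit 5) (nat_lit 50) (nat_lit 5) (nat_lit 48) (nat_lit 5) (nat_lit 511) (nat_lit 372) (nat_lit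 257)) (XT.lf (nat_lit 0) (nat_lit 3758402320) (nat_lit 228) (nat_lit 15357112371) (nat_lit 304) (nat_lit 2070221584) (nat_lit 44) (nat_lit 5) (nat_lit 47) (nat_lit 5) (nat_lit 48) (nat_lit 5) (nat_lit 512) (nat_lit 372) (nat_lit 256)))))) (XT.nd (nat_lit 546) (nat_lit 380) (nat_lit 0) (XT.nd (nat_lit 234) (nat_lit 380) (nat_lit 0) (XT.nd (nat_lit 78) (nat_lit 152) (nat_lit 0) (XT.lf (nat_lit 0) (nat_lit 1997902724) (nat_lit 304) (nat_lit 8556085098) (nat_lit 76) (nat_lit 10949016029) (nat_lit 43) (nat_lit 5) (nat_lit 47) (nat_lit 5) (nat_lit 44) (nat_lit 5) (nat_lit 513) (nat_lit 372) (nat_lit 255)) (XT.nd (nat_lit 78) (nat_lit 0) (nat_lit 0) (XT.lf (nat_lit 0) (nat_lit 454948207) (nat_lit 152) (nat_lit 5650452440) (nat_lit 228) (nat_lit 15721231921) (nat_lit 41) (nat_lit 5) (nat_lit 43) (nat_lit 5) (nat_lit 44) (nat_lit 5) (nat_lit 514) (nat_lit 372) (nat_lit 254)) (XT.lf (nat_lit 0) (nat_lit 9732481676) (nat_lit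 152) (nat_lit 602879711) (nat_lit 228) (nat_lit 11820570233) (nat_lit 41) (nat_lit 5) (nat_lit 43) (nat_lit 5) (nat_lit 44) (nat_lit 5) (nat_lit 515) (nat_lit 372) (nat_lit 253)))) (XT.nd (nat_lit 156) (nat_lit 228) (nat_lit 0) (XT.nd (nat_lit 78) (nat_lit 152) (nat_lit 0) (XT.lf (nat_lit 0) (nat_lit 14662586870) (nat_lit 228) (nat_lit 3355141409) (nat_lit 76) (nat_lit 4473839003) (nat_lit 41) (nat_lit 5) (nat_lit 44) (nat_lit 5) (nat_lit 42) (nat_lit 5) (nat_lit 516) (nat_lit 372) (nat_lit 252)) (XT.lf (nat_lit 0) (nat_lit 5939638942) (nat_lit 152) (nat_lit 13162757115) (nat_lit 228) (nat_lit 3731002679) (nat_lit 39) (nat_lit 5) (nat_lit 41) (nat_lit 5) (nat_lit 42) (nat_lit 5) (nat_lit 517) (nat_lit 372) (nat_lit 251))) (XT.nd (nat_lit 78) (nat_lit 152) (nat_lit 0) (XT.lf (nat_lit 0) (nat_lit 449219053) (nat_lit 228) (nat_lit 7747720287) (nat_lit 76) (nat_lit 14984949452) (nat_lit 38) (nat_lit 5) (nat_lit 41)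 (nat_lit 5) (nat_lit 39) (nat_lit 5) (nat_lit 518) (nat_lit 372) (nat_lit 250)) (XT.lf (nat_lit 0) (nat_lit 1548571965) (nat_lit 152) (nat_lit 3108447983) (nat_lit 228) (nat_lit 18879960444) (nat_lit 36) (nat_lit 5) (nat_lit 38) (nat_lit 5) (nat_lit 39) (nat_lit 5) (nat_lit 519) (nat_lit 372) (nat_lit 249))))) (XT.nd (nat_lit 234) (nat_lit 228) (nat_lit 0) (XT.nd (nat_lit 78) (nat_lit 152) (nat_lit 0) (XT.lf (nat_lit 0) (nat_lit 8998717220) (nat_lit 228) (nat_lit 12804511613) (nat_lit 76) (nat_lit 2094953753) (nat_lit 36) (nat_lit 5) (nat_lit 39) (nat_lit 5) (nat_lit 37) (nat_lit 5) (nat_lit 520) (nat_lit 372) (nat_lit 248)) (XT.nd (nat_lit 78) (nat_lit 152) (nat_lit 0) (XT.lf (nat_lit 0) (nat_lit 13432038354) (nat_lit 228) (nat_lit 3485296376) (nat_lit 76) (nat_lit 7349181794) (nat_lit 36) (nat_lit 5) (nat_lit 39) (nat_lit 5) (nat_lit 37) (nat_lit 5) (nat_lit 521) (nat_lit 372) (nat_lit 247)) (XT.lf (nat_lit 0)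 (nat_lit 6072718783) (nat_lit 152) (nat_lit 11905249135) (nat_lit 228) (nat_lit 6663773813) (nat_lit 34) (nat_lit 5) (nat_lit 36) (nat_lit 5) (nat_lit 37) (nat_lit 5) (nat_lit 522) (nat_lit 372) (nat_lit 246)))) (XT.nd (nat_lit 156) (nat_lit 0) (nat_lit 0) (XT.nd (nat_lit 78) (nat_lit 228) (nat_lit 0) (XT.lf (nat_lit 0) (nat_lit 15842088314) (nat_lit 152) (nat_lit 6780757847) (nat_lit 228) (nat_lit 2401468042) (nat_lit 34) (nat_lit 5) (nat_lit 36) (nat_lit 5) (nat_lit 37) (nat_lit 5) (nat_lit 523) (nat_lit 372) (nat_lit 245)) (XT.lf (nat_lit 0) (nat_lit 357637981) (nat_lit 152) (nat_lit 1550084729) (nat_lit 228) (nat_lit 23506822699) (nat_lit 31) (nat_lit 5) (nat_lit 33) (nat_lit 5) (nat_lit 34) (nat_lit 5) (nat_lit 524) (nat_lit 372) (nat_lit 244))) (XT.nd (nat_lit 78) (nat_lit 0) (nat_lit 0) (XT.lf (nat_lit 0) (nat_lit 6342463565) (nat_lit 228) (nat_lit 15666247783) (nat_lit 76) (nat_lit 3802125147) (nat_lit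 31) (nat_lit 5) (nat_lit 34) (nat_lit 5) (nat_lit 32) (nat_lit 5) (nat_lit 525) (nat_lit 372) (nat_lit 243)) (XT.lf (nat_lit 0) (nat_lit 10861351182) (nat_lit 228) (nat_lit 6124293001) (nat_lit 76) (nat_lit 9229503288) (nat_lit 31) (nat_lit 5) (nat_lit 34) (nat_lit 5) (nat_lit 32) (nat_lit 5) (nat_lit 526) (nat_lit 372) (nat_lit 242))))))) (XT.nd (nat_lit 49764) (nat_lit 0) (nat_lit 29412) (XT.nd (nat_lit 49218) (nat_lit 0) (nat_lit 41496) (XT.nd (nat_lit 234) (nat_lit 152) (nat_lit 0) (XT.nd (nat_lit 78) (nat_lit 0) (nat_lit 0) (XT.lf (nat_lit 0) (nat_lit 3630376073) (nat_lit 152) (nat_lit 11849288232) (nat_lit 228) (nat_lit 11147702452) (nat_lit 29) (nat_lit 5) (nat_lit 31) (nat_lit 5) (nat_lit 32) (nat_lit 5) (nat_lit 527) (nat_lit 372) (nat_lit 241)) (XT.nd (nat_lit 78) (nat_lit 0) (nat_lit 0) (XT.lf (nat_lit 0) (nat_lit 13637586423) (nat_lit 152) (nat_lit 6579450199) (nat_lit 228) (nat_lit 6830262934) (nat_lit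 29) (nat_lit 5) (nat_lit 31) (nat_lit 5) (nat_lit 32) (nat_lit 5) (nat_lit 528) (nat_lit 372) (nat_lit 240)) (XT.lf (nat_lit 0) (nat_lit 23819873814) (nat_lit 152) (nat_lit 1215160712) (nat_lit 228) (nat_lit 2440881851) (nat_lit 29) (nat_lit 5) (nat_lit 31) (nat_lit 5) (nat_lit 32) (nat_lit 5) (nat_lit 529) (nat_lit 372) (nat_lit 239)))) (XT.nd (nat_lit 48828) (nat_lit 0) (nat_lit 44916) (XT.nd (nat_lit 48750) (nat_lit 0) (nat_lit 45600) (XT.lf (nat_lit 0) (nat_lit 2064715813) (nat_lit 152) (nat_lit 21602386315) (nat_lit 76) (nat_lit 4244639096) (nat_lit 27) (nat_lit 5) (nat_lit 29) (nat_lit 5) (nat_lit 28) (nat_lit 5) (nat_lit 530) (nat_lit 372) (nat_lit 238)) (XT.lf (nat_lit 0) (nat_lit 726988956) (nat_lit 532) (nat_lit 1271410068) (nat_lit 532) (nat_lit 1271410068) (nat_lit 627) (nat_lit 4) (nat_lit 634) (nat_lit 5) (nat_lit 634) (nat_lit 4) (nat_lit 394) (nat_lit 373) (nat_lit 373))) (XT.nd (nat_lit 78) (nat_lit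 608) (nat_lit 0) (XT.lf (nat_lit 0) (nat_lit 510206840) (nat_lit 608) (nat_lit 1399470588) (nat_lit 76) (nat_lit 4644687839) (nat_lit 626) (nat_lit 5) (nat_lit 634) (nat_lit 5) (nat_lit 627) (nat_lit 4) (nat_lit 395) (nat_lit 373) (nat_lit 372)) (XT.lf (nat_lit 0) (nat_lit 2325154600) (nat_lit 608) (nat_lit 1208351648) (nat_lit 684) (nat_lit 3036782841) (nat_lit 618) (nat_lit 5) (nat_lit 626) (nat_lit 5) (nat_lit 627) (nat_lit 4) (nat_lit 396) (nat_lit 373) (nat_lit 371))))) (XT.nd (nat_lit 234) (nat_lit 1900) (nat_lit 0) (XT.nd (nat_lit 78) (nat_lit 1520) (nat_lit 0) (XT.lf (nat_lit 0) (nat_lit 6094641502) (nat_lit 608) (nat_lit 461246931) (nat_lit 684) (nat_lit 31952150) (nat_lit 618) (nat_lit 5) (nat_lit 626) (nat_lit 5) (nat_lit 627) (nat_lit 4) (nat_lit 397) (nat_lit 373) (nat_lit 370)) (XT.nd (nat_lit 78) (nat_lit 760) (nat_lit 0) (XT.lf (nat_lit 0) (nat_lit 2947118924) (nat_lit 760) (nat_lit 3299937141)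 (nat_lit 76) (nat_lit 359293131) (nat_lit 608) (nat_lit 5) (nat_lit 618) (nat_lit 5) (nat_lit 609) (nat_lit 4) (nat_lit 398) (nat_lit 373) (nat_lit 369)) (XT.lf (nat_lit 0) (nat_lit 517109874) (nat_lit 760) (nat_lit 5409243186) (nat_lit 836) (nat_lit 700127337) (nat_lit 598) (nat_lit 5) (nat_lit 608) (nat_lit 5) (nat_lit 609) (nat_lit 4) (nat_lit 399) (nat_lit 373) (nat_lit 368)))) (XT.nd (nat_lit 156) (nat_lit 988) (nat_lit 0) (XT.nd (nat_lit 78) (nat_lit 836) (nat_lit 0) (XT.lf (nat_lit 0) (nat_lit 2241814066) (nat_lit 836) (nat_lit 2257114872) (nat_lit 76) (nat_lit 2148776922) (nat_lit 597) (nat_lit 5) (nat_lit 608) (nat_lit 5) (nat_lit 598) (nat_lit 5) (nat_lit 400) (nat_lit 373) (nat_lit 367)) (XT.lf (nat_lit 0) (nat_lit 1639467656) (nat_lit 836) (nat_lit 3537511580) (nat_lit 912) (nat_lit 1493481244) (nat_lit 586) (nat_lit 5) (nat_lit 597) (nat_lit 5) (nat_lit 598) (nat_lit 5) (nat_lit 401) (nat_lit 373)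 (nat_lit 366))) (XT.nd (nat_lit 78) (nat_lit 912) (nat_lit 0) (XT.lf (nat_lit 0) (nat_lit 1406642519) (nat_lit 912) (nat_lit 1108690220) (nat_lit 76) (nat_lit 4179238455) (nat_lit 585) (nat_lit 5) (nat_lit 597) (nat_lit 5) (nat_lit 586) (nat_lit 5) (nat_lit 402) (nat_lit 373) (nat_lit 365)) (XT.lf (nat_lit 0) (nat_lit 2870591196) (nat_lit 912) (nat_lit 1427730160) (nat_lit 988) (nat_lit 2421642545) (nat_lit 573) (nat_lit 5) (nat_lit 585) (nat_lit 5) (nat_lit 586) (nat_lit 5) (nat_lit 403) (nat_lit 373) (nat_lit 364)))))) (XT.nd (nat_lit 546) (nat_lit 7448) (nat_lit 0) (XT.nd (nat_lit 234) (nat_lit 2508) (nat_lit 0) (XT.nd (nat_lit 78) (nat_lit 1064) (nat_lit 0) (XT.lf (nat_lit 0) (nat_lit 147572531) (nat_lit 988) (nat_lit 291622771) (nat_lit 1064) (nat_lit 6307793363) (nat_lit 559) (nat_lit 5) (nat_lit 572) (nat_lit 5) (nat_lit 573) (nat_lit 5) (nat_lit 404) (nat_lit 373) (nat_lit 363)) (XT.nd (nat_lit 78) (nat_lit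 1064) (nat_lit 0) (XT.lf (nat_lit 0) (nat_lit 3292887594) (nat_lit 1064) (nat_lit 2570168447) (nat_lit 76) (nat_lit 911880761) (nat_lit 559) (nat_lit 5) (nat_lit 573) (nat_lit 5) (nat_lit 560) (nat_lit 5) (nat_lit 405) (nat_lit 373) (nat_lit 362)) (XT.lf (nat_lit 0) (nat_lit 1507575467) (nat_lit 1064) (nat_lit 4645445073) (nat_lit 1140) (nat_lit 651499052) (nat_lit 545) (nat_lit 5) (nat_lit 559) (nat_lit 5) (nat_lit 560) (nat_lit 5) (nat_lit 406) (nat_lit 373) (nat_lit 361)))) (XT.nd (nat_lit 156) (nat_lit 1292) (nat_lit 0) (XT.nd (nat_lit 78) (nat_lit 1140) (nat_lit 0) (XT.lf (nat_lit 0) (nat_lit 2161782363) (nat_lit 1140) (nat_lit 1197749699) (nat_lit 76) (nat_lit 3475823420) (nat_lit 544) (nat_lit 5) (nat_lit 559) (nat_lit 5) (nat_lit 545) (nat_lit 5) (nat_lit 407) (nat_lit 373) (nat_lit 360)) (XT.lf (nat_lit 0) (nat_lit 2968552491) (nat_lit 1140) (nat_lit 2012629391) (nat_lit 1216) (nat_lit 1886427951) (nat_lit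 529) (nat_lit 5) (nat_lit 544) (nat_lit 5) (nat_lit 545) (nat_lit 5) (nat_lit 408) (nat_lit 373) (nat_lit 359))) (XT.nd (nat_lit 78) (nat_lit 0) (nat_lit 0) (XT.lf (nat_lit 0) (nat_lit 281469004) (nat_lit 1216) (nat_lit 612076648) (nat_lit 1292) (nat_lit 6007903913) (nat_lit 512) (nat_lit 5) (nat_lit 528) (nat_lit 5) (nat_lit 529) (nat_lit 5) (nat_lit 409) (nat_lit 373) (nat_lit 358)) (XT.lf (nat_lit 0) (nat_lit 3676156318) (nat_lit 1292) (nat_lit 2405957450) (nat_lit 76) (nat_lit 854212966) (nat_lit 512) (nat_lit 5) (nat_lit 529) (nat_lit 5) (nat_lit 513) (nat_lit 5) (nat_lit 410) (nat_lit 373) (nat_lit 357))))) (XT.nd (nat_lit 312) (nat_lit 3192) (nat_lit 0) (XT.nd (nat_lit 156) (nat_lit 2888) (nat_lit 0) (XT.nd (nat_lit 78) (nat_lit 76) (nat_lit 0) (XT.lf (nat_lit 0) (nat_lit 1862716688) (nat_lit 1292) (nat_lit 4609648096) (nat_lit 1368) (nat_lit 500432618) (nat_lit 495) (nat_lit 5) (nat_lit 512) (nat_lit 5)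 (nat_lit 513) (nat_lit 5) (nat_lit 411) (nat_lit 373) (nat_lit 356)) (XT.lf (nat_lit 0) (nat_lit 2242580691) (nat_lit 1368) (nat_lit 825928988) (nat_lit 76) (nat_lit 3942071283) (nat_lit 494) (nat_lit 5) (nat_lit 512) (nat_lit 5) (nat_lit 495) (nat_lit 5) (nat_lit 412) (nat_lit 373) (nat_lit 355))) (XT.nd (nat_lit 78) (nat_lit 1520) (nat_lit 0) (XT.lf (nat_lit 0) (nat_lit 3537478559) (nat_lit 1368) (nat_lit 1462566167) (nat_lit 1444) (nat_lit 2049735188) (nat_lit 476) (nat_lit 5) (nat_lit 494) (nat_lit 5) (nat_lit 495) (nat_lit 5) (nat_lit 413) (nat_lit 373) (nat_lit 354)) (XT.lf (nat_lit 0) (nat_lit 669593430) (nat_lit 1520) (nat_lit 6225556653) (nat_lit 76) (nat_lit 195445006) (nat_lit 456) (nat_lit 5) (nat_lit 476) (nat_lit 5) (nat_lit 457) (nat_lit 5) (nat_lit 414) (nat_lit 373) (nat_lit 353)))) (XT.nd (nat_lit 156) (nat_lit 1672) (nat_lit 0) (XT.nd (nat_lit 78) (nat_lit 1520) (nat_lit 0) (XT.lf (nat_lit 0)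 (nat_lit 3393808867) (nat_lit 1520) (nat_lit 1828485080) (nat_lit 76) (nat_lit 1910151443) (nat_lit 456) (nat_lit 5) (nat_lit 476) (nat_lit 5) (nat_lit 457) (nat_lit 5) (nat_lit 415) (nat_lit 373) (nat_lit 352)) (XT.lf (nat_lit 0) (nat_lit 2641317580) (nat_lit 1520) (nat_lit 3493937469) (nat_lit 1596) (nat_lit 1040670486) (nat_lit 436) (nat_lit 5) (nat_lit 456) (nat_lit 5) (nat_lit 457) (nat_lit 5) (nat_lit 416) (nat_lit 373) (nat_lit 351))) (XT.nd (nat_lit 78) (nat_lit 1596) (nat_lit 0) (XT.lf (nat_lit 0) (nat_lit 1647103677) (nat_lit 1596) (nat_lit 56207908) (nat_lit 76) (nat_lit 5517621555) (nat_lit 435) (nat_lit 5) (nat_lit 456) (nat_lit 5) (nat_lit 436) (nat_lit 5) (nat_lit 417) (nat_lit 373) (nat_lit 350)) (XT.lf (nat_lit 0) (nat_lit 4352088751) (nat_lit 1672) (nat_lit 2753506589) (nat_lit 76) (nat_lit 161605191) (nat_lit 414) (nat_lit 5) (nat_lit 436) (nat_lit 5) (nat_lit 415) (nat_lit 5) (nat_lit 418) (nat_lit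 373) (nat_lit 349))))))))
noncomputable def xc84 : XT := (XT.nd (nat_lit 2184) (nat_lit 7828) (nat_lit 0) (XT.nd (nat_lit 1092) (nat_lit 6080) (nat_lit 0) (XT.nd (nat_lit 546) (nat_lit 3192) (nat_lit 0) (XT.nd (nat_lit 234) (nat_lit 2736) (nat_lit 0) (XT.nd (nat_lit 78) (nat_lit 1520) (nat_lit 0) (XT.lf (nat_lit 0) (nat_lit 1823919566) (nat_lit 1672) (nat_lit 5258499427) (nat_lit 1748) (nat_lit 232593495) (nat_lit 392) (nat_lit 5) (nat_lit 414) (nat_lit 5) (nat_lit 415) (nat_lit 5) (nat_lit 419) (nat_lit 373) (nat_lit 348)) (XT.nd (nat_lit 78) (nat_lit 1444) (nat_lit 0) (XT.lf (nat_lit 0) (nat_lit 2437401090) (nat_lit 1748) (nat_lit 900061526) (nat_lit 76) (nat_lit 4026702174) (nat_lit 391) (nat_lit 5) (nat_lit 414) (nat_lit 5) (nat_lit 392) (nat_lit 5) (nat_lit 420) (nat_lit 373) (nat_lit 347)) (XT.lf (nat_lit 0) (nat_lit 3781341249) (nat_lit 1444) (nat_lit 1349973120) (nat_lit 1520) (nat_lit 2283523938) (nat_lit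 372) (nat_lit 5) (nat_lit 391) (nat_lit 5) (nat_lit 392) (nat_lit 5) (nat_lit 421) (nat_lit 373) (nat_lit 346)))) (XT.nd (nat_lit 156) (nat_lit 1824) (nat_lit 0) (XT.nd (nat_lit 78) (nat_lit 0) (nat_lit 0) (XT.lf (nat_lit 0) (nat_lit 374045687) (nat_lit 912) (nat_lit 6408261274) (nat_lit 76) (nat_lit 684867204) (nat_lit 360) (nat_lit 5) (nat_lit 372) (nat_lit 5) (nat_lit 361) (nat_lit 5) (nat_lit 422) (nat_lit 373) (nat_lit 345)) (XT.lf (nat_lit 0) (nat_lit 3037761965) (nat_lit 912) (nat_lit 1700470543) (nat_lit 76) (nat_lit 2782390103) (nat_lit 360) (nat_lit 5) (nat_lit 372) (nat_lit 5) (nat_lit 361) (nat_lit 5) (nat_lit 423) (nat_lit 373) (nat_lit 344))) (XT.nd (nat_lit 78) (nat_lit 912) (nat_lit 0) (XT.lf (nat_lit 0) (nat_lit 3092424749) (nat_lit 912) (nat_lit 2633443823) (nat_lit 988) (nat_lit 1849887551) (nat_lit 348) (nat_lit 5) (nat_lit 360) (nat_lit 5) (nat_lit 361) (nat_lit 5) (nat_lit 424) (nat_lit 373)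 (nat_lit 343)) (XT.lf (nat_lit 0) (nat_lit 321208687) (nat_lit 836) (nat_lit 468468307) (nat_lit 912) (nat_lit 6842945854) (nat_lit 336) (nat_lit 5) (nat_lit 347) (nat_lit 5) (nat_lit 348) (nat_lit 5) (nat_lit 425) (nat_lit 373) (nat_lit 342))))) (XT.nd (nat_lit 234) (nat_lit 2280) (nat_lit 0) (XT.nd (nat_lit 78) (nat_lit 912) (nat_lit 0) (XT.lf (nat_lit 0) (nat_lit 3450809427) (nat_lit 912) (nat_lit 2481783557) (nat_lit 76) (nat_lit 1757954638) (nat_lit 336) (nat_lit 5) (nat_lit 348) (nat_lit 5) (nat_lit 337) (nat_lit 5) (nat_lit 426) (nat_lit 373) (nat_lit 341)) (XT.nd (nat_lit 78) (nat_lit 76) (nat_lit 0) (XT.lf (nat_lit 0) (nat_lit 2423489846) (nat_lit 836) (nat_lit 3713397002) (nat_lit 912) (nat_lit 1613345087) (nat_lit 325) (nat_lit 5) (nat_lit 336) (nat_lit 5) (nat_lit 337) (nat_lit 5) (nat_lit 427) (nat_lit 373) (nat_lit 340)) (XT.lf (nat_lit 0) (nat_lit 1021511368) (nat_lit 912) (nat_lit 407257751) (nat_lit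 76) (nat_lit 6382838348) (nat_lit 324) (nat_lit 5) (nat_lit 336) (nat_lit 5) (nat_lit 325) (nat_lit 5) (nat_lit 428) (nat_lit 373) (nat_lit 339)))) (XT.nd (nat_lit 156) (nat_lit 760) (nat_lit 0) (XT.nd (nat_lit 78) (nat_lit 760) (nat_lit 0) (XT.lf (nat_lit 0) (nat_lit 3677590671) (nat_lit 836) (nat_lit 3269023760) (nat_lit 76) (nat_lit 927613668) (nat_lit 314) (nat_lit 5) (nat_lit 325) (nat_lit 5) (nat_lit 315) (nat_lit 5) (nat_lit 429) (nat_lit 373) (nat_lit 338)) (XT.lf (nat_lit 0) (nat_lit 1749273029) (nat_lit 760) (nat_lit 4615717330) (nat_lit 836) (nat_lit 1573579599) (nat_lit 304) (nat_lit 5) (nat_lit 314) (nat_lit 5) (nat_lit 315) (nat_lit 5) (nat_lit 430) (nat_lit 373) (nat_lit 337))) (XT.nd (nat_lit 78) (nat_lit 684) (nat_lit 0) (XT.lf (nat_lit 0) (nat_lit 1064439136) (nat_lit 836) (nat_lit 1148695107) (nat_lit 76) (nat_lit 5791413798) (nat_lit 303) (nat_lit 5) (nat_lit 314) (nat_lit 5) (nat_lit 304) (nat_lit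 5) (nat_lit 431) (nat_lit 373) (nat_lit 336)) (XT.lf (nat_lit 0) (nat_lit 3717552077) (nat_lit 760) (nat_lit 4088122767) (nat_lit 76) (nat_lit 266325630) (nat_lit 294) (nat_lit 5) (nat_lit 304) (nat_lit 5) (nat_lit 295) (nat_lit 5) (nat_lit 432) (nat_lit 373) (nat_lit 335)))))) (XT.nd (nat_lit 546) (nat_lit 3192) (nat_lit 0) (XT.nd (nat_lit 234) (nat_lit 1368) (nat_lit 0) (XT.nd (nat_lit 78) (nat_lit 760) (nat_lit 0) (XT.lf (nat_lit 0) (nat_lit 1043547629) (nat_lit 760) (nat_lit 5365645973) (nat_lit 836) (nat_lit 1731929319) (nat_lit 284) (nat_lit 5) (nat_lit 294) (nat_lit 5) (nat_lit 295) (nat_lit 5) (nat_lit 433) (nat_lit 373) (nat_lit 334)) (XT.nd (nat_lit 78) (nat_lit 684) (nat_lit 0) (XT.lf (nat_lit 0) (nat_lit 914785193) (nat_lit 836) (nat_lit 1933854689) (nat_lit 76) (nat_lit 5363212330) (nat_lit 283) (nat_lit 5) (nat_lit 294) (nat_lit 5) (nat_lit 284) (nat_lit 5) (nat_lit 434) (nat_lit 373) (nat_lit 333))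 (XT.lf (nat_lit 0) (nat_lit 3316403039) (nat_lit 684) (nat_lit 253745427) (nat_lit 760) (nat_lit 4714069107) (nat_lit 274) (nat_lit 5) (nat_lit 283) (nat_lit 5) (nat_lit 284) (nat_lit 5) (nat_lit 435) (nat_lit 373) (nat_lit 332)))) (XT.nd (nat_lit 156) (nat_lit 608) (nat_lit 0) (XT.nd (nat_lit 78) (nat_lit 76) (nat_lit 0) (XT.lf (nat_lit 0) (nat_lit 278871899) (nat_lit 684) (nat_lit 5987989874) (nat_lit 760) (nat_lit 2091431596) (nat_lit 265) (nat_lit 5) (nat_lit 274) (nat_lit 5) (nat_lit 275) (nat_lit 5) (nat_lit 436) (nat_lit 373) (nat_lit 331)) (XT.lf (nat_lit 0) (nat_lit 569279572) (nat_lit 760) (nat_lit 2790574458) (nat_lit 76) (nat_lit 5074082245) (nat_lit 264) (nat_lit 5) (nat_lit 274) (nat_lit 5) (nat_lit 265) (nat_lit 5) (nat_lit 437) (nat_lit 373) (nat_lit 330))) (XT.nd (nat_lit 78) (nat_lit 0) (nat_lit 0) (XT.lf (nat_lit 0) (nat_lit 2575415303) (nat_lit 608) (nat_lit 655393500) (nat_lit 684) (nat_lit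 5280520958) (nat_lit 256) (nat_lit 5) (nat_lit 264) (nat_lit 5) (nat_lit 265) (nat_lit 5) (nat_lit 438) (nat_lit 373) (nat_lit 329)) (XT.lf (nat_lit 0) (nat_lit 5937378697) (nat_lit 684) (nat_lit 566154528) (nat_lit 76) (nat_lit 2086927543) (nat_lit 256) (nat_lit 5) (nat_lit 265) (nat_lit 5) (nat_lit 257) (nat_lit 5) (nat_lit 439) (nat_lit 373) (nat_lit 328))))) (XT.nd (nat_lit 234) (nat_lit 1824) (nat_lit 0) (XT.nd (nat_lit 78) (nat_lit 608) (nat_lit 0) (XT.lf (nat_lit 0) (nat_lit 22911382) (nat_lit 760) (nat_lit 3748263245) (nat_lit 76) (nat_lit 4900093952) (nat_lit 246) (nat_lit 5) (nat_lit 256) (nat_lit 5) (nat_lit 247) (nat_lit 5) (nat_lit 440) (nat_lit 373) (nat_lit 327)) (XT.nd (nat_lit 78) (nat_lit 0) (nat_lit 0) (XT.lf (nat_lit 0) (nat_lit 1732832241) (nat_lit 608) (nat_lit 959465293) (nat_lit 684) (nat_lit 6061560684) (nat_lit 238) (nat_lit 5) (nat_lit 246) (nat_lit 5) (nat_lit 247) (nat_lit 5) (nat_lit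 441) (nat_lit 373) (nat_lit 326)) (XT.lf (nat_lit 0) (nat_lit 5413481554) (nat_lit 684) (nat_lit 1524535265) (nat_lit 76) (nat_lit 1900138513) (nat_lit 238) (nat_lit 5) (nat_lit 247) (nat_lit 5) (nat_lit 239) (nat_lit 5) (nat_lit 442) (nat_lit 373) (nat_lit 325)))) (XT.nd (nat_lit 156) (nat_lit 608) (nat_lit 0) (XT.nd (nat_lit 78) (nat_lit 608) (nat_lit 0) (XT.lf (nat_lit 0) (nat_lit 4081274184) (nat_lit 608) (nat_lit 4102137722) (nat_lit 684) (nat_lit 740863446) (nat_lit 230) (nat_lit 5) (nat_lit 238) (nat_lit 5) (nat_lit 239) (nat_lit 5) (nat_lit 443) (nat_lit 373) (nat_lit 324)) (XT.lf (nat_lit 0) (nat_lit 756845611) (nat_lit 532) (nat_lit 1190446204) (nat_lit 608) (nat_lit 7065052101) (nat_lit 222) (nat_lit 5) (nat_lit 229) (nat_lit 5) (nat_lit 230) (nat_lit 5) (nat_lit 444) (nat_lit 373) (nat_lit 323))) (XT.nd (nat_lit 78) (nat_lit 608) (nat_lit 0) (XT.lf (nat_lit 0) (nat_lit 4685588887) (nat_lit 608) (nat_lit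 2632264214) (nat_lit 76) (nat_lit 1784118896) (nat_lit 222) (nat_lit 5) (nat_lit 230) (nat_lit 5) (nat_lit 223) (nat_lit 5) (nat_lit 445) (nat_lit 373) (nat_lit 322)) (XT.lf (nat_lit 0) (nat_lit 3088604828) (nat_lit 608) (nat_lit 4380750488) (nat_lit 684) (nat_lit 1724244889) (nat_lit 214) (nat_lit 5) (nat_lit 222) (nat_lit 5) (nat_lit 223) (nat_lit 5) (nat_lit 446) (nat_lit 373) (nat_lit 321))))))) (XT.nd (nat_lit 1092) (nat_lit 3648) (nat_lit 0) (XT.nd (nat_lit 546) (nat_lit 1976) (nat_lit 0) (XT.nd (nat_lit 234) (nat_lit 1064) (nat_lit 0) (XT.nd (nat_lit 78) (nat_lit 1064) (nat_lit 0) (XT.lf (nat_lit 0) (nat_lit 989042390) (nat_lit 684) (nat_lit 381541067) (nat_lit 76) (nat_lit 7916751505) (nat_lit 213) (nat_lit 5) (nat_lit 222) (nat_lit 5) (nat_lit 214) (nat_lit 5) (nat_lit 447) (nat_lit 373) (nat_lit 320)) (XT.nd (nat_lit 78) (nat_lit 532) (nat_lit 0) (XT.lf (nat_lit 0) (nat_lit 3743976363) (nat_lit 608) (nat_lit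 3924049871) (nat_lit 76) (nat_lit 1714501249) (nat_lit 206) (nat_lit 5) (nat_lit 214) (nat_lit 5) (nat_lit 207) (nat_lit 5) (nat_lit 448) (nat_lit 373) (nat_lit 319)) (XT.lf (nat_lit 0) (nat_lit 1909765370) (nat_lit 532) (nat_lit 4632293079) (nat_lit 608) (nat_lit 2937824403) (nat_lit 199) (nat_lit 5) (nat_lit 206) (nat_lit 5) (nat_lit 207) (nat_lit 5) (nat_lit 449) (nat_lit 373) (nat_lit 318)))) (XT.nd (nat_lit 156) (nat_lit 532) (nat_lit 0) (XT.nd (nat_lit 78) (nat_lit 532) (nat_lit 0) (XT.lf (nat_lit 0) (nat_lit 7866674420) (nat_lit 532) (nat_lit 1520158431) (nat_lit 608) (nat_lit 192557458) (nat_lit 199) (nat_lit 5) (nat_lit 206) (nat_lit 5) (nat_lit 207) (nat_lit 5) (nat_lit 450) (nat_lit 373) (nat_lit 317)) (XT.lf (nat_lit 0) (nat_lit 2576846485) (nat_lit 532) (nat_lit 5437324330) (nat_lit 76) (nat_lit 1666328706) (nat_lit 192) (nat_lit 5) (nat_lit 199) (nat_lit 5) (nat_lit 193) (nat_lit 5) (nat_lit 451)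 (nat_lit 373) (nat_lit 316))) (XT.nd (nat_lit 78) (nat_lit 0) (nat_lit 0) (XT.lf (nat_lit 0) (nat_lit 506545652) (nat_lit 532) (nat_lit 4882605744) (nat_lit 608) (nat_lit 4394670703) (nat_lit 185) (nat_lit 5) (nat_lit 192) (nat_lit 5) (nat_lit 193) (nat_lit 5) (nat_lit 452) (nat_lit 373) (nat_lit 315)) (XT.lf (nat_lit 0) (nat_lit 6596625954) (nat_lit 532) (nat_lit 1663109136) (nat_lit 608) (nat_lit 1629453487) (nat_lit 185) (nat_lit 5) (nat_lit 192) (nat_lit 5) (nat_lit 193) (nat_lit 5) (nat_lit 453) (nat_lit 373) (nat_lit 314))))) (XT.nd (nat_lit 234) (nat_lit 988) (nat_lit 0) (XT.nd (nat_lit 78) (nat_lit 456) (nat_lit 0) (XT.lf (nat_lit 0) (nat_lit 1170189875) (nat_lit 532) (nat_lit 7212624485) (nat_lit 76) (nat_lit 1613815902) (nat_lit 178) (nat_lit 5) (nat_lit 185) (nat_lit 5) (nat_lit 179) (nat_lit 5) (nat_lit 454) (nat_lit 373) (nat_lit 313)) (XT.nd (nat_lit 78) (nat_lit 456) (nat_lit 0) (XT.lf (nat_lit 0)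 (nat_lit 4003556001) (nat_lit 532) (nat_lit 1147234949) (nat_lit 76) (nat_lit 4955240508) (nat_lit 178) (nat_lit 5) (nat_lit 185) (nat_lit 5) (nat_lit 179) (nat_lit 5) (nat_lit 455) (nat_lit 373) (nat_lit 312)) (XT.lf (nat_lit 0) (nat_lit 5060496612) (nat_lit 456) (nat_lit 1832883021) (nat_lit 532) (nat_lit 3324261965) (nat_lit 172) (nat_lit 5) (nat_lit 178) (nat_lit 5) (nat_lit 179) (nat_lit 5) (nat_lit 456) (nat_lit 373) (nat_lit 311)))) (XT.nd (nat_lit 156) (nat_lit 456) (nat_lit 0) (XT.nd (nat_lit 78) (nat_lit 76) (nat_lit 0) (XT.lf (nat_lit 0) (nat_lit 1034419520) (nat_lit 456) (nat_lit 8798328489) (nat_lit 532) (nat_lit 498917361) (nat_lit 166) (nat_lit 5) (nat_lit 172) (nat_lit 5) (nat_lit 173) (nat_lit 5) (nat_lit 457) (nat_lit 373) (nat_lit 310)) (XT.lf (nat_lit 0) (nat_lit 2365984097) (nat_lit 532) (nat_lit 3101171939) (nat_lit 76) (nat_lit 4980233858) (nat_lit 165) (nat_lit 5) (nat_lit 172) (nat_lit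 5) (nat_lit 166) (nat_lit 5) (nat_lit 458) (nat_lit 373) (nat_lit 309))) (XT.nd (nat_lit 78) (nat_lit 0) (nat_lit 0) (XT.lf (nat_lit 0) (nat_lit 3212775922) (nat_lit 456) (nat_lit 2057561437) (nat_lit 532) (nat_lit 5295264356) (nat_lit 159) (nat_lit 5) (nat_lit 165) (nat_lit 5) (nat_lit 166) (nat_lit 5) (nat_lit 459) (nat_lit 373) (nat_lit 308)) (XT.lf (nat_lit 0) (nat_lit 8231170502) (nat_lit 532) (nat_lit 1045230097) (nat_lit 76) (nat_lit 1409824465) (nat_lit 159) (nat_lit 5) (nat_lit 166) (nat_lit 5) (nat_lit 160) (nat_lit 5) (nat_lit 460) (nat_lit 373) (nat_lit 307)))))) (XT.nd (nat_lit 546) (nat_lit 1520) (nat_lit 0) (XT.nd (nat_lit 234) (nat_lit 1216) (nat_lit 0) (XT.nd (nat_lit 78) (nat_lit 456) (nat_lit 0) (XT.lf (nat_lit 0) (nat_lit 453807247) (nat_lit 456) (nat_lit 5410442274) (nat_lit 76) (nat_lit 4944615642) (nat_lit 153) (nat_lit 5) (nat_lit 159) (nat_lit 5) (nat_lit 154) (nat_lit 5) (nat_lit 461)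 (nat_lit 373) (nat_lit 306)) (XT.nd (nat_lit 78) (nat_lit 0) (nat_lit 0) (XT.lf (nat_lit 0) (nat_lit 1003758926) (nat_lit 456) (nat_lit 2366775827) (nat_lit 532) (nat_lit 7563461793) (nat_lit 147) (nat_lit 5) (nat_lit 153) (nat_lit 5) (nat_lit 154) (nat_lit 5) (nat_lit 462) (nat_lit 373) (nat_lit 305)) (XT.lf (nat_lit 0) (nat_lit 6359128401) (nat_lit 532) (nat_lit 3494005604) (nat_lit 76) (nat_lit 1208239912) (nat_lit 147) (nat_lit 5) (nat_lit 154) (nat_lit 5) (nat_lit 148) (nat_lit 5) (nat_lit 463) (nat_lit 373) (nat_lit 304)))) (XT.nd (nat_lit 156) (nat_lit 760) (nat_lit 0) (XT.nd (nat_lit 78) (nat_lit 76) (nat_lit 0) (XT.lf (nat_lit 0) (nat_lit 3051524348) (nat_lit 380) (nat_lit 6361249081) (nat_lit 456) (nat_lit 1778433538) (nat_lit 142) (nat_lit 5) (nat_lit 147) (nat_lit 5) (nat_lit 148) (nat_lit 5) (nat_lit 464) (nat_lit 373) (nat_lit 303)) (XT.lf (nat_lit 0) (nat_lit 1181559464) (nat_lit 456) (nat_lit 1599711483)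 (nat_lit 76) (nat_lit 8542352720) (nat_lit 141) (nat_lit 5) (nat_lit 147) (nat_lit 5) (nat_lit 142) (nat_lit 5) (nat_lit 465) (nat_lit 373) (nat_lit 302))) (XT.nd (nat_lit 78) (nat_lit 380) (nat_lit 0) (XT.lf (nat_lit 0) (nat_lit 4186304356) (nat_lit 456) (nat_lit 6381349715) (nat_lit 76) (nat_lit 890625142) (nat_lit 136) (nat_lit 5) (nat_lit 142) (nat_lit 5) (nat_lit 137) (nat_lit 5) (nat_lit 466) (nat_lit 373) (nat_lit 301)) (XT.lf (nat_lit 0) (nat_lit 254963933) (nat_lit 380) (nat_lit 6997755927) (nat_lit 456) (nat_lit 4342889171) (nat_lit 131) (nat_lit 5) (nat_lit 136) (nat_lit 5) (nat_lit 137) (nat_lit 5) (nat_lit 467) (nat_lit 373) (nat_lit 300))))) (XT.nd (nat_lit 312) (nat_lit 760) (nat_lit 0) (XT.nd (nat_lit 156) (nat_lit 304) (nat_lit 0) (XT.nd (nat_lit 78) (nat_lit 456) (nat_lit 0) (XT.lf (nat_lit 0) (nat_lit 7067524871) (nat_lit 380) (nat_lit 3326751874) (nat_lit 456) (nat_lit 1341144865) (nat_lit 131)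 (nat_lit 5) (nat_lit 136) (nat_lit 5) (nat_lit 137) (nat_lit 5) (nat_lit 468) (nat_lit 373) (nat_lit 299)) (XT.lf (nat_lit 0) (nat_lit 1685928138) (nat_lit 456) (nat_lit 9768595200) (nat_lit 76) (nat_lit 423538410) (nat_lit 125) (nat_lit 5) (nat_lit 131) (nat_lit 5) (nat_lit 126) (nat_lit 5) (nat_lit 469) (nat_lit 373) (nat_lit 298))) (XT.nd (nat_lit 78) (nat_lit 304) (nat_lit 0) (XT.lf (nat_lit 0) (nat_lit 4780720752) (nat_lit 456) (nat_lit 3011135637) (nat_lit 76) (nat_lit 4231029987) (nat_lit 125) (nat_lit 5) (nat_lit 131) (nat_lit 5) (nat_lit 126) (nat_lit 5) (nat_lit 470) (nat_lit 373) (nat_lit 297)) (XT.lf (nat_lit 0) (nat_lit 3890598592) (nat_lit 304) (nat_lit 4044185029) (nat_lit 380) (nat_lit 4235887868) (nat_lit 121) (nat_lit 5) (nat_lit 125) (nat_lit 5) (nat_lit 126) (nat_lit 5) (nat_lit 471) (nat_lit 373) (nat_lit 296)))) (XT.nd (nat_lit 156) (nat_lit 304) (nat_lit 0) (XT.nd (nat_lit 78) (nat_lit 456)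 (nat_lit 0) (XT.lf (nat_lit 0) (nat_lit 10929559479) (nat_lit 304) (nat_lit 214965158) (nat_lit 380) (nat_lit 1177046984) (nat_lit 121) (nat_lit 5) (nat_lit 125) (nat_lit 5) (nat_lit 126) (nat_lit 5) (nat_lit 472) (nat_lit 373) (nat_lit 295)) (XT.lf (nat_lit 0) (nat_lit 1951140352) (nat_lit 456) (nat_lit 6845090304) (nat_lit 76) (nat_lit 3678344574) (nat_lit 115) (nat_lit 5) (nat_lit 121) (nat_lit 5) (nat_lit 116) (nat_lit 5) (nat_lit 473) (nat_lit 373) (nat_lit 294))) (XT.nd (nat_lit 78) (nat_lit 0) (nat_lit 0) (XT.lf (nat_lit 0) (nat_lit 130894428) (nat_lit 304) (nat_lit 4979847805) (nat_lit 380) (nat_lit 7520059448) (nat_lit 111) (nat_lit 5) (nat_lit 115) (nat_lit 5) (nat_lit 116) (nat_lit 5) (nat_lit 474) (nat_lit 373) (nat_lit 293)) (XT.lf (nat_lit 0) (nat_lit 7298087302) (nat_lit 304) (nat_lit 1054567411) (nat_lit 380) (nat_lit 4437125975) (nat_lit 111) (nat_lit 5) (nat_lit 115) (nat_lit 5) (nat_lit 116)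 (nat_lit 5) (nat_lit 475) (nat_lit 373) (nat_lit 292))))))))
noncomputable def xc85 : XT := (XT.nd (nat_lit 2184) (nat_lit 2280) (nat_lit 0) (XT.nd (nat_lit 1092) (nat_lit 1520) (nat_lit 0) (XT.nd (nat_lit 546) (nat_lit 1140) (nat_lit 0) (XT.nd (nat_lit 234) (nat_lit 608) (nat_lit 0) (XT.nd (nat_lit 78) (nat_lit 380) (nat_lit 0) (XT.lf (nat_lit 0) (nat_lit 1618019316) (nat_lit 304) (nat_lit 10044658946) (nat_lit 380) (nat_lit 1289205750) (nat_lit 107) (nat_lit 5) (nat_lit 111) (nat_lit 5) (nat_lit 112) (nat_lit 5) (nat_lit 476) (nat_lit 373) (nat_lit 291)) (XT.nd (nat_lit 78) (nat_lit 304) (nat_lit 0) (XT.lf (nat_lit 0) (nat_lit 1914240801) (nat_lit 380) (nat_lit 4232658648) (nat_lit 76) (nat_lit 6969734794) (nat_lit 106) (nat_lit 5) (nat_lit 111) (nat_lit 5) (nat_lit 107) (nat_lit 5) (nat_lit 477) (nat_lit 373) (nat_lit 290)) (XT.lf (nat_lit 0) (nat_lit 3001368602) (nat_lit 304) (nat_lit 2156835003) (nat_lit 380)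 (nat_lit 8126440851) (nat_lit 102) (nat_lit 5) (nat_lit 106) (nat_lit 5) (nat_lit 107) (nat_lit 5) (nat_lit 478) (nat_lit 373) (nat_lit 289)))) (XT.nd (nat_lit 156) (nat_lit 304) (nat_lit 0) (XT.nd (nat_lit 78) (nat_lit 304) (nat_lit 0) (XT.lf (nat_lit 0) (nat_lit 8482419818) (nat_lit 380) (nat_lit 3070797653) (nat_lit 76) (nat_lit 1902499336) (nat_lit 102) (nat_lit 5) (nat_lit 107) (nat_lit 5) (nat_lit 103) (nat_lit 5) (nat_lit 479) (nat_lit 373) (nat_lit 288)) (XT.lf (nat_lit 0) (nat_lit 4288485517) (nat_lit 304) (nat_lit 7601626930) (nat_lit 380) (nat_lit 1739767549) (nat_lit 98) (nat_lit 5) (nat_lit 102) (nat_lit 5) (nat_lit 103) (nat_lit 5) (nat_lit 480) (nat_lit 373) (nat_lit 287))) (XT.nd (nat_lit 78) (nat_lit 228) (nat_lit 0) (XT.lf (nat_lit 0) (nat_lit 1533666095) (nat_lit 380) (nat_lit 2020277318) (nat_lit 76) (nat_lit 10253476088) (nat_lit 97) (nat_lit 5) (nat_lit 102) (nat_lit 5) (nat_lit 98) (nat_lit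 5) (nat_lit 481) (nat_lit 373) (nat_lit 286)) (XT.lf (nat_lit 0) (nat_lit 4864173600) (nat_lit 304) (nat_lit 8523269981) (nat_lit 76) (nat_lit 600546902) (nat_lit 94) (nat_lit 5) (nat_lit 98) (nat_lit 5) (nat_lit 95) (nat_lit 5) (nat_lit 482) (nat_lit 373) (nat_lit 285))))) (XT.nd (nat_lit 234) (nat_lit 760) (nat_lit 0) (XT.nd (nat_lit 78) (nat_lit 380) (nat_lit 0) (XT.lf (nat_lit 0) (nat_lit 8274035997) (nat_lit 304) (nat_lit 1107586748) (nat_lit 76) (nat_lit 4790303776) (nat_lit 94) (nat_lit 5) (nat_lit 98) (nat_lit 5) (nat_lit 95) (nat_lit 5) (nat_lit 483) (nat_lit 373) (nat_lit 284)) (XT.nd (nat_lit 78) (nat_lit 76) (nat_lit 0) (XT.lf (nat_lit 0) (nat_lit 6503605276) (nat_lit 304) (nat_lit 5266757052) (nat_lit 380) (nat_lit 2588821979) (nat_lit 90) (nat_lit 5) (nat_lit 94) (nat_lit 5) (nat_lit 95) (nat_lit 5) (nat_lit 484) (nat_lit 373) (nat_lit 283)) (XT.lf (nat_lit 0) (nat_lit 759695231) (nat_lit 380) (nat_lit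 311334885) (nat_lit 76) (nat_lit 13479391421) (nat_lit 89) (nat_lit 5) (nat_lit 94) (nat_lit 5) (nat_lit 90) (nat_lit 5) (nat_lit 485) (nat_lit 373) (nat_lit 282)))) (XT.nd (nat_lit 156) (nat_lit 228) (nat_lit 0) (XT.nd (nat_lit 78) (nat_lit 304) (nat_lit 0) (XT.lf (nat_lit 0) (nat_lit 4186512224) (nat_lit 304) (nat_lit 7339203339) (nat_lit 76) (nat_lit 3218513711) (nat_lit 86) (nat_lit 5) (nat_lit 90) (nat_lit 5) (nat_lit 87) (nat_lit 5) (nat_lit 486) (nat_lit 373) (nat_lit 281)) (XT.lf (nat_lit 0) (nat_lit 297292759) (nat_lit 304) (nat_lit 7372394705) (nat_lit 380) (nat_lit 7272476989) (nat_lit 82) (nat_lit 5) (nat_lit 86) (nat_lit 5) (nat_lit 87) (nat_lit 5) (nat_lit 487) (nat_lit 373) (nat_lit 280))) (XT.nd (nat_lit 78) (nat_lit 228) (nat_lit 0) (XT.lf (nat_lit 0) (nat_lit 8148688376) (nat_lit 304) (nat_lit 3099998136) (nat_lit 380) (nat_lit 3894856191) (nat_lit 82) (nat_lit 5) (nat_lit 86) (nat_lit 5) (nat_lit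 87) (nat_lit 5) (nat_lit 488) (nat_lit 373) (nat_lit 279)) (XT.lf (nat_lit 0) (nat_lit 773183884) (nat_lit 228) (nat_lit 14116541025) (nat_lit 304) (nat_lit 459421846) (nat_lit 79) (nat_lit 5) (nat_lit 82) (nat_lit 5) (nat_lit 83) (nat_lit 5) (nat_lit 489) (nat_lit 373) (nat_lit 278)))))) (XT.nd (nat_lit 546) (nat_lit 684) (nat_lit 0) (XT.nd (nat_lit 234) (nat_lit 532) (nat_lit 0) (XT.nd (nat_lit 78) (nat_lit 228) (nat_lit 0) (XT.lf (nat_lit 0) (nat_lit 3049892454) (nat_lit 304) (nat_lit 6844151708) (nat_lit 76) (nat_lit 5663528431) (nat_lit 78) (nat_lit 5) (nat_lit 82) (nat_lit 5) (nat_lit 79) (nat_lit 5) (nat_lit 490) (nat_lit 373) (nat_lit 277)) (XT.nd (nat_lit 78) (nat_lit 0) (nat_lit 0) (XT.lf (nat_lit 0) (nat_lit 1016289262) (nat_lit 228) (nat_lit 5591324469) (nat_lit 304) (nat_lit 9162812030) (nat_lit 75) (nat_lit 5) (nat_lit 78) (nat_lit 5) (nat_lit 79) (nat_lit 5) (nat_lit 491) (nat_lit 373) (nat_lit 276))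 (XT.lf (nat_lit 0) (nat_lit 9090659395) (nat_lit 228) (nat_lit 1169727906) (nat_lit 304) (nat_lit 5726677594) (nat_lit 75) (nat_lit 5) (nat_lit 78) (nat_lit 5) (nat_lit 79) (nat_lit 5) (nat_lit 492) (nat_lit 373) (nat_lit 275)))) (XT.nd (nat_lit 156) (nat_lit 228) (nat_lit 0) (XT.nd (nat_lit 78) (nat_lit 76) (nat_lit 0) (XT.lf (nat_lit 0) (nat_lit 1075197665) (nat_lit 228) (nat_lit 12917999720) (nat_lit 304) (nat_lit 2214706531) (nat_lit 72) (nat_lit 5) (nat_lit 75) (nat_lit 5) (nat_lit 76) (nat_lit 5) (nat_lit 493) (nat_lit 373) (nat_lit 274)) (XT.lf (nat_lit 0) (nat_lit 1382259286) (nat_lit 304) (nat_lit 7185206061) (nat_lit 76) (nat_lit 7864869453) (nat_lit 71) (nat_lit 5) (nat_lit 75) (nat_lit 5) (nat_lit 72) (nat_lit 5) (nat_lit 494) (nat_lit 373) (nat_lit 273))) (XT.nd (nat_lit 78) (nat_lit 0) (nat_lit 0) (XT.lf (nat_lit 0) (nat_lit 883104738) (nat_lit 228) (nat_lit 4122949381) (nat_lit 304) (nat_lit 11655222842)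 (nat_lit 68) (nat_lit 5) (nat_lit 71) (nat_lit 5) (nat_lit 72) (nat_lit 5) (nat_lit 495) (nat_lit 373) (nat_lit 272)) (XT.lf (nat_lit 0) (nat_lit 8732409170) (nat_lit 304) (nat_lit 7721799888) (nat_lit 76) (nat_lit 439993434) (nat_lit 68) (nat_lit 5) (nat_lit 72) (nat_lit 5) (nat_lit 69) (nat_lit 5) (nat_lit 496) (nat_lit 373) (nat_lit 271))))) (XT.nd (nat_lit 234) (nat_lit 380) (nat_lit 0) (XT.nd (nat_lit 78) (nat_lit 76) (nat_lit 0) (XT.lf (nat_lit 0) (nat_lit 439690554) (nat_lit 228) (nat_lit 12103057412) (nat_lit 304) (nat_lit 4588855527) (nat_lit 65) (nat_lit 5) (nat_lit 68) (nat_lit 5) (nat_lit 69) (nat_lit 5) (nat_lit 497) (nat_lit 373) (nat_lit 270)) (XT.nd (nat_lit 78) (nat_lit 76) (nat_lit 0) (XT.lf (nat_lit 0) (nat_lit 8834836965) (nat_lit 228) (nat_lit 7625755086) (nat_lit 304) (nat_lit 912540464) (nat_lit 65) (nat_lit 5) (nat_lit 68) (nat_lit 5) (nat_lit 69) (nat_lit 5) (nat_lit 498) (nat_lit 373)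 (nat_lit 269)) (XT.lf (nat_lit 0) (nat_lit 2779833688) (nat_lit 304) (nat_lit 273875782) (nat_lit 76) (nat_lit 14565825063) (nat_lit 64) (nat_lit 5) (nat_lit 68) (nat_lit 5) (nat_lit 65) (nat_lit 5) (nat_lit 499) (nat_lit 373) (nat_lit 268)))) (XT.nd (nat_lit 156) (nat_lit 152) (nat_lit 0) (XT.nd (nat_lit 78) (nat_lit 0) (nat_lit 0) (XT.lf (nat_lit 0) (nat_lit 6578147084) (nat_lit 304) (nat_lit 9656367589) (nat_lit 76) (nat_lit 1635348697) (nat_lit 61) (nat_lit 5) (nat_lit 65) (nat_lit 5) (nat_lit 62) (nat_lit 5) (nat_lit 500) (nat_lit 373) (nat_lit 267)) (XT.lf (nat_lit 0) (nat_lit 10454730775) (nat_lit 304) (nat_lit 1304349452) (nat_lit 76) (nat_lit 6366077993) (nat_lit 61) (nat_lit 5) (nat_lit 65) (nat_lit 5) (nat_lit 62) (nat_lit 5) (nat_lit 501) (nat_lit 373) (nat_lit 266))) (XT.nd (nat_lit 78) (nat_lit 0) (nat_lit 0) (XT.lf (nat_lit 0) (nat_lit 7277528427) (nat_lit 152) (nat_lit 7159186648) (nat_lit 228)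 (nat_lit 3948291920) (nat_lit 59) (nat_lit 5) (nat_lit 61) (nat_lit 5) (nat_lit 62) (nat_lit 5) (nat_lit 502) (nat_lit 373) (nat_lit 265)) (XT.lf (nat_lit 0) (nat_lit 16016312600) (nat_lit 152) (nat_lit 2471567321) (nat_lit 228) (nat_lit 162387312) (nat_lit 59) (nat_lit 5) (nat_lit 61) (nat_lit 5) (nat_lit 62) (nat_lit 5) (nat_lit 503) (nat_lit 373) (nat_lit 264))))))) (XT.nd (nat_lit 1092) (nat_lit 912) (nat_lit 0) (XT.nd (nat_lit 546) (nat_lit 608) (nat_lit 0) (XT.nd (nat_lit 234) (nat_lit 304) (nat_lit 0) (XT.nd (nat_lit 78) (nat_lit 152) (nat_lit 0) (XT.lf (nat_lit 0) (nat_lit 3686248829) (nat_lit 304) (nat_lit 12903183486) (nat_lit 76) (nat_lit 2330214507) (nat_lit 55) (nat_lit 5) (nat_lit 59) (nat_lit 5) (nat_lit 56) (nat_lit 5) (nat_lit 504) (nat_lit 373) (nat_lit 263)) (XT.nd (nat_lit 78) (nat_lit 152) (nat_lit 0) (XT.lf (nat_lit 0) (nat_lit 7624961154) (nat_lit 304) (nat_lit 4368146709) (nat_lit 76) (nat_lit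 7200984114) (nat_lit 55) (nat_lit 5) (nat_lit 59) (nat_lit 5) (nat_lit 56) (nat_lit 5) (nat_lit 505) (nat_lit 373) (nat_lit 262)) (XT.lf (nat_lit 0) (nat_lit 4363327051) (nat_lit 152) (nat_lit 7288936092) (nat_lit 228) (nat_lit 7821571482) (nat_lit 53) (nat_lit 5) (nat_lit 55) (nat_lit 5) (nat_lit 56) (nat_lit 5) (nat_lit 506) (nat_lit 373) (nat_lit 261)))) (XT.nd (nat_lit 156) (nat_lit 76) (nat_lit 0) (XT.nd (nat_lit 78) (nat_lit 228) (nat_lit 0) (XT.lf (nat_lit 0) (nat_lit 13297359264) (nat_lit 152) (nat_lit 2473710195) (nat_lit 228) (nat_lit 3987888304) (nat_lit 53) (nat_lit 5) (nat_lit 55) (nat_lit 5) (nat_lit 56) (nat_lit 5) (nat_lit 507) (nat_lit 373) (nat_lit 260)) (XT.lf (nat_lit 0) (nat_lit 2344254806) (nat_lit 228) (nat_lit 17640968816) (nat_lit 304) (nat_lit 64305016) (nat_lit 50) (nat_lit 5) (nat_lit 53) (nat_lit 5) (nat_lit 54) (nat_lit 5) (nat_lit 508) (nat_lit 373) (nat_lit 259))) (XT.nd (nat_lit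 78) (nat_lit 0) (nat_lit 0) (XT.lf (nat_lit 0) (nat_lit 3928090594) (nat_lit 304) (nat_lit 9004457733) (nat_lit 76) (nat_lit 7412016101) (nat_lit 49) (nat_lit 5) (nat_lit 53) (nat_lit 5) (nat_lit 50) (nat_lit 5) (nat_lit 509) (nat_lit 373) (nat_lit 258)) (XT.lf (nat_lit 0) (nat_lit 7981782588) (nat_lit 304) (nat_lit 160435521) (nat_lit 76) (nat_lit 12503632571) (nat_lit 49) (nat_lit 5) (nat_lit 53) (nat_lit 5) (nat_lit 50) (nat_lit 5) (nat_lit 510) (nat_lit 373) (nat_lit 257))))) (XT.nd (nat_lit 234) (nat_lit 228) (nat_lit 0) (XT.nd (nat_lit 78) (nat_lit 228) (nat_lit 0) (XT.lf (nat_lit 0) (nat_lit 8948033629) (nat_lit 152) (nat_lit 3209266961) (nat_lit 228) (nat_lit 8795051373) (nat_lit 47) (nat_lit 5) (nat_lit 49) (nat_lit 5) (nat_lit 50) (nat_lit 5) (nat_lit 511) (nat_lit 373) (nat_lit 256)) (XT.nd (nat_lit 78) (nat_lit 228) (nat_lit 0) (XT.lf (nat_lit 0) (nat_lit 16411967617) (nat_lit 228) (nat_lit 3065814131)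 (nat_lit 76) (nat_lit 1787293015) (nat_lit 47) (nat_lit 5) (nat_lit 50) (nat_lit 5) (nat_lit 48) (nat_lit 5) (nat_lit 512) (nat_lit 373) (nat_lit 255)) (XT.lf (nat_lit 0) (nat_lit 6080681145) (nat_lit 228) (nat_lit 14714841906) (nat_lit 304) (nat_lit 787657248) (nat_lit 44) (nat_lit 5) (nat_lit 47) (nat_lit 5) (nat_lit 48) (nat_lit 5) (nat_lit 513) (nat_lit 373) (nat_lit 254)))) (XT.nd (nat_lit 156) (nat_lit 0) (nat_lit 0) (XT.nd (nat_lit 78) (nat_lit 152) (nat_lit 0) (XT.lf (nat_lit 0) (nat_lit 3318845758) (nat_lit 304) (nat_lit 6506828960) (nat_lit 76) (nat_lit 12081465071) (nat_lit 43) (nat_lit 5) (nat_lit 47) (nat_lit 5) (nat_lit 44) (nat_lit 5) (nat_lit 514) (nat_lit 373) (nat_lit 253)) (XT.lf (nat_lit 0) (nat_lit 2669817261) (nat_lit 152) (nat_lit 4827880347) (nat_lit 228) (nat_lit 14739765361) (nat_lit 41) (nat_lit 5) (nat_lit 43) (nat_lit 5) (nat_lit 44) (nat_lit 5) (nat_lit 515) (nat_lit 373) (nat_lit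 252))) (XT.nd (nat_lit 78) (nat_lit 0) (nat_lit 0) (XT.lf (nat_lit 0) (nat_lit 11789314625) (nat_lit 228) (nat_lit 10486163689) (nat_lit 76) (nat_lit 298334400) (nat_lit 41) (nat_lit 5) (nat_lit 44) (nat_lit 5) (nat_lit 42) (nat_lit 5) (nat_lit 516) (nat_lit 373) (nat_lit 251)) (XT.lf (nat_lit 0) (nat_lit 16182543108) (nat_lit 228) (nat_lit 1283261224) (nat_lit 76) (nat_lit 5450773325) (nat_lit 41) (nat_lit 5) (nat_lit 44) (nat_lit 5) (nat_lit 42) (nat_lit 5) (nat_lit 517) (nat_lit 373) (nat_lit 250)))))) (XT.nd (nat_lit 546) (nat_lit 380) (nat_lit 0) (XT.nd (nat_lit 234) (nat_lit 152) (nat_lit 0) (XT.nd (nat_lit 78) (nat_lit 228) (nat_lit 0) (XT.lf (nat_lit 0) (nat_lit 8183342477) (nat_lit 152) (nat_lit 12517549303) (nat_lit 228) (nat_lit 2564564720) (nat_lit 39) (nat_lit 5) (nat_lit 41) (nat_lit 5) (nat_lit 42) (nat_lit 5) (nat_lit 518) (nat_lit 373) (nat_lit 249)) (XT.nd (nat_lit 78) (nat_lit 152) (nat_lit 0)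 (XT.lf (nat_lit 0) (nat_lit 1658969428) (nat_lit 228) (nat_lit 5803200972) (nat_lit 76) (nat_lit 16159070514) (nat_lit 38) (nat_lit 5) (nat_lit 41) (nat_lit 5) (nat_lit 39) (nat_lit 5) (nat_lit 519) (nat_lit 373) (nat_lit 248)) (XT.lf (nat_lit 0) (nat_lit 3665204798) (nat_lit 152) (nat_lit 2275718608) (nat_lit 228) (nat_lit 18042716299) (nat_lit 36) (nat_lit 5) (nat_lit 38) (nat_lit 5) (nat_lit 39) (nat_lit 5) (nat_lit 520) (nat_lit 373) (nat_lit 247)))) (XT.nd (nat_lit 156) (nat_lit 152) (nat_lit 0) (XT.nd (nat_lit 78) (nat_lit 0) (nat_lit 0) (XT.lf (nat_lit 0) (nat_lit 10351802675) (nat_lit 228) (nat_lit 10997923988) (nat_lit 76) (nat_lit 3002697516) (nat_lit 36) (nat_lit 5) (nat_lit 39) (nat_lit 5) (nat_lit 37) (nat_lit 5) (nat_lit 521) (nat_lit 373) (nat_lit 246)) (XT.lf (nat_lit 0) (nat_lit 14850788053) (nat_lit 228) (nat_lit 1532769110) (nat_lit 76) (nat_lit 8345032771) (nat_lit 36) (nat_lit 5) (nat_lit 39)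 (nat_lit 5) (nat_lit 37) (nat_lit 5) (nat_lit 522) (nat_lit 373) (nat_lit 245))) (XT.nd (nat_lit 78) (nat_lit 0) (nat_lit 0) (XT.lf (nat_lit 0) (nat_lit 8203102186) (nat_lit 152) (nat_lit 11275026167) (nat_lit 228) (nat_lit 5633386444) (nat_lit 34) (nat_lit 5) (nat_lit 36) (nat_lit 5) (nat_lit 37) (nat_lit 5) (nat_lit 523) (nat_lit 373) (nat_lit 244)) (XT.lf (nat_lit 0) (nat_lit 18128468343) (nat_lit 152) (nat_lit 6065071091) (nat_lit 228) (nat_lit 1308651477) (nat_lit 34) (nat_lit 5) (nat_lit 36) (nat_lit 5) (nat_lit 37) (nat_lit 5) (nat_lit 524) (nat_lit 373) (nat_lit 243))))) (XT.nd (nat_lit 312) (nat_lit 0) (nat_lit 0) (XT.nd (nat_lit 156) (nat_lit 152) (nat_lit 0) (XT.nd (nat_lit 78) (nat_lit 0) (nat_lit 0) (XT.lf (nat_lit 0) (nat_lit 2336473947) (nat_lit 152) (nat_lit 726012072) (nat_lit 228) (nat_lit 22837782780) (nat_lit 31) (nat_lit 5) (nat_lit 33) (nat_lit 5) (nat_lit 34) (nat_lit 5) (nat_lit 525) (nat_lit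 373) (nat_lit 242)) (XT.lf (nat_lit 0) (nat_lit 7569470252) (nat_lit 228) (nat_lit 14029867822) (nat_lit 76) (nat_lit 4705481275) (nat_lit 31) (nat_lit 5) (nat_lit 34) (nat_lit 5) (nat_lit 32) (nat_lit 5) (nat_lit 526) (nat_lit 373) (nat_lit 241))) (XT.nd (nat_lit 78) (nat_lit 152) (nat_lit 0) (XT.lf (nat_lit 0) (nat_lit 12157163908) (nat_lit 228) (nat_lit 4335303453) (nat_lit 76) (nat_lit 10225185143) (nat_lit 31) (nat_lit 5) (nat_lit 34) (nat_lit 5) (nat_lit 32) (nat_lit 5) (nat_lit 527) (nat_lit 373) (nat_lit 240)) (XT.lf (nat_lit 0) (nat_lit 5601883507) (nat_lit 152) (nat_lit 11257139965) (nat_lit 228) (nat_lit 10279273536) (nat_lit 29) (nat_lit 5) (nat_lit 31) (nat_lit 5) (nat_lit 32) (nat_lit 5) (nat_lit 528) (nat_lit 373) (nat_lit 239)))) (XT.nd (nat_lit 48750) (nat_lit 0) (nat_lit 45448) (XT.nd (nat_lit 48672) (nat_lit 0) (nat_lit 45980) (XT.lf (nat_lit 0) (nat_lit 15772004732) (nat_lit 152) (nat_lit 5898162701)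 (nat_lit 228) (nat_lit 5896884893) (nat_lit 29) (nat_lit 5) (nat_lit 31) (nat_lit 5) (nat_lit 32) (nat_lit 5) (nat_lit 529) (nat_lit 373) (nat_lit 238)) (XT.lf (nat_lit 0) (nat_lit 183358634) (nat_lit 532) (nat_lit 2890207943) (nat_lit 0) (nat_lit 183358634) (nat_lit 634) (nat_lit 5) (nat_lit 641) (nat_lit 4) (nat_lit 634) (nat_lit 4) (nat_lit 392) (nat_lit 374) (nat_lit 374))) (XT.nd (nat_lit 78) (nat_lit 532) (nat_lit 0) (XT.lf (nat_lit 0) (nat_lit 3404291463) (nat_lit 532) (nat_lit 2196423760) (nat_lit 0) (nat_lit 925601287) (nat_lit 634) (nat_lit 5) (nat_lit 641) (nat_lit 4) (nat_lit 634) (nat_lit 4) (nat_lit 393) (nat_lit 374) (nat_lit 373)) (XT.lf (nat_lit 0) (nat_lit 1429798563) (nat_lit 532) (nat_lit 5009680610) (nat_lit 532) (nat_lit 100902027) (nat_lit 627) (nat_lit 4) (nat_lit 634) (nat_lit 5) (nat_lit 634) (nat_lit 4) (nat_lit 394) (nat_lit 374) (nat_lit 372))))))))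
noncomputable def xc86 : XT := (XT.nd (nat_lit 2184) (nat_lit 12768) (nat_lit 0) (XT.nd (nat_lit 1092) (nat_lit 12844) (nat_lit 0) (XT.nd (nat_lit 546) (nat_lit 4256) (nat_lit 0) (XT.nd (nat_lit 234) (nat_lit 2432) (nat_lit 0) (XT.nd (nat_lit 78) (nat_lit 684) (nat_lit 0) (XT.lf (nat_lit 0) (nat_lit 2884520527) (nat_lit 608) (nat_lit 1464486732) (nat_lit 76) (nat_lit 2206556666) (nat_lit 626) (nat_lit 5) (nat_lit 634) (nat_lit 5) (nat_lit 627) (nat_lit 4) (nat_lit 395) (nat_lit 374) (nat_lit 371)) (XT.nd (nat_lit 78) (nat_lit 76) (nat_lit 0) (XT.lf (nat_lit 0) (nat_lit 2235214533) (nat_lit 608) (nat_lit 3637140834) (nat_lit 684) (nat_lit 699882033) (nat_lit 618) (nat_lit 5) (nat_lit 626) (nat_lit 5) (nat_lit 627) (nat_lit 4) (nat_lit 396) (nat_lit 374) (nat_lit 370)) (XT.lf (nat_lit 0) (nat_lit 2240102474) (nat_lit 684) (nat_lit 624139674) (nat_lit 76) (nat_lit 3725978564) (nat_lit 617) (nat_lit 5) (nat_lit 626)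 (nat_lit 5) (nat_lit 618) (nat_lit 5) (nat_lit 397) (nat_lit 374) (nat_lit 369)))) (XT.nd (nat_lit 156) (nat_lit 912) (nat_lit 0) (XT.nd (nat_lit 78) (nat_lit 836) (nat_lit 0) (XT.lf (nat_lit 0) (nat_lit 3152003675) (nat_lit 684) (nat_lit 2029431254) (nat_lit 760) (nat_lit 1428074672) (nat_lit 608) (nat_lit 5) (nat_lit 617) (nat_lit 5) (nat_lit 618) (nat_lit 5) (nat_lit 398) (nat_lit 374) (nat_lit 368)) (XT.lf (nat_lit 0) (nat_lit 328870100) (nat_lit 760) (nat_lit 1141491886) (nat_lit 836) (nat_lit 5159928297) (nat_lit 597) (nat_lit 5) (nat_lit 607) (nat_lit 5) (nat_lit 608) (nat_lit 5) (nat_lit 399) (nat_lit 374) (nat_lit 367))) (XT.nd (nat_lit 78) (nat_lit 912) (nat_lit 0) (XT.lf (nat_lit 0) (nat_lit 4180210269) (nat_lit 760) (nat_lit 183575739) (nat_lit 836) (nat_lit 2288461366) (nat_lit 597) (nat_lit 5) (nat_lit 607) (nat_lit 5) (nat_lit 608) (nat_lit 5) (nat_lit 400) (nat_lit 374) (nat_lit 366)) (XT.lf (nat_lit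 0) (nat_lit 580275368) (nat_lit 912) (nat_lit 5281047052) (nat_lit 76) (nat_lit 814342814) (nat_lit 585) (nat_lit 5) (nat_lit 597) (nat_lit 5) (nat_lit 586) (nat_lit 5) (nat_lit 401) (nat_lit 374) (nat_lit 365))))) (XT.nd (nat_lit 234) (nat_lit 3268) (nat_lit 0) (XT.nd (nat_lit 78) (nat_lit 988) (nat_lit 0) (XT.lf (nat_lit 0) (nat_lit 3428581083) (nat_lit 912) (nat_lit 1392809908) (nat_lit 76) (nat_lit 1878869413) (nat_lit 585) (nat_lit 5) (nat_lit 597) (nat_lit 5) (nat_lit 586) (nat_lit 5) (nat_lit 402) (nat_lit 374) (nat_lit 364)) (XT.nd (nat_lit 78) (nat_lit 76) (nat_lit 0) (XT.lf (nat_lit 0) (nat_lit 2558487239) (nat_lit 912) (nat_lit 3728147499) (nat_lit 988) (nat_lit 439723988) (nat_lit 573) (nat_lit 5) (nat_lit 585) (nat_lit 5) (nat_lit 586) (nat_lit 5) (nat_lit 403) (nat_lit 374) (nat_lit 363)) (XT.lf (nat_lit 0) (nat_lit 2362790976) (nat_lit 988) (nat_lit 209912149) (nat_lit 76) (nat_lit 4181101425) (nat_lit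 572) (nat_lit 5) (nat_lit 585) (nat_lit 5) (nat_lit 573) (nat_lit 5) (nat_lit 404) (nat_lit 374) (nat_lit 362)))) (XT.nd (nat_lit 156) (nat_lit 1140) (nat_lit 0) (XT.nd (nat_lit 78) (nat_lit 1140) (nat_lit 0) (XT.lf (nat_lit 0) (nat_lit 3826589818) (nat_lit 988) (nat_lit 1351600858) (nat_lit 1064) (nat_lit 1604359064) (nat_lit 559) (nat_lit 5) (nat_lit 572) (nat_lit 5) (nat_lit 573) (nat_lit 5) (nat_lit 405) (nat_lit 374) (nat_lit 361)) (XT.lf (nat_lit 0) (nat_lit 1092652317) (nat_lit 1064) (nat_lit 75966399) (nat_lit 1140) (nat_lit 5644214393) (nat_lit 544) (nat_lit 5) (nat_lit 558) (nat_lit 5) (nat_lit 559) (nat_lit 5) (nat_lit 406) (nat_lit 374) (nat_lit 360))) (XT.nd (nat_lit 78) (nat_lit 1140) (nat_lit 0) (XT.lf (nat_lit 0) (nat_lit 3942809946) (nat_lit 1140) (nat_lit 1649225412) (nat_lit 76) (nat_lit 1252189356) (nat_lit 544) (nat_lit 5) (nat_lit 559) (nat_lit 5) (nat_lit 545) (nat_lit 5) (nat_lit 407) (nat_lit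 374) (nat_lit 359)) (XT.lf (nat_lit 0) (nat_lit 2486735795) (nat_lit 1140) (nat_lit 4242882225) (nat_lit 1216) (nat_lit 147541700) (nat_lit 529) (nat_lit 5) (nat_lit 544) (nat_lit 5) (nat_lit 545) (nat_lit 5) (nat_lit 408) (nat_lit 374) (nat_lit 358)))))) (XT.nd (nat_lit 546) (nat_lit 7296) (nat_lit 0) (XT.nd (nat_lit 234) (nat_lit 2888) (nat_lit 0) (XT.nd (nat_lit 78) (nat_lit 2584) (nat_lit 0) (XT.lf (nat_lit 0) (nat_lit 2578538002) (nat_lit 1216) (nat_lit 249159493) (nat_lit 76) (nat_lit 4083725624) (nat_lit 528) (nat_lit 5) (nat_lit 544) (nat_lit 5) (nat_lit 529) (nat_lit 5) (nat_lit 409) (nat_lit 374) (nat_lit 357)) (XT.nd (nat_lit 78) (nat_lit 1368) (nat_lit 0) (XT.lf (nat_lit 0) (nat_lit 3978041150) (nat_lit 1216) (nat_lit 1347005006) (nat_lit 1292) (nat_lit 1622003345) (nat_lit 512) (nat_lit 5) (nat_lit 528) (nat_lit 5) (nat_lit 529) (nat_lit 5) (nat_lit 410) (nat_lit 374) (nat_lit 356)) (XT.lf (nat_lit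 0) (nat_lit 1081716454) (nat_lit 1368) (nat_lit 5715026831) (nat_lit 76) (nat_lit 187477183) (nat_lit 494) (nat_lit 5) (nat_lit 512) (nat_lit 5) (nat_lit 495) (nat_lit 5) (nat_lit 411) (nat_lit 374) (nat_lit 355)))) (XT.nd (nat_lit 156) (nat_lit 1520) (nat_lit 0) (XT.nd (nat_lit 78) (nat_lit 1368) (nat_lit 0) (XT.lf (nat_lit 0) (nat_lit 3790105773) (nat_lit 1368) (nat_lit 1458633036) (nat_lit 76) (nat_lit 1773787047) (nat_lit 494) (nat_lit 5) (nat_lit 512) (nat_lit 5) (nat_lit 495) (nat_lit 5) (nat_lit 412) (nat_lit 374) (nat_lit 354)) (XT.lf (nat_lit 0) (nat_lit 2872018659) (nat_lit 1368) (nat_lit 3643720025) (nat_lit 1444) (nat_lit 546647841) (nat_lit 476) (nat_lit 5) (nat_lit 494) (nat_lit 5) (nat_lit 495) (nat_lit 5) (nat_lit 413) (nat_lit 374) (nat_lit 353))) (XT.nd (nat_lit 78) (nat_lit 0) (nat_lit 0) (XT.lf (nat_lit 0) (nat_lit 144803749) (nat_lit 1444) (nat_lit 1974863189) (nat_lit 1520) (nat_lit 4984029711)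 (nat_lit 456) (nat_lit 5) (nat_lit 475) (nat_lit 5) (nat_lit 476) (nat_lit 5) (nat_lit 414) (nat_lit 374) (nat_lit 352)) (XT.lf (nat_lit 0) (nat_lit 4571134328) (nat_lit 1444) (nat_lit 234516509) (nat_lit 1520) (nat_lit 2340684392) (nat_lit 456) (nat_lit 5) (nat_lit 475) (nat_lit 5) (nat_lit 476) (nat_lit 5) (nat_lit 415) (nat_lit 374) (nat_lit 351))))) (XT.nd (nat_lit 234) (nat_lit 4104) (nat_lit 0) (XT.nd (nat_lit 78) (nat_lit 1596) (nat_lit 0) (XT.lf (nat_lit 0) (nat_lit 319366109) (nat_lit 1596) (nat_lit 5330894944) (nat_lit 76) (nat_lit 1540195250) (nat_lit 435) (nat_lit 5) (nat_lit 456) (nat_lit 5) (nat_lit 436) (nat_lit 5) (nat_lit 416) (nat_lit 374) (nat_lit 350)) (XT.nd (nat_lit 78) (nat_lit 1596) (nat_lit 0) (XT.lf (nat_lit 0) (nat_lit 2967254490) (nat_lit 1596) (nat_lit 883658557) (nat_lit 76) (nat_lit 3384962752) (nat_lit 435) (nat_lit 5) (nat_lit 456) (nat_lit 5) (nat_lit 436) (nat_lit 5) (nat_lit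 417) (nat_lit 374) (nat_lit 349)) (XT.lf (nat_lit 0) (nat_lit 3652084999) (nat_lit 1596) (nat_lit 1987767447) (nat_lit 1672) (nat_lit 1642960334) (nat_lit 414) (nat_lit 5) (nat_lit 435) (nat_lit 5) (nat_lit 436) (nat_lit 5) (nat_lit 418) (nat_lit 374) (nat_lit 348)))) (XT.nd (nat_lit 156) (nat_lit 2356) (nat_lit 0) (XT.nd (nat_lit 78) (nat_lit 0) (nat_lit 0) (XT.lf (nat_lit 0) (nat_lit 916464852) (nat_lit 1672) (nat_lit 65456365) (nat_lit 1748) (nat_lit 6349469583) (nat_lit 391) (nat_lit 5) (nat_lit 413) (nat_lit 5) (nat_lit 414) (nat_lit 5) (nat_lit 419) (nat_lit 374) (nat_lit 347)) (XT.lf (nat_lit 0) (nat_lit 3623232066) (nat_lit 1748) (nat_lit 1849485591) (nat_lit 76) (nat_lit 1908328492) (nat_lit 391) (nat_lit 5) (nat_lit 414) (nat_lit 5) (nat_lit 392) (nat_lit 5) (nat_lit 420) (nat_lit 374) (nat_lit 346))) (XT.nd (nat_lit 78) (nat_lit 912) (nat_lit 0) (XT.lf (nat_lit 0) (nat_lit 2794955187) (nat_lit 1444)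 (nat_lit 3491071918) (nat_lit 1520) (nat_lit 1146335108) (nat_lit 372) (nat_lit 5) (nat_lit 391) (nat_lit 5) (nat_lit 392) (nat_lit 5) (nat_lit 421) (nat_lit 374) (nat_lit 345)) (XT.lf (nat_lit 0) (nat_lit 14240858) (nat_lit 836) (nat_lit 1446195619) (nat_lit 912) (nat_lit 6024850996) (nat_lit 360) (nat_lit 5) (nat_lit 371) (nat_lit 5) (nat_lit 372) (nat_lit 5) (nat_lit 422) (nat_lit 374) (nat_lit 344))))))) (XT.nd (nat_lit 1092) (nat_lit 6232) (nat_lit 0) (XT.nd (nat_lit 546) (nat_lit 3040) (nat_lit 0) (XT.nd (nat_lit 234) (nat_lit 2508) (nat_lit 0) (XT.nd (nat_lit 78) (nat_lit 988) (nat_lit 0) (XT.lf (nat_lit 0) (nat_lit 4090524447) (nat_lit 912) (nat_lit 2778425115) (nat_lit 76) (nat_lit 670477943) (nat_lit 360) (nat_lit 5) (nat_lit 372) (nat_lit 5) (nat_lit 361) (nat_lit 5) (nat_lit 423) (nat_lit 374) (nat_lit 343)) (XT.nd (nat_lit 78) (nat_lit 76) (nat_lit 0) (XT.lf (nat_lit 0) (nat_lit 1975747410) (nat_lit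 912) (nat_lit 4771870054) (nat_lit 988) (nat_lit 847582470) (nat_lit 348) (nat_lit 5) (nat_lit 360) (nat_lit 5) (nat_lit 361) (nat_lit 5) (nat_lit 424) (nat_lit 374) (nat_lit 342)) (XT.lf (nat_lit 0) (nat_lit 1753125080) (nat_lit 988) (nat_lit 849883640) (nat_lit 76) (nat_lit 5049459939) (nat_lit 347) (nat_lit 5) (nat_lit 360) (nat_lit 5) (nat_lit 348) (nat_lit 5) (nat_lit 425) (nat_lit 374) (nat_lit 341)))) (XT.nd (nat_lit 156) (nat_lit 836) (nat_lit 0) (XT.nd (nat_lit 78) (nat_lit 836) (nat_lit 0) (XT.lf (nat_lit 0) (nat_lit 4014082737) (nat_lit 836) (nat_lit 359698699) (nat_lit 912) (nat_lit 3337439090) (nat_lit 336) (nat_lit 5) (nat_lit 347) (nat_lit 5) (nat_lit 348) (nat_lit 5) (nat_lit 426) (nat_lit 374) (nat_lit 340)) (XT.lf (nat_lit 0) (nat_lit 1169942045) (nat_lit 836) (nat_lit 5856575627) (nat_lit 912) (nat_lit 745071216) (nat_lit 325) (nat_lit 5) (nat_lit 336) (nat_lit 5) (nat_lit 337) (nat_lit 5) (nat_lit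 427) (nat_lit 374) (nat_lit 339))) (XT.nd (nat_lit 78) (nat_lit 760) (nat_lit 0) (XT.lf (nat_lit 0) (nat_lit 1855657590) (nat_lit 912) (nat_lit 1712048665) (nat_lit 76) (nat_lit 4265616773) (nat_lit 324) (nat_lit 5) (nat_lit 336) (nat_lit 5) (nat_lit 325) (nat_lit 5) (nat_lit 428) (nat_lit 374) (nat_lit 338)) (XT.lf (nat_lit 0) (nat_lit 3265208997) (nat_lit 760) (nat_lit 1209390424) (nat_lit 836) (nat_lit 3422103221) (nat_lit 314) (nat_lit 5) (nat_lit 324) (nat_lit 5) (nat_lit 325) (nat_lit 5) (nat_lit 429) (nat_lit 374) (nat_lit 337))))) (XT.nd (nat_lit 234) (nat_lit 1520) (nat_lit 0) (XT.nd (nat_lit 78) (nat_lit 760) (nat_lit 0) (XT.lf (nat_lit 0) (nat_lit 352270799) (nat_lit 760) (nat_lit 6770785059) (nat_lit 836) (nat_lit 838783422) (nat_lit 304) (nat_lit 5) (nat_lit 314) (nat_lit 5) (nat_lit 315) (nat_lit 5) (nat_lit 430) (nat_lit 374) (nat_lit 336)) (XT.nd (nat_lit 78) (nat_lit 684) (nat_lit 0) (XT.lf (nat_lit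 0) (nat_lit 1767694686) (nat_lit 836) (nat_lit 2597948093) (nat_lit 76) (nat_lit 3662532536) (nat_lit 303) (nat_lit 5) (nat_lit 314) (nat_lit 5) (nat_lit 304) (nat_lit 5) (nat_lit 431) (nat_lit 374) (nat_lit 335)) (XT.lf (nat_lit 0) (nat_lit 2493100727) (nat_lit 684) (nat_lit 1894789882) (nat_lit 760) (nat_lit 3708410477) (nat_lit 294) (nat_lit 5) (nat_lit 303) (nat_lit 5) (nat_lit 304) (nat_lit 5) (nat_lit 432) (nat_lit 374) (nat_lit 334)))) (XT.nd (nat_lit 156) (nat_lit 684) (nat_lit 0) (XT.nd (nat_lit 78) (nat_lit 836) (nat_lit 0) (XT.lf (nat_lit 0) (nat_lit 7039232896) (nat_lit 760) (nat_lit 496917233) (nat_lit 76) (nat_lit 630094091) (nat_lit 294) (nat_lit 5) (nat_lit 304) (nat_lit 5) (nat_lit 295) (nat_lit 5) (nat_lit 433) (nat_lit 374) (nat_lit 333)) (XT.lf (nat_lit 0) (nat_lit 1487365389) (nat_lit 836) (nat_lit 3534155870) (nat_lit 76) (nat_lit 3215875915) (nat_lit 283) (nat_lit 5) (nat_lit 294) (nat_lit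 5) (nat_lit 284) (nat_lit 5) (nat_lit 434) (nat_lit 374) (nat_lit 332))) (XT.nd (nat_lit 78) (nat_lit 0) (nat_lit 0) (XT.lf (nat_lit 0) (nat_lit 1670853523) (nat_lit 684) (nat_lit 2440491779) (nat_lit 760) (nat_lit 4199058753) (nat_lit 274) (nat_lit 5) (nat_lit 283) (nat_lit 5) (nat_lit 284) (nat_lit 5) (nat_lit 435) (nat_lit 374) (nat_lit 331)) (XT.lf (nat_lit 0) (nat_lit 6771584143) (nat_lit 760) (nat_lit 1406237307) (nat_lit 76) (nat_lit 207401473) (nat_lit 274) (nat_lit 5) (nat_lit 284) (nat_lit 5) (nat_lit 275) (nat_lit 5) (nat_lit 436) (nat_lit 374) (nat_lit 330)))))) (XT.nd (nat_lit 546) (nat_lit 2888) (nat_lit 0) (XT.nd (nat_lit 234) (nat_lit 1976) (nat_lit 0) (XT.nd (nat_lit 78) (nat_lit 608) (nat_lit 0) (XT.lf (nat_lit 0) (nat_lit 1011127192) (nat_lit 760) (nat_lit 4548567227) (nat_lit 76) (nat_lit 2901715999) (nat_lit 264) (nat_lit 5) (nat_lit 274) (nat_lit 5) (nat_lit 265) (nat_lit 5) (nat_lit 437)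 (nat_lit 374) (nat_lit 329)) (XT.nd (nat_lit 78) (nat_lit 0) (nat_lit 0) (XT.lf (nat_lit 0) (nat_lit 770177949) (nat_lit 608) (nat_lit 2870790984) (nat_lit 684) (nat_lit 4898481520) (nat_lit 256) (nat_lit 5) (nat_lit 264) (nat_lit 5) (nat_lit 265) (nat_lit 5) (nat_lit 438) (nat_lit 374) (nat_lit 328)) (XT.lf (nat_lit 0) (nat_lit 6209659754) (nat_lit 608) (nat_lit 104422082) (nat_lit 684) (nat_lit 2305181313) (nat_lit 256) (nat_lit 5) (nat_lit 264) (nat_lit 5) (nat_lit 265) (nat_lit 5) (nat_lit 439) (nat_lit 374) (nat_lit 327)))) (XT.nd (nat_lit 156) (nat_lit 1216) (nat_lit 0) (XT.nd (nat_lit 78) (nat_lit 0) (nat_lit 0) (XT.lf (nat_lit 0) (nat_lit 333704369) (nat_lit 760) (nat_lit 5670669455) (nat_lit 76) (nat_lit 2696314920) (nat_lit 246) (nat_lit 5) (nat_lit 256) (nat_lit 5) (nat_lit 247) (nat_lit 5) (nat_lit 440) (nat_lit 374) (nat_lit 326)) (XT.lf (nat_lit 0) (nat_lit 2972566547) (nat_lit 760) (nat_lit 235744915)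 (nat_lit 76) (nat_lit 5575589224) (nat_lit 246) (nat_lit 5) (nat_lit 256) (nat_lit 5) (nat_lit 247) (nat_lit 5) (nat_lit 441) (nat_lit 374) (nat_lit 325))) (XT.nd (nat_lit 78) (nat_lit 608) (nat_lit 0) (XT.lf (nat_lit 0) (nat_lit 5331370615) (nat_lit 608) (nat_lit 329281501) (nat_lit 684) (nat_lit 3208219246) (nat_lit 238) (nat_lit 5) (nat_lit 246) (nat_lit 5) (nat_lit 247) (nat_lit 5) (nat_lit 442) (nat_lit 374) (nat_lit 324)) (XT.lf (nat_lit 0) (nat_lit 2020224131) (nat_lit 608) (nat_lit 6376138583) (nat_lit 684) (nat_lit 559324428) (nat_lit 230) (nat_lit 5) (nat_lit 238) (nat_lit 5) (nat_lit 239) (nat_lit 5) (nat_lit 443) (nat_lit 374) (nat_lit 323))))) (XT.nd (nat_lit 312) (nat_lit 1596) (nat_lit 0) (XT.nd (nat_lit 156) (nat_lit 684) (nat_lit 0) (XT.nd (nat_lit 78) (nat_lit 532) (nat_lit 0) (XT.lf (nat_lit 0) (nat_lit 2102919521) (nat_lit 684) (nat_lit 1370018262) (nat_lit 76) (nat_lit 5571275879) (nat_lit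 229) (nat_lit 5) (nat_lit 238) (nat_lit 5) (nat_lit 230) (nat_lit 5) (nat_lit 444) (nat_lit 374) (nat_lit 322)) (XT.lf (nat_lit 0) (nat_lit 4313465542) (nat_lit 532) (nat_lit 488598460) (nat_lit 608) (nat_lit 4332571503) (nat_lit 222) (nat_lit 5) (nat_lit 229) (nat_lit 5) (nat_lit 230) (nat_lit 5) (nat_lit 445) (nat_lit 374) (nat_lit 321))) (XT.nd (nat_lit 78) (nat_lit 76) (nat_lit 0) (XT.lf (nat_lit 0) (nat_lit 850486812) (nat_lit 608) (nat_lit 6699568910) (nat_lit 684) (nat_lit 1676933984) (nat_lit 214) (nat_lit 5) (nat_lit 222) (nat_lit 5) (nat_lit 223) (nat_lit 5) (nat_lit 446) (nat_lit 374) (nat_lit 320)) (XT.lf (nat_lit 0) (nat_lit 1017739059) (nat_lit 684) (nat_lit 2676484708) (nat_lit 76) (nat_lit 5626864521) (nat_lit 213) (nat_lit 5) (nat_lit 222) (nat_lit 5) (nat_lit 214) (nat_lit 5) (nat_lit 447) (nat_lit 374) (nat_lit 319)))) (XT.nd (nat_lit 156) (nat_lit 1064) (nat_lit 0) (XT.nd (nat_lit 78) (nat_lit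 0) (nat_lit 0) (XT.lf (nat_lit 0) (nat_lit 3121563801) (nat_lit 532) (nat_lit 606941198) (nat_lit 608) (nat_lit 5688669065) (nat_lit 206) (nat_lit 5) (nat_lit 213) (nat_lit 5) (nat_lit 214) (nat_lit 5) (nat_lit 448) (nat_lit 374) (nat_lit 318)) (XT.lf (nat_lit 0) (nat_lit 6492772661) (nat_lit 608) (nat_lit 505753043) (nat_lit 76) (nat_lit 2516689717) (nat_lit 206) (nat_lit 5) (nat_lit 214) (nat_lit 5) (nat_lit 207) (nat_lit 5) (nat_lit 449) (nat_lit 374) (nat_lit 317))) (XT.nd (nat_lit 78) (nat_lit 532) (nat_lit 0) (XT.lf (nat_lit 0) (nat_lit 5421733386) (nat_lit 532) (nat_lit 3895207298) (nat_lit 608) (nat_lit 298203830) (nat_lit 199) (nat_lit 5) (nat_lit 206) (nat_lit 5) (nat_lit 207) (nat_lit 5) (nat_lit 450) (nat_lit 374) (nat_lit 316)) (XT.lf (nat_lit 0) (nat_lit 1718598708) (nat_lit 456) (nat_lit 709498822) (nat_lit 532) (nat_lit 7289068817) (nat_lit 192) (nat_lit 5) (nat_lit 198) (nat_lit 5) (nat_lit 199)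 (nat_lit 5) (nat_lit 451) (nat_lit 374) (nat_lit 315))))))))
noncomputable def xc87 : XT := (XT.nd (nat_lit 2184) (nat_lit 3724) (nat_lit 0) (XT.nd (nat_lit 1092) (nat_lit 2964) (nat_lit 0) (XT.nd (nat_lit 546) (nat_lit 1824) (nat_lit 0) (XT.nd (nat_lit 234) (nat_lit 988) (nat_lit 0) (XT.nd (nat_lit 78) (nat_lit 1064) (nat_lit 0) (XT.lf (nat_lit 0) (nat_lit 5215599377) (nat_lit 532) (nat_lit 2079389644) (nat_lit 76) (nat_lit 2526004928) (nat_lit 192) (nat_lit 5) (nat_lit 199) (nat_lit 5) (nat_lit 193) (nat_lit 5) (nat_lit 452) (nat_lit 374) (nat_lit 314)) (XT.nd (nat_lit 78) (nat_lit 532) (nat_lit 0) (XT.lf (nat_lit 0) (nat_lit 3960550624) (nat_lit 532) (nat_lit 4095229952) (nat_lit 608) (nat_lit 1871196686) (nat_lit 185) (nat_lit 5) (nat_lit 192) (nat_lit 5) (nat_lit 193) (nat_lit 5) (nat_lit 453) (nat_lit 374) (nat_lit 313)) (XT.lf (nat_lit 0) (nat_lit 64438612) (nat_lit 456) (nat_lit 822322329) (nat_lit 532)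 (nat_lit 9148594966) (nat_lit 178) (nat_lit 5) (nat_lit 184) (nat_lit 5) (nat_lit 185) (nat_lit 5) (nat_lit 454) (nat_lit 374) (nat_lit 312)))) (XT.nd (nat_lit 156) (nat_lit 532) (nat_lit 0) (XT.nd (nat_lit 78) (nat_lit 456) (nat_lit 0) (XT.lf (nat_lit 0) (nat_lit 3698418741) (nat_lit 532) (nat_lit 3922631810) (nat_lit 76) (nat_lit 2524148999) (nat_lit 178) (nat_lit 5) (nat_lit 185) (nat_lit 5) (nat_lit 179) (nat_lit 5) (nat_lit 455) (nat_lit 374) (nat_lit 311)) (XT.lf (nat_lit 0) (nat_lit 2225920727) (nat_lit 456) (nat_lit 4327869400) (nat_lit 532) (nat_lit 3703716725) (nat_lit 172) (nat_lit 5) (nat_lit 178) (nat_lit 5) (nat_lit 179) (nat_lit 5) (nat_lit 456) (nat_lit 374) (nat_lit 310))) (XT.nd (nat_lit 78) (nat_lit 532) (nat_lit 0) (XT.lf (nat_lit 0) (nat_lit 8506462865) (nat_lit 456) (nat_lit 954060396) (nat_lit 532) (nat_lit 911668024) (nat_lit 172) (nat_lit 5) (nat_lit 178) (nat_lit 5) (nat_lit 179) (nat_lit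 5) (nat_lit 457) (nat_lit 374) (nat_lit 309)) (XT.lf (nat_lit 0) (nat_lit 1924239375) (nat_lit 532) (nat_lit 6080147913) (nat_lit 76) (nat_lit 2484277913) (nat_lit 165) (nat_lit 5) (nat_lit 172) (nat_lit 5) (nat_lit 166) (nat_lit 5) (nat_lit 458) (nat_lit 374) (nat_lit 308))))) (XT.nd (nat_lit 234) (nat_lit 988) (nat_lit 0) (XT.nd (nat_lit 78) (nat_lit 380) (nat_lit 0) (XT.lf (nat_lit 0) (nat_lit 172139483) (nat_lit 456) (nat_lit 4621165101) (nat_lit 532) (nat_lit 5814285697) (nat_lit 159) (nat_lit 5) (nat_lit 165) (nat_lit 5) (nat_lit 166) (nat_lit 5) (nat_lit 459) (nat_lit 374) (nat_lit 307)) (XT.nd (nat_lit 78) (nat_lit 380) (nat_lit 0) (XT.lf (nat_lit 0) (nat_lit 6588180523) (nat_lit 456) (nat_lit 1141300154) (nat_lit 532) (nat_lit 2999233445) (nat_lit 159) (nat_lit 5) (nat_lit 165) (nat_lit 5) (nat_lit 166) (nat_lit 5) (nat_lit 460) (nat_lit 374) (nat_lit 306)) (XT.lf (nat_lit 0) (nat_lit 2250769402) (nat_lit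 380) (nat_lit 8473317142) (nat_lit 456) (nat_lit 128194328) (nat_lit 154) (nat_lit 5) (nat_lit 159) (nat_lit 5) (nat_lit 160) (nat_lit 5) (nat_lit 461) (nat_lit 374) (nat_lit 305)))) (XT.nd (nat_lit 156) (nat_lit 456) (nat_lit 0) (XT.nd (nat_lit 78) (nat_lit 456) (nat_lit 0) (XT.lf (nat_lit 0) (nat_lit 2768629136) (nat_lit 456) (nat_lit 2221191633) (nat_lit 76) (nat_lit 5988046767) (nat_lit 153) (nat_lit 5) (nat_lit 159) (nat_lit 5) (nat_lit 154) (nat_lit 5) (nat_lit 462) (nat_lit 374) (nat_lit 304)) (XT.lf (nat_lit 0) (nat_lit 4299599778) (nat_lit 456) (nat_lit 1420149157) (nat_lit 532) (nat_lit 5386252241) (nat_lit 147) (nat_lit 5) (nat_lit 153) (nat_lit 5) (nat_lit 154) (nat_lit 5) (nat_lit 463) (nat_lit 374) (nat_lit 303))) (XT.nd (nat_lit 78) (nat_lit 456) (nat_lit 0) (XT.lf (nat_lit 0) (nat_lit 8729700135) (nat_lit 532) (nat_lit 312917567) (nat_lit 76) (nat_lit 2194097058) (nat_lit 147) (nat_lit 5) (nat_lit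 154) (nat_lit 5) (nat_lit 148) (nat_lit 5) (nat_lit 464) (nat_lit 374) (nat_lit 302)) (XT.lf (nat_lit 0) (nat_lit 445848686) (nat_lit 456) (nat_lit 5030423015) (nat_lit 76) (nat_lit 5893294470) (nat_lit 141) (nat_lit 5) (nat_lit 147) (nat_lit 5) (nat_lit 142) (nat_lit 5) (nat_lit 465) (nat_lit 374) (nat_lit 301)))))) (XT.nd (nat_lit 546) (nat_lit 1444) (nat_lit 0) (XT.nd (nat_lit 234) (nat_lit 760) (nat_lit 0) (XT.nd (nat_lit 78) (nat_lit 380) (nat_lit 0) (XT.lf (nat_lit 0) (nat_lit 1585436146) (nat_lit 380) (nat_lit 1822263828) (nat_lit 456) (nat_lit 8097385891) (nat_lit 136) (nat_lit 5) (nat_lit 141) (nat_lit 5) (nat_lit 142) (nat_lit 5) (nat_lit 466) (nat_lit 374) (nat_lit 300)) (XT.nd (nat_lit 78) (nat_lit 380) (nat_lit 0) (XT.lf (nat_lit 0) (nat_lit 6446405921) (nat_lit 456) (nat_lit 3295846726) (nat_lit 76) (nat_lit 1900723378) (nat_lit 136) (nat_lit 5) (nat_lit 142) (nat_lit 5) (nat_lit 137) (nat_lit 5)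 (nat_lit 467) (nat_lit 374) (nat_lit 299)) (XT.lf (nat_lit 0) (nat_lit 3452054182) (nat_lit 380) (nat_lit 6100146045) (nat_lit 456) (nat_lit 2231309658) (nat_lit 131) (nat_lit 5) (nat_lit 136) (nat_lit 5) (nat_lit 137) (nat_lit 5) (nat_lit 468) (nat_lit 374) (nat_lit 298)))) (XT.nd (nat_lit 156) (nat_lit 304) (nat_lit 0) (XT.nd (nat_lit 78) (nat_lit 380) (nat_lit 0) (XT.lf (nat_lit 0) (nat_lit 777036514) (nat_lit 456) (nat_lit 1593815486) (nat_lit 76) (nat_lit 9556027442) (nat_lit 130) (nat_lit 5) (nat_lit 136) (nat_lit 5) (nat_lit 131) (nat_lit 5) (nat_lit 469) (nat_lit 374) (nat_lit 297)) (XT.lf (nat_lit 0) (nat_lit 3832075992) (nat_lit 456) (nat_lit 6789906246) (nat_lit 76) (nat_lit 1450522577) (nat_lit 125) (nat_lit 5) (nat_lit 131) (nat_lit 5) (nat_lit 126) (nat_lit 5) (nat_lit 470) (nat_lit 374) (nat_lit 296))) (XT.nd (nat_lit 78) (nat_lit 0) (nat_lit 0) (XT.lf (nat_lit 0) (nat_lit 41003792) (nat_lit 304)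 (nat_lit 6906606709) (nat_lit 380) (nat_lit 5273455566) (nat_lit 121) (nat_lit 5) (nat_lit 125) (nat_lit 5) (nat_lit 126) (nat_lit 5) (nat_lit 471) (nat_lit 374) (nat_lit 295)) (XT.lf (nat_lit 0) (nat_lit 7059762406) (nat_lit 304) (nat_lit 3084189083) (nat_lit 380) (nat_lit 2228288172) (nat_lit 121) (nat_lit 5) (nat_lit 125) (nat_lit 5) (nat_lit 126) (nat_lit 5) (nat_lit 472) (nat_lit 374) (nat_lit 294))))) (XT.nd (nat_lit 234) (nat_lit 684) (nat_lit 0) (XT.nd (nat_lit 78) (nat_lit 304) (nat_lit 0) (XT.lf (nat_lit 0) (nat_lit 855688321) (nat_lit 456) (nat_lit 10863695714) (nat_lit 76) (nat_lit 807160953) (nat_lit 115) (nat_lit 5) (nat_lit 121) (nat_lit 5) (nat_lit 116) (nat_lit 5) (nat_lit 473) (nat_lit 374) (nat_lit 293)) (XT.nd (nat_lit 78) (nat_lit 304) (nat_lit 0) (XT.lf (nat_lit 0) (nat_lit 4001297400) (nat_lit 456) (nat_lit 3909506664) (nat_lit 76) (nat_lit 4772252379) (nat_lit 115) (nat_lit 5) (nat_lit 121)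 (nat_lit 5) (nat_lit 116) (nat_lit 5) (nat_lit 474) (nat_lit 374) (nat_lit 292)) (XT.lf (nat_lit 0) (nat_lit 3185784042) (nat_lit 304) (nat_lit 4018690645) (nat_lit 380) (nat_lit 5638340513) (nat_lit 111) (nat_lit 5) (nat_lit 115) (nat_lit 5) (nat_lit 116) (nat_lit 5) (nat_lit 475) (nat_lit 374) (nat_lit 291)))) (XT.nd (nat_lit 156) (nat_lit 304) (nat_lit 0) (XT.nd (nat_lit 78) (nat_lit 380) (nat_lit 0) (XT.lf (nat_lit 0) (nat_lit 10436472308) (nat_lit 304) (nat_lit 35703743) (nat_lit 380) (nat_lit 2533593863) (nat_lit 111) (nat_lit 5) (nat_lit 115) (nat_lit 5) (nat_lit 116) (nat_lit 5) (nat_lit 476) (nat_lit 374) (nat_lit 290)) (XT.lf (nat_lit 0) (nat_lit 656157110) (nat_lit 380) (nat_lit 8519737153) (nat_lit 76) (nat_lit 3995392545) (nat_lit 106) (nat_lit 5) (nat_lit 111) (nat_lit 5) (nat_lit 107) (nat_lit 5) (nat_lit 477) (nat_lit 374) (nat_lit 289))) (XT.nd (nat_lit 78) (nat_lit 304) (nat_lit 0) (XT.lf (nat_lit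 0) (nat_lit 3868114487) (nat_lit 380) (nat_lit 1344500987) (nat_lit 76) (nat_lit 8127326317) (nat_lit 106) (nat_lit 5) (nat_lit 111) (nat_lit 5) (nat_lit 107) (nat_lit 5) (nat_lit 478) (nat_lit 374) (nat_lit 288)) (XT.lf (nat_lit 0) (nat_lit 6014648842) (nat_lit 304) (nat_lit 1143921615) (nat_lit 380) (nat_lit 6353123460) (nat_lit 102) (nat_lit 5) (nat_lit 106) (nat_lit 5) (nat_lit 107) (nat_lit 5) (nat_lit 479) (nat_lit 374) (nat_lit 287))))))) (XT.nd (nat_lit 1092) (nat_lit 1672) (nat_lit 0) (XT.nd (nat_lit 546) (nat_lit 836) (nat_lit 0) (XT.nd (nat_lit 234) (nat_lit 608) (nat_lit 0) (XT.nd (nat_lit 78) (nat_lit 608) (nat_lit 0) (XT.lf (nat_lit 0) (nat_lit 10518793076) (nat_lit 380) (nat_lit 205704078) (nat_lit 76) (nat_lit 2962313833) (nat_lit 102) (nat_lit 5) (nat_lit 107) (nat_lit 5) (nat_lit 103) (nat_lit 5) (nat_lit 480) (nat_lit 374) (nat_lit 286)) (XT.nd (nat_lit 78) (nat_lit 228) (nat_lit 0) (XT.lf (nat_lit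 0) (nat_lit 110617479) (nat_lit 380) (nat_lit 6584041760) (nat_lit 76) (nat_lit 7170151622) (nat_lit 97) (nat_lit 5) (nat_lit 102) (nat_lit 5) (nat_lit 98) (nat_lit 5) (nat_lit 481) (nat_lit 374) (nat_lit 285)) (XT.lf (nat_lit 0) (nat_lit 825296905) (nat_lit 228) (nat_lit 2569799581) (nat_lit 304) (nat_lit 10651210151) (nat_lit 94) (nat_lit 5) (nat_lit 97) (nat_lit 5) (nat_lit 98) (nat_lit 5) (nat_lit 482) (nat_lit 374) (nat_lit 284)))) (XT.nd (nat_lit 156) (nat_lit 304) (nat_lit 0) (XT.nd (nat_lit 78) (nat_lit 304) (nat_lit 0) (XT.lf (nat_lit 0) (nat_lit 6776413132) (nat_lit 304) (nat_lit 5807503451) (nat_lit 76) (nat_lit 1646901146) (nat_lit 94) (nat_lit 5) (nat_lit 98) (nat_lit 5) (nat_lit 95) (nat_lit 5) (nat_lit 483) (nat_lit 374) (nat_lit 283)) (XT.lf (nat_lit 0) (nat_lit 1722491449) (nat_lit 304) (nat_lit 8507577511) (nat_lit 380) (nat_lit 4188864024) (nat_lit 90) (nat_lit 5) (nat_lit 94) (nat_lit 5) (nat_lit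 95) (nat_lit 5) (nat_lit 484) (nat_lit 374) (nat_lit 282))) (XT.nd (nat_lit 78) (nat_lit 304) (nat_lit 0) (XT.lf (nat_lit 0) (nat_lit 9444700481) (nat_lit 304) (nat_lit 4323799224) (nat_lit 380) (nat_lit 842004840) (nat_lit 90) (nat_lit 5) (nat_lit 94) (nat_lit 5) (nat_lit 95) (nat_lit 5) (nat_lit 485) (nat_lit 374) (nat_lit 281)) (XT.lf (nat_lit 0) (nat_lit 2494774385) (nat_lit 228) (nat_lit 36513167) (nat_lit 304) (nat_lit 12274429244) (nat_lit 86) (nat_lit 5) (nat_lit 89) (nat_lit 5) (nat_lit 90) (nat_lit 5) (nat_lit 486) (nat_lit 374) (nat_lit 280))))) (XT.nd (nat_lit 234) (nat_lit 532) (nat_lit 0) (XT.nd (nat_lit 78) (nat_lit 304) (nat_lit 0) (XT.lf (nat_lit 0) (nat_lit 6000984940) (nat_lit 304) (nat_lit 4696338906) (nat_lit 76) (nat_lit 4306601435) (nat_lit 86) (nat_lit 5) (nat_lit 90) (nat_lit 5) (nat_lit 87) (nat_lit 5) (nat_lit 487) (nat_lit 374) (nat_lit 279)) (XT.nd (nat_lit 78) (nat_lit 0) (nat_lit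 0) (XT.lf (nat_lit 0) (nat_lit 3074534163) (nat_lit 304) (nat_lit 6463346484) (nat_lit 380) (nat_lit 5668268627) (nat_lit 82) (nat_lit 5) (nat_lit 86) (nat_lit 5) (nat_lit 87) (nat_lit 5) (nat_lit 488) (nat_lit 374) (nat_lit 278)) (XT.lf (nat_lit 0) (nat_lit 11028618564) (nat_lit 304) (nat_lit 2126217594) (nat_lit 380) (nat_lit 2257402430) (nat_lit 82) (nat_lit 5) (nat_lit 86) (nat_lit 5) (nat_lit 87) (nat_lit 5) (nat_lit 489) (nat_lit 374) (nat_lit 277)))) (XT.nd (nat_lit 156) (nat_lit 228) (nat_lit 0) (XT.nd (nat_lit 78) (nat_lit 0) (nat_lit 0) (XT.lf (nat_lit 0) (nat_lit 1221651443) (nat_lit 304) (nat_lit 12115177442) (nat_lit 76) (nat_lit 2285149303) (nat_lit 78) (nat_lit 5) (nat_lit 82) (nat_lit 5) (nat_lit 79) (nat_lit 5) (nat_lit 490) (nat_lit 374) (nat_lit 276)) (XT.lf (nat_lit 0) (nat_lit 4761984244) (nat_lit 304) (nat_lit 4285679684) (nat_lit 76) (nat_lit 6787518594) (nat_lit 78) (nat_lit 5) (nat_lit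 82) (nat_lit 5) (nat_lit 79) (nat_lit 5) (nat_lit 491) (nat_lit 374) (nat_lit 275))) (XT.nd (nat_lit 78) (nat_lit 0) (nat_lit 0) (XT.lf (nat_lit 0) (nat_lit 3714237507) (nat_lit 228) (nat_lit 4661632950) (nat_lit 304) (nat_lit 7676732276) (nat_lit 75) (nat_lit 5) (nat_lit 78) (nat_lit 5) (nat_lit 79) (nat_lit 5) (nat_lit 492) (nat_lit 374) (nat_lit 274)) (XT.lf (nat_lit 0) (nat_lit 11897592640) (nat_lit 228) (nat_lit 172026378) (nat_lit 304) (nat_lit 4204607230) (nat_lit 75) (nat_lit 5) (nat_lit 78) (nat_lit 5) (nat_lit 79) (nat_lit 5) (nat_lit 493) (nat_lit 374) (nat_lit 273)))))) (XT.nd (nat_lit 546) (nat_lit 608) (nat_lit 0) (XT.nd (nat_lit 234) (nat_lit 532) (nat_lit 0) (XT.nd (nat_lit 78) (nat_lit 304) (nat_lit 0) (XT.lf (nat_lit 0) (nat_lit 3730330735) (nat_lit 228) (nat_lit 12138902026) (nat_lit 304) (nat_lit 630416133) (nat_lit 72) (nat_lit 5) (nat_lit 75) (nat_lit 5) (nat_lit 76) (nat_lit 5) (nat_lit 494)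 (nat_lit 374) (nat_lit 272)) (XT.nd (nat_lit 78) (nat_lit 228) (nat_lit 0) (XT.lf (nat_lit 0) (nat_lit 2985615599) (nat_lit 304) (nat_lit 4725509822) (nat_lit 76) (nat_lit 9017871194) (nat_lit 71) (nat_lit 5) (nat_lit 75) (nat_lit 5) (nat_lit 72) (nat_lit 5) (nat_lit 495) (nat_lit 374) (nat_lit 271)) (XT.lf (nat_lit 0) (nat_lit 3487039559) (nat_lit 228) (nat_lit 3180742271) (nat_lit 304) (nat_lit 10295027109) (nat_lit 68) (nat_lit 5) (nat_lit 71) (nat_lit 5) (nat_lit 72) (nat_lit 5) (nat_lit 496) (nat_lit 374) (nat_lit 270)))) (XT.nd (nat_lit 156) (nat_lit 304) (nat_lit 0) (XT.nd (nat_lit 78) (nat_lit 228) (nat_lit 0) (XT.lf (nat_lit 0) (nat_lit 10444566609) (nat_lit 304) (nat_lit 5316124636) (nat_lit 76) (nat_lit 1440192731) (nat_lit 68) (nat_lit 5) (nat_lit 72) (nat_lit 5) (nat_lit 69) (nat_lit 5) (nat_lit 497) (nat_lit 374) (nat_lit 269)) (XT.lf (nat_lit 0) (nat_lit 2991752778) (nat_lit 228) (nat_lit 11325724748)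 (nat_lit 304) (nat_lit 3125837033) (nat_lit 65) (nat_lit 5) (nat_lit 68) (nat_lit 5) (nat_lit 69) (nat_lit 5) (nat_lit 498) (nat_lit 374) (nat_lit 268))) (XT.nd (nat_lit 78) (nat_lit 228) (nat_lit 0) (XT.lf (nat_lit 0) (nat_lit 585734044) (nat_lit 304) (nat_lit 6189199861) (nat_lit 76) (nat_lit 10915269480) (nat_lit 64) (nat_lit 5) (nat_lit 68) (nat_lit 5) (nat_lit 65) (nat_lit 5) (nat_lit 499) (nat_lit 374) (nat_lit 267)) (XT.lf (nat_lit 0) (nat_lit 2214214251) (nat_lit 228) (nat_lit 2110413654) (nat_lit 304) (nat_lit 13617095439) (nat_lit 61) (nat_lit 5) (nat_lit 64) (nat_lit 5) (nat_lit 65) (nat_lit 5) (nat_lit 500) (nat_lit 374) (nat_lit 266))))) (XT.nd (nat_lit 312) (nat_lit 380) (nat_lit 0) (XT.nd (nat_lit 156) (nat_lit 76) (nat_lit 0) (XT.nd (nat_lit 78) (nat_lit 152) (nat_lit 0) (XT.lf (nat_lit 0) (nat_lit 8177914537) (nat_lit 304) (nat_lit 7377940589) (nat_lit 76) (nat_lit 2641631685) (nat_lit 61) (nat_lit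 5) (nat_lit 65) (nat_lit 5) (nat_lit 62) (nat_lit 5) (nat_lit 501) (nat_lit 374) (nat_lit 265)) (XT.lf (nat_lit 0) (nat_lit 1107176884) (nat_lit 152) (nat_lit 11003253220) (nat_lit 228) (nat_lit 6347897484) (nat_lit 59) (nat_lit 5) (nat_lit 61) (nat_lit 5) (nat_lit 62) (nat_lit 5) (nat_lit 502) (nat_lit 374) (nat_lit 264))) (XT.nd (nat_lit 78) (nat_lit 76) (nat_lit 0) (XT.lf (nat_lit 0) (nat_lit 9830230099) (nat_lit 152) (nat_lit 6322040440) (nat_lit 228) (nat_lit 2571506348) (nat_lit 59) (nat_lit 5) (nat_lit 61) (nat_lit 5) (nat_lit 62) (nat_lit 5) (nat_lit 503) (nat_lit 374) (nat_lit 263)) (XT.lf (nat_lit 0) (nat_lit 1245026460) (nat_lit 228) (nat_lit 306509638) (nat_lit 76) (nat_lit 17443209672) (nat_lit 58) (nat_lit 5) (nat_lit 61) (nat_lit 5) (nat_lit 59) (nat_lit 5) (nat_lit 504) (nat_lit 374) (nat_lit 262)))) (XT.nd (nat_lit 156) (nat_lit 152) (nat_lit 0) (XT.nd (nat_lit 78) (nat_lit 0) (nat_lit 0) (XT.lf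 (nat_lit 0) (nat_lit 5162469875) (nat_lit 304) (nat_lit 10775834255) (nat_lit 76) (nat_lit 3331314598) (nat_lit 55) (nat_lit 5) (nat_lit 59) (nat_lit 5) (nat_lit 56) (nat_lit 5) (nat_lit 505) (nat_lit 374) (nat_lit 261)) (XT.lf (nat_lit 0) (nat_lit 9152456523) (nat_lit 304) (nat_lit 2116869544) (nat_lit 76) (nat_lit 8280783993) (nat_lit 55) (nat_lit 5) (nat_lit 59) (nat_lit 5) (nat_lit 56) (nat_lit 5) (nat_lit 506) (nat_lit 374) (nat_lit 260))) (XT.nd (nat_lit 78) (nat_lit 0) (nat_lit 0) (XT.lf (nat_lit 0) (nat_lit 6773847901) (nat_lit 152) (nat_lit 6474580050) (nat_lit 228) (nat_lit 6587264276) (nat_lit 53) (nat_lit 5) (nat_lit 55) (nat_lit 5) (nat_lit 56) (nat_lit 5) (nat_lit 507) (nat_lit 374) (nat_lit 259)) (XT.lf (nat_lit 0) (nat_lit 15841006752) (nat_lit 152) (nat_lit 1581875807) (nat_lit 228) (nat_lit 2704176820) (nat_lit 53) (nat_lit 5) (nat_lit 55) (nat_lit 5) (nat_lit 56) (nat_lit 5) (nat_lit 508) (nat_lit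 374) (nat_lit 258))))))))
noncomputable def xc88 : XT := (XT.nd (nat_lit 50622) (nat_lit 0) (nat_lit 24168) (XT.nd (nat_lit 1092) (nat_lit 532) (nat_lit 0) (XT.nd (nat_lit 546) (nat_lit 532) (nat_lit 0) (XT.nd (nat_lit 234) (nat_lit 304) (nat_lit 0) (XT.nd (nat_lit 78) (nat_lit 152) (nat_lit 0) (XT.lf (nat_lit 0) (nat_lit 1275428078) (nat_lit 304) (nat_lit 15757263877) (nat_lit 76) (nat_lit 3390696468) (nat_lit 49) (nat_lit 5) (nat_lit 53) (nat_lit 5) (nat_lit 50) (nat_lit 5) (nat_lit 509) (nat_lit 374) (nat_lit 257)) (XT.nd (nat_lit 78) (nat_lit 152) (nat_lit 0) (XT.lf (nat_lit 0) (nat_lit 5320533735) (nat_lit 304) (nat_lit 6927988484) (nat_lit 76) (nat_lit 8476326336) (nat_lit 49) (nat_lit 5) (nat_lit 53) (nat_lit 5) (nat_lit 50) (nat_lit 5) (nat_lit 510) (nat_lit 374) (nat_lit 256)) (XT.lf (nat_lit 0) (nat_lit 2075893647) (nat_lit 152) (nat_lit 7367121622) (nat_lit 228) (nat_lit 11589397410) (nat_lit 47) (nat_lit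 5) (nat_lit 49) (nat_lit 5) (nat_lit 50) (nat_lit 5) (nat_lit 511) (nat_lit 374) (nat_lit 255)))) (XT.nd (nat_lit 156) (nat_lit 304) (nat_lit 0) (XT.nd (nat_lit 78) (nat_lit 0) (nat_lit 0) (XT.lf (nat_lit 0) (nat_lit 11324751777) (nat_lit 152) (nat_lit 2352825841) (nat_lit 228) (nat_lit 7667962025) (nat_lit 47) (nat_lit 5) (nat_lit 49) (nat_lit 5) (nat_lit 50) (nat_lit 5) (nat_lit 512) (nat_lit 374) (nat_lit 254)) (XT.lf (nat_lit 0) (nat_lit 17998156316) (nat_lit 228) (nat_lit 952974025) (nat_lit 76) (nat_lit 2713776403) (nat_lit 47) (nat_lit 5) (nat_lit 50) (nat_lit 5) (nat_lit 48) (nat_lit 5) (nat_lit 513) (nat_lit 374) (nat_lit 253))) (XT.nd (nat_lit 78) (nat_lit 0) (nat_lit 0) (XT.lf (nat_lit 0) (nat_lit 462994104) (nat_lit 304) (nat_lit 13630491846) (nat_lit 76) (nat_lit 7896046458) (nat_lit 43) (nat_lit 5) (nat_lit 47) (nat_lit 5) (nat_lit 44) (nat_lit 5) (nat_lit 514) (nat_lit 374) (nat_lit 252)) (XT.lf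 (nat_lit 0) (nat_lit 4616465444) (nat_lit 304) (nat_lit 4502807678) (nat_lit 76) (nat_lit 13201091989) (nat_lit 43) (nat_lit 5) (nat_lit 47) (nat_lit 5) (nat_lit 44) (nat_lit 5) (nat_lit 515) (nat_lit 374) (nat_lit 251))))) (XT.nd (nat_lit 234) (nat_lit 228) (nat_lit 0) (XT.nd (nat_lit 78) (nat_lit 152) (nat_lit 0) (XT.lf (nat_lit 0) (nat_lit 4843330956) (nat_lit 152) (nat_lit 4025186569) (nat_lit 228) (nat_lit 13788990504) (nat_lit 41) (nat_lit 5) (nat_lit 43) (nat_lit 5) (nat_lit 44) (nat_lit 5) (nat_lit 516) (nat_lit 374) (nat_lit 250)) (XT.nd (nat_lit 78) (nat_lit 152) (nat_lit 0) (XT.lf (nat_lit 0) (nat_lit 13227752389) (nat_lit 228) (nat_lit 8598844794) (nat_lit 76) (nat_lit 1174357501) (nat_lit 41) (nat_lit 5) (nat_lit 44) (nat_lit 5) (nat_lit 42) (nat_lit 5) (nat_lit 517) (nat_lit 374) (nat_lit 249)) (XT.lf (nat_lit 0) (nat_lit 756924446) (nat_lit 152) (nat_lit 16933254050) (nat_lit 228) (nat_lit 5660775284)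 (nat_lit 39) (nat_lit 5) (nat_lit 41) (nat_lit 5) (nat_lit 42) (nat_lit 5) (nat_lit 518) (nat_lit 374) (nat_lit 248)))) (XT.nd (nat_lit 156) (nat_lit 152) (nat_lit 0) (XT.nd (nat_lit 78) (nat_lit 76) (nat_lit 0) (XT.lf (nat_lit 0) (nat_lit 10389407208) (nat_lit 152) (nat_lit 11894714058) (nat_lit 228) (nat_lit 1422989797) (nat_lit 39) (nat_lit 5) (nat_lit 41) (nat_lit 5) (nat_lit 42) (nat_lit 5) (nat_lit 519) (nat_lit 374) (nat_lit 247)) (XT.lf (nat_lit 0) (nat_lit 2846287603) (nat_lit 228) (nat_lit 3901316394) (nat_lit 76) (nat_lit 17322719123) (nat_lit 38) (nat_lit 5) (nat_lit 41) (nat_lit 5) (nat_lit 39) (nat_lit 5) (nat_lit 520) (nat_lit 374) (nat_lit 246))) (XT.nd (nat_lit 78) (nat_lit 0) (nat_lit 0) (XT.lf (nat_lit 0) (nat_lit 5743181514) (nat_lit 152) (nat_lit 1461084639) (nat_lit 228) (nat_lit 17235901119) (nat_lit 36) (nat_lit 5) (nat_lit 38) (nat_lit 5) (nat_lit 39) (nat_lit 5) (nat_lit 521) (nat_lit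 374) (nat_lit 245)) (XT.lf (nat_lit 0) (nat_lit 11686396506) (nat_lit 228) (nat_lit 9235300906) (nat_lit 76) (nat_lit 3894974349) (nat_lit 36) (nat_lit 5) (nat_lit 39) (nat_lit 5) (nat_lit 37) (nat_lit 5) (nat_lit 522) (nat_lit 374) (nat_lit 244)))))) (XT.nd (nat_lit 48984) (nat_lit 0) (nat_lit 44688) (XT.nd (nat_lit 234) (nat_lit 380) (nat_lit 0) (XT.nd (nat_lit 78) (nat_lit 0) (nat_lit 0) (XT.lf (nat_lit 0) (nat_lit 385336680) (nat_lit 152) (nat_lit 15870417795) (nat_lit 228) (nat_lit 8945003395) (nat_lit 34) (nat_lit 5) (nat_lit 36) (nat_lit 5) (nat_lit 37) (nat_lit 5) (nat_lit 523) (nat_lit 374) (nat_lit 243)) (XT.nd (nat_lit 78) (nat_lit 0) (nat_lit 0) (XT.lf (nat_lit 0) (nat_lit 10298084095) (nat_lit 152) (nat_lit 10665916972) (nat_lit 228) (nat_lit 4627577775) (nat_lit 34) (nat_lit 5) (nat_lit 36) (nat_lit 5) (nat_lit 37) (nat_lit 5) (nat_lit 524) (nat_lit 374) (nat_lit 242)) (XT.lf (nat_lit 0) (nat_lit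 20384096401) (nat_lit 152) (nat_lit 5368127691) (nat_lit 228) (nat_lit 238279018) (nat_lit 34) (nat_lit 5) (nat_lit 36) (nat_lit 5) (nat_lit 37) (nat_lit 5) (nat_lit 525) (nat_lit 374) (nat_lit 241)))) (XT.nd (nat_lit 156) (nat_lit 152) (nat_lit 0) (XT.nd (nat_lit 78) (nat_lit 0) (nat_lit 0) (XT.lf (nat_lit 0) (nat_lit 4197513414) (nat_lit 228) (nat_lit 22118787314) (nat_lit 76) (nat_lit 80271690) (nat_lit 31) (nat_lit 5) (nat_lit 34) (nat_lit 5) (nat_lit 32) (nat_lit 5) (nat_lit 526) (nat_lit 374) (nat_lit 240)) (XT.lf (nat_lit 0) (nat_lit 8778296620) (nat_lit 228) (nat_lit 12436469680) (nat_lit 76) (nat_lit 5594778930) (nat_lit 31) (nat_lit 5) (nat_lit 34) (nat_lit 5) (nat_lit 32) (nat_lit 5) (nat_lit 527) (nat_lit 374) (nat_lit 239))) (XT.nd (nat_lit 78) (nat_lit 152) (nat_lit 0) (XT.lf (nat_lit 0) (nat_lit 13437010090) (nat_lit 228) (nat_lit 2584759033) (nat_lit 76) (nat_lit 11209284953) (nat_lit 31) (nat_lit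 5) (nat_lit 34) (nat_lit 5) (nat_lit 32) (nat_lit 5) (nat_lit 528) (nat_lit 374) (nat_lit 238)) (XT.lf (nat_lit 0) (nat_lit 7539084491) (nat_lit 152) (nat_lit 10685345017) (nat_lit 228) (nat_lit 9435855771) (nat_lit 29) (nat_lit 5) (nat_lit 31) (nat_lit 5) (nat_lit 32) (nat_lit 5) (nat_lit 529) (nat_lit 374) (nat_lit 237))))) (XT.nd (nat_lit 234) (nat_lit 1292) (nat_lit 0) (XT.nd (nat_lit 78) (nat_lit 532) (nat_lit 0) (XT.lf (nat_lit 0) (nat_lit 84194377) (nat_lit 380) (nat_lit 1580853554) (nat_lit 380) (nat_lit 1580853554) (nat_lit 641) (nat_lit 4) (nat_lit 646) (nat_lit 5) (nat_lit 646) (nat_lit 4) (nat_lit 390) (nat_lit 375) (nat_lit 375)) (XT.nd (nat_lit 78) (nat_lit 532) (nat_lit 0) (XT.lf (nat_lit 0) (nat_lit 3681931008) (nat_lit 380) (nat_lit 2699661071) (nat_lit 380) (nat_lit 120831813) (nat_lit 641) (nat_lit 4) (nat_lit 646) (nat_lit 5) (nat_lit 646) (nat_lit 4) (nat_lit 391) (nat_lit 375) (nat_lit 374))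 (XT.lf (nat_lit 0) (nat_lit 695452286) (nat_lit 456) (nat_lit 2177095002) (nat_lit 532) (nat_lit 3641795505) (nat_lit 634) (nat_lit 5) (nat_lit 640) (nat_lit 5) (nat_lit 641) (nat_lit 4) (nat_lit 392) (nat_lit 375) (nat_lit 373)))) (XT.nd (nat_lit 156) (nat_lit 684) (nat_lit 0) (XT.nd (nat_lit 78) (nat_lit 608) (nat_lit 0) (XT.lf (nat_lit 0) (nat_lit 4272644103) (nat_lit 456) (nat_lit 1597864567) (nat_lit 532) (nat_lit 657135298) (nat_lit 634) (nat_lit 5) (nat_lit 640) (nat_lit 5) (nat_lit 641) (nat_lit 4) (nat_lit 393) (nat_lit 375) (nat_lit 372)) (XT.lf (nat_lit 0) (nat_lit 1335566778) (nat_lit 532) (nat_lit 957291646) (nat_lit 608) (nat_lit 4249386937) (nat_lit 626) (nat_lit 5) (nat_lit 633) (nat_lit 5) (nat_lit 634) (nat_lit 5) (nat_lit 394) (nat_lit 375) (nat_lit 371))) (XT.nd (nat_lit 78) (nat_lit 684) (nat_lit 0) (XT.lf (nat_lit 0) (nat_lit 4977790244) (nat_lit 532) (nat_lit 259757918) (nat_lit 608) (nat_lit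 1320695373) (nat_lit 626) (nat_lit 5) (nat_lit 633) (nat_lit 5) (nat_lit 634) (nat_lit 5) (nat_lit 395) (nat_lit 375) (nat_lit 370)) (XT.lf (nat_lit 0) (nat_lit 1591748956) (nat_lit 684) (nat_lit 4490336735) (nat_lit 76) (nat_lit 493397213) (nat_lit 617) (nat_lit 5) (nat_lit 626) (nat_lit 5) (nat_lit 618) (nat_lit 5) (nat_lit 396) (nat_lit 375) (nat_lit 369))))))) (XT.nd (nat_lit 1092) (nat_lit 12540) (nat_lit 0) (XT.nd (nat_lit 546) (nat_lit 4560) (nat_lit 0) (XT.nd (nat_lit 234) (nat_lit 1900) (nat_lit 0) (XT.nd (nat_lit 78) (nat_lit 1520) (nat_lit 0) (XT.lf (nat_lit 0) (nat_lit 4488616771) (nat_lit 684) (nat_lit 805612304) (nat_lit 76) (nat_lit 1299863045) (nat_lit 617) (nat_lit 5) (nat_lit 626) (nat_lit 5) (nat_lit 618) (nat_lit 5) (nat_lit 397) (nat_lit 375) (nat_lit 368)) (XT.nd (nat_lit 78) (nat_lit 760) (nat_lit 0) (XT.lf (nat_lit 0) (nat_lit 770974332) (nat_lit 760) (nat_lit 3674522804) (nat_lit 76) (nat_lit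 2168512088) (nat_lit 607) (nat_lit 5) (nat_lit 617) (nat_lit 5) (nat_lit 608) (nat_lit 5) (nat_lit 398) (nat_lit 375) (nat_lit 367)) (XT.lf (nat_lit 0) (nat_lit 75787990) (nat_lit 760) (nat_lit 3540228173) (nat_lit 836) (nat_lit 3019317449) (nat_lit 597) (nat_lit 5) (nat_lit 607) (nat_lit 5) (nat_lit 608) (nat_lit 5) (nat_lit 399) (nat_lit 375) (nat_lit 366)))) (XT.nd (nat_lit 156) (nat_lit 988) (nat_lit 0) (XT.nd (nat_lit 78) (nat_lit 912) (nat_lit 0) (XT.lf (nat_lit 0) (nat_lit 3903808586) (nat_lit 760) (nat_lit 2573105492) (nat_lit 836) (nat_lit 181062285) (nat_lit 597) (nat_lit 5) (nat_lit 607) (nat_lit 5) (nat_lit 608) (nat_lit 5) (nat_lit 400) (nat_lit 375) (nat_lit 365)) (XT.lf (nat_lit 0) (nat_lit 1076705253) (nat_lit 836) (nat_lit 1543739658) (nat_lit 912) (nat_lit 4061501246) (nat_lit 585) (nat_lit 5) (nat_lit 596) (nat_lit 5) (nat_lit 597) (nat_lit 5) (nat_lit 401) (nat_lit 375) (nat_lit 364))) (XT.nd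 (nat_lit 78) (nat_lit 988) (nat_lit 0) (XT.lf (nat_lit 0) (nat_lit 4973511405) (nat_lit 836) (nat_lit 456581875) (nat_lit 912) (nat_lit 1277254306) (nat_lit 585) (nat_lit 5) (nat_lit 596) (nat_lit 5) (nat_lit 597) (nat_lit 5) (nat_lit 402) (nat_lit 375) (nat_lit 363)) (XT.lf (nat_lit 0) (nat_lit 1497716432) (nat_lit 988) (nat_lit 4551859263) (nat_lit 76) (nat_lit 684432043) (nat_lit 572) (nat_lit 5) (nat_lit 585) (nat_lit 5) (nat_lit 573) (nat_lit 5) (nat_lit 403) (nat_lit 375) (nat_lit 362))))) (XT.nd (nat_lit 234) (nat_lit 2432) (nat_lit 0) (XT.nd (nat_lit 78) (nat_lit 2128) (nat_lit 0) (XT.lf (nat_lit 0) (nat_lit 4263707941) (nat_lit 988) (nat_lit 620463266) (nat_lit 76) (nat_lit 1877871585) (nat_lit 572) (nat_lit 5) (nat_lit 585) (nat_lit 5) (nat_lit 573) (nat_lit 5) (nat_lit 404) (nat_lit 375) (nat_lit 361)) (XT.nd (nat_lit 78) (nat_lit 1064) (nat_lit 0) (XT.lf (nat_lit 0) (nat_lit 251282270) (nat_lit 1064)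 (nat_lit 3406101583) (nat_lit 76) (nat_lit 3134061800) (nat_lit 558) (nat_lit 5) (nat_lit 572) (nat_lit 5) (nat_lit 559) (nat_lit 5) (nat_lit 405) (nat_lit 375) (nat_lit 360)) (XT.lf (nat_lit 0) (nat_lit 602143135) (nat_lit 1064) (nat_lit 2367952374) (nat_lit 1140) (nat_lit 3852117045) (nat_lit 544) (nat_lit 5) (nat_lit 558) (nat_lit 5) (nat_lit 559) (nat_lit 5) (nat_lit 406) (nat_lit 375) (nat_lit 359)))) (XT.nd (nat_lit 156) (nat_lit 1216) (nat_lit 0) (XT.nd (nat_lit 78) (nat_lit 1216) (nat_lit 0) (XT.lf (nat_lit 0) (nat_lit 4689529851) (nat_lit 1064) (nat_lit 1017015764) (nat_lit 1140) (nat_lit 1147842194) (nat_lit 544) (nat_lit 5) (nat_lit 558) (nat_lit 5) (nat_lit 559) (nat_lit 5) (nat_lit 407) (nat_lit 375) (nat_lit 358)) (XT.lf (nat_lit 0) (nat_lit 1545688953) (nat_lit 1216) (nat_lit 4951222103) (nat_lit 76) (nat_lit 391016486) (nat_lit 528) (nat_lit 5) (nat_lit 544) (nat_lit 5) (nat_lit 529) (nat_lit 5)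 (nat_lit 408) (nat_lit 375) (nat_lit 357))) (XT.nd (nat_lit 78) (nat_lit 1216) (nat_lit 0) (XT.lf (nat_lit 0) (nat_lit 4241146745) (nat_lit 1216) (nat_lit 834719918) (nat_lit 76) (nat_lit 1846906020) (nat_lit 528) (nat_lit 5) (nat_lit 544) (nat_lit 5) (nat_lit 529) (nat_lit 5) (nat_lit 409) (nat_lit 375) (nat_lit 356)) (XT.lf (nat_lit 0) (nat_lit 3361051234) (nat_lit 1216) (nat_lit 3594473371) (nat_lit 1292) (nat_lit 3543696) (nat_lit 512) (nat_lit 5) (nat_lit 528) (nat_lit 5) (nat_lit 529) (nat_lit 5) (nat_lit 410) (nat_lit 375) (nat_lit 355)))))) (XT.nd (nat_lit 546) (nat_lit 6688) (nat_lit 0) (XT.nd (nat_lit 234) (nat_lit 3040) (nat_lit 0) (XT.nd (nat_lit 78) (nat_lit 1444) (nat_lit 0) (XT.lf (nat_lit 0) (nat_lit 598541828) (nat_lit 1292) (nat_lit 2046879178) (nat_lit 1368) (nat_lit 4351304270) (nat_lit 494) (nat_lit 5) (nat_lit 511) (nat_lit 5) (nat_lit 512) (nat_lit 5) (nat_lit 411) (nat_lit 375) (nat_lit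 354)) (XT.nd (nat_lit 78) (nat_lit 1444) (nat_lit 0) (XT.lf (nat_lit 0) (nat_lit 4880460292) (nat_lit 1292) (nat_lit 435376573) (nat_lit 1368) (nat_lit 1719978362) (nat_lit 494) (nat_lit 5) (nat_lit 511) (nat_lit 5) (nat_lit 512) (nat_lit 5) (nat_lit 412) (nat_lit 375) (nat_lit 353)) (XT.lf (nat_lit 0) (nat_lit 918356514) (nat_lit 1444) (nat_lit 4937400811) (nat_lit 76) (nat_lit 1220512695) (nat_lit 475) (nat_lit 5) (nat_lit 494) (nat_lit 5) (nat_lit 476) (nat_lit 5) (nat_lit 413) (nat_lit 375) (nat_lit 352)))) (XT.nd (nat_lit 156) (nat_lit 1596) (nat_lit 0) (XT.nd (nat_lit 78) (nat_lit 1444) (nat_lit 0) (XT.lf (nat_lit 0) (nat_lit 3549767632) (nat_lit 1444) (nat_lit 631459352) (nat_lit 76) (nat_lit 2936860510) (nat_lit 475) (nat_lit 5) (nat_lit 494) (nat_lit 5) (nat_lit 476) (nat_lit 5) (nat_lit 414) (nat_lit 375) (nat_lit 351)) (XT.lf (nat_lit 0) (nat_lit 3762854092) (nat_lit 1444) (nat_lit 2442320967) (nat_lit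 1520) (nat_lit 956185727) (nat_lit 456) (nat_lit 5) (nat_lit 475) (nat_lit 5) (nat_lit 476) (nat_lit 5) (nat_lit 415) (nat_lit 375) (nat_lit 350))) (XT.nd (nat_lit 78) (nat_lit 0) (nat_lit 0) (XT.lf (nat_lit 0) (nat_lit 1002697284) (nat_lit 1520) (nat_lit 641148209) (nat_lit 1596) (nat_lit 5562316095) (nat_lit 435) (nat_lit 5) (nat_lit 455) (nat_lit 5) (nat_lit 456) (nat_lit 5) (nat_lit 416) (nat_lit 375) (nat_lit 349)) (XT.lf (nat_lit 0) (nat_lit 4261848368) (nat_lit 1596) (nat_lit 1775993529) (nat_lit 76) (nat_lit 1214358744) (nat_lit 435) (nat_lit 5) (nat_lit 456) (nat_lit 5) (nat_lit 436) (nat_lit 5) (nat_lit 417) (nat_lit 375) (nat_lit 348))))) (XT.nd (nat_lit 312) (nat_lit 1900) (nat_lit 0) (XT.nd (nat_lit 156) (nat_lit 3116) (nat_lit 0) (XT.nd (nat_lit 78) (nat_lit 76) (nat_lit 0) (XT.lf (nat_lit 0) (nat_lit 2724120417) (nat_lit 1596) (nat_lit 4179082563) (nat_lit 1672) (nat_lit 396580925) (nat_lit 414)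 (nat_lit 5) (nat_lit 435) (nat_lit 5) (nat_lit 436) (nat_lit 5) (nat_lit 418) (nat_lit 375) (nat_lit 347)) (XT.lf (nat_lit 0) (nat_lit 2180943167) (nat_lit 1672) (nat_lit 72241257) (nat_lit 76) (nat_lit 5095656461) (nat_lit 413) (nat_lit 5) (nat_lit 435) (nat_lit 5) (nat_lit 414) (nat_lit 5) (nat_lit 419) (nat_lit 375) (nat_lit 346))) (XT.nd (nat_lit 78) (nat_lit 1444) (nat_lit 0) (XT.lf (nat_lit 0) (nat_lit 4531197457) (nat_lit 1672) (nat_lit 253304612) (nat_lit 1748) (nat_lit 2614769387) (nat_lit 391) (nat_lit 5) (nat_lit 413) (nat_lit 5) (nat_lit 414) (nat_lit 5) (nat_lit 420) (nat_lit 375) (nat_lit 345)) (XT.lf (nat_lit 0) (nat_lit 1740629448) (nat_lit 1444) (nat_lit 5673948277) (nat_lit 1520) (nat_lit 36683969) (nat_lit 372) (nat_lit 5) (nat_lit 391) (nat_lit 5) (nat_lit 392) (nat_lit 5) (nat_lit 421) (nat_lit 375) (nat_lit 344)))) (XT.nd (nat_lit 156) (nat_lit 988) (nat_lit 0) (XT.nd (nat_lit 78) (nat_lit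 836) (nat_lit 0) (XT.lf (nat_lit 0) (nat_lit 2531358200) (nat_lit 1520) (nat_lit 1090114120) (nat_lit 76) (nat_lit 3883073084) (nat_lit 371) (nat_lit 5) (nat_lit 391) (nat_lit 5) (nat_lit 372) (nat_lit 5) (nat_lit 422) (nat_lit 375) (nat_lit 343)) (XT.lf (nat_lit 0) (nat_lit 3623077406) (nat_lit 836) (nat_lit 1503021356) (nat_lit 912) (nat_lit 2433312266) (nat_lit 360) (nat_lit 5) (nat_lit 371) (nat_lit 5) (nat_lit 372) (nat_lit 5) (nat_lit 423) (nat_lit 375) (nat_lit 342))) (XT.nd (nat_lit 78) (nat_lit 0) (nat_lit 0) (XT.lf (nat_lit 0) (nat_lit 124751897) (nat_lit 988) (nat_lit 6828417508) (nat_lit 76) (nat_lit 662831218) (nat_lit 347) (nat_lit 5) (nat_lit 360) (nat_lit 5) (nat_lit 348) (nat_lit 5) (nat_lit 424) (nat_lit 375) (nat_lit 341)) (XT.lf (nat_lit 0) (nat_lit 2691180423) (nat_lit 988) (nat_lit 2088127024) (nat_lit 76) (nat_lit 2894332666) (nat_lit 347) (nat_lit 5) (nat_lit 360) (nat_lit 5) (nat_lit 348)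 (nat_lit 5) (nat_lit 425) (nat_lit 375) (nat_lit 340))))))))
noncomputable def xc89 : XT := (XT.nd (nat_lit 2184) (nat_lit 6688) (nat_lit 0) (XT.nd (nat_lit 1092) (nat_lit 5396) (nat_lit 0) (XT.nd (nat_lit 546) (nat_lit 2888) (nat_lit 0) (XT.nd (nat_lit 234) (nat_lit 2280) (nat_lit 0) (XT.nd (nat_lit 78) (nat_lit 912) (nat_lit 0) (XT.lf (nat_lit 0) (nat_lit 2735764834) (nat_lit 836) (nat_lit 2545063601) (nat_lit 912) (nat_lit 2452200935) (nat_lit 336) (nat_lit 5) (nat_lit 347) (nat_lit 5) (nat_lit 348) (nat_lit 5) (nat_lit 426) (nat_lit 375) (nat_lit 339)) (XT.nd (nat_lit 78) (nat_lit 836) (nat_lit 0) (XT.lf (nat_lit 0) (nat_lit 95471544) (nat_lit 912) (nat_lit 157228970) (nat_lit 76) (nat_lit 7541552717) (nat_lit 335) (nat_lit 5) (nat_lit 347) (nat_lit 5) (nat_lit 336) (nat_lit 5) (nat_lit 427) (nat_lit 375) (nat_lit 338)) (XT.lf (nat_lit 0) (nat_lit 2661452461) (nat_lit 912) (nat_lit 3090957433) (nat_lit 76)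 (nat_lit 2103996482) (nat_lit 324) (nat_lit 5) (nat_lit 336) (nat_lit 5) (nat_lit 325) (nat_lit 5) (nat_lit 428) (nat_lit 375) (nat_lit 337)))) (XT.nd (nat_lit 156) (nat_lit 1520) (nat_lit 0) (XT.nd (nat_lit 78) (nat_lit 0) (nat_lit 0) (XT.lf (nat_lit 0) (nat_lit 1844358375) (nat_lit 760) (nat_lit 3404953757) (nat_lit 836) (nat_lit 2671111415) (nat_lit 314) (nat_lit 5) (nat_lit 324) (nat_lit 5) (nat_lit 325) (nat_lit 5) (nat_lit 429) (nat_lit 375) (nat_lit 336)) (XT.lf (nat_lit 0) (nat_lit 6873508554) (nat_lit 760) (nat_lit 992573188) (nat_lit 836) (nat_lit 120127781) (nat_lit 314) (nat_lit 5) (nat_lit 324) (nat_lit 5) (nat_lit 325) (nat_lit 5) (nat_lit 430) (nat_lit 375) (nat_lit 335))) (XT.nd (nat_lit 78) (nat_lit 684) (nat_lit 0) (XT.lf (nat_lit 0) (nat_lit 2441637546) (nat_lit 836) (nat_lit 4124132721) (nat_lit 76) (nat_lit 1487402716) (nat_lit 303) (nat_lit 5) (nat_lit 314) (nat_lit 5) (nat_lit 304) (nat_lit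 5) (nat_lit 431) (nat_lit 375) (nat_lit 334)) (XT.lf (nat_lit 0) (nat_lit 923054134) (nat_lit 684) (nat_lit 4107532454) (nat_lit 760) (nat_lit 3091351806) (nat_lit 294) (nat_lit 5) (nat_lit 303) (nat_lit 5) (nat_lit 304) (nat_lit 5) (nat_lit 432) (nat_lit 375) (nat_lit 333))))) (XT.nd (nat_lit 234) (nat_lit 2052) (nat_lit 0) (XT.nd (nat_lit 78) (nat_lit 836) (nat_lit 0) (XT.lf (nat_lit 0) (nat_lit 6080391231) (nat_lit 684) (nat_lit 1576601902) (nat_lit 760) (nat_lit 535401522) (nat_lit 294) (nat_lit 5) (nat_lit 303) (nat_lit 5) (nat_lit 304) (nat_lit 5) (nat_lit 433) (nat_lit 375) (nat_lit 332)) (XT.nd (nat_lit 78) (nat_lit 0) (nat_lit 0) (XT.lf (nat_lit 0) (nat_lit 2029584481) (nat_lit 836) (nat_lit 5214269721) (nat_lit 76) (nat_lit 1020463072) (nat_lit 283) (nat_lit 5) (nat_lit 294) (nat_lit 5) (nat_lit 284) (nat_lit 5) (nat_lit 434) (nat_lit 375) (nat_lit 331)) (XT.lf (nat_lit 0) (nat_lit 4622422615) (nat_lit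 836) (nat_lit 54376476) (nat_lit 76) (nat_lit 3661161482) (nat_lit 283) (nat_lit 5) (nat_lit 294) (nat_lit 5) (nat_lit 284) (nat_lit 5) (nat_lit 435) (nat_lit 375) (nat_lit 330)))) (XT.nd (nat_lit 156) (nat_lit 608) (nat_lit 0) (XT.nd (nat_lit 78) (nat_lit 760) (nat_lit 0) (XT.lf (nat_lit 0) (nat_lit 5231374799) (nat_lit 684) (nat_lit 2029519198) (nat_lit 760) (nat_lit 1152334109) (nat_lit 274) (nat_lit 5) (nat_lit 283) (nat_lit 5) (nat_lit 284) (nat_lit 5) (nat_lit 436) (nat_lit 375) (nat_lit 329)) (XT.lf (nat_lit 0) (nat_lit 1421479047) (nat_lit 760) (nat_lit 6389328367) (nat_lit 76) (nat_lit 679459140) (nat_lit 264) (nat_lit 5) (nat_lit 274) (nat_lit 5) (nat_lit 265) (nat_lit 5) (nat_lit 437) (nat_lit 375) (nat_lit 328))) (XT.nd (nat_lit 78) (nat_lit 608) (nat_lit 0) (XT.lf (nat_lit 0) (nat_lit 4026745093) (nat_lit 760) (nat_lit 1103790655) (nat_lit 76) (nat_lit 3438274901) (nat_lit 264) (nat_lit 5) (nat_lit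 274) (nat_lit 5) (nat_lit 265) (nat_lit 5) (nat_lit 438) (nat_lit 375) (nat_lit 327)) (XT.lf (nat_lit 0) (nat_lit 4298067924) (nat_lit 608) (nat_lit 2375187893) (nat_lit 684) (nat_lit 1975911872) (nat_lit 256) (nat_lit 5) (nat_lit 264) (nat_lit 5) (nat_lit 265) (nat_lit 5) (nat_lit 439) (nat_lit 375) (nat_lit 326)))))) (XT.nd (nat_lit 546) (nat_lit 2812) (nat_lit 0) (XT.nd (nat_lit 234) (nat_lit 1216) (nat_lit 0) (XT.nd (nat_lit 78) (nat_lit 608) (nat_lit 0) (XT.lf (nat_lit 0) (nat_lit 611781194) (nat_lit 760) (nat_lit 7678881761) (nat_lit 76) (nat_lit 440836881) (nat_lit 246) (nat_lit 5) (nat_lit 256) (nat_lit 5) (nat_lit 247) (nat_lit 5) (nat_lit 440) (nat_lit 375) (nat_lit 325)) (XT.nd (nat_lit 78) (nat_lit 608) (nat_lit 0) (XT.lf (nat_lit 0) (nat_lit 3231748003) (nat_lit 760) (nat_lit 2266942065) (nat_lit 76) (nat_lit 3316411211) (nat_lit 246) (nat_lit 5) (nat_lit 256) (nat_lit 5) (nat_lit 247) (nat_lit 5)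 (nat_lit 441) (nat_lit 375) (nat_lit 324)) (XT.lf (nat_lit 0) (nat_lit 3250346297) (nat_lit 608) (nat_lit 2637451012) (nat_lit 684) (nat_lit 3012926736) (nat_lit 238) (nat_lit 5) (nat_lit 246) (nat_lit 5) (nat_lit 247) (nat_lit 5) (nat_lit 442) (nat_lit 375) (nat_lit 323)))) (XT.nd (nat_lit 156) (nat_lit 532) (nat_lit 0) (XT.nd (nat_lit 78) (nat_lit 684) (nat_lit 0) (XT.lf (nat_lit 0) (nat_lit 8577071637) (nat_lit 684) (nat_lit 126899012) (nat_lit 76) (nat_lit 284509042) (nat_lit 238) (nat_lit 5) (nat_lit 247) (nat_lit 5) (nat_lit 239) (nat_lit 5) (nat_lit 443) (nat_lit 375) (nat_lit 322)) (XT.lf (nat_lit 0) (nat_lit 2229804131) (nat_lit 684) (nat_lit 3575432303) (nat_lit 76) (nat_lit 3272143117) (nat_lit 229) (nat_lit 5) (nat_lit 238) (nat_lit 5) (nat_lit 230) (nat_lit 5) (nat_lit 444) (nat_lit 375) (nat_lit 321))) (XT.nd (nat_lit 78) (nat_lit 0) (nat_lit 0) (XT.lf (nat_lit 0) (nat_lit 2056052589) (nat_lit 532)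 (nat_lit 2840345848) (nat_lit 608) (nat_lit 4272064459) (nat_lit 222) (nat_lit 5) (nat_lit 229) (nat_lit 5) (nat_lit 230) (nat_lit 5) (nat_lit 445) (nat_lit 375) (nat_lit 320)) (XT.lf (nat_lit 0) (nat_lit 7605882407) (nat_lit 608) (nat_lit 1459218373) (nat_lit 76) (nat_lit 196496766) (nat_lit 222) (nat_lit 5) (nat_lit 230) (nat_lit 5) (nat_lit 223) (nat_lit 5) (nat_lit 446) (nat_lit 375) (nat_lit 319))))) (XT.nd (nat_lit 234) (nat_lit 1596) (nat_lit 0) (XT.nd (nat_lit 78) (nat_lit 532) (nat_lit 0) (XT.lf (nat_lit 0) (nat_lit 1011374990) (nat_lit 684) (nat_lit 5063131610) (nat_lit 76) (nat_lit 3281742758) (nat_lit 213) (nat_lit 5) (nat_lit 222) (nat_lit 5) (nat_lit 214) (nat_lit 5) (nat_lit 447) (nat_lit 375) (nat_lit 318)) (XT.nd (nat_lit 78) (nat_lit 0) (nat_lit 0) (XT.lf (nat_lit 0) (nat_lit 680673358) (nat_lit 532) (nat_lit 3008324667) (nat_lit 608) (nat_lit 5764009667) (nat_lit 206) (nat_lit 5) (nat_lit 213)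 (nat_lit 5) (nat_lit 214) (nat_lit 5) (nat_lit 448) (nat_lit 375) (nat_lit 317)) (XT.lf (nat_lit 0) (nat_lit 6420542650) (nat_lit 608) (nat_lit 2989289436) (nat_lit 76) (nat_lit 141880934) (nat_lit 206) (nat_lit 5) (nat_lit 214) (nat_lit 5) (nat_lit 207) (nat_lit 5) (nat_lit 449) (nat_lit 375) (nat_lit 316)))) (XT.nd (nat_lit 156) (nat_lit 988) (nat_lit 0) (XT.nd (nat_lit 78) (nat_lit 76) (nat_lit 0) (XT.lf (nat_lit 0) (nat_lit 2882935798) (nat_lit 532) (nat_lit 6328495570) (nat_lit 608) (nat_lit 440885655) (nat_lit 199) (nat_lit 5) (nat_lit 206) (nat_lit 5) (nat_lit 207) (nat_lit 5) (nat_lit 450) (nat_lit 375) (nat_lit 315)) (XT.lf (nat_lit 0) (nat_lit 2259401625) (nat_lit 608) (nat_lit 901035894) (nat_lit 76) (nat_lit 6594486535) (nat_lit 198) (nat_lit 5) (nat_lit 206) (nat_lit 5) (nat_lit 199) (nat_lit 5) (nat_lit 451) (nat_lit 375) (nat_lit 314))) (XT.nd (nat_lit 78) (nat_lit 532) (nat_lit 0) (XT.lf (nat_lit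 0) (nat_lit 5008447051) (nat_lit 532) (nat_lit 4755133293) (nat_lit 76) (nat_lit 95949224) (nat_lit 192) (nat_lit 5) (nat_lit 199) (nat_lit 5) (nat_lit 193) (nat_lit 5) (nat_lit 452) (nat_lit 375) (nat_lit 313)) (XT.lf (nat_lit 0) (nat_lit 1227183006) (nat_lit 532) (nat_lit 6587447257) (nat_lit 608) (nat_lit 2151571191) (nat_lit 185) (nat_lit 5) (nat_lit 192) (nat_lit 5) (nat_lit 193) (nat_lit 5) (nat_lit 453) (nat_lit 375) (nat_lit 312))))))) (XT.nd (nat_lit 1092) (nat_lit 2964) (nat_lit 0) (XT.nd (nat_lit 546) (nat_lit 1748) (nat_lit 0) (XT.nd (nat_lit 234) (nat_lit 1444) (nat_lit 0) (XT.nd (nat_lit 78) (nat_lit 456) (nat_lit 0) (XT.lf (nat_lit 0) (nat_lit 593457492) (nat_lit 608) (nat_lit 2729033451) (nat_lit 76) (nat_lit 6752465965) (nat_lit 184) (nat_lit 5) (nat_lit 192) (nat_lit 5) (nat_lit 185) (nat_lit 5) (nat_lit 454) (nat_lit 375) (nat_lit 311)) (XT.nd (nat_lit 78) (nat_lit 0) (nat_lit 0) (XT.lf (nat_lit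 0) (nat_lit 3354761169) (nat_lit 532) (nat_lit 6797982774) (nat_lit 76) (nat_lit 33071806) (nat_lit 178) (nat_lit 5) (nat_lit 185) (nat_lit 5) (nat_lit 179) (nat_lit 5) (nat_lit 455) (nat_lit 375) (nat_lit 310)) (XT.lf (nat_lit 0) (nat_lit 6179946774) (nat_lit 532) (nat_lit 700195206) (nat_lit 76) (nat_lit 3418592743) (nat_lit 178) (nat_lit 5) (nat_lit 185) (nat_lit 5) (nat_lit 179) (nat_lit 5) (nat_lit 456) (nat_lit 375) (nat_lit 309)))) (XT.nd (nat_lit 156) (nat_lit 456) (nat_lit 0) (XT.nd (nat_lit 78) (nat_lit 532) (nat_lit 0) (XT.lf (nat_lit 0) (nat_lit 5549612004) (nat_lit 456) (nat_lit 3516897096) (nat_lit 532) (nat_lit 1347321275) (nat_lit 172) (nat_lit 5) (nat_lit 178) (nat_lit 5) (nat_lit 179) (nat_lit 5) (nat_lit 457) (nat_lit 375) (nat_lit 308)) (XT.lf (nat_lit 0) (nat_lit 1368212680) (nat_lit 456) (nat_lit 74527588) (nat_lit 532) (nat_lit 9088659283) (nat_lit 165) (nat_lit 5) (nat_lit 171) (nat_lit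 5) (nat_lit 172) (nat_lit 5) (nat_lit 458) (nat_lit 375) (nat_lit 307))) (XT.nd (nat_lit 78) (nat_lit 456) (nat_lit 0) (XT.lf (nat_lit 0) (nat_lit 4294962557) (nat_lit 532) (nat_lit 2934028105) (nat_lit 76) (nat_lit 3421678179) (nat_lit 165) (nat_lit 5) (nat_lit 172) (nat_lit 5) (nat_lit 166) (nat_lit 5) (nat_lit 459) (nat_lit 375) (nat_lit 306)) (XT.lf (nat_lit 0) (nat_lit 3421806863) (nat_lit 456) (nat_lit 3774948686) (nat_lit 532) (nat_lit 3575732001) (nat_lit 159) (nat_lit 5) (nat_lit 165) (nat_lit 5) (nat_lit 166) (nat_lit 5) (nat_lit 460) (nat_lit 375) (nat_lit 305))))) (XT.nd (nat_lit 234) (nat_lit 836) (nat_lit 0) (XT.nd (nat_lit 78) (nat_lit 912) (nat_lit 0) (XT.lf (nat_lit 0) (nat_lit 9902517261) (nat_lit 456) (nat_lit 243891140) (nat_lit 532) (nat_lit 750552025) (nat_lit 159) (nat_lit 5) (nat_lit 165) (nat_lit 5) (nat_lit 166) (nat_lit 5) (nat_lit 461) (nat_lit 375) (nat_lit 304)) (XT.nd (nat_lit 78)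 (nat_lit 456) (nat_lit 0) (XT.lf (nat_lit 0) (nat_lit 2131491745) (nat_lit 456) (nat_lit 5539889313) (nat_lit 76) (nat_lit 3351712479) (nat_lit 153) (nat_lit 5) (nat_lit 159) (nat_lit 5) (nat_lit 154) (nat_lit 5) (nat_lit 462) (nat_lit 375) (nat_lit 303)) (XT.lf (nat_lit 0) (nat_lit 915810671) (nat_lit 456) (nat_lit 4130347925) (nat_lit 532) (nat_lit 6105804299) (nat_lit 147) (nat_lit 5) (nat_lit 153) (nat_lit 5) (nat_lit 154) (nat_lit 5) (nat_lit 463) (nat_lit 375) (nat_lit 302)))) (XT.nd (nat_lit 156) (nat_lit 456) (nat_lit 0) (XT.nd (nat_lit 78) (nat_lit 380) (nat_lit 0) (XT.lf (nat_lit 0) (nat_lit 7534155474) (nat_lit 456) (nat_lit 493186716) (nat_lit 532) (nat_lit 3255916168) (nat_lit 147) (nat_lit 5) (nat_lit 153) (nat_lit 5) (nat_lit 154) (nat_lit 5) (nat_lit 464) (nat_lit 375) (nat_lit 301)) (XT.lf (nat_lit 0) (nat_lit 2842837500) (nat_lit 380) (nat_lit 8236189854) (nat_lit 456) (nat_lit 337947746) (nat_lit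 142) (nat_lit 5) (nat_lit 147) (nat_lit 5) (nat_lit 148) (nat_lit 5) (nat_lit 465) (nat_lit 375) (nat_lit 300))) (XT.nd (nat_lit 78) (nat_lit 380) (nat_lit 0) (XT.lf (nat_lit 0) (nat_lit 2603996658) (nat_lit 456) (nat_lit 1997356397) (nat_lit 76) (nat_lit 6951678556) (nat_lit 141) (nat_lit 5) (nat_lit 147) (nat_lit 5) (nat_lit 142) (nat_lit 5) (nat_lit 466) (nat_lit 375) (nat_lit 299)) (XT.lf (nat_lit 0) (nat_lit 4730203663) (nat_lit 380) (nat_lit 872951566) (nat_lit 456) (nat_lit 6088563520) (nat_lit 136) (nat_lit 5) (nat_lit 141) (nat_lit 5) (nat_lit 142) (nat_lit 5) (nat_lit 467) (nat_lit 375) (nat_lit 298)))))) (XT.nd (nat_lit 546) (nat_lit 1368) (nat_lit 0) (XT.nd (nat_lit 234) (nat_lit 760) (nat_lit 0) (XT.nd (nat_lit 78) (nat_lit 836) (nat_lit 0) (XT.lf (nat_lit 0) (nat_lit 8667198204) (nat_lit 456) (nat_lit 273403431) (nat_lit 76) (nat_lit 2892491915) (nat_lit 136) (nat_lit 5) (nat_lit 142) (nat_lit 5)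 (nat_lit 137) (nat_lit 5) (nat_lit 468) (nat_lit 375) (nat_lit 297)) (XT.nd (nat_lit 78) (nat_lit 456) (nat_lit 0) (XT.lf (nat_lit 0) (nat_lit 6589137337) (nat_lit 380) (nat_lit 5224873880) (nat_lit 456) (nat_lit 162866554) (nat_lit 131) (nat_lit 5) (nat_lit 136) (nat_lit 5) (nat_lit 137) (nat_lit 5) (nat_lit 469) (nat_lit 375) (nat_lit 296)) (XT.lf (nat_lit 0) (nat_lit 1428956019) (nat_lit 380) (nat_lit 1417365635) (nat_lit 456) (nat_lit 9277167957) (nat_lit 125) (nat_lit 5) (nat_lit 130) (nat_lit 5) (nat_lit 131) (nat_lit 5) (nat_lit 470) (nat_lit 375) (nat_lit 295)))) (XT.nd (nat_lit 156) (nat_lit 456) (nat_lit 0) (XT.nd (nat_lit 78) (nat_lit 304) (nat_lit 0) (XT.lf (nat_lit 0) (nat_lit 5939118600) (nat_lit 456) (nat_lit 3874896165) (nat_lit 76) (nat_lit 2458496311) (nat_lit 125) (nat_lit 5) (nat_lit 131) (nat_lit 5) (nat_lit 126) (nat_lit 5) (nat_lit 471) (nat_lit 375) (nat_lit 294)) (XT.lf (nat_lit 0) (nat_lit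 3072560968) (nat_lit 304) (nat_lit 6024268601) (nat_lit 380) (nat_lit 3327633057) (nat_lit 121) (nat_lit 5) (nat_lit 125) (nat_lit 5) (nat_lit 126) (nat_lit 5) (nat_lit 472) (nat_lit 375) (nat_lit 293))) (XT.nd (nat_lit 78) (nat_lit 456) (nat_lit 0) (XT.lf (nat_lit 0) (nat_lit 10172268536) (nat_lit 304) (nat_lit 2145411842) (nat_lit 380) (nat_lit 261783719) (nat_lit 121) (nat_lit 5) (nat_lit 125) (nat_lit 5) (nat_lit 126) (nat_lit 5) (nat_lit 473) (nat_lit 375) (nat_lit 292)) (XT.lf (nat_lit 0) (nat_lit 2844502324) (nat_lit 456) (nat_lit 8068728995) (nat_lit 76) (nat_lit 1823638401) (nat_lit 115) (nat_lit 5) (nat_lit 121) (nat_lit 5) (nat_lit 116) (nat_lit 5) (nat_lit 474) (nat_lit 375) (nat_lit 291))))) (XT.nd (nat_lit 312) (nat_lit 684) (nat_lit 0) (XT.nd (nat_lit 156) (nat_lit 380) (nat_lit 0) (XT.nd (nat_lit 78) (nat_lit 304) (nat_lit 0) (XT.lf (nat_lit 0) (nat_lit 6014362795) (nat_lit 456) (nat_lit 1034519707)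 (nat_lit 76) (nat_lit 5848417258) (nat_lit 115) (nat_lit 5) (nat_lit 121) (nat_lit 5) (nat_lit 116) (nat_lit 5) (nat_lit 475) (nat_lit 375) (nat_lit 290)) (XT.lf (nat_lit 0) (nat_lit 6183248017) (nat_lit 304) (nat_lit 3079500716) (nat_lit 380) (nat_lit 3797896900) (nat_lit 111) (nat_lit 5) (nat_lit 115) (nat_lit 5) (nat_lit 116) (nat_lit 5) (nat_lit 476) (nat_lit 375) (nat_lit 289))) (XT.nd (nat_lit 78) (nat_lit 76) (nat_lit 0) (XT.lf (nat_lit 0) (nat_lit 291368833) (nat_lit 304) (nat_lit 12275047459) (nat_lit 380) (nat_lit 661045459) (nat_lit 107) (nat_lit 5) (nat_lit 111) (nat_lit 5) (nat_lit 112) (nat_lit 5) (nat_lit 477) (nat_lit 375) (nat_lit 288)) (XT.lf (nat_lit 0) (nat_lit 2547308557) (nat_lit 380) (nat_lit 5775611470) (nat_lit 76) (nat_lit 5073532579) (nat_lit 106) (nat_lit 5) (nat_lit 111) (nat_lit 5) (nat_lit 107) (nat_lit 5) (nat_lit 478) (nat_lit 375) (nat_lit 287)))) (XT.nd (nat_lit 156) (nat_lit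 380) (nat_lit 0) (XT.nd (nat_lit 78) (nat_lit 0) (nat_lit 0) (XT.lf (nat_lit 0) (nat_lit 1505729877) (nat_lit 304) (nat_lit 4290727316) (nat_lit 380) (nat_lit 7772578166) (nat_lit 102) (nat_lit 5) (nat_lit 106) (nat_lit 5) (nat_lit 107) (nat_lit 5) (nat_lit 479) (nat_lit 375) (nat_lit 286)) (XT.lf (nat_lit 0) (nat_lit 8973516280) (nat_lit 304) (nat_lit 151757672) (nat_lit 380) (nat_lit 4619510988) (nat_lit 102) (nat_lit 5) (nat_lit 106) (nat_lit 5) (nat_lit 107) (nat_lit 5) (nat_lit 480) (nat_lit 375) (nat_lit 285))) (XT.nd (nat_lit 78) (nat_lit 76) (nat_lit 0) (XT.lf (nat_lit 0) (nat_lit 2637644619) (nat_lit 304) (nat_lit 9902887316) (nat_lit 380) (nat_lit 1383128978) (nat_lit 98) (nat_lit 5) (nat_lit 102) (nat_lit 5) (nat_lit 103) (nat_lit 5) (nat_lit 481) (nat_lit 375) (nat_lit 284)) (XT.lf (nat_lit 0) (nat_lit 1902436392) (nat_lit 380) (nat_lit 3896942347) (nat_lit 76) (nat_lit 8306302765) (nat_lit 97) (nat_lit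 5) (nat_lit 102) (nat_lit 5) (nat_lit 98) (nat_lit 5) (nat_lit 482) (nat_lit 375) (nat_lit 283))))))))
noncomputable def xc90 : XT := (XT.nd (nat_lit 2184) (nat_lit 1368) (nat_lit 0) (XT.nd (nat_lit 1092) (nat_lit 1672) (nat_lit 0) (XT.nd (nat_lit 546) (nat_lit 836) (nat_lit 0) (XT.nd (nat_lit 234) (nat_lit 608) (nat_lit 0) (XT.nd (nat_lit 78) (nat_lit 304) (nat_lit 0) (XT.lf (nat_lit 0) (nat_lit 3642038484) (nat_lit 228) (nat_lit 1593657157) (nat_lit 304) (nat_lit 9055462161) (nat_lit 94) (nat_lit 5) (nat_lit 97) (nat_lit 5) (nat_lit 98) (nat_lit 5) (nat_lit 483) (nat_lit 375) (nat_lit 282)) (XT.nd (nat_lit 78) (nat_lit 304) (nat_lit 0) (XT.lf (nat_lit 0) (nat_lit 8656420499) (nat_lit 304) (nat_lit 3149497493) (nat_lit 76) (nat_lit 2674017663) (nat_lit 94) (nat_lit 5) (nat_lit 98) (nat_lit 5) (nat_lit 95) (nat_lit 5) (nat_lit 484) (nat_lit 375) (nat_lit 281)) (XT.lf (nat_lit 0) (nat_lit 4512846278) (nat_lit 304)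 (nat_lit 7649990857) (nat_lit 380) (nat_lit 2509314265) (nat_lit 90) (nat_lit 5) (nat_lit 94) (nat_lit 5) (nat_lit 95) (nat_lit 5) (nat_lit 485) (nat_lit 375) (nat_lit 280)))) (XT.nd (nat_lit 156) (nat_lit 304) (nat_lit 0) (XT.nd (nat_lit 78) (nat_lit 228) (nat_lit 0) (XT.lf (nat_lit 0) (nat_lit 858498074) (nat_lit 380) (nat_lit 2538429685) (nat_lit 76) (nat_lit 11471203090) (nat_lit 89) (nat_lit 5) (nat_lit 94) (nat_lit 5) (nat_lit 90) (nat_lit 5) (nat_lit 486) (nat_lit 375) (nat_lit 279)) (XT.lf (nat_lit 0) (nat_lit 4278477840) (nat_lit 304) (nat_lit 9821969941) (nat_lit 76) (nat_lit 966889581) (nat_lit 86) (nat_lit 5) (nat_lit 90) (nat_lit 5) (nat_lit 87) (nat_lit 5) (nat_lit 487) (nat_lit 375) (nat_lit 278))) (XT.nd (nat_lit 78) (nat_lit 304) (nat_lit 0) (XT.lf (nat_lit 0) (nat_lit 7784540271) (nat_lit 304) (nat_lit 2108942636) (nat_lit 76) (nat_lit 5376698716) (nat_lit 86) (nat_lit 5) (nat_lit 90) (nat_lit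 5) (nat_lit 87) (nat_lit 5) (nat_lit 488) (nat_lit 375) (nat_lit 277)) (XT.lf (nat_lit 0) (nat_lit 5799707611) (nat_lit 304) (nat_lit 5577142331) (nat_lit 380) (nat_lit 4099917446) (nat_lit 82) (nat_lit 5) (nat_lit 86) (nat_lit 5) (nat_lit 87) (nat_lit 5) (nat_lit 489) (nat_lit 375) (nat_lit 276))))) (XT.nd (nat_lit 234) (nat_lit 532) (nat_lit 0) (XT.nd (nat_lit 78) (nat_lit 304) (nat_lit 0) (XT.lf (nat_lit 0) (nat_lit 13860644626) (nat_lit 304) (nat_lit 1173182060) (nat_lit 380) (nat_lit 653808760) (nat_lit 82) (nat_lit 5) (nat_lit 86) (nat_lit 5) (nat_lit 87) (nat_lit 5) (nat_lit 490) (nat_lit 375) (nat_lit 275)) (XT.nd (nat_lit 78) (nat_lit 0) (nat_lit 0) (XT.lf (nat_lit 0) (nat_lit 2864804022) (nat_lit 304) (nat_lit 9714976032) (nat_lit 76) (nat_lit 3321753852) (nat_lit 78) (nat_lit 5) (nat_lit 82) (nat_lit 5) (nat_lit 79) (nat_lit 5) (nat_lit 491) (nat_lit 375) (nat_lit 274)) (XT.lf (nat_lit 0) (nat_lit 6444203879)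 (nat_lit 304) (nat_lit 1780702142) (nat_lit 76) (nat_lit 7894741087) (nat_lit 78) (nat_lit 5) (nat_lit 82) (nat_lit 5) (nat_lit 79) (nat_lit 5) (nat_lit 492) (nat_lit 375) (nat_lit 273)))) (XT.nd (nat_lit 156) (nat_lit 304) (nat_lit 0) (XT.nd (nat_lit 78) (nat_lit 0) (nat_lit 0) (XT.lf (nat_lit 0) (nat_lit 6362169372) (nat_lit 228) (nat_lit 3753791015) (nat_lit 304) (nat_lit 6225753278) (nat_lit 75) (nat_lit 5) (nat_lit 78) (nat_lit 5) (nat_lit 79) (nat_lit 5) (nat_lit 493) (nat_lit 375) (nat_lit 272)) (XT.lf (nat_lit 0) (nat_lit 13857982114) (nat_lit 304) (nat_lit 1914900957) (nat_lit 76) (nat_lit 795408218) (nat_lit 75) (nat_lit 5) (nat_lit 79) (nat_lit 5) (nat_lit 76) (nat_lit 5) (nat_lit 494) (nat_lit 375) (nat_lit 271))) (XT.nd (nat_lit 78) (nat_lit 0) (nat_lit 0) (XT.lf (nat_lit 0) (nat_lit 910223756) (nat_lit 304) (nat_lit 10468176288) (nat_lit 76) (nat_lit 5419967602) (nat_lit 71) (nat_lit 5) (nat_lit 75)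 (nat_lit 5) (nat_lit 72) (nat_lit 5) (nat_lit 495) (nat_lit 375) (nat_lit 270)) (XT.lf (nat_lit 0) (nat_lit 4559852255) (nat_lit 304) (nat_lit 2317712868) (nat_lit 76) (nat_lit 10155268557) (nat_lit 71) (nat_lit 5) (nat_lit 75) (nat_lit 5) (nat_lit 72) (nat_lit 5) (nat_lit 496) (nat_lit 375) (nat_lit 269)))))) (XT.nd (nat_lit 546) (nat_lit 760) (nat_lit 0) (XT.nd (nat_lit 234) (nat_lit 456) (nat_lit 0) (XT.nd (nat_lit 78) (nat_lit 228) (nat_lit 0) (XT.lf (nat_lit 0) (nat_lit 6042624953) (nat_lit 228) (nat_lit 2259480053) (nat_lit 304) (nat_lit 8969497249) (nat_lit 68) (nat_lit 5) (nat_lit 71) (nat_lit 5) (nat_lit 72) (nat_lit 5) (nat_lit 497) (nat_lit 375) (nat_lit 268)) (XT.nd (nat_lit 78) (nat_lit 228) (nat_lit 0) (XT.lf (nat_lit 0) (nat_lit 12131263839) (nat_lit 304) (nat_lit 2961748118) (nat_lit 76) (nat_lit 2421898766) (nat_lit 68) (nat_lit 5) (nat_lit 72) (nat_lit 5) (nat_lit 69) (nat_lit 5) (nat_lit 498)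 (nat_lit 375) (nat_lit 267)) (XT.lf (nat_lit 0) (nat_lit 5496098035) (nat_lit 228) (nat_lit 10572429734) (nat_lit 304) (nat_lit 1693932778) (nat_lit 65) (nat_lit 5) (nat_lit 68) (nat_lit 5) (nat_lit 69) (nat_lit 5) (nat_lit 499) (nat_lit 375) (nat_lit 266)))) (XT.nd (nat_lit 156) (nat_lit 152) (nat_lit 0) (XT.nd (nat_lit 78) (nat_lit 228) (nat_lit 0) (XT.lf (nat_lit 0) (nat_lit 2043352054) (nat_lit 304) (nat_lit 3896780200) (nat_lit 76) (nat_lit 12074547397) (nat_lit 64) (nat_lit 5) (nat_lit 68) (nat_lit 5) (nat_lit 65) (nat_lit 5) (nat_lit 500) (nat_lit 375) (nat_lit 265)) (XT.lf (nat_lit 0) (nat_lit 4658806118) (nat_lit 228) (nat_lit 1185451018) (nat_lit 304) (nat_lit 12427236240) (nat_lit 61) (nat_lit 5) (nat_lit 64) (nat_lit 5) (nat_lit 65) (nat_lit 5) (nat_lit 501) (nat_lit 375) (nat_lit 264))) (XT.nd (nat_lit 78) (nat_lit 152) (nat_lit 0) (XT.lf (nat_lit 0) (nat_lit 9752665168) (nat_lit 304) (nat_lit 5149918517)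 (nat_lit 76) (nat_lit 3630235191) (nat_lit 61) (nat_lit 5) (nat_lit 65) (nat_lit 5) (nat_lit 62) (nat_lit 5) (nat_lit 502) (nat_lit 375) (nat_lit 263)) (XT.lf (nat_lit 0) (nat_lit 3489272484) (nat_lit 152) (nat_lit 10262210499) (nat_lit 228) (nat_lit 5047648168) (nat_lit 59) (nat_lit 5) (nat_lit 61) (nat_lit 5) (nat_lit 62) (nat_lit 5) (nat_lit 503) (nat_lit 375) (nat_lit 262))))) (XT.nd (nat_lit 234) (nat_lit 456) (nat_lit 0) (XT.nd (nat_lit 78) (nat_lit 304) (nat_lit 0) (XT.lf (nat_lit 0) (nat_lit 12340513194) (nat_lit 152) (nat_lit 5506218714) (nat_lit 228) (nat_lit 1223713666) (nat_lit 59) (nat_lit 5) (nat_lit 61) (nat_lit 5) (nat_lit 62) (nat_lit 5) (nat_lit 504) (nat_lit 375) (nat_lit 261)) (XT.nd (nat_lit 78) (nat_lit 0) (nat_lit 0) (XT.lf (nat_lit 0) (nat_lit 2000261269) (nat_lit 228) (nat_lit 636448575) (nat_lit 304) (nat_lit 16710231350) (nat_lit 55) (nat_lit 5) (nat_lit 58) (nat_lit 5) (nat_lit 59) (nat_lit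 5) (nat_lit 505) (nat_lit 375) (nat_lit 260)) (XT.lf (nat_lit 0) (nat_lit 6613754710) (nat_lit 304) (nat_lit 8698566529) (nat_lit 76) (nat_lit 4315372455) (nat_lit 55) (nat_lit 5) (nat_lit 59) (nat_lit 5) (nat_lit 56) (nat_lit 5) (nat_lit 506) (nat_lit 375) (nat_lit 259)))) (XT.nd (nat_lit 156) (nat_lit 304) (nat_lit 0) (XT.nd (nat_lit 78) (nat_lit 0) (nat_lit 0) (XT.lf (nat_lit 0) (nat_lit 89798643) (nat_lit 152) (nat_lit 10567893412) (nat_lit 228) (nat_lit 9256626772) (nat_lit 53) (nat_lit 5) (nat_lit 55) (nat_lit 5) (nat_lit 56) (nat_lit 5) (nat_lit 507) (nat_lit 375) (nat_lit 258)) (XT.lf (nat_lit 0) (nat_lit 9142364372) (nat_lit 152) (nat_lit 5681220090) (nat_lit 228) (nat_lit 5382275002) (nat_lit 53) (nat_lit 5) (nat_lit 55) (nat_lit 5) (nat_lit 56) (nat_lit 5) (nat_lit 508) (nat_lit 375) (nat_lit 257))) (XT.nd (nat_lit 78) (nat_lit 304) (nat_lit 0) (XT.lf (nat_lit 0) (nat_lit 18347081311) (nat_lit 152) (nat_lit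 708756891) (nat_lit 228) (nat_lit 1447736278) (nat_lit 53) (nat_lit 5) (nat_lit 55) (nat_lit 5) (nat_lit 56) (nat_lit 5) (nat_lit 509) (nat_lit 375) (nat_lit 256)) (XT.lf (nat_lit 0) (nat_lit 2589055591) (nat_lit 304) (nat_lit 13860096994) (nat_lit 76) (nat_lit 4356618155) (nat_lit 49) (nat_lit 5) (nat_lit 53) (nat_lit 5) (nat_lit 50) (nat_lit 5) (nat_lit 510) (nat_lit 375) (nat_lit 255))))))) (XT.nd (nat_lit 1092) (nat_lit 228) (nat_lit 0) (XT.nd (nat_lit 546) (nat_lit 532) (nat_lit 0) (XT.nd (nat_lit 234) (nat_lit 456) (nat_lit 0) (XT.nd (nat_lit 78) (nat_lit 152) (nat_lit 0) (XT.lf (nat_lit 0) (nat_lit 6689806127) (nat_lit 304) (nat_lit 4897614763) (nat_lit 76) (nat_lit 9526350663) (nat_lit 49) (nat_lit 5) (nat_lit 53) (nat_lit 5) (nat_lit 50) (nat_lit 5) (nat_lit 511) (nat_lit 375) (nat_lit 254)) (XT.nd (nat_lit 78) (nat_lit 0) (nat_lit 0) (XT.lf (nat_lit 0) (nat_lit 4272075712) (nat_lit 152) (nat_lit 6611889094)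 (nat_lit 228) (nat_lit 10543743814) (nat_lit 47) (nat_lit 5) (nat_lit 49) (nat_lit 5) (nat_lit 50) (nat_lit 5) (nat_lit 512) (nat_lit 375) (nat_lit 253)) (XT.lf (nat_lit 0) (nat_lit 13663662687) (nat_lit 152) (nat_lit 1515004945) (nat_lit 228) (nat_lit 6568927595) (nat_lit 47) (nat_lit 5) (nat_lit 49) (nat_lit 5) (nat_lit 50) (nat_lit 5) (nat_lit 513) (nat_lit 375) (nat_lit 252)))) (XT.nd (nat_lit 156) (nat_lit 152) (nat_lit 0) (XT.nd (nat_lit 78) (nat_lit 76) (nat_lit 0) (XT.lf (nat_lit 0) (nat_lit 1132551356) (nat_lit 228) (nat_lit 18442023001) (nat_lit 304) (nat_lit 2499002953) (nat_lit 44) (nat_lit 5) (nat_lit 47) (nat_lit 5) (nat_lit 48) (nat_lit 5) (nat_lit 514) (nat_lit 375) (nat_lit 251)) (XT.lf (nat_lit 0) (nat_lit 1679354743) (nat_lit 304) (nat_lit 11810790054) (nat_lit 76) (nat_lit 8914749365) (nat_lit 43) (nat_lit 5) (nat_lit 47) (nat_lit 5) (nat_lit 44) (nat_lit 5) (nat_lit 515) (nat_lit 375) (nat_lit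 250))) (XT.nd (nat_lit 78) (nat_lit 152) (nat_lit 0) (XT.lf (nat_lit 0) (nat_lit 5892226867) (nat_lit 304) (nat_lit 2541577921) (nat_lit 76) (nat_lit 14309017728) (nat_lit 43) (nat_lit 5) (nat_lit 47) (nat_lit 5) (nat_lit 44) (nat_lit 5) (nat_lit 516) (nat_lit 375) (nat_lit 249)) (XT.lf (nat_lit 0) (nat_lit 6977988184) (nat_lit 152) (nat_lit 3241357943) (nat_lit 228) (nat_lit 12867567158) (nat_lit 41) (nat_lit 5) (nat_lit 43) (nat_lit 5) (nat_lit 44) (nat_lit 5) (nat_lit 517) (nat_lit 375) (nat_lit 248))))) (XT.nd (nat_lit 234) (nat_lit 380) (nat_lit 0) (XT.nd (nat_lit 78) (nat_lit 152) (nat_lit 0) (XT.lf (nat_lit 0) (nat_lit 14648258485) (nat_lit 228) (nat_lit 6755210224) (nat_lit 76) (nat_lit 2034115713) (nat_lit 41) (nat_lit 5) (nat_lit 44) (nat_lit 5) (nat_lit 42) (nat_lit 5) (nat_lit 518) (nat_lit 375) (nat_lit 247)) (XT.nd (nat_lit 78) (nat_lit 0) (nat_lit 0) (XT.lf (nat_lit 0) (nat_lit 2774413799) (nat_lit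 152) (nat_lit 16415854199) (nat_lit 228) (nat_lit 4604514106) (nat_lit 39) (nat_lit 5) (nat_lit 41) (nat_lit 5) (nat_lit 42) (nat_lit 5) (nat_lit 519) (nat_lit 375) (nat_lit 246)) (XT.lf (nat_lit 0) (nat_lit 12560284435) (nat_lit 152) (nat_lit 11293328994) (nat_lit 228) (nat_lit 304903824) (nat_lit 39) (nat_lit 5) (nat_lit 41) (nat_lit 5) (nat_lit 42) (nat_lit 5) (nat_lit 520) (nat_lit 375) (nat_lit 245)))) (XT.nd (nat_lit 156) (nat_lit 152) (nat_lit 0) (XT.nd (nat_lit 78) (nat_lit 152) (nat_lit 0) (XT.lf (nat_lit 0) (nat_lit 4012535526) (nat_lit 228) (nat_lit 2039753527) (nat_lit 76) (nat_lit 18477004339) (nat_lit 38) (nat_lit 5) (nat_lit 41) (nat_lit 5) (nat_lit 39) (nat_lit 5) (nat_lit 521) (nat_lit 375) (nat_lit 244)) (XT.lf (nat_lit 0) (nat_lit 7784873884) (nat_lit 152) (nat_lit 663558599) (nat_lit 228) (nat_lit 16458291666) (nat_lit 36) (nat_lit 5) (nat_lit 38) (nat_lit 5) (nat_lit 39) (nat_lit 5) (nat_lit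 522) (nat_lit 375) (nat_lit 243))) (XT.nd (nat_lit 78) (nat_lit 152) (nat_lit 0) (XT.lf (nat_lit 0) (nat_lit 13003897770) (nat_lit 228) (nat_lit 7514411420) (nat_lit 76) (nat_lit 4772780491) (nat_lit 36) (nat_lit 5) (nat_lit 39) (nat_lit 5) (nat_lit 37) (nat_lit 5) (nat_lit 523) (nat_lit 375) (nat_lit 242)) (XT.lf (nat_lit 0) (nat_lit 2286102105) (nat_lit 152) (nat_lit 15369581329) (nat_lit 228) (nat_lit 8027357974) (nat_lit 34) (nat_lit 5) (nat_lit 36) (nat_lit 5) (nat_lit 37) (nat_lit 5) (nat_lit 524) (nat_lit 375) (nat_lit 241)))))) (XT.nd (nat_lit 48828) (nat_lit 0) (nat_lit 44460) (XT.nd (nat_lit 234) (nat_lit 0) (nat_lit 0) (XT.nd (nat_lit 78) (nat_lit 228) (nat_lit 0) (XT.lf (nat_lit 0) (nat_lit 12359985671) (nat_lit 152) (nat_lit 10077034505) (nat_lit 228) (nat_lit 3645084734) (nat_lit 34) (nat_lit 5) (nat_lit 36) (nat_lit 5) (nat_lit 37) (nat_lit 5) (nat_lit 525) (nat_lit 375) (nat_lit 240)) (XT.nd (nat_lit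 78) (nat_lit 152) (nat_lit 0) (XT.lf (nat_lit 0) (nat_lit 800285321) (nat_lit 228) (nat_lit 3883363209) (nat_lit 76) (nat_lit 21805671587) (nat_lit 33) (nat_lit 5) (nat_lit 36) (nat_lit 5) (nat_lit 34) (nat_lit 5) (nat_lit 526) (nat_lit 375) (nat_lit 239)) (XT.lf (nat_lit 0) (nat_lit 5318166587) (nat_lit 228) (nat_lit 20723912572) (nat_lit 76) (nat_lit 861473230) (nat_lit 31) (nat_lit 5) (nat_lit 34) (nat_lit 5) (nat_lit 32) (nat_lit 5) (nat_lit 527) (nat_lit 375) (nat_lit 238)))) (XT.nd (nat_lit 48438) (nat_lit 0) (nat_lit 46740) (XT.nd (nat_lit 78) (nat_lit 0) (nat_lit 0) (XT.lf (nat_lit 0) (nat_lit 9970237949) (nat_lit 228) (nat_lit 10883973105) (nat_lit 76) (nat_lit 6470984417) (nat_lit 31) (nat_lit 5) (nat_lit 34) (nat_lit 5) (nat_lit 32) (nat_lit 5) (nat_lit 528) (nat_lit 375) (nat_lit 237)) (XT.lf (nat_lit 0) (nat_lit 14702196759) (nat_lit 228) (nat_lit 870546401) (nat_lit 76) (nat_lit 12182794092) (nat_lit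 31) (nat_lit 5) (nat_lit 34) (nat_lit 5) (nat_lit 32) (nat_lit 5) (nat_lit 529) (nat_lit 375) (nat_lit 236))) (XT.nd (nat_lit 78) (nat_lit 380) (nat_lit 0) (XT.lf (nat_lit 0) (nat_lit 3135667913) (nat_lit 228) (nat_lit 50693602) (nat_lit 228) (nat_lit 50693602) (nat_lit 651) (nat_lit 4) (nat_lit 654) (nat_lit 5) (nat_lit 654) (nat_lit 4) (nat_lit 388) (nat_lit 376) (nat_lit 376)) (XT.lf (nat_lit 0) (nat_lit 2917246180) (nat_lit 380) (nat_lit 3278425659) (nat_lit 0) (nat_lit 286840336) (nat_lit 646) (nat_lit 5) (nat_lit 651) (nat_lit 4) (nat_lit 646) (nat_lit 4) (nat_lit 389) (nat_lit 376) (nat_lit 375))))) (XT.nd (nat_lit 312) (nat_lit 1292) (nat_lit 0) (XT.nd (nat_lit 156) (nat_lit 532) (nat_lit 0) (XT.nd (nat_lit 78) (nat_lit 76) (nat_lit 0) (XT.lf (nat_lit 0) (nat_lit 145295501) (nat_lit 380) (nat_lit 5778263442) (nat_lit 380) (nat_lit 569028339) (nat_lit 641) (nat_lit 4) (nat_lit 646) (nat_lit 5) (nat_lit 646)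 (nat_lit 4) (nat_lit 390) (nat_lit 376) (nat_lit 374)) (XT.lf (nat_lit 0) (nat_lit 2402926006) (nat_lit 456) (nat_lit 2883588547) (nat_lit 76) (nat_lit 1217146406) (nat_lit 640) (nat_lit 5) (nat_lit 646) (nat_lit 5) (nat_lit 641) (nat_lit 4) (nat_lit 391) (nat_lit 376) (nat_lit 373))) (XT.nd (nat_lit 78) (nat_lit 76) (nat_lit 0) (XT.lf (nat_lit 0) (nat_lit 607706369) (nat_lit 456) (nat_lit 4750657801) (nat_lit 532) (nat_lit 1157969957) (nat_lit 634) (nat_lit 5) (nat_lit 640) (nat_lit 5) (nat_lit 641) (nat_lit 4) (nat_lit 392) (nat_lit 376) (nat_lit 372)) (XT.lf (nat_lit 0) (nat_lit 1767226799) (nat_lit 532) (nat_lit 2379675719) (nat_lit 76) (nat_lit 2383246874) (nat_lit 633) (nat_lit 5) (nat_lit 640) (nat_lit 5) (nat_lit 634) (nat_lit 5) (nat_lit 393) (nat_lit 376) (nat_lit 371)))) (XT.nd (nat_lit 156) (nat_lit 684) (nat_lit 0) (XT.nd (nat_lit 78) (nat_lit 76) (nat_lit 0) (XT.lf (nat_lit 0) (nat_lit 1181984104)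 (nat_lit 532) (nat_lit 3490810929) (nat_lit 608) (nat_lit 1872626924) (nat_lit 626) (nat_lit 5) (nat_lit 633) (nat_lit 5) (nat_lit 634) (nat_lit 5) (nat_lit 394) (nat_lit 376) (nat_lit 370)) (XT.lf (nat_lit 0) (nat_lit 1007674863) (nat_lit 608) (nat_lit 1767044181) (nat_lit 76) (nat_lit 3787293535) (nat_lit 625) (nat_lit 5) (nat_lit 633) (nat_lit 5) (nat_lit 626) (nat_lit 5) (nat_lit 395) (nat_lit 376) (nat_lit 369))) (XT.nd (nat_lit 78) (nat_lit 76) (nat_lit 0) (XT.lf (nat_lit 0) (nat_lit 1867873960) (nat_lit 608) (nat_lit 1996383811) (nat_lit 684) (nat_lit 2715631520) (nat_lit 617) (nat_lit 5) (nat_lit 625) (nat_lit 5) (nat_lit 626) (nat_lit 5) (nat_lit 396) (nat_lit 376) (nat_lit 368)) (XT.lf (nat_lit 0) (nat_lit 121552367) (nat_lit 684) (nat_lit 1045865318) (nat_lit 76) (nat_lit 5431875100) (nat_lit 616) (nat_lit 5) (nat_lit 625) (nat_lit 5) (nat_lit 617) (nat_lit 5) (nat_lit 397) (nat_lit 376) (nat_lit 367))))))))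
noncomputable def xc91 : XT := (XT.nd (nat_lit 2184) (nat_lit 12388) (nat_lit 0) (XT.nd (nat_lit 1092) (nat_lit 12464) (nat_lit 0) (XT.nd (nat_lit 546) (nat_lit 4636) (nat_lit 0) (XT.nd (nat_lit 234) (nat_lit 1824) (nat_lit 0) (XT.nd (nat_lit 78) (nat_lit 836) (nat_lit 0) (XT.lf (nat_lit 0) (nat_lit 2665308874) (nat_lit 684) (nat_lit 264604552) (nat_lit 760) (nat_lit 3689868398) (nat_lit 607) (nat_lit 5) (nat_lit 616) (nat_lit 5) (nat_lit 617) (nat_lit 5) (nat_lit 398) (nat_lit 376) (nat_lit 366)) (XT.nd (nat_lit 78) (nat_lit 836) (nat_lit 0) (XT.lf (nat_lit 0) (nat_lit 5740370503) (nat_lit 760) (nat_lit 226451873) (nat_lit 76) (nat_lit 675010670) (nat_lit 607) (nat_lit 5) (nat_lit 617) (nat_lit 5) (nat_lit 608) (nat_lit 5) (nat_lit 399) (nat_lit 376) (nat_lit 365)) (XT.lf (nat_lit 0) (nat_lit 1877758037) (nat_lit 836) (nat_lit 3101834511) (nat_lit 76) (nat_lit 1685338188) (nat_lit 596) (nat_lit 5) (nat_lit 607)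 (nat_lit 5) (nat_lit 597) (nat_lit 5) (nat_lit 400) (nat_lit 376) (nat_lit 364)))) (XT.nd (nat_lit 156) (nat_lit 912) (nat_lit 0) (XT.nd (nat_lit 78) (nat_lit 76) (nat_lit 0) (XT.lf (nat_lit 0) (nat_lit 700057316) (nat_lit 836) (nat_lit 3942884356) (nat_lit 912) (nat_lit 2046647434) (nat_lit 585) (nat_lit 5) (nat_lit 596) (nat_lit 5) (nat_lit 597) (nat_lit 5) (nat_lit 401) (nat_lit 376) (nat_lit 363)) (XT.lf (nat_lit 0) (nat_lit 696654982) (nat_lit 912) (nat_lit 2146078839) (nat_lit 76) (nat_lit 3872818176) (nat_lit 584) (nat_lit 5) (nat_lit 596) (nat_lit 5) (nat_lit 585) (nat_lit 5) (nat_lit 402) (nat_lit 376) (nat_lit 362))) (XT.nd (nat_lit 78) (nat_lit 0) (nat_lit 0) (XT.lf (nat_lit 0) (nat_lit 1737606841) (nat_lit 912) (nat_lit 1679190918) (nat_lit 988) (nat_lit 3326041267) (nat_lit 572) (nat_lit 5) (nat_lit 584) (nat_lit 5) (nat_lit 585) (nat_lit 5) (nat_lit 403) (nat_lit 376) (nat_lit 361)) (XT.lf (nat_lit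 0) (nat_lit 5682487285) (nat_lit 912) (nat_lit 462247448) (nat_lit 988) (nat_lit 626931029) (nat_lit 572) (nat_lit 5) (nat_lit 584) (nat_lit 5) (nat_lit 585) (nat_lit 5) (nat_lit 404) (nat_lit 376) (nat_lit 360))))) (XT.nd (nat_lit 234) (nat_lit 2432) (nat_lit 0) (XT.nd (nat_lit 78) (nat_lit 1140) (nat_lit 0) (XT.lf (nat_lit 0) (nat_lit 2062098631) (nat_lit 1064) (nat_lit 3923377013) (nat_lit 76) (nat_lit 816100246) (nat_lit 558) (nat_lit 5) (nat_lit 572) (nat_lit 5) (nat_lit 559) (nat_lit 5) (nat_lit 405) (nat_lit 376) (nat_lit 359)) (XT.nd (nat_lit 78) (nat_lit 76) (nat_lit 0) (XT.lf (nat_lit 0) (nat_lit 54630268) (nat_lit 1064) (nat_lit 4693375437) (nat_lit 1140) (nat_lit 2085024034) (nat_lit 544) (nat_lit 5) (nat_lit 558) (nat_lit 5) (nat_lit 559) (nat_lit 5) (nat_lit 406) (nat_lit 376) (nat_lit 358)) (XT.lf (nat_lit 0) (nat_lit 581985244) (nat_lit 1140) (nat_lit 2750528630) (nat_lit 76) (nat_lit 3533221294)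 (nat_lit 543) (nat_lit 5) (nat_lit 558) (nat_lit 5) (nat_lit 544) (nat_lit 5) (nat_lit 407) (nat_lit 376) (nat_lit 357)))) (XT.nd (nat_lit 156) (nat_lit 1292) (nat_lit 0) (XT.nd (nat_lit 78) (nat_lit 0) (nat_lit 0) (XT.lf (nat_lit 0) (nat_lit 1315157235) (nat_lit 1140) (nat_lit 1910107446) (nat_lit 1216) (nat_lit 3674592284) (nat_lit 528) (nat_lit 5) (nat_lit 543) (nat_lit 5) (nat_lit 544) (nat_lit 5) (nat_lit 408) (nat_lit 376) (nat_lit 356)) (XT.lf (nat_lit 0) (nat_lit 5453561980) (nat_lit 1140) (nat_lit 429422517) (nat_lit 1216) (nat_lit 1052498997) (nat_lit 528) (nat_lit 5) (nat_lit 543) (nat_lit 5) (nat_lit 544) (nat_lit 5) (nat_lit 409) (nat_lit 376) (nat_lit 355))) (XT.nd (nat_lit 78) (nat_lit 0) (nat_lit 0) (XT.lf (nat_lit 0) (nat_lit 1569256409) (nat_lit 1292) (nat_lit 4297934504) (nat_lit 76) (nat_lit 1105102849) (nat_lit 511) (nat_lit 5) (nat_lit 528) (nat_lit 5) (nat_lit 512) (nat_lit 5) (nat_lit 410)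 (nat_lit 376) (nat_lit 354)) (XT.lf (nat_lit 0) (nat_lit 4186903390) (nat_lit 1292) (nat_lit 132367059) (nat_lit 76) (nat_lit 2691330348) (nat_lit 511) (nat_lit 5) (nat_lit 528) (nat_lit 5) (nat_lit 512) (nat_lit 5) (nat_lit 411) (nat_lit 376) (nat_lit 353)))))) (XT.nd (nat_lit 546) (nat_lit 5016) (nat_lit 0) (XT.nd (nat_lit 234) (nat_lit 4712) (nat_lit 0) (XT.nd (nat_lit 78) (nat_lit 1444) (nat_lit 0) (XT.lf (nat_lit 0) (nat_lit 4124825949) (nat_lit 1292) (nat_lit 2704625196) (nat_lit 1368) (nat_lit 220821566) (nat_lit 494) (nat_lit 5) (nat_lit 511) (nat_lit 5) (nat_lit 512) (nat_lit 5) (nat_lit 412) (nat_lit 376) (nat_lit 352)) (XT.nd (nat_lit 78) (nat_lit 0) (nat_lit 0) (XT.lf (nat_lit 0) (nat_lit 1333672345) (nat_lit 1368) (nat_lit 1024201521) (nat_lit 1444) (nat_lit 4733482170) (nat_lit 475) (nat_lit 5) (nat_lit 493) (nat_lit 5) (nat_lit 494) (nat_lit 5) (nat_lit 413) (nat_lit 376) (nat_lit 351)) (XT.lf (nat_lit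 0) (nat_lit 4956366447) (nat_lit 1444) (nat_lit 1468407958) (nat_lit 76) (nat_lit 709080659) (nat_lit 475) (nat_lit 5) (nat_lit 494) (nat_lit 5) (nat_lit 476) (nat_lit 5) (nat_lit 414) (nat_lit 376) (nat_lit 350)))) (XT.nd (nat_lit 156) (nat_lit 1672) (nat_lit 0) (XT.nd (nat_lit 78) (nat_lit 1520) (nat_lit 0) (XT.lf (nat_lit 0) (nat_lit 397304325) (nat_lit 1520) (nat_lit 4288772383) (nat_lit 76) (nat_lit 2491650305) (nat_lit 455) (nat_lit 5) (nat_lit 475) (nat_lit 5) (nat_lit 456) (nat_lit 5) (nat_lit 415) (nat_lit 376) (nat_lit 349)) (XT.lf (nat_lit 0) (nat_lit 70933308) (nat_lit 1520) (nat_lit 2882225754) (nat_lit 1596) (nat_lit 4269899154) (nat_lit 435) (nat_lit 5) (nat_lit 455) (nat_lit 5) (nat_lit 456) (nat_lit 5) (nat_lit 416) (nat_lit 376) (nat_lit 348))) (XT.nd (nat_lit 78) (nat_lit 1672) (nat_lit 0) (XT.lf (nat_lit 0) (nat_lit 4529674054) (nat_lit 1520) (nat_lit 1008265266) (nat_lit 1596) (nat_lit 1731843819)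 (nat_lit 435) (nat_lit 5) (nat_lit 455) (nat_lit 5) (nat_lit 456) (nat_lit 5) (nat_lit 417) (nat_lit 376) (nat_lit 347)) (XT.lf (nat_lit 0) (nat_lit 812631324) (nat_lit 1672) (nat_lit 5592967341) (nat_lit 76) (nat_lit 912436238) (nat_lit 413) (nat_lit 5) (nat_lit 435) (nat_lit 5) (nat_lit 414) (nat_lit 5) (nat_lit 418) (nat_lit 376) (nat_lit 346))))) (XT.nd (nat_lit 234) (nat_lit 1824) (nat_lit 0) (XT.nd (nat_lit 78) (nat_lit 3192) (nat_lit 0) (XT.lf (nat_lit 0) (nat_lit 3360384901) (nat_lit 1672) (nat_lit 1115314563) (nat_lit 76) (nat_lit 2891852489) (nat_lit 413) (nat_lit 5) (nat_lit 435) (nat_lit 5) (nat_lit 414) (nat_lit 5) (nat_lit 419) (nat_lit 376) (nat_lit 345)) (XT.nd (nat_lit 78) (nat_lit 1520) (nat_lit 0) (XT.lf (nat_lit 0) (nat_lit 3451220263) (nat_lit 1672) (nat_lit 2481624075) (nat_lit 1748) (nat_lit 1485779961) (nat_lit 391) (nat_lit 5) (nat_lit 413) (nat_lit 5) (nat_lit 414) (nat_lit 5) (nat_lit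 420) (nat_lit 376) (nat_lit 344)) (XT.lf (nat_lit 0) (nat_lit 608198353) (nat_lit 1444) (nat_lit 426720129) (nat_lit 1520) (nat_lit 6436434458) (nat_lit 371) (nat_lit 5) (nat_lit 390) (nat_lit 5) (nat_lit 391) (nat_lit 5) (nat_lit 421) (nat_lit 376) (nat_lit 343)))) (XT.nd (nat_lit 156) (nat_lit 988) (nat_lit 0) (XT.nd (nat_lit 78) (nat_lit 836) (nat_lit 0) (XT.lf (nat_lit 0) (nat_lit 3576097533) (nat_lit 1520) (nat_lit 2263377025) (nat_lit 76) (nat_lit 1685703614) (nat_lit 371) (nat_lit 5) (nat_lit 391) (nat_lit 5) (nat_lit 372) (nat_lit 5) (nat_lit 422) (nat_lit 376) (nat_lit 342)) (XT.lf (nat_lit 0) (nat_lit 2411102627) (nat_lit 836) (nat_lit 3728718041) (nat_lit 912) (nat_lit 1440861757) (nat_lit 360) (nat_lit 5) (nat_lit 371) (nat_lit 5) (nat_lit 372) (nat_lit 5) (nat_lit 423) (nat_lit 376) (nat_lit 341))) (XT.nd (nat_lit 78) (nat_lit 912) (nat_lit 0) (XT.lf (nat_lit 0) (nat_lit 1071672403) (nat_lit 912) (nat_lit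 481036257) (nat_lit 76) (nat_lit 6085102333) (nat_lit 359) (nat_lit 5) (nat_lit 371) (nat_lit 5) (nat_lit 360) (nat_lit 5) (nat_lit 424) (nat_lit 376) (nat_lit 340)) (XT.lf (nat_lit 0) (nat_lit 3602125388) (nat_lit 988) (nat_lit 3398219758) (nat_lit 76) (nat_lit 695842074) (nat_lit 347) (nat_lit 5) (nat_lit 360) (nat_lit 5) (nat_lit 348) (nat_lit 5) (nat_lit 425) (nat_lit 376) (nat_lit 339))))))) (XT.nd (nat_lit 1092) (nat_lit 5472) (nat_lit 0) (XT.nd (nat_lit 546) (nat_lit 3572) (nat_lit 0) (XT.nd (nat_lit 234) (nat_lit 1596) (nat_lit 0) (XT.nd (nat_lit 78) (nat_lit 912) (nat_lit 0) (XT.lf (nat_lit 0) (nat_lit 1385105857) (nat_lit 836) (nat_lit 4775634782) (nat_lit 912) (nat_lit 1595473382) (nat_lit 336) (nat_lit 5) (nat_lit 347) (nat_lit 5) (nat_lit 348) (nat_lit 5) (nat_lit 426) (nat_lit 376) (nat_lit 338)) (XT.nd (nat_lit 78) (nat_lit 836) (nat_lit 0) (XT.lf (nat_lit 0) (nat_lit 918826852) (nat_lit 912) (nat_lit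 1559647214) (nat_lit 76) (nat_lit 5339311520) (nat_lit 335) (nat_lit 5) (nat_lit 347) (nat_lit 5) (nat_lit 336) (nat_lit 5) (nat_lit 427) (nat_lit 376) (nat_lit 337)) (XT.lf (nat_lit 0) (nat_lit 3335651444) (nat_lit 836) (nat_lit 104237311) (nat_lit 912) (nat_lit 4440964271) (nat_lit 324) (nat_lit 5) (nat_lit 335) (nat_lit 5) (nat_lit 336) (nat_lit 5) (nat_lit 428) (nat_lit 376) (nat_lit 336)))) (XT.nd (nat_lit 156) (nat_lit 760) (nat_lit 0) (XT.nd (nat_lit 78) (nat_lit 76) (nat_lit 0) (XT.lf (nat_lit 0) (nat_lit 348320053) (nat_lit 760) (nat_lit 5647609837) (nat_lit 836) (nat_lit 1949592279) (nat_lit 314) (nat_lit 5) (nat_lit 324) (nat_lit 5) (nat_lit 325) (nat_lit 5) (nat_lit 429) (nat_lit 376) (nat_lit 335)) (XT.lf (nat_lit 0) (nat_lit 572193098) (nat_lit 836) (nat_lit 2660740561) (nat_lit 76) (nat_lit 4778737607) (nat_lit 313) (nat_lit 5) (nat_lit 324) (nat_lit 5) (nat_lit 314) (nat_lit 5) (nat_lit 430) (nat_lit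 376) (nat_lit 334))) (XT.nd (nat_lit 78) (nat_lit 0) (nat_lit 0) (XT.lf (nat_lit 0) (nat_lit 2346772267) (nat_lit 760) (nat_lit 744594139) (nat_lit 836) (nat_lit 4988087755) (nat_lit 303) (nat_lit 5) (nat_lit 313) (nat_lit 5) (nat_lit 314) (nat_lit 5) (nat_lit 431) (nat_lit 376) (nat_lit 333)) (XT.lf (nat_lit 0) (nat_lit 5648847678) (nat_lit 836) (nat_lit 715580897) (nat_lit 76) (nat_lit 1784434764) (nat_lit 303) (nat_lit 5) (nat_lit 314) (nat_lit 5) (nat_lit 304) (nat_lit 5) (nat_lit 432) (nat_lit 376) (nat_lit 332))))) (XT.nd (nat_lit 234) (nat_lit 2052) (nat_lit 0) (XT.nd (nat_lit 78) (nat_lit 760) (nat_lit 0) (XT.lf (nat_lit 0) (nat_lit 29930422) (nat_lit 760) (nat_lit 3810450089) (nat_lit 76) (nat_lit 4379451093) (nat_lit 293) (nat_lit 5) (nat_lit 303) (nat_lit 5) (nat_lit 294) (nat_lit 5) (nat_lit 433) (nat_lit 376) (nat_lit 331)) (XT.nd (nat_lit 78) (nat_lit 0) (nat_lit 0) (XT.lf (nat_lit 0) (nat_lit 1309555033)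 (nat_lit 760) (nat_lit 1240151960) (nat_lit 836) (nat_lit 5742755039) (nat_lit 283) (nat_lit 5) (nat_lit 293) (nat_lit 5) (nat_lit 294) (nat_lit 5) (nat_lit 434) (nat_lit 376) (nat_lit 330)) (XT.lf (nat_lit 0) (nat_lit 5114597660) (nat_lit 836) (nat_lit 1837709516) (nat_lit 76) (nat_lit 1414370420) (nat_lit 283) (nat_lit 5) (nat_lit 294) (nat_lit 5) (nat_lit 284) (nat_lit 5) (nat_lit 435) (nat_lit 376) (nat_lit 329)))) (XT.nd (nat_lit 156) (nat_lit 608) (nat_lit 0) (XT.nd (nat_lit 78) (nat_lit 760) (nat_lit 0) (XT.lf (nat_lit 0) (nat_lit 3401744206) (nat_lit 684) (nat_lit 4319940191) (nat_lit 760) (nat_lit 720901480) (nat_lit 274) (nat_lit 5) (nat_lit 283) (nat_lit 5) (nat_lit 284) (nat_lit 5) (nat_lit 436) (nat_lit 376) (nat_lit 328)) (XT.lf (nat_lit 0) (nat_lit 196242625) (nat_lit 684) (nat_lit 1614737377) (nat_lit 760) (nat_lit 6709326313) (nat_lit 264) (nat_lit 5) (nat_lit 273) (nat_lit 5) (nat_lit 274) (nat_lit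 5) (nat_lit 437) (nat_lit 376) (nat_lit 327))) (XT.nd (nat_lit 78) (nat_lit 608) (nat_lit 0) (XT.lf (nat_lit 0) (nat_lit 4386570742) (nat_lit 760) (nat_lit 3050695409) (nat_lit 76) (nat_lit 1162190069) (nat_lit 264) (nat_lit 5) (nat_lit 274) (nat_lit 5) (nat_lit 265) (nat_lit 5) (nat_lit 438) (nat_lit 376) (nat_lit 326)) (XT.lf (nat_lit 0) (nat_lit 2302785492) (nat_lit 608) (nat_lit 4698526218) (nat_lit 684) (nat_lit 1679149006) (nat_lit 256) (nat_lit 5) (nat_lit 264) (nat_lit 5) (nat_lit 265) (nat_lit 5) (nat_lit 439) (nat_lit 376) (nat_lit 325)))))) (XT.nd (nat_lit 546) (nat_lit 2888) (nat_lit 0) (XT.nd (nat_lit 234) (nat_lit 1216) (nat_lit 0) (XT.nd (nat_lit 78) (nat_lit 1292) (nat_lit 0) (XT.lf (nat_lit 0) (nat_lit 876174054) (nat_lit 684) (nat_lit 1009093495) (nat_lit 76) (nat_lit 6878067927) (nat_lit 255) (nat_lit 5) (nat_lit 264) (nat_lit 5) (nat_lit 256) (nat_lit 5) (nat_lit 440) (nat_lit 376) (nat_lit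 324)) (XT.nd (nat_lit 78) (nat_lit 608) (nat_lit 0) (XT.lf (nat_lit 0) (nat_lit 3458692844) (nat_lit 760) (nat_lit 4384282161) (nat_lit 76) (nat_lit 1004722239) (nat_lit 246) (nat_lit 5) (nat_lit 256) (nat_lit 5) (nat_lit 247) (nat_lit 5) (nat_lit 441) (nat_lit 376) (nat_lit 323)) (XT.lf (nat_lit 0) (nat_lit 1082481955) (nat_lit 608) (nat_lit 5000023342) (nat_lit 684) (nat_lit 2851470593) (nat_lit 238) (nat_lit 5) (nat_lit 246) (nat_lit 5) (nat_lit 247) (nat_lit 5) (nat_lit 442) (nat_lit 376) (nat_lit 322)))) (XT.nd (nat_lit 156) (nat_lit 532) (nat_lit 0) (XT.nd (nat_lit 78) (nat_lit 684) (nat_lit 0) (XT.lf (nat_lit 0) (nat_lit 6673678573) (nat_lit 608) (nat_lit 2078281258) (nat_lit 684) (nat_lit 270179025) (nat_lit 238) (nat_lit 5) (nat_lit 246) (nat_lit 5) (nat_lit 247) (nat_lit 5) (nat_lit 443) (nat_lit 376) (nat_lit 321)) (XT.lf (nat_lit 0) (nat_lit 2323081458) (nat_lit 684) (nat_lit 5870187546) (nat_lit 76)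 (nat_lit 918683862) (nat_lit 229) (nat_lit 5) (nat_lit 238) (nat_lit 5) (nat_lit 230) (nat_lit 5) (nat_lit 444) (nat_lit 376) (nat_lit 320))) (XT.nd (nat_lit 78) (nat_lit 532) (nat_lit 0) (XT.lf (nat_lit 0) (nat_lit 4958783811) (nat_lit 684) (nat_lit 287621617) (nat_lit 76) (nat_lit 3957258916) (nat_lit 229) (nat_lit 5) (nat_lit 238) (nat_lit 5) (nat_lit 230) (nat_lit 5) (nat_lit 445) (nat_lit 376) (nat_lit 319)) (XT.lf (nat_lit 0) (nat_lit 5434392188) (nat_lit 532) (nat_lit 2213350280) (nat_lit 608) (nat_lit 1649477124) (nat_lit 222) (nat_lit 5) (nat_lit 229) (nat_lit 5) (nat_lit 230) (nat_lit 5) (nat_lit 446) (nat_lit 376) (nat_lit 318))))) (XT.nd (nat_lit 312) (nat_lit 1140) (nat_lit 0) (XT.nd (nat_lit 156) (nat_lit 1064) (nat_lit 0) (XT.nd (nat_lit 78) (nat_lit 0) (nat_lit 0) (XT.lf (nat_lit 0) (nat_lit 969947689) (nat_lit 684) (nat_lit 7542417713) (nat_lit 76) (nat_lit 880466561) (nat_lit 213) (nat_lit 5)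 (nat_lit 222) (nat_lit 5) (nat_lit 214) (nat_lit 5) (nat_lit 447) (nat_lit 376) (nat_lit 317)) (XT.lf (nat_lit 0) (nat_lit 3626195434) (nat_lit 684) (nat_lit 1829334823) (nat_lit 76) (nat_lit 4034497056) (nat_lit 213) (nat_lit 5) (nat_lit 222) (nat_lit 5) (nat_lit 214) (nat_lit 5) (nat_lit 448) (nat_lit 376) (nat_lit 316))) (XT.nd (nat_lit 78) (nat_lit 532) (nat_lit 0) (XT.lf (nat_lit 0) (nat_lit 4007405064) (nat_lit 532) (nat_lit 2320602455) (nat_lit 608) (nat_lit 3261329096) (nat_lit 206) (nat_lit 5) (nat_lit 213) (nat_lit 5) (nat_lit 214) (nat_lit 5) (nat_lit 449) (nat_lit 376) (nat_lit 315)) (XT.lf (nat_lit 0) (nat_lit 249286050) (nat_lit 532) (nat_lit 8820977477) (nat_lit 608) (nat_lit 620658886) (nat_lit 199) (nat_lit 5) (nat_lit 206) (nat_lit 5) (nat_lit 207) (nat_lit 5) (nat_lit 450) (nat_lit 376) (nat_lit 314)))) (XT.nd (nat_lit 156) (nat_lit 608) (nat_lit 0) (XT.nd (nat_lit 78) (nat_lit 456) (nat_lit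 0) (XT.lf (nat_lit 0) (nat_lit 2065587038) (nat_lit 608) (nat_lit 3593742609) (nat_lit 76) (nat_lit 4134559908) (nat_lit 198) (nat_lit 5) (nat_lit 206) (nat_lit 5) (nat_lit 199) (nat_lit 5) (nat_lit 451) (nat_lit 376) (nat_lit 313)) (XT.lf (nat_lit 0) (nat_lit 2355072219) (nat_lit 456) (nat_lit 2424996821) (nat_lit 532) (nat_lit 5119125911) (nat_lit 192) (nat_lit 5) (nat_lit 198) (nat_lit 5) (nat_lit 199) (nat_lit 5) (nat_lit 452) (nat_lit 376) (nat_lit 312))) (XT.nd (nat_lit 78) (nat_lit 608) (nat_lit 0) (XT.lf (nat_lit 0) (nat_lit 7546607378) (nat_lit 532) (nat_lit 1583504863) (nat_lit 76) (nat_lit 876555938) (nat_lit 192) (nat_lit 5) (nat_lit 199) (nat_lit 5) (nat_lit 193) (nat_lit 5) (nat_lit 453) (nat_lit 376) (nat_lit 311)) (XT.lf (nat_lit 0) (nat_lit 262656669) (nat_lit 608) (nat_lit 5620795405) (nat_lit 76) (nat_lit 4232546876) (nat_lit 184) (nat_lit 5) (nat_lit 192) (nat_lit 5) (nat_lit 185) (nat_lit 5)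 (nat_lit 454) (nat_lit 376) (nat_lit 310))))))))
noncomputable def xc92 : XT := (XT.nd (nat_lit 2184) (nat_lit 3648) (nat_lit 0) (XT.nd (nat_lit 1092) (nat_lit 2964) (nat_lit 0) (XT.nd (nat_lit 546) (nat_lit 1748) (nat_lit 0) (XT.nd (nat_lit 234) (nat_lit 988) (nat_lit 0) (XT.nd (nat_lit 78) (nat_lit 456) (nat_lit 0) (XT.lf (nat_lit 0) (nat_lit 436576956) (nat_lit 456) (nat_lit 2552443720) (nat_lit 532) (nat_lit 7238543866) (nat_lit 178) (nat_lit 5) (nat_lit 184) (nat_lit 5) (nat_lit 185) (nat_lit 5) (nat_lit 455) (nat_lit 376) (nat_lit 309)) (XT.nd (nat_lit 78) (nat_lit 456) (nat_lit 0) (XT.lf (nat_lit 0) (nat_lit 5782208998) (nat_lit 532) (nat_lit 3697776508) (nat_lit 76) (nat_lit 861145756) (nat_lit 178) (nat_lit 5) (nat_lit 185) (nat_lit 5) (nat_lit 179) (nat_lit 5) (nat_lit 456) (nat_lit 376) (nat_lit 308)) (XT.lf (nat_lit 0) (nat_lit 2491184914) (nat_lit 456) (nat_lit 6142606402) (nat_lit 532) (nat_lit 1823142847)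 (nat_lit 172) (nat_lit 5) (nat_lit 178) (nat_lit 5) (nat_lit 179) (nat_lit 5) (nat_lit 457) (nat_lit 376) (nat_lit 307)))) (XT.nd (nat_lit 156) (nat_lit 456) (nat_lit 0) (XT.nd (nat_lit 78) (nat_lit 456) (nat_lit 0) (XT.lf (nat_lit 0) (nat_lit 949209484) (nat_lit 532) (nat_lit 1768978338) (nat_lit 76) (nat_lit 7856863649) (nat_lit 171) (nat_lit 5) (nat_lit 178) (nat_lit 5) (nat_lit 172) (nat_lit 5) (nat_lit 458) (nat_lit 376) (nat_lit 306)) (XT.lf (nat_lit 0) (nat_lit 3757609743) (nat_lit 532) (nat_lit 6142307278) (nat_lit 76) (nat_lit 795287388) (nat_lit 165) (nat_lit 5) (nat_lit 172) (nat_lit 5) (nat_lit 166) (nat_lit 5) (nat_lit 459) (nat_lit 376) (nat_lit 305))) (XT.nd (nat_lit 78) (nat_lit 0) (nat_lit 0) (XT.lf (nat_lit 0) (nat_lit 150092936) (nat_lit 456) (nat_lit 6473418109) (nat_lit 532) (nat_lit 4194236973) (nat_lit 159) (nat_lit 5) (nat_lit 165) (nat_lit 5) (nat_lit 166) (nat_lit 5) (nat_lit 460) (nat_lit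 376) (nat_lit 304)) (XT.lf (nat_lit 0) (nat_lit 6610412734) (nat_lit 456) (nat_lit 2948256466) (nat_lit 532) (nat_lit 1383848515) (nat_lit 159) (nat_lit 5) (nat_lit 165) (nat_lit 5) (nat_lit 166) (nat_lit 5) (nat_lit 461) (nat_lit 376) (nat_lit 303))))) (XT.nd (nat_lit 234) (nat_lit 836) (nat_lit 0) (XT.nd (nat_lit 78) (nat_lit 456) (nat_lit 0) (XT.lf (nat_lit 0) (nat_lit 1452355654) (nat_lit 456) (nat_lit 8966800043) (nat_lit 76) (nat_lit 650666931) (nat_lit 153) (nat_lit 5) (nat_lit 159) (nat_lit 5) (nat_lit 154) (nat_lit 5) (nat_lit 462) (nat_lit 376) (nat_lit 302)) (XT.nd (nat_lit 78) (nat_lit 456) (nat_lit 0) (XT.lf (nat_lit 0) (nat_lit 4346877293) (nat_lit 456) (nat_lit 2543417378) (nat_lit 76) (nat_lit 4308806747) (nat_lit 153) (nat_lit 5) (nat_lit 159) (nat_lit 5) (nat_lit 154) (nat_lit 5) (nat_lit 463) (nat_lit 376) (nat_lit 301)) (XT.lf (nat_lit 0) (nat_lit 4020954042) (nat_lit 456) (nat_lit 3276322115)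 (nat_lit 532) (nat_lit 4033742819) (nat_lit 147) (nat_lit 5) (nat_lit 153) (nat_lit 5) (nat_lit 154) (nat_lit 5) (nat_lit 464) (nat_lit 376) (nat_lit 300)))) (XT.nd (nat_lit 156) (nat_lit 380) (nat_lit 0) (XT.nd (nat_lit 78) (nat_lit 456) (nat_lit 0) (XT.lf (nat_lit 0) (nat_lit 10298618614) (nat_lit 532) (nat_lit 757358909) (nat_lit 76) (nat_lit 409771323) (nat_lit 147) (nat_lit 5) (nat_lit 154) (nat_lit 5) (nat_lit 148) (nat_lit 5) (nat_lit 465) (nat_lit 376) (nat_lit 299)) (XT.lf (nat_lit 0) (nat_lit 1766903402) (nat_lit 456) (nat_lit 5671151820) (nat_lit 76) (nat_lit 4164239551) (nat_lit 141) (nat_lit 5) (nat_lit 147) (nat_lit 5) (nat_lit 142) (nat_lit 5) (nat_lit 466) (nat_lit 376) (nat_lit 298))) (XT.nd (nat_lit 78) (nat_lit 0) (nat_lit 0) (XT.lf (nat_lit 0) (nat_lit 987640208) (nat_lit 380) (nat_lit 3740622537) (nat_lit 456) (nat_lit 7013481063) (nat_lit 136) (nat_lit 5) (nat_lit 141) (nat_lit 5) (nat_lit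 142) (nat_lit 5) (nat_lit 467) (nat_lit 376) (nat_lit 297)) (XT.lf (nat_lit 0) (nat_lit 7760284419) (nat_lit 456) (nat_lit 4067160105) (nat_lit 76) (nat_lit 56320306) (nat_lit 136) (nat_lit 5) (nat_lit 142) (nat_lit 5) (nat_lit 137) (nat_lit 5) (nat_lit 468) (nat_lit 376) (nat_lit 296)))))) (XT.nd (nat_lit 546) (nat_lit 1368) (nat_lit 0) (XT.nd (nat_lit 234) (nat_lit 760) (nat_lit 0) (XT.nd (nat_lit 78) (nat_lit 456) (nat_lit 0) (XT.lf (nat_lit 0) (nat_lit 2725306827) (nat_lit 380) (nat_lit 8143564370) (nat_lit 456) (nat_lit 1159448062) (nat_lit 131) (nat_lit 5) (nat_lit 136) (nat_lit 5) (nat_lit 137) (nat_lit 5) (nat_lit 469) (nat_lit 376) (nat_lit 295)) (XT.nd (nat_lit 78) (nat_lit 380) (nat_lit 0) (XT.lf (nat_lit 0) (nat_lit 1840433957) (nat_lit 456) (nat_lit 2518037441) (nat_lit 76) (nat_lit 7817042103) (nat_lit 130) (nat_lit 5) (nat_lit 136) (nat_lit 5) (nat_lit 131) (nat_lit 5) (nat_lit 470) (nat_lit 376)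 (nat_lit 294)) (XT.lf (nat_lit 0) (nat_lit 4414332913) (nat_lit 380) (nat_lit 473190213) (nat_lit 456) (nat_lit 7437931350) (nat_lit 125) (nat_lit 5) (nat_lit 130) (nat_lit 5) (nat_lit 131) (nat_lit 5) (nat_lit 471) (nat_lit 376) (nat_lit 293)))) (XT.nd (nat_lit 156) (nat_lit 456) (nat_lit 0) (XT.nd (nat_lit 78) (nat_lit 304) (nat_lit 0) (XT.lf (nat_lit 0) (nat_lit 8009459112) (nat_lit 456) (nat_lit 1020052482) (nat_lit 76) (nat_lit 3448615182) (nat_lit 125) (nat_lit 5) (nat_lit 131) (nat_lit 5) (nat_lit 126) (nat_lit 5) (nat_lit 472) (nat_lit 376) (nat_lit 292)) (XT.lf (nat_lit 0) (nat_lit 6047062072) (nat_lit 304) (nat_lit 5163909833) (nat_lit 380) (nat_lit 1422548251) (nat_lit 121) (nat_lit 5) (nat_lit 125) (nat_lit 5) (nat_lit 126) (nat_lit 5) (nat_lit 473) (nat_lit 376) (nat_lit 291))) (XT.nd (nat_lit 78) (nat_lit 0) (nat_lit 0) (XT.lf (nat_lit 0) (nat_lit 434127488) (nat_lit 380) (nat_lit 1212800324) (nat_lit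 456) (nat_lit 11145194314) (nat_lit 115) (nat_lit 5) (nat_lit 120) (nat_lit 5) (nat_lit 121) (nat_lit 5) (nat_lit 474) (nat_lit 376) (nat_lit 290)) (XT.lf (nat_lit 0) (nat_lit 4796529084) (nat_lit 456) (nat_lit 5334831917) (nat_lit 76) (nat_lit 2821601200) (nat_lit 115) (nat_lit 5) (nat_lit 121) (nat_lit 5) (nat_lit 116) (nat_lit 5) (nat_lit 475) (nat_lit 376) (nat_lit 289))))) (XT.nd (nat_lit 234) (nat_lit 684) (nat_lit 0) (XT.nd (nat_lit 78) (nat_lit 380) (nat_lit 0) (XT.lf (nat_lit 0) (nat_lit 1806990530) (nat_lit 304) (nat_lit 6197368872) (nat_lit 380) (nat_lit 5112764540) (nat_lit 111) (nat_lit 5) (nat_lit 115) (nat_lit 5) (nat_lit 116) (nat_lit 5) (nat_lit 476) (nat_lit 376) (nat_lit 288)) (XT.nd (nat_lit 78) (nat_lit 380) (nat_lit 0) (XT.lf (nat_lit 0) (nat_lit 9126740250) (nat_lit 304) (nat_lit 2161117892) (nat_lit 380) (nat_lit 1996489955) (nat_lit 111) (nat_lit 5) (nat_lit 115) (nat_lit 5) (nat_lit 116)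 (nat_lit 5) (nat_lit 477) (nat_lit 376) (nat_lit 287)) (XT.lf (nat_lit 0) (nat_lit 1175780976) (nat_lit 380) (nat_lit 10333064025) (nat_lit 76) (nat_lit 1945743797) (nat_lit 106) (nat_lit 5) (nat_lit 111) (nat_lit 5) (nat_lit 107) (nat_lit 5) (nat_lit 478) (nat_lit 376) (nat_lit 286)))) (XT.nd (nat_lit 156) (nat_lit 380) (nat_lit 0) (XT.nd (nat_lit 78) (nat_lit 304) (nat_lit 0) (XT.lf (nat_lit 0) (nat_lit 4403356904) (nat_lit 380) (nat_lit 3089777654) (nat_lit 76) (nat_lit 6134472841) (nat_lit 106) (nat_lit 5) (nat_lit 111) (nat_lit 5) (nat_lit 107) (nat_lit 5) (nat_lit 479) (nat_lit 376) (nat_lit 285)) (XT.lf (nat_lit 0) (nat_lit 4318760612) (nat_lit 304) (nat_lit 3381402278) (nat_lit 380) (nat_lit 6103838611) (nat_lit 102) (nat_lit 5) (nat_lit 106) (nat_lit 5) (nat_lit 107) (nat_lit 5) (nat_lit 480) (nat_lit 376) (nat_lit 284))) (XT.nd (nat_lit 78) (nat_lit 380) (nat_lit 0) (XT.lf (nat_lit 0) (nat_lit 11065830942)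 (nat_lit 380) (nat_lit 2107973725) (nat_lit 76) (nat_lit 810068828) (nat_lit 102) (nat_lit 5) (nat_lit 107) (nat_lit 5) (nat_lit 103) (nat_lit 5) (nat_lit 481) (nat_lit 376) (nat_lit 283)) (XT.lf (nat_lit 0) (nat_lit 362227465) (nat_lit 380) (nat_lit 8739066779) (nat_lit 76) (nat_lit 5065311736) (nat_lit 97) (nat_lit 5) (nat_lit 102) (nat_lit 5) (nat_lit 98) (nat_lit 5) (nat_lit 482) (nat_lit 376) (nat_lit 282))))))) (XT.nd (nat_lit 1092) (nat_lit 1672) (nat_lit 0) (XT.nd (nat_lit 546) (nat_lit 836) (nat_lit 0) (XT.nd (nat_lit 234) (nat_lit 912) (nat_lit 0) (XT.nd (nat_lit 78) (nat_lit 228) (nat_lit 0) (XT.lf (nat_lit 0) (nat_lit 3660599079) (nat_lit 380) (nat_lit 1265557619) (nat_lit 76) (nat_lit 9426627311) (nat_lit 97) (nat_lit 5) (nat_lit 102) (nat_lit 5) (nat_lit 98) (nat_lit 5) (nat_lit 483) (nat_lit 376) (nat_lit 281)) (XT.nd (nat_lit 78) (nat_lit 0) (nat_lit 0) (XT.lf (nat_lit 0) (nat_lit 6406378332) (nat_lit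 228) (nat_lit 637892454) (nat_lit 304) (nat_lit 7498036040) (nat_lit 94) (nat_lit 5) (nat_lit 97) (nat_lit 5) (nat_lit 98) (nat_lit 5) (nat_lit 484) (nat_lit 376) (nat_lit 280)) (XT.lf (nat_lit 0) (nat_lit 10506287764) (nat_lit 304) (nat_lit 546055276) (nat_lit 76) (nat_lit 3683071348) (nat_lit 94) (nat_lit 5) (nat_lit 98) (nat_lit 5) (nat_lit 95) (nat_lit 5) (nat_lit 485) (nat_lit 376) (nat_lit 279)))) (XT.nd (nat_lit 156) (nat_lit 304) (nat_lit 0) (XT.nd (nat_lit 78) (nat_lit 304) (nat_lit 0) (XT.lf (nat_lit 0) (nat_lit 7251993053) (nat_lit 304) (nat_lit 6815160796) (nat_lit 380) (nat_lit 864645650) (nat_lit 90) (nat_lit 5) (nat_lit 94) (nat_lit 5) (nat_lit 95) (nat_lit 5) (nat_lit 486) (nat_lit 376) (nat_lit 278)) (XT.lf (nat_lit 0) (nat_lit 30496448) (nat_lit 228) (nat_lit 2485199564) (nat_lit 304) (nat_lit 12616445443) (nat_lit 86) (nat_lit 5) (nat_lit 89) (nat_lit 5) (nat_lit 90) (nat_lit 5) (nat_lit 487)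 (nat_lit 376) (nat_lit 277))) (XT.nd (nat_lit 78) (nat_lit 304) (nat_lit 0) (XT.lf (nat_lit 0) (nat_lit 5994964683) (nat_lit 304) (nat_lit 7389661254) (nat_lit 76) (nat_lit 1950899189) (nat_lit 86) (nat_lit 5) (nat_lit 90) (nat_lit 5) (nat_lit 87) (nat_lit 5) (nat_lit 488) (nat_lit 376) (nat_lit 276)) (XT.lf (nat_lit 0) (nat_lit 431744929) (nat_lit 304) (nat_lit 9110227838) (nat_lit 380) (nat_lit 6001047619) (nat_lit 82) (nat_lit 5) (nat_lit 86) (nat_lit 5) (nat_lit 87) (nat_lit 5) (nat_lit 489) (nat_lit 376) (nat_lit 275))))) (XT.nd (nat_lit 234) (nat_lit 532) (nat_lit 0) (XT.nd (nat_lit 78) (nat_lit 304) (nat_lit 0) (XT.lf (nat_lit 0) (nat_lit 8475950480) (nat_lit 304) (nat_lit 4712646074) (nat_lit 380) (nat_lit 2565502346) (nat_lit 82) (nat_lit 5) (nat_lit 86) (nat_lit 5) (nat_lit 87) (nat_lit 5) (nat_lit 490) (nat_lit 376) (nat_lit 274)) (XT.nd (nat_lit 78) (nat_lit 0) (nat_lit 0) (XT.lf (nat_lit 0) (nat_lit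 681062582) (nat_lit 228) (nat_lit 229155900) (nat_lit 304) (nat_lit 15059389664) (nat_lit 78) (nat_lit 5) (nat_lit 81) (nat_lit 5) (nat_lit 82) (nat_lit 5) (nat_lit 491) (nat_lit 376) (nat_lit 273)) (XT.lf (nat_lit 0) (nat_lit 4477962799) (nat_lit 304) (nat_lit 7369382282) (nat_lit 76) (nat_lit 4340612577) (nat_lit 78) (nat_lit 5) (nat_lit 82) (nat_lit 5) (nat_lit 79) (nat_lit 5) (nat_lit 492) (nat_lit 376) (nat_lit 272)))) (XT.nd (nat_lit 156) (nat_lit 304) (nat_lit 0) (XT.nd (nat_lit 78) (nat_lit 0) (nat_lit 0) (XT.lf (nat_lit 0) (nat_lit 682729375) (nat_lit 228) (nat_lit 7420146899) (nat_lit 304) (nat_lit 8308087939) (nat_lit 75) (nat_lit 5) (nat_lit 78) (nat_lit 5) (nat_lit 79) (nat_lit 5) (nat_lit 493) (nat_lit 376) (nat_lit 271)) (XT.lf (nat_lit 0) (nat_lit 8963122021) (nat_lit 228) (nat_lit 2866665187) (nat_lit 304) (nat_lit 4808059920) (nat_lit 75) (nat_lit 5) (nat_lit 78) (nat_lit 5) (nat_lit 79) (nat_lit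 5) (nat_lit 494) (nat_lit 376) (nat_lit 270))) (XT.nd (nat_lit 78) (nat_lit 76) (nat_lit 0) (XT.lf (nat_lit 0) (nat_lit 502571574) (nat_lit 228) (nat_lit 15123828174) (nat_lit 304) (nat_lit 1242970776) (nat_lit 72) (nat_lit 5) (nat_lit 75) (nat_lit 5) (nat_lit 76) (nat_lit 5) (nat_lit 495) (nat_lit 376) (nat_lit 269)) (XT.lf (nat_lit 0) (nat_lit 2413256019) (nat_lit 304) (nat_lit 8224297509) (nat_lit 76) (nat_lit 6466641404) (nat_lit 71) (nat_lit 5) (nat_lit 75) (nat_lit 5) (nat_lit 72) (nat_lit 5) (nat_lit 496) (nat_lit 376) (nat_lit 268)))))) (XT.nd (nat_lit 546) (nat_lit 912) (nat_lit 0) (XT.nd (nat_lit 234) (nat_lit 532) (nat_lit 0) (XT.nd (nat_lit 78) (nat_lit 0) (nat_lit 0) (XT.lf (nat_lit 0) (nat_lit 41618219) (nat_lit 228) (nat_lit 6065414812) (nat_lit 304) (nat_lit 11236902833) (nat_lit 68) (nat_lit 5) (nat_lit 71) (nat_lit 5) (nat_lit 72) (nat_lit 5) (nat_lit 497) (nat_lit 376) (nat_lit 267)) (XT.nd (nat_lit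 78) (nat_lit 0) (nat_lit 0) (XT.lf (nat_lit 0) (nat_lit 8552793681) (nat_lit 228) (nat_lit 1358036568) (nat_lit 304) (nat_lit 7676924101) (nat_lit 68) (nat_lit 5) (nat_lit 71) (nat_lit 5) (nat_lit 72) (nat_lit 5) (nat_lit 498) (nat_lit 376) (nat_lit 266)) (XT.lf (nat_lit 0) (nat_lit 13794310009) (nat_lit 304) (nat_lit 655836012) (nat_lit 76) (nat_lit 3386236568) (nat_lit 68) (nat_lit 5) (nat_lit 72) (nat_lit 5) (nat_lit 69) (nat_lit 5) (nat_lit 499) (nat_lit 376) (nat_lit 265)))) (XT.nd (nat_lit 156) (nat_lit 228) (nat_lit 0) (XT.nd (nat_lit 78) (nat_lit 76) (nat_lit 0) (XT.lf (nat_lit 0) (nat_lit 7955606886) (nat_lit 228) (nat_lit 9842116018) (nat_lit 304) (nat_lit 291420627) (nat_lit 65) (nat_lit 5) (nat_lit 68) (nat_lit 5) (nat_lit 69) (nat_lit 5) (nat_lit 500) (nat_lit 376) (nat_lit 264)) (XT.lf (nat_lit 0) (nat_lit 3473976236) (nat_lit 304) (nat_lit 1652336278) (nat_lit 76) (nat_lit 13220471762) (nat_lit 64)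 (nat_lit 5) (nat_lit 68) (nat_lit 5) (nat_lit 65) (nat_lit 5) (nat_lit 501) (nat_lit 376) (nat_lit 263))) (XT.nd (nat_lit 78) (nat_lit 0) (nat_lit 0) (XT.lf (nat_lit 0) (nat_lit 7059082953) (nat_lit 228) (nat_lit 279545554) (nat_lit 304) (nat_lit 11270358908) (nat_lit 61) (nat_lit 5) (nat_lit 64) (nat_lit 5) (nat_lit 65) (nat_lit 5) (nat_lit 502) (nat_lit 376) (nat_lit 262)) (XT.lf (nat_lit 0) (nat_lit 11304112494) (nat_lit 304) (nat_lit 2969582704) (nat_lit 76) (nat_lit 4602273642) (nat_lit 61) (nat_lit 5) (nat_lit 65) (nat_lit 5) (nat_lit 62) (nat_lit 5) (nat_lit 503) (nat_lit 376) (nat_lit 261))))) (XT.nd (nat_lit 312) (nat_lit 456) (nat_lit 0) (XT.nd (nat_lit 156) (nat_lit 228) (nat_lit 0) (XT.nd (nat_lit 78) (nat_lit 76) (nat_lit 0) (XT.lf (nat_lit 0) (nat_lit 5827370181) (nat_lit 152) (nat_lit 9543667909) (nat_lit 228) (nat_lit 3776814064) (nat_lit 59) (nat_lit 5) (nat_lit 61) (nat_lit 5) (nat_lit 62) (nat_lit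 5) (nat_lit 504) (nat_lit 376) (nat_lit 260)) (XT.lf (nat_lit 0) (nat_lit 95433087) (nat_lit 228) (nat_lit 4614596262) (nat_lit 76) (nat_lit 14715085501) (nat_lit 58) (nat_lit 5) (nat_lit 61) (nat_lit 5) (nat_lit 59) (nat_lit 5) (nat_lit 505) (nat_lit 376) (nat_lit 259))) (XT.nd (nat_lit 78) (nat_lit 0) (nat_lit 0) (XT.lf (nat_lit 0) (nat_lit 4006832521) (nat_lit 304) (nat_lit 15441570779) (nat_lit 76) (nat_lit 258779244) (nat_lit 55) (nat_lit 5) (nat_lit 59) (nat_lit 5) (nat_lit 56) (nat_lit 5) (nat_lit 506) (nat_lit 376) (nat_lit 258)) (XT.lf (nat_lit 0) (nat_lit 8041719382) (nat_lit 304) (nat_lit 6668785061) (nat_lit 76) (nat_lit 5283486484) (nat_lit 55) (nat_lit 5) (nat_lit 59) (nat_lit 5) (nat_lit 56) (nat_lit 5) (nat_lit 507) (nat_lit 376) (nat_lit 257)))) (XT.nd (nat_lit 156) (nat_lit 304) (nat_lit 0) (XT.nd (nat_lit 78) (nat_lit 0) (nat_lit 0) (XT.lf (nat_lit 0) (nat_lit 2280849040) (nat_lit 152) (nat_lit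 9874494848) (nat_lit 228) (nat_lit 8131235230) (nat_lit 53) (nat_lit 5) (nat_lit 55) (nat_lit 5) (nat_lit 56) (nat_lit 5) (nat_lit 508) (nat_lit 376) (nat_lit 256)) (XT.lf (nat_lit 0) (nat_lit 11471539526) (nat_lit 152) (nat_lit 4907828382) (nat_lit 228) (nat_lit 4205092974) (nat_lit 53) (nat_lit 5) (nat_lit 55) (nat_lit 5) (nat_lit 56) (nat_lit 5) (nat_lit 509) (nat_lit 376) (nat_lit 255))) (XT.nd (nat_lit 78) (nat_lit 304) (nat_lit 0) (XT.lf (nat_lit 0) (nat_lit 20672526756) (nat_lit 228) (nat_lit 71316984) (nat_lit 76) (nat_lit 144767720) (nat_lit 53) (nat_lit 5) (nat_lit 56) (nat_lit 5) (nat_lit 54) (nat_lit 5) (nat_lit 510) (nat_lit 376) (nat_lit 254)) (XT.lf (nat_lit 0) (nat_lit 3878936425) (nat_lit 304) (nat_lit 12010893550) (nat_lit 76) (nat_lit 5306983656) (nat_lit 49) (nat_lit 5) (nat_lit 53) (nat_lit 5) (nat_lit 50) (nat_lit 5) (nat_lit 511) (nat_lit 376) (nat_lit 253))))))))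
noncomputable def xc93 : XT := (XT.nd (nat_lit 50310) (nat_lit 0) (nat_lit 24928) (XT.nd (nat_lit 1092) (nat_lit 228) (nat_lit 0) (XT.nd (nat_lit 546) (nat_lit 532) (nat_lit 0) (XT.nd (nat_lit 234) (nat_lit 456) (nat_lit 0) (XT.nd (nat_lit 78) (nat_lit 152) (nat_lit 0) (XT.lf (nat_lit 0) (nat_lit 8037425506) (nat_lit 304) (nat_lit 2910855898) (nat_lit 76) (nat_lit 10563184675) (nat_lit 49) (nat_lit 5) (nat_lit 53) (nat_lit 5) (nat_lit 50) (nat_lit 5) (nat_lit 512) (nat_lit 376) (nat_lit 252)) (XT.nd (nat_lit 78) (nat_lit 0) (nat_lit 0) (XT.lf (nat_lit 0) (nat_lit 6428513181) (nat_lit 152) (nat_lit 5876600001) (nat_lit 228) (nat_lit 9526781758) (nat_lit 47) (nat_lit 5) (nat_lit 49) (nat_lit 5) (nat_lit 50) (nat_lit 5) (nat_lit 513) (nat_lit 376) (nat_lit 251)) (XT.lf (nat_lit 0) (nat_lit 15967324132) (nat_lit 152) (nat_lit 694788500) (nat_lit 228) (nat_lit 5496544449) (nat_lit 47) (nat_lit 5) (nat_lit 49) (nat_lit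 5) (nat_lit 50) (nat_lit 5) (nat_lit 514) (nat_lit 376) (nat_lit 250)))) (XT.nd (nat_lit 156) (nat_lit 152) (nat_lit 0) (XT.nd (nat_lit 78) (nat_lit 76) (nat_lit 0) (XT.lf (nat_lit 0) (nat_lit 3190479848) (nat_lit 228) (nat_lit 17950951116) (nat_lit 304) (nat_lit 1349823709) (nat_lit 44) (nat_lit 5) (nat_lit 47) (nat_lit 5) (nat_lit 48) (nat_lit 5) (nat_lit 515) (nat_lit 376) (nat_lit 249)) (XT.lf (nat_lit 0) (nat_lit 2873169400) (nat_lit 304) (nat_lit 10035941237) (nat_lit 76) (nat_lit 9920401116) (nat_lit 43) (nat_lit 5) (nat_lit 47) (nat_lit 5) (nat_lit 44) (nat_lit 5) (nat_lit 516) (nat_lit 376) (nat_lit 248))) (XT.nd (nat_lit 78) (nat_lit 152) (nat_lit 0) (XT.lf (nat_lit 0) (nat_lit 7147549407) (nat_lit 304) (nat_lit 620777500) (nat_lit 76) (nat_lit 15406332166) (nat_lit 43) (nat_lit 5) (nat_lit 47) (nat_lit 5) (nat_lit 44) (nat_lit 5) (nat_lit 517) (nat_lit 376) (nat_lit 247)) (XT.lf (nat_lit 0) (nat_lit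 9076208664) (nat_lit 152) (nat_lit 2475415823) (nat_lit 228) (nat_lit 11974204202) (nat_lit 41) (nat_lit 5) (nat_lit 43) (nat_lit 5) (nat_lit 44) (nat_lit 5) (nat_lit 518) (nat_lit 376) (nat_lit 246))))) (XT.nd (nat_lit 234) (nat_lit 304) (nat_lit 0) (XT.nd (nat_lit 78) (nat_lit 228) (nat_lit 0) (XT.lf (nat_lit 0) (nat_lit 16052287716) (nat_lit 228) (nat_lit 4952971612) (nat_lit 76) (nat_lit 2878595665) (nat_lit 41) (nat_lit 5) (nat_lit 44) (nat_lit 5) (nat_lit 42) (nat_lit 5) (nat_lit 519) (nat_lit 376) (nat_lit 245)) (XT.nd (nat_lit 78) (nat_lit 76) (nat_lit 0) (XT.lf (nat_lit 0) (nat_lit 4754499215) (nat_lit 152) (nat_lit 15921348395) (nat_lit 228) (nat_lit 3572539909) (nat_lit 39) (nat_lit 5) (nat_lit 41) (nat_lit 5) (nat_lit 42) (nat_lit 5) (nat_lit 520) (nat_lit 376) (nat_lit 244)) (XT.lf (nat_lit 0) (nat_lit 780647700) (nat_lit 228) (nat_lit 9926620212) (nat_lit 76) (nat_lit 13912463807) (nat_lit 38) (nat_lit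 5) (nat_lit 41) (nat_lit 5) (nat_lit 39) (nat_lit 5) (nat_lit 521) (nat_lit 376) (nat_lit 243)))) (XT.nd (nat_lit 156) (nat_lit 152) (nat_lit 0) (XT.nd (nat_lit 78) (nat_lit 152) (nat_lit 0) (XT.lf (nat_lit 0) (nat_lit 5159032076) (nat_lit 228) (nat_lit 216276016) (nat_lit 76) (nat_lit 19623006203) (nat_lit 38) (nat_lit 5) (nat_lit 41) (nat_lit 5) (nat_lit 39) (nat_lit 5) (nat_lit 522) (nat_lit 376) (nat_lit 242)) (XT.lf (nat_lit 0) (nat_lit 9675529582) (nat_lit 228) (nat_lit 15591661957) (nat_lit 76) (nat_lit 116269182) (nat_lit 36) (nat_lit 5) (nat_lit 39) (nat_lit 5) (nat_lit 37) (nat_lit 5) (nat_lit 523) (nat_lit 376) (nat_lit 241))) (XT.nd (nat_lit 78) (nat_lit 152) (nat_lit 0) (XT.lf (nat_lit 0) (nat_lit 14305664820) (nat_lit 228) (nat_lit 5833100741) (nat_lit 76) (nat_lit 5637081405) (nat_lit 36) (nat_lit 5) (nat_lit 39) (nat_lit 5) (nat_lit 37) (nat_lit 5) (nat_lit 524) (nat_lit 376) (nat_lit 240)) (XT.lf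 (nat_lit 0) (nat_lit 4151373063) (nat_lit 152) (nat_lit 14890501577) (nat_lit 228) (nat_lit 7133939843) (nat_lit 34) (nat_lit 5) (nat_lit 36) (nat_lit 5) (nat_lit 37) (nat_lit 5) (nat_lit 525) (nat_lit 376) (nat_lit 239)))))) (XT.nd (nat_lit 48672) (nat_lit 0) (nat_lit 45144) (XT.nd (nat_lit 234) (nat_lit 0) (nat_lit 0) (XT.nd (nat_lit 78) (nat_lit 228) (nat_lit 0) (XT.lf (nat_lit 0) (nat_lit 14391056869) (nat_lit 152) (nat_lit 9507524825) (nat_lit 228) (nat_lit 2684687124) (nat_lit 34) (nat_lit 5) (nat_lit 36) (nat_lit 5) (nat_lit 37) (nat_lit 5) (nat_lit 526) (nat_lit 376) (nat_lit 238)) (XT.nd (nat_lit 78) (nat_lit 152) (nat_lit 0) (XT.lf (nat_lit 0) (nat_lit 1816043379) (nat_lit 228) (nat_lit 2198637521) (nat_lit 76) (nat_lit 22984217416) (nat_lit 33) (nat_lit 5) (nat_lit 36) (nat_lit 5) (nat_lit 34) (nat_lit 5) (nat_lit 527) (nat_lit 376) (nat_lit 237)) (XT.lf (nat_lit 0) (nat_lit 6420976385) (nat_lit 228)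 (nat_lit 19372483010) (nat_lit 76) (nat_lit 1628026135) (nat_lit 31) (nat_lit 5) (nat_lit 34) (nat_lit 5) (nat_lit 32) (nat_lit 5) (nat_lit 528) (nat_lit 376) (nat_lit 236)))) (XT.nd (nat_lit 48282) (nat_lit 0) (nat_lit 47044) (XT.nd (nat_lit 48204) (nat_lit 0) (nat_lit 47348) (XT.lf (nat_lit 0) (nat_lit 11146551009) (nat_lit 228) (nat_lit 9370370397) (nat_lit 76) (nat_lit 7335034928) (nat_lit 31) (nat_lit 5) (nat_lit 34) (nat_lit 5) (nat_lit 32) (nat_lit 5) (nat_lit 529) (nat_lit 376) (nat_lit 235)) (XT.lf (nat_lit 0) (nat_lit 1509857866) (nat_lit 228) (nat_lit 210291607) (nat_lit 0) (nat_lit 1509857866) (nat_lit 654) (nat_lit 5) (nat_lit 657) (nat_lit 4) (nat_lit 654) (nat_lit 4) (nat_lit 386) (nat_lit 377) (nat_lit 377))) (XT.nd (nat_lit 78) (nat_lit 76) (nat_lit 0) (XT.lf (nat_lit 0) (nat_lit 2900287382) (nat_lit 228) (nat_lit 3151504010) (nat_lit 228) (nat_lit 414829770) (nat_lit 651) (nat_lit 4) (nat_lit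 654) (nat_lit 5) (nat_lit 654) (nat_lit 4) (nat_lit 387) (nat_lit 377) (nat_lit 376)) (XT.lf (nat_lit 0) (nat_lit 2563241979) (nat_lit 304) (nat_lit 241939402) (nat_lit 76) (nat_lit 3669382675) (nat_lit 650) (nat_lit 5) (nat_lit 654) (nat_lit 5) (nat_lit 651) (nat_lit 4) (nat_lit 388) (nat_lit 377) (nat_lit 375))))) (XT.nd (nat_lit 234) (nat_lit 1140) (nat_lit 0) (XT.nd (nat_lit 78) (nat_lit 456) (nat_lit 0) (XT.lf (nat_lit 0) (nat_lit 3143749007) (nat_lit 304) (nat_lit 2397757453) (nat_lit 380) (nat_lit 942272607) (nat_lit 646) (nat_lit 5) (nat_lit 650) (nat_lit 5) (nat_lit 651) (nat_lit 4) (nat_lit 389) (nat_lit 377) (nat_lit 374)) (XT.nd (nat_lit 78) (nat_lit 0) (nat_lit 0) (XT.lf (nat_lit 0) (nat_lit 49927290) (nat_lit 380) (nat_lit 1937199179) (nat_lit 456) (nat_lit 4507302691) (nat_lit 640) (nat_lit 5) (nat_lit 645) (nat_lit 5) (nat_lit 646) (nat_lit 5) (nat_lit 390) (nat_lit 377) (nat_lit 373)) (XT.lf (nat_lit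 0) (nat_lit 3502471238) (nat_lit 380) (nat_lit 1409936829) (nat_lit 456) (nat_lit 1593847909) (nat_lit 640) (nat_lit 5) (nat_lit 645) (nat_lit 5) (nat_lit 646) (nat_lit 5) (nat_lit 391) (nat_lit 377) (nat_lit 372)))) (XT.nd (nat_lit 156) (nat_lit 608) (nat_lit 0) (XT.nd (nat_lit 78) (nat_lit 0) (nat_lit 0) (XT.lf (nat_lit 0) (nat_lit 458480514) (nat_lit 456) (nat_lit 832695368) (nat_lit 532) (nat_lit 5228420270) (nat_lit 633) (nat_lit 5) (nat_lit 639) (nat_lit 5) (nat_lit 640) (nat_lit 5) (nat_lit 392) (nat_lit 377) (nat_lit 371)) (XT.lf (nat_lit 0) (nat_lit 3975971084) (nat_lit 456) (nat_lit 186207260) (nat_lit 532) (nat_lit 2371903215) (nat_lit 633) (nat_lit 5) (nat_lit 639) (nat_lit 5) (nat_lit 640) (nat_lit 5) (nat_lit 393) (nat_lit 377) (nat_lit 370))) (XT.nd (nat_lit 78) (nat_lit 0) (nat_lit 0) (XT.lf (nat_lit 0) (nat_lit 474663677) (nat_lit 608) (nat_lit 5573323497) (nat_lit 76) (nat_lit 502077028) (nat_lit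 625) (nat_lit 5) (nat_lit 633) (nat_lit 5) (nat_lit 626) (nat_lit 5) (nat_lit 394) (nat_lit 377) (nat_lit 369)) (XT.lf (nat_lit 0) (nat_lit 3296543568) (nat_lit 608) (nat_lit 2011612618) (nat_lit 76) (nat_lit 1258970747) (nat_lit 625) (nat_lit 5) (nat_lit 633) (nat_lit 5) (nat_lit 626) (nat_lit 5) (nat_lit 395) (nat_lit 377) (nat_lit 368))))))) (XT.nd (nat_lit 1092) (nat_lit 12768) (nat_lit 0) (XT.nd (nat_lit 546) (nat_lit 4332) (nat_lit 0) (XT.nd (nat_lit 234) (nat_lit 1748) (nat_lit 0) (XT.nd (nat_lit 78) (nat_lit 760) (nat_lit 0) (XT.lf (nat_lit 0) (nat_lit 1597679067) (nat_lit 608) (nat_lit 4520495030) (nat_lit 684) (nat_lit 467565886) (nat_lit 617) (nat_lit 5) (nat_lit 625) (nat_lit 5) (nat_lit 626) (nat_lit 5) (nat_lit 396) (nat_lit 377) (nat_lit 367)) (XT.nd (nat_lit 78) (nat_lit 684) (nat_lit 0) (XT.lf (nat_lit 0) (nat_lit 2307192066) (nat_lit 684) (nat_lit 1358917981) (nat_lit 76) (nat_lit 2939436195)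 (nat_lit 616) (nat_lit 5) (nat_lit 625) (nat_lit 5) (nat_lit 617) (nat_lit 5) (nat_lit 397) (nat_lit 377) (nat_lit 366)) (XT.lf (nat_lit 0) (nat_lit 2325832203) (nat_lit 684) (nat_lit 2755220587) (nat_lit 760) (nat_lit 1545707634) (nat_lit 607) (nat_lit 5) (nat_lit 616) (nat_lit 5) (nat_lit 617) (nat_lit 5) (nat_lit 398) (nat_lit 377) (nat_lit 365)))) (XT.nd (nat_lit 156) (nat_lit 912) (nat_lit 0) (XT.nd (nat_lit 78) (nat_lit 760) (nat_lit 0) (XT.lf (nat_lit 0) (nat_lit 1189880432) (nat_lit 760) (nat_lit 598792148) (nat_lit 76) (nat_lit 4860741864) (nat_lit 606) (nat_lit 5) (nat_lit 616) (nat_lit 5) (nat_lit 607) (nat_lit 5) (nat_lit 399) (nat_lit 377) (nat_lit 364)) (XT.lf (nat_lit 0) (nat_lit 3164516670) (nat_lit 760) (nat_lit 752061855) (nat_lit 836) (nat_lit 2756663655) (nat_lit 596) (nat_lit 5) (nat_lit 606) (nat_lit 5) (nat_lit 607) (nat_lit 5) (nat_lit 400) (nat_lit 377) (nat_lit 363))) (XT.nd (nat_lit 78)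 (nat_lit 76) (nat_lit 0) (XT.lf (nat_lit 0) (nat_lit 269991337) (nat_lit 836) (nat_lit 6373209932) (nat_lit 912) (nat_lit 55502963) (nat_lit 585) (nat_lit 5) (nat_lit 596) (nat_lit 5) (nat_lit 597) (nat_lit 5) (nat_lit 401) (nat_lit 377) (nat_lit 362)) (XT.lf (nat_lit 0) (nat_lit 2631027616) (nat_lit 912) (nat_lit 2620896388) (nat_lit 76) (nat_lit 1473128915) (nat_lit 584) (nat_lit 5) (nat_lit 596) (nat_lit 5) (nat_lit 585) (nat_lit 5) (nat_lit 402) (nat_lit 377) (nat_lit 361))))) (XT.nd (nat_lit 234) (nat_lit 2356) (nat_lit 0) (XT.nd (nat_lit 78) (nat_lit 1064) (nat_lit 0) (XT.lf (nat_lit 0) (nat_lit 1233920002) (nat_lit 912) (nat_lit 4083923632) (nat_lit 988) (nat_lit 1435193440) (nat_lit 572) (nat_lit 5) (nat_lit 584) (nat_lit 5) (nat_lit 585) (nat_lit 5) (nat_lit 403) (nat_lit 377) (nat_lit 360)) (XT.nd (nat_lit 78) (nat_lit 988) (nat_lit 0) (XT.lf (nat_lit 0) (nat_lit 1217503863) (nat_lit 988) (nat_lit 1633812339)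 (nat_lit 76) (nat_lit 3931009613) (nat_lit 571) (nat_lit 5) (nat_lit 584) (nat_lit 5) (nat_lit 572) (nat_lit 5) (nat_lit 404) (nat_lit 377) (nat_lit 359)) (XT.lf (nat_lit 0) (nat_lit 2305284552) (nat_lit 988) (nat_lit 1554650870) (nat_lit 1064) (nat_lit 2953015454) (nat_lit 558) (nat_lit 5) (nat_lit 571) (nat_lit 5) (nat_lit 572) (nat_lit 5) (nat_lit 405) (nat_lit 377) (nat_lit 358)))) (XT.nd (nat_lit 156) (nat_lit 1216) (nat_lit 0) (XT.nd (nat_lit 78) (nat_lit 1140) (nat_lit 0) (XT.lf (nat_lit 0) (nat_lit 6300960281) (nat_lit 988) (nat_lit 207001859) (nat_lit 1064) (nat_lit 337228453) (nat_lit 558) (nat_lit 5) (nat_lit 571) (nat_lit 5) (nat_lit 572) (nat_lit 5) (nat_lit 406) (nat_lit 377) (nat_lit 357)) (XT.lf (nat_lit 0) (nat_lit 2273337466) (nat_lit 1140) (nat_lit 3401697129) (nat_lit 76) (nat_lit 1203332046) (nat_lit 543) (nat_lit 5) (nat_lit 558) (nat_lit 5) (nat_lit 544) (nat_lit 5) (nat_lit 407) (nat_lit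 377) (nat_lit 356))) (XT.nd (nat_lit 78) (nat_lit 76) (nat_lit 0) (XT.lf (nat_lit 0) (nat_lit 632622684) (nat_lit 1140) (nat_lit 4251550461) (nat_lit 1216) (nat_lit 2028990798) (nat_lit 528) (nat_lit 5) (nat_lit 543) (nat_lit 5) (nat_lit 544) (nat_lit 5) (nat_lit 408) (nat_lit 377) (nat_lit 355)) (XT.lf (nat_lit 0) (nat_lit 557507641) (nat_lit 1216) (nat_lit 2204276142) (nat_lit 76) (nat_lit 4187511594) (nat_lit 527) (nat_lit 5) (nat_lit 543) (nat_lit 5) (nat_lit 528) (nat_lit 5) (nat_lit 409) (nat_lit 377) (nat_lit 354)))))) (XT.nd (nat_lit 546) (nat_lit 7296) (nat_lit 0) (XT.nd (nat_lit 234) (nat_lit 2888) (nat_lit 0) (XT.nd (nat_lit 78) (nat_lit 1368) (nat_lit 0) (XT.lf (nat_lit 0) (nat_lit 1920383216) (nat_lit 1216) (nat_lit 1205591459) (nat_lit 1292) (nat_lit 3860809087) (nat_lit 511) (nat_lit 5) (nat_lit 527) (nat_lit 5) (nat_lit 528) (nat_lit 5) (nat_lit 410) (nat_lit 377) (nat_lit 353)) (XT.nd (nat_lit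 78) (nat_lit 1368) (nat_lit 0) (XT.lf (nat_lit 0) (nat_lit 5708946003) (nat_lit 1292) (nat_lit 915670760) (nat_lit 76) (nat_lit 401192148) (nat_lit 511) (nat_lit 5) (nat_lit 528) (nat_lit 5) (nat_lit 512) (nat_lit 5) (nat_lit 411) (nat_lit 377) (nat_lit 352)) (XT.lf (nat_lit 0) (nat_lit 1237292203) (nat_lit 1368) (nat_lit 3765680942) (nat_lit 76) (nat_lit 2063001424) (nat_lit 493) (nat_lit 5) (nat_lit 511) (nat_lit 5) (nat_lit 494) (nat_lit 5) (nat_lit 412) (nat_lit 377) (nat_lit 351)))) (XT.nd (nat_lit 156) (nat_lit 1520) (nat_lit 0) (XT.nd (nat_lit 78) (nat_lit 0) (nat_lit 0) (XT.lf (nat_lit 0) (nat_lit 458075658) (nat_lit 1368) (nat_lit 3323186794) (nat_lit 1444) (nat_lit 3326426532) (nat_lit 475) (nat_lit 5) (nat_lit 493) (nat_lit 5) (nat_lit 494) (nat_lit 5) (nat_lit 413) (nat_lit 377) (nat_lit 350)) (XT.lf (nat_lit 0) (nat_lit 4772311211) (nat_lit 1368) (nat_lit 1577002563) (nat_lit 1444) (nat_lit 801505791)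 (nat_lit 475) (nat_lit 5) (nat_lit 493) (nat_lit 5) (nat_lit 494) (nat_lit 5) (nat_lit 414) (nat_lit 377) (nat_lit 349))) (XT.nd (nat_lit 78) (nat_lit 0) (nat_lit 0) (XT.lf (nat_lit 0) (nat_lit 1713388481) (nat_lit 1520) (nat_lit 5249776825) (nat_lit 76) (nat_lit 232206428) (nat_lit 455) (nat_lit 5) (nat_lit 475) (nat_lit 5) (nat_lit 456) (nat_lit 5) (nat_lit 415) (nat_lit 377) (nat_lit 348)) (XT.lf (nat_lit 0) (nat_lit 4243698059) (nat_lit 1520) (nat_lit 913618930) (nat_lit 76) (nat_lit 2083918269) (nat_lit 455) (nat_lit 5) (nat_lit 475) (nat_lit 5) (nat_lit 456) (nat_lit 5) (nat_lit 416) (nat_lit 377) (nat_lit 347))))) (XT.nd (nat_lit 312) (nat_lit 2432) (nat_lit 0) (XT.nd (nat_lit 156) (nat_lit 1672) (nat_lit 0) (XT.nd (nat_lit 78) (nat_lit 1672) (nat_lit 0) (XT.lf (nat_lit 0) (nat_lit 3510511606) (nat_lit 1520) (nat_lit 3287217418) (nat_lit 1596) (nat_lit 490867140) (nat_lit 435) (nat_lit 5) (nat_lit 455) (nat_lit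 5) (nat_lit 456) (nat_lit 5) (nat_lit 417) (nat_lit 377) (nat_lit 346)) (XT.lf (nat_lit 0) (nat_lit 648586187) (nat_lit 1596) (nat_lit 1351279824) (nat_lit 1672) (nat_lit 5337590281) (nat_lit 413) (nat_lit 5) (nat_lit 434) (nat_lit 5) (nat_lit 435) (nat_lit 5) (nat_lit 418) (nat_lit 377) (nat_lit 345))) (XT.nd (nat_lit 78) (nat_lit 1672) (nat_lit 0) (XT.lf (nat_lit 0) (nat_lit 4514758648) (nat_lit 1672) (nat_lit 2225183716) (nat_lit 76) (nat_lit 647707985) (nat_lit 413) (nat_lit 5) (nat_lit 435) (nat_lit 5) (nat_lit 414) (nat_lit 5) (nat_lit 419) (nat_lit 377) (nat_lit 344)) (XT.lf (nat_lit 0) (nat_lit 2304011346) (nat_lit 1672) (nat_lit 4752143067) (nat_lit 1748) (nat_lit 383208954) (nat_lit 391) (nat_lit 5) (nat_lit 413) (nat_lit 5) (nat_lit 414) (nat_lit 5) (nat_lit 420) (nat_lit 377) (nat_lit 343)))) (XT.nd (nat_lit 156) (nat_lit 912) (nat_lit 0) (XT.nd (nat_lit 78) (nat_lit 1444) (nat_lit 0) (XT.lf (nat_lit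 0) (nat_lit 2095611217) (nat_lit 1748) (nat_lit 597362663) (nat_lit 76) (nat_lit 4799541957) (nat_lit 390) (nat_lit 5) (nat_lit 413) (nat_lit 5) (nat_lit 391) (nat_lit 5) (nat_lit 421) (nat_lit 377) (nat_lit 342)) (XT.lf (nat_lit 0) (nat_lit 4037283554) (nat_lit 1444) (nat_lit 561332708) (nat_lit 1520) (nat_lit 2948506569) (nat_lit 371) (nat_lit 5) (nat_lit 390) (nat_lit 5) (nat_lit 391) (nat_lit 5) (nat_lit 422) (nat_lit 377) (nat_lit 341))) (XT.nd (nat_lit 78) (nat_lit 76) (nat_lit 0) (XT.lf (nat_lit 0) (nat_lit 1129102031) (nat_lit 836) (nat_lit 5998574633) (nat_lit 912) (nat_lit 475661595) (nat_lit 360) (nat_lit 5) (nat_lit 371) (nat_lit 5) (nat_lit 372) (nat_lit 5) (nat_lit 423) (nat_lit 377) (nat_lit 340)) (XT.lf (nat_lit 0) (nat_lit 2001654269) (nat_lit 912) (nat_lit 1814498492) (nat_lit 76) (nat_lit 3844657148) (nat_lit 359) (nat_lit 5) (nat_lit 371) (nat_lit 5) (nat_lit 360) (nat_lit 5) (nat_lit 424) (nat_lit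 377) (nat_lit 339))))))))
noncomputable def xc94 : XT := (XT.nd (nat_lit 2184) (nat_lit 7296) (nat_lit 0) (XT.nd (nat_lit 1092) (nat_lit 5016) (nat_lit 0) (XT.nd (nat_lit 546) (nat_lit 2964) (nat_lit 0) (XT.nd (nat_lit 234) (nat_lit 2432) (nat_lit 0) (XT.nd (nat_lit 78) (nat_lit 912) (nat_lit 0) (XT.lf (nat_lit 0) (nat_lit 2929062882) (nat_lit 912) (nat_lit 1567431130) (nat_lit 988) (nat_lit 3223421275) (nat_lit 347) (nat_lit 5) (nat_lit 359) (nat_lit 5) (nat_lit 360) (nat_lit 5) (nat_lit 425) (nat_lit 377) (nat_lit 338)) (XT.nd (nat_lit 78) (nat_lit 912) (nat_lit 0) (XT.lf (nat_lit 0) (nat_lit 7014112585) (nat_lit 988) (nat_lit 37919927) (nat_lit 76) (nat_lit 728746067) (nat_lit 347) (nat_lit 5) (nat_lit 360) (nat_lit 5) (nat_lit 348) (nat_lit 5) (nat_lit 426) (nat_lit 377) (nat_lit 337)) (XT.lf (nat_lit 0) (nat_lit 1714811087) (nat_lit 912) (nat_lit 3035686953) (nat_lit 76) (nat_lit 3092199458) (nat_lit 335)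 (nat_lit 5) (nat_lit 347) (nat_lit 5) (nat_lit 336) (nat_lit 5) (nat_lit 427) (nat_lit 377) (nat_lit 336)))) (XT.nd (nat_lit 156) (nat_lit 1596) (nat_lit 0) (XT.nd (nat_lit 78) (nat_lit 0) (nat_lit 0) (XT.lf (nat_lit 0) (nat_lit 1817583386) (nat_lit 836) (nat_lit 2387156761) (nat_lit 912) (nat_lit 3701663048) (nat_lit 324) (nat_lit 5) (nat_lit 335) (nat_lit 5) (nat_lit 336) (nat_lit 5) (nat_lit 428) (nat_lit 377) (nat_lit 335)) (XT.lf (nat_lit 0) (nat_lit 6722689212) (nat_lit 912) (nat_lit 1207446325) (nat_lit 76) (nat_lit 41713940) (nat_lit 324) (nat_lit 5) (nat_lit 336) (nat_lit 5) (nat_lit 325) (nat_lit 5) (nat_lit 429) (nat_lit 377) (nat_lit 334))) (XT.nd (nat_lit 78) (nat_lit 760) (nat_lit 0) (XT.lf (nat_lit 0) (nat_lit 1234549447) (nat_lit 836) (nat_lit 4286081585) (nat_lit 76) (nat_lit 2517869078) (nat_lit 313) (nat_lit 5) (nat_lit 324) (nat_lit 5) (nat_lit 314) (nat_lit 5) (nat_lit 430) (nat_lit 377) (nat_lit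 333)) (XT.lf (nat_lit 0) (nat_lit 677432578) (nat_lit 760) (nat_lit 3044968344) (nat_lit 836) (nat_lit 4384522932) (nat_lit 303) (nat_lit 5) (nat_lit 313) (nat_lit 5) (nat_lit 314) (nat_lit 5) (nat_lit 431) (nat_lit 377) (nat_lit 332))))) (XT.nd (nat_lit 234) (nat_lit 2204) (nat_lit 0) (XT.nd (nat_lit 78) (nat_lit 760) (nat_lit 0) (XT.lf (nat_lit 0) (nat_lit 5753957703) (nat_lit 760) (nat_lit 493960476) (nat_lit 836) (nat_lit 1929068265) (nat_lit 303) (nat_lit 5) (nat_lit 313) (nat_lit 5) (nat_lit 314) (nat_lit 5) (nat_lit 432) (nat_lit 377) (nat_lit 331)) (XT.nd (nat_lit 78) (nat_lit 0) (nat_lit 0) (XT.lf (nat_lit 0) (nat_lit 558745940) (nat_lit 760) (nat_lit 5591863079) (nat_lit 76) (nat_lit 2097978008) (nat_lit 293) (nat_lit 5) (nat_lit 303) (nat_lit 5) (nat_lit 294) (nat_lit 5) (nat_lit 433) (nat_lit 377) (nat_lit 330)) (XT.lf (nat_lit 0) (nat_lit 3050285621) (nat_lit 760) (nat_lit 511092648) (nat_lit 76) (nat_lit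 4760417241) (nat_lit 293) (nat_lit 5) (nat_lit 303) (nat_lit 5) (nat_lit 294) (nat_lit 5) (nat_lit 434) (nat_lit 377) (nat_lit 329)))) (XT.nd (nat_lit 156) (nat_lit 760) (nat_lit 0) (XT.nd (nat_lit 78) (nat_lit 684) (nat_lit 0) (XT.lf (nat_lit 0) (nat_lit 4689104903) (nat_lit 760) (nat_lit 893914137) (nat_lit 836) (nat_lit 2813648233) (nat_lit 283) (nat_lit 5) (nat_lit 293) (nat_lit 5) (nat_lit 294) (nat_lit 5) (nat_lit 435) (nat_lit 377) (nat_lit 328)) (XT.lf (nat_lit 0) (nat_lit 1490768108) (nat_lit 684) (nat_lit 6662003452) (nat_lit 760) (nat_lit 320563477) (nat_lit 274) (nat_lit 5) (nat_lit 283) (nat_lit 5) (nat_lit 284) (nat_lit 5) (nat_lit 436) (nat_lit 377) (nat_lit 327))) (XT.nd (nat_lit 78) (nat_lit 684) (nat_lit 0) (XT.lf (nat_lit 0) (nat_lit 2185766815) (nat_lit 760) (nat_lit 1772641292) (nat_lit 76) (nat_lit 4593013699) (nat_lit 273) (nat_lit 5) (nat_lit 283) (nat_lit 5) (nat_lit 274) (nat_lit 5) (nat_lit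 437) (nat_lit 377) (nat_lit 326)) (XT.lf (nat_lit 0) (nat_lit 3542277330) (nat_lit 684) (nat_lit 1180976837) (nat_lit 760) (nat_lit 3908091671) (nat_lit 264) (nat_lit 5) (nat_lit 273) (nat_lit 5) (nat_lit 274) (nat_lit 5) (nat_lit 438) (nat_lit 377) (nat_lit 325)))))) (XT.nd (nat_lit 546) (nat_lit 2356) (nat_lit 0) (XT.nd (nat_lit 234) (nat_lit 1292) (nat_lit 0) (XT.nd (nat_lit 78) (nat_lit 760) (nat_lit 0) (XT.lf (nat_lit 0) (nat_lit 223029991) (nat_lit 608) (nat_lit 7075348169) (nat_lit 684) (nat_lit 1414776338) (nat_lit 256) (nat_lit 5) (nat_lit 264) (nat_lit 5) (nat_lit 265) (nat_lit 5) (nat_lit 439) (nat_lit 377) (nat_lit 324)) (XT.nd (nat_lit 78) (nat_lit 684) (nat_lit 0) (XT.lf (nat_lit 0) (nat_lit 1118722405) (nat_lit 684) (nat_lit 3145145050) (nat_lit 76) (nat_lit 4532505980) (nat_lit 255) (nat_lit 5) (nat_lit 264) (nat_lit 5) (nat_lit 256) (nat_lit 5) (nat_lit 440) (nat_lit 377) (nat_lit 323)) (XT.lf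 (nat_lit 0) (nat_lit 2283976939) (nat_lit 684) (nat_lit 1378463027) (nat_lit 760) (nat_lit 5219082404) (nat_lit 246) (nat_lit 5) (nat_lit 255) (nat_lit 5) (nat_lit 256) (nat_lit 5) (nat_lit 441) (nat_lit 377) (nat_lit 322)))) (XT.nd (nat_lit 156) (nat_lit 684) (nat_lit 0) (XT.nd (nat_lit 78) (nat_lit 608) (nat_lit 0) (XT.lf (nat_lit 0) (nat_lit 6252468802) (nat_lit 760) (nat_lit 1157687495) (nat_lit 76) (nat_lit 1558331313) (nat_lit 246) (nat_lit 5) (nat_lit 256) (nat_lit 5) (nat_lit 247) (nat_lit 5) (nat_lit 442) (nat_lit 377) (nat_lit 321)) (XT.lf (nat_lit 0) (nat_lit 4396607428) (nat_lit 608) (nat_lit 4500103442) (nat_lit 684) (nat_lit 160454666) (nat_lit 238) (nat_lit 5) (nat_lit 246) (nat_lit 5) (nat_lit 247) (nat_lit 5) (nat_lit 443) (nat_lit 377) (nat_lit 320))) (XT.nd (nat_lit 78) (nat_lit 0) (nat_lit 0) (XT.lf (nat_lit 0) (nat_lit 882764421) (nat_lit 608) (nat_lit 1509826456) (nat_lit 684) (nat_lit 6755160232)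 (nat_lit 229) (nat_lit 5) (nat_lit 237) (nat_lit 5) (nat_lit 238) (nat_lit 5) (nat_lit 444) (nat_lit 377) (nat_lit 319)) (XT.lf (nat_lit 0) (nat_lit 5001291712) (nat_lit 684) (nat_lit 2694140971) (nat_lit 76) (nat_lit 1544580026) (nat_lit 229) (nat_lit 5) (nat_lit 238) (nat_lit 5) (nat_lit 230) (nat_lit 5) (nat_lit 445) (nat_lit 377) (nat_lit 318))))) (XT.nd (nat_lit 234) (nat_lit 1140) (nat_lit 0) (XT.nd (nat_lit 78) (nat_lit 684) (nat_lit 0) (XT.lf (nat_lit 0) (nat_lit 2974510051) (nat_lit 532) (nat_lit 4682907638) (nat_lit 608) (nat_lit 1676816815) (nat_lit 222) (nat_lit 5) (nat_lit 229) (nat_lit 5) (nat_lit 230) (nat_lit 5) (nat_lit 446) (nat_lit 377) (nat_lit 317)) (XT.nd (nat_lit 78) (nat_lit 608) (nat_lit 0) (XT.lf (nat_lit 0) (nat_lit 908334616) (nat_lit 608) (nat_lit 685937664) (nat_lit 76) (nat_lit 7836280295) (nat_lit 221) (nat_lit 5) (nat_lit 229) (nat_lit 5) (nat_lit 222) (nat_lit 5) (nat_lit 447)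 (nat_lit 377) (nat_lit 316)) (XT.lf (nat_lit 0) (nat_lit 3533065216) (nat_lit 684) (nat_lit 4423599970) (nat_lit 76) (nat_lit 1571722405) (nat_lit 213) (nat_lit 5) (nat_lit 222) (nat_lit 5) (nat_lit 214) (nat_lit 5) (nat_lit 448) (nat_lit 377) (nat_lit 315)))) (XT.nd (nat_lit 156) (nat_lit 608) (nat_lit 0) (XT.nd (nat_lit 78) (nat_lit 0) (nat_lit 0) (XT.lf (nat_lit 0) (nat_lit 1357436501) (nat_lit 532) (nat_lit 4843937957) (nat_lit 608) (nat_lit 3427001632) (nat_lit 206) (nat_lit 5) (nat_lit 213) (nat_lit 5) (nat_lit 214) (nat_lit 5) (nat_lit 449) (nat_lit 377) (nat_lit 314)) (XT.lf (nat_lit 0) (nat_lit 7272018986) (nat_lit 532) (nat_lit 1648167228) (nat_lit 608) (nat_lit 810253520) (nat_lit 206) (nat_lit 5) (nat_lit 213) (nat_lit 5) (nat_lit 214) (nat_lit 5) (nat_lit 450) (nat_lit 377) (nat_lit 313))) (XT.nd (nat_lit 78) (nat_lit 0) (nat_lit 0) (XT.lf (nat_lit 0) (nat_lit 1835419482) (nat_lit 608) (nat_lit 6383117131)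 (nat_lit 76) (nat_lit 1615764686) (nat_lit 198) (nat_lit 5) (nat_lit 206) (nat_lit 5) (nat_lit 199) (nat_lit 5) (nat_lit 451) (nat_lit 377) (nat_lit 312)) (XT.lf (nat_lit 0) (nat_lit 4518848477) (nat_lit 608) (nat_lit 485968799) (nat_lit 76) (nat_lit 4935418924) (nat_lit 198) (nat_lit 5) (nat_lit 206) (nat_lit 5) (nat_lit 199) (nat_lit 5) (nat_lit 452) (nat_lit 377) (nat_lit 311))))))) (XT.nd (nat_lit 1092) (nat_lit 2964) (nat_lit 0) (XT.nd (nat_lit 546) (nat_lit 1824) (nat_lit 0) (XT.nd (nat_lit 234) (nat_lit 1444) (nat_lit 0) (XT.nd (nat_lit 78) (nat_lit 608) (nat_lit 0) (XT.lf (nat_lit 0) (nat_lit 5560903585) (nat_lit 456) (nat_lit 1699931973) (nat_lit 532) (nat_lit 2787373173) (nat_lit 192) (nat_lit 5) (nat_lit 198) (nat_lit 5) (nat_lit 199) (nat_lit 5) (nat_lit 453) (nat_lit 377) (nat_lit 310)) (XT.nd (nat_lit 78) (nat_lit 76) (nat_lit 0) (XT.lf (nat_lit 0) (nat_lit 1544967511) (nat_lit 532) (nat_lit 8505924176)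 (nat_lit 608) (nat_lit 107600836) (nat_lit 185) (nat_lit 5) (nat_lit 192) (nat_lit 5) (nat_lit 193) (nat_lit 5) (nat_lit 454) (nat_lit 377) (nat_lit 309)) (XT.lf (nat_lit 0) (nat_lit 2602085770) (nat_lit 608) (nat_lit 2581774753) (nat_lit 76) (nat_lit 5086581138) (nat_lit 184) (nat_lit 5) (nat_lit 192) (nat_lit 5) (nat_lit 185) (nat_lit 5) (nat_lit 455) (nat_lit 377) (nat_lit 308)))) (XT.nd (nat_lit 156) (nat_lit 988) (nat_lit 0) (XT.nd (nat_lit 78) (nat_lit 0) (nat_lit 0) (XT.lf (nat_lit 0) (nat_lit 3576011920) (nat_lit 456) (nat_lit 1781523584) (nat_lit 532) (nat_lit 5027235298) (nat_lit 178) (nat_lit 5) (nat_lit 184) (nat_lit 5) (nat_lit 185) (nat_lit 5) (nat_lit 456) (nat_lit 377) (nat_lit 307)) (XT.lf (nat_lit 0) (nat_lit 8166550416) (nat_lit 532) (nat_lit 661230383) (nat_lit 76) (nat_lit 1673651749) (nat_lit 178) (nat_lit 5) (nat_lit 185) (nat_lit 5) (nat_lit 179) (nat_lit 5) (nat_lit 457) (nat_lit 377) (nat_lit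 306))) (XT.nd (nat_lit 78) (nat_lit 456) (nat_lit 0) (XT.lf (nat_lit 0) (nat_lit 425031807) (nat_lit 532) (nat_lit 4991812261) (nat_lit 76) (nat_lit 5203162446) (nat_lit 171) (nat_lit 5) (nat_lit 178) (nat_lit 5) (nat_lit 172) (nat_lit 5) (nat_lit 458) (nat_lit 377) (nat_lit 305)) (XT.lf (nat_lit 0) (nat_lit 1272307240) (nat_lit 456) (nat_lit 1920076947) (nat_lit 532) (nat_lit 7548603287) (nat_lit 165) (nat_lit 5) (nat_lit 171) (nat_lit 5) (nat_lit 172) (nat_lit 5) (nat_lit 459) (nat_lit 377) (nat_lit 304))))) (XT.nd (nat_lit 234) (nat_lit 1292) (nat_lit 0) (XT.nd (nat_lit 78) (nat_lit 532) (nat_lit 0) (XT.lf (nat_lit 0) (nat_lit 6030482267) (nat_lit 532) (nat_lit 3185905277) (nat_lit 76) (nat_lit 1647706532) (nat_lit 165) (nat_lit 5) (nat_lit 172) (nat_lit 5) (nat_lit 166) (nat_lit 5) (nat_lit 460) (nat_lit 377) (nat_lit 303)) (XT.nd (nat_lit 78) (nat_lit 76) (nat_lit 0) (XT.lf (nat_lit 0) (nat_lit 3212084730)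 (nat_lit 456) (nat_lit 5718385301) (nat_lit 532) (nat_lit 2059103942) (nat_lit 159) (nat_lit 5) (nat_lit 165) (nat_lit 5) (nat_lit 166) (nat_lit 5) (nat_lit 461) (nat_lit 377) (nat_lit 302)) (XT.lf (nat_lit 0) (nat_lit 753962368) (nat_lit 532) (nat_lit 1381041733) (nat_lit 76) (nat_lit 8982608875) (nat_lit 158) (nat_lit 5) (nat_lit 165) (nat_lit 5) (nat_lit 159) (nat_lit 5) (nat_lit 462) (nat_lit 377) (nat_lit 301)))) (XT.nd (nat_lit 156) (nat_lit 456) (nat_lit 0) (XT.nd (nat_lit 78) (nat_lit 456) (nat_lit 0) (XT.lf (nat_lit 0) (nat_lit 3611555427) (nat_lit 456) (nat_lit 6099793180) (nat_lit 76) (nat_lit 1536288131) (nat_lit 153) (nat_lit 5) (nat_lit 159) (nat_lit 5) (nat_lit 154) (nat_lit 5) (nat_lit 463) (nat_lit 377) (nat_lit 300)) (XT.lf (nat_lit 0) (nat_lit 397538716) (nat_lit 456) (nat_lit 6127242168) (nat_lit 532) (nat_lit 4855523153) (nat_lit 147) (nat_lit 5) (nat_lit 153) (nat_lit 5) (nat_lit 154) (nat_lit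 5) (nat_lit 464) (nat_lit 377) (nat_lit 299))) (XT.nd (nat_lit 78) (nat_lit 456) (nat_lit 0) (XT.lf (nat_lit 0) (nat_lit 7068335020) (nat_lit 456) (nat_lit 2441586381) (nat_lit 532) (nat_lit 2005442697) (nat_lit 147) (nat_lit 5) (nat_lit 153) (nat_lit 5) (nat_lit 154) (nat_lit 5) (nat_lit 465) (nat_lit 377) (nat_lit 298)) (XT.lf (nat_lit 0) (nat_lit 885798232) (nat_lit 456) (nat_lit 9458184104) (nat_lit 76) (nat_lit 1309118205) (nat_lit 141) (nat_lit 5) (nat_lit 147) (nat_lit 5) (nat_lit 142) (nat_lit 5) (nat_lit 466) (nat_lit 377) (nat_lit 297)))))) (XT.nd (nat_lit 546) (nat_lit 1444) (nat_lit 0) (XT.nd (nat_lit 234) (nat_lit 1140) (nat_lit 0) (XT.nd (nat_lit 78) (nat_lit 380) (nat_lit 0) (XT.lf (nat_lit 0) (nat_lit 3827509842) (nat_lit 456) (nat_lit 2831642841) (nat_lit 76) (nat_lit 5133795644) (nat_lit 141) (nat_lit 5) (nat_lit 147) (nat_lit 5) (nat_lit 142) (nat_lit 5) (nat_lit 467) (nat_lit 377) (nat_lit 296))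 (XT.nd (nat_lit 78) (nat_lit 0) (nat_lit 0) (XT.lf (nat_lit 0) (nat_lit 3940897843) (nat_lit 380) (nat_lit 2886533643) (nat_lit 456) (nat_lit 5108185547) (nat_lit 136) (nat_lit 5) (nat_lit 141) (nat_lit 5) (nat_lit 142) (nat_lit 5) (nat_lit 468) (nat_lit 377) (nat_lit 295)) (XT.lf (nat_lit 0) (nat_lit 9886700431) (nat_lit 456) (nat_lit 1238272486) (nat_lit 76) (nat_lit 956190473) (nat_lit 136) (nat_lit 5) (nat_lit 142) (nat_lit 5) (nat_lit 137) (nat_lit 5) (nat_lit 469) (nat_lit 377) (nat_lit 294)))) (XT.nd (nat_lit 156) (nat_lit 304) (nat_lit 0) (XT.nd (nat_lit 78) (nat_lit 380) (nat_lit 0) (XT.lf (nat_lit 0) (nat_lit 797951020) (nat_lit 456) (nat_lit 6563375378) (nat_lit 76) (nat_lit 4867591838) (nat_lit 130) (nat_lit 5) (nat_lit 136) (nat_lit 5) (nat_lit 131) (nat_lit 5) (nat_lit 470) (nat_lit 377) (nat_lit 293)) (XT.lf (nat_lit 0) (nat_lit 296290496) (nat_lit 380) (nat_lit 3509422469) (nat_lit 456) (nat_lit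 8573938041) (nat_lit 125) (nat_lit 5) (nat_lit 130) (nat_lit 5) (nat_lit 131) (nat_lit 5) (nat_lit 471) (nat_lit 377) (nat_lit 292))) (XT.nd (nat_lit 78) (nat_lit 304) (nat_lit 0) (XT.lf (nat_lit 0) (nat_lit 6895432173) (nat_lit 456) (nat_lit 5191365574) (nat_lit 76) (nat_lit 446175041) (nat_lit 125) (nat_lit 5) (nat_lit 131) (nat_lit 5) (nat_lit 126) (nat_lit 5) (nat_lit 472) (nat_lit 377) (nat_lit 291)) (XT.lf (nat_lit 0) (nat_lit 1801650647) (nat_lit 304) (nat_lit 8255471916) (nat_lit 380) (nat_lit 2632045099) (nat_lit 121) (nat_lit 5) (nat_lit 125) (nat_lit 5) (nat_lit 126) (nat_lit 5) (nat_lit 473) (nat_lit 377) (nat_lit 290))))) (XT.nd (nat_lit 312) (nat_lit 684) (nat_lit 0) (XT.nd (nat_lit 156) (nat_lit 304) (nat_lit 0) (XT.nd (nat_lit 78) (nat_lit 380) (nat_lit 0) (XT.lf (nat_lit 0) (nat_lit 438253013) (nat_lit 380) (nat_lit 3883237343) (nat_lit 76) (nat_lit 8526741999) (nat_lit 120) (nat_lit 5) (nat_lit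 125) (nat_lit 5) (nat_lit 121) (nat_lit 5) (nat_lit 474) (nat_lit 377) (nat_lit 289)) (XT.lf (nat_lit 0) (nat_lit 3249750085) (nat_lit 380) (nat_lit 281891892) (nat_lit 456) (nat_lit 9478559453) (nat_lit 115) (nat_lit 5) (nat_lit 120) (nat_lit 5) (nat_lit 121) (nat_lit 5) (nat_lit 475) (nat_lit 377) (nat_lit 288))) (XT.nd (nat_lit 78) (nat_lit 304) (nat_lit 0) (XT.lf (nat_lit 0) (nat_lit 6714005910) (nat_lit 456) (nat_lit 2658683824) (nat_lit 76) (nat_lit 3802187425) (nat_lit 115) (nat_lit 5) (nat_lit 121) (nat_lit 5) (nat_lit 116) (nat_lit 5) (nat_lit 476) (nat_lit 377) (nat_lit 287)) (XT.lf (nat_lit 0) (nat_lit 4607666882) (nat_lit 304) (nat_lit 5360558564) (nat_lit 380) (nat_lit 3374466024) (nat_lit 111) (nat_lit 5) (nat_lit 115) (nat_lit 5) (nat_lit 116) (nat_lit 5) (nat_lit 477) (nat_lit 377) (nat_lit 286)))) (XT.nd (nat_lit 156) (nat_lit 304) (nat_lit 0) (XT.nd (nat_lit 78) (nat_lit 380) (nat_lit 0) (XT.lf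 (nat_lit 0) (nat_lit 12019604998) (nat_lit 304) (nat_lit 1262420950) (nat_lit 380) (nat_lit 231955239) (nat_lit 111) (nat_lit 5) (nat_lit 115) (nat_lit 5) (nat_lit 116) (nat_lit 5) (nat_lit 478) (nat_lit 377) (nat_lit 285)) (XT.lf (nat_lit 0) (nat_lit 2969004611) (nat_lit 380) (nat_lit 7793307614) (nat_lit 76) (nat_lit 2925315154) (nat_lit 106) (nat_lit 5) (nat_lit 111) (nat_lit 5) (nat_lit 107) (nat_lit 5) (nat_lit 479) (nat_lit 377) (nat_lit 284))) (XT.nd (nat_lit 78) (nat_lit 304) (nat_lit 0) (XT.lf (nat_lit 0) (nat_lit 6226431901) (nat_lit 380) (nat_lit 459006842) (nat_lit 76) (nat_lit 7179374535) (nat_lit 106) (nat_lit 5) (nat_lit 111) (nat_lit 5) (nat_lit 107) (nat_lit 5) (nat_lit 480) (nat_lit 377) (nat_lit 283)) (XT.lf (nat_lit 0) (nat_lit 7079987936) (nat_lit 304) (nat_lit 2492533223) (nat_lit 380) (nat_lit 4472559829) (nat_lit 102) (nat_lit 5) (nat_lit 106) (nat_lit 5) (nat_lit 107) (nat_lit 5) (nat_lit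 481) (nat_lit 377) (nat_lit 282))))))))
noncomputable def xc95 : XT := (XT.nd (nat_lit 2184) (nat_lit 1672) (nat_lit 0) (XT.nd (nat_lit 1092) (nat_lit 1672) (nat_lit 0) (XT.nd (nat_lit 546) (nat_lit 836) (nat_lit 0) (XT.nd (nat_lit 234) (nat_lit 608) (nat_lit 0) (XT.nd (nat_lit 78) (nat_lit 304) (nat_lit 0) (XT.lf (nat_lit 0) (nat_lit 507147981) (nat_lit 304) (nat_lit 12474042541) (nat_lit 380) (nat_lit 1247858562) (nat_lit 98) (nat_lit 5) (nat_lit 102) (nat_lit 5) (nat_lit 103) (nat_lit 5) (nat_lit 482) (nat_lit 377) (nat_lit 281)) (XT.nd (nat_lit 78) (nat_lit 228) (nat_lit 0) (XT.lf (nat_lit 0) (nat_lit 2055858249) (nat_lit 380) (nat_lit 6257648531) (nat_lit 76) (nat_lit 6102106687) (nat_lit 97) (nat_lit 5) (nat_lit 102) (nat_lit 5) (nat_lit 98) (nat_lit 5) (nat_lit 483) (nat_lit 377) (nat_lit 280)) (XT.lf (nat_lit 0) (nat_lit 1330700848) (nat_lit 228) (nat_lit 4065069843) (nat_lit 304) (nat_lit 9210244602) (nat_lit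 94) (nat_lit 5) (nat_lit 97) (nat_lit 5) (nat_lit 98) (nat_lit 5) (nat_lit 484) (nat_lit 377) (nat_lit 279)))) (XT.nd (nat_lit 156) (nat_lit 304) (nat_lit 0) (XT.nd (nat_lit 78) (nat_lit 304) (nat_lit 0) (XT.lf (nat_lit 0) (nat_lit 8824793371) (nat_lit 304) (nat_lit 5680273428) (nat_lit 76) (nat_lit 294719691) (nat_lit 94) (nat_lit 5) (nat_lit 98) (nat_lit 5) (nat_lit 95) (nat_lit 5) (nat_lit 485) (nat_lit 377) (nat_lit 278)) (XT.lf (nat_lit 0) (nat_lit 2032572528) (nat_lit 304) (nat_lit 10308666842) (nat_lit 380) (nat_lit 2655824310) (nat_lit 90) (nat_lit 5) (nat_lit 94) (nat_lit 5) (nat_lit 95) (nat_lit 5) (nat_lit 486) (nat_lit 377) (nat_lit 277))) (XT.nd (nat_lit 78) (nat_lit 228) (nat_lit 0) (XT.lf (nat_lit 0) (nat_lit 737304664) (nat_lit 380) (nat_lit 5259740405) (nat_lit 76) (nat_lit 9200810776) (nat_lit 89) (nat_lit 5) (nat_lit 94) (nat_lit 5) (nat_lit 90) (nat_lit 5) (nat_lit 487) (nat_lit 377) (nat_lit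 276)) (XT.lf (nat_lit 0) (nat_lit 2582148101) (nat_lit 228) (nat_lit 1576578264) (nat_lit 304) (nat_lit 11243673554) (nat_lit 86) (nat_lit 5) (nat_lit 89) (nat_lit 5) (nat_lit 90) (nat_lit 5) (nat_lit 488) (nat_lit 377) (nat_lit 275))))) (XT.nd (nat_lit 234) (nat_lit 532) (nat_lit 0) (XT.nd (nat_lit 78) (nat_lit 304) (nat_lit 0) (XT.lf (nat_lit 0) (nat_lit 7682450757) (nat_lit 304) (nat_lit 5010783884) (nat_lit 76) (nat_lit 2917129607) (nat_lit 86) (nat_lit 5) (nat_lit 90) (nat_lit 5) (nat_lit 87) (nat_lit 5) (nat_lit 489) (nat_lit 377) (nat_lit 274)) (XT.nd (nat_lit 78) (nat_lit 0) (nat_lit 0) (XT.lf (nat_lit 0) (nat_lit 2950427589) (nat_lit 304) (nat_lit 8335531313) (nat_lit 380) (nat_lit 4536349503) (nat_lit 82) (nat_lit 5) (nat_lit 86) (nat_lit 5) (nat_lit 87) (nat_lit 5) (nat_lit 490) (nat_lit 377) (nat_lit 273)) (XT.lf (nat_lit 0) (nat_lit 11106300628) (nat_lit 304) (nat_lit 3868760681) (nat_lit 380) (nat_lit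 1063166247) (nat_lit 82) (nat_lit 5) (nat_lit 86) (nat_lit 5) (nat_lit 87) (nat_lit 5) (nat_lit 491) (nat_lit 377) (nat_lit 272)))) (XT.nd (nat_lit 156) (nat_lit 228) (nat_lit 0) (XT.nd (nat_lit 78) (nat_lit 0) (nat_lit 0) (XT.lf (nat_lit 0) (nat_lit 2452260848) (nat_lit 304) (nat_lit 13102707445) (nat_lit 76) (nat_lit 703075185) (nat_lit 78) (nat_lit 5) (nat_lit 82) (nat_lit 5) (nat_lit 79) (nat_lit 5) (nat_lit 492) (nat_lit 377) (nat_lit 271)) (XT.lf (nat_lit 0) (nat_lit 6062968707) (nat_lit 304) (nat_lit 5075503808) (nat_lit 76) (nat_lit 5342864705) (nat_lit 78) (nat_lit 5) (nat_lit 82) (nat_lit 5) (nat_lit 79) (nat_lit 5) (nat_lit 493) (nat_lit 377) (nat_lit 270))) (XT.nd (nat_lit 78) (nat_lit 0) (nat_lit 0) (XT.lf (nat_lit 0) (nat_lit 3121589120) (nat_lit 228) (nat_lit 6625214888) (nat_lit 304) (nat_lit 6962280656) (nat_lit 75) (nat_lit 5) (nat_lit 78) (nat_lit 5) (nat_lit 79) (nat_lit 5) (nat_lit 494) (nat_lit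 377) (nat_lit 269)) (XT.lf (nat_lit 0) (nat_lit 11520036577) (nat_lit 228) (nat_lit 1999160306) (nat_lit 304) (nat_lit 3421898528) (nat_lit 75) (nat_lit 5) (nat_lit 78) (nat_lit 5) (nat_lit 79) (nat_lit 5) (nat_lit 495) (nat_lit 377) (nat_lit 268)))))) (XT.nd (nat_lit 546) (nat_lit 608) (nat_lit 0) (XT.nd (nat_lit 234) (nat_lit 532) (nat_lit 0) (XT.nd (nat_lit 78) (nat_lit 228) (nat_lit 0) (XT.lf (nat_lit 0) (nat_lit 204511146) (nat_lit 304) (nat_lit 14280763821) (nat_lit 76) (nat_lit 2692098515) (nat_lit 71) (nat_lit 5) (nat_lit 75) (nat_lit 5) (nat_lit 72) (nat_lit 5) (nat_lit 496) (nat_lit 377) (nat_lit 267)) (XT.nd (nat_lit 78) (nat_lit 228) (nat_lit 0) (XT.lf (nat_lit 0) (nat_lit 3888691255) (nat_lit 304) (nat_lit 6030803543) (nat_lit 76) (nat_lit 7497814341) (nat_lit 71) (nat_lit 5) (nat_lit 75) (nat_lit 5) (nat_lit 72) (nat_lit 5) (nat_lit 497) (nat_lit 377) (nat_lit 266)) (XT.lf (nat_lit 0) (nat_lit 2384917473)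 (nat_lit 228) (nat_lit 5258651455) (nat_lit 304) (nat_lit 10018539818) (nat_lit 68) (nat_lit 5) (nat_lit 71) (nat_lit 5) (nat_lit 72) (nat_lit 5) (nat_lit 498) (nat_lit 377) (nat_lit 265)))) (XT.nd (nat_lit 156) (nat_lit 304) (nat_lit 0) (XT.nd (nat_lit 78) (nat_lit 228) (nat_lit 0) (XT.lf (nat_lit 0) (nat_lit 11020385721) (nat_lit 228) (nat_lit 475323129) (nat_lit 304) (nat_lit 6415657610) (nat_lit 68) (nat_lit 5) (nat_lit 71) (nat_lit 5) (nat_lit 72) (nat_lit 5) (nat_lit 499) (nat_lit 377) (nat_lit 264)) (XT.lf (nat_lit 0) (nat_lit 1625673797) (nat_lit 228) (nat_lit 13820341583) (nat_lit 304) (nat_lit 2719176776) (nat_lit 65) (nat_lit 5) (nat_lit 68) (nat_lit 5) (nat_lit 69) (nat_lit 5) (nat_lit 500) (nat_lit 377) (nat_lit 263))) (XT.nd (nat_lit 78) (nat_lit 228) (nat_lit 0) (XT.lf (nat_lit 0) (nat_lit 1069156435) (nat_lit 304) (nat_lit 8057434769) (nat_lit 76) (nat_lit 9296737554) (nat_lit 64) (nat_lit 5) (nat_lit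 68) (nat_lit 5) (nat_lit 65) (nat_lit 5) (nat_lit 501) (nat_lit 377) (nat_lit 262)) (XT.lf (nat_lit 0) (nat_lit 554082586) (nat_lit 228) (nat_lit 4328761823) (nat_lit 304) (nat_lit 13803709248) (nat_lit 61) (nat_lit 5) (nat_lit 64) (nat_lit 5) (nat_lit 65) (nat_lit 5) (nat_lit 502) (nat_lit 377) (nat_lit 261))))) (XT.nd (nat_lit 234) (nat_lit 456) (nat_lit 0) (XT.nd (nat_lit 78) (nat_lit 152) (nat_lit 0) (XT.lf (nat_lit 0) (nat_lit 8813347843) (nat_lit 304) (nat_lit 9540488333) (nat_lit 76) (nat_lit 600400942) (nat_lit 61) (nat_lit 5) (nat_lit 65) (nat_lit 5) (nat_lit 62) (nat_lit 5) (nat_lit 503) (nat_lit 377) (nat_lit 260)) (XT.nd (nat_lit 78) (nat_lit 152) (nat_lit 0) (XT.lf (nat_lit 0) (nat_lit 12833918332) (nat_lit 304) (nat_lit 834304825) (nat_lit 76) (nat_lit 5558826755) (nat_lit 61) (nat_lit 5) (nat_lit 65) (nat_lit 5) (nat_lit 62) (nat_lit 5) (nat_lit 504) (nat_lit 377) (nat_lit 259)) (XT.lf (nat_lit 0)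 (nat_lit 8124148503) (nat_lit 152) (nat_lit 8846626236) (nat_lit 228) (nat_lit 2533831441) (nat_lit 59) (nat_lit 5) (nat_lit 61) (nat_lit 5) (nat_lit 62) (nat_lit 5) (nat_lit 505) (nat_lit 377) (nat_lit 258)))) (XT.nd (nat_lit 156) (nat_lit 152) (nat_lit 0) (XT.nd (nat_lit 78) (nat_lit 228) (nat_lit 0) (XT.lf (nat_lit 0) (nat_lit 1373053799) (nat_lit 228) (nat_lit 2552110504) (nat_lit 76) (nat_lit 15862595754) (nat_lit 58) (nat_lit 5) (nat_lit 61) (nat_lit 5) (nat_lit 59) (nat_lit 5) (nat_lit 506) (nat_lit 377) (nat_lit 257)) (XT.lf (nat_lit 0) (nat_lit 5357253072) (nat_lit 304) (nat_lit 13589860236) (nat_lit 76) (nat_lit 1128471083) (nat_lit 55) (nat_lit 5) (nat_lit 59) (nat_lit 5) (nat_lit 56) (nat_lit 5) (nat_lit 507) (nat_lit 377) (nat_lit 256))) (XT.nd (nat_lit 78) (nat_lit 152) (nat_lit 0) (XT.lf (nat_lit 0) (nat_lit 9447930143) (nat_lit 304) (nat_lit 4683982372) (nat_lit 76) (nat_lit 6236721169) (nat_lit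 55) (nat_lit 5) (nat_lit 59) (nat_lit 5) (nat_lit 56) (nat_lit 5) (nat_lit 508) (nat_lit 377) (nat_lit 255)) (XT.lf (nat_lit 0) (nat_lit 4430709028) (nat_lit 152) (nat_lit 9202361108) (nat_lit 228) (nat_lit 7034225104) (nat_lit 53) (nat_lit 5) (nat_lit 55) (nat_lit 5) (nat_lit 56) (nat_lit 5) (nat_lit 509) (nat_lit 377) (nat_lit 254))))))) (XT.nd (nat_lit 1092) (nat_lit 380) (nat_lit 0) (XT.nd (nat_lit 546) (nat_lit 608) (nat_lit 0) (XT.nd (nat_lit 234) (nat_lit 380) (nat_lit 0) (XT.nd (nat_lit 78) (nat_lit 304) (nat_lit 0) (XT.lf (nat_lit 0) (nat_lit 13763953657) (nat_lit 152) (nat_lit 4153412757) (nat_lit 228) (nat_lit 3054258725) (nat_lit 53) (nat_lit 5) (nat_lit 55) (nat_lit 5) (nat_lit 56) (nat_lit 5) (nat_lit 510) (nat_lit 377) (nat_lit 253)) (XT.nd (nat_lit 78) (nat_lit 0) (nat_lit 0) (XT.lf (nat_lit 0) (nat_lit 995825783) (nat_lit 304) (nat_lit 19293957954) (nat_lit 76) (nat_lit 992057304) (nat_lit 49)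 (nat_lit 5) (nat_lit 53) (nat_lit 5) (nat_lit 50) (nat_lit 5) (nat_lit 511) (nat_lit 377) (nat_lit 252)) (XT.lf (nat_lit 0) (nat_lit 5146537954) (nat_lit 304) (nat_lit 10207276951) (nat_lit 76) (nat_lit 6242836073) (nat_lit 49) (nat_lit 5) (nat_lit 53) (nat_lit 5) (nat_lit 50) (nat_lit 5) (nat_lit 512) (nat_lit 377) (nat_lit 251)))) (XT.nd (nat_lit 156) (nat_lit 228) (nat_lit 0) (XT.nd (nat_lit 78) (nat_lit 152) (nat_lit 0) (XT.lf (nat_lit 0) (nat_lit 9364863037) (nat_lit 304) (nat_lit 965313731) (nat_lit 76) (nat_lit 11587892234) (nat_lit 49) (nat_lit 5) (nat_lit 53) (nat_lit 5) (nat_lit 50) (nat_lit 5) (nat_lit 513) (nat_lit 377) (nat_lit 250)) (XT.lf (nat_lit 0) (nat_lit 8547660103) (nat_lit 152) (nat_lit 5160292252) (nat_lit 228) (nat_lit 8537158866) (nat_lit 47) (nat_lit 5) (nat_lit 49) (nat_lit 5) (nat_lit 50) (nat_lit 5) (nat_lit 514) (nat_lit 377) (nat_lit 249))) (XT.nd (nat_lit 78) (nat_lit 228) (nat_lit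 0) (XT.lf (nat_lit 0) (nat_lit 18130117117) (nat_lit 228) (nat_lit 4341357933) (nat_lit 76) (nat_lit 107378672) (nat_lit 47) (nat_lit 5) (nat_lit 50) (nat_lit 5) (nat_lit 48) (nat_lit 5) (nat_lit 515) (nat_lit 377) (nat_lit 248)) (XT.lf (nat_lit 0) (nat_lit 5210534607) (nat_lit 228) (nat_lit 17483449239) (nat_lit 304) (nat_lit 224225696) (nat_lit 44) (nat_lit 5) (nat_lit 47) (nat_lit 5) (nat_lit 48) (nat_lit 5) (nat_lit 516) (nat_lit 377) (nat_lit 247))))) (XT.nd (nat_lit 234) (nat_lit 380) (nat_lit 0) (XT.nd (nat_lit 78) (nat_lit 152) (nat_lit 0) (XT.lf (nat_lit 0) (nat_lit 4045807301) (nat_lit 304) (nat_lit 8303687533) (nat_lit 76) (nat_lit 10914038631) (nat_lit 43) (nat_lit 5) (nat_lit 47) (nat_lit 5) (nat_lit 44) (nat_lit 5) (nat_lit 517) (nat_lit 377) (nat_lit 246)) (XT.nd (nat_lit 78) (nat_lit 0) (nat_lit 0) (XT.lf (nat_lit 0) (nat_lit 1278647750) (nat_lit 152) (nat_lit 7113462820) (nat_lit 228) (nat_lit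 15223749645) (nat_lit 41) (nat_lit 5) (nat_lit 43) (nat_lit 5) (nat_lit 44) (nat_lit 5) (nat_lit 518) (nat_lit 377) (nat_lit 245)) (XT.lf (nat_lit 0) (nat_lit 11140336370) (nat_lit 152) (nat_lit 1726414644) (nat_lit 228) (nat_lit 11107657626) (nat_lit 41) (nat_lit 5) (nat_lit 43) (nat_lit 5) (nat_lit 44) (nat_lit 5) (nat_lit 519) (nat_lit 377) (nat_lit 244)))) (XT.nd (nat_lit 156) (nat_lit 228) (nat_lit 0) (XT.nd (nat_lit 78) (nat_lit 152) (nat_lit 0) (XT.lf (nat_lit 0) (nat_lit 17441253560) (nat_lit 228) (nat_lit 3189917611) (nat_lit 76) (nat_lit 3708752774) (nat_lit 41) (nat_lit 5) (nat_lit 44) (nat_lit 5) (nat_lit 42) (nat_lit 5) (nat_lit 520) (nat_lit 377) (nat_lit 243)) (XT.lf (nat_lit 0) (nat_lit 6699451886) (nat_lit 152) (nat_lit 15448903691) (nat_lit 228) (nat_lit 2563575022) (nat_lit 39) (nat_lit 5) (nat_lit 41) (nat_lit 5) (nat_lit 42) (nat_lit 5) (nat_lit 521) (nat_lit 377) (nat_lit 242))) (XT.nd (nat_lit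 78) (nat_lit 152) (nat_lit 0) (XT.lf (nat_lit 0) (nat_lit 1841599712) (nat_lit 228) (nat_lit 8297434398) (nat_lit 76) (nat_lit 14951950120) (nat_lit 38) (nat_lit 5) (nat_lit 41) (nat_lit 5) (nat_lit 39) (nat_lit 5) (nat_lit 522) (nat_lit 377) (nat_lit 241)) (XT.lf (nat_lit 0) (nat_lit 1592160540) (nat_lit 152) (nat_lit 4705231753) (nat_lit 228) (nat_lit 19179953969) (nat_lit 36) (nat_lit 5) (nat_lit 38) (nat_lit 5) (nat_lit 39) (nat_lit 5) (nat_lit 523) (nat_lit 377) (nat_lit 240)))))) (XT.nd (nat_lit 48516) (nat_lit 0) (nat_lit 45752) (XT.nd (nat_lit 234) (nat_lit 228) (nat_lit 0) (XT.nd (nat_lit 78) (nat_lit 152) (nat_lit 0) (XT.lf (nat_lit 0) (nat_lit 10890303992) (nat_lit 228) (nat_lit 14107809992) (nat_lit 76) (nat_lit 872364472) (nat_lit 36) (nat_lit 5) (nat_lit 39) (nat_lit 5) (nat_lit 37) (nat_lit 5) (nat_lit 524) (nat_lit 377) (nat_lit 239)) (XT.nd (nat_lit 78) (nat_lit 152) (nat_lit 0) (XT.lf (nat_lit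 0) (nat_lit 15593017154) (nat_lit 228) (nat_lit 4189287065) (nat_lit 76) (nat_lit 6488813137) (nat_lit 36) (nat_lit 5) (nat_lit 39) (nat_lit 5) (nat_lit 37) (nat_lit 5) (nat_lit 525) (nat_lit 377) (nat_lit 238)) (XT.lf (nat_lit 0) (nat_lit 5983294137) (nat_lit 152) (nat_lit 14432379873) (nat_lit 228) (nat_lit 6263580106) (nat_lit 34) (nat_lit 5) (nat_lit 36) (nat_lit 5) (nat_lit 37) (nat_lit 5) (nat_lit 526) (nat_lit 377) (nat_lit 237)))) (XT.nd (nat_lit 156) (nat_lit 152) (nat_lit 0) (XT.nd (nat_lit 78) (nat_lit 76) (nat_lit 0) (XT.lf (nat_lit 0) (nat_lit 16393479588) (nat_lit 152) (nat_lit 8956565776) (nat_lit 228) (nat_lit 1745205833) (nat_lit 34) (nat_lit 5) (nat_lit 36) (nat_lit 5) (nat_lit 37) (nat_lit 5) (nat_lit 527) (nat_lit 377) (nat_lit 236)) (XT.lf (nat_lit 0) (nat_lit 2813294995) (nat_lit 228) (nat_lit 548653186) (nat_lit 76) (nat_lit 24157504607) (nat_lit 33) (nat_lit 5) (nat_lit 36) (nat_lit 5) (nat_lit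 34) (nat_lit 5) (nat_lit 528) (nat_lit 377) (nat_lit 235))) (XT.nd (nat_lit 48048) (nat_lit 0) (nat_lit 47576) (XT.lf (nat_lit 0) (nat_lit 7507149150) (nat_lit 228) (nat_lit 18062597210) (nat_lit 76) (nat_lit 2380812955) (nat_lit 31) (nat_lit 5) (nat_lit 34) (nat_lit 5) (nat_lit 32) (nat_lit 5) (nat_lit 529) (nat_lit 377) (nat_lit 234)) (XT.lf (nat_lit 0) (nat_lit 3001348625) (nat_lit 76) (nat_lit 111899867) (nat_lit 76) (nat_lit 111899867) (nat_lit 657) (nat_lit 4) (nat_lit 658) (nat_lit 5) (nat_lit 658) (nat_lit 4) (nat_lit 384) (nat_lit 378) (nat_lit 378))))) (XT.nd (nat_lit 312) (nat_lit 1292) (nat_lit 0) (XT.nd (nat_lit 156) (nat_lit 304) (nat_lit 0) (XT.nd (nat_lit 78) (nat_lit 0) (nat_lit 0) (XT.lf (nat_lit 0) (nat_lit 2772770511) (nat_lit 152) (nat_lit 9410869) (nat_lit 228) (nat_lit 3672578263) (nat_lit 654) (nat_lit 5) (nat_lit 656) (nat_lit 5) (nat_lit 657) (nat_lit 4) (nat_lit 385) (nat_lit 378) (nat_lit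 377)) (XT.lf (nat_lit 0) (nat_lit 5773332283) (nat_lit 228) (nat_lit 442236138) (nat_lit 0) (nat_lit 245250319) (nat_lit 654) (nat_lit 5) (nat_lit 657) (nat_lit 4) (nat_lit 654) (nat_lit 4) (nat_lit 386) (nat_lit 378) (nat_lit 376))) (XT.nd (nat_lit 78) (nat_lit 0) (nat_lit 0) (XT.lf (nat_lit 0) (nat_lit 2269693466) (nat_lit 304) (nat_lit 3626315123) (nat_lit 76) (nat_lit 571911927) (nat_lit 650) (nat_lit 5) (nat_lit 654) (nat_lit 5) (nat_lit 651) (nat_lit 4) (nat_lit 387) (nat_lit 378) (nat_lit 375)) (XT.lf (nat_lit 0) (nat_lit 5205576813) (nat_lit 304) (nat_lit 326236605) (nat_lit 76) (nat_lit 944776535) (nat_lit 650) (nat_lit 5) (nat_lit 654) (nat_lit 5) (nat_lit 651) (nat_lit 4) (nat_lit 388) (nat_lit 378) (nat_lit 374)))) (XT.nd (nat_lit 156) (nat_lit 912) (nat_lit 0) (XT.nd (nat_lit 78) (nat_lit 0) (nat_lit 0) (XT.lf (nat_lit 0) (nat_lit 1638757769) (nat_lit 380) (nat_lit 3460513976) (nat_lit 76) (nat_lit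 1387096585) (nat_lit 645) (nat_lit 5) (nat_lit 650) (nat_lit 5) (nat_lit 646) (nat_lit 5) (nat_lit 389) (nat_lit 378) (nat_lit 373)) (XT.lf (nat_lit 0) (nat_lit 4519739073) (nat_lit 380) (nat_lit 98906105) (nat_lit 76) (nat_lit 1879014914) (nat_lit 645) (nat_lit 5) (nat_lit 650) (nat_lit 5) (nat_lit 646) (nat_lit 5) (nat_lit 390) (nat_lit 378) (nat_lit 372))) (XT.nd (nat_lit 78) (nat_lit 456) (nat_lit 0) (XT.lf (nat_lit 0) (nat_lit 887160667) (nat_lit 456) (nat_lit 3185193411) (nat_lit 76) (nat_lit 2437774586) (nat_lit 639) (nat_lit 5) (nat_lit 645) (nat_lit 5) (nat_lit 640) (nat_lit 5) (nat_lit 391) (nat_lit 378) (nat_lit 371)) (XT.lf (nat_lit 0) (nat_lit 242372440) (nat_lit 456) (nat_lit 3472751974) (nat_lit 532) (nat_lit 2808900950) (nat_lit 633) (nat_lit 5) (nat_lit 639) (nat_lit 5) (nat_lit 640) (nat_lit 5) (nat_lit 392) (nat_lit 378) (nat_lit 370))))))))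
noncomputable def xc96 : XT := (XT.nd (nat_lit 2184) (nat_lit 13452) (nat_lit 0) (XT.nd (nat_lit 1092) (nat_lit 12692) (nat_lit 0) (XT.nd (nat_lit 546) (nat_lit 3724) (nat_lit 0) (XT.nd (nat_lit 234) (nat_lit 1444) (nat_lit 0) (XT.nd (nat_lit 78) (nat_lit 532) (nat_lit 0) (XT.lf (nat_lit 0) (nat_lit 12515326) (nat_lit 532) (nat_lit 2800829114) (nat_lit 76) (nat_lit 3725888469) (nat_lit 632) (nat_lit 5) (nat_lit 639) (nat_lit 5) (nat_lit 633) (nat_lit 5) (nat_lit 393) (nat_lit 378) (nat_lit 369)) (XT.nd (nat_lit 78) (nat_lit 0) (nat_lit 0) (XT.lf (nat_lit 0) (nat_lit 696832738) (nat_lit 532) (nat_lit 2092198904) (nat_lit 608) (nat_lit 3766692799) (nat_lit 625) (nat_lit 5) (nat_lit 632) (nat_lit 5) (nat_lit 633) (nat_lit 5) (nat_lit 394) (nat_lit 378) (nat_lit 368)) (XT.lf (nat_lit 0) (nat_lit 4259383248) (nat_lit 532) (nat_lit 1313272885) (nat_lit 608) (nat_lit 1000933436) (nat_lit 625) (nat_lit 5) (nat_lit 632)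 (nat_lit 5) (nat_lit 633) (nat_lit 5) (nat_lit 395) (nat_lit 378) (nat_lit 367)))) (XT.nd (nat_lit 156) (nat_lit 760) (nat_lit 0) (XT.nd (nat_lit 78) (nat_lit 0) (nat_lit 0) (XT.lf (nat_lit 0) (nat_lit 1262977629) (nat_lit 608) (nat_lit 475083594) (nat_lit 684) (nat_lit 4854750994) (nat_lit 616) (nat_lit 5) (nat_lit 624) (nat_lit 5) (nat_lit 625) (nat_lit 5) (nat_lit 396) (nat_lit 378) (nat_lit 366)) (XT.lf (nat_lit 0) (nat_lit 4471306181) (nat_lit 684) (nat_lit 1722614552) (nat_lit 76) (nat_lit 419379780) (nat_lit 616) (nat_lit 5) (nat_lit 625) (nat_lit 5) (nat_lit 617) (nat_lit 5) (nat_lit 397) (nat_lit 378) (nat_lit 365))) (XT.nd (nat_lit 78) (nat_lit 0) (nat_lit 0) (XT.lf (nat_lit 0) (nat_lit 568185500) (nat_lit 760) (nat_lit 4703496021) (nat_lit 76) (nat_lit 1363476812) (nat_lit 606) (nat_lit 5) (nat_lit 616) (nat_lit 5) (nat_lit 607) (nat_lit 5) (nat_lit 398) (nat_lit 378) (nat_lit 364)) (XT.lf (nat_lit 0)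 (nat_lit 3252080444) (nat_lit 760) (nat_lit 1033245561) (nat_lit 76) (nat_lit 2372947161) (nat_lit 606) (nat_lit 5) (nat_lit 616) (nat_lit 5) (nat_lit 607) (nat_lit 5) (nat_lit 399) (nat_lit 378) (nat_lit 363))))) (XT.nd (nat_lit 234) (nat_lit 2052) (nat_lit 0) (XT.nd (nat_lit 78) (nat_lit 912) (nat_lit 0) (XT.lf (nat_lit 0) (nat_lit 2702583495) (nat_lit 760) (nat_lit 3242391072) (nat_lit 836) (nat_lit 737834877) (nat_lit 596) (nat_lit 5) (nat_lit 606) (nat_lit 5) (nat_lit 607) (nat_lit 5) (nat_lit 400) (nat_lit 378) (nat_lit 362)) (XT.nd (nat_lit 78) (nat_lit 836) (nat_lit 0) (XT.lf (nat_lit 0) (nat_lit 1903096615) (nat_lit 836) (nat_lit 237359683) (nat_lit 76) (nat_lit 4568281052) (nat_lit 595) (nat_lit 5) (nat_lit 606) (nat_lit 5) (nat_lit 596) (nat_lit 5) (nat_lit 401) (nat_lit 378) (nat_lit 361)) (XT.lf (nat_lit 0) (nat_lit 3579412115) (nat_lit 836) (nat_lit 970261055) (nat_lit 912) (nat_lit 2186220771) (nat_lit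 584) (nat_lit 5) (nat_lit 595) (nat_lit 5) (nat_lit 596) (nat_lit 5) (nat_lit 402) (nat_lit 378) (nat_lit 360)))) (XT.nd (nat_lit 156) (nat_lit 1064) (nat_lit 0) (XT.nd (nat_lit 78) (nat_lit 0) (nat_lit 0) (XT.lf (nat_lit 0) (nat_lit 426729772) (nat_lit 988) (nat_lit 6092020034) (nat_lit 76) (nat_lit 245889980) (nat_lit 571) (nat_lit 5) (nat_lit 584) (nat_lit 5) (nat_lit 572) (nat_lit 5) (nat_lit 403) (nat_lit 378) (nat_lit 359)) (XT.lf (nat_lit 0) (nat_lit 3031352844) (nat_lit 988) (nat_lit 2238134304) (nat_lit 76) (nat_lit 1524868869) (nat_lit 571) (nat_lit 5) (nat_lit 584) (nat_lit 5) (nat_lit 572) (nat_lit 5) (nat_lit 404) (nat_lit 378) (nat_lit 358))) (XT.nd (nat_lit 78) (nat_lit 76) (nat_lit 0) (XT.lf (nat_lit 0) (nat_lit 1670976091) (nat_lit 988) (nat_lit 3970012107) (nat_lit 1064) (nat_lit 1184677065) (nat_lit 558) (nat_lit 5) (nat_lit 571) (nat_lit 5) (nat_lit 572) (nat_lit 5) (nat_lit 405) (nat_lit 378)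 (nat_lit 357)) (XT.lf (nat_lit 0) (nat_lit 1383870911) (nat_lit 1064) (nat_lit 1222475263) (nat_lit 76) (nat_lit 4251969529) (nat_lit 557) (nat_lit 5) (nat_lit 571) (nat_lit 5) (nat_lit 558) (nat_lit 5) (nat_lit 406) (nat_lit 378) (nat_lit 356)))))) (XT.nd (nat_lit 546) (nat_lit 7828) (nat_lit 0) (XT.nd (nat_lit 234) (nat_lit 2584) (nat_lit 0) (XT.nd (nat_lit 78) (nat_lit 1216) (nat_lit 0) (XT.lf (nat_lit 0) (nat_lit 2773481317) (nat_lit 1064) (nat_lit 1176086521) (nat_lit 1140) (nat_lit 2942715677) (nat_lit 543) (nat_lit 5) (nat_lit 557) (nat_lit 5) (nat_lit 558) (nat_lit 5) (nat_lit 407) (nat_lit 378) (nat_lit 355)) (XT.nd (nat_lit 78) (nat_lit 1216) (nat_lit 0) (XT.lf (nat_lit 0) (nat_lit 6521197148) (nat_lit 1140) (nat_lit 107118399) (nat_lit 76) (nat_lit 299575506) (nat_lit 543) (nat_lit 5) (nat_lit 558) (nat_lit 5) (nat_lit 544) (nat_lit 5) (nat_lit 408) (nat_lit 378) (nat_lit 354)) (XT.lf (nat_lit 0) (nat_lit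 2130547640) (nat_lit 1216) (nat_lit 2992928262) (nat_lit 76) (nat_lit 1840920622) (nat_lit 527) (nat_lit 5) (nat_lit 543) (nat_lit 5) (nat_lit 528) (nat_lit 5) (nat_lit 409) (nat_lit 378) (nat_lit 353)))) (XT.nd (nat_lit 156) (nat_lit 1292) (nat_lit 0) (XT.nd (nat_lit 78) (nat_lit 76) (nat_lit 0) (XT.lf (nat_lit 0) (nat_lit 1099178571) (nat_lit 1216) (nat_lit 3567768235) (nat_lit 1292) (nat_lit 2335604063) (nat_lit 511) (nat_lit 5) (nat_lit 527) (nat_lit 5) (nat_lit 528) (nat_lit 5) (nat_lit 410) (nat_lit 378) (nat_lit 352)) (XT.lf (nat_lit 0) (nat_lit 176402125) (nat_lit 1292) (nat_lit 1773353771) (nat_lit 76) (nat_lit 5092400866) (nat_lit 510) (nat_lit 5) (nat_lit 527) (nat_lit 5) (nat_lit 511) (nat_lit 5) (nat_lit 411) (nat_lit 378) (nat_lit 351))) (XT.nd (nat_lit 78) (nat_lit 0) (nat_lit 0) (XT.lf (nat_lit 0) (nat_lit 2411829877) (nat_lit 1292) (nat_lit 258652567) (nat_lit 1368) (nat_lit 4412548237) (nat_lit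 493) (nat_lit 5) (nat_lit 510) (nat_lit 5) (nat_lit 511) (nat_lit 5) (nat_lit 412) (nat_lit 378) (nat_lit 350)) (XT.lf (nat_lit 0) (nat_lit 5184167736) (nat_lit 1368) (nat_lit 473777681) (nat_lit 76) (nat_lit 1467428107) (nat_lit 493) (nat_lit 5) (nat_lit 511) (nat_lit 5) (nat_lit 494) (nat_lit 5) (nat_lit 413) (nat_lit 378) (nat_lit 349))))) (XT.nd (nat_lit 234) (nat_lit 4940) (nat_lit 0) (XT.nd (nat_lit 78) (nat_lit 1444) (nat_lit 0) (XT.lf (nat_lit 0) (nat_lit 547461639) (nat_lit 1444) (nat_lit 3360394558) (nat_lit 76) (nat_lit 3261165914) (nat_lit 474) (nat_lit 5) (nat_lit 493) (nat_lit 5) (nat_lit 475) (nat_lit 5) (nat_lit 414) (nat_lit 378) (nat_lit 348)) (XT.nd (nat_lit 78) (nat_lit 0) (nat_lit 0) (XT.lf (nat_lit 0) (nat_lit 924870799) (nat_lit 1444) (nat_lit 2093847245) (nat_lit 1520) (nat_lit 4195436094) (nat_lit 455) (nat_lit 5) (nat_lit 474) (nat_lit 5) (nat_lit 475) (nat_lit 5) (nat_lit 415) (nat_lit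 378) (nat_lit 347)) (XT.lf (nat_lit 0) (nat_lit 5297676692) (nat_lit 1444) (nat_lit 214556569) (nat_lit 1520) (nat_lit 1748541286) (nat_lit 455) (nat_lit 5) (nat_lit 474) (nat_lit 5) (nat_lit 475) (nat_lit 5) (nat_lit 416) (nat_lit 378) (nat_lit 346)))) (XT.nd (nat_lit 156) (nat_lit 3344) (nat_lit 0) (XT.nd (nat_lit 78) (nat_lit 0) (nat_lit 0) (XT.lf (nat_lit 0) (nat_lit 715408038) (nat_lit 1596) (nat_lit 4887044428) (nat_lit 76) (nat_lit 1706260279) (nat_lit 434) (nat_lit 5) (nat_lit 455) (nat_lit 5) (nat_lit 435) (nat_lit 5) (nat_lit 417) (nat_lit 378) (nat_lit 345)) (XT.lf (nat_lit 0) (nat_lit 3171536931) (nat_lit 1596) (nat_lit 494001390) (nat_lit 76) (nat_lit 3692553928) (nat_lit 434) (nat_lit 5) (nat_lit 455) (nat_lit 5) (nat_lit 435) (nat_lit 5) (nat_lit 418) (nat_lit 378) (nat_lit 344))) (XT.nd (nat_lit 78) (nat_lit 1748) (nat_lit 0) (XT.lf (nat_lit 0) (nat_lit 3995870455) (nat_lit 1596) (nat_lit 1659420707)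 (nat_lit 1672) (nat_lit 1753637310) (nat_lit 413) (nat_lit 5) (nat_lit 434) (nat_lit 5) (nat_lit 435) (nat_lit 5) (nat_lit 419) (nat_lit 378) (nat_lit 343)) (XT.lf (nat_lit 0) (nat_lit 684282263) (nat_lit 1748) (nat_lit 6376877829) (nat_lit 76) (nat_lit 400246661) (nat_lit 390) (nat_lit 5) (nat_lit 413) (nat_lit 5) (nat_lit 391) (nat_lit 5) (nat_lit 420) (nat_lit 378) (nat_lit 342))))))) (XT.nd (nat_lit 1092) (nat_lit 6080) (nat_lit 0) (XT.nd (nat_lit 546) (nat_lit 3192) (nat_lit 0) (XT.nd (nat_lit 234) (nat_lit 2660) (nat_lit 0) (XT.nd (nat_lit 78) (nat_lit 1520) (nat_lit 0) (XT.lf (nat_lit 0) (nat_lit 3135067728) (nat_lit 1748) (nat_lit 1863413557) (nat_lit 76) (nat_lit 2516506635) (nat_lit 390) (nat_lit 5) (nat_lit 413) (nat_lit 5) (nat_lit 391) (nat_lit 5) (nat_lit 421) (nat_lit 378) (nat_lit 341)) (XT.nd (nat_lit 78) (nat_lit 76) (nat_lit 0) (XT.lf (nat_lit 0) (nat_lit 2732515453) (nat_lit 1444) (nat_lit 2874528203)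 (nat_lit 1520) (nat_lit 1963189760) (nat_lit 371) (nat_lit 5) (nat_lit 390) (nat_lit 5) (nat_lit 391) (nat_lit 5) (nat_lit 422) (nat_lit 378) (nat_lit 340)) (XT.lf (nat_lit 0) (nat_lit 462593076) (nat_lit 1520) (nat_lit 228044449) (nat_lit 76) (nat_lit 6936569923) (nat_lit 370) (nat_lit 5) (nat_lit 390) (nat_lit 5) (nat_lit 371) (nat_lit 5) (nat_lit 423) (nat_lit 378) (nat_lit 339)))) (XT.nd (nat_lit 156) (nat_lit 912) (nat_lit 0) (XT.nd (nat_lit 78) (nat_lit 912) (nat_lit 0) (XT.lf (nat_lit 0) (nat_lit 2905559070) (nat_lit 912) (nat_lit 3219266198) (nat_lit 76) (nat_lit 1560371181) (nat_lit 359) (nat_lit 5) (nat_lit 371) (nat_lit 5) (nat_lit 360) (nat_lit 5) (nat_lit 424) (nat_lit 378) (nat_lit 338)) (XT.lf (nat_lit 0) (nat_lit 1483674786) (nat_lit 912) (nat_lit 3885656100) (nat_lit 988) (nat_lit 2375608857) (nat_lit 347) (nat_lit 5) (nat_lit 359) (nat_lit 5) (nat_lit 360) (nat_lit 5) (nat_lit 425) (nat_lit 378)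 (nat_lit 337))) (XT.nd (nat_lit 78) (nat_lit 836) (nat_lit 0) (XT.lf (nat_lit 0) (nat_lit 53700239) (nat_lit 988) (nat_lit 1525856920) (nat_lit 76) (nat_lit 6226778889) (nat_lit 346) (nat_lit 5) (nat_lit 359) (nat_lit 5) (nat_lit 347) (nat_lit 5) (nat_lit 426) (nat_lit 378) (nat_lit 336)) (XT.lf (nat_lit 0) (nat_lit 2483736402) (nat_lit 912) (nat_lit 4585927024) (nat_lit 76) (nat_lit 799335309) (nat_lit 335) (nat_lit 5) (nat_lit 347) (nat_lit 5) (nat_lit 336) (nat_lit 5) (nat_lit 427) (nat_lit 378) (nat_lit 335))))) (XT.nd (nat_lit 234) (nat_lit 1520) (nat_lit 0) (XT.nd (nat_lit 78) (nat_lit 836) (nat_lit 0) (XT.lf (nat_lit 0) (nat_lit 224768374) (nat_lit 836) (nat_lit 4717696126) (nat_lit 912) (nat_lit 2990879249) (nat_lit 324) (nat_lit 5) (nat_lit 335) (nat_lit 5) (nat_lit 336) (nat_lit 5) (nat_lit 428) (nat_lit 378) (nat_lit 334)) (XT.nd (nat_lit 78) (nat_lit 836) (nat_lit 0) (XT.lf (nat_lit 0) (nat_lit 5150325841)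 (nat_lit 836) (nat_lit 2289223079) (nat_lit 912) (nat_lit 559673398) (nat_lit 324) (nat_lit 5) (nat_lit 335) (nat_lit 5) (nat_lit 336) (nat_lit 5) (nat_lit 429) (nat_lit 378) (nat_lit 333)) (XT.lf (nat_lit 0) (nat_lit 1868776512) (nat_lit 836) (nat_lit 5988581478) (nat_lit 76) (nat_lit 209364184) (nat_lit 313) (nat_lit 5) (nat_lit 324) (nat_lit 5) (nat_lit 314) (nat_lit 5) (nat_lit 430) (nat_lit 378) (nat_lit 332)))) (XT.nd (nat_lit 156) (nat_lit 760) (nat_lit 0) (XT.nd (nat_lit 78) (nat_lit 760) (nat_lit 0) (XT.lf (nat_lit 0) (nat_lit 4332147908) (nat_lit 836) (nat_lit 1055623509) (nat_lit 76) (nat_lit 2747878233) (nat_lit 313) (nat_lit 5) (nat_lit 324) (nat_lit 5) (nat_lit 314) (nat_lit 5) (nat_lit 431) (nat_lit 378) (nat_lit 331)) (XT.lf (nat_lit 0) (nat_lit 3985343965) (nat_lit 760) (nat_lit 2845548548) (nat_lit 836) (nat_lit 1375369033) (nat_lit 303) (nat_lit 5) (nat_lit 313) (nat_lit 5) (nat_lit 314) (nat_lit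 5) (nat_lit 432) (nat_lit 378) (nat_lit 330))) (XT.nd (nat_lit 78) (nat_lit 0) (nat_lit 0) (XT.lf (nat_lit 0) (nat_lit 823713386) (nat_lit 684) (nat_lit 236093789) (nat_lit 760) (nat_lit 7218903895) (nat_lit 293) (nat_lit 5) (nat_lit 302) (nat_lit 5) (nat_lit 303) (nat_lit 5) (nat_lit 433) (nat_lit 378) (nat_lit 329)) (XT.lf (nat_lit 0) (nat_lit 3530466536) (nat_lit 760) (nat_lit 2394321475) (nat_lit 76) (nat_lit 2427562202) (nat_lit 293) (nat_lit 5) (nat_lit 303) (nat_lit 5) (nat_lit 294) (nat_lit 5) (nat_lit 434) (nat_lit 378) (nat_lit 328)))))) (XT.nd (nat_lit 546) (nat_lit 2508) (nat_lit 0) (XT.nd (nat_lit 234) (nat_lit 2052) (nat_lit 0) (XT.nd (nat_lit 78) (nat_lit 760) (nat_lit 0) (XT.lf (nat_lit 0) (nat_lit 2759364139) (nat_lit 760) (nat_lit 3272338577) (nat_lit 836) (nat_lit 2396162003) (nat_lit 283) (nat_lit 5) (nat_lit 293) (nat_lit 5) (nat_lit 294) (nat_lit 5) (nat_lit 435) (nat_lit 378) (nat_lit 327))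 (XT.nd (nat_lit 78) (nat_lit 684) (nat_lit 0) (XT.lf (nat_lit 0) (nat_lit 55107605) (nat_lit 836) (nat_lit 499682119) (nat_lit 76) (nat_lit 7950553356) (nat_lit 282) (nat_lit 5) (nat_lit 293) (nat_lit 5) (nat_lit 283) (nat_lit 5) (nat_lit 436) (nat_lit 378) (nat_lit 326)) (XT.lf (nat_lit 0) (nat_lit 2531668955) (nat_lit 760) (nat_lit 3821817851) (nat_lit 76) (nat_lit 2230424770) (nat_lit 273) (nat_lit 5) (nat_lit 283) (nat_lit 5) (nat_lit 274) (nat_lit 5) (nat_lit 437) (nat_lit 378) (nat_lit 325)))) (XT.nd (nat_lit 156) (nat_lit 1368) (nat_lit 0) (XT.nd (nat_lit 78) (nat_lit 0) (nat_lit 0) (XT.lf (nat_lit 0) (nat_lit 1444455548) (nat_lit 684) (nat_lit 3592792584) (nat_lit 760) (nat_lit 3627237465) (nat_lit 264) (nat_lit 5) (nat_lit 273) (nat_lit 5) (nat_lit 274) (nat_lit 5) (nat_lit 438) (nat_lit 378) (nat_lit 324)) (XT.lf (nat_lit 0) (nat_lit 6825454530) (nat_lit 684) (nat_lit 756638581) (nat_lit 760) (nat_lit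 1164818319) (nat_lit 264) (nat_lit 5) (nat_lit 273) (nat_lit 5) (nat_lit 274) (nat_lit 5) (nat_lit 439) (nat_lit 378) (nat_lit 323))) (XT.nd (nat_lit 78) (nat_lit 684) (nat_lit 0) (XT.lf (nat_lit 0) (nat_lit 1329767619) (nat_lit 684) (nat_lit 5367260082) (nat_lit 76) (nat_lit 2133794041) (nat_lit 255) (nat_lit 5) (nat_lit 264) (nat_lit 5) (nat_lit 256) (nat_lit 5) (nat_lit 440) (nat_lit 378) (nat_lit 322)) (XT.lf (nat_lit 0) (nat_lit 11015674) (nat_lit 684) (nat_lit 3830067736) (nat_lit 760) (nat_lit 5075546225) (nat_lit 246) (nat_lit 5) (nat_lit 255) (nat_lit 5) (nat_lit 256) (nat_lit 5) (nat_lit 441) (nat_lit 378) (nat_lit 321))))) (XT.nd (nat_lit 312) (nat_lit 1216) (nat_lit 0) (XT.nd (nat_lit 156) (nat_lit 684) (nat_lit 0) (XT.nd (nat_lit 78) (nat_lit 608) (nat_lit 0) (XT.lf (nat_lit 0) (nat_lit 5527398532) (nat_lit 684) (nat_lit 876027622) (nat_lit 760) (nat_lit 2600733154) (nat_lit 246) (nat_lit 5) (nat_lit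 255) (nat_lit 5) (nat_lit 256) (nat_lit 5) (nat_lit 442) (nat_lit 378) (nat_lit 320)) (XT.lf (nat_lit 0) (nat_lit 2031383480) (nat_lit 608) (nat_lit 6978126268) (nat_lit 684) (nat_lit 84101154) (nat_lit 238) (nat_lit 5) (nat_lit 246) (nat_lit 5) (nat_lit 247) (nat_lit 5) (nat_lit 443) (nat_lit 378) (nat_lit 319))) (XT.nd (nat_lit 78) (nat_lit 608) (nat_lit 0) (XT.lf (nat_lit 0) (nat_lit 2445176520) (nat_lit 684) (nat_lit 1551895842) (nat_lit 76) (nat_lit 5187579620) (nat_lit 237) (nat_lit 5) (nat_lit 246) (nat_lit 5) (nat_lit 238) (nat_lit 5) (nat_lit 444) (nat_lit 378) (nat_lit 318)) (XT.lf (nat_lit 0) (nat_lit 4080172559) (nat_lit 608) (nat_lit 936497358) (nat_lit 684) (nat_lit 4260997708) (nat_lit 229) (nat_lit 5) (nat_lit 237) (nat_lit 5) (nat_lit 238) (nat_lit 5) (nat_lit 445) (nat_lit 378) (nat_lit 317)))) (XT.nd (nat_lit 156) (nat_lit 608) (nat_lit 0) (XT.nd (nat_lit 78) (nat_lit 76) (nat_lit 0) (XT.lf (nat_lit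 0) (nat_lit 423086702) (nat_lit 532) (nat_lit 7210532422) (nat_lit 608) (nat_lit 1739063531) (nat_lit 222) (nat_lit 5) (nat_lit 229) (nat_lit 5) (nat_lit 230) (nat_lit 5) (nat_lit 446) (nat_lit 378) (nat_lit 316)) (XT.lf (nat_lit 0) (nat_lit 830446506) (nat_lit 608) (nat_lit 3296184196) (nat_lit 76) (nat_lit 5342716584) (nat_lit 221) (nat_lit 5) (nat_lit 229) (nat_lit 5) (nat_lit 222) (nat_lit 5) (nat_lit 447) (nat_lit 378) (nat_lit 315))) (XT.nd (nat_lit 78) (nat_lit 0) (nat_lit 0) (XT.lf (nat_lit 0) (nat_lit 2449756896) (nat_lit 608) (nat_lit 961638161) (nat_lit 684) (nat_lit 6156672026) (nat_lit 213) (nat_lit 5) (nat_lit 221) (nat_lit 5) (nat_lit 222) (nat_lit 5) (nat_lit 448) (nat_lit 378) (nat_lit 314)) (XT.lf (nat_lit 0) (nat_lit 6048669400) (nat_lit 684) (nat_lit 1369370991) (nat_lit 76) (nat_lit 2250644851) (nat_lit 213) (nat_lit 5) (nat_lit 222) (nat_lit 5) (nat_lit 214) (nat_lit 5) (nat_lit 449) (nat_lit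 378) (nat_lit 313))))))))
noncomputable def xc97 : XT := (XT.nd (nat_lit 2184) (nat_lit 4256) (nat_lit 0) (XT.nd (nat_lit 1092) (nat_lit 2888) (nat_lit 0) (XT.nd (nat_lit 546) (nat_lit 1900) (nat_lit 0) (XT.nd (nat_lit 234) (nat_lit 1520) (nat_lit 0) (XT.nd (nat_lit 78) (nat_lit 608) (nat_lit 0) (XT.lf (nat_lit 0) (nat_lit 4506610545) (nat_lit 532) (nat_lit 4236064485) (nat_lit 608) (nat_lit 1028578764) (nat_lit 206) (nat_lit 5) (nat_lit 213) (nat_lit 5) (nat_lit 214) (nat_lit 5) (nat_lit 450) (nat_lit 378) (nat_lit 312)) (XT.nd (nat_lit 78) (nat_lit 0) (nat_lit 0) (XT.lf (nat_lit 0) (nat_lit 599460323) (nat_lit 532) (nat_lit 975683153) (nat_lit 608) (nat_lit 8300904959) (nat_lit 198) (nat_lit 5) (nat_lit 205) (nat_lit 5) (nat_lit 206) (nat_lit 5) (nat_lit 451) (nat_lit 378) (nat_lit 311)) (XT.lf (nat_lit 0) (nat_lit 4236784439) (nat_lit 608) (nat_lit 3393476863) (nat_lit 76) (nat_lit 2352166075) (nat_lit 198)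 (nat_lit 5) (nat_lit 206) (nat_lit 5) (nat_lit 199) (nat_lit 5) (nat_lit 452) (nat_lit 378) (nat_lit 310)))) (XT.nd (nat_lit 156) (nat_lit 1064) (nat_lit 0) (XT.nd (nat_lit 78) (nat_lit 0) (nat_lit 0) (XT.lf (nat_lit 0) (nat_lit 2594518430) (nat_lit 456) (nat_lit 4349843103) (nat_lit 532) (nat_lit 3146734692) (nat_lit 192) (nat_lit 5) (nat_lit 198) (nat_lit 5) (nat_lit 199) (nat_lit 5) (nat_lit 453) (nat_lit 378) (nat_lit 309)) (XT.lf (nat_lit 0) (nat_lit 8708194246) (nat_lit 456) (nat_lit 990404291) (nat_lit 532) (nat_lit 503505819) (nat_lit 192) (nat_lit 5) (nat_lit 198) (nat_lit 5) (nat_lit 199) (nat_lit 5) (nat_lit 454) (nat_lit 378) (nat_lit 308))) (XT.nd (nat_lit 78) (nat_lit 456) (nat_lit 0) (XT.lf (nat_lit 0) (nat_lit 2180094386) (nat_lit 608) (nat_lit 5695439238) (nat_lit 76) (nat_lit 2439204503) (nat_lit 184) (nat_lit 5) (nat_lit 192) (nat_lit 5) (nat_lit 185) (nat_lit 5) (nat_lit 455) (nat_lit 378) (nat_lit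 307)) (XT.lf (nat_lit 0) (nat_lit 400910198) (nat_lit 456) (nat_lit 4499357331) (nat_lit 532) (nat_lit 5529512769) (nat_lit 178) (nat_lit 5) (nat_lit 184) (nat_lit 5) (nat_lit 185) (nat_lit 5) (nat_lit 456) (nat_lit 378) (nat_lit 306))))) (XT.nd (nat_lit 234) (nat_lit 1368) (nat_lit 0) (XT.nd (nat_lit 78) (nat_lit 532) (nat_lit 0) (XT.lf (nat_lit 0) (nat_lit 6656666554) (nat_lit 456) (nat_lit 1027103103) (nat_lit 532) (nat_lit 2863189995) (nat_lit 178) (nat_lit 5) (nat_lit 184) (nat_lit 5) (nat_lit 185) (nat_lit 5) (nat_lit 457) (nat_lit 378) (nat_lit 305)) (XT.nd (nat_lit 78) (nat_lit 76) (nat_lit 0) (XT.lf (nat_lit 0) (nat_lit 2346030707) (nat_lit 456) (nat_lit 8179683664) (nat_lit 532) (nat_lit 140727330) (nat_lit 172) (nat_lit 5) (nat_lit 178) (nat_lit 5) (nat_lit 179) (nat_lit 5) (nat_lit 458) (nat_lit 378) (nat_lit 304)) (XT.lf (nat_lit 0) (nat_lit 2606012690) (nat_lit 532) (nat_lit 2091669479) (nat_lit 76)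 (nat_lit 6090214855) (nat_lit 171) (nat_lit 5) (nat_lit 178) (nat_lit 5) (nat_lit 172) (nat_lit 5) (nat_lit 459) (nat_lit 378) (nat_lit 303)))) (XT.nd (nat_lit 156) (nat_lit 912) (nat_lit 0) (XT.nd (nat_lit 78) (nat_lit 0) (nat_lit 0) (XT.lf (nat_lit 0) (nat_lit 4277995708) (nat_lit 456) (nat_lit 1127468468) (nat_lit 532) (nat_lit 5506319172) (nat_lit 165) (nat_lit 5) (nat_lit 171) (nat_lit 5) (nat_lit 172) (nat_lit 5) (nat_lit 460) (nat_lit 378) (nat_lit 302)) (XT.lf (nat_lit 0) (nat_lit 8263472082) (nat_lit 532) (nat_lit 289946195) (nat_lit 76) (nat_lit 2484691223) (nat_lit 165) (nat_lit 5) (nat_lit 172) (nat_lit 5) (nat_lit 166) (nat_lit 5) (nat_lit 461) (nat_lit 378) (nat_lit 301))) (XT.nd (nat_lit 78) (nat_lit 380) (nat_lit 0) (XT.lf (nat_lit 0) (nat_lit 32137494) (nat_lit 532) (nat_lit 4950244942) (nat_lit 76) (nat_lit 6184178897) (nat_lit 158) (nat_lit 5) (nat_lit 165) (nat_lit 5) (nat_lit 159) (nat_lit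 5) (nat_lit 462) (nat_lit 378) (nat_lit 300)) (XT.lf (nat_lit 0) (nat_lit 1522240752) (nat_lit 380) (nat_lit 1320290031) (nat_lit 456) (nat_lit 8455004581) (nat_lit 153) (nat_lit 5) (nat_lit 158) (nat_lit 5) (nat_lit 159) (nat_lit 5) (nat_lit 463) (nat_lit 378) (nat_lit 299)))))) (XT.nd (nat_lit 546) (nat_lit 1216) (nat_lit 0) (XT.nd (nat_lit 234) (nat_lit 1216) (nat_lit 0) (XT.nd (nat_lit 78) (nat_lit 456) (nat_lit 0) (XT.lf (nat_lit 0) (nat_lit 5731222771) (nat_lit 456) (nat_lit 3293739386) (nat_lit 76) (nat_lit 2405737328) (nat_lit 153) (nat_lit 5) (nat_lit 159) (nat_lit 5) (nat_lit 154) (nat_lit 5) (nat_lit 464) (nat_lit 378) (nat_lit 298)) (XT.nd (nat_lit 78) (nat_lit 0) (nat_lit 0) (XT.lf (nat_lit 0) (nat_lit 3314275664) (nat_lit 456) (nat_lit 5367177034) (nat_lit 532) (nat_lit 2885011089) (nat_lit 147) (nat_lit 5) (nat_lit 153) (nat_lit 5) (nat_lit 154) (nat_lit 5) (nat_lit 465) (nat_lit 378) (nat_lit 297))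 (XT.lf (nat_lit 0) (nat_lit 10061452870) (nat_lit 456) (nat_lit 1625114209) (nat_lit 532) (nat_lit 18470642) (nat_lit 147) (nat_lit 5) (nat_lit 153) (nat_lit 5) (nat_lit 154) (nat_lit 5) (nat_lit 466) (nat_lit 378) (nat_lit 296)))) (XT.nd (nat_lit 156) (nat_lit 760) (nat_lit 0) (XT.nd (nat_lit 78) (nat_lit 0) (nat_lit 0) (XT.lf (nat_lit 0) (nat_lit 2889071423) (nat_lit 456) (nat_lit 6752316399) (nat_lit 76) (nat_lit 2204194003) (nat_lit 141) (nat_lit 5) (nat_lit 147) (nat_lit 5) (nat_lit 142) (nat_lit 5) (nat_lit 467) (nat_lit 378) (nat_lit 295)) (XT.lf (nat_lit 0) (nat_lit 5850684771) (nat_lit 456) (nat_lit 50009632) (nat_lit 76) (nat_lit 6088327865) (nat_lit 141) (nat_lit 5) (nat_lit 147) (nat_lit 5) (nat_lit 142) (nat_lit 5) (nat_lit 468) (nat_lit 378) (nat_lit 294))) (XT.nd (nat_lit 78) (nat_lit 380) (nat_lit 0) (XT.lf (nat_lit 0) (nat_lit 6839309062) (nat_lit 380) (nat_lit 2051433343) (nat_lit 456) (nat_lit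 3244215908) (nat_lit 136) (nat_lit 5) (nat_lit 141) (nat_lit 5) (nat_lit 142) (nat_lit 5) (nat_lit 469) (nat_lit 378) (nat_lit 293)) (XT.lf (nat_lit 0) (nat_lit 1554573588) (nat_lit 380) (nat_lit 10434619998) (nat_lit 456) (nat_lit 294678462) (nat_lit 131) (nat_lit 5) (nat_lit 136) (nat_lit 5) (nat_lit 137) (nat_lit 5) (nat_lit 470) (nat_lit 378) (nat_lit 292))))) (XT.nd (nat_lit 234) (nat_lit 760) (nat_lit 0) (XT.nd (nat_lit 78) (nat_lit 380) (nat_lit 0) (XT.lf (nat_lit 0) (nat_lit 2702681232) (nat_lit 456) (nat_lit 3889934274) (nat_lit 76) (nat_lit 5842318064) (nat_lit 130) (nat_lit 5) (nat_lit 136) (nat_lit 5) (nat_lit 131) (nat_lit 5) (nat_lit 471) (nat_lit 378) (nat_lit 291)) (XT.nd (nat_lit 78) (nat_lit 0) (nat_lit 0) (XT.lf (nat_lit 0) (nat_lit 3088472886) (nat_lit 380) (nat_lit 2663181025) (nat_lit 456) (nat_lit 6837421417) (nat_lit 125) (nat_lit 5) (nat_lit 130) (nat_lit 5) (nat_lit 131) (nat_lit 5) (nat_lit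 472) (nat_lit 378) (nat_lit 290)) (XT.lf (nat_lit 0) (nat_lit 8872337638) (nat_lit 456) (nat_lit 2531981898) (nat_lit 76) (nat_lit 1341775748) (nat_lit 125) (nat_lit 5) (nat_lit 131) (nat_lit 5) (nat_lit 126) (nat_lit 5) (nat_lit 473) (nat_lit 378) (nat_lit 289)))) (XT.nd (nat_lit 156) (nat_lit 380) (nat_lit 0) (XT.nd (nat_lit 78) (nat_lit 76) (nat_lit 0) (XT.lf (nat_lit 0) (nat_lit 4582715628) (nat_lit 304) (nat_lit 7496310015) (nat_lit 380) (nat_lit 826767980) (nat_lit 121) (nat_lit 5) (nat_lit 125) (nat_lit 5) (nat_lit 126) (nat_lit 5) (nat_lit 474) (nat_lit 378) (nat_lit 288)) (XT.lf (nat_lit 0) (nat_lit 2244617183) (nat_lit 380) (nat_lit 1245091772) (nat_lit 76) (nat_lit 9578822704) (nat_lit 120) (nat_lit 5) (nat_lit 125) (nat_lit 5) (nat_lit 121) (nat_lit 5) (nat_lit 475) (nat_lit 378) (nat_lit 287))) (XT.nd (nat_lit 78) (nat_lit 0) (nat_lit 0) (XT.lf (nat_lit 0) (nat_lit 5386237635) (nat_lit 456) (nat_lit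 7225514390) (nat_lit 76) (nat_lit 622274804) (nat_lit 115) (nat_lit 5) (nat_lit 121) (nat_lit 5) (nat_lit 116) (nat_lit 5) (nat_lit 476) (nat_lit 378) (nat_lit 286)) (XT.lf (nat_lit 0) (nat_lit 8599099413) (nat_lit 456) (nat_lit 37074023) (nat_lit 76) (nat_lit 4766499341) (nat_lit 115) (nat_lit 5) (nat_lit 121) (nat_lit 5) (nat_lit 116) (nat_lit 5) (nat_lit 477) (nat_lit 378) (nat_lit 285))))))) (XT.nd (nat_lit 1092) (nat_lit 1748) (nat_lit 0) (XT.nd (nat_lit 546) (nat_lit 1140) (nat_lit 0) (XT.nd (nat_lit 234) (nat_lit 684) (nat_lit 0) (XT.nd (nat_lit 78) (nat_lit 380) (nat_lit 0) (XT.lf (nat_lit 0) (nat_lit 7357006438) (nat_lit 304) (nat_lit 4544319442) (nat_lit 380) (nat_lit 1672872486) (nat_lit 111) (nat_lit 5) (nat_lit 115) (nat_lit 5) (nat_lit 116) (nat_lit 5) (nat_lit 478) (nat_lit 378) (nat_lit 284)) (XT.nd (nat_lit 78) (nat_lit 0) (nat_lit 0) (XT.lf (nat_lit 0) (nat_lit 1120444790) (nat_lit 304) (nat_lit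 364986571) (nat_lit 380) (nat_lit 12263835606) (nat_lit 106) (nat_lit 5) (nat_lit 110) (nat_lit 5) (nat_lit 111) (nat_lit 5) (nat_lit 479) (nat_lit 378) (nat_lit 283)) (XT.lf (nat_lit 0) (nat_lit 4729372800) (nat_lit 380) (nat_lit 5309402821) (nat_lit 76) (nat_lit 3887951101) (nat_lit 106) (nat_lit 5) (nat_lit 111) (nat_lit 5) (nat_lit 107) (nat_lit 5) (nat_lit 480) (nat_lit 378) (nat_lit 282)))) (XT.nd (nat_lit 156) (nat_lit 380) (nat_lit 0) (XT.nd (nat_lit 78) (nat_lit 0) (nat_lit 0) (XT.lf (nat_lit 0) (nat_lit 2147995093) (nat_lit 304) (nat_lit 5884547044) (nat_lit 380) (nat_lit 6075314753) (nat_lit 102) (nat_lit 5) (nat_lit 106) (nat_lit 5) (nat_lit 107) (nat_lit 5) (nat_lit 481) (nat_lit 378) (nat_lit 281)) (XT.lf (nat_lit 0) (nat_lit 9792572040) (nat_lit 304) (nat_lit 1623028734) (nat_lit 380) (nat_lit 2876740404) (nat_lit 102) (nat_lit 5) (nat_lit 106) (nat_lit 5) (nat_lit 107) (nat_lit 5) (nat_lit 482)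 (nat_lit 378) (nat_lit 280))) (XT.nd (nat_lit 78) (nat_lit 0) (nat_lit 0) (XT.lf (nat_lit 0) (nat_lit 397197311) (nat_lit 380) (nat_lit 11383957923) (nat_lit 76) (nat_lit 2698988511) (nat_lit 97) (nat_lit 5) (nat_lit 102) (nat_lit 5) (nat_lit 98) (nat_lit 5) (nat_lit 483) (nat_lit 378) (nat_lit 279)) (XT.lf (nat_lit 0) (nat_lit 3717877216) (nat_lit 380) (nat_lit 3829745385) (nat_lit 76) (nat_lit 7123311371) (nat_lit 97) (nat_lit 5) (nat_lit 102) (nat_lit 5) (nat_lit 98) (nat_lit 5) (nat_lit 484) (nat_lit 378) (nat_lit 278))))) (XT.nd (nat_lit 234) (nat_lit 608) (nat_lit 0) (XT.nd (nat_lit 78) (nat_lit 304) (nat_lit 0) (XT.lf (nat_lit 0) (nat_lit 3893574559) (nat_lit 228) (nat_lit 3215698039) (nat_lit 304) (nat_lit 7756188792) (nat_lit 94) (nat_lit 5) (nat_lit 97) (nat_lit 5) (nat_lit 98) (nat_lit 5) (nat_lit 485) (nat_lit 378) (nat_lit 277)) (XT.nd (nat_lit 78) (nat_lit 304) (nat_lit 0) (XT.lf (nat_lit 0) (nat_lit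 10581317711) (nat_lit 304) (nat_lit 3281240312) (nat_lit 76) (nat_lit 1201072178) (nat_lit 94) (nat_lit 5) (nat_lit 98) (nat_lit 5) (nat_lit 95) (nat_lit 5) (nat_lit 486) (nat_lit 378) (nat_lit 276)) (XT.lf (nat_lit 0) (nat_lit 4569332046) (nat_lit 304) (nat_lit 9583986022) (nat_lit 380) (nat_lit 1111841169) (nat_lit 90) (nat_lit 5) (nat_lit 94) (nat_lit 5) (nat_lit 95) (nat_lit 5) (nat_lit 487) (nat_lit 378) (nat_lit 275)))) (XT.nd (nat_lit 156) (nat_lit 304) (nat_lit 0) (XT.nd (nat_lit 78) (nat_lit 228) (nat_lit 0) (XT.lf (nat_lit 0) (nat_lit 2297299167) (nat_lit 380) (nat_lit 2896715259) (nat_lit 76) (nat_lit 10276373924) (nat_lit 89) (nat_lit 5) (nat_lit 94) (nat_lit 5) (nat_lit 90) (nat_lit 5) (nat_lit 488) (nat_lit 378) (nat_lit 274)) (XT.lf (nat_lit 0) (nat_lit 5085772728) (nat_lit 228) (nat_lit 686997477) (nat_lit 304) (nat_lit 9906550871) (nat_lit 86) (nat_lit 5) (nat_lit 89) (nat_lit 5) (nat_lit 90) (nat_lit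 5) (nat_lit 489) (nat_lit 378) (nat_lit 273))) (XT.nd (nat_lit 78) (nat_lit 304) (nat_lit 0) (XT.lf (nat_lit 0) (nat_lit 9342815248) (nat_lit 304) (nat_lit 2682442666) (nat_lit 76) (nat_lit 3866679845) (nat_lit 86) (nat_lit 5) (nat_lit 90) (nat_lit 5) (nat_lit 87) (nat_lit 5) (nat_lit 490) (nat_lit 378) (nat_lit 272)) (XT.lf (nat_lit 0) (nat_lit 5422015688) (nat_lit 304) (nat_lit 7582498493) (nat_lit 380) (nat_lit 3103893998) (nat_lit 82) (nat_lit 5) (nat_lit 86) (nat_lit 5) (nat_lit 87) (nat_lit 5) (nat_lit 491) (nat_lit 378) (nat_lit 271)))))) (XT.nd (nat_lit 546) (nat_lit 912) (nat_lit 0) (XT.nd (nat_lit 234) (nat_lit 532) (nat_lit 0) (XT.nd (nat_lit 78) (nat_lit 228) (nat_lit 0) (XT.lf (nat_lit 0) (nat_lit 403523978) (nat_lit 380) (nat_lit 2638194797) (nat_lit 76) (nat_lit 13287468871) (nat_lit 81) (nat_lit 5) (nat_lit 86) (nat_lit 5) (nat_lit 82) (nat_lit 5) (nat_lit 492) (nat_lit 378) (nat_lit 270)) (XT.nd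 (nat_lit 78) (nat_lit 0) (nat_lit 0) (XT.lf (nat_lit 0) (nat_lit 3967430234) (nat_lit 304) (nat_lit 10971363438) (nat_lit 76) (nat_lit 1614626763) (nat_lit 78) (nat_lit 5) (nat_lit 82) (nat_lit 5) (nat_lit 79) (nat_lit 5) (nat_lit 493) (nat_lit 378) (nat_lit 269)) (XT.lf (nat_lit 0) (nat_lit 7621604718) (nat_lit 304) (nat_lit 2830545104) (nat_lit 76) (nat_lit 6329614230) (nat_lit 78) (nat_lit 5) (nat_lit 82) (nat_lit 5) (nat_lit 79) (nat_lit 5) (nat_lit 494) (nat_lit 378) (nat_lit 268)))) (XT.nd (nat_lit 156) (nat_lit 304) (nat_lit 0) (XT.nd (nat_lit 78) (nat_lit 0) (nat_lit 0) (XT.lf (nat_lit 0) (nat_lit 5515052389) (nat_lit 228) (nat_lit 5851015083) (nat_lit 304) (nat_lit 5648268827) (nat_lit 75) (nat_lit 5) (nat_lit 78) (nat_lit 5) (nat_lit 79) (nat_lit 5) (nat_lit 495) (nat_lit 378) (nat_lit 267)) (XT.lf (nat_lit 0) (nat_lit 14035762295) (nat_lit 228) (nat_lit 1150217921) (nat_lit 304) (nat_lit 2065574301)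 (nat_lit 75) (nat_lit 5) (nat_lit 78) (nat_lit 5) (nat_lit 79) (nat_lit 5) (nat_lit 496) (nat_lit 378) (nat_lit 266))) (XT.nd (nat_lit 78) (nat_lit 0) (nat_lit 0) (XT.lf (nat_lit 0) (nat_lit 1607787757) (nat_lit 304) (nat_lit 12254634082) (nat_lit 76) (nat_lit 3630097455) (nat_lit 71) (nat_lit 5) (nat_lit 75) (nat_lit 5) (nat_lit 72) (nat_lit 5) (nat_lit 497) (nat_lit 378) (nat_lit 265)) (XT.lf (nat_lit 0) (nat_lit 5338216441) (nat_lit 304) (nat_lit 3885002932) (nat_lit 76) (nat_lit 8514591186) (nat_lit 71) (nat_lit 5) (nat_lit 75) (nat_lit 5) (nat_lit 72) (nat_lit 5) (nat_lit 498) (nat_lit 378) (nat_lit 264))))) (XT.nd (nat_lit 312) (nat_lit 380) (nat_lit 0) (XT.nd (nat_lit 156) (nat_lit 304) (nat_lit 0) (XT.nd (nat_lit 78) (nat_lit 0) (nat_lit 0) (XT.lf (nat_lit 0) (nat_lit 4684121869) (nat_lit 228) (nat_lit 4471790983) (nat_lit 304) (nat_lit 8831846916) (nat_lit 68) (nat_lit 5) (nat_lit 71) (nat_lit 5) (nat_lit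 72) (nat_lit 5) (nat_lit 499) (nat_lit 378) (nat_lit 263)) (XT.lf (nat_lit 0) (nat_lit 13060969524) (nat_lit 304) (nat_lit 4796921612) (nat_lit 76) (nat_lit 384601898) (nat_lit 68) (nat_lit 5) (nat_lit 72) (nat_lit 5) (nat_lit 69) (nat_lit 5) (nat_lit 500) (nat_lit 378) (nat_lit 262))) (XT.nd (nat_lit 78) (nat_lit 76) (nat_lit 0) (XT.lf (nat_lit 0) (nat_lit 3872255476) (nat_lit 228) (nat_lit 13209304756) (nat_lit 304) (nat_lit 1420017172) (nat_lit 65) (nat_lit 5) (nat_lit 68) (nat_lit 5) (nat_lit 69) (nat_lit 5) (nat_lit 501) (nat_lit 378) (nat_lit 261)) (XT.lf (nat_lit 0) (nat_lit 2400138757) (nat_lit 304) (nat_lit 6030153368) (nat_lit 76) (nat_lit 10334940114) (nat_lit 64) (nat_lit 5) (nat_lit 68) (nat_lit 5) (nat_lit 65) (nat_lit 5) (nat_lit 502) (nat_lit 378) (nat_lit 260)))) (XT.nd (nat_lit 156) (nat_lit 152) (nat_lit 0) (XT.nd (nat_lit 78) (nat_lit 0) (nat_lit 0) (XT.lf (nat_lit 0) (nat_lit 2739196767) (nat_lit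 228) (nat_lit 3539340568) (nat_lit 304) (nat_lit 12755422840) (nat_lit 61) (nat_lit 5) (nat_lit 64) (nat_lit 5) (nat_lit 65) (nat_lit 5) (nat_lit 503) (nat_lit 378) (nat_lit 259)) (XT.lf (nat_lit 0) (nat_lit 10267775181) (nat_lit 304) (nat_lit 7579661301) (nat_lit 76) (nat_lit 1459965470) (nat_lit 61) (nat_lit 5) (nat_lit 65) (nat_lit 5) (nat_lit 62) (nat_lit 5) (nat_lit 504) (nat_lit 378) (nat_lit 258))) (XT.nd (nat_lit 78) (nat_lit 0) (nat_lit 0) (XT.lf (nat_lit 0) (nat_lit 1275181149) (nat_lit 152) (nat_lit 13076793285) (nat_lit 228) (nat_lit 5234039216) (nat_lit 59) (nat_lit 5) (nat_lit 61) (nat_lit 5) (nat_lit 62) (nat_lit 5) (nat_lit 505) (nat_lit 378) (nat_lit 257)) (XT.lf (nat_lit 0) (nat_lit 10382201368) (nat_lit 152) (nat_lit 8170122551) (nat_lit 228) (nat_lit 1317188862) (nat_lit 59) (nat_lit 5) (nat_lit 61) (nat_lit 5) (nat_lit 62) (nat_lit 5) (nat_lit 506) (nat_lit 378) (nat_lit 256))))))))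
noncomputable def xc98 : XT := (XT.nd (nat_lit 49998) (nat_lit 0) (nat_lit 33668) (XT.nd (nat_lit 1092) (nat_lit 760) (nat_lit 0) (XT.nd (nat_lit 546) (nat_lit 608) (nat_lit 0) (XT.nd (nat_lit 234) (nat_lit 456) (nat_lit 0) (XT.nd (nat_lit 78) (nat_lit 228) (nat_lit 0) (XT.lf (nat_lit 0) (nat_lit 2626689471) (nat_lit 228) (nat_lit 532047675) (nat_lit 76) (nat_lit 16999925085) (nat_lit 58) (nat_lit 5) (nat_lit 61) (nat_lit 5) (nat_lit 59) (nat_lit 5) (nat_lit 507) (nat_lit 378) (nat_lit 255)) (XT.nd (nat_lit 78) (nat_lit 0) (nat_lit 0) (XT.lf (nat_lit 0) (nat_lit 6685355362) (nat_lit 304) (nat_lit 11785011959) (nat_lit 76) (nat_lit 1981986539) (nat_lit 55) (nat_lit 5) (nat_lit 59) (nat_lit 5) (nat_lit 56) (nat_lit 5) (nat_lit 508) (nat_lit 378) (nat_lit 254)) (XT.lf (nat_lit 0) (nat_lit 10833905636) (nat_lit 304) (nat_lit 2741735077) (nat_lit 76) (nat_lit 7176108567) (nat_lit 55) (nat_lit 5) (nat_lit 59) (nat_lit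 5) (nat_lit 56) (nat_lit 5) (nat_lit 509) (nat_lit 378) (nat_lit 253)))) (XT.nd (nat_lit 156) (nat_lit 304) (nat_lit 0) (XT.nd (nat_lit 78) (nat_lit 0) (nat_lit 0) (XT.lf (nat_lit 0) (nat_lit 6541855895) (nat_lit 152) (nat_lit 8550553239) (nat_lit 228) (nat_lit 5964187930) (nat_lit 53) (nat_lit 5) (nat_lit 55) (nat_lit 5) (nat_lit 56) (nat_lit 5) (nat_lit 510) (nat_lit 378) (nat_lit 252)) (XT.lf (nat_lit 0) (nat_lit 16022107913) (nat_lit 152) (nat_lit 3417015236) (nat_lit 228) (nat_lit 1928361865) (nat_lit 53) (nat_lit 5) (nat_lit 55) (nat_lit 5) (nat_lit 56) (nat_lit 5) (nat_lit 511) (nat_lit 378) (nat_lit 251))) (XT.nd (nat_lit 78) (nat_lit 0) (nat_lit 0) (XT.lf (nat_lit 0) (nat_lit 2182431319) (nat_lit 304) (nat_lit 17676077828) (nat_lit 76) (nat_lit 1825342316) (nat_lit 49) (nat_lit 5) (nat_lit 53) (nat_lit 5) (nat_lit 50) (nat_lit 5) (nat_lit 512) (nat_lit 378) (nat_lit 250)) (XT.lf (nat_lit 0) (nat_lit 6393281478)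 (nat_lit 304) (nat_lit 8446952603) (nat_lit 76) (nat_lit 7165186780) (nat_lit 49) (nat_lit 5) (nat_lit 53) (nat_lit 5) (nat_lit 50) (nat_lit 5) (nat_lit 513) (nat_lit 378) (nat_lit 249))))) (XT.nd (nat_lit 234) (nat_lit 456) (nat_lit 0) (XT.nd (nat_lit 78) (nat_lit 0) (nat_lit 0) (XT.lf (nat_lit 0) (nat_lit 953840655) (nat_lit 152) (nat_lit 9725897673) (nat_lit 228) (nat_lit 11653859240) (nat_lit 47) (nat_lit 5) (nat_lit 49) (nat_lit 5) (nat_lit 50) (nat_lit 5) (nat_lit 514) (nat_lit 378) (nat_lit 248)) (XT.nd (nat_lit 78) (nat_lit 0) (nat_lit 0) (XT.lf (nat_lit 0) (nat_lit 10631893445) (nat_lit 152) (nat_lit 4462037362) (nat_lit 228) (nat_lit 7573570510) (nat_lit 47) (nat_lit 5) (nat_lit 49) (nat_lit 5) (nat_lit 50) (nat_lit 5) (nat_lit 515) (nat_lit 378) (nat_lit 247)) (XT.lf (nat_lit 0) (nat_lit 19587840067) (nat_lit 228) (nat_lit 2535451117) (nat_lit 76) (nat_lit 884966867) (nat_lit 47) (nat_lit 5) (nat_lit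 50) (nat_lit 5) (nat_lit 48) (nat_lit 5) (nat_lit 516) (nat_lit 378) (nat_lit 246)))) (XT.nd (nat_lit 156) (nat_lit 152) (nat_lit 0) (XT.nd (nat_lit 78) (nat_lit 0) (nat_lit 0) (XT.lf (nat_lit 0) (nat_lit 867597710) (nat_lit 304) (nat_lit 16165272389) (nat_lit 76) (nat_lit 6321607328) (nat_lit 43) (nat_lit 5) (nat_lit 47) (nat_lit 5) (nat_lit 44) (nat_lit 5) (nat_lit 517) (nat_lit 378) (nat_lit 245)) (XT.lf (nat_lit 0) (nat_lit 5198594374) (nat_lit 304) (nat_lit 6611848434) (nat_lit 76) (nat_lit 11896669166) (nat_lit 43) (nat_lit 5) (nat_lit 47) (nat_lit 5) (nat_lit 44) (nat_lit 5) (nat_lit 518) (nat_lit 378) (nat_lit 244))) (XT.nd (nat_lit 78) (nat_lit 0) (nat_lit 0) (XT.lf (nat_lit 0) (nat_lit 3149910444) (nat_lit 152) (nat_lit 6472879630) (nat_lit 228) (nat_lit 14443880853) (nat_lit 41) (nat_lit 5) (nat_lit 43) (nat_lit 5) (nat_lit 44) (nat_lit 5) (nat_lit 519) (nat_lit 378) (nat_lit 243)) (XT.lf (nat_lit 0)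 (nat_lit 13172642841) (nat_lit 152) (nat_lit 993440538) (nat_lit 228) (nat_lit 10266728637) (nat_lit 41) (nat_lit 5) (nat_lit 43) (nat_lit 5) (nat_lit 44) (nat_lit 5) (nat_lit 520) (nat_lit 378) (nat_lit 242)))))) (XT.nd (nat_lit 546) (nat_lit 228) (nat_lit 0) (XT.nd (nat_lit 234) (nat_lit 304) (nat_lit 0) (XT.nd (nat_lit 78) (nat_lit 228) (nat_lit 0) (XT.lf (nat_lit 0) (nat_lit 18816530082) (nat_lit 228) (nat_lit 1463910664) (nat_lit 76) (nat_lit 4525512601) (nat_lit 41) (nat_lit 5) (nat_lit 44) (nat_lit 5) (nat_lit 42) (nat_lit 5) (nat_lit 521) (nat_lit 378) (nat_lit 241)) (XT.nd (nat_lit 78) (nat_lit 76) (nat_lit 0) (XT.lf (nat_lit 0) (nat_lit 8611471188) (nat_lit 152) (nat_lit 14997720604) (nat_lit 228) (nat_lit 1576384695) (nat_lit 39) (nat_lit 5) (nat_lit 41) (nat_lit 5) (nat_lit 42) (nat_lit 5) (nat_lit 522) (nat_lit 378) (nat_lit 240)) (XT.lf (nat_lit 0) (nat_lit 2883178974) (nat_lit 228) (nat_lit 6706637395)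 (nat_lit 76) (nat_lit 15982666397) (nat_lit 38) (nat_lit 5) (nat_lit 41) (nat_lit 5) (nat_lit 39) (nat_lit 5) (nat_lit 523) (nat_lit 378) (nat_lit 239)))) (XT.nd (nat_lit 156) (nat_lit 152) (nat_lit 0) (XT.nd (nat_lit 78) (nat_lit 0) (nat_lit 0) (XT.lf (nat_lit 0) (nat_lit 3369191904) (nat_lit 152) (nat_lit 4050525495) (nat_lit 228) (nat_lit 18547026475) (nat_lit 36) (nat_lit 5) (nat_lit 38) (nat_lit 5) (nat_lit 39) (nat_lit 5) (nat_lit 524) (nat_lit 378) (nat_lit 238)) (XT.lf (nat_lit 0) (nat_lit 12089716971) (nat_lit 228) (nat_lit 12664009633) (nat_lit 76) (nat_lit 1614311863) (nat_lit 36) (nat_lit 5) (nat_lit 39) (nat_lit 5) (nat_lit 37) (nat_lit 5) (nat_lit 525) (nat_lit 378) (nat_lit 237))) (XT.nd (nat_lit 78) (nat_lit 152) (nat_lit 0) (XT.lf (nat_lit 0) (nat_lit 16867237203) (nat_lit 228) (nat_lit 2580958533) (nat_lit 76) (nat_lit 7328883617) (nat_lit 36) (nat_lit 5) (nat_lit 39) (nat_lit 5) (nat_lit 37)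 (nat_lit 5) (nat_lit 526) (nat_lit 378) (nat_lit 236)) (XT.lf (nat_lit 0) (nat_lit 7783941962) (nat_lit 152) (nat_lit 13994449485) (nat_lit 228) (nat_lit 5415150695) (nat_lit 34) (nat_lit 5) (nat_lit 36) (nat_lit 5) (nat_lit 37) (nat_lit 5) (nat_lit 527) (nat_lit 378) (nat_lit 235))))) (XT.nd (nat_lit 48048) (nat_lit 0) (nat_lit 47272) (XT.nd (nat_lit 78) (nat_lit 228) (nat_lit 0) (XT.lf (nat_lit 0) (nat_lit 18369370693) (nat_lit 152) (nat_lit 8423365733) (nat_lit 228) (nat_lit 825501114) (nat_lit 34) (nat_lit 5) (nat_lit 36) (nat_lit 5) (nat_lit 37) (nat_lit 5) (nat_lit 528) (nat_lit 378) (nat_lit 234)) (XT.nd (nat_lit 47892) (nat_lit 0) (nat_lit 47652) (XT.lf (nat_lit 0) (nat_lit 1082752916) (nat_lit 152) (nat_lit 2717454566) (nat_lit 228) (nat_lit 24250824507) (nat_lit 31) (nat_lit 5) (nat_lit 33) (nat_lit 5) (nat_lit 34) (nat_lit 5) (nat_lit 529) (nat_lit 378) (nat_lit 233)) (XT.lf (nat_lit 0) (nat_lit 1530964842)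 (nat_lit 76) (nat_lit 160167180) (nat_lit 0) (nat_lit 1530964842) (nat_lit 658) (nat_lit 5) (nat_lit 659) (nat_lit 0) (nat_lit 658) (nat_lit 4) (nat_lit 382) (nat_lit 379) (nat_lit 379)))) (XT.nd (nat_lit 156) (nat_lit 228) (nat_lit 0) (XT.nd (nat_lit 78) (nat_lit 76) (nat_lit 0) (XT.lf (nat_lit 0) (nat_lit 2817985913) (nat_lit 76) (nat_lit 3266509824) (nat_lit 76) (nat_lit 362329227) (nat_lit 657) (nat_lit 4) (nat_lit 658) (nat_lit 5) (nat_lit 658) (nat_lit 4) (nat_lit 383) (nat_lit 379) (nat_lit 378)) (XT.lf (nat_lit 0) (nat_lit 2606703813) (nat_lit 152) (nat_lit 485874772) (nat_lit 76) (nat_lit 3358189748) (nat_lit 656) (nat_lit 5) (nat_lit 658) (nat_lit 5) (nat_lit 657) (nat_lit 4) (nat_lit 384) (nat_lit 379) (nat_lit 377))) (XT.nd (nat_lit 78) (nat_lit 76) (nat_lit 0) (XT.lf (nat_lit 0) (nat_lit 2711779013) (nat_lit 152) (nat_lit 2859806735) (nat_lit 228) (nat_lit 884427964) (nat_lit 654) (nat_lit 5) (nat_lit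 656) (nat_lit 5) (nat_lit 657) (nat_lit 4) (nat_lit 385) (nat_lit 379) (nat_lit 376)) (XT.lf (nat_lit 0) (nat_lit 2034036873) (nat_lit 228) (nat_lit 537369118) (nat_lit 76) (nat_lit 3891221932) (nat_lit 653) (nat_lit 5) (nat_lit 656) (nat_lit 5) (nat_lit 654) (nat_lit 5) (nat_lit 386) (nat_lit 379) (nat_lit 375))))))) (XT.nd (nat_lit 1092) (nat_lit 9196) (nat_lit 0) (XT.nd (nat_lit 546) (nat_lit 2812) (nat_lit 0) (XT.nd (nat_lit 234) (nat_lit 988) (nat_lit 0) (XT.nd (nat_lit 78) (nat_lit 380) (nat_lit 0) (XT.lf (nat_lit 0) (nat_lit 2722141917) (nat_lit 228) (nat_lit 2220401564) (nat_lit 304) (nat_lit 1527935537) (nat_lit 650) (nat_lit 5) (nat_lit 653) (nat_lit 5) (nat_lit 654) (nat_lit 5) (nat_lit 387) (nat_lit 379) (nat_lit 374)) (XT.nd (nat_lit 78) (nat_lit 304) (nat_lit 0) (XT.lf (nat_lit 0) (nat_lit 1342044151) (nat_lit 304) (nat_lit 475730713) (nat_lit 76) (nat_lit 4662013227) (nat_lit 649) (nat_lit 5) (nat_lit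 653) (nat_lit 5) (nat_lit 650) (nat_lit 5) (nat_lit 388) (nat_lit 379) (nat_lit 373)) (XT.lf (nat_lit 0) (nat_lit 2848260644) (nat_lit 304) (nat_lit 1347103376) (nat_lit 380) (nat_lit 2294875866) (nat_lit 645) (nat_lit 5) (nat_lit 649) (nat_lit 5) (nat_lit 650) (nat_lit 5) (nat_lit 389) (nat_lit 379) (nat_lit 372)))) (XT.nd (nat_lit 156) (nat_lit 532) (nat_lit 0) (XT.nd (nat_lit 78) (nat_lit 380) (nat_lit 0) (XT.lf (nat_lit 0) (nat_lit 528612005) (nat_lit 380) (nat_lit 301670309) (nat_lit 76) (nat_lit 5671989120) (nat_lit 644) (nat_lit 5) (nat_lit 649) (nat_lit 5) (nat_lit 645) (nat_lit 5) (nat_lit 390) (nat_lit 379) (nat_lit 371)) (XT.lf (nat_lit 0) (nat_lit 3089525754) (nat_lit 380) (nat_lit 238287389) (nat_lit 456) (nat_lit 3187509182) (nat_lit 639) (nat_lit 5) (nat_lit 644) (nat_lit 5) (nat_lit 645) (nat_lit 5) (nat_lit 391) (nat_lit 379) (nat_lit 370))) (XT.nd (nat_lit 78) (nat_lit 532) (nat_lit 0) (XT.lf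 (nat_lit 0) (nat_lit 6118584240) (nat_lit 456) (nat_lit 20957247) (nat_lit 76) (nat_lit 390460962) (nat_lit 639) (nat_lit 5) (nat_lit 645) (nat_lit 5) (nat_lit 640) (nat_lit 5) (nat_lit 392) (nat_lit 379) (nat_lit 369)) (XT.lf (nat_lit 0) (nat_lit 2344615582) (nat_lit 532) (nat_lit 3107425621) (nat_lit 76) (nat_lit 1093574286) (nat_lit 632) (nat_lit 5) (nat_lit 639) (nat_lit 5) (nat_lit 633) (nat_lit 5) (nat_lit 393) (nat_lit 379) (nat_lit 368))))) (XT.nd (nat_lit 234) (nat_lit 1596) (nat_lit 0) (XT.nd (nat_lit 78) (nat_lit 684) (nat_lit 0) (XT.lf (nat_lit 0) (nat_lit 364859470) (nat_lit 532) (nat_lit 4720979510) (nat_lit 608) (nat_lit 1477011188) (nat_lit 625) (nat_lit 5) (nat_lit 632) (nat_lit 5) (nat_lit 633) (nat_lit 5) (nat_lit 394) (nat_lit 379) (nat_lit 367)) (XT.nd (nat_lit 78) (nat_lit 608) (nat_lit 0) (XT.lf (nat_lit 0) (nat_lit 1238970514) (nat_lit 608) (nat_lit 2683030028) (nat_lit 76) (nat_lit 2659240757)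 (nat_lit 624) (nat_lit 5) (nat_lit 632) (nat_lit 5) (nat_lit 625) (nat_lit 5) (nat_lit 395) (nat_lit 379) (nat_lit 366)) (XT.lf (nat_lit 0) (nat_lit 861450567) (nat_lit 608) (nat_lit 3068549327) (nat_lit 684) (nat_lit 2671065972) (nat_lit 616) (nat_lit 5) (nat_lit 624) (nat_lit 5) (nat_lit 625) (nat_lit 5) (nat_lit 396) (nat_lit 379) (nat_lit 365)))) (XT.nd (nat_lit 156) (nat_lit 836) (nat_lit 0) (XT.nd (nat_lit 78) (nat_lit 684) (nat_lit 0) (XT.lf (nat_lit 0) (nat_lit 6388449) (nat_lit 684) (nat_lit 2151148123) (nat_lit 76) (nat_lit 4464741061) (nat_lit 615) (nat_lit 5) (nat_lit 624) (nat_lit 5) (nat_lit 616) (nat_lit 5) (nat_lit 397) (nat_lit 379) (nat_lit 364)) (XT.lf (nat_lit 0) (nat_lit 1468557416) (nat_lit 684) (nat_lit 1179308057) (nat_lit 760) (nat_lit 3996837150) (nat_lit 606) (nat_lit 5) (nat_lit 615) (nat_lit 5) (nat_lit 616) (nat_lit 5) (nat_lit 398) (nat_lit 379) (nat_lit 363))) (XT.nd (nat_lit 78)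 (nat_lit 836) (nat_lit 0) (XT.lf (nat_lit 0) (nat_lit 5147991238) (nat_lit 684) (nat_lit 146257133) (nat_lit 760) (nat_lit 1374351788) (nat_lit 606) (nat_lit 5) (nat_lit 615) (nat_lit 5) (nat_lit 616) (nat_lit 5) (nat_lit 399) (nat_lit 379) (nat_lit 362)) (XT.lf (nat_lit 0) (nat_lit 1242286490) (nat_lit 836) (nat_lit 4513605919) (nat_lit 76) (nat_lit 937802167) (nat_lit 595) (nat_lit 5) (nat_lit 606) (nat_lit 5) (nat_lit 596) (nat_lit 5) (nat_lit 400) (nat_lit 379) (nat_lit 361)))))) (XT.nd (nat_lit 546) (nat_lit 5244) (nat_lit 0) (XT.nd (nat_lit 234) (nat_lit 2128) (nat_lit 0) (XT.nd (nat_lit 78) (nat_lit 1824) (nat_lit 0) (XT.lf (nat_lit 0) (nat_lit 3843569309) (nat_lit 836) (nat_lit 796822295) (nat_lit 76) (nat_lit 2079765093) (nat_lit 595) (nat_lit 5) (nat_lit 606) (nat_lit 5) (nat_lit 596) (nat_lit 5) (nat_lit 401) (nat_lit 379) (nat_lit 360)) (XT.nd (nat_lit 78) (nat_lit 988) (nat_lit 0) (XT.lf (nat_lit 0)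 (nat_lit 2991362488) (nat_lit 836) (nat_lit 3465581214) (nat_lit 912) (nat_lit 291063620) (nat_lit 584) (nat_lit 5) (nat_lit 595) (nat_lit 5) (nat_lit 596) (nat_lit 5) (nat_lit 402) (nat_lit 379) (nat_lit 359)) (XT.lf (nat_lit 0) (nat_lit 32227988) (nat_lit 912) (nat_lit 2229854024) (nat_lit 988) (nat_lit 4515152880) (nat_lit 571) (nat_lit 5) (nat_lit 583) (nat_lit 5) (nat_lit 584) (nat_lit 5) (nat_lit 403) (nat_lit 379) (nat_lit 358)))) (XT.nd (nat_lit 156) (nat_lit 1064) (nat_lit 0) (XT.nd (nat_lit 78) (nat_lit 1064) (nat_lit 0) (XT.lf (nat_lit 0) (nat_lit 3903398044) (nat_lit 912) (nat_lit 926164771) (nat_lit 988) (nat_lit 1978159413) (nat_lit 571) (nat_lit 5) (nat_lit 583) (nat_lit 5) (nat_lit 584) (nat_lit 5) (nat_lit 404) (nat_lit 379) (nat_lit 357)) (XT.lf (nat_lit 0) (nat_lit 553400511) (nat_lit 1064) (nat_lit 5862971001) (nat_lit 76) (nat_lit 423387089) (nat_lit 557) (nat_lit 5) (nat_lit 571) (nat_lit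 5) (nat_lit 558) (nat_lit 5) (nat_lit 405) (nat_lit 379) (nat_lit 356))) (XT.nd (nat_lit 78) (nat_lit 1064) (nat_lit 0) (XT.lf (nat_lit 0) (nat_lit 3078499705) (nat_lit 1064) (nat_lit 1959949182) (nat_lit 76) (nat_lit 1834391182) (nat_lit 557) (nat_lit 5) (nat_lit 571) (nat_lit 5) (nat_lit 558) (nat_lit 5) (nat_lit 406) (nat_lit 379) (nat_lit 355)) (XT.lf (nat_lit 0) (nat_lit 2004847827) (nat_lit 1064) (nat_lit 3606994081) (nat_lit 1140) (nat_lit 1295639175) (nat_lit 543) (nat_lit 5) (nat_lit 557) (nat_lit 5) (nat_lit 558) (nat_lit 5) (nat_lit 407) (nat_lit 379) (nat_lit 354))))) (XT.nd (nat_lit 312) (nat_lit 2736) (nat_lit 0) (XT.nd (nat_lit 156) (nat_lit 1292) (nat_lit 0) (XT.nd (nat_lit 78) (nat_lit 1140) (nat_lit 0) (XT.lf (nat_lit 0) (nat_lit 1194963335) (nat_lit 1140) (nat_lit 918345163) (nat_lit 76) (nat_lit 4830227178) (nat_lit 542) (nat_lit 5) (nat_lit 557) (nat_lit 5) (nat_lit 543) (nat_lit 5) (nat_lit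 408) (nat_lit 379) (nat_lit 353)) (XT.lf (nat_lit 0) (nat_lit 3135942381) (nat_lit 1140) (nat_lit 548661484) (nat_lit 1216) (nat_lit 3296254417) (nat_lit 527) (nat_lit 5) (nat_lit 542) (nat_lit 5) (nat_lit 543) (nat_lit 5) (nat_lit 409) (nat_lit 379) (nat_lit 352))) (XT.nd (nat_lit 78) (nat_lit 76) (nat_lit 0) (XT.lf (nat_lit 0) (nat_lit 217839104) (nat_lit 1216) (nat_lit 5967667585) (nat_lit 1292) (nat_lit 834239983) (nat_lit 511) (nat_lit 5) (nat_lit 527) (nat_lit 5) (nat_lit 528) (nat_lit 5) (nat_lit 410) (nat_lit 379) (nat_lit 351)) (XT.lf (nat_lit 0) (nat_lit 1632045501) (nat_lit 1292) (nat_lit 2703220682) (nat_lit 76) (nat_lit 2724435209) (nat_lit 510) (nat_lit 5) (nat_lit 527) (nat_lit 5) (nat_lit 511) (nat_lit 5) (nat_lit 411) (nat_lit 379) (nat_lit 350)))) (XT.nd (nat_lit 156) (nat_lit 1444) (nat_lit 0) (XT.nd (nat_lit 78) (nat_lit 0) (nat_lit 0) (XT.lf (nat_lit 0) (nat_lit 1448163733) (nat_lit 1292) (nat_lit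 2646185679) (nat_lit 1368) (nat_lit 3006884158) (nat_lit 493) (nat_lit 5) (nat_lit 510) (nat_lit 5) (nat_lit 511) (nat_lit 5) (nat_lit 412) (nat_lit 379) (nat_lit 349)) (XT.lf (nat_lit 0) (nat_lit 5676755550) (nat_lit 1292) (nat_lit 896469271) (nat_lit 1368) (nat_lit 571070072) (nat_lit 493) (nat_lit 5) (nat_lit 510) (nat_lit 5) (nat_lit 511) (nat_lit 5) (nat_lit 413) (nat_lit 379) (nat_lit 348))) (XT.nd (nat_lit 78) (nat_lit 0) (nat_lit 0) (XT.lf (nat_lit 0) (nat_lit 1862265137) (nat_lit 1444) (nat_lit 4411231786) (nat_lit 76) (nat_lit 915037310) (nat_lit 474) (nat_lit 5) (nat_lit 493) (nat_lit 5) (nat_lit 475) (nat_lit 5) (nat_lit 414) (nat_lit 379) (nat_lit 347)) (XT.lf (nat_lit 0) (nat_lit 4303045133) (nat_lit 1444) (nat_lit 159453930) (nat_lit 76) (nat_lit 2771797723) (nat_lit 474) (nat_lit 5) (nat_lit 493) (nat_lit 5) (nat_lit 475) (nat_lit 5) (nat_lit 415) (nat_lit 379) (nat_lit 346))))))))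
noncomputable def xc99 : XT := (XT.nd (nat_lit 2184) (nat_lit 8816) (nat_lit 0) (XT.nd (nat_lit 1092) (nat_lit 5852) (nat_lit 0) (XT.nd (nat_lit 546) (nat_lit 3648) (nat_lit 0) (XT.nd (nat_lit 234) (nat_lit 4788) (nat_lit 0) (XT.nd (nat_lit 78) (nat_lit 1596) (nat_lit 0) (XT.lf (nat_lit 0) (nat_lit 4190015758) (nat_lit 1444) (nat_lit 2581366097) (nat_lit 1520) (nat_lit 510059497) (nat_lit 455) (nat_lit 5) (nat_lit 474) (nat_lit 5) (nat_lit 475) (nat_lit 5) (nat_lit 416) (nat_lit 379) (nat_lit 345)) (XT.nd (nat_lit 78) (nat_lit 0) (nat_lit 0) (XT.lf (nat_lit 0) (nat_lit 1260229150) (nat_lit 1520) (nat_lit 634744282) (nat_lit 1596) (nat_lit 5435118553) (nat_lit 434) (nat_lit 5) (nat_lit 454) (nat_lit 5) (nat_lit 455) (nat_lit 5) (nat_lit 417) (nat_lit 379) (nat_lit 344)) (XT.lf (nat_lit 0) (nat_lit 4323495461) (nat_lit 1596) (nat_lit 1694202880) (nat_lit 76) (nat_lit 1362344683) (nat_lit 434) (nat_lit 5) (nat_lit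 455) (nat_lit 5) (nat_lit 435) (nat_lit 5) (nat_lit 418) (nat_lit 379) (nat_lit 343)))) (XT.nd (nat_lit 156) (nat_lit 3116) (nat_lit 0) (XT.nd (nat_lit 78) (nat_lit 76) (nat_lit 0) (XT.lf (nat_lit 0) (nat_lit 2758356130) (nat_lit 1596) (nat_lit 4017833619) (nat_lit 1672) (nat_lit 655329717) (nat_lit 413) (nat_lit 5) (nat_lit 434) (nat_lit 5) (nat_lit 435) (nat_lit 5) (nat_lit 419) (nat_lit 379) (nat_lit 342)) (XT.lf (nat_lit 0) (nat_lit 1735614750) (nat_lit 1672) (nat_lit 215546720) (nat_lit 76) (nat_lit 5533363350) (nat_lit 412) (nat_lit 5) (nat_lit 434) (nat_lit 5) (nat_lit 413) (nat_lit 5) (nat_lit 420) (nat_lit 379) (nat_lit 341))) (XT.nd (nat_lit 78) (nat_lit 1444) (nat_lit 0) (XT.lf (nat_lit 0) (nat_lit 4149746821) (nat_lit 1748) (nat_lit 3198427447) (nat_lit 76) (nat_lit 190682708) (nat_lit 390) (nat_lit 5) (nat_lit 413) (nat_lit 5) (nat_lit 391) (nat_lit 5) (nat_lit 421) (nat_lit 379) (nat_lit 340)) (XT.lf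 (nat_lit 0) (nat_lit 1358297128) (nat_lit 1444) (nat_lit 5232387894) (nat_lit 1520) (nat_lit 1004055775) (nat_lit 371) (nat_lit 5) (nat_lit 390) (nat_lit 5) (nat_lit 391) (nat_lit 5) (nat_lit 422) (nat_lit 379) (nat_lit 339))))) (XT.nd (nat_lit 234) (nat_lit 2736) (nat_lit 0) (XT.nd (nat_lit 78) (nat_lit 836) (nat_lit 0) (XT.lf (nat_lit 0) (nat_lit 1387167982) (nat_lit 1520) (nat_lit 1654348440) (nat_lit 76) (nat_lit 4610530346) (nat_lit 370) (nat_lit 5) (nat_lit 390) (nat_lit 5) (nat_lit 371) (nat_lit 5) (nat_lit 423) (nat_lit 379) (nat_lit 338)) (XT.nd (nat_lit 78) (nat_lit 0) (nat_lit 0) (XT.lf (nat_lit 0) (nat_lit 3009931858) (nat_lit 836) (nat_lit 778866337) (nat_lit 912) (nat_lit 3922080844) (nat_lit 359) (nat_lit 5) (nat_lit 370) (nat_lit 5) (nat_lit 371) (nat_lit 5) (nat_lit 424) (nat_lit 379) (nat_lit 337)) (XT.lf (nat_lit 0) (nat_lit 6216621753) (nat_lit 912) (nat_lit 33647025) (nat_lit 76) (nat_lit 1521088753)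 (nat_lit 359) (nat_lit 5) (nat_lit 371) (nat_lit 5) (nat_lit 360) (nat_lit 5) (nat_lit 425) (nat_lit 379) (nat_lit 336)))) (XT.nd (nat_lit 156) (nat_lit 912) (nat_lit 0) (XT.nd (nat_lit 78) (nat_lit 836) (nat_lit 0) (XT.lf (nat_lit 0) (nat_lit 842451453) (nat_lit 988) (nat_lit 3096772088) (nat_lit 76) (nat_lit 3893866424) (nat_lit 346) (nat_lit 5) (nat_lit 359) (nat_lit 5) (nat_lit 347) (nat_lit 5) (nat_lit 426) (nat_lit 379) (nat_lit 335)) (XT.lf (nat_lit 0) (nat_lit 1675388828) (nat_lit 836) (nat_lit 1560648269) (nat_lit 912) (nat_lit 4660459861) (nat_lit 335) (nat_lit 5) (nat_lit 346) (nat_lit 5) (nat_lit 347) (nat_lit 5) (nat_lit 427) (nat_lit 379) (nat_lit 334))) (XT.nd (nat_lit 78) (nat_lit 912) (nat_lit 0) (XT.lf (nat_lit 0) (nat_lit 5662722743) (nat_lit 912) (nat_lit 1424487536) (nat_lit 76) (nat_lit 874287536) (nat_lit 335) (nat_lit 5) (nat_lit 347) (nat_lit 5) (nat_lit 336) (nat_lit 5) (nat_lit 428) (nat_lit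 379) (nat_lit 333)) (XT.lf (nat_lit 0) (nat_lit 100925556) (nat_lit 912) (nat_lit 4567626819) (nat_lit 76) (nat_lit 3359416595) (nat_lit 323) (nat_lit 5) (nat_lit 335) (nat_lit 5) (nat_lit 324) (nat_lit 5) (nat_lit 429) (nat_lit 379) (nat_lit 332)))))) (XT.nd (nat_lit 546) (nat_lit 2736) (nat_lit 0) (XT.nd (nat_lit 234) (nat_lit 1596) (nat_lit 0) (XT.nd (nat_lit 78) (nat_lit 760) (nat_lit 0) (XT.lf (nat_lit 0) (nat_lit 313028558) (nat_lit 760) (nat_lit 2176223939) (nat_lit 836) (nat_lit 5606813439) (nat_lit 313) (nat_lit 5) (nat_lit 323) (nat_lit 5) (nat_lit 324) (nat_lit 5) (nat_lit 430) (nat_lit 379) (nat_lit 331)) (XT.nd (nat_lit 78) (nat_lit 760) (nat_lit 0) (XT.lf (nat_lit 0) (nat_lit 4918806427) (nat_lit 836) (nat_lit 2857196532) (nat_lit 76) (nat_lit 389680658) (nat_lit 313) (nat_lit 5) (nat_lit 324) (nat_lit 5) (nat_lit 314) (nat_lit 5) (nat_lit 431) (nat_lit 379) (nat_lit 330)) (XT.lf (nat_lit 0) (nat_lit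 2138722154) (nat_lit 760) (nat_lit 5247537446) (nat_lit 836) (nat_lit 850675324) (nat_lit 303) (nat_lit 5) (nat_lit 313) (nat_lit 5) (nat_lit 314) (nat_lit 5) (nat_lit 432) (nat_lit 379) (nat_lit 329)))) (XT.nd (nat_lit 156) (nat_lit 836) (nat_lit 0) (XT.nd (nat_lit 78) (nat_lit 684) (nat_lit 0) (XT.lf (nat_lit 0) (nat_lit 1553074164) (nat_lit 836) (nat_lit 1088752757) (nat_lit 76) (nat_lit 5667993351) (nat_lit 302) (nat_lit 5) (nat_lit 313) (nat_lit 5) (nat_lit 303) (nat_lit 5) (nat_lit 433) (nat_lit 379) (nat_lit 328)) (XT.lf (nat_lit 0) (nat_lit 3981935545) (nat_lit 760) (nat_lit 4358045019) (nat_lit 76) (nat_lit 44327610) (nat_lit 293) (nat_lit 5) (nat_lit 303) (nat_lit 5) (nat_lit 294) (nat_lit 5) (nat_lit 434) (nat_lit 379) (nat_lit 327))) (XT.nd (nat_lit 78) (nat_lit 76) (nat_lit 0) (XT.lf (nat_lit 0) (nat_lit 748480198) (nat_lit 760) (nat_lit 5703039378) (nat_lit 836) (nat_lit 2008948696) (nat_lit 283)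 (nat_lit 5) (nat_lit 293) (nat_lit 5) (nat_lit 294) (nat_lit 5) (nat_lit 435) (nat_lit 379) (nat_lit 326)) (XT.lf (nat_lit 0) (nat_lit 418743169) (nat_lit 836) (nat_lit 2566592100) (nat_lit 76) (nat_lit 5552943130) (nat_lit 282) (nat_lit 5) (nat_lit 293) (nat_lit 5) (nat_lit 283) (nat_lit 5) (nat_lit 436) (nat_lit 379) (nat_lit 325))))) (XT.nd (nat_lit 234) (nat_lit 1368) (nat_lit 0) (XT.nd (nat_lit 78) (nat_lit 684) (nat_lit 0) (XT.lf (nat_lit 0) (nat_lit 2661912036) (nat_lit 684) (nat_lit 186849047) (nat_lit 760) (nat_lit 5769028507) (nat_lit 273) (nat_lit 5) (nat_lit 282) (nat_lit 5) (nat_lit 283) (nat_lit 5) (nat_lit 437) (nat_lit 379) (nat_lit 324)) (XT.nd (nat_lit 78) (nat_lit 684) (nat_lit 0) (XT.lf (nat_lit 0) (nat_lit 5325819607) (nat_lit 760) (nat_lit 728052862) (nat_lit 76) (nat_lit 2645073145) (nat_lit 273) (nat_lit 5) (nat_lit 283) (nat_lit 5) (nat_lit 274) (nat_lit 5) (nat_lit 438) (nat_lit 379) (nat_lit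 323)) (XT.lf (nat_lit 0) (nat_lit 4622689417) (nat_lit 684) (nat_lit 3225474129) (nat_lit 760) (nat_lit 933669286) (nat_lit 264) (nat_lit 5) (nat_lit 273) (nat_lit 5) (nat_lit 274) (nat_lit 5) (nat_lit 439) (nat_lit 379) (nat_lit 322)))) (XT.nd (nat_lit 156) (nat_lit 684) (nat_lit 0) (XT.nd (nat_lit 78) (nat_lit 0) (nat_lit 0) (XT.lf (nat_lit 0) (nat_lit 1188243183) (nat_lit 608) (nat_lit 323248016) (nat_lit 684) (nat_lit 7355160731) (nat_lit 255) (nat_lit 5) (nat_lit 263) (nat_lit 5) (nat_lit 264) (nat_lit 5) (nat_lit 440) (nat_lit 379) (nat_lit 321)) (XT.lf (nat_lit 0) (nat_lit 4003338498) (nat_lit 684) (nat_lit 2318802192) (nat_lit 76) (nat_lit 2630719215) (nat_lit 255) (nat_lit 5) (nat_lit 264) (nat_lit 5) (nat_lit 256) (nat_lit 5) (nat_lit 441) (nat_lit 379) (nat_lit 320))) (XT.nd (nat_lit 78) (nat_lit 0) (nat_lit 0) (XT.lf (nat_lit 0) (nat_lit 3146277217) (nat_lit 684) (nat_lit 3387056675) (nat_lit 760) (nat_lit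 2507713131) (nat_lit 246) (nat_lit 5) (nat_lit 255) (nat_lit 5) (nat_lit 256) (nat_lit 5) (nat_lit 442) (nat_lit 379) (nat_lit 319)) (XT.lf (nat_lit 0) (nat_lit 8711516335) (nat_lit 684) (nat_lit 384124237) (nat_lit 760) (nat_lit 35743877) (nat_lit 246) (nat_lit 5) (nat_lit 255) (nat_lit 5) (nat_lit 256) (nat_lit 5) (nat_lit 443) (nat_lit 379) (nat_lit 318))))))) (XT.nd (nat_lit 1092) (nat_lit 3648) (nat_lit 0) (XT.nd (nat_lit 546) (nat_lit 2128) (nat_lit 0) (XT.nd (nat_lit 234) (nat_lit 1748) (nat_lit 0) (XT.nd (nat_lit 78) (nat_lit 608) (nat_lit 0) (XT.lf (nat_lit 0) (nat_lit 2470924041) (nat_lit 684) (nat_lit 4064865191) (nat_lit 76) (nat_lit 2687079422) (nat_lit 237) (nat_lit 5) (nat_lit 246) (nat_lit 5) (nat_lit 238) (nat_lit 5) (nat_lit 444) (nat_lit 379) (nat_lit 317)) (XT.nd (nat_lit 78) (nat_lit 0) (nat_lit 0) (XT.lf (nat_lit 0) (nat_lit 1513434638) (nat_lit 608) (nat_lit 3495944336) (nat_lit 684) (nat_lit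 4307175791) (nat_lit 229) (nat_lit 5) (nat_lit 237) (nat_lit 5) (nat_lit 238) (nat_lit 5) (nat_lit 445) (nat_lit 379) (nat_lit 316)) (XT.lf (nat_lit 0) (nat_lit 7218055181) (nat_lit 608) (nat_lit 375137313) (nat_lit 684) (nat_lit 1819049526) (nat_lit 229) (nat_lit 5) (nat_lit 237) (nat_lit 5) (nat_lit 238) (nat_lit 5) (nat_lit 446) (nat_lit 379) (nat_lit 315)))) (XT.nd (nat_lit 156) (nat_lit 1140) (nat_lit 0) (XT.nd (nat_lit 78) (nat_lit 0) (nat_lit 0) (XT.lf (nat_lit 0) (nat_lit 718407794) (nat_lit 608) (nat_lit 5999786583) (nat_lit 76) (nat_lit 2791393837) (nat_lit 221) (nat_lit 5) (nat_lit 229) (nat_lit 5) (nat_lit 222) (nat_lit 5) (nat_lit 447) (nat_lit 379) (nat_lit 314)) (XT.lf (nat_lit 0) (nat_lit 3267632204) (nat_lit 608) (nat_lit 305946790) (nat_lit 76) (nat_lit 6035372461) (nat_lit 221) (nat_lit 5) (nat_lit 229) (nat_lit 5) (nat_lit 222) (nat_lit 5) (nat_lit 448) (nat_lit 379) (nat_lit 313))) (XT.nd (nat_lit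 78) (nat_lit 532) (nat_lit 0) (XT.lf (nat_lit 0) (nat_lit 5534806802) (nat_lit 608) (nat_lit 337642716) (nat_lit 684) (nat_lit 3837778021) (nat_lit 213) (nat_lit 5) (nat_lit 221) (nat_lit 5) (nat_lit 222) (nat_lit 5) (nat_lit 449) (nat_lit 379) (nat_lit 312)) (XT.lf (nat_lit 0) (nat_lit 1645488535) (nat_lit 532) (nat_lit 6884840624) (nat_lit 608) (nat_lit 1283198066) (nat_lit 206) (nat_lit 5) (nat_lit 213) (nat_lit 5) (nat_lit 214) (nat_lit 5) (nat_lit 450) (nat_lit 379) (nat_lit 311))))) (XT.nd (nat_lit 234) (nat_lit 1520) (nat_lit 0) (XT.nd (nat_lit 78) (nat_lit 532) (nat_lit 0) (XT.lf (nat_lit 0) (nat_lit 1304678887) (nat_lit 608) (nat_lit 2329965962) (nat_lit 76) (nat_lit 6284102052) (nat_lit 205) (nat_lit 5) (nat_lit 213) (nat_lit 5) (nat_lit 206) (nat_lit 5) (nat_lit 451) (nat_lit 379) (nat_lit 310)) (XT.nd (nat_lit 78) (nat_lit 0) (nat_lit 0) (XT.lf (nat_lit 0) (nat_lit 3624652913) (nat_lit 532) (nat_lit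 295742866) (nat_lit 608) (nat_lit 6105656660) (nat_lit 198) (nat_lit 5) (nat_lit 205) (nat_lit 5) (nat_lit 206) (nat_lit 5) (nat_lit 452) (nat_lit 379) (nat_lit 309)) (XT.lf (nat_lit 0) (nat_lit 6594354198) (nat_lit 608) (nat_lit 465092449) (nat_lit 76) (nat_lit 3075954971) (nat_lit 198) (nat_lit 5) (nat_lit 206) (nat_lit 5) (nat_lit 199) (nat_lit 5) (nat_lit 453) (nat_lit 379) (nat_lit 308)))) (XT.nd (nat_lit 156) (nat_lit 456) (nat_lit 0) (XT.nd (nat_lit 78) (nat_lit 608) (nat_lit 0) (XT.lf (nat_lit 0) (nat_lit 5622950553) (nat_lit 456) (nat_lit 3707892591) (nat_lit 532) (nat_lit 915929369) (nat_lit 192) (nat_lit 5) (nat_lit 198) (nat_lit 5) (nat_lit 199) (nat_lit 5) (nat_lit 454) (nat_lit 379) (nat_lit 307)) (XT.lf (nat_lit 0) (nat_lit 1447346915) (nat_lit 532) (nat_lit 274481694) (nat_lit 608) (nat_lit 8638663752) (nat_lit 184) (nat_lit 5) (nat_lit 191) (nat_lit 5) (nat_lit 192) (nat_lit 5) (nat_lit 455) (nat_lit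 379) (nat_lit 306))) (XT.nd (nat_lit 78) (nat_lit 456) (nat_lit 0) (XT.lf (nat_lit 0) (nat_lit 4423242421) (nat_lit 608) (nat_lit 2839678966) (nat_lit 76) (nat_lit 3212995683) (nat_lit 184) (nat_lit 5) (nat_lit 192) (nat_lit 5) (nat_lit 185) (nat_lit 5) (nat_lit 456) (nat_lit 379) (nat_lit 305)) (XT.lf (nat_lit 0) (nat_lit 3359060163) (nat_lit 456) (nat_lit 3814784721) (nat_lit 532) (nat_lit 3419916741) (nat_lit 178) (nat_lit 5) (nat_lit 184) (nat_lit 5) (nat_lit 185) (nat_lit 5) (nat_lit 457) (nat_lit 379) (nat_lit 304)))))) (XT.nd (nat_lit 546) (nat_lit 1748) (nat_lit 0) (XT.nd (nat_lit 234) (nat_lit 912) (nat_lit 0) (XT.nd (nat_lit 78) (nat_lit 988) (nat_lit 0) (XT.lf (nat_lit 0) (nat_lit 9682085924) (nat_lit 456) (nat_lit 288272855) (nat_lit 532) (nat_lit 743800576) (nat_lit 178) (nat_lit 5) (nat_lit 184) (nat_lit 5) (nat_lit 185) (nat_lit 5) (nat_lit 458) (nat_lit 379) (nat_lit 303)) (XT.nd (nat_lit 78) (nat_lit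 456) (nat_lit 0) (XT.lf (nat_lit 0) (nat_lit 1988223294) (nat_lit 532) (nat_lit 5544731336) (nat_lit 76) (nat_lit 3303197661) (nat_lit 171) (nat_lit 5) (nat_lit 178) (nat_lit 5) (nat_lit 172) (nat_lit 5) (nat_lit 459) (nat_lit 379) (nat_lit 302)) (XT.lf (nat_lit 0) (nat_lit 759950199) (nat_lit 456) (nat_lit 3991237036) (nat_lit 532) (nat_lit 6209587790) (nat_lit 165) (nat_lit 5) (nat_lit 171) (nat_lit 5) (nat_lit 172) (nat_lit 5) (nat_lit 460) (nat_lit 379) (nat_lit 301)))) (XT.nd (nat_lit 156) (nat_lit 456) (nat_lit 0) (XT.nd (nat_lit 78) (nat_lit 456) (nat_lit 0) (XT.lf (nat_lit 0) (nat_lit 7228071504) (nat_lit 456) (nat_lit 351276951) (nat_lit 532) (nat_lit 3508356184) (nat_lit 165) (nat_lit 5) (nat_lit 171) (nat_lit 5) (nat_lit 172) (nat_lit 5) (nat_lit 461) (nat_lit 379) (nat_lit 300)) (XT.lf (nat_lit 0) (nat_lit 2582879119) (nat_lit 456) (nat_lit 7892986041) (nat_lit 532) (nat_lit 741084767) (nat_lit 159)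 (nat_lit 5) (nat_lit 165) (nat_lit 5) (nat_lit 166) (nat_lit 5) (nat_lit 462) (nat_lit 379) (nat_lit 299))) (XT.nd (nat_lit 78) (nat_lit 380) (nat_lit 0) (XT.lf (nat_lit 0) (nat_lit 2055923157) (nat_lit 532) (nat_lit 2195388214) (nat_lit 76) (nat_lit 7097177068) (nat_lit 158) (nat_lit 5) (nat_lit 165) (nat_lit 5) (nat_lit 159) (nat_lit 5) (nat_lit 463) (nat_lit 379) (nat_lit 298)) (XT.lf (nat_lit 0) (nat_lit 4387771789) (nat_lit 380) (nat_lit 513490315) (nat_lit 456) (nat_lit 6581263547) (nat_lit 153) (nat_lit 5) (nat_lit 158) (nat_lit 5) (nat_lit 159) (nat_lit 5) (nat_lit 464) (nat_lit 379) (nat_lit 297))))) (XT.nd (nat_lit 312) (nat_lit 836) (nat_lit 0) (XT.nd (nat_lit 156) (nat_lit 456) (nat_lit 0) (XT.nd (nat_lit 78) (nat_lit 456) (nat_lit 0) (XT.lf (nat_lit 0) (nat_lit 7813779018) (nat_lit 456) (nat_lit 545264253) (nat_lit 76) (nat_lit 3260006855) (nat_lit 153) (nat_lit 5) (nat_lit 159) (nat_lit 5) (nat_lit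 154) (nat_lit 5) (nat_lit 465) (nat_lit 379) (nat_lit 296)) (XT.lf (nat_lit 0) (nat_lit 6176395638) (nat_lit 456) (nat_lit 4626183419) (nat_lit 532) (nat_lit 955377086) (nat_lit 147) (nat_lit 5) (nat_lit 153) (nat_lit 5) (nat_lit 154) (nat_lit 5) (nat_lit 466) (nat_lit 379) (nat_lit 295))) (XT.nd (nat_lit 78) (nat_lit 0) (nat_lit 0) (XT.lf (nat_lit 0) (nat_lit 1105585617) (nat_lit 380) (nat_lit 805813317) (nat_lit 456) (nat_lit 9988289619) (nat_lit 141) (nat_lit 5) (nat_lit 146) (nat_lit 5) (nat_lit 147) (nat_lit 5) (nat_lit 467) (nat_lit 379) (nat_lit 294)) (XT.lf (nat_lit 0) (nat_lit 4855308472) (nat_lit 456) (nat_lit 4104748937) (nat_lit 76) (nat_lit 3083431126) (nat_lit 141) (nat_lit 5) (nat_lit 147) (nat_lit 5) (nat_lit 142) (nat_lit 5) (nat_lit 468) (nat_lit 379) (nat_lit 293)))) (XT.nd (nat_lit 156) (nat_lit 456) (nat_lit 0) (XT.nd (nat_lit 78) (nat_lit 0) (nat_lit 0) (XT.lf (nat_lit 0) (nat_lit 2712619401)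 (nat_lit 380) (nat_lit 5143726111) (nat_lit 456) (nat_lit 4333864835) (nat_lit 136) (nat_lit 5) (nat_lit 141) (nat_lit 5) (nat_lit 142) (nat_lit 5) (nat_lit 469) (nat_lit 379) (nat_lit 292)) (XT.lf (nat_lit 0) (nat_lit 9686200264) (nat_lit 380) (nat_lit 1234300752) (nat_lit 456) (nat_lit 1419314230) (nat_lit 136) (nat_lit 5) (nat_lit 141) (nat_lit 5) (nat_lit 142) (nat_lit 5) (nat_lit 470) (nat_lit 379) (nat_lit 291))) (XT.nd (nat_lit 78) (nat_lit 0) (nat_lit 0) (XT.lf (nat_lit 0) (nat_lit 1555106485) (nat_lit 456) (nat_lit 8192218592) (nat_lit 76) (nat_lit 2744456549) (nat_lit 130) (nat_lit 5) (nat_lit 136) (nat_lit 5) (nat_lit 131) (nat_lit 5) (nat_lit 471) (nat_lit 379) (nat_lit 290)) (XT.lf (nat_lit 0) (nat_lit 4572162760) (nat_lit 456) (nat_lit 1271934602) (nat_lit 76) (nat_lit 6802469298) (nat_lit 130) (nat_lit 5) (nat_lit 136) (nat_lit 5) (nat_lit 131) (nat_lit 5) (nat_lit 472) (nat_lit 379) (nat_lit 289))))))))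
noncomputable def xc100 : XT := (XT.nd (nat_lit 2184) (nat_lit 2660) (nat_lit 0) (XT.nd (nat_lit 1092) (nat_lit 1976) (nat_lit 0) (XT.nd (nat_lit 546) (nat_lit 1292) (nat_lit 0) (XT.nd (nat_lit 234) (nat_lit 684) (nat_lit 0) (XT.nd (nat_lit 78) (nat_lit 380) (nat_lit 0) (XT.lf (nat_lit 0) (nat_lit 5828305186) (nat_lit 380) (nat_lit 1835600842) (nat_lit 456) (nat_lit 5140264246) (nat_lit 125) (nat_lit 5) (nat_lit 130) (nat_lit 5) (nat_lit 131) (nat_lit 5) (nat_lit 473) (nat_lit 379) (nat_lit 288)) (XT.nd (nat_lit 78) (nat_lit 76) (nat_lit 0) (XT.lf (nat_lit 0) (nat_lit 74264594) (nat_lit 304) (nat_lit 10743588305) (nat_lit 380) (nat_lit 2147075293) (nat_lit 121) (nat_lit 5) (nat_lit 125) (nat_lit 5) (nat_lit 126) (nat_lit 5) (nat_lit 474) (nat_lit 379) (nat_lit 287)) (XT.lf (nat_lit 0) (nat_lit 930108803) (nat_lit 380) (nat_lit 5821505136) (nat_lit 76) (nat_lit 6376458649) (nat_lit 120) (nat_lit 5) (nat_lit 125)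 (nat_lit 5) (nat_lit 121) (nat_lit 5) (nat_lit 475) (nat_lit 379) (nat_lit 286)))) (XT.nd (nat_lit 156) (nat_lit 304) (nat_lit 0) (XT.nd (nat_lit 78) (nat_lit 0) (nat_lit 0) (XT.lf (nat_lit 0) (nat_lit 1358171143) (nat_lit 380) (nat_lit 2667952676) (nat_lit 456) (nat_lit 9268360528) (nat_lit 115) (nat_lit 5) (nat_lit 120) (nat_lit 5) (nat_lit 121) (nat_lit 5) (nat_lit 476) (nat_lit 379) (nat_lit 285)) (XT.lf (nat_lit 0) (nat_lit 7210446098) (nat_lit 456) (nat_lit 4747687934) (nat_lit 76) (nat_lit 1505571445) (nat_lit 115) (nat_lit 5) (nat_lit 121) (nat_lit 5) (nat_lit 116) (nat_lit 5) (nat_lit 477) (nat_lit 379) (nat_lit 284))) (XT.nd (nat_lit 78) (nat_lit 0) (nat_lit 0) (XT.lf (nat_lit 0) (nat_lit 2566766476) (nat_lit 304) (nat_lit 7903807241) (nat_lit 380) (nat_lit 3165503634) (nat_lit 111) (nat_lit 5) (nat_lit 115) (nat_lit 5) (nat_lit 116) (nat_lit 5) (nat_lit 478) (nat_lit 379) (nat_lit 283)) (XT.lf (nat_lit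 0) (nat_lit 10058151006) (nat_lit 304) (nat_lit 3747614238) (nat_lit 380) (nat_lit 5942721) (nat_lit 111) (nat_lit 5) (nat_lit 115) (nat_lit 5) (nat_lit 116) (nat_lit 5) (nat_lit 479) (nat_lit 379) (nat_lit 282))))) (XT.nd (nat_lit 234) (nat_lit 608) (nat_lit 0) (XT.nd (nat_lit 78) (nat_lit 304) (nat_lit 0) (XT.lf (nat_lit 0) (nat_lit 3180358248) (nat_lit 380) (nat_lit 10290970761) (nat_lit 76) (nat_lit 518997910) (nat_lit 106) (nat_lit 5) (nat_lit 111) (nat_lit 5) (nat_lit 107) (nat_lit 5) (nat_lit 480) (nat_lit 379) (nat_lit 281)) (XT.nd (nat_lit 78) (nat_lit 304) (nat_lit 0) (XT.lf (nat_lit 0) (nat_lit 6458896912) (nat_lit 380) (nat_lit 2878325455) (nat_lit 76) (nat_lit 4834731311) (nat_lit 106) (nat_lit 5) (nat_lit 111) (nat_lit 5) (nat_lit 107) (nat_lit 5) (nat_lit 481) (nat_lit 379) (nat_lit 280)) (XT.lf (nat_lit 0) (nat_lit 4711527881) (nat_lit 304) (nat_lit 5100909403) (nat_lit 380) (nat_lit 4544594948)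 (nat_lit 102) (nat_lit 5) (nat_lit 106) (nat_lit 5) (nat_lit 107) (nat_lit 5) (nat_lit 482) (nat_lit 379) (nat_lit 279)))) (XT.nd (nat_lit 156) (nat_lit 228) (nat_lit 0) (XT.nd (nat_lit 78) (nat_lit 380) (nat_lit 0) (XT.lf (nat_lit 0) (nat_lit 12459573370) (nat_lit 304) (nat_lit 771833837) (nat_lit 380) (nat_lit 1314445703) (nat_lit 102) (nat_lit 5) (nat_lit 106) (nat_lit 5) (nat_lit 107) (nat_lit 5) (nat_lit 483) (nat_lit 379) (nat_lit 278)) (XT.lf (nat_lit 0) (nat_lit 1994260671) (nat_lit 380) (nat_lit 9108640888) (nat_lit 76) (nat_lit 3634500193) (nat_lit 97) (nat_lit 5) (nat_lit 102) (nat_lit 5) (nat_lit 98) (nat_lit 5) (nat_lit 484) (nat_lit 379) (nat_lit 277))) (XT.nd (nat_lit 78) (nat_lit 228) (nat_lit 0) (XT.lf (nat_lit 0) (nat_lit 5350194970) (nat_lit 380) (nat_lit 1452422456) (nat_lit 76) (nat_lit 8130024570) (nat_lit 97) (nat_lit 5) (nat_lit 102) (nat_lit 5) (nat_lit 98) (nat_lit 5) (nat_lit 485) (nat_lit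 379) (nat_lit 276)) (XT.lf (nat_lit 0) (nat_lit 6409219690) (nat_lit 228) (nat_lit 2385477974) (nat_lit 304) (nat_lit 6336667524) (nat_lit 94) (nat_lit 5) (nat_lit 97) (nat_lit 5) (nat_lit 98) (nat_lit 5) (nat_lit 486) (nat_lit 379) (nat_lit 275)))))) (XT.nd (nat_lit 546) (nat_lit 988) (nat_lit 0) (XT.nd (nat_lit 234) (nat_lit 608) (nat_lit 0) (XT.nd (nat_lit 78) (nat_lit 380) (nat_lit 0) (XT.lf (nat_lit 0) (nat_lit 12311618106) (nat_lit 304) (nat_lit 931795352) (nat_lit 76) (nat_lit 2090585829) (nat_lit 94) (nat_lit 5) (nat_lit 98) (nat_lit 5) (nat_lit 95) (nat_lit 5) (nat_lit 487) (nat_lit 379) (nat_lit 274)) (XT.nd (nat_lit 78) (nat_lit 0) (nat_lit 0) (XT.lf (nat_lit 0) (nat_lit 395745064) (nat_lit 380) (nat_lit 8482557065) (nat_lit 76) (nat_lit 6661499114) (nat_lit 89) (nat_lit 5) (nat_lit 94) (nat_lit 5) (nat_lit 90) (nat_lit 5) (nat_lit 488) (nat_lit 379) (nat_lit 273)) (XT.lf (nat_lit 0) (nat_lit 3828489681)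 (nat_lit 380) (nat_lit 582273599) (nat_lit 76) (nat_lit 11338828481) (nat_lit 89) (nat_lit 5) (nat_lit 94) (nat_lit 5) (nat_lit 90) (nat_lit 5) (nat_lit 489) (nat_lit 379) (nat_lit 272)))) (XT.nd (nat_lit 156) (nat_lit 380) (nat_lit 0) (XT.nd (nat_lit 78) (nat_lit 0) (nat_lit 0) (XT.lf (nat_lit 0) (nat_lit 7360847992) (nat_lit 304) (nat_lit 8419931530) (nat_lit 76) (nat_lit 182185856) (nat_lit 86) (nat_lit 5) (nat_lit 90) (nat_lit 5) (nat_lit 87) (nat_lit 5) (nat_lit 490) (nat_lit 379) (nat_lit 271)) (XT.lf (nat_lit 0) (nat_lit 10977879430) (nat_lit 304) (nat_lit 401838448) (nat_lit 76) (nat_lit 4800614408) (nat_lit 86) (nat_lit 5) (nat_lit 90) (nat_lit 5) (nat_lit 87) (nat_lit 5) (nat_lit 491) (nat_lit 379) (nat_lit 270))) (XT.nd (nat_lit 78) (nat_lit 76) (nat_lit 0) (XT.lf (nat_lit 0) (nat_lit 7849352145) (nat_lit 304) (nat_lit 6850119776) (nat_lit 380) (nat_lit 1701936415) (nat_lit 82) (nat_lit 5) (nat_lit 86)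 (nat_lit 5) (nat_lit 87) (nat_lit 5) (nat_lit 492) (nat_lit 379) (nat_lit 269)) (XT.lf (nat_lit 0) (nat_lit 1828098746) (nat_lit 380) (nat_lit 398254123) (nat_lit 76) (nat_lit 14400636062) (nat_lit 81) (nat_lit 5) (nat_lit 86) (nat_lit 5) (nat_lit 82) (nat_lit 5) (nat_lit 493) (nat_lit 379) (nat_lit 268))))) (XT.nd (nat_lit 234) (nat_lit 532) (nat_lit 0) (XT.nd (nat_lit 78) (nat_lit 228) (nat_lit 0) (XT.lf (nat_lit 0) (nat_lit 5455971619) (nat_lit 304) (nat_lit 8890331118) (nat_lit 76) (nat_lit 2509558740) (nat_lit 78) (nat_lit 5) (nat_lit 82) (nat_lit 5) (nat_lit 79) (nat_lit 5) (nat_lit 494) (nat_lit 379) (nat_lit 267)) (XT.nd (nat_lit 78) (nat_lit 228) (nat_lit 0) (XT.lf (nat_lit 0) (nat_lit 9155598361) (nat_lit 304) (nat_lit 631803468) (nat_lit 76) (nat_lit 7301931457) (nat_lit 78) (nat_lit 5) (nat_lit 82) (nat_lit 5) (nat_lit 79) (nat_lit 5) (nat_lit 495) (nat_lit 379) (nat_lit 266)) (XT.lf (nat_lit 0) (nat_lit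 7865868129) (nat_lit 228) (nat_lit 5096539707) (nat_lit 304) (nat_lit 4364408520) (nat_lit 75) (nat_lit 5) (nat_lit 78) (nat_lit 5) (nat_lit 79) (nat_lit 5) (nat_lit 496) (nat_lit 379) (nat_lit 265)))) (XT.nd (nat_lit 156) (nat_lit 228) (nat_lit 0) (XT.nd (nat_lit 78) (nat_lit 304) (nat_lit 0) (XT.lf (nat_lit 0) (nat_lit 16513060573) (nat_lit 228) (nat_lit 318814752) (nat_lit 304) (nat_lit 737448842) (nat_lit 75) (nat_lit 5) (nat_lit 78) (nat_lit 5) (nat_lit 79) (nat_lit 5) (nat_lit 497) (nat_lit 379) (nat_lit 264)) (XT.lf (nat_lit 0) (nat_lit 2984797787) (nat_lit 304) (nat_lit 10277749625) (nat_lit 76) (nat_lit 4552523481) (nat_lit 71) (nat_lit 5) (nat_lit 75) (nat_lit 5) (nat_lit 72) (nat_lit 5) (nat_lit 498) (nat_lit 379) (nat_lit 263))) (XT.nd (nat_lit 78) (nat_lit 228) (nat_lit 0) (XT.lf (nat_lit 0) (nat_lit 6763465353) (nat_lit 304) (nat_lit 1784294030) (nat_lit 76) (nat_lit 9518043870) (nat_lit 71) (nat_lit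 5) (nat_lit 75) (nat_lit 5) (nat_lit 72) (nat_lit 5) (nat_lit 499) (nat_lit 379) (nat_lit 262)) (XT.lf (nat_lit 0) (nat_lit 6941881628) (nat_lit 228) (nat_lit 3703832051) (nat_lit 304) (nat_lit 7675281530) (nat_lit 68) (nat_lit 5) (nat_lit 71) (nat_lit 5) (nat_lit 72) (nat_lit 5) (nat_lit 500) (nat_lit 379) (nat_lit 261))))))) (XT.nd (nat_lit 1092) (nat_lit 1216) (nat_lit 0) (XT.nd (nat_lit 546) (nat_lit 760) (nat_lit 0) (XT.nd (nat_lit 234) (nat_lit 380) (nat_lit 0) (XT.nd (nat_lit 78) (nat_lit 304) (nat_lit 0) (XT.lf (nat_lit 0) (nat_lit 14608707881) (nat_lit 304) (nat_lit 2750673474) (nat_lit 76) (nat_lit 1221852628) (nat_lit 68) (nat_lit 5) (nat_lit 72) (nat_lit 5) (nat_lit 69) (nat_lit 5) (nat_lit 501) (nat_lit 379) (nat_lit 260)) (XT.nd (nat_lit 78) (nat_lit 76) (nat_lit 0) (XT.lf (nat_lit 0) (nat_lit 6077793823) (nat_lit 228) (nat_lit 12620507710) (nat_lit 304) (nat_lit 147434107) (nat_lit 65) (nat_lit 5)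 (nat_lit 68) (nat_lit 5) (nat_lit 69) (nat_lit 5) (nat_lit 502) (nat_lit 379) (nat_lit 259)) (XT.lf (nat_lit 0) (nat_lit 3706887392) (nat_lit 304) (nat_lit 4047305747) (nat_lit 76) (nat_lit 11360812128) (nat_lit 64) (nat_lit 5) (nat_lit 68) (nat_lit 5) (nat_lit 65) (nat_lit 5) (nat_lit 503) (nat_lit 379) (nat_lit 258)))) (XT.nd (nat_lit 156) (nat_lit 152) (nat_lit 0) (XT.nd (nat_lit 78) (nat_lit 0) (nat_lit 0) (XT.lf (nat_lit 0) (nat_lit 4883592900) (nat_lit 228) (nat_lit 2768146900) (nat_lit 304) (nat_lit 11737597239) (nat_lit 61) (nat_lit 5) (nat_lit 64) (nat_lit 5) (nat_lit 65) (nat_lit 5) (nat_lit 504) (nat_lit 379) (nat_lit 257)) (XT.lf (nat_lit 0) (nat_lit 11701658541) (nat_lit 304) (nat_lit 5663168409) (nat_lit 76) (nat_lit 2303809637) (nat_lit 61) (nat_lit 5) (nat_lit 65) (nat_lit 5) (nat_lit 62) (nat_lit 5) (nat_lit 505) (nat_lit 379) (nat_lit 256))) (XT.nd (nat_lit 78) (nat_lit 0) (nat_lit 0) (XT.lf (nat_lit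 0) (nat_lit 3355165061) (nat_lit 152) (nat_lit 12501626985) (nat_lit 228) (nat_lit 4096250189) (nat_lit 59) (nat_lit 5) (nat_lit 61) (nat_lit 5) (nat_lit 62) (nat_lit 5) (nat_lit 506) (nat_lit 379) (nat_lit 255)) (XT.lf (nat_lit 0) (nat_lit 12604041757) (nat_lit 152) (nat_lit 7513228762) (nat_lit 228) (nat_lit 125424981) (nat_lit 59) (nat_lit 5) (nat_lit 61) (nat_lit 5) (nat_lit 62) (nat_lit 5) (nat_lit 507) (nat_lit 379) (nat_lit 254))))) (XT.nd (nat_lit 234) (nat_lit 456) (nat_lit 0) (XT.nd (nat_lit 78) (nat_lit 0) (nat_lit 0) (XT.lf (nat_lit 0) (nat_lit 1467235940) (nat_lit 228) (nat_lit 2400074332) (nat_lit 304) (nat_lit 16670446725) (nat_lit 55) (nat_lit 5) (nat_lit 58) (nat_lit 5) (nat_lit 59) (nat_lit 5) (nat_lit 508) (nat_lit 379) (nat_lit 253)) (XT.nd (nat_lit 78) (nat_lit 0) (nat_lit 0) (XT.lf (nat_lit 0) (nat_lit 7992608440) (nat_lit 304) (nat_lit 10024705392) (nat_lit 76) (nat_lit 2820305657) (nat_lit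 55) (nat_lit 5) (nat_lit 59) (nat_lit 5) (nat_lit 56) (nat_lit 5) (nat_lit 509) (nat_lit 379) (nat_lit 252)) (XT.lf (nat_lit 0) (nat_lit 12201119015) (nat_lit 304) (nat_lit 839700360) (nat_lit 76) (nat_lit 8102649746) (nat_lit 55) (nat_lit 5) (nat_lit 59) (nat_lit 5) (nat_lit 56) (nat_lit 5) (nat_lit 510) (nat_lit 379) (nat_lit 251)))) (XT.nd (nat_lit 156) (nat_lit 304) (nat_lit 0) (XT.nd (nat_lit 78) (nat_lit 0) (nat_lit 0) (XT.lf (nat_lit 0) (nat_lit 8616688290) (nat_lit 152) (nat_lit 7918166484) (nat_lit 228) (nat_lit 4919763812) (nat_lit 53) (nat_lit 5) (nat_lit 55) (nat_lit 5) (nat_lit 56) (nat_lit 5) (nat_lit 511) (nat_lit 379) (nat_lit 250)) (XT.lf (nat_lit 0) (nat_lit 18248427794) (nat_lit 152) (nat_lit 2697710620) (nat_lit 228) (nat_lit 826039027) (nat_lit 53) (nat_lit 5) (nat_lit 55) (nat_lit 5) (nat_lit 56) (nat_lit 5) (nat_lit 512) (nat_lit 379) (nat_lit 249))) (XT.nd (nat_lit 78) (nat_lit 0) (nat_lit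 0) (XT.lf (nat_lit 0) (nat_lit 3347465009) (nat_lit 304) (nat_lit 16103648515) (nat_lit 76) (nat_lit 2643706012) (nat_lit 49) (nat_lit 5) (nat_lit 53) (nat_lit 5) (nat_lit 50) (nat_lit 5) (nat_lit 513) (nat_lit 379) (nat_lit 248)) (XT.lf (nat_lit 0) (nat_lit 7620544229) (nat_lit 304) (nat_lit 6727704527) (nat_lit 76) (nat_lit 8075016839) (nat_lit 49) (nat_lit 5) (nat_lit 53) (nat_lit 5) (nat_lit 50) (nat_lit 5) (nat_lit 514) (nat_lit 379) (nat_lit 247)))))) (XT.nd (nat_lit 546) (nat_lit 608) (nat_lit 0) (XT.nd (nat_lit 234) (nat_lit 456) (nat_lit 0) (XT.nd (nat_lit 78) (nat_lit 0) (nat_lit 0) (XT.lf (nat_lit 0) (nat_lit 2848682311) (nat_lit 152) (nat_lit 9134669807) (nat_lit 228) (nat_lit 10774846686) (nat_lit 47) (nat_lit 5) (nat_lit 49) (nat_lit 5) (nat_lit 50) (nat_lit 5) (nat_lit 515) (nat_lit 379) (nat_lit 246)) (XT.nd (nat_lit 78) (nat_lit 0) (nat_lit 0) (XT.lf (nat_lit 0) (nat_lit 12683516455) (nat_lit 152)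 (nat_lit 3780939071) (nat_lit 228) (nat_lit 6634757862) (nat_lit 47) (nat_lit 5) (nat_lit 49) (nat_lit 5) (nat_lit 50) (nat_lit 5) (nat_lit 516) (nat_lit 379) (nat_lit 245)) (XT.lf (nat_lit 0) (nat_lit 21032192609) (nat_lit 228) (nat_lit 766923332) (nat_lit 76) (nat_lit 1647995521) (nat_lit 47) (nat_lit 5) (nat_lit 50) (nat_lit 5) (nat_lit 48) (nat_lit 5) (nat_lit 517) (nat_lit 379) (nat_lit 244)))) (XT.nd (nat_lit 156) (nat_lit 152) (nat_lit 0) (XT.nd (nat_lit 78) (nat_lit 0) (nat_lit 0) (XT.lf (nat_lit 0) (nat_lit 1935803514) (nat_lit 304) (nat_lit 14667094652) (nat_lit 76) (nat_lit 7197401987) (nat_lit 43) (nat_lit 5) (nat_lit 47) (nat_lit 5) (nat_lit 44) (nat_lit 5) (nat_lit 518) (nat_lit 379) (nat_lit 243)) (XT.lf (nat_lit 0) (nat_lit 6332815134) (nat_lit 304) (nat_lit 4958317574) (nat_lit 76) (nat_lit 12869271679) (nat_lit 43) (nat_lit 5) (nat_lit 47) (nat_lit 5) (nat_lit 44) (nat_lit 5) (nat_lit 519) (nat_lit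 379) (nat_lit 242))) (XT.nd (nat_lit 78) (nat_lit 0) (nat_lit 0) (XT.lf (nat_lit 0) (nat_lit 4986928009) (nat_lit 152) (nat_lit 5849883890) (nat_lit 228) (nat_lit 13690521077) (nat_lit 41) (nat_lit 5) (nat_lit 43) (nat_lit 5) (nat_lit 44) (nat_lit 5) (nat_lit 520) (nat_lit 379) (nat_lit 241)) (XT.lf (nat_lit 0) (nat_lit 15175330361) (nat_lit 152) (nat_lit 275610004) (nat_lit 228) (nat_lit 9450261844) (nat_lit 41) (nat_lit 5) (nat_lit 43) (nat_lit 5) (nat_lit 44) (nat_lit 5) (nat_lit 521) (nat_lit 379) (nat_lit 240))))) (XT.nd (nat_lit 312) (nat_lit 228) (nat_lit 0) (XT.nd (nat_lit 156) (nat_lit 228) (nat_lit 0) (XT.nd (nat_lit 78) (nat_lit 0) (nat_lit 0) (XT.lf (nat_lit 0) (nat_lit 230134353) (nat_lit 152) (nat_lit 19950813604) (nat_lit 228) (nat_lit 5101131983) (nat_lit 39) (nat_lit 5) (nat_lit 41) (nat_lit 5) (nat_lit 42) (nat_lit 5) (nat_lit 522) (nat_lit 379) (nat_lit 239)) (XT.lf (nat_lit 0) (nat_lit 10492687794)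 (nat_lit 152) (nat_lit 14567031840) (nat_lit 228) (nat_lit 609775300) (nat_lit 39) (nat_lit 5) (nat_lit 41) (nat_lit 5) (nat_lit 42) (nat_lit 5) (nat_lit 523) (nat_lit 379) (nat_lit 238))) (XT.nd (nat_lit 78) (nat_lit 152) (nat_lit 0) (XT.lf (nat_lit 0) (nat_lit 3906574261) (nat_lit 228) (nat_lit 5152241028) (nat_lit 76) (nat_lit 17005585079) (nat_lit 38) (nat_lit 5) (nat_lit 41) (nat_lit 5) (nat_lit 39) (nat_lit 5) (nat_lit 524) (nat_lit 379) (nat_lit 237)) (XT.lf (nat_lit 0) (nat_lit 5113996114) (nat_lit 152) (nat_lit 3411802351) (nat_lit 228) (nat_lit 17940913397) (nat_lit 36) (nat_lit 5) (nat_lit 38) (nat_lit 5) (nat_lit 39) (nat_lit 5) (nat_lit 525) (nat_lit 379) (nat_lit 236)))) (XT.nd (nat_lit 156) (nat_lit 228) (nat_lit 0) (XT.nd (nat_lit 78) (nat_lit 0) (nat_lit 0) (XT.lf (nat_lit 0) (nat_lit 13275001218) (nat_lit 228) (nat_lit 11258354264) (nat_lit 76) (nat_lit 2342964981) (nat_lit 36) (nat_lit 5) (nat_lit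 39) (nat_lit 5) (nat_lit 37) (nat_lit 5) (nat_lit 526) (nat_lit 379) (nat_lit 235)) (XT.lf (nat_lit 0) (nat_lit 18129572052) (nat_lit 228) (nat_lit 1006170290) (nat_lit 76) (nat_lit 8158173917) (nat_lit 36) (nat_lit 5) (nat_lit 39) (nat_lit 5) (nat_lit 37) (nat_lit 5) (nat_lit 527) (nat_lit 379) (nat_lit 234))) (XT.nd (nat_lit 78) (nat_lit 76) (nat_lit 0) (XT.lf (nat_lit 0) (nat_lit 9555328167) (nat_lit 152) (nat_lit 13575974397) (nat_lit 228) (nat_lit 4587562693) (nat_lit 34) (nat_lit 5) (nat_lit 36) (nat_lit 5) (nat_lit 37) (nat_lit 5) (nat_lit 528) (nat_lit 379) (nat_lit 233)) (XT.lf (nat_lit 0) (nat_lit 74538497) (nat_lit 228) (nat_lit 7832123694) (nat_lit 76) (nat_lit 20245746245) (nat_lit 33) (nat_lit 5) (nat_lit 36) (nat_lit 5) (nat_lit 34) (nat_lit 5) (nat_lit 529) (nat_lit 379) (nat_lit 232))))))))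
noncomputable def xc101 : XT := (XT.nd (nat_lit 2184) (nat_lit 19760) (nat_lit 0) (XT.nd (nat_lit 1092) (nat_lit 6840) (nat_lit 0) (XT.nd (nat_lit 546) (nat_lit 1596) (nat_lit 0) (XT.nd (nat_lit 234) (nat_lit 380) (nat_lit 0) (XT.nd (nat_lit 78) (nat_lit 76) (nat_lit 0) (XT.lf (nat_lit 0) (nat_lit 1073741823) (nat_lit 0) (nat_lit 0) (nat_lit 0) (nat_lit 0) (nat_lit 659) (nat_lit 0) (nat_lit 1) (nat_lit 0) (nat_lit 1) (nat_lit 0) (nat_lit 380) (nat_lit 380) (nat_lit 380)) (XT.nd (nat_lit 78) (nat_lit 0) (nat_lit 0) (XT.lf (nat_lit 0) (nat_lit 3001891848) (nat_lit 76) (nat_lit 3401376020) (nat_lit 0) (nat_lit 39627640) (nat_lit 658) (nat_lit 5) (nat_lit 659) (nat_lit 0) (nat_lit 658) (nat_lit 4) (nat_lit 381) (nat_lit 380) (nat_lit 379)) (XT.lf (nat_lit 0) (nat_lit 5985343266) (nat_lit 76) (nat_lit 340780207) (nat_lit 0) (nat_lit 118898461) (nat_lit 658) (nat_lit 5) (nat_lit 659) (nat_lit 0) (nat_lit 658) (nat_lit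 4) (nat_lit 382) (nat_lit 380) (nat_lit 378)))) (XT.nd (nat_lit 156) (nat_lit 228) (nat_lit 0) (XT.nd (nat_lit 78) (nat_lit 0) (nat_lit 0) (XT.lf (nat_lit 0) (nat_lit 2488019157) (nat_lit 152) (nat_lit 3687881985) (nat_lit 76) (nat_lit 272241943) (nat_lit 656) (nat_lit 5) (nat_lit 658) (nat_lit 5) (nat_lit 657) (nat_lit 4) (nat_lit 383) (nat_lit 380) (nat_lit 377)) (XT.lf (nat_lit 0) (nat_lit 5414532175) (nat_lit 152) (nat_lit 567733414) (nat_lit 76) (nat_lit 470577414) (nat_lit 656) (nat_lit 5) (nat_lit 658) (nat_lit 5) (nat_lit 657) (nat_lit 4) (nat_lit 384) (nat_lit 380) (nat_lit 376))) (XT.nd (nat_lit 78) (nat_lit 0) (nat_lit 0) (XT.lf (nat_lit 0) (nat_lit 1858132877) (nat_lit 228) (nat_lit 3862610279) (nat_lit 76) (nat_lit 737901986) (nat_lit 653) (nat_lit 5) (nat_lit 656) (nat_lit 5) (nat_lit 654) (nat_lit 5) (nat_lit 385) (nat_lit 380) (nat_lit 375)) (XT.lf (nat_lit 0) (nat_lit 4728280433) (nat_lit 228)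 (nat_lit 681950406) (nat_lit 76) (nat_lit 1055693480) (nat_lit 653) (nat_lit 5) (nat_lit 656) (nat_lit 5) (nat_lit 654) (nat_lit 5) (nat_lit 386) (nat_lit 380) (nat_lit 374))))) (XT.nd (nat_lit 234) (nat_lit 912) (nat_lit 0) (XT.nd (nat_lit 78) (nat_lit 380) (nat_lit 0) (XT.lf (nat_lit 0) (nat_lit 1110387897) (nat_lit 304) (nat_lit 3926556349) (nat_lit 76) (nat_lit 1437471247) (nat_lit 649) (nat_lit 5) (nat_lit 653) (nat_lit 5) (nat_lit 650) (nat_lit 5) (nat_lit 387) (nat_lit 380) (nat_lit 373)) (XT.nd (nat_lit 78) (nat_lit 380) (nat_lit 0) (XT.lf (nat_lit 0) (nat_lit 3924629289) (nat_lit 304) (nat_lit 684317773) (nat_lit 76) (nat_lit 1875335916) (nat_lit 649) (nat_lit 5) (nat_lit 653) (nat_lit 5) (nat_lit 650) (nat_lit 5) (nat_lit 388) (nat_lit 380) (nat_lit 372)) (XT.lf (nat_lit 0) (nat_lit 242713458) (nat_lit 380) (nat_lit 3880514976) (nat_lit 76) (nat_lit 2372246461) (nat_lit 644) (nat_lit 5) (nat_lit 649)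 (nat_lit 5) (nat_lit 645) (nat_lit 5) (nat_lit 389) (nat_lit 380) (nat_lit 371)))) (XT.nd (nat_lit 156) (nat_lit 532) (nat_lit 0) (XT.nd (nat_lit 78) (nat_lit 380) (nat_lit 0) (XT.lf (nat_lit 0) (nat_lit 3001392691) (nat_lit 380) (nat_lit 575522176) (nat_lit 76) (nat_lit 2931028160) (nat_lit 644) (nat_lit 5) (nat_lit 649) (nat_lit 5) (nat_lit 645) (nat_lit 5) (nat_lit 390) (nat_lit 380) (nat_lit 370)) (XT.lf (nat_lit 0) (nat_lit 2791752580) (nat_lit 380) (nat_lit 2972877586) (nat_lit 456) (nat_lit 757122597) (nat_lit 639) (nat_lit 5) (nat_lit 644) (nat_lit 5) (nat_lit 645) (nat_lit 5) (nat_lit 391) (nat_lit 380) (nat_lit 369))) (XT.nd (nat_lit 78) (nat_lit 456) (nat_lit 0) (XT.lf (nat_lit 0) (nat_lit 1956151154) (nat_lit 456) (nat_lit 356054366) (nat_lit 76) (nat_lit 4224729994) (nat_lit 638) (nat_lit 5) (nat_lit 644) (nat_lit 5) (nat_lit 639) (nat_lit 5) (nat_lit 392) (nat_lit 380) (nat_lit 368)) (XT.lf (nat_lit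 0) (nat_lit 3080414208) (nat_lit 456) (nat_lit 1586305174) (nat_lit 532) (nat_lit 1886614431) (nat_lit 632) (nat_lit 5) (nat_lit 638) (nat_lit 5) (nat_lit 639) (nat_lit 5) (nat_lit 393) (nat_lit 380) (nat_lit 367)))))) (XT.nd (nat_lit 546) (nat_lit 4028) (nat_lit 0) (XT.nd (nat_lit 234) (nat_lit 1596) (nat_lit 0) (XT.nd (nat_lit 78) (nat_lit 1140) (nat_lit 0) (XT.lf (nat_lit 0) (nat_lit 786245256) (nat_lit 532) (nat_lit 26212966) (nat_lit 76) (nat_lit 5758840310) (nat_lit 631) (nat_lit 5) (nat_lit 638) (nat_lit 5) (nat_lit 632) (nat_lit 5) (nat_lit 394) (nat_lit 380) (nat_lit 366)) (XT.nd (nat_lit 78) (nat_lit 608) (nat_lit 0) (XT.lf (nat_lit 0) (nat_lit 3445176201) (nat_lit 608) (nat_lit 3108154743) (nat_lit 76) (nat_lit 36955652) (nat_lit 624) (nat_lit 5) (nat_lit 632) (nat_lit 5) (nat_lit 625) (nat_lit 5) (nat_lit 395) (nat_lit 380) (nat_lit 365)) (XT.lf (nat_lit 0) (nat_lit 409875390) (nat_lit 608) (nat_lit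 5691799366) (nat_lit 684) (nat_lit 509161473) (nat_lit 616) (nat_lit 5) (nat_lit 624) (nat_lit 5) (nat_lit 625) (nat_lit 5) (nat_lit 396) (nat_lit 380) (nat_lit 364)))) (XT.nd (nat_lit 156) (nat_lit 836) (nat_lit 0) (XT.nd (nat_lit 78) (nat_lit 684) (nat_lit 0) (XT.lf (nat_lit 0) (nat_lit 2108588095) (nat_lit 684) (nat_lit 2647372852) (nat_lit 76) (nat_lit 1876466450) (nat_lit 615) (nat_lit 5) (nat_lit 624) (nat_lit 5) (nat_lit 616) (nat_lit 5) (nat_lit 397) (nat_lit 380) (nat_lit 363)) (XT.lf (nat_lit 0) (nat_lit 945032573) (nat_lit 684) (nat_lit 3770897116) (nat_lit 760) (nat_lit 1939637869) (nat_lit 606) (nat_lit 5) (nat_lit 615) (nat_lit 5) (nat_lit 616) (nat_lit 5) (nat_lit 398) (nat_lit 380) (nat_lit 362))) (XT.nd (nat_lit 78) (nat_lit 760) (nat_lit 0) (XT.lf (nat_lit 0) (nat_lit 643394498) (nat_lit 760) (nat_lit 2080168251) (nat_lit 76) (nat_lit 3956454823) (nat_lit 605) (nat_lit 5) (nat_lit 615) (nat_lit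 5) (nat_lit 606) (nat_lit 5) (nat_lit 399) (nat_lit 380) (nat_lit 361)) (XT.lf (nat_lit 0) (nat_lit 1589744807) (nat_lit 760) (nat_lit 1612320247) (nat_lit 836) (nat_lit 3503697919) (nat_lit 595) (nat_lit 5) (nat_lit 605) (nat_lit 5) (nat_lit 606) (nat_lit 5) (nat_lit 400) (nat_lit 380) (nat_lit 360))))) (XT.nd (nat_lit 234) (nat_lit 3116) (nat_lit 0) (XT.nd (nat_lit 78) (nat_lit 912) (nat_lit 0) (XT.lf (nat_lit 0) (nat_lit 5320458007) (nat_lit 760) (nat_lit 445932750) (nat_lit 836) (nat_lit 966603469) (nat_lit 595) (nat_lit 5) (nat_lit 605) (nat_lit 5) (nat_lit 606) (nat_lit 5) (nat_lit 401) (nat_lit 380) (nat_lit 359)) (XT.nd (nat_lit 78) (nat_lit 0) (nat_lit 0) (XT.lf (nat_lit 0) (nat_lit 1561551677) (nat_lit 912) (nat_lit 4422202500) (nat_lit 76) (nat_lit 777632001) (nat_lit 583) (nat_lit 5) (nat_lit 595) (nat_lit 5) (nat_lit 584) (nat_lit 5) (nat_lit 402) (nat_lit 380) (nat_lit 358)) (XT.lf (nat_lit 0) (nat_lit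 4082079220) (nat_lit 912) (nat_lit 656381047) (nat_lit 76) (nat_lit 2052719961) (nat_lit 583) (nat_lit 5) (nat_lit 595) (nat_lit 5) (nat_lit 584) (nat_lit 5) (nat_lit 403) (nat_lit 380) (nat_lit 357)))) (XT.nd (nat_lit 156) (nat_lit 1140) (nat_lit 0) (XT.nd (nat_lit 78) (nat_lit 1064) (nat_lit 0) (XT.lf (nat_lit 0) (nat_lit 3185463572) (nat_lit 912) (nat_lit 3431613512) (nat_lit 988) (nat_lit 205267845) (nat_lit 571) (nat_lit 5) (nat_lit 583) (nat_lit 5) (nat_lit 584) (nat_lit 5) (nat_lit 404) (nat_lit 380) (nat_lit 356)) (XT.lf (nat_lit 0) (nat_lit 204803946) (nat_lit 988) (nat_lit 2062598159) (nat_lit 1064) (nat_lit 4587488374) (nat_lit 557) (nat_lit 5) (nat_lit 570) (nat_lit 5) (nat_lit 571) (nat_lit 5) (nat_lit 405) (nat_lit 380) (nat_lit 355))) (XT.nd (nat_lit 78) (nat_lit 1140) (nat_lit 0) (XT.lf (nat_lit 0) (nat_lit 4129916428) (nat_lit 988) (nat_lit 625892581) (nat_lit 1064) (nat_lit 2132922893) (nat_lit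 557) (nat_lit 5) (nat_lit 570) (nat_lit 5) (nat_lit 571) (nat_lit 5) (nat_lit 406) (nat_lit 380) (nat_lit 354)) (XT.lf (nat_lit 0) (nat_lit 324459357) (nat_lit 1140) (nat_lit 5747715631) (nat_lit 76) (nat_lit 851905959) (nat_lit 542) (nat_lit 5) (nat_lit 557) (nat_lit 5) (nat_lit 543) (nat_lit 5) (nat_lit 407) (nat_lit 380) (nat_lit 353))))))) (XT.nd (nat_lit 1092) (nat_lit 8208) (nat_lit 0) (XT.nd (nat_lit 546) (nat_lit 6384) (nat_lit 0) (XT.nd (nat_lit 234) (nat_lit 3952) (nat_lit 0) (XT.nd (nat_lit 78) (nat_lit 1216) (nat_lit 0) (XT.lf (nat_lit 0) (nat_lit 2771434546) (nat_lit 1140) (nat_lit 1792747789) (nat_lit 76) (nat_lit 2396342259) (nat_lit 542) (nat_lit 5) (nat_lit 557) (nat_lit 5) (nat_lit 543) (nat_lit 5) (nat_lit 408) (nat_lit 380) (nat_lit 352)) (XT.nd (nat_lit 78) (nat_lit 76) (nat_lit 0) (XT.lf (nat_lit 0) (nat_lit 2229148857) (nat_lit 1140) (nat_lit 2999926184) (nat_lit 1216) (nat_lit 1769436280)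 (nat_lit 527) (nat_lit 5) (nat_lit 542) (nat_lit 5) (nat_lit 543) (nat_lit 5) (nat_lit 409) (nat_lit 380) (nat_lit 351)) (XT.lf (nat_lit 0) (nat_lit 649186616) (nat_lit 1216) (nat_lit 727724738) (nat_lit 76) (nat_lit 5661107773) (nat_lit 526) (nat_lit 5) (nat_lit 542) (nat_lit 5) (nat_lit 527) (nat_lit 5) (nat_lit 410) (nat_lit 380) (nat_lit 350)))) (XT.nd (nat_lit 156) (nat_lit 1444) (nat_lit 0) (XT.nd (nat_lit 78) (nat_lit 1292) (nat_lit 0) (XT.lf (nat_lit 0) (nat_lit 3065252053) (nat_lit 1292) (nat_lit 3694429300) (nat_lit 76) (nat_lit 318992470) (nat_lit 510) (nat_lit 5) (nat_lit 527) (nat_lit 5) (nat_lit 511) (nat_lit 5) (nat_lit 411) (nat_lit 380) (nat_lit 349)) (XT.lf (nat_lit 0) (nat_lit 422761111) (nat_lit 1292) (nat_lit 5073117995) (nat_lit 1368) (nat_lit 1624982715) (nat_lit 493) (nat_lit 5) (nat_lit 510) (nat_lit 5) (nat_lit 511) (nat_lit 5) (nat_lit 412) (nat_lit 380) (nat_lit 348))) (XT.nd (nat_lit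 78) (nat_lit 1368) (nat_lit 0) (XT.lf (nat_lit 0) (nat_lit 775349784) (nat_lit 1368) (nat_lit 2538795478) (nat_lit 76) (nat_lit 3850190958) (nat_lit 492) (nat_lit 5) (nat_lit 510) (nat_lit 5) (nat_lit 493) (nat_lit 5) (nat_lit 413) (nat_lit 380) (nat_lit 347)) (XT.lf (nat_lit 0) (nat_lit 1673370319) (nat_lit 1368) (nat_lit 1490237496) (nat_lit 1444) (nat_lit 4045666337) (nat_lit 474) (nat_lit 5) (nat_lit 492) (nat_lit 5) (nat_lit 493) (nat_lit 5) (nat_lit 414) (nat_lit 380) (nat_lit 346))))) (XT.nd (nat_lit 234) (nat_lit 3344) (nat_lit 0) (XT.nd (nat_lit 78) (nat_lit 3040) (nat_lit 0) (XT.lf (nat_lit 0) (nat_lit 5570720501) (nat_lit 1444) (nat_lit 1295389246) (nat_lit 76) (nat_lit 389620891) (nat_lit 474) (nat_lit 5) (nat_lit 493) (nat_lit 5) (nat_lit 475) (nat_lit 5) (nat_lit 415) (nat_lit 380) (nat_lit 345)) (XT.nd (nat_lit 78) (nat_lit 1520) (nat_lit 0) (XT.lf (nat_lit 0) (nat_lit 695171196) (nat_lit 1520) (nat_lit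 4289908136) (nat_lit 76) (nat_lit 2318347176) (nat_lit 454) (nat_lit 5) (nat_lit 474) (nat_lit 5) (nat_lit 455) (nat_lit 5) (nat_lit 416) (nat_lit 380) (nat_lit 344)) (XT.lf (nat_lit 0) (nat_lit 21465180) (nat_lit 1520) (nat_lit 3040640947) (nat_lit 1596) (nat_lit 4290552350) (nat_lit 434) (nat_lit 5) (nat_lit 454) (nat_lit 5) (nat_lit 455) (nat_lit 5) (nat_lit 417) (nat_lit 380) (nat_lit 343)))) (XT.nd (nat_lit 156) (nat_lit 1672) (nat_lit 0) (XT.nd (nat_lit 78) (nat_lit 1672) (nat_lit 0) (XT.lf (nat_lit 0) (nat_lit 4435631388) (nat_lit 1520) (nat_lit 1022992858) (nat_lit 1596) (nat_lit 1944644365) (nat_lit 434) (nat_lit 5) (nat_lit 454) (nat_lit 5) (nat_lit 455) (nat_lit 5) (nat_lit 418) (nat_lit 380) (nat_lit 342)) (XT.lf (nat_lit 0) (nat_lit 412631666) (nat_lit 1672) (nat_lit 6004447277) (nat_lit 76) (nat_lit 1038384178) (nat_lit 412) (nat_lit 5) (nat_lit 434) (nat_lit 5) (nat_lit 413) (nat_lit 5) (nat_lit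 419) (nat_lit 380) (nat_lit 341))) (XT.nd (nat_lit 78) (nat_lit 1672) (nat_lit 0) (XT.lf (nat_lit 0) (nat_lit 2772551480) (nat_lit 1672) (nat_lit 1571934744) (nat_lit 76) (nat_lit 3164363673) (nat_lit 412) (nat_lit 5) (nat_lit 434) (nat_lit 5) (nat_lit 413) (nat_lit 5) (nat_lit 420) (nat_lit 380) (nat_lit 340)) (XT.lf (nat_lit 0) (nat_lit 2946583322) (nat_lit 1672) (nat_lit 2207797571) (nat_lit 1748) (nat_lit 2409464783) (nat_lit 390) (nat_lit 5) (nat_lit 412) (nat_lit 5) (nat_lit 413) (nat_lit 5) (nat_lit 421) (nat_lit 380) (nat_lit 339)))))) (XT.nd (nat_lit 546) (nat_lit 4028) (nat_lit 0) (XT.nd (nat_lit 234) (nat_lit 1824) (nat_lit 0) (XT.nd (nat_lit 78) (nat_lit 2356) (nat_lit 0) (XT.lf (nat_lit 0) (nat_lit 7535761695) (nat_lit 1672) (nat_lit 14818404) (nat_lit 1748) (nat_lit 70061404) (nat_lit 390) (nat_lit 5) (nat_lit 412) (nat_lit 5) (nat_lit 413) (nat_lit 5) (nat_lit 422) (nat_lit 380) (nat_lit 338)) (XT.nd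 (nat_lit 78) (nat_lit 836) (nat_lit 0) (XT.lf (nat_lit 0) (nat_lit 2286705632) (nat_lit 1520) (nat_lit 3151461767) (nat_lit 76) (nat_lit 2240119493) (nat_lit 370) (nat_lit 5) (nat_lit 390) (nat_lit 5) (nat_lit 371) (nat_lit 5) (nat_lit 423) (nat_lit 380) (nat_lit 337)) (XT.lf (nat_lit 0) (nat_lit 1472128089) (nat_lit 836) (nat_lit 3185096954) (nat_lit 912) (nat_lit 3080532569) (nat_lit 359) (nat_lit 5) (nat_lit 370) (nat_lit 5) (nat_lit 371) (nat_lit 5) (nat_lit 424) (nat_lit 380) (nat_lit 336)))) (XT.nd (nat_lit 156) (nat_lit 836) (nat_lit 0) (XT.nd (nat_lit 78) (nat_lit 988) (nat_lit 0) (XT.lf (nat_lit 0) (nat_lit 6189727188) (nat_lit 836) (nat_lit 864469766) (nat_lit 912) (nat_lit 744672096) (nat_lit 359) (nat_lit 5) (nat_lit 370) (nat_lit 5) (nat_lit 371) (nat_lit 5) (nat_lit 425) (nat_lit 380) (nat_lit 335)) (XT.lf (nat_lit 0) (nat_lit 1605125790) (nat_lit 988) (nat_lit 4741477638) (nat_lit 76) (nat_lit 1514643467)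 (nat_lit 346) (nat_lit 5) (nat_lit 359) (nat_lit 5) (nat_lit 347) (nat_lit 5) (nat_lit 426) (nat_lit 380) (nat_lit 334))) (XT.nd (nat_lit 78) (nat_lit 836) (nat_lit 0) (XT.lf (nat_lit 0) (nat_lit 3967521186) (nat_lit 988) (nat_lit 11854724) (nat_lit 76) (nat_lit 3945916779) (nat_lit 346) (nat_lit 5) (nat_lit 359) (nat_lit 5) (nat_lit 347) (nat_lit 5) (nat_lit 427) (nat_lit 380) (nat_lit 333)) (XT.lf (nat_lit 0) (nat_lit 4835046432) (nat_lit 836) (nat_lit 1533283644) (nat_lit 912) (nat_lit 1622495707) (nat_lit 335) (nat_lit 5) (nat_lit 346) (nat_lit 5) (nat_lit 347) (nat_lit 5) (nat_lit 428) (nat_lit 380) (nat_lit 332))))) (XT.nd (nat_lit 312) (nat_lit 1596) (nat_lit 0) (XT.nd (nat_lit 156) (nat_lit 1520) (nat_lit 0) (XT.nd (nat_lit 78) (nat_lit 0) (nat_lit 0) (XT.lf (nat_lit 0) (nat_lit 726978837) (nat_lit 912) (nat_lit 6366827470) (nat_lit 76) (nat_lit 964244075) (nat_lit 323) (nat_lit 5) (nat_lit 335) (nat_lit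 5) (nat_lit 324) (nat_lit 5) (nat_lit 429) (nat_lit 380) (nat_lit 331)) (XT.lf (nat_lit 0) (nat_lit 3093728335) (nat_lit 912) (nat_lit 1510850832) (nat_lit 76) (nat_lit 3522013584) (nat_lit 323) (nat_lit 5) (nat_lit 335) (nat_lit 5) (nat_lit 324) (nat_lit 5) (nat_lit 430) (nat_lit 380) (nat_lit 330))) (XT.nd (nat_lit 78) (nat_lit 760) (nat_lit 0) (XT.lf (nat_lit 0) (nat_lit 3446706280) (nat_lit 760) (nat_lit 2044777972) (nat_lit 836) (nat_lit 2705375721) (nat_lit 313) (nat_lit 5) (nat_lit 323) (nat_lit 5) (nat_lit 324) (nat_lit 5) (nat_lit 431) (nat_lit 380) (nat_lit 329)) (XT.lf (nat_lit 0) (nat_lit 213368101) (nat_lit 760) (nat_lit 7700869124) (nat_lit 836) (nat_lit 354781375) (nat_lit 303) (nat_lit 5) (nat_lit 313) (nat_lit 5) (nat_lit 314) (nat_lit 5) (nat_lit 432) (nat_lit 380) (nat_lit 328)))) (XT.nd (nat_lit 156) (nat_lit 836) (nat_lit 0) (XT.nd (nat_lit 78) (nat_lit 684) (nat_lit 0) (XT.lf (nat_lit 0) (nat_lit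 2023643615) (nat_lit 836) (nat_lit 3069960304) (nat_lit 76) (nat_lit 3248624852) (nat_lit 302) (nat_lit 5) (nat_lit 313) (nat_lit 5) (nat_lit 303) (nat_lit 5) (nat_lit 433) (nat_lit 380) (nat_lit 327)) (XT.lf (nat_lit 0) (nat_lit 1998608919) (nat_lit 684) (nat_lit 2421985915) (nat_lit 760) (nat_lit 3996772589) (nat_lit 293) (nat_lit 5) (nat_lit 302) (nat_lit 5) (nat_lit 303) (nat_lit 5) (nat_lit 434) (nat_lit 380) (nat_lit 326))) (XT.nd (nat_lit 78) (nat_lit 836) (nat_lit 0) (XT.lf (nat_lit 0) (nat_lit 6851362570) (nat_lit 760) (nat_lit 1326704300) (nat_lit 76) (nat_lit 316249279) (nat_lit 293) (nat_lit 5) (nat_lit 303) (nat_lit 5) (nat_lit 294) (nat_lit 5) (nat_lit 435) (nat_lit 380) (nat_lit 325)) (XT.lf (nat_lit 0) (nat_lit 753015434) (nat_lit 836) (nat_lit 4716247197) (nat_lit 76) (nat_lit 3103366398) (nat_lit 282) (nat_lit 5) (nat_lit 293) (nat_lit 5) (nat_lit 283) (nat_lit 5) (nat_lit 436) (nat_lit 380) (nat_lit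 324))))))))
noncomputable def xc102 : XT := (XT.nd (nat_lit 2184) (nat_lit 5396) (nat_lit 0) (XT.nd (nat_lit 1092) (nat_lit 4560) (nat_lit 0) (XT.nd (nat_lit 546) (nat_lit 2432) (nat_lit 0) (XT.nd (nat_lit 234) (nat_lit 1444) (nat_lit 0) (XT.nd (nat_lit 78) (nat_lit 684) (nat_lit 0) (XT.lf (nat_lit 0) (nat_lit 463325540) (nat_lit 684) (nat_lit 2687652108) (nat_lit 760) (nat_lit 5501815279) (nat_lit 273) (nat_lit 5) (nat_lit 282) (nat_lit 5) (nat_lit 283) (nat_lit 5) (nat_lit 437) (nat_lit 380) (nat_lit 323)) (XT.nd (nat_lit 78) (nat_lit 684) (nat_lit 0) (XT.lf (nat_lit 0) (nat_lit 5594221710) (nat_lit 760) (nat_lit 2965717159) (nat_lit 76) (nat_lit 174697737) (nat_lit 273) (nat_lit 5) (nat_lit 283) (nat_lit 5) (nat_lit 274) (nat_lit 5) (nat_lit 438) (nat_lit 380) (nat_lit 322)) (XT.lf (nat_lit 0) (nat_lit 2335110031) (nat_lit 684) (nat_lit 5749370204) (nat_lit 760) (nat_lit 733696439) (nat_lit 264) (nat_lit 5)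 (nat_lit 273) (nat_lit 5) (nat_lit 274) (nat_lit 5) (nat_lit 439) (nat_lit 380) (nat_lit 321)))) (XT.nd (nat_lit 156) (nat_lit 760) (nat_lit 0) (XT.nd (nat_lit 78) (nat_lit 608) (nat_lit 0) (XT.lf (nat_lit 0) (nat_lit 1683979517) (nat_lit 760) (nat_lit 1172583073) (nat_lit 76) (nat_lit 6046915162) (nat_lit 263) (nat_lit 5) (nat_lit 273) (nat_lit 5) (nat_lit 264) (nat_lit 5) (nat_lit 440) (nat_lit 380) (nat_lit 320)) (XT.lf (nat_lit 0) (nat_lit 4134654354) (nat_lit 684) (nat_lit 4735911608) (nat_lit 76) (nat_lit 119953712) (nat_lit 255) (nat_lit 5) (nat_lit 264) (nat_lit 5) (nat_lit 256) (nat_lit 5) (nat_lit 441) (nat_lit 380) (nat_lit 319))) (XT.nd (nat_lit 78) (nat_lit 76) (nat_lit 0) (XT.lf (nat_lit 0) (nat_lit 676959622) (nat_lit 684) (nat_lit 5955031157) (nat_lit 760) (nat_lit 2447379486) (nat_lit 246) (nat_lit 5) (nat_lit 255) (nat_lit 5) (nat_lit 256) (nat_lit 5) (nat_lit 442) (nat_lit 380) (nat_lit 318))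 (XT.lf (nat_lit 0) (nat_lit 7720145) (nat_lit 760) (nat_lit 2947590623) (nat_lit 76) (nat_lit 6214734567) (nat_lit 245) (nat_lit 5) (nat_lit 255) (nat_lit 5) (nat_lit 246) (nat_lit 5) (nat_lit 443) (nat_lit 380) (nat_lit 317))))) (XT.nd (nat_lit 234) (nat_lit 1216) (nat_lit 0) (XT.nd (nat_lit 78) (nat_lit 608) (nat_lit 0) (XT.lf (nat_lit 0) (nat_lit 2464112046) (nat_lit 684) (nat_lit 6668706717) (nat_lit 76) (nat_lit 129711979) (nat_lit 237) (nat_lit 5) (nat_lit 246) (nat_lit 5) (nat_lit 238) (nat_lit 5) (nat_lit 444) (nat_lit 380) (nat_lit 316)) (XT.nd (nat_lit 78) (nat_lit 608) (nat_lit 0) (XT.lf (nat_lit 0) (nat_lit 4976688309) (nat_lit 684) (nat_lit 1129966974) (nat_lit 76) (nat_lit 3250088654) (nat_lit 237) (nat_lit 5) (nat_lit 246) (nat_lit 5) (nat_lit 238) (nat_lit 5) (nat_lit 445) (nat_lit 380) (nat_lit 315)) (XT.lf (nat_lit 0) (nat_lit 4540055459) (nat_lit 608) (nat_lit 2997147544) (nat_lit 684) (nat_lit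 1915703487) (nat_lit 229) (nat_lit 5) (nat_lit 237) (nat_lit 5) (nat_lit 238) (nat_lit 5) (nat_lit 446) (nat_lit 380) (nat_lit 314)))) (XT.nd (nat_lit 156) (nat_lit 608) (nat_lit 0) (XT.nd (nat_lit 78) (nat_lit 0) (nat_lit 0) (XT.lf (nat_lit 0) (nat_lit 572174543) (nat_lit 608) (nat_lit 8797805060) (nat_lit 76) (nat_lit 181311533) (nat_lit 221) (nat_lit 5) (nat_lit 229) (nat_lit 5) (nat_lit 222) (nat_lit 5) (nat_lit 447) (nat_lit 380) (nat_lit 313)) (XT.lf (nat_lit 0) (nat_lit 3105890428) (nat_lit 608) (nat_lit 3123545951) (nat_lit 76) (nat_lit 3421536954) (nat_lit 221) (nat_lit 5) (nat_lit 229) (nat_lit 5) (nat_lit 222) (nat_lit 5) (nat_lit 448) (nat_lit 380) (nat_lit 312))) (XT.nd (nat_lit 78) (nat_lit 0) (nat_lit 0) (XT.lf (nat_lit 0) (nat_lit 2660311366) (nat_lit 608) (nat_lit 3016528809) (nat_lit 684) (nat_lit 4076095207) (nat_lit 213) (nat_lit 5) (nat_lit 221) (nat_lit 5) (nat_lit 222) (nat_lit 5) (nat_lit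 449) (nat_lit 380) (nat_lit 311)) (XT.lf (nat_lit 0) (nat_lit 8291586747) (nat_lit 684) (nat_lit 1295255785) (nat_lit 76) (nat_lit 270263640) (nat_lit 213) (nat_lit 5) (nat_lit 222) (nat_lit 5) (nat_lit 214) (nat_lit 5) (nat_lit 450) (nat_lit 380) (nat_lit 310)))))) (XT.nd (nat_lit 546) (nat_lit 2356) (nat_lit 0) (XT.nd (nat_lit 234) (nat_lit 1064) (nat_lit 0) (XT.nd (nat_lit 78) (nat_lit 532) (nat_lit 0) (XT.lf (nat_lit 0) (nat_lit 1002489651) (nat_lit 608) (nat_lit 5349216784) (nat_lit 76) (nat_lit 3611135602) (nat_lit 205) (nat_lit 5) (nat_lit 213) (nat_lit 5) (nat_lit 206) (nat_lit 5) (nat_lit 451) (nat_lit 380) (nat_lit 309)) (XT.nd (nat_lit 78) (nat_lit 0) (nat_lit 0) (XT.lf (nat_lit 0) (nat_lit 545972380) (nat_lit 532) (nat_lit 3037546584) (nat_lit 608) (nat_lit 6487330321) (nat_lit 198) (nat_lit 5) (nat_lit 205) (nat_lit 5) (nat_lit 206) (nat_lit 5) (nat_lit 452) (nat_lit 380) (nat_lit 308)) (XT.lf (nat_lit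 0) (nat_lit 6225113830) (nat_lit 608) (nat_lit 3589965082) (nat_lit 76) (nat_lit 365774624) (nat_lit 198) (nat_lit 5) (nat_lit 206) (nat_lit 5) (nat_lit 199) (nat_lit 5) (nat_lit 453) (nat_lit 380) (nat_lit 307)))) (XT.nd (nat_lit 156) (nat_lit 532) (nat_lit 0) (XT.nd (nat_lit 78) (nat_lit 76) (nat_lit 0) (XT.lf (nat_lit 0) (nat_lit 2437479441) (nat_lit 456) (nat_lit 6489164728) (nat_lit 532) (nat_lit 1366287082) (nat_lit 192) (nat_lit 5) (nat_lit 198) (nat_lit 5) (nat_lit 199) (nat_lit 5) (nat_lit 454) (nat_lit 380) (nat_lit 306)) (XT.lf (nat_lit 0) (nat_lit 1253761509) (nat_lit 532) (nat_lit 1819234075) (nat_lit 76) (nat_lit 7334193665) (nat_lit 191) (nat_lit 5) (nat_lit 198) (nat_lit 5) (nat_lit 192) (nat_lit 5) (nat_lit 455) (nat_lit 380) (nat_lit 305))) (XT.nd (nat_lit 78) (nat_lit 0) (nat_lit 0) (XT.lf (nat_lit 0) (nat_lit 3910865213) (nat_lit 608) (nat_lit 6178150344) (nat_lit 76) (nat_lit 434491810) (nat_lit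 184) (nat_lit 5) (nat_lit 192) (nat_lit 5) (nat_lit 185) (nat_lit 5) (nat_lit 456) (nat_lit 380) (nat_lit 304)) (XT.lf (nat_lit 0) (nat_lit 6625842359) (nat_lit 608) (nat_lit 42119357) (nat_lit 76) (nat_lit 3974109778) (nat_lit 184) (nat_lit 5) (nat_lit 192) (nat_lit 5) (nat_lit 185) (nat_lit 5) (nat_lit 457) (nat_lit 380) (nat_lit 303))))) (XT.nd (nat_lit 234) (nat_lit 1368) (nat_lit 0) (XT.nd (nat_lit 78) (nat_lit 532) (nat_lit 0) (XT.lf (nat_lit 0) (nat_lit 6261815914) (nat_lit 456) (nat_lit 3146597758) (nat_lit 532) (nat_lit 1354341332) (nat_lit 178) (nat_lit 5) (nat_lit 184) (nat_lit 5) (nat_lit 185) (nat_lit 5) (nat_lit 458) (nat_lit 380) (nat_lit 302)) (XT.nd (nat_lit 78) (nat_lit 0) (nat_lit 0) (XT.lf (nat_lit 0) (nat_lit 1330513068) (nat_lit 532) (nat_lit 9104919011) (nat_lit 76) (nat_lit 450505336) (nat_lit 171) (nat_lit 5) (nat_lit 178) (nat_lit 5) (nat_lit 172) (nat_lit 5) (nat_lit 459) (nat_lit 380)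 (nat_lit 301)) (XT.lf (nat_lit 0) (nat_lit 4075164418) (nat_lit 532) (nat_lit 2828678723) (nat_lit 76) (nat_lit 4107089788) (nat_lit 171) (nat_lit 5) (nat_lit 178) (nat_lit 5) (nat_lit 172) (nat_lit 5) (nat_lit 460) (nat_lit 380) (nat_lit 300)))) (XT.nd (nat_lit 156) (nat_lit 912) (nat_lit 0) (XT.nd (nat_lit 78) (nat_lit 0) (nat_lit 0) (XT.lf (nat_lit 0) (nat_lit 3583498107) (nat_lit 456) (nat_lit 3287982476) (nat_lit 532) (nat_lit 4267025261) (nat_lit 165) (nat_lit 5) (nat_lit 171) (nat_lit 5) (nat_lit 172) (nat_lit 5) (nat_lit 461) (nat_lit 380) (nat_lit 299)) (XT.lf (nat_lit 0) (nat_lit 9719152100) (nat_lit 532) (nat_lit 1145529544) (nat_lit 76) (nat_lit 404052666) (nat_lit 165) (nat_lit 5) (nat_lit 172) (nat_lit 5) (nat_lit 166) (nat_lit 5) (nat_lit 462) (nat_lit 380) (nat_lit 298))) (XT.nd (nat_lit 78) (nat_lit 380) (nat_lit 0) (XT.lf (nat_lit 0) (nat_lit 1237480830) (nat_lit 532) (nat_lit 6003940823) (nat_lit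 76) (nat_lit 4159373154) (nat_lit 158) (nat_lit 5) (nat_lit 165) (nat_lit 5) (nat_lit 159) (nat_lit 5) (nat_lit 463) (nat_lit 380) (nat_lit 297)) (XT.lf (nat_lit 0) (nat_lit 510441252) (nat_lit 380) (nat_lit 3534496299) (nat_lit 456) (nat_lit 7490658025) (nat_lit 153) (nat_lit 5) (nat_lit 158) (nat_lit 5) (nat_lit 159) (nat_lit 5) (nat_lit 464) (nat_lit 380) (nat_lit 296))))))) (XT.nd (nat_lit 1092) (nat_lit 2508) (nat_lit 0) (XT.nd (nat_lit 546) (nat_lit 1520) (nat_lit 0) (XT.nd (nat_lit 234) (nat_lit 836) (nat_lit 0) (XT.nd (nat_lit 78) (nat_lit 532) (nat_lit 0) (XT.lf (nat_lit 0) (nat_lit 6925231641) (nat_lit 456) (nat_lit 4474081752) (nat_lit 76) (nat_lit 273456911) (nat_lit 153) (nat_lit 5) (nat_lit 159) (nat_lit 5) (nat_lit 154) (nat_lit 5) (nat_lit 465) (nat_lit 380) (nat_lit 295)) (XT.nd (nat_lit 78) (nat_lit 76) (nat_lit 0) (XT.lf (nat_lit 0) (nat_lit 2177453438) (nat_lit 456) (nat_lit 7698253233) (nat_lit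 532) (nat_lit 1936741834) (nat_lit 147) (nat_lit 5) (nat_lit 153) (nat_lit 5) (nat_lit 154) (nat_lit 5) (nat_lit 466) (nat_lit 380) (nat_lit 294)) (XT.lf (nat_lit 0) (nat_lit 923407387) (nat_lit 532) (nat_lit 2973707960) (nat_lit 76) (nat_lit 8057588415) (nat_lit 146) (nat_lit 5) (nat_lit 153) (nat_lit 5) (nat_lit 147) (nat_lit 5) (nat_lit 467) (nat_lit 380) (nat_lit 293)))) (XT.nd (nat_lit 156) (nat_lit 456) (nat_lit 0) (XT.nd (nat_lit 78) (nat_lit 0) (nat_lit 0) (XT.lf (nat_lit 0) (nat_lit 3815325323) (nat_lit 456) (nat_lit 8276595749) (nat_lit 76) (nat_lit 7627859) (nat_lit 141) (nat_lit 5) (nat_lit 147) (nat_lit 5) (nat_lit 142) (nat_lit 5) (nat_lit 468) (nat_lit 380) (nat_lit 292)) (XT.lf (nat_lit 0) (nat_lit 6786762604) (nat_lit 456) (nat_lit 1512282410) (nat_lit 76) (nat_lit 3947822973) (nat_lit 141) (nat_lit 5) (nat_lit 147) (nat_lit 5) (nat_lit 142) (nat_lit 5) (nat_lit 469) (nat_lit 380) (nat_lit 291)))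 (XT.nd (nat_lit 78) (nat_lit 76) (nat_lit 0) (XT.lf (nat_lit 0) (nat_lit 5423837495) (nat_lit 380) (nat_lit 4405266066) (nat_lit 456) (nat_lit 2567810763) (nat_lit 136) (nat_lit 5) (nat_lit 141) (nat_lit 5) (nat_lit 142) (nat_lit 5) (nat_lit 470) (nat_lit 380) (nat_lit 290)) (XT.lf (nat_lit 0) (nat_lit 363867184) (nat_lit 456) (nat_lit 67840031) (nat_lit 76) (nat_lit 12118483684) (nat_lit 135) (nat_lit 5) (nat_lit 141) (nat_lit 5) (nat_lit 136) (nat_lit 5) (nat_lit 471) (nat_lit 380) (nat_lit 289))))) (XT.nd (nat_lit 234) (nat_lit 760) (nat_lit 0) (XT.nd (nat_lit 78) (nat_lit 380) (nat_lit 0) (XT.lf (nat_lit 0) (nat_lit 3366039893) (nat_lit 456) (nat_lit 5713123398) (nat_lit 76) (nat_lit 3626115163) (nat_lit 130) (nat_lit 5) (nat_lit 136) (nat_lit 5) (nat_lit 131) (nat_lit 5) (nat_lit 472) (nat_lit 380) (nat_lit 288)) (XT.nd (nat_lit 78) (nat_lit 0) (nat_lit 0) (XT.lf (nat_lit 0) (nat_lit 1310937102) (nat_lit 380)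 (nat_lit 5106113011) (nat_lit 456) (nat_lit 6446651371) (nat_lit 125) (nat_lit 5) (nat_lit 130) (nat_lit 5) (nat_lit 131) (nat_lit 5) (nat_lit 473) (nat_lit 380) (nat_lit 287)) (XT.lf (nat_lit 0) (nat_lit 8518941687) (nat_lit 380) (nat_lit 1025673294) (nat_lit 456) (nat_lit 3480376722) (nat_lit 125) (nat_lit 5) (nat_lit 130) (nat_lit 5) (nat_lit 131) (nat_lit 5) (nat_lit 474) (nat_lit 380) (nat_lit 286)))) (XT.nd (nat_lit 156) (nat_lit 380) (nat_lit 0) (XT.nd (nat_lit 78) (nat_lit 76) (nat_lit 0) (XT.lf (nat_lit 0) (nat_lit 2662454818) (nat_lit 304) (nat_lit 10087498545) (nat_lit 380) (nat_lit 439259152) (nat_lit 121) (nat_lit 5) (nat_lit 125) (nat_lit 5) (nat_lit 126) (nat_lit 5) (nat_lit 475) (nat_lit 380) (nat_lit 285)) (XT.lf (nat_lit 0) (nat_lit 2642628768) (nat_lit 380) (nat_lit 3378766521) (nat_lit 76) (nat_lit 7334688180) (nat_lit 120) (nat_lit 5) (nat_lit 125) (nat_lit 5) (nat_lit 121) (nat_lit 5) (nat_lit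 476) (nat_lit 380) (nat_lit 284))) (XT.nd (nat_lit 78) (nat_lit 0) (nat_lit 0) (XT.lf (nat_lit 0) (nat_lit 3927666649) (nat_lit 380) (nat_lit 1856189869) (nat_lit 456) (nat_lit 7742314278) (nat_lit 115) (nat_lit 5) (nat_lit 120) (nat_lit 5) (nat_lit 121) (nat_lit 5) (nat_lit 477) (nat_lit 380) (nat_lit 283)) (XT.lf (nat_lit 0) (nat_lit 9004485575) (nat_lit 456) (nat_lit 2322133481) (nat_lit 76) (nat_lit 2372717807) (nat_lit 115) (nat_lit 5) (nat_lit 121) (nat_lit 5) (nat_lit 116) (nat_lit 5) (nat_lit 478) (nat_lit 380) (nat_lit 282)))))) (XT.nd (nat_lit 546) (nat_lit 1140) (nat_lit 0) (XT.nd (nat_lit 234) (nat_lit 684) (nat_lit 0) (XT.nd (nat_lit 78) (nat_lit 380) (nat_lit 0) (XT.lf (nat_lit 0) (nat_lit 5122027726) (nat_lit 304) (nat_lit 7191695550) (nat_lit 380) (nat_lit 1561767417) (nat_lit 111) (nat_lit 5) (nat_lit 115) (nat_lit 5) (nat_lit 116) (nat_lit 5) (nat_lit 479) (nat_lit 380) (nat_lit 281)) (XT.nd (nat_lit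 78) (nat_lit 304) (nat_lit 0) (XT.lf (nat_lit 0) (nat_lit 1606942116) (nat_lit 380) (nat_lit 1351715649) (nat_lit 76) (nat_lit 11096417817) (nat_lit 110) (nat_lit 5) (nat_lit 115) (nat_lit 5) (nat_lit 111) (nat_lit 5) (nat_lit 480) (nat_lit 380) (nat_lit 280)) (XT.lf (nat_lit 0) (nat_lit 4846844488) (nat_lit 380) (nat_lit 8009275056) (nat_lit 76) (nat_lit 1381359425) (nat_lit 106) (nat_lit 5) (nat_lit 111) (nat_lit 5) (nat_lit 107) (nat_lit 5) (nat_lit 481) (nat_lit 380) (nat_lit 279)))) (XT.nd (nat_lit 156) (nat_lit 380) (nat_lit 0) (XT.nd (nat_lit 78) (nat_lit 304) (nat_lit 0) (XT.lf (nat_lit 0) (nat_lit 8159524923) (nat_lit 380) (nat_lit 497151650) (nat_lit 76) (nat_lit 5766701973) (nat_lit 106) (nat_lit 5) (nat_lit 111) (nat_lit 5) (nat_lit 107) (nat_lit 5) (nat_lit 482) (nat_lit 380) (nat_lit 278)) (XT.lf (nat_lit 0) (nat_lit 7228454409) (nat_lit 304) (nat_lit 4336598697) (nat_lit 380) (nat_lit 3047418701)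 (nat_lit 102) (nat_lit 5) (nat_lit 106) (nat_lit 5) (nat_lit 107) (nat_lit 5) (nat_lit 483) (nat_lit 380) (nat_lit 277))) (XT.nd (nat_lit 78) (nat_lit 0) (nat_lit 0) (XT.lf (nat_lit 0) (nat_lit 215605335) (nat_lit 380) (nat_lit 14525508198) (nat_lit 76) (nat_lit 64503964) (nat_lit 97) (nat_lit 5) (nat_lit 102) (nat_lit 5) (nat_lit 98) (nat_lit 5) (nat_lit 484) (nat_lit 380) (nat_lit 276)) (XT.lf (nat_lit 0) (nat_lit 3561557854) (nat_lit 380) (nat_lit 6885011906) (nat_lit 76) (nat_lit 4554491150) (nat_lit 97) (nat_lit 5) (nat_lit 102) (nat_lit 5) (nat_lit 98) (nat_lit 5) (nat_lit 485) (nat_lit 380) (nat_lit 275))))) (XT.nd (nat_lit 312) (nat_lit 532) (nat_lit 0) (XT.nd (nat_lit 156) (nat_lit 380) (nat_lit 0) (XT.nd (nat_lit 78) (nat_lit 0) (nat_lit 0) (XT.lf (nat_lit 0) (nat_lit 888815282) (nat_lit 228) (nat_lit 6071617081) (nat_lit 304) (nat_lit 8240267767) (nat_lit 94) (nat_lit 5) (nat_lit 97) (nat_lit 5) (nat_lit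 98) (nat_lit 5) (nat_lit 486) (nat_lit 380) (nat_lit 274)) (XT.lf (nat_lit 0) (nat_lit 8880516002) (nat_lit 228) (nat_lit 1573389353) (nat_lit 304) (nat_lit 4949901217) (nat_lit 94) (nat_lit 5) (nat_lit 97) (nat_lit 5) (nat_lit 98) (nat_lit 5) (nat_lit 487) (nat_lit 380) (nat_lit 273))) (XT.nd (nat_lit 78) (nat_lit 76) (nat_lit 0) (XT.lf (nat_lit 0) (nat_lit 1389076390) (nat_lit 304) (nat_lit 12637494960) (nat_lit 380) (nat_lit 1584224051) (nat_lit 90) (nat_lit 5) (nat_lit 94) (nat_lit 5) (nat_lit 95) (nat_lit 5) (nat_lit 488) (nat_lit 380) (nat_lit 272)) (XT.lf (nat_lit 0) (nat_lit 1859782054) (nat_lit 380) (nat_lit 6326349417) (nat_lit 76) (nat_lit 7634853682) (nat_lit 89) (nat_lit 5) (nat_lit 94) (nat_lit 5) (nat_lit 90) (nat_lit 5) (nat_lit 489) (nat_lit 380) (nat_lit 271)))) (XT.nd (nat_lit 156) (nat_lit 304) (nat_lit 0) (XT.nd (nat_lit 78) (nat_lit 0) (nat_lit 0) (XT.lf (nat_lit 0) (nat_lit 1708745143) (nat_lit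 228) (nat_lit 3634979313) (nat_lit 304) (nat_lit 10691605770) (nat_lit 86) (nat_lit 5) (nat_lit 89) (nat_lit 5) (nat_lit 90) (nat_lit 5) (nat_lit 490) (nat_lit 380) (nat_lit 270)) (XT.lf (nat_lit 0) (nat_lit 8927876596) (nat_lit 304) (nat_lit 6299846757) (nat_lit 76) (nat_lit 1025634442) (nat_lit 86) (nat_lit 5) (nat_lit 90) (nat_lit 5) (nat_lit 87) (nat_lit 5) (nat_lit 491) (nat_lit 380) (nat_lit 269))) (XT.nd (nat_lit 78) (nat_lit 0) (nat_lit 0) (XT.lf (nat_lit 0) (nat_lit 1858105348) (nat_lit 304) (nat_lit 10743367923) (nat_lit 380) (nat_lit 3873923507) (nat_lit 82) (nat_lit 5) (nat_lit 86) (nat_lit 5) (nat_lit 87) (nat_lit 5) (nat_lit 492) (nat_lit 380) (nat_lit 268)) (XT.lf (nat_lit 0) (nat_lit 10235189768) (nat_lit 304) (nat_lit 6137421395) (nat_lit 380) (nat_lit 328789962) (nat_lit 82) (nat_lit 5) (nat_lit 86) (nat_lit 5) (nat_lit 87) (nat_lit 5) (nat_lit 493) (nat_lit 380) (nat_lit 267))))))))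
noncomputable def xc103 : XT := (XT.nd (nat_lit 2184) (nat_lit 532) (nat_lit 0) (XT.nd (nat_lit 1092) (nat_lit 1368) (nat_lit 0) (XT.nd (nat_lit 546) (nat_lit 684) (nat_lit 0) (XT.nd (nat_lit 234) (nat_lit 532) (nat_lit 0) (XT.nd (nat_lit 78) (nat_lit 228) (nat_lit 0) (XT.lf (nat_lit 0) (nat_lit 1821344106) (nat_lit 228) (nat_lit 1416641689) (nat_lit 304) (nat_lit 13693641598) (nat_lit 78) (nat_lit 5) (nat_lit 81) (nat_lit 5) (nat_lit 82) (nat_lit 5) (nat_lit 494) (nat_lit 380) (nat_lit 266)) (XT.nd (nat_lit 78) (nat_lit 228) (nat_lit 0) (XT.lf (nat_lit 0) (nat_lit 6919563159) (nat_lit 304) (nat_lit 6857007801) (nat_lit 76) (nat_lit 3388892016) (nat_lit 78) (nat_lit 5) (nat_lit 82) (nat_lit 5) (nat_lit 79) (nat_lit 5) (nat_lit 495) (nat_lit 380) (nat_lit 265)) (XT.lf (nat_lit 0) (nat_lit 1543579231) (nat_lit 228) (nat_lit 9133066868) (nat_lit 304) (nat_lit 6727297208) (nat_lit 75) (nat_lit 5) (nat_lit 78) (nat_lit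 5) (nat_lit 79) (nat_lit 5) (nat_lit 496) (nat_lit 380) (nat_lit 264)))) (XT.nd (nat_lit 156) (nat_lit 228) (nat_lit 0) (XT.nd (nat_lit 78) (nat_lit 304) (nat_lit 0) (XT.lf (nat_lit 0) (nat_lit 10176698268) (nat_lit 228) (nat_lit 4360816063) (nat_lit 304) (nat_lit 3109111450) (nat_lit 75) (nat_lit 5) (nat_lit 78) (nat_lit 5) (nat_lit 79) (nat_lit 5) (nat_lit 497) (nat_lit 380) (nat_lit 263)) (XT.lf (nat_lit 0) (nat_lit 566905592) (nat_lit 304) (nat_lit 16827108186) (nat_lit 76) (nat_lit 500215958) (nat_lit 71) (nat_lit 5) (nat_lit 75) (nat_lit 5) (nat_lit 72) (nat_lit 5) (nat_lit 498) (nat_lit 380) (nat_lit 262))) (XT.nd (nat_lit 78) (nat_lit 228) (nat_lit 0) (XT.lf (nat_lit 0) (nat_lit 4337125687) (nat_lit 304) (nat_lit 8347609558) (nat_lit 76) (nat_lit 5460398323) (nat_lit 71) (nat_lit 5) (nat_lit 75) (nat_lit 5) (nat_lit 72) (nat_lit 5) (nat_lit 499) (nat_lit 380) (nat_lit 261)) (XT.lf (nat_lit 0) (nat_lit 277477947)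 (nat_lit 228) (nat_lit 7890344504) (nat_lit 304) (nat_lit 10233536579) (nat_lit 68) (nat_lit 5) (nat_lit 71) (nat_lit 5) (nat_lit 72) (nat_lit 5) (nat_lit 500) (nat_lit 380) (nat_lit 260))))) (XT.nd (nat_lit 234) (nat_lit 380) (nat_lit 0) (XT.nd (nat_lit 78) (nat_lit 304) (nat_lit 0) (XT.lf (nat_lit 0) (nat_lit 9160762823) (nat_lit 228) (nat_lit 2953807623) (nat_lit 304) (nat_lit 6547354707) (nat_lit 68) (nat_lit 5) (nat_lit 71) (nat_lit 5) (nat_lit 72) (nat_lit 5) (nat_lit 501) (nat_lit 380) (nat_lit 259)) (XT.nd (nat_lit 78) (nat_lit 304) (nat_lit 0) (XT.lf (nat_lit 0) (nat_lit 16137443905) (nat_lit 304) (nat_lit 746684089) (nat_lit 76) (nat_lit 2043635598) (nat_lit 68) (nat_lit 5) (nat_lit 72) (nat_lit 5) (nat_lit 69) (nat_lit 5) (nat_lit 502) (nat_lit 380) (nat_lit 258)) (XT.lf (nat_lit 0) (nat_lit 1085654076) (nat_lit 304) (nat_lit 10960117712) (nat_lit 76) (nat_lit 7151867096) (nat_lit 64) (nat_lit 5) (nat_lit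 68) (nat_lit 5) (nat_lit 65) (nat_lit 5) (nat_lit 503) (nat_lit 380) (nat_lit 257)))) (XT.nd (nat_lit 156) (nat_lit 152) (nat_lit 0) (XT.nd (nat_lit 78) (nat_lit 228) (nat_lit 0) (XT.lf (nat_lit 0) (nat_lit 4990892364) (nat_lit 304) (nat_lit 2106480727) (nat_lit 76) (nat_lit 12375392087) (nat_lit 64) (nat_lit 5) (nat_lit 68) (nat_lit 5) (nat_lit 65) (nat_lit 5) (nat_lit 504) (nat_lit 380) (nat_lit 256)) (XT.lf (nat_lit 0) (nat_lit 6989734766) (nat_lit 228) (nat_lit 2014224487) (nat_lit 304) (nat_lit 10748844708) (nat_lit 61) (nat_lit 5) (nat_lit 64) (nat_lit 5) (nat_lit 65) (nat_lit 5) (nat_lit 505) (nat_lit 380) (nat_lit 255))) (XT.nd (nat_lit 78) (nat_lit 152) (nat_lit 0) (XT.lf (nat_lit 0) (nat_lit 13116514334) (nat_lit 304) (nat_lit 3788651963) (nat_lit 76) (nat_lit 3132897034) (nat_lit 61) (nat_lit 5) (nat_lit 65) (nat_lit 5) (nat_lit 62) (nat_lit 5) (nat_lit 506) (nat_lit 380) (nat_lit 254)) (XT.lf (nat_lit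 0) (nat_lit 5396970678) (nat_lit 152) (nat_lit 11947447523) (nat_lit 228) (nat_lit 2983951998) (nat_lit 59) (nat_lit 5) (nat_lit 61) (nat_lit 5) (nat_lit 62) (nat_lit 5) (nat_lit 507) (nat_lit 380) (nat_lit 253)))))) (XT.nd (nat_lit 546) (nat_lit 608) (nat_lit 0) (XT.nd (nat_lit 234) (nat_lit 456) (nat_lit 0) (XT.nd (nat_lit 78) (nat_lit 228) (nat_lit 0) (XT.lf (nat_lit 0) (nat_lit 1029196097) (nat_lit 228) (nat_lit 5838947653) (nat_lit 76) (nat_lit 13756002709) (nat_lit 58) (nat_lit 5) (nat_lit 61) (nat_lit 5) (nat_lit 59) (nat_lit 5) (nat_lit 508) (nat_lit 380) (nat_lit 252)) (XT.nd (nat_lit 78) (nat_lit 0) (nat_lit 0) (XT.lf (nat_lit 0) (nat_lit 3435389401) (nat_lit 228) (nat_lit 1654650901) (nat_lit 304) (nat_lit 15835259718) (nat_lit 55) (nat_lit 5) (nat_lit 58) (nat_lit 5) (nat_lit 59) (nat_lit 5) (nat_lit 509) (nat_lit 380) (nat_lit 251)) (XT.lf (nat_lit 0) (nat_lit 9280436360) (nat_lit 304) (nat_lit 8306700070)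 (nat_lit 76) (nat_lit 3644377464) (nat_lit 55) (nat_lit 5) (nat_lit 59) (nat_lit 5) (nat_lit 56) (nat_lit 5) (nat_lit 510) (nat_lit 380) (nat_lit 250)))) (XT.nd (nat_lit 156) (nat_lit 304) (nat_lit 0) (XT.nd (nat_lit 78) (nat_lit 0) (nat_lit 0) (XT.lf (nat_lit 0) (nat_lit 1038000995) (nat_lit 152) (nat_lit 12519738370) (nat_lit 228) (nat_lit 7986054561) (nat_lit 53) (nat_lit 5) (nat_lit 55) (nat_lit 5) (nat_lit 56) (nat_lit 5) (nat_lit 511) (nat_lit 380) (nat_lit 249)) (XT.lf (nat_lit 0) (nat_lit 10657529627) (nat_lit 152) (nat_lit 7304328911) (nat_lit 228) (nat_lit 3899639406) (nat_lit 53) (nat_lit 5) (nat_lit 55) (nat_lit 5) (nat_lit 56) (nat_lit 5) (nat_lit 512) (nat_lit 380) (nat_lit 248))) (XT.nd (nat_lit 78) (nat_lit 228) (nat_lit 0) (XT.lf (nat_lit 0) (nat_lit 250696491) (nat_lit 228) (nat_lit 1742226326) (nat_lit 76) (nat_lit 20192887721) (nat_lit 52) (nat_lit 5) (nat_lit 55) (nat_lit 5) (nat_lit 53) (nat_lit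 5) (nat_lit 513) (nat_lit 380) (nat_lit 247)) (XT.lf (nat_lit 0) (nat_lit 4492254624) (nat_lit 304) (nat_lit 14574557635) (nat_lit 76) (nat_lit 3448076527) (nat_lit 49) (nat_lit 5) (nat_lit 53) (nat_lit 5) (nat_lit 50) (nat_lit 5) (nat_lit 514) (nat_lit 380) (nat_lit 246))))) (XT.nd (nat_lit 234) (nat_lit 456) (nat_lit 0) (XT.nd (nat_lit 78) (nat_lit 152) (nat_lit 0) (XT.lf (nat_lit 0) (nat_lit 8829661305) (nat_lit 304) (nat_lit 5047392098) (nat_lit 76) (nat_lit 8973278347) (nat_lit 49) (nat_lit 5) (nat_lit 53) (nat_lit 5) (nat_lit 50) (nat_lit 5) (nat_lit 515) (nat_lit 380) (nat_lit 245)) (XT.nd (nat_lit 78) (nat_lit 0) (nat_lit 0) (XT.lf (nat_lit 0) (nat_lit 4708582566) (nat_lit 152) (nat_lit 8562128853) (nat_lit 228) (nat_lit 9921437680) (nat_lit 47) (nat_lit 5) (nat_lit 49) (nat_lit 5) (nat_lit 50) (nat_lit 5) (nat_lit 516) (nat_lit 380) (nat_lit 244)) (XT.lf (nat_lit 0) (nat_lit 14704761890) (nat_lit 152)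 (nat_lit 3116132018) (nat_lit 228) (nat_lit 5719506020) (nat_lit 47) (nat_lit 5) (nat_lit 49) (nat_lit 5) (nat_lit 50) (nat_lit 5) (nat_lit 517) (nat_lit 380) (nat_lit 243)))) (XT.nd (nat_lit 156) (nat_lit 152) (nat_lit 0) (XT.nd (nat_lit 78) (nat_lit 76) (nat_lit 0) (XT.lf (nat_lit 0) (nat_lit 979173867) (nat_lit 228) (nat_lit 21491742204) (nat_lit 304) (nat_lit 1424526281) (nat_lit 44) (nat_lit 5) (nat_lit 47) (nat_lit 5) (nat_lit 48) (nat_lit 5) (nat_lit 518) (nat_lit 380) (nat_lit 242)) (XT.lf (nat_lit 0) (nat_lit 2984567499) (nat_lit 304) (nat_lit 13209683771) (nat_lit 76) (nat_lit 8061613879) (nat_lit 43) (nat_lit 5) (nat_lit 47) (nat_lit 5) (nat_lit 44) (nat_lit 5) (nat_lit 519) (nat_lit 380) (nat_lit 241))) (XT.nd (nat_lit 78) (nat_lit 152) (nat_lit 0) (XT.lf (nat_lit 0) (nat_lit 7449714490) (nat_lit 304) (nat_lit 3341059638) (nat_lit 76) (nat_lit 13832798144) (nat_lit 43) (nat_lit 5) (nat_lit 47) (nat_lit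 5) (nat_lit 44) (nat_lit 5) (nat_lit 520) (nat_lit 380) (nat_lit 240)) (XT.lf (nat_lit 0) (nat_lit 6791798592) (nat_lit 152) (nat_lit 5243646916) (nat_lit 228) (nat_lit 12962565453) (nat_lit 41) (nat_lit 5) (nat_lit 43) (nat_lit 5) (nat_lit 44) (nat_lit 5) (nat_lit 521) (nat_lit 380) (nat_lit 239))))))) (XT.nd (nat_lit 48828) (nat_lit 0) (nat_lit 42560) (XT.nd (nat_lit 546) (nat_lit 0) (nat_lit 0) (XT.nd (nat_lit 234) (nat_lit 304) (nat_lit 0) (XT.nd (nat_lit 78) (nat_lit 228) (nat_lit 0) (XT.lf (nat_lit 0) (nat_lit 16725382068) (nat_lit 228) (nat_lit 8231990545) (nat_lit 76) (nat_lit 422318978) (nat_lit 41) (nat_lit 5) (nat_lit 44) (nat_lit 5) (nat_lit 42) (nat_lit 5) (nat_lit 522) (nat_lit 380) (nat_lit 238)) (XT.nd (nat_lit 78) (nat_lit 76) (nat_lit 0) (XT.lf (nat_lit 0) (nat_lit 1910214670) (nat_lit 152) (nat_lit 19633513036) (nat_lit 228) (nat_lit 4224588849) (nat_lit 39) (nat_lit 5) (nat_lit 41) (nat_lit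 5) (nat_lit 42) (nat_lit 5) (nat_lit 523) (nat_lit 380) (nat_lit 237)) (XT.lf (nat_lit 0) (nat_lit 332982243) (nat_lit 228) (nat_lit 13820884335) (nat_lit 76) (nat_lit 12009949948) (nat_lit 38) (nat_lit 5) (nat_lit 41) (nat_lit 5) (nat_lit 39) (nat_lit 5) (nat_lit 524) (nat_lit 380) (nat_lit 236)))) (XT.nd (nat_lit 156) (nat_lit 152) (nat_lit 0) (XT.nd (nat_lit 78) (nat_lit 152) (nat_lit 0) (XT.lf (nat_lit 0) (nat_lit 4912936915) (nat_lit 228) (nat_lit 3632324376) (nat_lit 76) (nat_lit 18021653484) (nat_lit 38) (nat_lit 5) (nat_lit 41) (nat_lit 5) (nat_lit 39) (nat_lit 5) (nat_lit 525) (nat_lit 380) (nat_lit 235)) (XT.lf (nat_lit 0) (nat_lit 6828560130) (nat_lit 152) (nat_lit 2788252879) (nat_lit 228) (nat_lit 17360618239) (nat_lit 36) (nat_lit 5) (nat_lit 38) (nat_lit 5) (nat_lit 39) (nat_lit 5) (nat_lit 526) (nat_lit 380) (nat_lit 234))) (XT.nd (nat_lit 78) (nat_lit 152) (nat_lit 0) (XT.lf (nat_lit 0) (nat_lit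 14447354287) (nat_lit 228) (nat_lit 9889004276) (nat_lit 76) (nat_lit 3059150385) (nat_lit 36) (nat_lit 5) (nat_lit 39) (nat_lit 5) (nat_lit 37) (nat_lit 5) (nat_lit 527) (nat_lit 380) (nat_lit 233)) (XT.lf (nat_lit 0) (nat_lit 544094229) (nat_lit 152) (nat_lit 18840673496) (nat_lit 228) (nat_lit 8436977851) (nat_lit 34) (nat_lit 5) (nat_lit 36) (nat_lit 5) (nat_lit 37) (nat_lit 5) (nat_lit 528) (nat_lit 380) (nat_lit 232))))) (XT.nd (nat_lit 47970) (nat_lit 0) (nat_lit 46664) (XT.nd (nat_lit 47814) (nat_lit 0) (nat_lit 47196) (XT.lf (nat_lit 0) (nat_lit 11299402209) (nat_lit 152) (nat_lit 13176248137) (nat_lit 228) (nat_lit 3779764720) (nat_lit 34) (nat_lit 5) (nat_lit 36) (nat_lit 5) (nat_lit 37) (nat_lit 5) (nat_lit 529) (nat_lit 380) (nat_lit 231)) (XT.nd (nat_lit 78) (nat_lit 228) (nat_lit 0) (XT.lf (nat_lit 0) (nat_lit 1491071280) (nat_lit 0) (nat_lit 1491071280) (nat_lit 76) (nat_lit 239948058) (nat_lit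 658) (nat_lit 5) (nat_lit 658) (nat_lit 3) (nat_lit 659) (nat_lit 0) (nat_lit 381) (nat_lit 381) (nat_lit 378)) (XT.lf (nat_lit 0) (nat_lit 2429581717) (nat_lit 228) (nat_lit 436826330) (nat_lit 228) (nat_lit 3580404807) (nat_lit 655) (nat_lit 3) (nat_lit 658) (nat_lit 3) (nat_lit 658) (nat_lit 5) (nat_lit 382) (nat_lit 381) (nat_lit 377)))) (XT.nd (nat_lit 156) (nat_lit 304) (nat_lit 0) (XT.nd (nat_lit 78) (nat_lit 228) (nat_lit 0) (XT.lf (nat_lit 76) (nat_lit 2641405277) (nat_lit 0) (nat_lit 2690297998) (nat_lit 228) (nat_lit 1119010227) (nat_lit 656) (nat_lit 5) (nat_lit 655) (nat_lit 3) (nat_lit 658) (nat_lit 5) (nat_lit 383) (nat_lit 381) (nat_lit 376)) (XT.lf (nat_lit 0) (nat_lit 1740408390) (nat_lit 228) (nat_lit 719250059) (nat_lit 304) (nat_lit 3996342242) (nat_lit 652) (nat_lit 5) (nat_lit 655) (nat_lit 3) (nat_lit 656) (nat_lit 5) (nat_lit 384) (nat_lit 381) (nat_lit 375))) (XT.nd (nat_lit 78) (nat_lit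 304) (nat_lit 0) (XT.lf (nat_lit 76) (nat_lit 2417898243) (nat_lit 0) (nat_lit 2165706415) (nat_lit 304) (nat_lit 1878901394) (nat_lit 653) (nat_lit 5) (nat_lit 652) (nat_lit 5) (nat_lit 656) (nat_lit 5) (nat_lit 385) (nat_lit 381) (nat_lit 374)) (XT.lf (nat_lit 0) (nat_lit 932566634) (nat_lit 304) (nat_lit 887944812) (nat_lit 380) (nat_lit 4649959611) (nat_lit 648) (nat_lit 5) (nat_lit 652) (nat_lit 5) (nat_lit 653) (nat_lit 5) (nat_lit 386) (nat_lit 381) (nat_lit 373)))))) (XT.nd (nat_lit 546) (nat_lit 2812) (nat_lit 0) (XT.nd (nat_lit 234) (nat_lit 912) (nat_lit 0) (XT.nd (nat_lit 78) (nat_lit 380) (nat_lit 0) (XT.lf (nat_lit 76) (nat_lit 2310674045) (nat_lit 0) (nat_lit 1407389249) (nat_lit 380) (nat_lit 2761511045) (nat_lit 649) (nat_lit 5) (nat_lit 648) (nat_lit 5) (nat_lit 653) (nat_lit 5) (nat_lit 387) (nat_lit 381) (nat_lit 372)) (XT.nd (nat_lit 78) (nat_lit 0) (nat_lit 0) (XT.lf (nat_lit 0) (nat_lit 4024614)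 (nat_lit 380) (nat_lit 943750763) (nat_lit 456) (nat_lit 5542467571) (nat_lit 643) (nat_lit 5) (nat_lit 648) (nat_lit 5) (nat_lit 649) (nat_lit 5) (nat_lit 388) (nat_lit 381) (nat_lit 371)) (XT.lf (nat_lit 76) (nat_lit 2318993064) (nat_lit 0) (nat_lit 413933294) (nat_lit 456) (nat_lit 3769014393) (nat_lit 644) (nat_lit 5) (nat_lit 643) (nat_lit 5) (nat_lit 649) (nat_lit 5) (nat_lit 389) (nat_lit 381) (nat_lit 370)))) (XT.nd (nat_lit 156) (nat_lit 532) (nat_lit 0) (XT.nd (nat_lit 78) (nat_lit 456) (nat_lit 0) (XT.lf (nat_lit 0) (nat_lit 5454887739) (nat_lit 380) (nat_lit 895283317) (nat_lit 76) (nat_lit 165011755) (nat_lit 644) (nat_lit 5) (nat_lit 649) (nat_lit 5) (nat_lit 645) (nat_lit 5) (nat_lit 390) (nat_lit 381) (nat_lit 369)) (XT.lf (nat_lit 0) (nat_lit 1631109511) (nat_lit 456) (nat_lit 4092616536) (nat_lit 76) (nat_lit 805802593) (nat_lit 638) (nat_lit 5) (nat_lit 644) (nat_lit 5) (nat_lit 639) (nat_lit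 5) (nat_lit 391) (nat_lit 381) (nat_lit 368))) (XT.nd (nat_lit 78) (nat_lit 532) (nat_lit 0) (XT.lf (nat_lit 0) (nat_lit 4301363021) (nat_lit 456) (nat_lit 743557890) (nat_lit 76) (nat_lit 1500391262) (nat_lit 638) (nat_lit 5) (nat_lit 644) (nat_lit 5) (nat_lit 639) (nat_lit 5) (nat_lit 392) (nat_lit 381) (nat_lit 367)) (XT.lf (nat_lit 0) (nat_lit 408927598) (nat_lit 532) (nat_lit 3897218813) (nat_lit 76) (nat_lit 2256249209) (nat_lit 631) (nat_lit 5) (nat_lit 638) (nat_lit 5) (nat_lit 632) (nat_lit 5) (nat_lit 393) (nat_lit 381) (nat_lit 366))))) (XT.nd (nat_lit 312) (nat_lit 1596) (nat_lit 0) (XT.nd (nat_lit 156) (nat_lit 684) (nat_lit 0) (XT.nd (nat_lit 78) (nat_lit 532) (nat_lit 0) (XT.lf (nat_lit 0) (nat_lit 3024865368) (nat_lit 532) (nat_lit 482675119) (nat_lit 76) (nat_lit 3073253578) (nat_lit 631) (nat_lit 5) (nat_lit 638) (nat_lit 5) (nat_lit 632) (nat_lit 5) (nat_lit 394) (nat_lit 381) (nat_lit 365))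 (XT.lf (nat_lit 0) (nat_lit 3000068768) (nat_lit 532) (nat_lit 2648805256) (nat_lit 608) (nat_lit 951641001) (nat_lit 624) (nat_lit 5) (nat_lit 631) (nat_lit 5) (nat_lit 632) (nat_lit 5) (nat_lit 395) (nat_lit 381) (nat_lit 364))) (XT.nd (nat_lit 78) (nat_lit 608) (nat_lit 0) (XT.lf (nat_lit 0) (nat_lit 1622421127) (nat_lit 608) (nat_lit 112729637) (nat_lit 76) (nat_lit 4886524229) (nat_lit 623) (nat_lit 5) (nat_lit 631) (nat_lit 5) (nat_lit 624) (nat_lit 5) (nat_lit 396) (nat_lit 381) (nat_lit 363)) (XT.lf (nat_lit 0) (nat_lit 3444313186) (nat_lit 608) (nat_lit 751309100) (nat_lit 684) (nat_lit 2448367635) (nat_lit 615) (nat_lit 5) (nat_lit 623) (nat_lit 5) (nat_lit 624) (nat_lit 5) (nat_lit 397) (nat_lit 381) (nat_lit 362)))) (XT.nd (nat_lit 156) (nat_lit 836) (nat_lit 0) (XT.nd (nat_lit 78) (nat_lit 0) (nat_lit 0) (XT.lf (nat_lit 0) (nat_lit 95019349) (nat_lit 760) (nat_lit 6298529806) (nat_lit 76) (nat_lit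 274375148) (nat_lit 605) (nat_lit 5) (nat_lit 615) (nat_lit 5) (nat_lit 606) (nat_lit 5) (nat_lit 398) (nat_lit 381) (nat_lit 361)) (XT.lf (nat_lit 0) (nat_lit 2622713679) (nat_lit 760) (nat_lit 2701085950) (nat_lit 76) (nat_lit 1368951397) (nat_lit 605) (nat_lit 5) (nat_lit 615) (nat_lit 5) (nat_lit 606) (nat_lit 5) (nat_lit 399) (nat_lit 381) (nat_lit 360))) (XT.nd (nat_lit 78) (nat_lit 76) (nat_lit 0) (XT.lf (nat_lit 0) (nat_lit 940379721) (nat_lit 760) (nat_lit 4207475326) (nat_lit 836) (nat_lit 1571341952) (nat_lit 595) (nat_lit 5) (nat_lit 605) (nat_lit 5) (nat_lit 606) (nat_lit 5) (nat_lit 400) (nat_lit 381) (nat_lit 359)) (XT.lf (nat_lit 0) (nat_lit 923999428) (nat_lit 836) (nat_lit 2101820737) (nat_lit 76) (nat_lit 3721093248) (nat_lit 594) (nat_lit 5) (nat_lit 605) (nat_lit 5) (nat_lit 595) (nat_lit 5) (nat_lit 401) (nat_lit 381) (nat_lit 358))))))))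
noncomputable def xc104 : XT := (XT.nd (nat_lit 2184) (nat_lit 11856) (nat_lit 0) (XT.nd (nat_lit 1092) (nat_lit 10640) (nat_lit 0) (XT.nd (nat_lit 546) (nat_lit 5168) (nat_lit 0) (XT.nd (nat_lit 234) (nat_lit 2128) (nat_lit 0) (XT.nd (nat_lit 78) (nat_lit 988) (nat_lit 0) (XT.lf (nat_lit 0) (nat_lit 1619515914) (nat_lit 836) (nat_lit 1781622323) (nat_lit 912) (nat_lit 3374836655) (nat_lit 583) (nat_lit 5) (nat_lit 594) (nat_lit 5) (nat_lit 595) (nat_lit 5) (nat_lit 402) (nat_lit 381) (nat_lit 357)) (XT.nd (nat_lit 78) (nat_lit 988) (nat_lit 0) (XT.lf (nat_lit 0) (nat_lit 5403999590) (nat_lit 836) (nat_lit 481192058) (nat_lit 912) (nat_lit 921334483) (nat_lit 583) (nat_lit 5) (nat_lit 594) (nat_lit 5) (nat_lit 595) (nat_lit 5) (nat_lit 403) (nat_lit 381) (nat_lit 356)) (XT.lf (nat_lit 0) (nat_lit 1525856282) (nat_lit 988) (nat_lit 4436099595) (nat_lit 76) (nat_lit 876273846) (nat_lit 570) (nat_lit 5) (nat_lit 583)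 (nat_lit 5) (nat_lit 571) (nat_lit 5) (nat_lit 404) (nat_lit 381) (nat_lit 355)))) (XT.nd (nat_lit 156) (nat_lit 1140) (nat_lit 0) (XT.nd (nat_lit 78) (nat_lit 988) (nat_lit 0) (XT.lf (nat_lit 0) (nat_lit 3967227853) (nat_lit 988) (nat_lit 618624123) (nat_lit 76) (nat_lit 2285494876) (nat_lit 570) (nat_lit 5) (nat_lit 583) (nat_lit 5) (nat_lit 571) (nat_lit 5) (nat_lit 405) (nat_lit 381) (nat_lit 354)) (XT.lf (nat_lit 0) (nat_lit 3278208948) (nat_lit 988) (nat_lit 3146483982) (nat_lit 1064) (nat_lit 481139776) (nat_lit 557) (nat_lit 5) (nat_lit 570) (nat_lit 5) (nat_lit 571) (nat_lit 5) (nat_lit 406) (nat_lit 381) (nat_lit 353))) (XT.nd (nat_lit 78) (nat_lit 0) (nat_lit 0) (XT.lf (nat_lit 0) (nat_lit 270552135) (nat_lit 1064) (nat_lit 1645959739) (nat_lit 1140) (nat_lit 5025241334) (nat_lit 542) (nat_lit 5) (nat_lit 556) (nat_lit 5) (nat_lit 557) (nat_lit 5) (nat_lit 407) (nat_lit 381) (nat_lit 352)) (XT.lf (nat_lit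 0) (nat_lit 4252417179) (nat_lit 1064) (nat_lit 74756058) (nat_lit 1140) (nat_lit 2651774015) (nat_lit 542) (nat_lit 5) (nat_lit 556) (nat_lit 5) (nat_lit 557) (nat_lit 5) (nat_lit 408) (nat_lit 381) (nat_lit 351))))) (XT.nd (nat_lit 234) (nat_lit 2736) (nat_lit 0) (XT.nd (nat_lit 78) (nat_lit 1292) (nat_lit 0) (XT.lf (nat_lit 0) (nat_lit 1263085630) (nat_lit 1140) (nat_lit 5489369893) (nat_lit 1216) (nat_lit 265149266) (nat_lit 527) (nat_lit 5) (nat_lit 542) (nat_lit 5) (nat_lit 543) (nat_lit 5) (nat_lit 409) (nat_lit 381) (nat_lit 350)) (XT.nd (nat_lit 78) (nat_lit 1216) (nat_lit 0) (XT.lf (nat_lit 0) (nat_lit 2108326513) (nat_lit 1216) (nat_lit 1742972787) (nat_lit 76) (nat_lit 3206149049) (nat_lit 526) (nat_lit 5) (nat_lit 542) (nat_lit 5) (nat_lit 527) (nat_lit 5) (nat_lit 410) (nat_lit 381) (nat_lit 349)) (XT.lf (nat_lit 0) (nat_lit 2337454159) (nat_lit 1216) (nat_lit 2153109074) (nat_lit 1292) (nat_lit 2608238670)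 (nat_lit 510) (nat_lit 5) (nat_lit 526) (nat_lit 5) (nat_lit 527) (nat_lit 5) (nat_lit 411) (nat_lit 381) (nat_lit 348)))) (XT.nd (nat_lit 156) (nat_lit 1368) (nat_lit 0) (XT.nd (nat_lit 78) (nat_lit 1368) (nat_lit 0) (XT.lf (nat_lit 0) (nat_lit 6483130376) (nat_lit 1216) (nat_lit 399400132) (nat_lit 1292) (nat_lit 259254434) (nat_lit 510) (nat_lit 5) (nat_lit 526) (nat_lit 5) (nat_lit 527) (nat_lit 5) (nat_lit 412) (nat_lit 381) (nat_lit 347)) (XT.lf (nat_lit 0) (nat_lit 2091850989) (nat_lit 1368) (nat_lit 3676769272) (nat_lit 76) (nat_lit 1417109040) (nat_lit 492) (nat_lit 5) (nat_lit 510) (nat_lit 5) (nat_lit 493) (nat_lit 5) (nat_lit 413) (nat_lit 381) (nat_lit 346))) (XT.nd (nat_lit 78) (nat_lit 0) (nat_lit 0) (XT.lf (nat_lit 0) (nat_lit 499858838) (nat_lit 1368) (nat_lit 3948748435) (nat_lit 1444) (nat_lit 2782710582) (nat_lit 474) (nat_lit 5) (nat_lit 492) (nat_lit 5) (nat_lit 493) (nat_lit 5) (nat_lit 414)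 (nat_lit 381) (nat_lit 345)) (XT.lf (nat_lit 0) (nat_lit 4769430144) (nat_lit 1368) (nat_lit 2060182325) (nat_lit 1444) (nat_lit 448704203) (nat_lit 474) (nat_lit 5) (nat_lit 492) (nat_lit 5) (nat_lit 493) (nat_lit 5) (nat_lit 415) (nat_lit 381) (nat_lit 344)))))) (XT.nd (nat_lit 546) (nat_lit 4180) (nat_lit 0) (XT.nd (nat_lit 234) (nat_lit 3420) (nat_lit 0) (XT.nd (nat_lit 78) (nat_lit 1520) (nat_lit 0) (XT.lf (nat_lit 0) (nat_lit 1768488062) (nat_lit 1444) (nat_lit 102663174) (nat_lit 1520) (nat_lit 5455602397) (nat_lit 454) (nat_lit 5) (nat_lit 473) (nat_lit 5) (nat_lit 474) (nat_lit 5) (nat_lit 416) (nat_lit 381) (nat_lit 343)) (XT.nd (nat_lit 78) (nat_lit 1520) (nat_lit 0) (XT.lf (nat_lit 0) (nat_lit 4214372793) (nat_lit 1520) (nat_lit 1266824053) (nat_lit 76) (nat_lit 1895282042) (nat_lit 454) (nat_lit 5) (nat_lit 474) (nat_lit 5) (nat_lit 455) (nat_lit 5) (nat_lit 417) (nat_lit 381) (nat_lit 342)) (XT.lf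 (nat_lit 0) (nat_lit 3110323557) (nat_lit 1520) (nat_lit 3469643659) (nat_lit 1596) (nat_lit 847758927) (nat_lit 434) (nat_lit 5) (nat_lit 454) (nat_lit 5) (nat_lit 455) (nat_lit 5) (nat_lit 418) (nat_lit 381) (nat_lit 341)))) (XT.nd (nat_lit 156) (nat_lit 1748) (nat_lit 0) (XT.nd (nat_lit 78) (nat_lit 0) (nat_lit 0) (XT.lf (nat_lit 0) (nat_lit 62695572) (nat_lit 1596) (nat_lit 1394233964) (nat_lit 1672) (nat_lit 6023630636) (nat_lit 412) (nat_lit 5) (nat_lit 433) (nat_lit 5) (nat_lit 434) (nat_lit 5) (nat_lit 419) (nat_lit 381) (nat_lit 340)) (XT.lf (nat_lit 0) (nat_lit 3785806975) (nat_lit 1672) (nat_lit 2996740215) (nat_lit 76) (nat_lit 752038176) (nat_lit 412) (nat_lit 5) (nat_lit 434) (nat_lit 5) (nat_lit 413) (nat_lit 5) (nat_lit 420) (nat_lit 381) (nat_lit 339))) (XT.nd (nat_lit 78) (nat_lit 76) (nat_lit 0) (XT.lf (nat_lit 0) (nat_lit 1482536973) (nat_lit 1672) (nat_lit 4654034950) (nat_lit 1748) (nat_lit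 1453647738) (nat_lit 390) (nat_lit 5) (nat_lit 412) (nat_lit 5) (nat_lit 413) (nat_lit 5) (nat_lit 421) (nat_lit 381) (nat_lit 338)) (XT.lf (nat_lit 0) (nat_lit 852715861) (nat_lit 1748) (nat_lit 1601260118) (nat_lit 76) (nat_lit 5193369506) (nat_lit 389) (nat_lit 5) (nat_lit 412) (nat_lit 5) (nat_lit 390) (nat_lit 5) (nat_lit 422) (nat_lit 381) (nat_lit 337))))) (XT.nd (nat_lit 234) (nat_lit 1824) (nat_lit 0) (XT.nd (nat_lit 78) (nat_lit 912) (nat_lit 0) (XT.lf (nat_lit 0) (nat_lit 2984788262) (nat_lit 1444) (nat_lit 177925736) (nat_lit 1520) (nat_lit 4543201010) (nat_lit 370) (nat_lit 5) (nat_lit 389) (nat_lit 5) (nat_lit 390) (nat_lit 5) (nat_lit 423) (nat_lit 381) (nat_lit 336)) (XT.nd (nat_lit 78) (nat_lit 912) (nat_lit 0) (XT.lf (nat_lit 0) (nat_lit 5501808049) (nat_lit 1520) (nat_lit 135808381) (nat_lit 76) (nat_lit 2128413720) (nat_lit 370) (nat_lit 5) (nat_lit 390) (nat_lit 5) (nat_lit 371) (nat_lit 5)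 (nat_lit 424) (nat_lit 381) (nat_lit 335)) (XT.lf (nat_lit 0) (nat_lit 49212926) (nat_lit 912) (nat_lit 3267908763) (nat_lit 76) (nat_lit 4510455610) (nat_lit 358) (nat_lit 5) (nat_lit 370) (nat_lit 5) (nat_lit 359) (nat_lit 5) (nat_lit 425) (nat_lit 381) (nat_lit 334)))) (XT.nd (nat_lit 156) (nat_lit 912) (nat_lit 0) (XT.nd (nat_lit 78) (nat_lit 0) (nat_lit 0) (XT.lf (nat_lit 0) (nat_lit 1424080516) (nat_lit 912) (nat_lit 923940656) (nat_lit 988) (nat_lit 5542676732) (nat_lit 346) (nat_lit 5) (nat_lit 358) (nat_lit 5) (nat_lit 359) (nat_lit 5) (nat_lit 426) (nat_lit 381) (nat_lit 333)) (XT.lf (nat_lit 0) (nat_lit 4684503505) (nat_lit 988) (nat_lit 1751157381) (nat_lit 76) (nat_lit 1519615775) (nat_lit 346) (nat_lit 5) (nat_lit 359) (nat_lit 5) (nat_lit 347) (nat_lit 5) (nat_lit 427) (nat_lit 381) (nat_lit 332))) (XT.nd (nat_lit 78) (nat_lit 76) (nat_lit 0) (XT.lf (nat_lit 0) (nat_lit 3052600259) (nat_lit 836)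 (nat_lit 4001615561) (nat_lit 912) (nat_lit 967230280) (nat_lit 335) (nat_lit 5) (nat_lit 346) (nat_lit 5) (nat_lit 347) (nat_lit 5) (nat_lit 428) (nat_lit 381) (nat_lit 331)) (XT.lf (nat_lit 0) (nat_lit 1336874099) (nat_lit 912) (nat_lit 161801139) (nat_lit 76) (nat_lit 6590659752) (nat_lit 334) (nat_lit 5) (nat_lit 346) (nat_lit 5) (nat_lit 335) (nat_lit 5) (nat_lit 429) (nat_lit 381) (nat_lit 330))))))) (XT.nd (nat_lit 1092) (nat_lit 5092) (nat_lit 0) (XT.nd (nat_lit 546) (nat_lit 2812) (nat_lit 0) (XT.nd (nat_lit 234) (nat_lit 2280) (nat_lit 0) (XT.nd (nat_lit 78) (nat_lit 836) (nat_lit 0) (XT.lf (nat_lit 0) (nat_lit 3673659854) (nat_lit 912) (nat_lit 3407763506) (nat_lit 76) (nat_lit 1077066855) (nat_lit 323) (nat_lit 5) (nat_lit 335) (nat_lit 5) (nat_lit 324) (nat_lit 5) (nat_lit 430) (nat_lit 381) (nat_lit 329)) (XT.nd (nat_lit 78) (nat_lit 76) (nat_lit 0) (XT.lf (nat_lit 0) (nat_lit 1504547416) (nat_lit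 760) (nat_lit 4535472475) (nat_lit 836) (nat_lit 2189378781) (nat_lit 313) (nat_lit 5) (nat_lit 323) (nat_lit 5) (nat_lit 324) (nat_lit 5) (nat_lit 431) (nat_lit 381) (nat_lit 328)) (XT.lf (nat_lit 0) (nat_lit 135272301) (nat_lit 836) (nat_lit 1781317351) (nat_lit 76) (nat_lit 6385436088) (nat_lit 312) (nat_lit 5) (nat_lit 323) (nat_lit 5) (nat_lit 313) (nat_lit 5) (nat_lit 432) (nat_lit 381) (nat_lit 327)))) (XT.nd (nat_lit 156) (nat_lit 1520) (nat_lit 0) (XT.nd (nat_lit 78) (nat_lit 0) (nat_lit 0) (XT.lf (nat_lit 0) (nat_lit 2466351971) (nat_lit 836) (nat_lit 5131489347) (nat_lit 76) (nat_lit 778214917) (nat_lit 302) (nat_lit 5) (nat_lit 313) (nat_lit 5) (nat_lit 303) (nat_lit 5) (nat_lit 433) (nat_lit 381) (nat_lit 326)) (XT.lf (nat_lit 0) (nat_lit 4832236970) (nat_lit 836) (nat_lit 108884395) (nat_lit 76) (nat_lit 3510707148) (nat_lit 302) (nat_lit 5) (nat_lit 313) (nat_lit 5) (nat_lit 303) (nat_lit 5) (nat_lit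 434) (nat_lit 381) (nat_lit 325))) (XT.nd (nat_lit 78) (nat_lit 836) (nat_lit 0) (XT.lf (nat_lit 0) (nat_lit 5041171508) (nat_lit 684) (nat_lit 2201173643) (nat_lit 760) (nat_lit 1286857341) (nat_lit 293) (nat_lit 5) (nat_lit 302) (nat_lit 5) (nat_lit 303) (nat_lit 5) (nat_lit 435) (nat_lit 381) (nat_lit 324)) (XT.lf (nat_lit 0) (nat_lit 1058055487) (nat_lit 836) (nat_lit 6949490411) (nat_lit 76) (nat_lit 600862543) (nat_lit 282) (nat_lit 5) (nat_lit 293) (nat_lit 5) (nat_lit 283) (nat_lit 5) (nat_lit 436) (nat_lit 381) (nat_lit 323))))) (XT.nd (nat_lit 234) (nat_lit 2128) (nat_lit 0) (XT.nd (nat_lit 78) (nat_lit 684) (nat_lit 0) (XT.lf (nat_lit 0) (nat_lit 3435577114) (nat_lit 836) (nat_lit 1795696764) (nat_lit 76) (nat_lit 3457718638) (nat_lit 282) (nat_lit 5) (nat_lit 293) (nat_lit 5) (nat_lit 283) (nat_lit 5) (nat_lit 437) (nat_lit 381) (nat_lit 322)) (XT.nd (nat_lit 78) (nat_lit 0) (nat_lit 0) (XT.lf (nat_lit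 0) (nat_lit 3467632722) (nat_lit 684) (nat_lit 2381007693) (nat_lit 760) (nat_lit 2922810538) (nat_lit 273) (nat_lit 5) (nat_lit 282) (nat_lit 5) (nat_lit 283) (nat_lit 5) (nat_lit 438) (nat_lit 381) (nat_lit 321)) (XT.lf (nat_lit 0) (nat_lit 8291383745) (nat_lit 760) (nat_lit 37679969) (nat_lit 76) (nat_lit 526888535) (nat_lit 273) (nat_lit 5) (nat_lit 283) (nat_lit 5) (nat_lit 274) (nat_lit 5) (nat_lit 439) (nat_lit 381) (nat_lit 320)))) (XT.nd (nat_lit 156) (nat_lit 760) (nat_lit 0) (XT.nd (nat_lit 78) (nat_lit 608) (nat_lit 0) (XT.lf (nat_lit 0) (nat_lit 1833829000) (nat_lit 760) (nat_lit 3604378891) (nat_lit 76) (nat_lit 3503375178) (nat_lit 263) (nat_lit 5) (nat_lit 273) (nat_lit 5) (nat_lit 264) (nat_lit 5) (nat_lit 440) (nat_lit 381) (nat_lit 319)) (XT.lf (nat_lit 0) (nat_lit 1771800957) (nat_lit 608) (nat_lit 2479307305) (nat_lit 684) (nat_lit 4778194935) (nat_lit 255) (nat_lit 5) (nat_lit 263) (nat_lit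 5) (nat_lit 264) (nat_lit 5) (nat_lit 441) (nat_lit 381) (nat_lit 318))) (XT.nd (nat_lit 78) (nat_lit 760) (nat_lit 0) (XT.lf (nat_lit 0) (nat_lit 6711651599) (nat_lit 684) (nat_lit 1856846103) (nat_lit 76) (nat_lit 550402040) (nat_lit 255) (nat_lit 5) (nat_lit 264) (nat_lit 5) (nat_lit 256) (nat_lit 5) (nat_lit 442) (nat_lit 381) (nat_lit 317)) (XT.lf (nat_lit 0) (nat_lit 18805495) (nat_lit 760) (nat_lit 5565557704) (nat_lit 76) (nat_lit 3625786495) (nat_lit 245) (nat_lit 5) (nat_lit 255) (nat_lit 5) (nat_lit 246) (nat_lit 5) (nat_lit 443) (nat_lit 381) (nat_lit 316)))))) (XT.nd (nat_lit 546) (nat_lit 2660) (nat_lit 0) (XT.nd (nat_lit 234) (nat_lit 1216) (nat_lit 0) (XT.nd (nat_lit 78) (nat_lit 1216) (nat_lit 0) (XT.lf (nat_lit 0) (nat_lit 2441592973) (nat_lit 760) (nat_lit 76450925) (nat_lit 76) (nat_lit 6785272802) (nat_lit 245) (nat_lit 5) (nat_lit 255) (nat_lit 5) (nat_lit 246) (nat_lit 5) (nat_lit 444) (nat_lit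 381) (nat_lit 315)) (XT.nd (nat_lit 78) (nat_lit 608) (nat_lit 0) (XT.lf (nat_lit 0) (nat_lit 4921576432) (nat_lit 684) (nat_lit 3845026420) (nat_lit 76) (nat_lit 631588222) (nat_lit 237) (nat_lit 5) (nat_lit 246) (nat_lit 5) (nat_lit 238) (nat_lit 5) (nat_lit 445) (nat_lit 381) (nat_lit 314)) (XT.lf (nat_lit 0) (nat_lit 1769716811) (nat_lit 608) (nat_lit 5678958326) (nat_lit 684) (nat_lit 2046355951) (nat_lit 229) (nat_lit 5) (nat_lit 237) (nat_lit 5) (nat_lit 238) (nat_lit 5) (nat_lit 446) (nat_lit 381) (nat_lit 313)))) (XT.nd (nat_lit 156) (nat_lit 608) (nat_lit 0) (XT.nd (nat_lit 78) (nat_lit 532) (nat_lit 0) (XT.lf (nat_lit 0) (nat_lit 421784131) (nat_lit 684) (nat_lit 2085844215) (nat_lit 76) (nat_lit 7086242167) (nat_lit 228) (nat_lit 5) (nat_lit 237) (nat_lit 5) (nat_lit 229) (nat_lit 5) (nat_lit 447) (nat_lit 381) (nat_lit 312)) (XT.lf (nat_lit 0) (nat_lit 2910200855) (nat_lit 608) (nat_lit 6036274531)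 (nat_lit 76) (nat_lit 747991921) (nat_lit 221) (nat_lit 5) (nat_lit 229) (nat_lit 5) (nat_lit 222) (nat_lit 5) (nat_lit 448) (nat_lit 381) (nat_lit 311))) (XT.nd (nat_lit 78) (nat_lit 608) (nat_lit 0) (XT.lf (nat_lit 0) (nat_lit 5448971787) (nat_lit 608) (nat_lit 306128017) (nat_lit 76) (nat_lit 4041981572) (nat_lit 221) (nat_lit 5) (nat_lit 229) (nat_lit 5) (nat_lit 222) (nat_lit 5) (nat_lit 449) (nat_lit 381) (nat_lit 310)) (XT.lf (nat_lit 0) (nat_lit 5574459810) (nat_lit 608) (nat_lit 2470731078) (nat_lit 684) (nat_lit 1856440107) (nat_lit 213) (nat_lit 5) (nat_lit 221) (nat_lit 5) (nat_lit 222) (nat_lit 5) (nat_lit 450) (nat_lit 381) (nat_lit 309))))) (XT.nd (nat_lit 312) (nat_lit 1520) (nat_lit 0) (XT.nd (nat_lit 156) (nat_lit 532) (nat_lit 0) (XT.nd (nat_lit 78) (nat_lit 0) (nat_lit 0) (XT.lf (nat_lit 0) (nat_lit 664565169) (nat_lit 608) (nat_lit 8467338192) (nat_lit 76) (nat_lit 876525619) (nat_lit 205)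 (nat_lit 5) (nat_lit 213) (nat_lit 5) (nat_lit 206) (nat_lit 5) (nat_lit 451) (nat_lit 381) (nat_lit 308)) (XT.lf (nat_lit 0) (nat_lit 3227639135) (nat_lit 608) (nat_lit 2597988241) (nat_lit 76) (nat_lit 4291175760) (nat_lit 205) (nat_lit 5) (nat_lit 213) (nat_lit 5) (nat_lit 206) (nat_lit 5) (nat_lit 452) (nat_lit 381) (nat_lit 307))) (XT.nd (nat_lit 78) (nat_lit 0) (nat_lit 0) (XT.lf (nat_lit 0) (nat_lit 3396300675) (nat_lit 532) (nat_lit 2439186436) (nat_lit 608) (nat_lit 4392002862) (nat_lit 198) (nat_lit 5) (nat_lit 205) (nat_lit 5) (nat_lit 206) (nat_lit 5) (nat_lit 453) (nat_lit 381) (nat_lit 306)) (XT.lf (nat_lit 0) (nat_lit 8491358415) (nat_lit 608) (nat_lit 838327365) (nat_lit 76) (nat_lit 1010802587) (nat_lit 198) (nat_lit 5) (nat_lit 206) (nat_lit 5) (nat_lit 199) (nat_lit 5) (nat_lit 454) (nat_lit 381) (nat_lit 305)))) (XT.nd (nat_lit 156) (nat_lit 456) (nat_lit 0) (XT.nd (nat_lit 78) (nat_lit 532)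 (nat_lit 0) (XT.lf (nat_lit 0) (nat_lit 757759399) (nat_lit 532) (nat_lit 5169200268) (nat_lit 76) (nat_lit 4528246439) (nat_lit 191) (nat_lit 5) (nat_lit 198) (nat_lit 5) (nat_lit 192) (nat_lit 5) (nat_lit 455) (nat_lit 381) (nat_lit 304)) (XT.lf (nat_lit 0) (nat_lit 935386575) (nat_lit 532) (nat_lit 2440792668) (nat_lit 608) (nat_lit 7196125725) (nat_lit 184) (nat_lit 5) (nat_lit 191) (nat_lit 5) (nat_lit 192) (nat_lit 5) (nat_lit 456) (nat_lit 381) (nat_lit 303))) (XT.nd (nat_lit 78) (nat_lit 456) (nat_lit 0) (XT.lf (nat_lit 0) (nat_lit 6061763977) (nat_lit 608) (nat_lit 3503327873) (nat_lit 76) (nat_lit 1126372020) (nat_lit 184) (nat_lit 5) (nat_lit 192) (nat_lit 5) (nat_lit 185) (nat_lit 5) (nat_lit 457) (nat_lit 381) (nat_lit 302)) (XT.lf (nat_lit 0) (nat_lit 2736442363) (nat_lit 456) (nat_lit 6071724289) (nat_lit 532) (nat_lit 2004710893) (nat_lit 178) (nat_lit 5) (nat_lit 184) (nat_lit 5) (nat_lit 185)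 (nat_lit 5) (nat_lit 458) (nat_lit 381) (nat_lit 301))))))))
noncomputable def xc105 : XT := (XT.nd (nat_lit 2184) (nat_lit 3648) (nat_lit 0) (XT.nd (nat_lit 1092) (nat_lit 2508) (nat_lit 0) (XT.nd (nat_lit 546) (nat_lit 1748) (nat_lit 0) (XT.nd (nat_lit 234) (nat_lit 1368) (nat_lit 0) (XT.nd (nat_lit 78) (nat_lit 456) (nat_lit 0) (XT.lf (nat_lit 0) (nat_lit 660897799) (nat_lit 532) (nat_lit 1828623452) (nat_lit 76) (nat_lit 8447185194) (nat_lit 177) (nat_lit 5) (nat_lit 184) (nat_lit 5) (nat_lit 178) (nat_lit 5) (nat_lit 459) (nat_lit 381) (nat_lit 300)) (XT.nd (nat_lit 78) (nat_lit 0) (nat_lit 0) (XT.lf (nat_lit 0) (nat_lit 3364159269) (nat_lit 532) (nat_lit 6515500489) (nat_lit 76) (nat_lit 1182876397) (nat_lit 171) (nat_lit 5) (nat_lit 178) (nat_lit 5) (nat_lit 172) (nat_lit 5) (nat_lit 460) (nat_lit 381) (nat_lit 299)) (XT.lf (nat_lit 0) (nat_lit 6124350000) (nat_lit 532) (nat_lit 168078864) (nat_lit 76) (nat_lit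 4898408990) (nat_lit 171) (nat_lit 5) (nat_lit 178) (nat_lit 5) (nat_lit 172) (nat_lit 5) (nat_lit 461) (nat_lit 381) (nat_lit 298)))) (XT.nd (nat_lit 156) (nat_lit 380) (nat_lit 0) (XT.nd (nat_lit 78) (nat_lit 532) (nat_lit 0) (XT.lf (nat_lit 0) (nat_lit 6354465361) (nat_lit 456) (nat_lit 2601070749) (nat_lit 532) (nat_lit 2365866069) (nat_lit 165) (nat_lit 5) (nat_lit 171) (nat_lit 5) (nat_lit 172) (nat_lit 5) (nat_lit 462) (nat_lit 381) (nat_lit 297)) (XT.lf (nat_lit 0) (nat_lit 376999448) (nat_lit 532) (nat_lit 9924875086) (nat_lit 76) (nat_lit 1152798116) (nat_lit 158) (nat_lit 5) (nat_lit 165) (nat_lit 5) (nat_lit 159) (nat_lit 5) (nat_lit 463) (nat_lit 381) (nat_lit 296))) (XT.nd (nat_lit 78) (nat_lit 380) (nat_lit 0) (XT.lf (nat_lit 0) (nat_lit 3168683199) (nat_lit 532) (nat_lit 3434762089) (nat_lit 76) (nat_lit 4986349387) (nat_lit 158) (nat_lit 5) (nat_lit 165) (nat_lit 5) (nat_lit 159) (nat_lit 5) (nat_lit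 464) (nat_lit 381) (nat_lit 295)) (XT.lf (nat_lit 0) (nat_lit 3192215143) (nat_lit 380) (nat_lit 2820038057) (nat_lit 456) (nat_lit 5715456367) (nat_lit 153) (nat_lit 5) (nat_lit 158) (nat_lit 5) (nat_lit 159) (nat_lit 5) (nat_lit 465) (nat_lit 381) (nat_lit 294))))) (XT.nd (nat_lit 234) (nat_lit 1216) (nat_lit 0) (XT.nd (nat_lit 78) (nat_lit 532) (nat_lit 0) (XT.lf (nat_lit 0) (nat_lit 8918162354) (nat_lit 456) (nat_lit 1911538599) (nat_lit 76) (nat_lit 1038583705) (nat_lit 153) (nat_lit 5) (nat_lit 159) (nat_lit 5) (nat_lit 154) (nat_lit 5) (nat_lit 466) (nat_lit 381) (nat_lit 293)) (XT.nd (nat_lit 78) (nat_lit 76) (nat_lit 0) (XT.lf (nat_lit 0) (nat_lit 4855579764) (nat_lit 456) (nat_lit 7052811248) (nat_lit 532) (nat_lit 102767245) (nat_lit 147) (nat_lit 5) (nat_lit 153) (nat_lit 5) (nat_lit 154) (nat_lit 5) (nat_lit 467) (nat_lit 381) (nat_lit 292)) (XT.lf (nat_lit 0) (nat_lit 2753785834) (nat_lit 532) (nat_lit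 425380547) (nat_lit 76) (nat_lit 8977589891) (nat_lit 146) (nat_lit 5) (nat_lit 153) (nat_lit 5) (nat_lit 147) (nat_lit 5) (nat_lit 468) (nat_lit 381) (nat_lit 291)))) (XT.nd (nat_lit 156) (nat_lit 456) (nat_lit 0) (XT.nd (nat_lit 78) (nat_lit 380) (nat_lit 0) (XT.lf (nat_lit 0) (nat_lit 5690012185) (nat_lit 456) (nat_lit 5820008541) (nat_lit 76) (nat_lit 794763970) (nat_lit 141) (nat_lit 5) (nat_lit 147) (nat_lit 5) (nat_lit 142) (nat_lit 5) (nat_lit 469) (nat_lit 381) (nat_lit 290)) (XT.lf (nat_lit 0) (nat_lit 1041840893) (nat_lit 380) (nat_lit 7650539279) (nat_lit 456) (nat_lit 3763255365) (nat_lit 136) (nat_lit 5) (nat_lit 141) (nat_lit 5) (nat_lit 142) (nat_lit 5) (nat_lit 470) (nat_lit 381) (nat_lit 289))) (XT.nd (nat_lit 78) (nat_lit 456) (nat_lit 0) (XT.lf (nat_lit 0) (nat_lit 8086106734) (nat_lit 380) (nat_lit 3684706867) (nat_lit 456) (nat_lit 838379427) (nat_lit 136) (nat_lit 5) (nat_lit 141) (nat_lit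 5) (nat_lit 142) (nat_lit 5) (nat_lit 471) (nat_lit 381) (nat_lit 288)) (XT.lf (nat_lit 0) (nat_lit 2112759907) (nat_lit 456) (nat_lit 10277341020) (nat_lit 76) (nat_lit 375533855) (nat_lit 130) (nat_lit 5) (nat_lit 136) (nat_lit 5) (nat_lit 131) (nat_lit 5) (nat_lit 472) (nat_lit 381) (nat_lit 287)))))) (XT.nd (nat_lit 546) (nat_lit 1064) (nat_lit 0) (XT.nd (nat_lit 234) (nat_lit 1064) (nat_lit 0) (XT.nd (nat_lit 78) (nat_lit 380) (nat_lit 0) (XT.lf (nat_lit 0) (nat_lit 5144078951) (nat_lit 456) (nat_lit 3287074864) (nat_lit 76) (nat_lit 4493302482) (nat_lit 130) (nat_lit 5) (nat_lit 136) (nat_lit 5) (nat_lit 131) (nat_lit 5) (nat_lit 473) (nat_lit 381) (nat_lit 286)) (XT.nd (nat_lit 78) (nat_lit 0) (nat_lit 0) (XT.lf (nat_lit 0) (nat_lit 3860754273) (nat_lit 380) (nat_lit 4378196482) (nat_lit 456) (nat_lit 4847454193) (nat_lit 125) (nat_lit 5) (nat_lit 130) (nat_lit 5) (nat_lit 131) (nat_lit 5) (nat_lit 474)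 (nat_lit 381) (nat_lit 285)) (XT.lf (nat_lit 0) (nat_lit 11163436628) (nat_lit 380) (nat_lit 232423241) (nat_lit 456) (nat_lit 1855738958) (nat_lit 125) (nat_lit 5) (nat_lit 130) (nat_lit 5) (nat_lit 131) (nat_lit 5) (nat_lit 475) (nat_lit 381) (nat_lit 284)))) (XT.nd (nat_lit 156) (nat_lit 684) (nat_lit 0) (XT.nd (nat_lit 78) (nat_lit 0) (nat_lit 0) (XT.lf (nat_lit 0) (nat_lit 1218535561) (nat_lit 380) (nat_lit 8225394911) (nat_lit 76) (nat_lit 3975251365) (nat_lit 120) (nat_lit 5) (nat_lit 125) (nat_lit 5) (nat_lit 121) (nat_lit 5) (nat_lit 476) (nat_lit 381) (nat_lit 283)) (XT.lf (nat_lit 0) (nat_lit 4323622241) (nat_lit 380) (nat_lit 986548773) (nat_lit 76) (nat_lit 8279825194) (nat_lit 120) (nat_lit 5) (nat_lit 125) (nat_lit 5) (nat_lit 121) (nat_lit 5) (nat_lit 477) (nat_lit 381) (nat_lit 282))) (XT.nd (nat_lit 78) (nat_lit 304) (nat_lit 0) (XT.lf (nat_lit 0) (nat_lit 6449830211) (nat_lit 380) (nat_lit 1061785542)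 (nat_lit 456) (nat_lit 6252203374) (nat_lit 115) (nat_lit 5) (nat_lit 120) (nat_lit 5) (nat_lit 121) (nat_lit 5) (nat_lit 478) (nat_lit 381) (nat_lit 281)) (XT.lf (nat_lit 0) (nat_lit 54776052) (nat_lit 304) (nat_lit 10715920501) (nat_lit 380) (nat_lit 3170283600) (nat_lit 111) (nat_lit 5) (nat_lit 115) (nat_lit 5) (nat_lit 116) (nat_lit 5) (nat_lit 479) (nat_lit 381) (nat_lit 280))))) (XT.nd (nat_lit 234) (nat_lit 684) (nat_lit 0) (XT.nd (nat_lit 78) (nat_lit 304) (nat_lit 0) (XT.lf (nat_lit 0) (nat_lit 9187980) (nat_lit 380) (nat_lit 6489882442) (nat_lit 76) (nat_lit 7621914069) (nat_lit 110) (nat_lit 5) (nat_lit 115) (nat_lit 5) (nat_lit 111) (nat_lit 5) (nat_lit 480) (nat_lit 381) (nat_lit 279)) (XT.nd (nat_lit 78) (nat_lit 0) (nat_lit 0) (XT.lf (nat_lit 0) (nat_lit 1015258426) (nat_lit 304) (nat_lit 2180706644) (nat_lit 380) (nat_lit 11108489138) (nat_lit 106) (nat_lit 5) (nat_lit 110) (nat_lit 5) (nat_lit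 111) (nat_lit 5) (nat_lit 481) (nat_lit 381) (nat_lit 278)) (XT.lf (nat_lit 0) (nat_lit 6484418704) (nat_lit 380) (nat_lit 5778538680) (nat_lit 76) (nat_lit 2227884688) (nat_lit 106) (nat_lit 5) (nat_lit 111) (nat_lit 5) (nat_lit 107) (nat_lit 5) (nat_lit 482) (nat_lit 381) (nat_lit 277)))) (XT.nd (nat_lit 156) (nat_lit 380) (nat_lit 0) (XT.nd (nat_lit 78) (nat_lit 0) (nat_lit 0) (XT.lf (nat_lit 0) (nat_lit 1861358422) (nat_lit 304) (nat_lit 7983870925) (nat_lit 380) (nat_lit 4835604013) (nat_lit 102) (nat_lit 5) (nat_lit 106) (nat_lit 5) (nat_lit 107) (nat_lit 5) (nat_lit 483) (nat_lit 381) (nat_lit 276)) (XT.lf (nat_lit 0) (nat_lit 9701643229) (nat_lit 304) (nat_lit 3590642384) (nat_lit 380) (nat_lit 1581965551) (nat_lit 102) (nat_lit 5) (nat_lit 106) (nat_lit 5) (nat_lit 107) (nat_lit 5) (nat_lit 484) (nat_lit 381) (nat_lit 275))) (XT.nd (nat_lit 78) (nat_lit 0) (nat_lit 0) (XT.lf (nat_lit 0) (nat_lit 1717380157)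 (nat_lit 380) (nat_lit 12457389147) (nat_lit 76) (nat_lit 896481252) (nat_lit 97) (nat_lit 5) (nat_lit 102) (nat_lit 5) (nat_lit 98) (nat_lit 5) (nat_lit 485) (nat_lit 381) (nat_lit 274)) (XT.lf (nat_lit 0) (nat_lit 5100889713) (nat_lit 380) (nat_lit 4710330560) (nat_lit 76) (nat_lit 5459980197) (nat_lit 97) (nat_lit 5) (nat_lit 102) (nat_lit 5) (nat_lit 98) (nat_lit 5) (nat_lit 486) (nat_lit 381) (nat_lit 273))))))) (XT.nd (nat_lit 1092) (nat_lit 1672) (nat_lit 0) (XT.nd (nat_lit 546) (nat_lit 836) (nat_lit 0) (XT.nd (nat_lit 234) (nat_lit 608) (nat_lit 0) (XT.nd (nat_lit 78) (nat_lit 304) (nat_lit 0) (XT.lf (nat_lit 0) (nat_lit 3203760134) (nat_lit 228) (nat_lit 5350110031) (nat_lit 304) (nat_lit 6921249929) (nat_lit 94) (nat_lit 5) (nat_lit 97) (nat_lit 5) (nat_lit 98) (nat_lit 5) (nat_lit 487) (nat_lit 381) (nat_lit 272)) (XT.nd (nat_lit 78) (nat_lit 304) (nat_lit 0) (XT.lf (nat_lit 0) (nat_lit 11310252349)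 (nat_lit 228) (nat_lit 778445972) (nat_lit 304) (nat_lit 3594170621) (nat_lit 94) (nat_lit 5) (nat_lit 97) (nat_lit 5) (nat_lit 98) (nat_lit 5) (nat_lit 488) (nat_lit 381) (nat_lit 271)) (XT.lf (nat_lit 0) (nat_lit 3677659899) (nat_lit 304) (nat_lit 12047141570) (nat_lit 380) (nat_lit 169366193) (nat_lit 90) (nat_lit 5) (nat_lit 94) (nat_lit 5) (nat_lit 95) (nat_lit 5) (nat_lit 489) (nat_lit 381) (nat_lit 270)))) (XT.nd (nat_lit 156) (nat_lit 304) (nat_lit 0) (XT.nd (nat_lit 78) (nat_lit 228) (nat_lit 0) (XT.lf (nat_lit 0) (nat_lit 3296556789) (nat_lit 380) (nat_lit 4217333547) (nat_lit 76) (nat_lit 8595052281) (nat_lit 89) (nat_lit 5) (nat_lit 94) (nat_lit 5) (nat_lit 90) (nat_lit 5) (nat_lit 490) (nat_lit 381) (nat_lit 269)) (XT.lf (nat_lit 0) (nat_lit 3963755385) (nat_lit 228) (nat_lit 2873399063) (nat_lit 304) (nat_lit 9490689844) (nat_lit 86) (nat_lit 5) (nat_lit 89) (nat_lit 5) (nat_lit 90) (nat_lit 5) (nat_lit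 491) (nat_lit 381) (nat_lit 268))) (XT.nd (nat_lit 78) (nat_lit 304) (nat_lit 0) (XT.lf (nat_lit 0) (nat_lit 10471112756) (nat_lit 304) (nat_lit 4226224889) (nat_lit 76) (nat_lit 1853341353) (nat_lit 86) (nat_lit 5) (nat_lit 90) (nat_lit 5) (nat_lit 87) (nat_lit 5) (nat_lit 492) (nat_lit 381) (nat_lit 267)) (XT.lf (nat_lit 0) (nat_lit 4080415083) (nat_lit 304) (nat_lit 10125195305) (nat_lit 380) (nat_lit 2571808662) (nat_lit 82) (nat_lit 5) (nat_lit 86) (nat_lit 5) (nat_lit 87) (nat_lit 5) (nat_lit 493) (nat_lit 381) (nat_lit 266))))) (XT.nd (nat_lit 234) (nat_lit 532) (nat_lit 0) (XT.nd (nat_lit 78) (nat_lit 228) (nat_lit 0) (XT.lf (nat_lit 0) (nat_lit 1003836249) (nat_lit 380) (nat_lit 4432891445) (nat_lit 76) (nat_lit 11571622641) (nat_lit 81) (nat_lit 5) (nat_lit 86) (nat_lit 5) (nat_lit 82) (nat_lit 5) (nat_lit 494) (nat_lit 381) (nat_lit 265)) (XT.nd (nat_lit 78) (nat_lit 0) (nat_lit 0) (XT.lf (nat_lit 0)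 (nat_lit 4004024113) (nat_lit 228) (nat_lit 621287304) (nat_lit 304) (nat_lit 12618079275) (nat_lit 78) (nat_lit 5) (nat_lit 81) (nat_lit 5) (nat_lit 82) (nat_lit 5) (nat_lit 495) (nat_lit 381) (nat_lit 264)) (XT.lf (nat_lit 0) (nat_lit 8359830726) (nat_lit 304) (nat_lit 4868878888) (nat_lit 76) (nat_lit 4253615359) (nat_lit 78) (nat_lit 5) (nat_lit 82) (nat_lit 5) (nat_lit 79) (nat_lit 5) (nat_lit 496) (nat_lit 381) (nat_lit 263)))) (XT.nd (nat_lit 156) (nat_lit 304) (nat_lit 0) (XT.nd (nat_lit 78) (nat_lit 0) (nat_lit 0) (XT.lf (nat_lit 0) (nat_lit 3685737851) (nat_lit 228) (nat_lit 8494498363) (nat_lit 304) (nat_lit 5545583112) (nat_lit 75) (nat_lit 5) (nat_lit 78) (nat_lit 5) (nat_lit 79) (nat_lit 5) (nat_lit 497) (nat_lit 381) (nat_lit 262)) (XT.lf (nat_lit 0) (nat_lit 12450121484) (nat_lit 228) (nat_lit 3642905088) (nat_lit 304) (nat_lit 1880842660) (nat_lit 75) (nat_lit 5) (nat_lit 78) (nat_lit 5) (nat_lit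 79) (nat_lit 5) (nat_lit 498) (nat_lit 381) (nat_lit 261))) (XT.nd (nat_lit 78) (nat_lit 0) (nat_lit 0) (XT.lf (nat_lit 0) (nat_lit 1845529924) (nat_lit 304) (nat_lit 15069831664) (nat_lit 76) (nat_lit 1311028486) (nat_lit 71) (nat_lit 5) (nat_lit 75) (nat_lit 5) (nat_lit 72) (nat_lit 5) (nat_lit 499) (nat_lit 381) (nat_lit 260)) (XT.lf (nat_lit 0) (nat_lit 5666305672) (nat_lit 304) (nat_lit 6461798332) (nat_lit 76) (nat_lit 6354712376) (nat_lit 71) (nat_lit 5) (nat_lit 75) (nat_lit 5) (nat_lit 72) (nat_lit 5) (nat_lit 500) (nat_lit 381) (nat_lit 259)))))) (XT.nd (nat_lit 546) (nat_lit 912) (nat_lit 0) (XT.nd (nat_lit 234) (nat_lit 304) (nat_lit 0) (XT.nd (nat_lit 78) (nat_lit 228) (nat_lit 0) (XT.lf (nat_lit 0) (nat_lit 2322285900) (nat_lit 228) (nat_lit 7240209169) (nat_lit 304) (nat_lit 9181900984) (nat_lit 68) (nat_lit 5) (nat_lit 71) (nat_lit 5) (nat_lit 72) (nat_lit 5) (nat_lit 501) (nat_lit 381) (nat_lit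 258)) (XT.nd (nat_lit 78) (nat_lit 228) (nat_lit 0) (XT.lf (nat_lit 0) (nat_lit 11343251015) (nat_lit 228) (nat_lit 2220783555) (nat_lit 304) (nat_lit 5446628932) (nat_lit 68) (nat_lit 5) (nat_lit 71) (nat_lit 5) (nat_lit 72) (nat_lit 5) (nat_lit 502) (nat_lit 381) (nat_lit 257)) (XT.lf (nat_lit 0) (nat_lit 1233610516) (nat_lit 228) (nat_lit 16423136346) (nat_lit 304) (nat_lit 1625291214) (nat_lit 65) (nat_lit 5) (nat_lit 68) (nat_lit 5) (nat_lit 69) (nat_lit 5) (nat_lit 503) (nat_lit 381) (nat_lit 256)))) (XT.nd (nat_lit 156) (nat_lit 228) (nat_lit 0) (XT.nd (nat_lit 78) (nat_lit 0) (nat_lit 0) (XT.lf (nat_lit 0) (nat_lit 2293511496) (nat_lit 304) (nat_lit 9197191503) (nat_lit 76) (nat_lit 8066829650) (nat_lit 64) (nat_lit 5) (nat_lit 68) (nat_lit 5) (nat_lit 65) (nat_lit 5) (nat_lit 504) (nat_lit 381) (nat_lit 255)) (XT.lf (nat_lit 0) (nat_lit 6253596817) (nat_lit 304) (nat_lit 205347044) (nat_lit 76) (nat_lit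 13379689354) (nat_lit 64) (nat_lit 5) (nat_lit 68) (nat_lit 5) (nat_lit 65) (nat_lit 5) (nat_lit 505) (nat_lit 381) (nat_lit 254))) (XT.nd (nat_lit 78) (nat_lit 0) (nat_lit 0) (XT.lf (nat_lit 0) (nat_lit 9060008132) (nat_lit 228) (nat_lit 1276649161) (nat_lit 304) (nat_lit 9787827295) (nat_lit 61) (nat_lit 5) (nat_lit 64) (nat_lit 5) (nat_lit 65) (nat_lit 5) (nat_lit 506) (nat_lit 381) (nat_lit 253)) (XT.lf (nat_lit 0) (nat_lit 14513814461) (nat_lit 304) (nat_lit 1953833101) (nat_lit 76) (nat_lit 3948160900) (nat_lit 61) (nat_lit 5) (nat_lit 65) (nat_lit 5) (nat_lit 62) (nat_lit 5) (nat_lit 507) (nat_lit 381) (nat_lit 252))))) (XT.nd (nat_lit 312) (nat_lit 456) (nat_lit 0) (XT.nd (nat_lit 156) (nat_lit 228) (nat_lit 0) (XT.nd (nat_lit 78) (nat_lit 76) (nat_lit 0) (XT.lf (nat_lit 0) (nat_lit 7402932309) (nat_lit 152) (nat_lit 11413413005) (nat_lit 228) (nat_lit 1895780986) (nat_lit 59) (nat_lit 5) (nat_lit 61) (nat_lit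 5) (nat_lit 62) (nat_lit 5) (nat_lit 508) (nat_lit 381) (nat_lit 251)) (XT.lf (nat_lit 0) (nat_lit 2160364130) (nat_lit 228) (nat_lit 4079862962) (nat_lit 76) (nat_lit 14773892145) (nat_lit 58) (nat_lit 5) (nat_lit 61) (nat_lit 5) (nat_lit 59) (nat_lit 5) (nat_lit 509) (nat_lit 381) (nat_lit 250))) (XT.nd (nat_lit 78) (nat_lit 0) (nat_lit 0) (XT.lf (nat_lit 0) (nat_lit 5367619626) (nat_lit 228) (nat_lit 925128658) (nat_lit 304) (nat_lit 15028746976) (nat_lit 55) (nat_lit 5) (nat_lit 58) (nat_lit 5) (nat_lit 59) (nat_lit 5) (nat_lit 510) (nat_lit 381) (nat_lit 249)) (XT.lf (nat_lit 0) (nat_lit 10550220165) (nat_lit 304) (nat_lit 6628832313) (nat_lit 76) (nat_lit 4455121312) (nat_lit 55) (nat_lit 5) (nat_lit 59) (nat_lit 5) (nat_lit 56) (nat_lit 5) (nat_lit 511) (nat_lit 381) (nat_lit 248)))) (XT.nd (nat_lit 156) (nat_lit 304) (nat_lit 0) (XT.nd (nat_lit 78) (nat_lit 0) (nat_lit 0) (XT.lf (nat_lit 0) (nat_lit 2890631183)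 (nat_lit 152) (nat_lit 12013073428) (nat_lit 228) (nat_lit 7049187729) (nat_lit 53) (nat_lit 5) (nat_lit 55) (nat_lit 5) (nat_lit 56) (nat_lit 5) (nat_lit 512) (nat_lit 381) (nat_lit 247)) (XT.lf (nat_lit 0) (nat_lit 12666631365) (nat_lit 152) (nat_lit 6708200088) (nat_lit 228) (nat_lit 2902545995) (nat_lit 53) (nat_lit 5) (nat_lit 55) (nat_lit 5) (nat_lit 56) (nat_lit 5) (nat_lit 513) (nat_lit 381) (nat_lit 246))) (XT.nd (nat_lit 78) (nat_lit 228) (nat_lit 0) (XT.lf (nat_lit 0) (nat_lit 1295893019) (nat_lit 228) (nat_lit 2245924) (nat_lit 76) (nat_lit 21310319121) (nat_lit 52) (nat_lit 5) (nat_lit 55) (nat_lit 5) (nat_lit 53) (nat_lit 5) (nat_lit 514) (nat_lit 381) (nat_lit 245)) (XT.lf (nat_lit 0) (nat_lit 5618086179) (nat_lit 304) (nat_lit 13086767886) (nat_lit 76) (nat_lit 4239352932) (nat_lit 49) (nat_lit 5) (nat_lit 53) (nat_lit 5) (nat_lit 50) (nat_lit 5) (nat_lit 515) (nat_lit 381) (nat_lit 244))))))))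
noncomputable def xc106 : XT := (XT.nd (nat_lit 50076) (nat_lit 0) (nat_lit 24472) (XT.nd (nat_lit 48984) (nat_lit 0) (nat_lit 44612) (XT.nd (nat_lit 546) (nat_lit 380) (nat_lit 0) (XT.nd (nat_lit 234) (nat_lit 456) (nat_lit 0) (XT.nd (nat_lit 78) (nat_lit 152) (nat_lit 0) (XT.lf (nat_lit 0) (nat_lit 10021927533) (nat_lit 304) (nat_lit 3403946899) (nat_lit 76) (nat_lit 9860895752) (nat_lit 49) (nat_lit 5) (nat_lit 53) (nat_lit 5) (nat_lit 50) (nat_lit 5) (nat_lit 516) (nat_lit 381) (nat_lit 243)) (XT.nd (nat_lit 78) (nat_lit 0) (nat_lit 0) (XT.lf (nat_lit 0) (nat_lit 6535670988) (nat_lit 152) (nat_lit 8007463749) (nat_lit 228) (nat_lit 9092467415) (nat_lit 47) (nat_lit 5) (nat_lit 49) (nat_lit 5) (nat_lit 50) (nat_lit 5) (nat_lit 517) (nat_lit 381) (nat_lit 242)) (XT.lf (nat_lit 0) (nat_lit 16697795139) (nat_lit 152) (nat_lit 2466780462) (nat_lit 228) (nat_lit 4826642201) (nat_lit 47) (nat_lit 5) (nat_lit 49) (nat_lit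 5) (nat_lit 50) (nat_lit 5) (nat_lit 518) (nat_lit 381) (nat_lit 241)))) (XT.nd (nat_lit 156) (nat_lit 152) (nat_lit 0) (XT.nd (nat_lit 78) (nat_lit 76) (nat_lit 0) (XT.lf (nat_lit 0) (nat_lit 2701786481) (nat_lit 228) (nat_lit 21202040866) (nat_lit 304) (nat_lit 449613944) (nat_lit 44) (nat_lit 5) (nat_lit 47) (nat_lit 5) (nat_lit 48) (nat_lit 5) (nat_lit 519) (nat_lit 381) (nat_lit 240)) (XT.lf (nat_lit 0) (nat_lit 4015085371) (nat_lit 304) (nat_lit 11791108537) (nat_lit 76) (nat_lit 8915141286) (nat_lit 43) (nat_lit 5) (nat_lit 47) (nat_lit 5) (nat_lit 44) (nat_lit 5) (nat_lit 520) (nat_lit 381) (nat_lit 239))) (XT.nd (nat_lit 78) (nat_lit 152) (nat_lit 0) (XT.lf (nat_lit 0) (nat_lit 8550499488) (nat_lit 304) (nat_lit 1758107390) (nat_lit 76) (nat_lit 14788174822) (nat_lit 43) (nat_lit 5) (nat_lit 47) (nat_lit 5) (nat_lit 44) (nat_lit 5) (nat_lit 521) (nat_lit 381) (nat_lit 238)) (XT.lf (nat_lit 0) (nat_lit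 8566554232) (nat_lit 152) (nat_lit 4653369286) (nat_lit 228) (nat_lit 12258950513) (nat_lit 41) (nat_lit 5) (nat_lit 43) (nat_lit 5) (nat_lit 44) (nat_lit 5) (nat_lit 522) (nat_lit 381) (nat_lit 237))))) (XT.nd (nat_lit 234) (nat_lit 152) (nat_lit 0) (XT.nd (nat_lit 78) (nat_lit 228) (nat_lit 0) (XT.lf (nat_lit 0) (nat_lit 17989578414) (nat_lit 228) (nat_lit 6775548553) (nat_lit 76) (nat_lit 1103347264) (nat_lit 41) (nat_lit 5) (nat_lit 44) (nat_lit 5) (nat_lit 42) (nat_lit 5) (nat_lit 523) (nat_lit 381) (nat_lit 236)) (XT.nd (nat_lit 78) (nat_lit 76) (nat_lit 0) (XT.lf (nat_lit 0) (nat_lit 3558835755) (nat_lit 152) (nat_lit 19337681913) (nat_lit 228) (nat_lit 3368513754) (nat_lit 39) (nat_lit 5) (nat_lit 41) (nat_lit 5) (nat_lit 42) (nat_lit 5) (nat_lit 524) (nat_lit 381) (nat_lit 235)) (XT.lf (nat_lit 0) (nat_lit 1249672445) (nat_lit 228) (nat_lit 12506163324) (nat_lit 76) (nat_lit 12912851597) (nat_lit 38) (nat_lit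 5) (nat_lit 41) (nat_lit 5) (nat_lit 39) (nat_lit 5) (nat_lit 525) (nat_lit 381) (nat_lit 234)))) (XT.nd (nat_lit 156) (nat_lit 0) (nat_lit 0) (XT.nd (nat_lit 78) (nat_lit 152) (nat_lit 0) (XT.lf (nat_lit 0) (nat_lit 5903382474) (nat_lit 228) (nat_lit 2145030964) (nat_lit 76) (nat_lit 19031795035) (nat_lit 38) (nat_lit 5) (nat_lit 41) (nat_lit 5) (nat_lit 39) (nat_lit 5) (nat_lit 526) (nat_lit 381) (nat_lit 233)) (XT.lf (nat_lit 0) (nat_lit 8514808470) (nat_lit 152) (nat_lit 2179095293) (nat_lit 228) (nat_lit 16805184098) (nat_lit 36) (nat_lit 5) (nat_lit 38) (nat_lit 5) (nat_lit 39) (nat_lit 5) (nat_lit 527) (nat_lit 381) (nat_lit 232))) (XT.nd (nat_lit 47970) (nat_lit 0) (nat_lit 47044) (XT.lf (nat_lit 0) (nat_lit 15607940208) (nat_lit 228) (nat_lit 8554184331) (nat_lit 76) (nat_lit 3763668750) (nat_lit 36) (nat_lit 5) (nat_lit 39) (nat_lit 5) (nat_lit 37) (nat_lit 5) (nat_lit 528) (nat_lit 381) (nat_lit 231))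 (XT.lf (nat_lit 0) (nat_lit 2647502669) (nat_lit 228) (nat_lit 288795065) (nat_lit 228) (nat_lit 288795065) (nat_lit 655) (nat_lit 3) (nat_lit 658) (nat_lit 3) (nat_lit 658) (nat_lit 5) (nat_lit 382) (nat_lit 382) (nat_lit 376)))))) (XT.nd (nat_lit 546) (nat_lit 1520) (nat_lit 0) (XT.nd (nat_lit 234) (nat_lit 380) (nat_lit 0) (XT.nd (nat_lit 78) (nat_lit 304) (nat_lit 0) (XT.lf (nat_lit 0) (nat_lit 1681811226) (nat_lit 228) (nat_lit 3986343705) (nat_lit 304) (nat_lit 786518722) (nat_lit 652) (nat_lit 5) (nat_lit 655) (nat_lit 3) (nat_lit 656) (nat_lit 5) (nat_lit 383) (nat_lit 382) (nat_lit 375)) (XT.nd (nat_lit 78) (nat_lit 304) (nat_lit 0) (XT.lf (nat_lit 0) (nat_lit 4489850963) (nat_lit 228) (nat_lit 922863535) (nat_lit 304) (nat_lit 1047880549) (nat_lit 652) (nat_lit 5) (nat_lit 655) (nat_lit 3) (nat_lit 656) (nat_lit 5) (nat_lit 384) (nat_lit 382) (nat_lit 374)) (XT.lf (nat_lit 0) (nat_lit 816850472) (nat_lit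 304) (nat_lit 4280874669) (nat_lit 380) (nat_lit 1370061298) (nat_lit 648) (nat_lit 5) (nat_lit 652) (nat_lit 5) (nat_lit 653) (nat_lit 5) (nat_lit 385) (nat_lit 382) (nat_lit 373)))) (XT.nd (nat_lit 156) (nat_lit 380) (nat_lit 0) (XT.nd (nat_lit 78) (nat_lit 0) (nat_lit 0) (XT.lf (nat_lit 0) (nat_lit 3567999052) (nat_lit 304) (nat_lit 1155737106) (nat_lit 380) (nat_lit 1752527683) (nat_lit 648) (nat_lit 5) (nat_lit 652) (nat_lit 5) (nat_lit 653) (nat_lit 5) (nat_lit 386) (nat_lit 382) (nat_lit 372)) (XT.lf (nat_lit 76) (nat_lit 2020123718) (nat_lit 0) (nat_lit 4296507784) (nat_lit 380) (nat_lit 169514899) (nat_lit 649) (nat_lit 5) (nat_lit 648) (nat_lit 5) (nat_lit 653) (nat_lit 5) (nat_lit 387) (nat_lit 382) (nat_lit 371))) (XT.nd (nat_lit 78) (nat_lit 0) (nat_lit 0) (XT.lf (nat_lit 0) (nat_lit 2527343590) (nat_lit 380) (nat_lit 1277026146) (nat_lit 456) (nat_lit 2692842711) (nat_lit 643) (nat_lit 5) (nat_lit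 648) (nat_lit 5) (nat_lit 649) (nat_lit 5) (nat_lit 388) (nat_lit 382) (nat_lit 370)) (XT.lf (nat_lit 76) (nat_lit 1962091721) (nat_lit 0) (nat_lit 3257833751) (nat_lit 456) (nat_lit 1289750746) (nat_lit 644) (nat_lit 5) (nat_lit 643) (nat_lit 5) (nat_lit 649) (nat_lit 5) (nat_lit 389) (nat_lit 382) (nat_lit 369))))) (XT.nd (nat_lit 234) (nat_lit 532) (nat_lit 0) (XT.nd (nat_lit 78) (nat_lit 532) (nat_lit 0) (XT.lf (nat_lit 0) (nat_lit 1365547790) (nat_lit 456) (nat_lit 1287346841) (nat_lit 532) (nat_lit 3870573639) (nat_lit 637) (nat_lit 5) (nat_lit 643) (nat_lit 5) (nat_lit 644) (nat_lit 5) (nat_lit 390) (nat_lit 382) (nat_lit 368)) (XT.nd (nat_lit 78) (nat_lit 532) (nat_lit 0) (XT.lf (nat_lit 76) (nat_lit 2017783074) (nat_lit 0) (nat_lit 1985241602) (nat_lit 532) (nat_lit 2535489463) (nat_lit 638) (nat_lit 5) (nat_lit 637) (nat_lit 5) (nat_lit 644) (nat_lit 5) (nat_lit 391) (nat_lit 382) (nat_lit 367)) (XT.lf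 (nat_lit 0) (nat_lit 80037885) (nat_lit 532) (nat_lit 1187120030) (nat_lit 608) (nat_lit 5287907792) (nat_lit 630) (nat_lit 5) (nat_lit 637) (nat_lit 5) (nat_lit 638) (nat_lit 5) (nat_lit 392) (nat_lit 382) (nat_lit 366)))) (XT.nd (nat_lit 156) (nat_lit 532) (nat_lit 0) (XT.nd (nat_lit 78) (nat_lit 0) (nat_lit 76) (XT.lf (nat_lit 76) (nat_lit 2186881116) (nat_lit 0) (nat_lit 476353168) (nat_lit 608) (nat_lit 3909463637) (nat_lit 631) (nat_lit 5) (nat_lit 630) (nat_lit 5) (nat_lit 638) (nat_lit 5) (nat_lit 393) (nat_lit 382) (nat_lit 365)) (XT.lf (nat_lit 0) (nat_lit 5244531577) (nat_lit 532) (nat_lit 987703637) (nat_lit 76) (nat_lit 359588410) (nat_lit 631) (nat_lit 5) (nat_lit 638) (nat_lit 5) (nat_lit 632) (nat_lit 5) (nat_lit 394) (nat_lit 382) (nat_lit 364))) (XT.nd (nat_lit 78) (nat_lit 0) (nat_lit 0) (XT.lf (nat_lit 0) (nat_lit 1205871353) (nat_lit 608) (nat_lit 4151265471) (nat_lit 76) (nat_lit 1254970418)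 (nat_lit 623) (nat_lit 5) (nat_lit 631) (nat_lit 5) (nat_lit 624) (nat_lit 5) (nat_lit 395) (nat_lit 382) (nat_lit 363)) (XT.lf (nat_lit 0) (nat_lit 3736772135) (nat_lit 608) (nat_lit 689182316) (nat_lit 76) (nat_lit 2207835254) (nat_lit 623) (nat_lit 5) (nat_lit 631) (nat_lit 5) (nat_lit 624) (nat_lit 5) (nat_lit 396) (nat_lit 382) (nat_lit 362))))))) (XT.nd (nat_lit 1092) (nat_lit 12768) (nat_lit 0) (XT.nd (nat_lit 546) (nat_lit 4256) (nat_lit 0) (XT.nd (nat_lit 234) (nat_lit 1748) (nat_lit 0) (XT.nd (nat_lit 78) (nat_lit 760) (nat_lit 0) (XT.lf (nat_lit 0) (nat_lit 2840872965) (nat_lit 608) (nat_lit 3435103567) (nat_lit 684) (nat_lit 380839862) (nat_lit 615) (nat_lit 5) (nat_lit 623) (nat_lit 5) (nat_lit 624) (nat_lit 5) (nat_lit 397) (nat_lit 382) (nat_lit 361)) (XT.nd (nat_lit 78) (nat_lit 684) (nat_lit 0) (XT.lf (nat_lit 0) (nat_lit 2101376748) (nat_lit 684) (nat_lit 282698545) (nat_lit 76) (nat_lit 4297118686)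 (nat_lit 614) (nat_lit 5) (nat_lit 623) (nat_lit 5) (nat_lit 615) (nat_lit 5) (nat_lit 398) (nat_lit 382) (nat_lit 360)) (XT.lf (nat_lit 0) (nat_lit 3323912801) (nat_lit 684) (nat_lit 1266718402) (nat_lit 760) (nat_lit 2116188286) (nat_lit 605) (nat_lit 5) (nat_lit 614) (nat_lit 5) (nat_lit 615) (nat_lit 5) (nat_lit 399) (nat_lit 382) (nat_lit 359)))) (XT.nd (nat_lit 156) (nat_lit 912) (nat_lit 0) (XT.nd (nat_lit 78) (nat_lit 0) (nat_lit 0) (XT.lf (nat_lit 0) (nat_lit 235109140) (nat_lit 760) (nat_lit 101211654) (nat_lit 836) (nat_lit 6397747218) (nat_lit 594) (nat_lit 5) (nat_lit 604) (nat_lit 5) (nat_lit 605) (nat_lit 5) (nat_lit 400) (nat_lit 382) (nat_lit 358)) (XT.lf (nat_lit 0) (nat_lit 2781879893) (nat_lit 836) (nat_lit 2851326117) (nat_lit 76) (nat_lit 1128986109) (nat_lit 594) (nat_lit 5) (nat_lit 605) (nat_lit 5) (nat_lit 595) (nat_lit 5) (nat_lit 401) (nat_lit 382) (nat_lit 357))) (XT.nd (nat_lit 78)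 (nat_lit 76) (nat_lit 0) (XT.lf (nat_lit 0) (nat_lit 840361664) (nat_lit 836) (nat_lit 4385640686) (nat_lit 912) (nat_lit 1565939281) (nat_lit 583) (nat_lit 5) (nat_lit 594) (nat_lit 5) (nat_lit 595) (nat_lit 5) (nat_lit 402) (nat_lit 382) (nat_lit 356)) (XT.lf (nat_lit 0) (nat_lit 848178486) (nat_lit 912) (nat_lit 2223107802) (nat_lit 76) (nat_lit 3751672837) (nat_lit 582) (nat_lit 5) (nat_lit 594) (nat_lit 5) (nat_lit 583) (nat_lit 5) (nat_lit 403) (nat_lit 382) (nat_lit 355))))) (XT.nd (nat_lit 234) (nat_lit 2280) (nat_lit 0) (XT.nd (nat_lit 78) (nat_lit 1064) (nat_lit 0) (XT.lf (nat_lit 0) (nat_lit 1550894589) (nat_lit 912) (nat_lit 1693861411) (nat_lit 988) (nat_lit 3610583781) (nat_lit 570) (nat_lit 5) (nat_lit 582) (nat_lit 5) (nat_lit 583) (nat_lit 5) (nat_lit 404) (nat_lit 382) (nat_lit 354)) (XT.nd (nat_lit 78) (nat_lit 1064) (nat_lit 0) (XT.lf (nat_lit 0) (nat_lit 5391759457) (nat_lit 912) (nat_lit 258305836)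 (nat_lit 988) (nat_lit 1239138459) (nat_lit 570) (nat_lit 5) (nat_lit 582) (nat_lit 5) (nat_lit 583) (nat_lit 5) (nat_lit 405) (nat_lit 382) (nat_lit 353)) (XT.lf (nat_lit 0) (nat_lit 1134273119) (nat_lit 1064) (nat_lit 4562108704) (nat_lit 76) (nat_lit 1227859487) (nat_lit 556) (nat_lit 5) (nat_lit 570) (nat_lit 5) (nat_lit 557) (nat_lit 5) (nat_lit 406) (nat_lit 382) (nat_lit 352)))) (XT.nd (nat_lit 156) (nat_lit 1216) (nat_lit 0) (XT.nd (nat_lit 78) (nat_lit 1064) (nat_lit 0) (XT.lf (nat_lit 0) (nat_lit 3497834142) (nat_lit 1064) (nat_lit 690254326) (nat_lit 76) (nat_lit 2772590593) (nat_lit 556) (nat_lit 5) (nat_lit 570) (nat_lit 5) (nat_lit 557) (nat_lit 5) (nat_lit 407) (nat_lit 382) (nat_lit 351)) (XT.lf (nat_lit 0) (nat_lit 3262917574) (nat_lit 1064) (nat_lit 2615396528) (nat_lit 1140) (nat_lit 1120186279) (nat_lit 542) (nat_lit 5) (nat_lit 556) (nat_lit 5) (nat_lit 557) (nat_lit 5) (nat_lit 408) (nat_lit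 382) (nat_lit 350))) (XT.nd (nat_lit 78) (nat_lit 0) (nat_lit 0) (XT.lf (nat_lit 0) (nat_lit 222790856) (nat_lit 1140) (nat_lit 984836141) (nat_lit 1216) (nat_lit 5830233237) (nat_lit 526) (nat_lit 5) (nat_lit 541) (nat_lit 5) (nat_lit 542) (nat_lit 5) (nat_lit 409) (nat_lit 382) (nat_lit 349)) (XT.lf (nat_lit 0) (nat_lit 3546311361) (nat_lit 1216) (nat_lit 2818776326) (nat_lit 76) (nat_lit 713230238) (nat_lit 526) (nat_lit 5) (nat_lit 542) (nat_lit 5) (nat_lit 527) (nat_lit 5) (nat_lit 410) (nat_lit 382) (nat_lit 348)))))) (XT.nd (nat_lit 546) (nat_lit 7296) (nat_lit 0) (XT.nd (nat_lit 234) (nat_lit 2888) (nat_lit 0) (XT.nd (nat_lit 78) (nat_lit 1368) (nat_lit 0) (XT.lf (nat_lit 0) (nat_lit 1227558844) (nat_lit 1216) (nat_lit 4669351956) (nat_lit 1292) (nat_lit 1223415271) (nat_lit 510) (nat_lit 5) (nat_lit 526) (nat_lit 5) (nat_lit 527) (nat_lit 5) (nat_lit 411) (nat_lit 382) (nat_lit 347)) (XT.nd (nat_lit 78)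 (nat_lit 1292) (nat_lit 0) (XT.lf (nat_lit 0) (nat_lit 1086548265) (nat_lit 1292) (nat_lit 1817132150) (nat_lit 76) (nat_lit 4259988707) (nat_lit 509) (nat_lit 5) (nat_lit 526) (nat_lit 5) (nat_lit 510) (nat_lit 5) (nat_lit 412) (nat_lit 382) (nat_lit 346)) (XT.lf (nat_lit 0) (nat_lit 2323270591) (nat_lit 1292) (nat_lit 1070116819) (nat_lit 1368) (nat_lit 3815030314) (nat_lit 492) (nat_lit 5) (nat_lit 509) (nat_lit 5) (nat_lit 510) (nat_lit 5) (nat_lit 413) (nat_lit 382) (nat_lit 345)))) (XT.nd (nat_lit 156) (nat_lit 1444) (nat_lit 0) (XT.nd (nat_lit 78) (nat_lit 1444) (nat_lit 0) (XT.lf (nat_lit 0) (nat_lit 5716536125) (nat_lit 1368) (nat_lit 727878689) (nat_lit 76) (nat_lit 810283798) (nat_lit 492) (nat_lit 5) (nat_lit 510) (nat_lit 5) (nat_lit 493) (nat_lit 5) (nat_lit 414) (nat_lit 382) (nat_lit 344)) (XT.lf (nat_lit 0) (nat_lit 757330931) (nat_lit 1444) (nat_lit 3794859480) (nat_lit 76) (nat_lit 2749984581)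 (nat_lit 473) (nat_lit 5) (nat_lit 492) (nat_lit 5) (nat_lit 474) (nat_lit 5) (nat_lit 415) (nat_lit 382) (nat_lit 343))) (XT.nd (nat_lit 78) (nat_lit 0) (nat_lit 0) (XT.lf (nat_lit 0) (nat_lit 442654124) (nat_lit 1444) (nat_lit 2597240263) (nat_lit 1520) (nat_lit 4311306461) (nat_lit 454) (nat_lit 5) (nat_lit 473) (nat_lit 5) (nat_lit 474) (nat_lit 5) (nat_lit 416) (nat_lit 382) (nat_lit 342)) (XT.lf (nat_lit 0) (nat_lit 4777108764) (nat_lit 1444) (nat_lit 571060146) (nat_lit 1520) (nat_lit 2053474779) (nat_lit 454) (nat_lit 5) (nat_lit 473) (nat_lit 5) (nat_lit 474) (nat_lit 5) (nat_lit 417) (nat_lit 382) (nat_lit 341))))) (XT.nd (nat_lit 312) (nat_lit 4104) (nat_lit 0) (XT.nd (nat_lit 156) (nat_lit 1596) (nat_lit 0) (XT.nd (nat_lit 78) (nat_lit 0) (nat_lit 0) (XT.lf (nat_lit 0) (nat_lit 222440731) (nat_lit 1596) (nat_lit 5736528918) (nat_lit 76) (nat_lit 1494605546) (nat_lit 433) (nat_lit 5) (nat_lit 454) (nat_lit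 5) (nat_lit 434) (nat_lit 5) (nat_lit 418) (nat_lit 382) (nat_lit 340)) (XT.lf (nat_lit 0) (nat_lit 2493729992) (nat_lit 1596) (nat_lit 1382464930) (nat_lit 76) (nat_lit 3630567403) (nat_lit 433) (nat_lit 5) (nat_lit 454) (nat_lit 5) (nat_lit 434) (nat_lit 5) (nat_lit 419) (nat_lit 382) (nat_lit 339))) (XT.nd (nat_lit 78) (nat_lit 0) (nat_lit 0) (XT.lf (nat_lit 0) (nat_lit 3059780951) (nat_lit 1596) (nat_lit 1727211844) (nat_lit 1672) (nat_lit 2774524242) (nat_lit 412) (nat_lit 5) (nat_lit 433) (nat_lit 5) (nat_lit 434) (nat_lit 5) (nat_lit 420) (nat_lit 382) (nat_lit 338)) (XT.lf (nat_lit 0) (nat_lit 7095781743) (nat_lit 1672) (nat_lit 50335144) (nat_lit 76) (nat_lit 471890853) (nat_lit 412) (nat_lit 5) (nat_lit 434) (nat_lit 5) (nat_lit 413) (nat_lit 5) (nat_lit 421) (nat_lit 382) (nat_lit 337)))) (XT.nd (nat_lit 156) (nat_lit 912) (nat_lit 0) (XT.nd (nat_lit 78) (nat_lit 1444) (nat_lit 0) (XT.lf (nat_lit 0)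 (nat_lit 1750585616) (nat_lit 1748) (nat_lit 3188453886) (nat_lit 76) (nat_lit 2736416069) (nat_lit 389) (nat_lit 5) (nat_lit 412) (nat_lit 5) (nat_lit 390) (nat_lit 5) (nat_lit 422) (nat_lit 382) (nat_lit 336)) (XT.lf (nat_lit 0) (nat_lit 1356819066) (nat_lit 1444) (nat_lit 2672603777) (nat_lit 1520) (nat_lit 3705241384) (nat_lit 370) (nat_lit 5) (nat_lit 389) (nat_lit 5) (nat_lit 390) (nat_lit 5) (nat_lit 423) (nat_lit 382) (nat_lit 335))) (XT.nd (nat_lit 78) (nat_lit 912) (nat_lit 0) (XT.lf (nat_lit 0) (nat_lit 5997238821) (nat_lit 1444) (nat_lit 336962755) (nat_lit 1520) (nat_lit 1461279701) (nat_lit 370) (nat_lit 5) (nat_lit 389) (nat_lit 5) (nat_lit 390) (nat_lit 5) (nat_lit 424) (nat_lit 382) (nat_lit 334)) (XT.lf (nat_lit 0) (nat_lit 808244466) (nat_lit 912) (nat_lit 5004937023) (nat_lit 76) (nat_lit 2044425271) (nat_lit 358) (nat_lit 5) (nat_lit 370) (nat_lit 5) (nat_lit 359) (nat_lit 5) (nat_lit 425)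 (nat_lit 382) (nat_lit 333))))))))
noncomputable def xc107 : XT := (XT.nd (nat_lit 2184) (nat_lit 6992) (nat_lit 0) (XT.nd (nat_lit 1092) (nat_lit 5700) (nat_lit 0) (XT.nd (nat_lit 546) (nat_lit 2964) (nat_lit 0) (XT.nd (nat_lit 234) (nat_lit 1748) (nat_lit 0) (XT.nd (nat_lit 78) (nat_lit 1748) (nat_lit 0) (XT.lf (nat_lit 0) (nat_lit 3078019536) (nat_lit 912) (nat_lit 351113466) (nat_lit 76) (nat_lit 4492189728) (nat_lit 358) (nat_lit 5) (nat_lit 370) (nat_lit 5) (nat_lit 359) (nat_lit 5) (nat_lit 426) (nat_lit 382) (nat_lit 332)) (XT.nd (nat_lit 78) (nat_lit 836) (nat_lit 0) (XT.lf (nat_lit 0) (nat_lit 4415096169) (nat_lit 912) (nat_lit 967573449) (nat_lit 988) (nat_lit 2603882927) (nat_lit 346) (nat_lit 5) (nat_lit 358) (nat_lit 5) (nat_lit 359) (nat_lit 5) (nat_lit 427) (nat_lit 382) (nat_lit 331)) (XT.lf (nat_lit 0) (nat_lit 1194839691) (nat_lit 836) (nat_lit 6520057366) (nat_lit 912) (nat_lit 338588757) (nat_lit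 335) (nat_lit 5) (nat_lit 346) (nat_lit 5) (nat_lit 347) (nat_lit 5) (nat_lit 428) (nat_lit 382) (nat_lit 330)))) (XT.nd (nat_lit 156) (nat_lit 836) (nat_lit 0) (XT.nd (nat_lit 78) (nat_lit 836) (nat_lit 0) (XT.lf (nat_lit 0) (nat_lit 1938241486) (nat_lit 912) (nat_lit 2075200795) (nat_lit 76) (nat_lit 4108244960) (nat_lit 334) (nat_lit 5) (nat_lit 346) (nat_lit 5) (nat_lit 335) (nat_lit 5) (nat_lit 429) (nat_lit 382) (nat_lit 329)) (XT.lf (nat_lit 0) (nat_lit 2799737254) (nat_lit 836) (nat_lit 1436833711) (nat_lit 912) (nat_lit 3955053943) (nat_lit 323) (nat_lit 5) (nat_lit 334) (nat_lit 5) (nat_lit 335) (nat_lit 5) (nat_lit 430) (nat_lit 382) (nat_lit 328))) (XT.nd (nat_lit 78) (nat_lit 836) (nat_lit 0) (XT.lf (nat_lit 0) (nat_lit 6565415864) (nat_lit 912) (nat_lit 509366957) (nat_lit 76) (nat_lit 1188513901) (nat_lit 323) (nat_lit 5) (nat_lit 335) (nat_lit 5) (nat_lit 324) (nat_lit 5) (nat_lit 431) (nat_lit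 382) (nat_lit 327)) (XT.lf (nat_lit 0) (nat_lit 598636157) (nat_lit 836) (nat_lit 3858650044) (nat_lit 76) (nat_lit 3879020075) (nat_lit 312) (nat_lit 5) (nat_lit 323) (nat_lit 5) (nat_lit 313) (nat_lit 5) (nat_lit 432) (nat_lit 382) (nat_lit 326))))) (XT.nd (nat_lit 234) (nat_lit 1520) (nat_lit 0) (XT.nd (nat_lit 78) (nat_lit 684) (nat_lit 0) (XT.lf (nat_lit 0) (nat_lit 1125463069) (nat_lit 760) (nat_lit 1767384809) (nat_lit 836) (nat_lit 5518238553) (nat_lit 302) (nat_lit 5) (nat_lit 312) (nat_lit 5) (nat_lit 313) (nat_lit 5) (nat_lit 433) (nat_lit 382) (nat_lit 325)) (XT.nd (nat_lit 78) (nat_lit 684) (nat_lit 0) (XT.lf (nat_lit 0) (nat_lit 5229522622) (nat_lit 836) (nat_lit 2270908237) (nat_lit 76) (nat_lit 987024117) (nat_lit 302) (nat_lit 5) (nat_lit 313) (nat_lit 5) (nat_lit 303) (nat_lit 5) (nat_lit 434) (nat_lit 382) (nat_lit 324)) (XT.lf (nat_lit 0) (nat_lit 2831178048) (nat_lit 684) (nat_lit 4776716539)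 (nat_lit 760) (nat_lit 957580915) (nat_lit 293) (nat_lit 5) (nat_lit 302) (nat_lit 5) (nat_lit 303) (nat_lit 5) (nat_lit 435) (nat_lit 382) (nat_lit 323)))) (XT.nd (nat_lit 156) (nat_lit 684) (nat_lit 0) (XT.nd (nat_lit 78) (nat_lit 760) (nat_lit 0) (XT.lf (nat_lit 0) (nat_lit 1350969239) (nat_lit 760) (nat_lit 626365554) (nat_lit 76) (nat_lit 6667956150) (nat_lit 292) (nat_lit 5) (nat_lit 302) (nat_lit 5) (nat_lit 293) (nat_lit 5) (nat_lit 436) (nat_lit 382) (nat_lit 322)) (XT.lf (nat_lit 0) (nat_lit 3694414020) (nat_lit 836) (nat_lit 4132720046) (nat_lit 76) (nat_lit 899433629) (nat_lit 282) (nat_lit 5) (nat_lit 293) (nat_lit 5) (nat_lit 283) (nat_lit 5) (nat_lit 437) (nat_lit 382) (nat_lit 321))) (XT.nd (nat_lit 78) (nat_lit 0) (nat_lit 0) (XT.lf (nat_lit 0) (nat_lit 1080362541) (nat_lit 684) (nat_lit 4994859587) (nat_lit 760) (nat_lit 2734460031) (nat_lit 273) (nat_lit 5) (nat_lit 282) (nat_lit 5) (nat_lit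 283) (nat_lit 5) (nat_lit 438) (nat_lit 382) (nat_lit 320)) (XT.lf (nat_lit 0) (nat_lit 6415724968) (nat_lit 684) (nat_lit 2082225062) (nat_lit 760) (nat_lit 396644444) (nat_lit 273) (nat_lit 5) (nat_lit 282) (nat_lit 5) (nat_lit 283) (nat_lit 5) (nat_lit 439) (nat_lit 382) (nat_lit 319)))))) (XT.nd (nat_lit 546) (nat_lit 2964) (nat_lit 0) (XT.nd (nat_lit 234) (nat_lit 1368) (nat_lit 0) (XT.nd (nat_lit 78) (nat_lit 608) (nat_lit 0) (XT.lf (nat_lit 0) (nat_lit 1953383552) (nat_lit 760) (nat_lit 6123681939) (nat_lit 76) (nat_lit 904071634) (nat_lit 263) (nat_lit 5) (nat_lit 273) (nat_lit 5) (nat_lit 264) (nat_lit 5) (nat_lit 440) (nat_lit 382) (nat_lit 318)) (XT.nd (nat_lit 78) (nat_lit 608) (nat_lit 0) (XT.lf (nat_lit 0) (nat_lit 4343001118) (nat_lit 760) (nat_lit 789605485) (nat_lit 76) (nat_lit 3936813976) (nat_lit 263) (nat_lit 5) (nat_lit 273) (nat_lit 5) (nat_lit 264) (nat_lit 5) (nat_lit 441) (nat_lit 382)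 (nat_lit 317)) (XT.lf (nat_lit 0) (nat_lit 4675105454) (nat_lit 608) (nat_lit 2103660310) (nat_lit 684) (nat_lit 2380756827) (nat_lit 255) (nat_lit 5) (nat_lit 263) (nat_lit 5) (nat_lit 264) (nat_lit 5) (nat_lit 442) (nat_lit 382) (nat_lit 316)))) (XT.nd (nat_lit 156) (nat_lit 608) (nat_lit 0) (XT.nd (nat_lit 78) (nat_lit 76) (nat_lit 0) (XT.lf (nat_lit 0) (nat_lit 977140436) (nat_lit 684) (nat_lit 8272535725) (nat_lit 760) (nat_lit 2041468) (nat_lit 246) (nat_lit 5) (nat_lit 255) (nat_lit 5) (nat_lit 256) (nat_lit 5) (nat_lit 443) (nat_lit 382) (nat_lit 315)) (XT.lf (nat_lit 0) (nat_lit 2405180060) (nat_lit 760) (nat_lit 2804230123) (nat_lit 76) (nat_lit 4135795895) (nat_lit 245) (nat_lit 5) (nat_lit 255) (nat_lit 5) (nat_lit 246) (nat_lit 5) (nat_lit 444) (nat_lit 382) (nat_lit 314))) (XT.nd (nat_lit 78) (nat_lit 0) (nat_lit 0) (XT.lf (nat_lit 0) (nat_lit 2774723540) (nat_lit 608) (nat_lit 2072930809) (nat_lit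 684) (nat_lit 4593185427) (nat_lit 237) (nat_lit 5) (nat_lit 245) (nat_lit 5) (nat_lit 246) (nat_lit 5) (nat_lit 445) (nat_lit 382) (nat_lit 313)) (XT.lf (nat_lit 0) (nat_lit 7334677457) (nat_lit 684) (nat_lit 1079698545) (nat_lit 76) (nat_lit 1124114261) (nat_lit 237) (nat_lit 5) (nat_lit 246) (nat_lit 5) (nat_lit 238) (nat_lit 5) (nat_lit 446) (nat_lit 382) (nat_lit 312))))) (XT.nd (nat_lit 234) (nat_lit 1748) (nat_lit 0) (XT.nd (nat_lit 78) (nat_lit 532) (nat_lit 0) (XT.lf (nat_lit 0) (nat_lit 244184568) (nat_lit 684) (nat_lit 5010800831) (nat_lit 76) (nat_lit 4382817504) (nat_lit 228) (nat_lit 5) (nat_lit 237) (nat_lit 5) (nat_lit 229) (nat_lit 5) (nat_lit 447) (nat_lit 382) (nat_lit 311)) (XT.nd (nat_lit 78) (nat_lit 0) (nat_lit 0) (XT.lf (nat_lit 0) (nat_lit 680846466) (nat_lit 532) (nat_lit 2012708115) (nat_lit 608) (nat_lit 7045634495) (nat_lit 221) (nat_lit 5) (nat_lit 228) (nat_lit 5) (nat_lit 229) (nat_lit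 5) (nat_lit 448) (nat_lit 382) (nat_lit 310)) (XT.lf (nat_lit 0) (nat_lit 5204643647) (nat_lit 608) (nat_lit 3333579576) (nat_lit 76) (nat_lit 1304141837) (nat_lit 221) (nat_lit 5) (nat_lit 229) (nat_lit 5) (nat_lit 222) (nat_lit 5) (nat_lit 449) (nat_lit 382) (nat_lit 309)))) (XT.nd (nat_lit 156) (nat_lit 1064) (nat_lit 0) (XT.nd (nat_lit 78) (nat_lit 76) (nat_lit 0) (XT.lf (nat_lit 0) (nat_lit 2488445086) (nat_lit 608) (nat_lit 5278053728) (nat_lit 684) (nat_lit 2181111261) (nat_lit 213) (nat_lit 5) (nat_lit 221) (nat_lit 5) (nat_lit 222) (nat_lit 5) (nat_lit 450) (nat_lit 382) (nat_lit 308)) (XT.lf (nat_lit 0) (nat_lit 314076672) (nat_lit 684) (nat_lit 1621369801) (nat_lit 76) (nat_lit 8119613057) (nat_lit 212) (nat_lit 5) (nat_lit 221) (nat_lit 5) (nat_lit 213) (nat_lit 5) (nat_lit 451) (nat_lit 382) (nat_lit 307))) (XT.nd (nat_lit 78) (nat_lit 532) (nat_lit 0) (XT.lf (nat_lit 0) (nat_lit 2839718915) (nat_lit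 608) (nat_lit 5834515466) (nat_lit 76) (nat_lit 1489955587) (nat_lit 205) (nat_lit 5) (nat_lit 213) (nat_lit 5) (nat_lit 206) (nat_lit 5) (nat_lit 452) (nat_lit 382) (nat_lit 306)) (XT.lf (nat_lit 0) (nat_lit 98569743) (nat_lit 532) (nat_lit 5313735137) (nat_lit 608) (nat_lit 4863284665) (nat_lit 198) (nat_lit 5) (nat_lit 205) (nat_lit 5) (nat_lit 206) (nat_lit 5) (nat_lit 453) (nat_lit 382) (nat_lit 305))))))) (XT.nd (nat_lit 1092) (nat_lit 3116) (nat_lit 0) (XT.nd (nat_lit 546) (nat_lit 1824) (nat_lit 0) (XT.nd (nat_lit 234) (nat_lit 1520) (nat_lit 0) (XT.nd (nat_lit 78) (nat_lit 532) (nat_lit 0) (XT.lf (nat_lit 0) (nat_lit 6193377829) (nat_lit 532) (nat_lit 1854453172) (nat_lit 608) (nat_lit 2341171192) (nat_lit 198) (nat_lit 5) (nat_lit 205) (nat_lit 5) (nat_lit 206) (nat_lit 5) (nat_lit 454) (nat_lit 382) (nat_lit 304)) (XT.nd (nat_lit 78) (nat_lit 0) (nat_lit 0) (XT.lf (nat_lit 0) (nat_lit 224230633) (nat_lit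 532) (nat_lit 8622847590) (nat_lit 76) (nat_lit 1657671484) (nat_lit 191) (nat_lit 5) (nat_lit 198) (nat_lit 5) (nat_lit 192) (nat_lit 5) (nat_lit 455) (nat_lit 382) (nat_lit 303)) (XT.lf (nat_lit 0) (nat_lit 2823178660) (nat_lit 532) (nat_lit 2548331754) (nat_lit 76) (nat_lit 5250734518) (nat_lit 191) (nat_lit 5) (nat_lit 198) (nat_lit 5) (nat_lit 192) (nat_lit 5) (nat_lit 456) (nat_lit 382) (nat_lit 302)))) (XT.nd (nat_lit 156) (nat_lit 988) (nat_lit 0) (XT.nd (nat_lit 78) (nat_lit 0) (nat_lit 0) (XT.lf (nat_lit 0) (nat_lit 3660424111) (nat_lit 532) (nat_lit 1810912821) (nat_lit 608) (nat_lit 5270822223) (nat_lit 184) (nat_lit 5) (nat_lit 191) (nat_lit 5) (nat_lit 192) (nat_lit 5) (nat_lit 457) (nat_lit 382) (nat_lit 301)) (XT.lf (nat_lit 0) (nat_lit 8175195970) (nat_lit 608) (nat_lit 883673671) (nat_lit 76) (nat_lit 1805560720) (nat_lit 184) (nat_lit 5) (nat_lit 192) (nat_lit 5) (nat_lit 185) (nat_lit 5) (nat_lit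 458) (nat_lit 382) (nat_lit 300))) (XT.nd (nat_lit 78) (nat_lit 532) (nat_lit 0) (XT.lf (nat_lit 0) (nat_lit 5463196438) (nat_lit 456) (nat_lit 5491616139) (nat_lit 532) (nat_lit 33913991) (nat_lit 178) (nat_lit 5) (nat_lit 184) (nat_lit 5) (nat_lit 185) (nat_lit 5) (nat_lit 459) (nat_lit 382) (nat_lit 299)) (XT.lf (nat_lit 0) (nat_lit 791635258) (nat_lit 456) (nat_lit 1833226123) (nat_lit 532) (nat_lit 8490604192) (nat_lit 171) (nat_lit 5) (nat_lit 177) (nat_lit 5) (nat_lit 178) (nat_lit 5) (nat_lit 460) (nat_lit 382) (nat_lit 298))))) (XT.nd (nat_lit 234) (nat_lit 1368) (nat_lit 0) (XT.nd (nat_lit 78) (nat_lit 456) (nat_lit 0) (XT.lf (nat_lit 0) (nat_lit 5360542742) (nat_lit 532) (nat_lit 3981914976) (nat_lit 76) (nat_lit 1901805892) (nat_lit 171) (nat_lit 5) (nat_lit 178) (nat_lit 5) (nat_lit 172) (nat_lit 5) (nat_lit 461) (nat_lit 382) (nat_lit 297)) (XT.nd (nat_lit 78) (nat_lit 0) (nat_lit 0) (XT.lf (nat_lit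 0) (nat_lit 2472651100) (nat_lit 456) (nat_lit 5681514782) (nat_lit 532) (nat_lit 3221419344) (nat_lit 165) (nat_lit 5) (nat_lit 171) (nat_lit 5) (nat_lit 172) (nat_lit 5) (nat_lit 462) (nat_lit 382) (nat_lit 296)) (XT.lf (nat_lit 0) (nat_lit 9076034958) (nat_lit 456) (nat_lit 1929647934) (nat_lit 532) (nat_lit 503821897) (nat_lit 165) (nat_lit 5) (nat_lit 171) (nat_lit 5) (nat_lit 172) (nat_lit 5) (nat_lit 463) (nat_lit 382) (nat_lit 295)))) (XT.nd (nat_lit 156) (nat_lit 836) (nat_lit 0) (XT.nd (nat_lit 78) (nat_lit 0) (nat_lit 0) (XT.lf (nat_lit 0) (nat_lit 2253610763) (nat_lit 532) (nat_lit 7486845577) (nat_lit 76) (nat_lit 1905058755) (nat_lit 158) (nat_lit 5) (nat_lit 165) (nat_lit 5) (nat_lit 159) (nat_lit 5) (nat_lit 464) (nat_lit 382) (nat_lit 294)) (XT.lf (nat_lit 0) (nat_lit 5064479732) (nat_lit 532) (nat_lit 918626928) (nat_lit 76) (nat_lit 5800982920) (nat_lit 158) (nat_lit 5) (nat_lit 165) (nat_lit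 5) (nat_lit 159) (nat_lit 5) (nat_lit 465) (nat_lit 382) (nat_lit 293))) (XT.nd (nat_lit 78) (nat_lit 456) (nat_lit 0) (XT.lf (nat_lit 0) (nat_lit 5823884386) (nat_lit 380) (nat_lit 2121778911) (nat_lit 456) (nat_lit 3979501348) (nat_lit 153) (nat_lit 5) (nat_lit 158) (nat_lit 5) (nat_lit 159) (nat_lit 5) (nat_lit 466) (nat_lit 382) (nat_lit 292)) (XT.lf (nat_lit 0) (nat_lit 607238098) (nat_lit 456) (nat_lit 10275646550) (nat_lit 532) (nat_lit 1186219096) (nat_lit 147) (nat_lit 5) (nat_lit 153) (nat_lit 5) (nat_lit 154) (nat_lit 5) (nat_lit 467) (nat_lit 382) (nat_lit 291)))))) (XT.nd (nat_lit 546) (nat_lit 1824) (nat_lit 0) (XT.nd (nat_lit 234) (nat_lit 836) (nat_lit 0) (XT.nd (nat_lit 78) (nat_lit 380) (nat_lit 0) (XT.lf (nat_lit 0) (nat_lit 1672934823) (nat_lit 532) (nat_lit 4741341278) (nat_lit 76) (nat_lit 5800803673) (nat_lit 146) (nat_lit 5) (nat_lit 153) (nat_lit 5) (nat_lit 147) (nat_lit 5) (nat_lit 468)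 (nat_lit 382) (nat_lit 290)) (XT.nd (nat_lit 78) (nat_lit 0) (nat_lit 0) (XT.lf (nat_lit 0) (nat_lit 2100193718) (nat_lit 380) (nat_lit 2463855297) (nat_lit 456) (nat_lit 7799966470) (nat_lit 141) (nat_lit 5) (nat_lit 146) (nat_lit 5) (nat_lit 147) (nat_lit 5) (nat_lit 469) (nat_lit 382) (nat_lit 289)) (XT.lf (nat_lit 0) (nat_lit 7532359483) (nat_lit 456) (nat_lit 3416109670) (nat_lit 76) (nat_lit 1567083272) (nat_lit 141) (nat_lit 5) (nat_lit 147) (nat_lit 5) (nat_lit 142) (nat_lit 5) (nat_lit 470) (nat_lit 382) (nat_lit 288)))) (XT.nd (nat_lit 156) (nat_lit 380) (nat_lit 0) (XT.nd (nat_lit 78) (nat_lit 76) (nat_lit 0) (XT.lf (nat_lit 0) (nat_lit 3566395838) (nat_lit 380) (nat_lit 7010741711) (nat_lit 456) (nat_lit 2092650323) (nat_lit 136) (nat_lit 5) (nat_lit 141) (nat_lit 5) (nat_lit 142) (nat_lit 5) (nat_lit 471) (nat_lit 382) (nat_lit 287)) (XT.lf (nat_lit 0) (nat_lit 845257359) (nat_lit 456) (nat_lit 2130208432)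 (nat_lit 76) (nat_lit 9851525002) (nat_lit 135) (nat_lit 5) (nat_lit 141) (nat_lit 5) (nat_lit 136) (nat_lit 5) (nat_lit 472) (nat_lit 382) (nat_lit 286))) (XT.nd (nat_lit 78) (nat_lit 0) (nat_lit 0) (XT.lf (nat_lit 0) (nat_lit 3832189871) (nat_lit 456) (nat_lit 7992386858) (nat_lit 76) (nat_lit 1162127881) (nat_lit 130) (nat_lit 5) (nat_lit 136) (nat_lit 5) (nat_lit 131) (nat_lit 5) (nat_lit 473) (nat_lit 382) (nat_lit 285)) (XT.lf (nat_lit 0) (nat_lit 6891249516) (nat_lit 456) (nat_lit 911148732) (nat_lit 76) (nat_lit 5346975737) (nat_lit 130) (nat_lit 5) (nat_lit 136) (nat_lit 5) (nat_lit 131) (nat_lit 5) (nat_lit 474) (nat_lit 382) (nat_lit 284))))) (XT.nd (nat_lit 312) (nat_lit 684) (nat_lit 0) (XT.nd (nat_lit 156) (nat_lit 456) (nat_lit 0) (XT.nd (nat_lit 78) (nat_lit 304) (nat_lit 0) (XT.lf (nat_lit 0) (nat_lit 6363573385) (nat_lit 380) (nat_lit 3667953041) (nat_lit 456) (nat_lit 3283378474) (nat_lit 125)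 (nat_lit 5) (nat_lit 130) (nat_lit 5) (nat_lit 131) (nat_lit 5) (nat_lit 475) (nat_lit 382) (nat_lit 283)) (XT.lf (nat_lit 0) (nat_lit 280838481) (nat_lit 304) (nat_lit 12944180151) (nat_lit 380) (nat_lit 258928307) (nat_lit 121) (nat_lit 5) (nat_lit 125) (nat_lit 5) (nat_lit 126) (nat_lit 5) (nat_lit 476) (nat_lit 382) (nat_lit 282))) (XT.nd (nat_lit 78) (nat_lit 380) (nat_lit 0) (XT.lf (nat_lit 0) (nat_lit 2839122839) (nat_lit 380) (nat_lit 5978340968) (nat_lit 76) (nat_lit 4837543893) (nat_lit 120) (nat_lit 5) (nat_lit 125) (nat_lit 5) (nat_lit 121) (nat_lit 5) (nat_lit 477) (nat_lit 382) (nat_lit 281)) (XT.lf (nat_lit 0) (nat_lit 1376043625) (nat_lit 380) (nat_lit 4607903450) (nat_lit 456) (nat_lit 7845750986) (nat_lit 115) (nat_lit 5) (nat_lit 120) (nat_lit 5) (nat_lit 121) (nat_lit 5) (nat_lit 478) (nat_lit 382) (nat_lit 280)))) (XT.nd (nat_lit 156) (nat_lit 380) (nat_lit 0) (XT.nd (nat_lit 78) (nat_lit 304)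 (nat_lit 0) (XT.lf (nat_lit 0) (nat_lit 8927548680) (nat_lit 380) (nat_lit 283782379) (nat_lit 456) (nat_lit 4796165944) (nat_lit 115) (nat_lit 5) (nat_lit 120) (nat_lit 5) (nat_lit 121) (nat_lit 5) (nat_lit 479) (nat_lit 382) (nat_lit 279)) (XT.lf (nat_lit 0) (nat_lit 2415376892) (nat_lit 304) (nat_lit 10110241478) (nat_lit 380) (nat_lit 1662794321) (nat_lit 111) (nat_lit 5) (nat_lit 115) (nat_lit 5) (nat_lit 116) (nat_lit 5) (nat_lit 480) (nat_lit 382) (nat_lit 278))) (XT.nd (nat_lit 78) (nat_lit 304) (nat_lit 0) (XT.lf (nat_lit 0) (nat_lit 1529266231) (nat_lit 380) (nat_lit 4285667255) (nat_lit 76) (nat_lit 8557499076) (nat_lit 110) (nat_lit 5) (nat_lit 115) (nat_lit 5) (nat_lit 111) (nat_lit 5) (nat_lit 481) (nat_lit 382) (nat_lit 277)) (XT.lf (nat_lit 0) (nat_lit 3354221083) (nat_lit 304) (nat_lit 1410810190) (nat_lit 380) (nat_lit 9794846602) (nat_lit 106) (nat_lit 5) (nat_lit 110) (nat_lit 5) (nat_lit 111)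 (nat_lit 5) (nat_lit 482) (nat_lit 382) (nat_lit 276))))))))
noncomputable def xc108 : XT := (XT.nd (nat_lit 2184) (nat_lit 1672) (nat_lit 0) (XT.nd (nat_lit 1092) (nat_lit 1520) (nat_lit 0) (XT.nd (nat_lit 546) (nat_lit 1216) (nat_lit 0) (XT.nd (nat_lit 234) (nat_lit 608) (nat_lit 0) (XT.nd (nat_lit 78) (nat_lit 304) (nat_lit 0) (XT.lf (nat_lit 0) (nat_lit 8094919579) (nat_lit 380) (nat_lit 3596029988) (nat_lit 76) (nat_lit 3059541645) (nat_lit 106) (nat_lit 5) (nat_lit 111) (nat_lit 5) (nat_lit 107) (nat_lit 5) (nat_lit 483) (nat_lit 382) (nat_lit 275)) (XT.nd (nat_lit 78) (nat_lit 0) (nat_lit 0) (XT.lf (nat_lit 0) (nat_lit 4181546112) (nat_lit 304) (nat_lit 7327187277) (nat_lit 380) (nat_lit 3435844011) (nat_lit 102) (nat_lit 5) (nat_lit 106) (nat_lit 5) (nat_lit 107) (nat_lit 5) (nat_lit 484) (nat_lit 382) (nat_lit 274)) (XT.lf (nat_lit 0) (nat_lit 12133872684) (nat_lit 304) (nat_lit 2862101246) (nat_lit 380)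 (nat_lit 146475369) (nat_lit 102) (nat_lit 5) (nat_lit 106) (nat_lit 5) (nat_lit 107) (nat_lit 5) (nat_lit 485) (nat_lit 382) (nat_lit 273)))) (XT.nd (nat_lit 156) (nat_lit 228) (nat_lit 0) (XT.nd (nat_lit 78) (nat_lit 0) (nat_lit 0) (XT.lf (nat_lit 0) (nat_lit 3191042174) (nat_lit 380) (nat_lit 10439496161) (nat_lit 76) (nat_lit 1712841489) (nat_lit 97) (nat_lit 5) (nat_lit 102) (nat_lit 5) (nat_lit 98) (nat_lit 5) (nat_lit 486) (nat_lit 382) (nat_lit 272)) (XT.lf (nat_lit 0) (nat_lit 6614000069) (nat_lit 380) (nat_lit 2581948182) (nat_lit 76) (nat_lit 6351954911) (nat_lit 97) (nat_lit 5) (nat_lit 102) (nat_lit 5) (nat_lit 98) (nat_lit 5) (nat_lit 487) (nat_lit 382) (nat_lit 271))) (XT.nd (nat_lit 78) (nat_lit 0) (nat_lit 0) (XT.lf (nat_lit 0) (nat_lit 5475802030) (nat_lit 228) (nat_lit 4646905203) (nat_lit 304) (nat_lit 5633470397) (nat_lit 94) (nat_lit 5) (nat_lit 97) (nat_lit 5) (nat_lit 98) (nat_lit 5) (nat_lit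 488) (nat_lit 382) (nat_lit 270)) (XT.lf (nat_lit 0) (nat_lit 13700826886) (nat_lit 304) (nat_lit 2267510559) (nat_lit 76) (nat_lit 301714) (nat_lit 94) (nat_lit 5) (nat_lit 98) (nat_lit 5) (nat_lit 95) (nat_lit 5) (nat_lit 489) (nat_lit 382) (nat_lit 269))))) (XT.nd (nat_lit 234) (nat_lit 608) (nat_lit 0) (XT.nd (nat_lit 78) (nat_lit 228) (nat_lit 0) (XT.lf (nat_lit 0) (nat_lit 1201648541) (nat_lit 380) (nat_lit 10268007604) (nat_lit 76) (nat_lit 4714513146) (nat_lit 89) (nat_lit 5) (nat_lit 94) (nat_lit 5) (nat_lit 90) (nat_lit 5) (nat_lit 490) (nat_lit 382) (nat_lit 268)) (XT.nd (nat_lit 78) (nat_lit 228) (nat_lit 0) (XT.lf (nat_lit 0) (nat_lit 4707719656) (nat_lit 380) (nat_lit 2152946214) (nat_lit 76) (nat_lit 9543098583) (nat_lit 89) (nat_lit 5) (nat_lit 94) (nat_lit 5) (nat_lit 90) (nat_lit 5) (nat_lit 491) (nat_lit 382) (nat_lit 267)) (XT.lf (nat_lit 0) (nat_lit 6177628089) (nat_lit 228) (nat_lit 2128983310)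 (nat_lit 304) (nat_lit 8320691990) (nat_lit 86) (nat_lit 5) (nat_lit 89) (nat_lit 5) (nat_lit 90) (nat_lit 5) (nat_lit 492) (nat_lit 382) (nat_lit 266)))) (XT.nd (nat_lit 156) (nat_lit 304) (nat_lit 0) (XT.nd (nat_lit 78) (nat_lit 304) (nat_lit 0) (XT.lf (nat_lit 0) (nat_lit 11992221504) (nat_lit 304) (nat_lit 2196544461) (nat_lit 76) (nat_lit 2666258067) (nat_lit 86) (nat_lit 5) (nat_lit 90) (nat_lit 5) (nat_lit 87) (nat_lit 5) (nat_lit 493) (nat_lit 382) (nat_lit 265)) (XT.lf (nat_lit 0) (nat_lit 6262319066) (nat_lit 304) (nat_lit 9527007192) (nat_lit 380) (nat_lit 1297222809) (nat_lit 82) (nat_lit 5) (nat_lit 86) (nat_lit 5) (nat_lit 87) (nat_lit 5) (nat_lit 494) (nat_lit 382) (nat_lit 264))) (XT.nd (nat_lit 78) (nat_lit 228) (nat_lit 0) (XT.lf (nat_lit 0) (nat_lit 2306884550) (nat_lit 380) (nat_lit 2444976107) (nat_lit 76) (nat_lit 12570587516) (nat_lit 81) (nat_lit 5) (nat_lit 86) (nat_lit 5) (nat_lit 82)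 (nat_lit 5) (nat_lit 495) (nat_lit 382) (nat_lit 263)) (XT.lf (nat_lit 0) (nat_lit 5990052479) (nat_lit 304) (nat_lit 11416442299) (nat_lit 76) (nat_lit 155917329) (nat_lit 78) (nat_lit 5) (nat_lit 82) (nat_lit 5) (nat_lit 79) (nat_lit 5) (nat_lit 496) (nat_lit 382) (nat_lit 262)))))) (XT.nd (nat_lit 546) (nat_lit 760) (nat_lit 0) (XT.nd (nat_lit 234) (nat_lit 532) (nat_lit 0) (XT.nd (nat_lit 78) (nat_lit 228) (nat_lit 0) (XT.lf (nat_lit 0) (nat_lit 9778350202) (nat_lit 304) (nat_lit 2923514185) (nat_lit 76) (nat_lit 5104686804) (nat_lit 78) (nat_lit 5) (nat_lit 82) (nat_lit 5) (nat_lit 79) (nat_lit 5) (nat_lit 497) (nat_lit 382) (nat_lit 261)) (XT.nd (nat_lit 78) (nat_lit 0) (nat_lit 0) (XT.lf (nat_lit 0) (nat_lit 5788755795) (nat_lit 228) (nat_lit 7875047845) (nat_lit 304) (nat_lit 4391346716) (nat_lit 75) (nat_lit 5) (nat_lit 78) (nat_lit 5) (nat_lit 79) (nat_lit 5) (nat_lit 498) (nat_lit 382) (nat_lit 260))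 (XT.lf (nat_lit 0) (nat_lit 14688636842) (nat_lit 228) (nat_lit 2941899969) (nat_lit 304) (nat_lit 678118279) (nat_lit 75) (nat_lit 5) (nat_lit 78) (nat_lit 5) (nat_lit 79) (nat_lit 5) (nat_lit 499) (nat_lit 382) (nat_lit 259)))) (XT.nd (nat_lit 156) (nat_lit 228) (nat_lit 0) (XT.nd (nat_lit 78) (nat_lit 0) (nat_lit 0) (XT.lf (nat_lit 0) (nat_lit 3100516474) (nat_lit 304) (nat_lit 13358715144) (nat_lit 76) (nat_lit 2106960905) (nat_lit 71) (nat_lit 5) (nat_lit 75) (nat_lit 5) (nat_lit 72) (nat_lit 5) (nat_lit 500) (nat_lit 382) (nat_lit 258)) (XT.lf (nat_lit 0) (nat_lit 6973823894) (nat_lit 304) (nat_lit 4617982188) (nat_lit 76) (nat_lit 7236426084) (nat_lit 71) (nat_lit 5) (nat_lit 75) (nat_lit 5) (nat_lit 72) (nat_lit 5) (nat_lit 501) (nat_lit 382) (nat_lit 257))) (XT.nd (nat_lit 78) (nat_lit 0) (nat_lit 0) (XT.lf (nat_lit 0) (nat_lit 4328803123) (nat_lit 228) (nat_lit 6608444509) (nat_lit 304) (nat_lit 8158016583)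 (nat_lit 68) (nat_lit 5) (nat_lit 71) (nat_lit 5) (nat_lit 72) (nat_lit 5) (nat_lit 502) (nat_lit 382) (nat_lit 256)) (XT.lf (nat_lit 0) (nat_lit 13491754766) (nat_lit 228) (nat_lit 1503857223) (nat_lit 304) (nat_lit 4371716000) (nat_lit 68) (nat_lit 5) (nat_lit 71) (nat_lit 5) (nat_lit 72) (nat_lit 5) (nat_lit 503) (nat_lit 382) (nat_lit 255))))) (XT.nd (nat_lit 234) (nat_lit 228) (nat_lit 0) (XT.nd (nat_lit 78) (nat_lit 304) (nat_lit 0) (XT.lf (nat_lit 0) (nat_lit 3185762338) (nat_lit 228) (nat_lit 15979025963) (nat_lit 304) (nat_lit 479456282) (nat_lit 65) (nat_lit 5) (nat_lit 68) (nat_lit 5) (nat_lit 69) (nat_lit 5) (nat_lit 504) (nat_lit 382) (nat_lit 254)) (XT.nd (nat_lit 78) (nat_lit 228) (nat_lit 0) (XT.lf (nat_lit 0) (nat_lit 3479466633) (nat_lit 304) (nat_lit 7475975238) (nat_lit 76) (nat_lit 8970116659) (nat_lit 64) (nat_lit 5) (nat_lit 68) (nat_lit 5) (nat_lit 65) (nat_lit 5) (nat_lit 505) (nat_lit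 382) (nat_lit 253)) (XT.lf (nat_lit 0) (nat_lit 1680388628) (nat_lit 228) (nat_lit 5826920624) (nat_lit 304) (nat_lit 12705207078) (nat_lit 61) (nat_lit 5) (nat_lit 64) (nat_lit 5) (nat_lit 65) (nat_lit 5) (nat_lit 506) (nat_lit 382) (nat_lit 252)))) (XT.nd (nat_lit 156) (nat_lit 228) (nat_lit 0) (XT.nd (nat_lit 78) (nat_lit 0) (nat_lit 0) (XT.lf (nat_lit 0) (nat_lit 11096724125) (nat_lit 228) (nat_lit 554527574) (nat_lit 304) (nat_lit 8853254827) (nat_lit 61) (nat_lit 5) (nat_lit 64) (nat_lit 5) (nat_lit 65) (nat_lit 5) (nat_lit 507) (nat_lit 382) (nat_lit 251)) (XT.lf (nat_lit 0) (nat_lit 15894988329) (nat_lit 304) (nat_lit 156508473) (nat_lit 76) (nat_lit 4750505437) (nat_lit 61) (nat_lit 5) (nat_lit 65) (nat_lit 5) (nat_lit 62) (nat_lit 5) (nat_lit 508) (nat_lit 382) (nat_lit 250))) (XT.nd (nat_lit 78) (nat_lit 76) (nat_lit 0) (XT.lf (nat_lit 0) (nat_lit 9375310657) (nat_lit 152) (nat_lit 10898713687) (nat_lit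 228) (nat_lit 830418969) (nat_lit 59) (nat_lit 5) (nat_lit 61) (nat_lit 5) (nat_lit 62) (nat_lit 5) (nat_lit 509) (nat_lit 382) (nat_lit 249)) (XT.lf (nat_lit 0) (nat_lit 3271030188) (nat_lit 228) (nat_lit 2358438648) (nat_lit 76) (nat_lit 15783296729) (nat_lit 58) (nat_lit 5) (nat_lit 61) (nat_lit 5) (nat_lit 59) (nat_lit 5) (nat_lit 510) (nat_lit 382) (nat_lit 248))))))) (XT.nd (nat_lit 1092) (nat_lit 380) (nat_lit 0) (XT.nd (nat_lit 546) (nat_lit 608) (nat_lit 0) (XT.nd (nat_lit 234) (nat_lit 304) (nat_lit 0) (XT.nd (nat_lit 78) (nat_lit 152) (nat_lit 0) (XT.lf (nat_lit 0) (nat_lit 7266131607) (nat_lit 228) (nat_lit 210629250) (nat_lit 304) (nat_lit 14249719900) (nat_lit 55) (nat_lit 5) (nat_lit 58) (nat_lit 5) (nat_lit 59) (nat_lit 5) (nat_lit 511) (nat_lit 382) (nat_lit 247)) (XT.nd (nat_lit 78) (nat_lit 152) (nat_lit 0) (XT.lf (nat_lit 0) (nat_lit 11803299806) (nat_lit 304) (nat_lit 4989012037) (nat_lit 76)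 (nat_lit 5253428178) (nat_lit 55) (nat_lit 5) (nat_lit 59) (nat_lit 5) (nat_lit 56) (nat_lit 5) (nat_lit 512) (nat_lit 382) (nat_lit 246)) (XT.lf (nat_lit 0) (nat_lit 4709180223) (nat_lit 152) (nat_lit 11525672739) (nat_lit 228) (nat_lit 6136165406) (nat_lit 53) (nat_lit 5) (nat_lit 55) (nat_lit 5) (nat_lit 56) (nat_lit 5) (nat_lit 513) (nat_lit 382) (nat_lit 245)))) (XT.nd (nat_lit 156) (nat_lit 0) (nat_lit 0) (XT.nd (nat_lit 78) (nat_lit 304) (nat_lit 0) (XT.lf (nat_lit 0) (nat_lit 14646176165) (nat_lit 152) (nat_lit 6128969818) (nat_lit 228) (nat_lit 1927257623) (nat_lit 53) (nat_lit 5) (nat_lit 55) (nat_lit 5) (nat_lit 56) (nat_lit 5) (nat_lit 514) (nat_lit 382) (nat_lit 244)) (XT.lf (nat_lit 0) (nat_lit 1726255623) (nat_lit 228) (nat_lit 606554293) (nat_lit 304) (nat_lit 20707342587) (nat_lit 49) (nat_lit 5) (nat_lit 52) (nat_lit 5) (nat_lit 53) (nat_lit 5) (nat_lit 515) (nat_lit 382) (nat_lit 243))) (XT.nd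 (nat_lit 78) (nat_lit 0) (nat_lit 0) (XT.lf (nat_lit 0) (nat_lit 6726205748) (nat_lit 304) (nat_lit 11638313988) (nat_lit 76) (nat_lit 5018406498) (nat_lit 49) (nat_lit 5) (nat_lit 53) (nat_lit 5) (nat_lit 50) (nat_lit 5) (nat_lit 516) (nat_lit 382) (nat_lit 242)) (XT.lf (nat_lit 0) (nat_lit 11198599266) (nat_lit 304) (nat_lit 1795369704) (nat_lit 76) (nat_lit 10738767105) (nat_lit 49) (nat_lit 5) (nat_lit 53) (nat_lit 5) (nat_lit 50) (nat_lit 5) (nat_lit 517) (nat_lit 382) (nat_lit 241))))) (XT.nd (nat_lit 234) (nat_lit 152) (nat_lit 0) (XT.nd (nat_lit 78) (nat_lit 304) (nat_lit 0) (XT.lf (nat_lit 0) (nat_lit 8332009909) (nat_lit 152) (nat_lit 7469893223) (nat_lit 228) (nat_lit 8286812901) (nat_lit 47) (nat_lit 5) (nat_lit 49) (nat_lit 5) (nat_lit 50) (nat_lit 5) (nat_lit 518) (nat_lit 382) (nat_lit 240)) (XT.nd (nat_lit 78) (nat_lit 304) (nat_lit 0) (XT.lf (nat_lit 0) (nat_lit 18664717219) (nat_lit 152) (nat_lit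 1832077051) (nat_lit 228) (nat_lit 3955034003) (nat_lit 47) (nat_lit 5) (nat_lit 49) (nat_lit 5) (nat_lit 50) (nat_lit 5) (nat_lit 519) (nat_lit 382) (nat_lit 239)) (XT.lf (nat_lit 0) (nat_lit 499199188) (nat_lit 304) (nat_lit 20431936890) (nat_lit 76) (nat_lit 3890171574) (nat_lit 43) (nat_lit 5) (nat_lit 47) (nat_lit 5) (nat_lit 44) (nat_lit 5) (nat_lit 520) (nat_lit 382) (nat_lit 238)))) (XT.nd (nat_lit 156) (nat_lit 152) (nat_lit 0) (XT.nd (nat_lit 78) (nat_lit 0) (nat_lit 0) (XT.lf (nat_lit 0) (nat_lit 5028515224) (nat_lit 304) (nat_lit 10409505766) (nat_lit 76) (nat_lit 9758856577) (nat_lit 43) (nat_lit 5) (nat_lit 47) (nat_lit 5) (nat_lit 44) (nat_lit 5) (nat_lit 521) (nat_lit 382) (nat_lit 237)) (XT.lf (nat_lit 0) (nat_lit 9636340993) (nat_lit 304) (nat_lit 207558810) (nat_lit 76) (nat_lit 15736303481) (nat_lit 43) (nat_lit 5) (nat_lit 47) (nat_lit 5) (nat_lit 44) (nat_lit 5) (nat_lit 522) (nat_lit 382)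 (nat_lit 236))) (XT.nd (nat_lit 78) (nat_lit 0) (nat_lit 0) (XT.lf (nat_lit 0) (nat_lit 10313163736) (nat_lit 152) (nat_lit 4078279646) (nat_lit 228) (nat_lit 11578652544) (nat_lit 41) (nat_lit 5) (nat_lit 43) (nat_lit 5) (nat_lit 44) (nat_lit 5) (nat_lit 523) (nat_lit 382) (nat_lit 235)) (XT.lf (nat_lit 0) (nat_lit 19242957740) (nat_lit 228) (nat_lit 5352926303) (nat_lit 76) (nat_lit 1771878940) (nat_lit 41) (nat_lit 5) (nat_lit 44) (nat_lit 5) (nat_lit 42) (nat_lit 5) (nat_lit 524) (nat_lit 382) (nat_lit 234)))))) (XT.nd (nat_lit 48516) (nat_lit 0) (nat_lit 45144) (XT.nd (nat_lit 234) (nat_lit 152) (nat_lit 0) (XT.nd (nat_lit 78) (nat_lit 76) (nat_lit 0) (XT.lf (nat_lit 0) (nat_lit 5177894815) (nat_lit 152) (nat_lit 19062669515) (nat_lit 228) (nat_lit 2531840515) (nat_lit 39) (nat_lit 5) (nat_lit 41) (nat_lit 5) (nat_lit 42) (nat_lit 5) (nat_lit 525) (nat_lit 382) (nat_lit 233)) (XT.nd (nat_lit 78) (nat_lit 0)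 (nat_lit 0) (XT.lf (nat_lit 0) (nat_lit 2149358856) (nat_lit 228) (nat_lit 11226933747) (nat_lit 76) (nat_lit 13808077728) (nat_lit 38) (nat_lit 5) (nat_lit 41) (nat_lit 5) (nat_lit 39) (nat_lit 5) (nat_lit 526) (nat_lit 382) (nat_lit 232)) (XT.lf (nat_lit 0) (nat_lit 6878992242) (nat_lit 228) (nat_lit 688566051) (nat_lit 76) (nat_lit 20036910444) (nat_lit 38) (nat_lit 5) (nat_lit 41) (nat_lit 5) (nat_lit 39) (nat_lit 5) (nat_lit 527) (nat_lit 382) (nat_lit 231)))) (XT.nd (nat_lit 48126) (nat_lit 0) (nat_lit 46436) (XT.nd (nat_lit 48048) (nat_lit 0) (nat_lit 46816) (XT.lf (nat_lit 0) (nat_lit 10174605924) (nat_lit 152) (nat_lit 1583574311) (nat_lit 228) (nat_lit 16273692137) (nat_lit 36) (nat_lit 5) (nat_lit 38) (nat_lit 5) (nat_lit 39) (nat_lit 5) (nat_lit 528) (nat_lit 382) (nat_lit 230)) (XT.lf (nat_lit 0) (nat_lit 1116007879) (nat_lit 0) (nat_lit 1116007879) (nat_lit 228) (nat_lit 997909030) (nat_lit 652) (nat_lit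 5) (nat_lit 652) (nat_lit 3) (nat_lit 655) (nat_lit 3) (nat_lit 383) (nat_lit 383) (nat_lit 374))) (XT.nd (nat_lit 78) (nat_lit 0) (nat_lit 0) (XT.lf (nat_lit 0) (nat_lit 757611190) (nat_lit 380) (nat_lit 1186435214) (nat_lit 380) (nat_lit 4522425841) (nat_lit 647) (nat_lit 3) (nat_lit 652) (nat_lit 3) (nat_lit 652) (nat_lit 5) (nat_lit 384) (nat_lit 383) (nat_lit 373)) (XT.lf (nat_lit 76) (nat_lit 1890578762) (nat_lit 0) (nat_lit 1589052640) (nat_lit 380) (nat_lit 2994613714) (nat_lit 648) (nat_lit 5) (nat_lit 647) (nat_lit 3) (nat_lit 652) (nat_lit 5) (nat_lit 385) (nat_lit 383) (nat_lit 372))))) (XT.nd (nat_lit 312) (nat_lit 532) (nat_lit 0) (XT.nd (nat_lit 156) (nat_lit 380) (nat_lit 0) (XT.nd (nat_lit 78) (nat_lit 380) (nat_lit 0) (XT.lf (nat_lit 76) (nat_lit 5008666961) (nat_lit 0) (nat_lit 1184508688) (nat_lit 380) (nat_lit 290340949) (nat_lit 648) (nat_lit 5) (nat_lit 647) (nat_lit 3) (nat_lit 652) (nat_lit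 5) (nat_lit 386) (nat_lit 383) (nat_lit 371)) (XT.lf (nat_lit 76) (nat_lit 1665113611) (nat_lit 0) (nat_lit 711315722) (nat_lit 456) (nat_lit 4117489618) (nat_lit 643) (nat_lit 5) (nat_lit 642) (nat_lit 5) (nat_lit 648) (nat_lit 5) (nat_lit 387) (nat_lit 383) (nat_lit 370))) (XT.nd (nat_lit 78) (nat_lit 380) (nat_lit 0) (XT.lf (nat_lit 76) (nat_lit 4849318092) (nat_lit 0) (nat_lit 184322300) (nat_lit 456) (nat_lit 1472110649) (nat_lit 643) (nat_lit 5) (nat_lit 642) (nat_lit 5) (nat_lit 648) (nat_lit 5) (nat_lit 388) (nat_lit 383) (nat_lit 369)) (XT.lf (nat_lit 0) (nat_lit 1154736894) (nat_lit 456) (nat_lit 4966558469) (nat_lit 532) (nat_lit 397549167) (nat_lit 637) (nat_lit 5) (nat_lit 643) (nat_lit 5) (nat_lit 644) (nat_lit 5) (nat_lit 389) (nat_lit 383) (nat_lit 368)))) (XT.nd (nat_lit 156) (nat_lit 532) (nat_lit 0) (XT.nd (nat_lit 78) (nat_lit 0) (nat_lit 0) (XT.lf (nat_lit 0) (nat_lit 3760063292) (nat_lit 456)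 (nat_lit 1733622792) (nat_lit 532) (nat_lit 1039481445) (nat_lit 637) (nat_lit 5) (nat_lit 643) (nat_lit 5) (nat_lit 644) (nat_lit 5) (nat_lit 390) (nat_lit 383) (nat_lit 367)) (XT.lf (nat_lit 76) (nat_lit 1546772816) (nat_lit 0) (nat_lit 4815300599) (nat_lit 532) (nat_lit 186885876) (nat_lit 638) (nat_lit 5) (nat_lit 637) (nat_lit 5) (nat_lit 644) (nat_lit 5) (nat_lit 391) (nat_lit 383) (nat_lit 366))) (XT.nd (nat_lit 78) (nat_lit 0) (nat_lit 0) (XT.lf (nat_lit 0) (nat_lit 2365699653) (nat_lit 532) (nat_lit 1702721225) (nat_lit 608) (nat_lit 2497462935) (nat_lit 630) (nat_lit 5) (nat_lit 637) (nat_lit 5) (nat_lit 638) (nat_lit 5) (nat_lit 392) (nat_lit 383) (nat_lit 365)) (XT.lf (nat_lit 76) (nat_lit 1645655083) (nat_lit 0) (nat_lit 3268217693) (nat_lit 608) (nat_lit 1670378163) (nat_lit 631) (nat_lit 5) (nat_lit 630) (nat_lit 5) (nat_lit 638) (nat_lit 5) (nat_lit 393) (nat_lit 383) (nat_lit 364))))))))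
noncomputable def xc109 : XT := (XT.nd (nat_lit 2184) (nat_lit 14440) (nat_lit 0) (XT.nd (nat_lit 1092) (nat_lit 11020) (nat_lit 0) (XT.nd (nat_lit 546) (nat_lit 3648) (nat_lit 0) (XT.nd (nat_lit 234) (nat_lit 1368) (nat_lit 0) (XT.nd (nat_lit 78) (nat_lit 0) (nat_lit 0) (XT.lf (nat_lit 0) (nat_lit 846466370) (nat_lit 608) (nat_lit 1562744503) (nat_lit 684) (nat_lit 4194755701) (nat_lit 622) (nat_lit 5) (nat_lit 630) (nat_lit 5) (nat_lit 631) (nat_lit 5) (nat_lit 394) (nat_lit 383) (nat_lit 363)) (XT.nd (nat_lit 78) (nat_lit 0) (nat_lit 0) (XT.lf (nat_lit 76) (nat_lit 1856574590) (nat_lit 0) (nat_lit 1484895311) (nat_lit 684) (nat_lit 3283447598) (nat_lit 623) (nat_lit 5) (nat_lit 622) (nat_lit 5) (nat_lit 631) (nat_lit 5) (nat_lit 395) (nat_lit 383) (nat_lit 362)) (XT.lf (nat_lit 76) (nat_lit 5328372624) (nat_lit 0) (nat_lit 507573813) (nat_lit 684) (nat_lit 811413837) (nat_lit 623) (nat_lit 5) (nat_lit 622) (nat_lit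 5) (nat_lit 631) (nat_lit 5) (nat_lit 396) (nat_lit 383) (nat_lit 361)))) (XT.nd (nat_lit 156) (nat_lit 760) (nat_lit 0) (XT.nd (nat_lit 78) (nat_lit 0) (nat_lit 0) (XT.lf (nat_lit 0) (nat_lit 1645100217) (nat_lit 684) (nat_lit 4494892462) (nat_lit 76) (nat_lit 530949612) (nat_lit 614) (nat_lit 5) (nat_lit 623) (nat_lit 5) (nat_lit 615) (nat_lit 5) (nat_lit 397) (nat_lit 383) (nat_lit 360)) (XT.lf (nat_lit 0) (nat_lit 4093068156) (nat_lit 684) (nat_lit 983115307) (nat_lit 76) (nat_lit 1619702028) (nat_lit 614) (nat_lit 5) (nat_lit 623) (nat_lit 5) (nat_lit 615) (nat_lit 5) (nat_lit 398) (nat_lit 383) (nat_lit 359))) (XT.nd (nat_lit 78) (nat_lit 76) (nat_lit 0) (XT.lf (nat_lit 0) (nat_lit 2595317771) (nat_lit 684) (nat_lit 3953594033) (nat_lit 760) (nat_lit 173296815) (nat_lit 605) (nat_lit 5) (nat_lit 614) (nat_lit 5) (nat_lit 615) (nat_lit 5) (nat_lit 399) (nat_lit 383) (nat_lit 358)) (XT.lf (nat_lit 0) (nat_lit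 2223750916) (nat_lit 760) (nat_lit 543479546) (nat_lit 76) (nat_lit 3982602248) (nat_lit 604) (nat_lit 5) (nat_lit 614) (nat_lit 5) (nat_lit 605) (nat_lit 5) (nat_lit 400) (nat_lit 383) (nat_lit 357))))) (XT.nd (nat_lit 234) (nat_lit 1976) (nat_lit 0) (XT.nd (nat_lit 78) (nat_lit 912) (nat_lit 0) (XT.lf (nat_lit 0) (nat_lit 3113848747) (nat_lit 760) (nat_lit 1516440675) (nat_lit 836) (nat_lit 2148475514) (nat_lit 594) (nat_lit 5) (nat_lit 604) (nat_lit 5) (nat_lit 605) (nat_lit 5) (nat_lit 401) (nat_lit 383) (nat_lit 356)) (XT.nd (nat_lit 78) (nat_lit 0) (nat_lit 0) (XT.lf (nat_lit 0) (nat_lit 3723317) (nat_lit 836) (nat_lit 217118891) (nat_lit 912) (nat_lit 6588495701) (nat_lit 582) (nat_lit 5) (nat_lit 593) (nat_lit 5) (nat_lit 594) (nat_lit 5) (nat_lit 402) (nat_lit 383) (nat_lit 355)) (XT.lf (nat_lit 0) (nat_lit 2585812861) (nat_lit 912) (nat_lit 3105211260) (nat_lit 76) (nat_lit 1149726238) (nat_lit 582) (nat_lit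 5) (nat_lit 594) (nat_lit 5) (nat_lit 583) (nat_lit 5) (nat_lit 403) (nat_lit 383) (nat_lit 354)))) (XT.nd (nat_lit 156) (nat_lit 988) (nat_lit 0) (XT.nd (nat_lit 78) (nat_lit 76) (nat_lit 0) (XT.lf (nat_lit 0) (nat_lit 637884093) (nat_lit 912) (nat_lit 4311911883) (nat_lit 988) (nat_lit 1924012524) (nat_lit 570) (nat_lit 5) (nat_lit 582) (nat_lit 5) (nat_lit 583) (nat_lit 5) (nat_lit 404) (nat_lit 383) (nat_lit 353)) (XT.lf (nat_lit 0) (nat_lit 415100153) (nat_lit 988) (nat_lit 2451013026) (nat_lit 76) (nat_lit 4042055083) (nat_lit 569) (nat_lit 5) (nat_lit 582) (nat_lit 5) (nat_lit 570) (nat_lit 5) (nat_lit 405) (nat_lit 383) (nat_lit 352))) (XT.nd (nat_lit 78) (nat_lit 0) (nat_lit 0) (XT.lf (nat_lit 0) (nat_lit 1376920535) (nat_lit 988) (nat_lit 1354865932) (nat_lit 1064) (nat_lit 4212092042) (nat_lit 556) (nat_lit 5) (nat_lit 569) (nat_lit 5) (nat_lit 570) (nat_lit 5) (nat_lit 406) (nat_lit 383) (nat_lit 351))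 (XT.lf (nat_lit 0) (nat_lit 5061037283) (nat_lit 1064) (nat_lit 1705570926) (nat_lit 76) (nat_lit 214417902) (nat_lit 556) (nat_lit 5) (nat_lit 570) (nat_lit 5) (nat_lit 557) (nat_lit 5) (nat_lit 407) (nat_lit 383) (nat_lit 350)))))) (XT.nd (nat_lit 546) (nat_lit 6156) (nat_lit 0) (XT.nd (nat_lit 234) (nat_lit 2584) (nat_lit 0) (XT.nd (nat_lit 78) (nat_lit 1140) (nat_lit 0) (XT.lf (nat_lit 0) (nat_lit 385075611) (nat_lit 1140) (nat_lit 4807069680) (nat_lit 76) (nat_lit 1827310999) (nat_lit 541) (nat_lit 5) (nat_lit 556) (nat_lit 5) (nat_lit 542) (nat_lit 5) (nat_lit 408) (nat_lit 383) (nat_lit 349)) (XT.nd (nat_lit 78) (nat_lit 1140) (nat_lit 0) (XT.lf (nat_lit 0) (nat_lit 2671920684) (nat_lit 1140) (nat_lit 878005254) (nat_lit 76) (nat_lit 3509292563) (nat_lit 541) (nat_lit 5) (nat_lit 556) (nat_lit 5) (nat_lit 542) (nat_lit 5) (nat_lit 409) (nat_lit 383) (nat_lit 348)) (XT.lf (nat_lit 0) (nat_lit 3132874859)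 (nat_lit 1140) (nat_lit 1842794862) (nat_lit 1216) (nat_lit 2124727025) (nat_lit 526) (nat_lit 5) (nat_lit 541) (nat_lit 5) (nat_lit 542) (nat_lit 5) (nat_lit 410) (nat_lit 383) (nat_lit 347)))) (XT.nd (nat_lit 156) (nat_lit 1292) (nat_lit 0) (XT.nd (nat_lit 78) (nat_lit 0) (nat_lit 0) (XT.lf (nat_lit 0) (nat_lit 54788264) (nat_lit 1216) (nat_lit 83375023) (nat_lit 1292) (nat_lit 7005104518) (nat_lit 509) (nat_lit 5) (nat_lit 525) (nat_lit 5) (nat_lit 526) (nat_lit 5) (nat_lit 411) (nat_lit 383) (nat_lit 346)) (XT.lf (nat_lit 0) (nat_lit 2407757189) (nat_lit 1292) (nat_lit 3039609263) (nat_lit 76) (nat_lit 1739592613) (nat_lit 509) (nat_lit 5) (nat_lit 526) (nat_lit 5) (nat_lit 510) (nat_lit 5) (nat_lit 412) (nat_lit 383) (nat_lit 345))) (XT.nd (nat_lit 78) (nat_lit 0) (nat_lit 0) (XT.lf (nat_lit 0) (nat_lit 1065311887) (nat_lit 1292) (nat_lit 3617800279) (nat_lit 1368) (nat_lit 2549245367) (nat_lit 492) (nat_lit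 5) (nat_lit 509) (nat_lit 5) (nat_lit 510) (nat_lit 5) (nat_lit 413) (nat_lit 383) (nat_lit 344)) (XT.lf (nat_lit 0) (nat_lit 5255440302) (nat_lit 1292) (nat_lit 1722507846) (nat_lit 1368) (nat_lit 301276314) (nat_lit 492) (nat_lit 5) (nat_lit 509) (nat_lit 5) (nat_lit 510) (nat_lit 5) (nat_lit 414) (nat_lit 383) (nat_lit 343))))) (XT.nd (nat_lit 234) (nat_lit 3268) (nat_lit 0) (XT.nd (nat_lit 78) (nat_lit 1444) (nat_lit 0) (XT.lf (nat_lit 0) (nat_lit 1935430347) (nat_lit 1444) (nat_lit 5149032927) (nat_lit 76) (nat_lit 242947268) (nat_lit 473) (nat_lit 5) (nat_lit 492) (nat_lit 5) (nat_lit 474) (nat_lit 5) (nat_lit 415) (nat_lit 383) (nat_lit 342)) (XT.nd (nat_lit 78) (nat_lit 1444) (nat_lit 0) (XT.lf (nat_lit 0) (nat_lit 4192767881) (nat_lit 1444) (nat_lit 936500450) (nat_lit 76) (nat_lit 2247691230) (nat_lit 473) (nat_lit 5) (nat_lit 492) (nat_lit 5) (nat_lit 474) (nat_lit 5) (nat_lit 416) (nat_lit 383) (nat_lit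 341)) (XT.lf (nat_lit 0) (nat_lit 3366459109) (nat_lit 1444) (nat_lit 3106384782) (nat_lit 1520) (nat_lit 955140761) (nat_lit 454) (nat_lit 5) (nat_lit 473) (nat_lit 5) (nat_lit 474) (nat_lit 5) (nat_lit 417) (nat_lit 383) (nat_lit 340)))) (XT.nd (nat_lit 156) (nat_lit 1672) (nat_lit 0) (XT.nd (nat_lit 78) (nat_lit 0) (nat_lit 0) (XT.lf (nat_lit 0) (nat_lit 244527454) (nat_lit 1520) (nat_lit 1020617838) (nat_lit 1596) (nat_lit 6215470306) (nat_lit 433) (nat_lit 5) (nat_lit 453) (nat_lit 5) (nat_lit 454) (nat_lit 5) (nat_lit 418) (nat_lit 383) (nat_lit 339)) (XT.lf (nat_lit 0) (nat_lit 3508363288) (nat_lit 1596) (nat_lit 2894718898) (nat_lit 76) (nat_lit 1131299193) (nat_lit 433) (nat_lit 5) (nat_lit 454) (nat_lit 5) (nat_lit 434) (nat_lit 5) (nat_lit 419) (nat_lit 383) (nat_lit 338))) (XT.nd (nat_lit 78) (nat_lit 76) (nat_lit 0) (XT.lf (nat_lit 0) (nat_lit 1508235768) (nat_lit 1596) (nat_lit 4262292410) (nat_lit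 1672) (nat_lit 1819246759) (nat_lit 412) (nat_lit 5) (nat_lit 433) (nat_lit 5) (nat_lit 434) (nat_lit 5) (nat_lit 420) (nat_lit 383) (nat_lit 337)) (XT.lf (nat_lit 0) (nat_lit 403358990) (nat_lit 1672) (nat_lit 1648936399) (nat_lit 76) (nat_lit 5594410508) (nat_lit 411) (nat_lit 5) (nat_lit 433) (nat_lit 5) (nat_lit 412) (nat_lit 5) (nat_lit 421) (nat_lit 383) (nat_lit 336))))))) (XT.nd (nat_lit 1092) (nat_lit 5472) (nat_lit 0) (XT.nd (nat_lit 546) (nat_lit 3952) (nat_lit 0) (XT.nd (nat_lit 234) (nat_lit 1900) (nat_lit 0) (XT.nd (nat_lit 78) (nat_lit 1444) (nat_lit 0) (XT.lf (nat_lit 0) (nat_lit 2624818835) (nat_lit 1748) (nat_lit 4846628655) (nat_lit 76) (nat_lit 233544393) (nat_lit 389) (nat_lit 5) (nat_lit 412) (nat_lit 5) (nat_lit 390) (nat_lit 5) (nat_lit 422) (nat_lit 383) (nat_lit 335)) (XT.nd (nat_lit 78) (nat_lit 1444) (nat_lit 0) (XT.lf (nat_lit 0) (nat_lit 4874659384) (nat_lit 1748) (nat_lit 338194080)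 (nat_lit 76) (nat_lit 2551942611) (nat_lit 389) (nat_lit 5) (nat_lit 412) (nat_lit 5) (nat_lit 390) (nat_lit 5) (nat_lit 423) (nat_lit 383) (nat_lit 334)) (XT.lf (nat_lit 0) (nat_lit 4278813088) (nat_lit 1444) (nat_lit 2878485759) (nat_lit 1520) (nat_lit 668772359) (nat_lit 370) (nat_lit 5) (nat_lit 389) (nat_lit 5) (nat_lit 390) (nat_lit 5) (nat_lit 424) (nat_lit 383) (nat_lit 333)))) (XT.nd (nat_lit 156) (nat_lit 988) (nat_lit 0) (XT.nd (nat_lit 78) (nat_lit 0) (nat_lit 0) (XT.lf (nat_lit 0) (nat_lit 1069842433) (nat_lit 836) (nat_lit 475733032) (nat_lit 912) (nat_lit 6343428665) (nat_lit 358) (nat_lit 5) (nat_lit 369) (nat_lit 5) (nat_lit 370) (nat_lit 5) (nat_lit 425) (nat_lit 383) (nat_lit 332)) (XT.lf (nat_lit 0) (nat_lit 3792862641) (nat_lit 912) (nat_lit 2181355888) (nat_lit 76) (nat_lit 1978965743) (nat_lit 358) (nat_lit 5) (nat_lit 370) (nat_lit 5) (nat_lit 359) (nat_lit 5) (nat_lit 426) (nat_lit 383)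 (nat_lit 331))) (XT.nd (nat_lit 78) (nat_lit 76) (nat_lit 0) (XT.lf (nat_lit 0) (nat_lit 2541549968) (nat_lit 912) (nat_lit 3524779706) (nat_lit 988) (nat_lit 1952722204) (nat_lit 346) (nat_lit 5) (nat_lit 358) (nat_lit 5) (nat_lit 359) (nat_lit 5) (nat_lit 427) (nat_lit 383) (nat_lit 330)) (XT.lf (nat_lit 0) (nat_lit 271655078) (nat_lit 988) (nat_lit 737624111) (nat_lit 76) (nat_lit 7077415300) (nat_lit 345) (nat_lit 5) (nat_lit 358) (nat_lit 5) (nat_lit 346) (nat_lit 5) (nat_lit 428) (nat_lit 383) (nat_lit 329))))) (XT.nd (nat_lit 234) (nat_lit 2280) (nat_lit 0) (XT.nd (nat_lit 78) (nat_lit 836) (nat_lit 0) (XT.lf (nat_lit 0) (nat_lit 2513950566) (nat_lit 912) (nat_lit 4065521377) (nat_lit 76) (nat_lit 1575995206) (nat_lit 334) (nat_lit 5) (nat_lit 346) (nat_lit 5) (nat_lit 335) (nat_lit 5) (nat_lit 429) (nat_lit 383) (nat_lit 328)) (XT.nd (nat_lit 78) (nat_lit 0) (nat_lit 0) (XT.lf (nat_lit 0) (nat_lit 763957132)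 (nat_lit 836) (nat_lit 4016814822) (nat_lit 912) (nat_lit 3445276077) (nat_lit 323) (nat_lit 5) (nat_lit 334) (nat_lit 5) (nat_lit 335) (nat_lit 5) (nat_lit 430) (nat_lit 383) (nat_lit 327)) (XT.lf (nat_lit 0) (nat_lit 5707488701) (nat_lit 836) (nat_lit 1376256162) (nat_lit 912) (nat_lit 1214505221) (nat_lit 323) (nat_lit 5) (nat_lit 334) (nat_lit 5) (nat_lit 335) (nat_lit 5) (nat_lit 431) (nat_lit 383) (nat_lit 326)))) (XT.nd (nat_lit 156) (nat_lit 1444) (nat_lit 0) (XT.nd (nat_lit 78) (nat_lit 0) (nat_lit 0) (XT.lf (nat_lit 0) (nat_lit 1034997019) (nat_lit 836) (nat_lit 6016176921) (nat_lit 76) (nat_lit 1320848737) (nat_lit 312) (nat_lit 5) (nat_lit 323) (nat_lit 5) (nat_lit 313) (nat_lit 5) (nat_lit 432) (nat_lit 383) (nat_lit 325)) (XT.lf (nat_lit 0) (nat_lit 3304297977) (nat_lit 836) (nat_lit 1065581753) (nat_lit 76) (nat_lit 4077433377) (nat_lit 312) (nat_lit 5) (nat_lit 323) (nat_lit 5) (nat_lit 313) (nat_lit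 5) (nat_lit 433) (nat_lit 383) (nat_lit 324))) (XT.nd (nat_lit 78) (nat_lit 684) (nat_lit 0) (XT.lf (nat_lit 0) (nat_lit 3999330456) (nat_lit 760) (nat_lit 1610758952) (nat_lit 836) (nat_lit 2914221735) (nat_lit 302) (nat_lit 5) (nat_lit 312) (nat_lit 5) (nat_lit 313) (nat_lit 5) (nat_lit 434) (nat_lit 383) (nat_lit 323)) (XT.lf (nat_lit 0) (nat_lit 538887004) (nat_lit 684) (nat_lit 7407186638) (nat_lit 760) (nat_lit 657117373) (nat_lit 293) (nat_lit 5) (nat_lit 302) (nat_lit 5) (nat_lit 303) (nat_lit 5) (nat_lit 435) (nat_lit 383) (nat_lit 322)))))) (XT.nd (nat_lit 546) (nat_lit 2584) (nat_lit 0) (XT.nd (nat_lit 234) (nat_lit 2052) (nat_lit 0) (XT.nd (nat_lit 78) (nat_lit 760) (nat_lit 0) (XT.lf (nat_lit 0) (nat_lit 1630537110) (nat_lit 760) (nat_lit 2977049832) (nat_lit 76) (nat_lit 4075730741) (nat_lit 292) (nat_lit 5) (nat_lit 302) (nat_lit 5) (nat_lit 293) (nat_lit 5) (nat_lit 436) (nat_lit 383) (nat_lit 321))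 (XT.nd (nat_lit 78) (nat_lit 0) (nat_lit 0) (XT.lf (nat_lit 0) (nat_lit 2199355981) (nat_lit 760) (nat_lit 1736500185) (nat_lit 836) (nat_lit 4829511708) (nat_lit 282) (nat_lit 5) (nat_lit 292) (nat_lit 5) (nat_lit 293) (nat_lit 5) (nat_lit 437) (nat_lit 383) (nat_lit 320)) (XT.lf (nat_lit 0) (nat_lit 6281948421) (nat_lit 836) (nat_lit 1374390042) (nat_lit 76) (nat_lit 1192848902) (nat_lit 282) (nat_lit 5) (nat_lit 293) (nat_lit 5) (nat_lit 283) (nat_lit 5) (nat_lit 438) (nat_lit 383) (nat_lit 319)))) (XT.nd (nat_lit 156) (nat_lit 608) (nat_lit 0) (XT.nd (nat_lit 78) (nat_lit 760) (nat_lit 0) (XT.lf (nat_lit 0) (nat_lit 3924263510) (nat_lit 684) (nat_lit 4755146206) (nat_lit 760) (nat_lit 255205795) (nat_lit 273) (nat_lit 5) (nat_lit 282) (nat_lit 5) (nat_lit 283) (nat_lit 5) (nat_lit 439) (nat_lit 383) (nat_lit 318)) (XT.lf (nat_lit 0) (nat_lit 278918311) (nat_lit 684) (nat_lit 1775298158) (nat_lit 760) (nat_lit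 6967708434) (nat_lit 263) (nat_lit 5) (nat_lit 272) (nat_lit 5) (nat_lit 273) (nat_lit 5) (nat_lit 440) (nat_lit 383) (nat_lit 317))) (XT.nd (nat_lit 78) (nat_lit 608) (nat_lit 0) (XT.lf (nat_lit 0) (nat_lit 4416466456) (nat_lit 760) (nat_lit 3415899711) (nat_lit 76) (nat_lit 1278399434) (nat_lit 263) (nat_lit 5) (nat_lit 273) (nat_lit 5) (nat_lit 264) (nat_lit 5) (nat_lit 441) (nat_lit 383) (nat_lit 316)) (XT.lf (nat_lit 0) (nat_lit 1995534857) (nat_lit 608) (nat_lit 4823768141) (nat_lit 684) (nat_lit 2382232878) (nat_lit 255) (nat_lit 5) (nat_lit 263) (nat_lit 5) (nat_lit 264) (nat_lit 5) (nat_lit 442) (nat_lit 383) (nat_lit 315))))) (XT.nd (nat_lit 312) (nat_lit 1216) (nat_lit 0) (XT.nd (nat_lit 156) (nat_lit 608) (nat_lit 0) (XT.nd (nat_lit 78) (nat_lit 760) (nat_lit 0) (XT.lf (nat_lit 0) (nat_lit 7525113213) (nat_lit 608) (nat_lit 1737012697) (nat_lit 684) (nat_lit 32176263) (nat_lit 255) (nat_lit 5) (nat_lit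 263) (nat_lit 5) (nat_lit 264) (nat_lit 5) (nat_lit 443) (nat_lit 383) (nat_lit 314)) (XT.lf (nat_lit 0) (nat_lit 2337159183) (nat_lit 760) (nat_lit 5623742732) (nat_lit 76) (nat_lit 1427667386) (nat_lit 245) (nat_lit 5) (nat_lit 255) (nat_lit 5) (nat_lit 246) (nat_lit 5) (nat_lit 444) (nat_lit 383) (nat_lit 313))) (XT.nd (nat_lit 78) (nat_lit 608) (nat_lit 0) (XT.lf (nat_lit 0) (nat_lit 4746630889) (nat_lit 760) (nat_lit 99224052) (nat_lit 76) (nat_lit 4639017071) (nat_lit 245) (nat_lit 5) (nat_lit 255) (nat_lit 5) (nat_lit 246) (nat_lit 5) (nat_lit 445) (nat_lit 383) (nat_lit 312)) (XT.lf (nat_lit 0) (nat_lit 5573143613) (nat_lit 608) (nat_lit 1637652350) (nat_lit 684) (nat_lit 2372192482) (nat_lit 237) (nat_lit 5) (nat_lit 245) (nat_lit 5) (nat_lit 246) (nat_lit 5) (nat_lit 446) (nat_lit 383) (nat_lit 311)))) (XT.nd (nat_lit 156) (nat_lit 532) (nat_lit 0) (XT.nd (nat_lit 78) (nat_lit 0) (nat_lit 0) (XT.lf (nat_lit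 0) (nat_lit 33213339) (nat_lit 684) (nat_lit 8031212178) (nat_lit 76) (nat_lit 1618801875) (nat_lit 228) (nat_lit 5) (nat_lit 237) (nat_lit 5) (nat_lit 229) (nat_lit 5) (nat_lit 447) (nat_lit 383) (nat_lit 310)) (XT.lf (nat_lit 0) (nat_lit 2463690084) (nat_lit 684) (nat_lit 2366430433) (nat_lit 76) (nat_lit 4954879192) (nat_lit 228) (nat_lit 5) (nat_lit 237) (nat_lit 5) (nat_lit 229) (nat_lit 5) (nat_lit 448) (nat_lit 383) (nat_lit 309))) (XT.nd (nat_lit 78) (nat_lit 0) (nat_lit 0) (XT.lf (nat_lit 0) (nat_lit 3420993320) (nat_lit 532) (nat_lit 1515332660) (nat_lit 608) (nat_lit 4952626894) (nat_lit 221) (nat_lit 5) (nat_lit 228) (nat_lit 5) (nat_lit 229) (nat_lit 5) (nat_lit 449) (nat_lit 383) (nat_lit 308)) (XT.lf (nat_lit 0) (nat_lit 7458139418) (nat_lit 608) (nat_lit 686467580) (nat_lit 76) (nat_lit 1850399682) (nat_lit 221) (nat_lit 5) (nat_lit 229) (nat_lit 5) (nat_lit 222) (nat_lit 5) (nat_lit 450) (nat_lit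 383) (nat_lit 307))))))))
noncomputable def xc110 : XT := (XT.nd (nat_lit 2184) (nat_lit 4484) (nat_lit 0) (XT.nd (nat_lit 1092) (nat_lit 2888) (nat_lit 0) (XT.nd (nat_lit 546) (nat_lit 1976) (nat_lit 0) (XT.nd (nat_lit 234) (nat_lit 1596) (nat_lit 0) (XT.nd (nat_lit 78) (nat_lit 608) (nat_lit 0) (XT.lf (nat_lit 0) (nat_lit 5234143736) (nat_lit 608) (nat_lit 4812446561) (nat_lit 684) (nat_lit 56283000) (nat_lit 213) (nat_lit 5) (nat_lit 221) (nat_lit 5) (nat_lit 222) (nat_lit 5) (nat_lit 451) (nat_lit 383) (nat_lit 306)) (XT.nd (nat_lit 78) (nat_lit 0) (nat_lit 0) (XT.lf (nat_lit 0) (nat_lit 1031833234) (nat_lit 532) (nat_lit 1393274188) (nat_lit 608) (nat_lit 7787810920) (nat_lit 205) (nat_lit 5) (nat_lit 212) (nat_lit 5) (nat_lit 213) (nat_lit 5) (nat_lit 452) (nat_lit 383) (nat_lit 305)) (XT.lf (nat_lit 0) (nat_lit 4974427981) (nat_lit 608) (nat_lit 3257847943) (nat_lit 76) (nat_lit 2092514653) (nat_lit 205)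 (nat_lit 5) (nat_lit 213) (nat_lit 5) (nat_lit 206) (nat_lit 5) (nat_lit 453) (nat_lit 383) (nat_lit 304)))) (XT.nd (nat_lit 156) (nat_lit 1064) (nat_lit 0) (XT.nd (nat_lit 78) (nat_lit 0) (nat_lit 0) (XT.lf (nat_lit 0) (nat_lit 2776179511) (nat_lit 532) (nat_lit 4798914748) (nat_lit 608) (nat_lit 2863813371) (nat_lit 198) (nat_lit 5) (nat_lit 205) (nat_lit 5) (nat_lit 206) (nat_lit 5) (nat_lit 454) (nat_lit 383) (nat_lit 303)) (XT.lf (nat_lit 0) (nat_lit 8940420262) (nat_lit 532) (nat_lit 1282625479) (nat_lit 608) (nat_lit 332370118) (nat_lit 198) (nat_lit 5) (nat_lit 205) (nat_lit 5) (nat_lit 206) (nat_lit 5) (nat_lit 455) (nat_lit 383) (nat_lit 302))) (XT.nd (nat_lit 78) (nat_lit 532) (nat_lit 0) (XT.lf (nat_lit 0) (nat_lit 2238778062) (nat_lit 532) (nat_lit 6124468739) (nat_lit 76) (nat_lit 2310357413) (nat_lit 191) (nat_lit 5) (nat_lit 198) (nat_lit 5) (nat_lit 192) (nat_lit 5) (nat_lit 456) (nat_lit 383)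 (nat_lit 301)) (XT.lf (nat_lit 0) (nat_lit 19422817) (nat_lit 532) (nat_lit 4830995342) (nat_lit 608) (nat_lit 5943837300) (nat_lit 184) (nat_lit 5) (nat_lit 191) (nat_lit 5) (nat_lit 192) (nat_lit 5) (nat_lit 457) (nat_lit 383) (nat_lit 300))))) (XT.nd (nat_lit 234) (nat_lit 1444) (nat_lit 0) (XT.nd (nat_lit 78) (nat_lit 532) (nat_lit 0) (XT.lf (nat_lit 0) (nat_lit 6334872314) (nat_lit 532) (nat_lit 1194789958) (nat_lit 608) (nat_lit 3387363218) (nat_lit 184) (nat_lit 5) (nat_lit 191) (nat_lit 5) (nat_lit 192) (nat_lit 5) (nat_lit 458) (nat_lit 383) (nat_lit 299)) (XT.nd (nat_lit 78) (nat_lit 76) (nat_lit 0) (XT.lf (nat_lit 0) (nat_lit 1706307003) (nat_lit 456) (nat_lit 8558308650) (nat_lit 532) (nat_lit 777605710) (nat_lit 178) (nat_lit 5) (nat_lit 184) (nat_lit 5) (nat_lit 185) (nat_lit 5) (nat_lit 459) (nat_lit 383) (nat_lit 298)) (XT.lf (nat_lit 0) (nat_lit 1873318084) (nat_lit 532) (nat_lit 3041258546) (nat_lit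 76) (nat_lit 6254838564) (nat_lit 177) (nat_lit 5) (nat_lit 184) (nat_lit 5) (nat_lit 178) (nat_lit 5) (nat_lit 460) (nat_lit 383) (nat_lit 297)))) (XT.nd (nat_lit 156) (nat_lit 988) (nat_lit 0) (XT.nd (nat_lit 78) (nat_lit 0) (nat_lit 0) (XT.lf (nat_lit 0) (nat_lit 3384956096) (nat_lit 456) (nat_lit 1179192836) (nat_lit 532) (nat_lit 6734967340) (nat_lit 171) (nat_lit 5) (nat_lit 177) (nat_lit 5) (nat_lit 178) (nat_lit 5) (nat_lit 461) (nat_lit 383) (nat_lit 296)) (XT.lf (nat_lit 0) (nat_lit 7321944569) (nat_lit 532) (nat_lit 1501100062) (nat_lit 76) (nat_lit 2608115719) (nat_lit 171) (nat_lit 5) (nat_lit 178) (nat_lit 5) (nat_lit 172) (nat_lit 5) (nat_lit 462) (nat_lit 383) (nat_lit 295))) (XT.nd (nat_lit 78) (nat_lit 532) (nat_lit 0) (XT.lf (nat_lit 0) (nat_lit 5065712248) (nat_lit 456) (nat_lit 5085886029) (nat_lit 532) (nat_lit 1413924698) (nat_lit 165) (nat_lit 5) (nat_lit 171) (nat_lit 5) (nat_lit 172) (nat_lit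 5) (nat_lit 463) (nat_lit 383) (nat_lit 294)) (XT.lf (nat_lit 0) (nat_lit 40382170) (nat_lit 456) (nat_lit 1263870986) (nat_lit 532) (nat_lit 10398427696) (nat_lit 158) (nat_lit 5) (nat_lit 164) (nat_lit 5) (nat_lit 165) (nat_lit 5) (nat_lit 464) (nat_lit 383) (nat_lit 293)))))) (XT.nd (nat_lit 546) (nat_lit 1596) (nat_lit 0) (XT.nd (nat_lit 234) (nat_lit 912) (nat_lit 0) (XT.nd (nat_lit 78) (nat_lit 380) (nat_lit 0) (XT.lf (nat_lit 0) (nat_lit 4095175988) (nat_lit 532) (nat_lit 5102435035) (nat_lit 76) (nat_lit 2644048699) (nat_lit 158) (nat_lit 5) (nat_lit 165) (nat_lit 5) (nat_lit 159) (nat_lit 5) (nat_lit 465) (nat_lit 383) (nat_lit 292)) (XT.nd (nat_lit 78) (nat_lit 0) (nat_lit 0) (XT.lf (nat_lit 0) (nat_lit 1568023733) (nat_lit 380) (nat_lit 5369193899) (nat_lit 456) (nat_lit 5046305347) (nat_lit 153) (nat_lit 5) (nat_lit 158) (nat_lit 5) (nat_lit 159) (nat_lit 5) (nat_lit 466) (nat_lit 383) (nat_lit 291))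 (XT.lf (nat_lit 0) (nat_lit 8408475241) (nat_lit 380) (nat_lit 1438858945) (nat_lit 456) (nat_lit 2280675240) (nat_lit 153) (nat_lit 5) (nat_lit 158) (nat_lit 5) (nat_lit 159) (nat_lit 5) (nat_lit 467) (nat_lit 383) (nat_lit 290)))) (XT.nd (nat_lit 156) (nat_lit 380) (nat_lit 0) (XT.nd (nat_lit 78) (nat_lit 0) (nat_lit 0) (XT.lf (nat_lit 0) (nat_lit 547476762) (nat_lit 532) (nat_lit 9176709745) (nat_lit 76) (nat_lit 2550853231) (nat_lit 146) (nat_lit 5) (nat_lit 153) (nat_lit 5) (nat_lit 147) (nat_lit 5) (nat_lit 468) (nat_lit 383) (nat_lit 289)) (XT.lf (nat_lit 0) (nat_lit 3413797062) (nat_lit 532) (nat_lit 2378778438) (nat_lit 76) (nat_lit 6631900775) (nat_lit 146) (nat_lit 5) (nat_lit 153) (nat_lit 5) (nat_lit 147) (nat_lit 5) (nat_lit 469) (nat_lit 383) (nat_lit 288))) (XT.nd (nat_lit 78) (nat_lit 0) (nat_lit 0) (XT.lf (nat_lit 0) (nat_lit 4583420221) (nat_lit 380) (nat_lit 1761684854) (nat_lit 456) (nat_lit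 6231653040) (nat_lit 141) (nat_lit 5) (nat_lit 146) (nat_lit 5) (nat_lit 147) (nat_lit 5) (nat_lit 470) (nat_lit 383) (nat_lit 287)) (XT.lf (nat_lit 0) (nat_lit 9344432138) (nat_lit 456) (nat_lit 1061999105) (nat_lit 76) (nat_lit 2325476094) (nat_lit 141) (nat_lit 5) (nat_lit 147) (nat_lit 5) (nat_lit 142) (nat_lit 5) (nat_lit 471) (nat_lit 383) (nat_lit 286))))) (XT.nd (nat_lit 234) (nat_lit 760) (nat_lit 0) (XT.nd (nat_lit 78) (nat_lit 456) (nat_lit 0) (XT.lf (nat_lit 0) (nat_lit 6044219455) (nat_lit 380) (nat_lit 6388933907) (nat_lit 456) (nat_lit 456427447) (nat_lit 136) (nat_lit 5) (nat_lit 141) (nat_lit 5) (nat_lit 142) (nat_lit 5) (nat_lit 472) (nat_lit 383) (nat_lit 285)) (XT.nd (nat_lit 78) (nat_lit 0) (nat_lit 0) (XT.lf (nat_lit 0) (nat_lit 211533601) (nat_lit 380) (nat_lit 2275598022) (nat_lit 456) (nat_lit 10563213944) (nat_lit 130) (nat_lit 5) (nat_lit 135) (nat_lit 5) (nat_lit 136) (nat_lit 5) (nat_lit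 473) (nat_lit 383) (nat_lit 284)) (XT.lf (nat_lit 0) (nat_lit 5520881693) (nat_lit 456) (nat_lit 5758442802) (nat_lit 76) (nat_lit 1934201032) (nat_lit 130) (nat_lit 5) (nat_lit 136) (nat_lit 5) (nat_lit 131) (nat_lit 5) (nat_lit 474) (nat_lit 383) (nat_lit 283)))) (XT.nd (nat_lit 156) (nat_lit 380) (nat_lit 0) (XT.nd (nat_lit 78) (nat_lit 0) (nat_lit 0) (XT.lf (nat_lit 0) (nat_lit 1436320595) (nat_lit 380) (nat_lit 7182518697) (nat_lit 456) (nat_lit 4761067843) (nat_lit 125) (nat_lit 5) (nat_lit 130) (nat_lit 5) (nat_lit 131) (nat_lit 5) (nat_lit 475) (nat_lit 383) (nat_lit 282)) (XT.lf (nat_lit 0) (nat_lit 8822259719) (nat_lit 380) (nat_lit 2974484562) (nat_lit 456) (nat_lit 1752520858) (nat_lit 125) (nat_lit 5) (nat_lit 130) (nat_lit 5) (nat_lit 131) (nat_lit 5) (nat_lit 476) (nat_lit 383) (nat_lit 281))) (XT.nd (nat_lit 78) (nat_lit 0) (nat_lit 0) (XT.lf (nat_lit 0) (nat_lit 1304275137) (nat_lit 380) (nat_lit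 11101179555) (nat_lit 76) (nat_lit 1316286093) (nat_lit 120) (nat_lit 5) (nat_lit 125) (nat_lit 5) (nat_lit 121) (nat_lit 5) (nat_lit 477) (nat_lit 383) (nat_lit 280)) (XT.lf (nat_lit 0) (nat_lit 4430138827) (nat_lit 380) (nat_lit 3779989831) (nat_lit 76) (nat_lit 5686685679) (nat_lit 120) (nat_lit 5) (nat_lit 125) (nat_lit 5) (nat_lit 121) (nat_lit 5) (nat_lit 478) (nat_lit 383) (nat_lit 279))))))) (XT.nd (nat_lit 1092) (nat_lit 2128) (nat_lit 0) (XT.nd (nat_lit 546) (nat_lit 988) (nat_lit 0) (XT.nd (nat_lit 234) (nat_lit 684) (nat_lit 0) (XT.nd (nat_lit 78) (nat_lit 304) (nat_lit 0) (XT.lf (nat_lit 0) (nat_lit 3706232994) (nat_lit 380) (nat_lit 3916493996) (nat_lit 456) (nat_lit 6452586107) (nat_lit 115) (nat_lit 5) (nat_lit 120) (nat_lit 5) (nat_lit 121) (nat_lit 5) (nat_lit 479) (nat_lit 383) (nat_lit 278)) (XT.nd (nat_lit 78) (nat_lit 304) (nat_lit 0) (XT.lf (nat_lit 0) (nat_lit 10887980693) (nat_lit 456)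 (nat_lit 2896765993) (nat_lit 76) (nat_lit 472466595) (nat_lit 115) (nat_lit 5) (nat_lit 121) (nat_lit 5) (nat_lit 116) (nat_lit 5) (nat_lit 480) (nat_lit 383) (nat_lit 277)) (XT.lf (nat_lit 0) (nat_lit 4731567282) (nat_lit 304) (nat_lit 9524290374) (nat_lit 380) (nat_lit 186155022) (nat_lit 111) (nat_lit 5) (nat_lit 115) (nat_lit 5) (nat_lit 116) (nat_lit 5) (nat_lit 481) (nat_lit 383) (nat_lit 276)))) (XT.nd (nat_lit 156) (nat_lit 304) (nat_lit 0) (XT.nd (nat_lit 78) (nat_lit 304) (nat_lit 0) (XT.lf (nat_lit 0) (nat_lit 3020726692) (nat_lit 380) (nat_lit 2128000328) (nat_lit 76) (nat_lit 9481385242) (nat_lit 110) (nat_lit 5) (nat_lit 115) (nat_lit 5) (nat_lit 111) (nat_lit 5) (nat_lit 482) (nat_lit 383) (nat_lit 275)) (XT.lf (nat_lit 0) (nat_lit 5649926697) (nat_lit 304) (nat_lit 657105414) (nat_lit 380) (nat_lit 8514568679) (nat_lit 106) (nat_lit 5) (nat_lit 110) (nat_lit 5) (nat_lit 111) (nat_lit 5) (nat_lit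 483) (nat_lit 383) (nat_lit 274))) (XT.nd (nat_lit 78) (nat_lit 304) (nat_lit 0) (XT.lf (nat_lit 0) (nat_lit 9680128718) (nat_lit 380) (nat_lit 1459108348) (nat_lit 76) (nat_lit 3877267719) (nat_lit 106) (nat_lit 5) (nat_lit 111) (nat_lit 5) (nat_lit 107) (nat_lit 5) (nat_lit 484) (nat_lit 383) (nat_lit 273)) (XT.lf (nat_lit 0) (nat_lit 6459487417) (nat_lit 304) (nat_lit 6689070252) (nat_lit 380) (nat_lit 2066198643) (nat_lit 102) (nat_lit 5) (nat_lit 106) (nat_lit 5) (nat_lit 107) (nat_lit 5) (nat_lit 485) (nat_lit 383) (nat_lit 272))))) (XT.nd (nat_lit 234) (nat_lit 608) (nat_lit 0) (XT.nd (nat_lit 78) (nat_lit 304) (nat_lit 0) (XT.lf (nat_lit 0) (nat_lit 1244219171) (nat_lit 380) (nat_lit 897499468) (nat_lit 76) (nat_lit 13275266289) (nat_lit 101) (nat_lit 5) (nat_lit 106) (nat_lit 5) (nat_lit 102) (nat_lit 5) (nat_lit 486) (nat_lit 383) (nat_lit 271)) (XT.nd (nat_lit 78) (nat_lit 0) (nat_lit 0) (XT.lf (nat_lit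 0) (nat_lit 4638287098) (nat_lit 380) (nat_lit 8469277272) (nat_lit 76) (nat_lit 2514524897) (nat_lit 97) (nat_lit 5) (nat_lit 102) (nat_lit 5) (nat_lit 98) (nat_lit 5) (nat_lit 487) (nat_lit 383) (nat_lit 270)) (XT.lf (nat_lit 0) (nat_lit 8102578189) (nat_lit 380) (nat_lit 497303997) (nat_lit 76) (nat_lit 7231373008) (nat_lit 97) (nat_lit 5) (nat_lit 102) (nat_lit 5) (nat_lit 98) (nat_lit 5) (nat_lit 488) (nat_lit 383) (nat_lit 269)))) (XT.nd (nat_lit 156) (nat_lit 380) (nat_lit 0) (XT.nd (nat_lit 78) (nat_lit 0) (nat_lit 0) (XT.lf (nat_lit 0) (nat_lit 7707546726) (nat_lit 228) (nat_lit 3961097606) (nat_lit 304) (nat_lit 4375316535) (nat_lit 94) (nat_lit 5) (nat_lit 97) (nat_lit 5) (nat_lit 98) (nat_lit 5) (nat_lit 489) (nat_lit 383) (nat_lit 268)) (XT.lf (nat_lit 0) (nat_lit 15296940568) (nat_lit 304) (nat_lit 210397203) (nat_lit 76) (nat_lit 753770799) (nat_lit 94) (nat_lit 5) (nat_lit 98) (nat_lit 5) (nat_lit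 95) (nat_lit 5) (nat_lit 490) (nat_lit 383) (nat_lit 267))) (XT.nd (nat_lit 78) (nat_lit 0) (nat_lit 0) (XT.lf (nat_lit 0) (nat_lit 2544536151) (nat_lit 380) (nat_lit 8366765792) (nat_lit 76) (nat_lit 5569730131) (nat_lit 89) (nat_lit 5) (nat_lit 94) (nat_lit 5) (nat_lit 90) (nat_lit 5) (nat_lit 491) (nat_lit 383) (nat_lit 266)) (XT.lf (nat_lit 0) (nat_lit 6094868793) (nat_lit 380) (nat_lit 130709094) (nat_lit 76) (nat_lit 10479967146) (nat_lit 89) (nat_lit 5) (nat_lit 94) (nat_lit 5) (nat_lit 90) (nat_lit 5) (nat_lit 492) (nat_lit 383) (nat_lit 265)))))) (XT.nd (nat_lit 546) (nat_lit 1064) (nat_lit 0) (XT.nd (nat_lit 234) (nat_lit 532) (nat_lit 0) (XT.nd (nat_lit 78) (nat_lit 304) (nat_lit 0) (XT.lf (nat_lit 0) (nat_lit 8352889220) (nat_lit 228) (nat_lit 1400817365) (nat_lit 304) (nat_lit 7180097323) (nat_lit 86) (nat_lit 5) (nat_lit 89) (nat_lit 5) (nat_lit 90) (nat_lit 5) (nat_lit 493) (nat_lit 383) (nat_lit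 264)) (XT.nd (nat_lit 78) (nat_lit 304) (nat_lit 0) (XT.lf (nat_lit 0) (nat_lit 13492818043) (nat_lit 304) (nat_lit 208367580) (nat_lit 76) (nat_lit 3465305918) (nat_lit 86) (nat_lit 5) (nat_lit 90) (nat_lit 5) (nat_lit 87) (nat_lit 5) (nat_lit 494) (nat_lit 383) (nat_lit 263)) (XT.lf (nat_lit 0) (nat_lit 8406304088) (nat_lit 304) (nat_lit 8947947164) (nat_lit 380) (nat_lit 48636292) (nat_lit 82) (nat_lit 5) (nat_lit 86) (nat_lit 5) (nat_lit 87) (nat_lit 5) (nat_lit 495) (nat_lit 383) (nat_lit 262)))) (XT.nd (nat_lit 156) (nat_lit 228) (nat_lit 0) (XT.nd (nat_lit 78) (nat_lit 228) (nat_lit 0) (XT.lf (nat_lit 0) (nat_lit 3586174468) (nat_lit 380) (nat_lit 497938330) (nat_lit 76) (nat_lit 13559727470) (nat_lit 81) (nat_lit 5) (nat_lit 86) (nat_lit 5) (nat_lit 82) (nat_lit 5) (nat_lit 496) (nat_lit 383) (nat_lit 261)) (XT.lf (nat_lit 0) (nat_lit 7336640647) (nat_lit 304) (nat_lit 9642082634) (nat_lit 76) (nat_lit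 910015223) (nat_lit 78) (nat_lit 5) (nat_lit 82) (nat_lit 5) (nat_lit 79) (nat_lit 5) (nat_lit 497) (nat_lit 383) (nat_lit 260))) (XT.nd (nat_lit 78) (nat_lit 228) (nat_lit 0) (XT.lf (nat_lit 0) (nat_lit 11176649675) (nat_lit 304) (nat_lit 1018564360) (nat_lit 76) (nat_lit 5943034997) (nat_lit 78) (nat_lit 5) (nat_lit 82) (nat_lit 5) (nat_lit 79) (nat_lit 5) (nat_lit 498) (nat_lit 383) (nat_lit 259)) (XT.lf (nat_lit 0) (nat_lit 7855033782) (nat_lit 228) (nat_lit 7273859369) (nat_lit 304) (nat_lit 3263152834) (nat_lit 75) (nat_lit 5) (nat_lit 78) (nat_lit 5) (nat_lit 79) (nat_lit 5) (nat_lit 499) (nat_lit 383) (nat_lit 258))))) (XT.nd (nat_lit 312) (nat_lit 532) (nat_lit 0) (XT.nd (nat_lit 156) (nat_lit 228) (nat_lit 0) (XT.nd (nat_lit 78) (nat_lit 228) (nat_lit 0) (XT.lf (nat_lit 0) (nat_lit 493932522) (nat_lit 304) (nat_lit 1759677728) (nat_lit 76) (nat_lit 16397420225) (nat_lit 74) (nat_lit 5) (nat_lit 78) (nat_lit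 5) (nat_lit 75) (nat_lit 5) (nat_lit 500) (nat_lit 383) (nat_lit 257)) (XT.lf (nat_lit 0) (nat_lit 4333303381) (nat_lit 304) (nat_lit 11691524631) (nat_lit 76) (nat_lit 2888923123) (nat_lit 71) (nat_lit 5) (nat_lit 75) (nat_lit 5) (nat_lit 72) (nat_lit 5) (nat_lit 501) (nat_lit 383) (nat_lit 256))) (XT.nd (nat_lit 78) (nat_lit 228) (nat_lit 0) (XT.lf (nat_lit 0) (nat_lit 8261120547) (nat_lit 304) (nat_lit 2813905738) (nat_lit 76) (nat_lit 8106471273) (nat_lit 71) (nat_lit 5) (nat_lit 75) (nat_lit 5) (nat_lit 72) (nat_lit 5) (nat_lit 502) (nat_lit 383) (nat_lit 255)) (XT.lf (nat_lit 0) (nat_lit 6299338726) (nat_lit 228) (nat_lit 5994199671) (nat_lit 304) (nat_lit 7160544061) (nat_lit 68) (nat_lit 5) (nat_lit 71) (nat_lit 5) (nat_lit 72) (nat_lit 5) (nat_lit 503) (nat_lit 383) (nat_lit 254)))) (XT.nd (nat_lit 156) (nat_lit 228) (nat_lit 0) (XT.nd (nat_lit 78) (nat_lit 304) (nat_lit 0) (XT.lf (nat_lit 0) (nat_lit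 15608609019) (nat_lit 228) (nat_lit 802156202) (nat_lit 304) (nat_lit 3321274973) (nat_lit 68) (nat_lit 5) (nat_lit 71) (nat_lit 5) (nat_lit 72) (nat_lit 5) (nat_lit 504) (nat_lit 383) (nat_lit 253)) (XT.lf (nat_lit 0) (nat_lit 635098811) (nat_lit 304) (nat_lit 14916672668) (nat_lit 76) (nat_lit 4462750154) (nat_lit 64) (nat_lit 5) (nat_lit 68) (nat_lit 5) (nat_lit 65) (nat_lit 5) (nat_lit 505) (nat_lit 383) (nat_lit 252))) (XT.nd (nat_lit 78) (nat_lit 228) (nat_lit 0) (XT.lf (nat_lit 0) (nat_lit 4644869987) (nat_lit 304) (nat_lit 5794314336) (nat_lit 76) (nat_lit 9862658570) (nat_lit 64) (nat_lit 5) (nat_lit 68) (nat_lit 5) (nat_lit 65) (nat_lit 5) (nat_lit 506) (nat_lit 383) (nat_lit 251)) (XT.lf (nat_lit 0) (nat_lit 3533129568) (nat_lit 228) (nat_lit 5210464360) (nat_lit 304) (nat_lit 11851145520) (nat_lit 61) (nat_lit 5) (nat_lit 64) (nat_lit 5) (nat_lit 65) (nat_lit 5) (nat_lit 507) (nat_lit 383) (nat_lit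 250))))))))
noncomputable def xc111 : XT := (XT.nd (nat_lit 50232) (nat_lit 0) (nat_lit 30172) (XT.nd (nat_lit 1092) (nat_lit 532) (nat_lit 0) (XT.nd (nat_lit 546) (nat_lit 760) (nat_lit 0) (XT.nd (nat_lit 234) (nat_lit 380) (nat_lit 0) (XT.nd (nat_lit 78) (nat_lit 228) (nat_lit 0) (XT.lf (nat_lit 0) (nat_lit 12950111796) (nat_lit 304) (nat_lit 7791872261) (nat_lit 76) (nat_lit 150997429) (nat_lit 61) (nat_lit 5) (nat_lit 65) (nat_lit 5) (nat_lit 62) (nat_lit 5) (nat_lit 508) (nat_lit 383) (nat_lit 249)) (XT.nd (nat_lit 78) (nat_lit 76) (nat_lit 0) (XT.lf (nat_lit 0) (nat_lit 1626788570) (nat_lit 152) (nat_lit 15645198411) (nat_lit 228) (nat_lit 3924580708) (nat_lit 59) (nat_lit 5) (nat_lit 61) (nat_lit 5) (nat_lit 62) (nat_lit 5) (nat_lit 509) (nat_lit 383) (nat_lit 248)) (XT.lf (nat_lit 0) (nat_lit 210609778) (nat_lit 228) (nat_lit 10190547637) (nat_lit 76) (nat_lit 11104272934) (nat_lit 58) (nat_lit 5) (nat_lit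 61) (nat_lit 5) (nat_lit 59) (nat_lit 5) (nat_lit 510) (nat_lit 383) (nat_lit 247)))) (XT.nd (nat_lit 156) (nat_lit 152) (nat_lit 0) (XT.nd (nat_lit 78) (nat_lit 228) (nat_lit 0) (XT.lf (nat_lit 0) (nat_lit 4362458843) (nat_lit 228) (nat_lit 672599373) (nat_lit 76) (nat_lit 16785166759) (nat_lit 58) (nat_lit 5) (nat_lit 61) (nat_lit 5) (nat_lit 59) (nat_lit 5) (nat_lit 511) (nat_lit 383) (nat_lit 246)) (XT.lf (nat_lit 0) (nat_lit 8646543569) (nat_lit 304) (nat_lit 13010517196) (nat_lit 76) (nat_lit 483274323) (nat_lit 55) (nat_lit 5) (nat_lit 59) (nat_lit 5) (nat_lit 56) (nat_lit 5) (nat_lit 512) (nat_lit 383) (nat_lit 245))) (XT.nd (nat_lit 78) (nat_lit 152) (nat_lit 0) (XT.lf (nat_lit 0) (nat_lit 13040975989) (nat_lit 304) (nat_lit 3385219687) (nat_lit 76) (nat_lit 6040161908) (nat_lit 55) (nat_lit 5) (nat_lit 59) (nat_lit 5) (nat_lit 56) (nat_lit 5) (nat_lit 513) (nat_lit 383) (nat_lit 244)) (XT.lf (nat_lit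 0) (nat_lit 6495728703) (nat_lit 152) (nat_lit 11056780045) (nat_lit 228) (nat_lit 5245810976) (nat_lit 53) (nat_lit 5) (nat_lit 55) (nat_lit 5) (nat_lit 56) (nat_lit 5) (nat_lit 514) (nat_lit 383) (nat_lit 243))))) (XT.nd (nat_lit 234) (nat_lit 456) (nat_lit 0) (XT.nd (nat_lit 78) (nat_lit 304) (nat_lit 0) (XT.lf (nat_lit 0) (nat_lit 16598280939) (nat_lit 152) (nat_lit 5565856911) (nat_lit 228) (nat_lit 972589307) (nat_lit 53) (nat_lit 5) (nat_lit 55) (nat_lit 5) (nat_lit 56) (nat_lit 5) (nat_lit 515) (nat_lit 383) (nat_lit 242)) (XT.nd (nat_lit 78) (nat_lit 0) (nat_lit 0) (XT.lf (nat_lit 0) (nat_lit 3351682381) (nat_lit 304) (nat_lit 20059501769) (nat_lit 76) (nat_lit 70082229) (nat_lit 49) (nat_lit 5) (nat_lit 53) (nat_lit 5) (nat_lit 50) (nat_lit 5) (nat_lit 516) (nat_lit 383) (nat_lit 241)) (XT.lf (nat_lit 0) (nat_lit 7817821217) (nat_lit 304) (nat_lit 10227299745) (nat_lit 76) (nat_lit 5786081920) (nat_lit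 49) (nat_lit 5) (nat_lit 53) (nat_lit 5) (nat_lit 50) (nat_lit 5) (nat_lit 517) (nat_lit 383) (nat_lit 240)))) (XT.nd (nat_lit 156) (nat_lit 304) (nat_lit 0) (XT.nd (nat_lit 78) (nat_lit 152) (nat_lit 0) (XT.lf (nat_lit 0) (nat_lit 12360896108) (nat_lit 304) (nat_lit 219727566) (nat_lit 76) (nat_lit 11607765283) (nat_lit 49) (nat_lit 5) (nat_lit 53) (nat_lit 5) (nat_lit 50) (nat_lit 5) (nat_lit 518) (nat_lit 383) (nat_lit 239)) (XT.lf (nat_lit 0) (nat_lit 10099597339) (nat_lit 152) (nat_lit 6948664597) (nat_lit 228) (nat_lit 7503391275) (nat_lit 47) (nat_lit 5) (nat_lit 49) (nat_lit 5) (nat_lit 50) (nat_lit 5) (nat_lit 519) (nat_lit 383) (nat_lit 238))) (XT.nd (nat_lit 78) (nat_lit 304) (nat_lit 0) (XT.lf (nat_lit 0) (nat_lit 20607567673) (nat_lit 152) (nat_lit 1211241641) (nat_lit 228) (nat_lit 3103587738) (nat_lit 47) (nat_lit 5) (nat_lit 49) (nat_lit 5) (nat_lit 50) (nat_lit 5) (nat_lit 520) (nat_lit 383) (nat_lit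 237)) (XT.lf (nat_lit 0) (nat_lit 1424014687) (nat_lit 304) (nat_lit 19254864900) (nat_lit 76) (nat_lit 4620340167) (nat_lit 43) (nat_lit 5) (nat_lit 47) (nat_lit 5) (nat_lit 44) (nat_lit 5) (nat_lit 521) (nat_lit 383) (nat_lit 236)))))) (XT.nd (nat_lit 48594) (nat_lit 0) (nat_lit 45600) (XT.nd (nat_lit 234) (nat_lit 380) (nat_lit 0) (XT.nd (nat_lit 78) (nat_lit 152) (nat_lit 0) (XT.lf (nat_lit 0) (nat_lit 6025979171) (nat_lit 304) (nat_lit 9063077521) (nat_lit 76) (nat_lit 10593607397) (nat_lit 43) (nat_lit 5) (nat_lit 47) (nat_lit 5) (nat_lit 44) (nat_lit 5) (nat_lit 522) (nat_lit 383) (nat_lit 235)) (XT.nd (nat_lit 78) (nat_lit 0) (nat_lit 0) (XT.lf (nat_lit 0) (nat_lit 1329867106) (nat_lit 152) (nat_lit 9387142578) (nat_lit 228) (nat_lit 15356829851) (nat_lit 41) (nat_lit 5) (nat_lit 43) (nat_lit 5) (nat_lit 44) (nat_lit 5) (nat_lit 523) (nat_lit 383) (nat_lit 234)) (XT.lf (nat_lit 0) (nat_lit 12033535450)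 (nat_lit 152) (nat_lit 3517633566) (nat_lit 228) (nat_lit 10920686015) (nat_lit 41) (nat_lit 5) (nat_lit 43) (nat_lit 5) (nat_lit 44) (nat_lit 5) (nat_lit 524) (nat_lit 383) (nat_lit 233)))) (XT.nd (nat_lit 156) (nat_lit 228) (nat_lit 0) (XT.nd (nat_lit 78) (nat_lit 152) (nat_lit 0) (XT.lf (nat_lit 0) (nat_lit 20486705551) (nat_lit 228) (nat_lit 3962355820) (nat_lit 76) (nat_lit 2428678236) (nat_lit 41) (nat_lit 5) (nat_lit 44) (nat_lit 5) (nat_lit 42) (nat_lit 5) (nat_lit 525) (nat_lit 383) (nat_lit 232)) (XT.lf (nat_lit 0) (nat_lit 6769228898) (nat_lit 152) (nat_lit 18807854051) (nat_lit 228) (nat_lit 1713538923) (nat_lit 39) (nat_lit 5) (nat_lit 41) (nat_lit 5) (nat_lit 42) (nat_lit 5) (nat_lit 526) (nat_lit 383) (nat_lit 231))) (XT.nd (nat_lit 78) (nat_lit 152) (nat_lit 0) (XT.lf (nat_lit 0) (nat_lit 3033073600) (nat_lit 228) (nat_lit 9981506214) (nat_lit 76) (nat_lit 14696474095) (nat_lit 38) (nat_lit 5) (nat_lit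 41) (nat_lit 5) (nat_lit 39) (nat_lit 5) (nat_lit 527) (nat_lit 383) (nat_lit 230)) (XT.lf (nat_lit 0) (nat_lit 748624311) (nat_lit 152) (nat_lit 7097051055) (nat_lit 228) (nat_lit 20294115116) (nat_lit 36) (nat_lit 5) (nat_lit 38) (nat_lit 5) (nat_lit 39) (nat_lit 5) (nat_lit 528) (nat_lit 383) (nat_lit 229))))) (XT.nd (nat_lit 234) (nat_lit 456) (nat_lit 0) (XT.nd (nat_lit 78) (nat_lit 380) (nat_lit 0) (XT.lf (nat_lit 0) (nat_lit 1724597441) (nat_lit 380) (nat_lit 756099275) (nat_lit 380) (nat_lit 756099275) (nat_lit 647) (nat_lit 3) (nat_lit 652) (nat_lit 3) (nat_lit 652) (nat_lit 5) (nat_lit 384) (nat_lit 384) (nat_lit 372)) (XT.nd (nat_lit 78) (nat_lit 380) (nat_lit 0) (XT.lf (nat_lit 76) (nat_lit 1542392885) (nat_lit 0) (nat_lit 4591590923) (nat_lit 380) (nat_lit 348167666) (nat_lit 648) (nat_lit 5) (nat_lit 647) (nat_lit 3) (nat_lit 652) (nat_lit 5) (nat_lit 385) (nat_lit 384) (nat_lit 371)) (XT.lf (nat_lit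 0) (nat_lit 2290535807) (nat_lit 380) (nat_lit 1864478905) (nat_lit 456) (nat_lit 2336836031) (nat_lit 642) (nat_lit 5) (nat_lit 647) (nat_lit 3) (nat_lit 648) (nat_lit 5) (nat_lit 386) (nat_lit 384) (nat_lit 370)))) (XT.nd (nat_lit 156) (nat_lit 0) (nat_lit 0) (XT.nd (nat_lit 78) (nat_lit 456) (nat_lit 0) (XT.lf (nat_lit 76) (nat_lit 1250276600) (nat_lit 0) (nat_lit 3666539444) (nat_lit 456) (nat_lit 1586172564) (nat_lit 643) (nat_lit 5) (nat_lit 642) (nat_lit 5) (nat_lit 648) (nat_lit 5) (nat_lit 387) (nat_lit 384) (nat_lit 369)) (XT.lf (nat_lit 0) (nat_lit 1011617329) (nat_lit 456) (nat_lit 2105466893) (nat_lit 532) (nat_lit 3398310917) (nat_lit 636) (nat_lit 5) (nat_lit 642) (nat_lit 5) (nat_lit 643) (nat_lit 5) (nat_lit 388) (nat_lit 384) (nat_lit 368))) (XT.nd (nat_lit 78) (nat_lit 0) (nat_lit 0) (XT.lf (nat_lit 76) (nat_lit 1072137380) (nat_lit 0) (nat_lit 2508233616) (nat_lit 532) (nat_lit 2948739500) (nat_lit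 637) (nat_lit 5) (nat_lit 636) (nat_lit 5) (nat_lit 643) (nat_lit 5) (nat_lit 389) (nat_lit 384) (nat_lit 367)) (XT.lf (nat_lit 76) (nat_lit 4305929115) (nat_lit 0) (nat_lit 1843040755) (nat_lit 532) (nat_lit 395234734) (nat_lit 637) (nat_lit 5) (nat_lit 636) (nat_lit 5) (nat_lit 643) (nat_lit 5) (nat_lit 390) (nat_lit 384) (nat_lit 366))))))) (XT.nd (nat_lit 1092) (nat_lit 11324) (nat_lit 0) (XT.nd (nat_lit 546) (nat_lit 2356) (nat_lit 0) (XT.nd (nat_lit 234) (nat_lit 684) (nat_lit 0) (XT.nd (nat_lit 78) (nat_lit 532) (nat_lit 0) (XT.lf (nat_lit 76) (nat_lit 1007531726) (nat_lit 0) (nat_lit 1114505086) (nat_lit 608) (nat_lit 4438514419) (nat_lit 630) (nat_lit 5) (nat_lit 629) (nat_lit 5) (nat_lit 637) (nat_lit 5) (nat_lit 391) (nat_lit 384) (nat_lit 365)) (XT.nd (nat_lit 78) (nat_lit 532) (nat_lit 0) (XT.lf (nat_lit 76) (nat_lit 4310047168) (nat_lit 0) (nat_lit 325492060) (nat_lit 608) (nat_lit 1942679347) (nat_lit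 630) (nat_lit 5) (nat_lit 629) (nat_lit 5) (nat_lit 637) (nat_lit 5) (nat_lit 392) (nat_lit 384) (nat_lit 364)) (XT.lf (nat_lit 0) (nat_lit 542318719) (nat_lit 608) (nat_lit 5544496887) (nat_lit 684) (nat_lit 510469119) (nat_lit 622) (nat_lit 5) (nat_lit 630) (nat_lit 5) (nat_lit 631) (nat_lit 5) (nat_lit 393) (nat_lit 384) (nat_lit 363)))) (XT.nd (nat_lit 156) (nat_lit 684) (nat_lit 0) (XT.nd (nat_lit 78) (nat_lit 0) (nat_lit 0) (XT.lf (nat_lit 0) (nat_lit 3006619038) (nat_lit 608) (nat_lit 2197974147) (nat_lit 684) (nat_lit 1412835472) (nat_lit 622) (nat_lit 5) (nat_lit 630) (nat_lit 5) (nat_lit 631) (nat_lit 5) (nat_lit 394) (nat_lit 384) (nat_lit 362)) (XT.lf (nat_lit 76) (nat_lit 1194541269) (nat_lit 0) (nat_lit 4272746759) (nat_lit 684) (nat_lit 1171810071) (nat_lit 623) (nat_lit 5) (nat_lit 622) (nat_lit 5) (nat_lit 631) (nat_lit 5) (nat_lit 395) (nat_lit 384) (nat_lit 361))) (XT.nd (nat_lit 78) (nat_lit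 0) (nat_lit 0) (XT.lf (nat_lit 0) (nat_lit 1253380323) (nat_lit 684) (nat_lit 2022071752) (nat_lit 760) (nat_lit 3386546364) (nat_lit 613) (nat_lit 5) (nat_lit 622) (nat_lit 5) (nat_lit 623) (nat_lit 5) (nat_lit 396) (nat_lit 384) (nat_lit 360)) (XT.lf (nat_lit 76) (nat_lit 1443539785) (nat_lit 0) (nat_lit 2218234024) (nat_lit 760) (nat_lit 3024480847) (nat_lit 614) (nat_lit 5) (nat_lit 613) (nat_lit 5) (nat_lit 623) (nat_lit 5) (nat_lit 397) (nat_lit 384) (nat_lit 359))))) (XT.nd (nat_lit 234) (nat_lit 1672) (nat_lit 0) (XT.nd (nat_lit 78) (nat_lit 684) (nat_lit 0) (XT.lf (nat_lit 76) (nat_lit 4969618174) (nat_lit 0) (nat_lit 1104210309) (nat_lit 760) (nat_lit 638117039) (nat_lit 614) (nat_lit 5) (nat_lit 613) (nat_lit 5) (nat_lit 623) (nat_lit 5) (nat_lit 398) (nat_lit 384) (nat_lit 358)) (XT.nd (nat_lit 78) (nat_lit 0) (nat_lit 0) (XT.lf (nat_lit 0) (nat_lit 1727258247) (nat_lit 760) (nat_lit 4935687471) (nat_lit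 76) (nat_lit 75931587) (nat_lit 604) (nat_lit 5) (nat_lit 614) (nat_lit 5) (nat_lit 605) (nat_lit 5) (nat_lit 399) (nat_lit 384) (nat_lit 357)) (XT.lf (nat_lit 0) (nat_lit 4094137578) (nat_lit 760) (nat_lit 1371937098) (nat_lit 76) (nat_lit 1300989835) (nat_lit 604) (nat_lit 5) (nat_lit 614) (nat_lit 5) (nat_lit 605) (nat_lit 5) (nat_lit 400) (nat_lit 384) (nat_lit 356)))) (XT.nd (nat_lit 156) (nat_lit 836) (nat_lit 0) (XT.nd (nat_lit 78) (nat_lit 76) (nat_lit 0) (XT.lf (nat_lit 0) (nat_lit 2255967603) (nat_lit 760) (nat_lit 4211789937) (nat_lit 836) (nat_lit 328924730) (nat_lit 594) (nat_lit 5) (nat_lit 604) (nat_lit 5) (nat_lit 605) (nat_lit 5) (nat_lit 401) (nat_lit 384) (nat_lit 355)) (XT.lf (nat_lit 0) (nat_lit 1989370886) (nat_lit 836) (nat_lit 902377201) (nat_lit 76) (nat_lit 3935840158) (nat_lit 593) (nat_lit 5) (nat_lit 604) (nat_lit 5) (nat_lit 594) (nat_lit 5) (nat_lit 402) (nat_lit 384) (nat_lit 354)))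 (XT.nd (nat_lit 78) (nat_lit 0) (nat_lit 0) (XT.lf (nat_lit 0) (nat_lit 2806843565) (nat_lit 836) (nat_lit 1507276205) (nat_lit 912) (nat_lit 2545710955) (nat_lit 582) (nat_lit 5) (nat_lit 593) (nat_lit 5) (nat_lit 594) (nat_lit 5) (nat_lit 403) (nat_lit 384) (nat_lit 353)) (XT.lf (nat_lit 0) (nat_lit 6566203554) (nat_lit 836) (nat_lit 72297273) (nat_lit 912) (nat_lit 255205175) (nat_lit 582) (nat_lit 5) (nat_lit 593) (nat_lit 5) (nat_lit 594) (nat_lit 5) (nat_lit 404) (nat_lit 384) (nat_lit 352)))))) (XT.nd (nat_lit 546) (nat_lit 6992) (nat_lit 0) (XT.nd (nat_lit 234) (nat_lit 2356) (nat_lit 0) (XT.nd (nat_lit 78) (nat_lit 988) (nat_lit 0) (XT.lf (nat_lit 0) (nat_lit 2033436931) (nat_lit 988) (nat_lit 3469852150) (nat_lit 76) (nat_lit 1425155780) (nat_lit 569) (nat_lit 5) (nat_lit 582) (nat_lit 5) (nat_lit 570) (nat_lit 5) (nat_lit 405) (nat_lit 384) (nat_lit 351)) (XT.nd (nat_lit 78) (nat_lit 0) (nat_lit 0) (XT.lf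 (nat_lit 0) (nat_lit 325856995) (nat_lit 988) (nat_lit 3992005214) (nat_lit 1064) (nat_lit 2646961766) (nat_lit 556) (nat_lit 5) (nat_lit 569) (nat_lit 5) (nat_lit 570) (nat_lit 5) (nat_lit 406) (nat_lit 384) (nat_lit 350)) (XT.lf (nat_lit 0) (nat_lit 4207512287) (nat_lit 988) (nat_lit 2413133086) (nat_lit 1064) (nat_lit 381878741) (nat_lit 556) (nat_lit 5) (nat_lit 569) (nat_lit 5) (nat_lit 570) (nat_lit 5) (nat_lit 407) (nat_lit 384) (nat_lit 349)))) (XT.nd (nat_lit 156) (nat_lit 1216) (nat_lit 0) (XT.nd (nat_lit 78) (nat_lit 0) (nat_lit 0) (XT.lf (nat_lit 0) (nat_lit 1090618252) (nat_lit 1064) (nat_lit 769679370) (nat_lit 1140) (nat_lit 5181333535) (nat_lit 541) (nat_lit 5) (nat_lit 555) (nat_lit 5) (nat_lit 556) (nat_lit 5) (nat_lit 408) (nat_lit 384) (nat_lit 348)) (XT.lf (nat_lit 0) (nat_lit 4117802041) (nat_lit 1140) (nat_lit 2035690724) (nat_lit 76) (nat_lit 928509263) (nat_lit 541) (nat_lit 5) (nat_lit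 556) (nat_lit 5) (nat_lit 542) (nat_lit 5) (nat_lit 409) (nat_lit 384) (nat_lit 347))) (XT.nd (nat_lit 78) (nat_lit 76) (nat_lit 0) (XT.lf (nat_lit 0) (nat_lit 1941188132) (nat_lit 1140) (nat_lit 4448759661) (nat_lit 1216) (nat_lit 733885963) (nat_lit 526) (nat_lit 5) (nat_lit 541) (nat_lit 5) (nat_lit 542) (nat_lit 5) (nat_lit 410) (nat_lit 384) (nat_lit 346)) (XT.lf (nat_lit 0) (nat_lit 1486714434) (nat_lit 1216) (nat_lit 1188670950) (nat_lit 76) (nat_lit 4491640388) (nat_lit 525) (nat_lit 5) (nat_lit 541) (nat_lit 5) (nat_lit 526) (nat_lit 5) (nat_lit 411) (nat_lit 384) (nat_lit 345))))) (XT.nd (nat_lit 312) (nat_lit 3040) (nat_lit 0) (XT.nd (nat_lit 156) (nat_lit 2736) (nat_lit 0) (XT.nd (nat_lit 78) (nat_lit 0) (nat_lit 0) (XT.lf (nat_lit 0) (nat_lit 2881302980) (nat_lit 1216) (nat_lit 832392086) (nat_lit 1292) (nat_lit 3497894412) (nat_lit 509) (nat_lit 5) (nat_lit 525) (nat_lit 5) (nat_lit 526) (nat_lit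 5) (nat_lit 412) (nat_lit 384) (nat_lit 344)) (XT.lf (nat_lit 0) (nat_lit 5953869415) (nat_lit 1292) (nat_lit 252543680) (nat_lit 76) (nat_lit 1051298251) (nat_lit 509) (nat_lit 5) (nat_lit 526) (nat_lit 5) (nat_lit 510) (nat_lit 5) (nat_lit 413) (nat_lit 384) (nat_lit 343))) (XT.nd (nat_lit 78) (nat_lit 1368) (nat_lit 0) (XT.lf (nat_lit 0) (nat_lit 907372600) (nat_lit 1368) (nat_lit 3395311100) (nat_lit 76) (nat_lit 3002278438) (nat_lit 491) (nat_lit 5) (nat_lit 509) (nat_lit 5) (nat_lit 492) (nat_lit 5) (nat_lit 414) (nat_lit 384) (nat_lit 342)) (XT.lf (nat_lit 0) (nat_lit 769586511) (nat_lit 1368) (nat_lit 2337531169) (nat_lit 1444) (nat_lit 4246670266) (nat_lit 473) (nat_lit 5) (nat_lit 491) (nat_lit 5) (nat_lit 492) (nat_lit 5) (nat_lit 415) (nat_lit 384) (nat_lit 341)))) (XT.nd (nat_lit 156) (nat_lit 1520) (nat_lit 0) (XT.nd (nat_lit 78) (nat_lit 1520) (nat_lit 0) (XT.lf (nat_lit 0) (nat_lit 5026801763) (nat_lit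 1368) (nat_lit 302527213) (nat_lit 1444) (nat_lit 2074728796) (nat_lit 473) (nat_lit 5) (nat_lit 491) (nat_lit 5) (nat_lit 492) (nat_lit 5) (nat_lit 416) (nat_lit 384) (nat_lit 340)) (XT.lf (nat_lit 0) (nat_lit 119026536) (nat_lit 1520) (nat_lit 5566673543) (nat_lit 76) (nat_lit 1770045746) (nat_lit 453) (nat_lit 5) (nat_lit 473) (nat_lit 5) (nat_lit 454) (nat_lit 5) (nat_lit 417) (nat_lit 384) (nat_lit 339))) (XT.nd (nat_lit 78) (nat_lit 1520) (nat_lit 0) (XT.lf (nat_lit 0) (nat_lit 2303858909) (nat_lit 1520) (nat_lit 1288639554) (nat_lit 76) (nat_lit 3916230043) (nat_lit 453) (nat_lit 5) (nat_lit 473) (nat_lit 5) (nat_lit 454) (nat_lit 5) (nat_lit 418) (nat_lit 384) (nat_lit 338)) (XT.lf (nat_lit 0) (nat_lit 3078473601) (nat_lit 1520) (nat_lit 1431641827) (nat_lit 1596) (nat_lit 3053134975) (nat_lit 433) (nat_lit 5) (nat_lit 453) (nat_lit 5) (nat_lit 454) (nat_lit 5) (nat_lit 419) (nat_lit 384) (nat_lit 337))))))))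
noncomputable def xc112 : XT := (XT.nd (nat_lit 2184) (nat_lit 8512) (nat_lit 0) (XT.nd (nat_lit 1092) (nat_lit 5700) (nat_lit 0) (XT.nd (nat_lit 546) (nat_lit 3496) (nat_lit 0) (XT.nd (nat_lit 234) (nat_lit 2356) (nat_lit 0) (XT.nd (nat_lit 78) (nat_lit 3344) (nat_lit 0) (XT.lf (nat_lit 0) (nat_lit 6732580672) (nat_lit 1596) (nat_lit 110878752) (nat_lit 76) (nat_lit 775995088) (nat_lit 433) (nat_lit 5) (nat_lit 454) (nat_lit 5) (nat_lit 434) (nat_lit 5) (nat_lit 420) (nat_lit 384) (nat_lit 336)) (XT.nd (nat_lit 78) (nat_lit 1672) (nat_lit 0) (XT.lf (nat_lit 0) (nat_lit 1302291098) (nat_lit 1672) (nat_lit 3324004239) (nat_lit 76) (nat_lit 3050409229) (nat_lit 411) (nat_lit 5) (nat_lit 433) (nat_lit 5) (nat_lit 412) (nat_lit 5) (nat_lit 421) (nat_lit 384) (nat_lit 335)) (XT.lf (nat_lit 0) (nat_lit 1143988211) (nat_lit 1672) (nat_lit 2347008478) (nat_lit 1748) (nat_lit 4244664549) (nat_lit 389) (nat_lit 5) (nat_lit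 411) (nat_lit 5) (nat_lit 412) (nat_lit 5) (nat_lit 422) (nat_lit 384) (nat_lit 334)))) (XT.nd (nat_lit 156) (nat_lit 836) (nat_lit 0) (XT.nd (nat_lit 78) (nat_lit 1520) (nat_lit 0) (XT.lf (nat_lit 0) (nat_lit 5705807423) (nat_lit 1748) (nat_lit 2086670166) (nat_lit 76) (nat_lit 3703733) (nat_lit 389) (nat_lit 5) (nat_lit 412) (nat_lit 5) (nat_lit 390) (nat_lit 5) (nat_lit 423) (nat_lit 384) (nat_lit 333)) (XT.lf (nat_lit 0) (nat_lit 98025229) (nat_lit 1520) (nat_lit 5370183437) (nat_lit 76) (nat_lit 2389870423) (nat_lit 369) (nat_lit 5) (nat_lit 389) (nat_lit 5) (nat_lit 370) (nat_lit 5) (nat_lit 424) (nat_lit 384) (nat_lit 332))) (XT.nd (nat_lit 78) (nat_lit 836) (nat_lit 0) (XT.lf (nat_lit 0) (nat_lit 2277373575) (nat_lit 1520) (nat_lit 789910389) (nat_lit 76) (nat_lit 4854180188) (nat_lit 369) (nat_lit 5) (nat_lit 389) (nat_lit 5) (nat_lit 370) (nat_lit 5) (nat_lit 425) (nat_lit 384) (nat_lit 331)) (XT.lf (nat_lit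 0) (nat_lit 3896525164) (nat_lit 836) (nat_lit 590896069) (nat_lit 912) (nat_lit 3498981983) (nat_lit 358) (nat_lit 5) (nat_lit 369) (nat_lit 5) (nat_lit 370) (nat_lit 5) (nat_lit 426) (nat_lit 384) (nat_lit 330))))) (XT.nd (nat_lit 234) (nat_lit 1672) (nat_lit 0) (XT.nd (nat_lit 78) (nat_lit 912) (nat_lit 0) (XT.lf (nat_lit 0) (nat_lit 592943375) (nat_lit 912) (nat_lit 6132810927) (nat_lit 988) (nat_lit 1327233054) (nat_lit 346) (nat_lit 5) (nat_lit 358) (nat_lit 5) (nat_lit 359) (nat_lit 5) (nat_lit 427) (nat_lit 384) (nat_lit 329)) (XT.nd (nat_lit 78) (nat_lit 836) (nat_lit 0) (XT.lf (nat_lit 0) (nat_lit 870406902) (nat_lit 988) (nat_lit 2742730666) (nat_lit 76) (nat_lit 4507795171) (nat_lit 345) (nat_lit 5) (nat_lit 358) (nat_lit 5) (nat_lit 346) (nat_lit 5) (nat_lit 428) (nat_lit 384) (nat_lit 328)) (XT.lf (nat_lit 0) (nat_lit 2050386503) (nat_lit 836) (nat_lit 1020466147) (nat_lit 912) (nat_lit 5119702798)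 (nat_lit 334) (nat_lit 5) (nat_lit 345) (nat_lit 5) (nat_lit 346) (nat_lit 5) (nat_lit 429) (nat_lit 384) (nat_lit 327)))) (XT.nd (nat_lit 156) (nat_lit 836) (nat_lit 0) (XT.nd (nat_lit 78) (nat_lit 836) (nat_lit 0) (XT.lf (nat_lit 0) (nat_lit 5308156561) (nat_lit 912) (nat_lit 1332476404) (nat_lit 76) (nat_lit 1621106515) (nat_lit 334) (nat_lit 5) (nat_lit 346) (nat_lit 5) (nat_lit 335) (nat_lit 5) (nat_lit 430) (nat_lit 384) (nat_lit 326)) (XT.lf (nat_lit 0) (nat_lit 3575076179) (nat_lit 836) (nat_lit 4009588155) (nat_lit 912) (nat_lit 749819049) (nat_lit 323) (nat_lit 5) (nat_lit 334) (nat_lit 5) (nat_lit 335) (nat_lit 5) (nat_lit 431) (nat_lit 384) (nat_lit 325))) (XT.nd (nat_lit 78) (nat_lit 0) (nat_lit 0) (XT.lf (nat_lit 0) (nat_lit 145787755) (nat_lit 760) (nat_lit 1307225628) (nat_lit 836) (nat_lit 6956005819) (nat_lit 312) (nat_lit 5) (nat_lit 322) (nat_lit 5) (nat_lit 323) (nat_lit 5) (nat_lit 432) (nat_lit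 384) (nat_lit 324)) (XT.lf (nat_lit 0) (nat_lit 3696568623) (nat_lit 836) (nat_lit 3322538409) (nat_lit 76) (nat_lit 1465729340) (nat_lit 312) (nat_lit 5) (nat_lit 323) (nat_lit 5) (nat_lit 313) (nat_lit 5) (nat_lit 433) (nat_lit 384) (nat_lit 323)))))) (XT.nd (nat_lit 546) (nat_lit 2660) (nat_lit 0) (XT.nd (nat_lit 234) (nat_lit 1520) (nat_lit 0) (XT.nd (nat_lit 78) (nat_lit 760) (nat_lit 0) (XT.lf (nat_lit 0) (nat_lit 1694111513) (nat_lit 760) (nat_lit 4276361586) (nat_lit 836) (nat_lit 2592010640) (nat_lit 302) (nat_lit 5) (nat_lit 312) (nat_lit 5) (nat_lit 313) (nat_lit 5) (nat_lit 434) (nat_lit 384) (nat_lit 322)) (XT.nd (nat_lit 78) (nat_lit 760) (nat_lit 0) (XT.lf (nat_lit 0) (nat_lit 6819953479) (nat_lit 760) (nat_lit 1458455144) (nat_lit 836) (nat_lit 363527327) (nat_lit 302) (nat_lit 5) (nat_lit 312) (nat_lit 5) (nat_lit 313) (nat_lit 5) (nat_lit 435) (nat_lit 384) (nat_lit 321)) (XT.lf (nat_lit 0) (nat_lit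 1882118719) (nat_lit 760) (nat_lit 5411834423) (nat_lit 76) (nat_lit 1428845434) (nat_lit 292) (nat_lit 5) (nat_lit 302) (nat_lit 5) (nat_lit 293) (nat_lit 5) (nat_lit 436) (nat_lit 384) (nat_lit 320)))) (XT.nd (nat_lit 156) (nat_lit 760) (nat_lit 0) (XT.nd (nat_lit 78) (nat_lit 760) (nat_lit 0) (XT.lf (nat_lit 0) (nat_lit 4156861445) (nat_lit 760) (nat_lit 282273282) (nat_lit 76) (nat_lit 4366336276) (nat_lit 292) (nat_lit 5) (nat_lit 302) (nat_lit 5) (nat_lit 293) (nat_lit 5) (nat_lit 437) (nat_lit 384) (nat_lit 319)) (XT.lf (nat_lit 0) (nat_lit 4979540137) (nat_lit 760) (nat_lit 1497615605) (nat_lit 836) (nat_lit 2412661211) (nat_lit 282) (nat_lit 5) (nat_lit 292) (nat_lit 5) (nat_lit 293) (nat_lit 5) (nat_lit 438) (nat_lit 384) (nat_lit 318))) (XT.nd (nat_lit 78) (nat_lit 76) (nat_lit 0) (XT.lf (nat_lit 0) (nat_lit 1346446562) (nat_lit 684) (nat_lit 7485921028) (nat_lit 760) (nat_lit 143732791) (nat_lit 273)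 (nat_lit 5) (nat_lit 282) (nat_lit 5) (nat_lit 283) (nat_lit 5) (nat_lit 439) (nat_lit 384) (nat_lit 317)) (XT.lf (nat_lit 0) (nat_lit 2146708782) (nat_lit 760) (nat_lit 2362711721) (nat_lit 76) (nat_lit 4554335064) (nat_lit 272) (nat_lit 5) (nat_lit 282) (nat_lit 5) (nat_lit 273) (nat_lit 5) (nat_lit 440) (nat_lit 384) (nat_lit 316))))) (XT.nd (nat_lit 234) (nat_lit 1368) (nat_lit 0) (XT.nd (nat_lit 78) (nat_lit 608) (nat_lit 0) (XT.lf (nat_lit 0) (nat_lit 3012587070) (nat_lit 684) (nat_lit 1456901480) (nat_lit 760) (nat_lit 4683906819) (nat_lit 263) (nat_lit 5) (nat_lit 272) (nat_lit 5) (nat_lit 273) (nat_lit 5) (nat_lit 441) (nat_lit 384) (nat_lit 315)) (XT.nd (nat_lit 78) (nat_lit 608) (nat_lit 0) (XT.lf (nat_lit 0) (nat_lit 6834683552) (nat_lit 760) (nat_lit 763864123) (nat_lit 76) (nat_lit 1646380309) (nat_lit 263) (nat_lit 5) (nat_lit 273) (nat_lit 5) (nat_lit 264) (nat_lit 5) (nat_lit 442) (nat_lit 384)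 (nat_lit 314)) (XT.lf (nat_lit 0) (nat_lit 4737902074) (nat_lit 608) (nat_lit 4519536818) (nat_lit 684) (nat_lit 80666065) (nat_lit 255) (nat_lit 5) (nat_lit 263) (nat_lit 5) (nat_lit 264) (nat_lit 5) (nat_lit 443) (nat_lit 384) (nat_lit 313)))) (XT.nd (nat_lit 156) (nat_lit 608) (nat_lit 0) (XT.nd (nat_lit 78) (nat_lit 0) (nat_lit 0) (XT.lf (nat_lit 0) (nat_lit 888335654) (nat_lit 684) (nat_lit 1357984952) (nat_lit 760) (nat_lit 7186926431) (nat_lit 245) (nat_lit 5) (nat_lit 254) (nat_lit 5) (nat_lit 255) (nat_lit 5) (nat_lit 444) (nat_lit 384) (nat_lit 312)) (XT.lf (nat_lit 0) (nat_lit 4632282002) (nat_lit 760) (nat_lit 3029265947) (nat_lit 76) (nat_lit 1868480791) (nat_lit 245) (nat_lit 5) (nat_lit 255) (nat_lit 5) (nat_lit 246) (nat_lit 5) (nat_lit 445) (nat_lit 384) (nat_lit 311))) (XT.nd (nat_lit 78) (nat_lit 0) (nat_lit 0) (XT.lf (nat_lit 0) (nat_lit 2586589205) (nat_lit 608) (nat_lit 4476061914) (nat_lit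 684) (nat_lit 2566178586) (nat_lit 237) (nat_lit 5) (nat_lit 245) (nat_lit 5) (nat_lit 246) (nat_lit 5) (nat_lit 446) (nat_lit 384) (nat_lit 310)) (XT.lf (nat_lit 0) (nat_lit 8321020944) (nat_lit 608) (nat_lit 1212180604) (nat_lit 684) (nat_lit 196590721) (nat_lit 237) (nat_lit 5) (nat_lit 245) (nat_lit 5) (nat_lit 246) (nat_lit 5) (nat_lit 447) (nat_lit 384) (nat_lit 309))))))) (XT.nd (nat_lit 1092) (nat_lit 3952) (nat_lit 0) (XT.nd (nat_lit 546) (nat_lit 2128) (nat_lit 0) (XT.nd (nat_lit 234) (nat_lit 1216) (nat_lit 0) (XT.nd (nat_lit 78) (nat_lit 532) (nat_lit 0) (XT.lf (nat_lit 0) (nat_lit 2205075473) (nat_lit 684) (nat_lit 5501065427) (nat_lit 76) (nat_lit 2126085106) (nat_lit 228) (nat_lit 5) (nat_lit 237) (nat_lit 5) (nat_lit 229) (nat_lit 5) (nat_lit 448) (nat_lit 384) (nat_lit 308)) (XT.nd (nat_lit 78) (nat_lit 0) (nat_lit 0) (XT.lf (nat_lit 0) (nat_lit 227231924) (nat_lit 532) (nat_lit 4415832662) (nat_lit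 608) (nat_lit 5293815479) (nat_lit 221) (nat_lit 5) (nat_lit 228) (nat_lit 5) (nat_lit 229) (nat_lit 5) (nat_lit 449) (nat_lit 384) (nat_lit 307)) (XT.lf (nat_lit 0) (nat_lit 6110068632) (nat_lit 532) (nat_lit 1028886509) (nat_lit 608) (nat_lit 2904504989) (nat_lit 221) (nat_lit 5) (nat_lit 228) (nat_lit 5) (nat_lit 229) (nat_lit 5) (nat_lit 450) (nat_lit 384) (nat_lit 306)))) (XT.nd (nat_lit 156) (nat_lit 532) (nat_lit 0) (XT.nd (nat_lit 78) (nat_lit 76) (nat_lit 0) (XT.lf (nat_lit 0) (nat_lit 1933566199) (nat_lit 608) (nat_lit 7752228965) (nat_lit 684) (nat_lit 466371448) (nat_lit 213) (nat_lit 5) (nat_lit 221) (nat_lit 5) (nat_lit 222) (nat_lit 5) (nat_lit 451) (nat_lit 384) (nat_lit 305)) (XT.lf (nat_lit 0) (nat_lit 2000255902) (nat_lit 684) (nat_lit 2346027738) (nat_lit 76) (nat_lit 5916391449) (nat_lit 212) (nat_lit 5) (nat_lit 221) (nat_lit 5) (nat_lit 213) (nat_lit 5) (nat_lit 452) (nat_lit 384) (nat_lit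 304))) (XT.nd (nat_lit 78) (nat_lit 0) (nat_lit 0) (XT.lf (nat_lit 0) (nat_lit 3654938686) (nat_lit 532) (nat_lit 852147875) (nat_lit 608) (nat_lit 5868317768) (nat_lit 205) (nat_lit 5) (nat_lit 212) (nat_lit 5) (nat_lit 213) (nat_lit 5) (nat_lit 453) (nat_lit 384) (nat_lit 303)) (XT.lf (nat_lit 0) (nat_lit 7071143270) (nat_lit 608) (nat_lit 734233436) (nat_lit 76) (nat_lit 2684883933) (nat_lit 205) (nat_lit 5) (nat_lit 213) (nat_lit 5) (nat_lit 206) (nat_lit 5) (nat_lit 454) (nat_lit 384) (nat_lit 302))))) (XT.nd (nat_lit 234) (nat_lit 1064) (nat_lit 0) (XT.nd (nat_lit 78) (nat_lit 532) (nat_lit 0) (XT.lf (nat_lit 0) (nat_lit 5403443176) (nat_lit 532) (nat_lit 4297915832) (nat_lit 608) (nat_lit 905771503) (nat_lit 198) (nat_lit 5) (nat_lit 205) (nat_lit 5) (nat_lit 206) (nat_lit 5) (nat_lit 455) (nat_lit 384) (nat_lit 301)) (XT.nd (nat_lit 78) (nat_lit 0) (nat_lit 0) (XT.lf (nat_lit 0) (nat_lit 915153673) (nat_lit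 456) (nat_lit 706105959) (nat_lit 532) (nat_lit 9105173096) (nat_lit 191) (nat_lit 5) (nat_lit 197) (nat_lit 5) (nat_lit 198) (nat_lit 5) (nat_lit 456) (nat_lit 384) (nat_lit 300)) (XT.lf (nat_lit 0) (nat_lit 4215563251) (nat_lit 532) (nat_lit 3679834120) (nat_lit 76) (nat_lit 2952039859) (nat_lit 191) (nat_lit 5) (nat_lit 198) (nat_lit 5) (nat_lit 192) (nat_lit 5) (nat_lit 457) (nat_lit 384) (nat_lit 299)))) (XT.nd (nat_lit 156) (nat_lit 532) (nat_lit 0) (XT.nd (nat_lit 78) (nat_lit 0) (nat_lit 0) (XT.lf (nat_lit 0) (nat_lit 2570046293) (nat_lit 532) (nat_lit 4288065132) (nat_lit 608) (nat_lit 4112836155) (nat_lit 184) (nat_lit 5) (nat_lit 191) (nat_lit 5) (nat_lit 192) (nat_lit 5) (nat_lit 458) (nat_lit 384) (nat_lit 298)) (XT.lf (nat_lit 0) (nat_lit 8961800171) (nat_lit 532) (nat_lit 591675839) (nat_lit 608) (nat_lit 1543465491) (nat_lit 184) (nat_lit 5) (nat_lit 191) (nat_lit 5) (nat_lit 192) (nat_lit 5) (nat_lit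 459) (nat_lit 384) (nat_lit 297))) (XT.nd (nat_lit 78) (nat_lit 0) (nat_lit 0) (XT.lf (nat_lit 0) (nat_lit 1087300143) (nat_lit 532) (nat_lit 6973799028) (nat_lit 76) (nat_lit 3163745694) (nat_lit 177) (nat_lit 5) (nat_lit 184) (nat_lit 5) (nat_lit 178) (nat_lit 5) (nat_lit 460) (nat_lit 384) (nat_lit 296)) (XT.lf (nat_lit 0) (nat_lit 3744172251) (nat_lit 532) (nat_lit 608275960) (nat_lit 76) (nat_lit 7002782819) (nat_lit 177) (nat_lit 5) (nat_lit 184) (nat_lit 5) (nat_lit 178) (nat_lit 5) (nat_lit 461) (nat_lit 384) (nat_lit 295)))))) (XT.nd (nat_lit 546) (nat_lit 2128) (nat_lit 0) (XT.nd (nat_lit 234) (nat_lit 836) (nat_lit 0) (XT.nd (nat_lit 78) (nat_lit 532) (nat_lit 0) (XT.lf (nat_lit 0) (nat_lit 5930056345) (nat_lit 456) (nat_lit 538899521) (nat_lit 532) (nat_lit 5018985279) (nat_lit 171) (nat_lit 5) (nat_lit 177) (nat_lit 5) (nat_lit 178) (nat_lit 5) (nat_lit 462) (nat_lit 384) (nat_lit 294)) (XT.nd (nat_lit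 78) (nat_lit 76) (nat_lit 0) (XT.lf (nat_lit 0) (nat_lit 942263587) (nat_lit 456) (nat_lit 8314428150) (nat_lit 532) (nat_lit 2366456073) (nat_lit 165) (nat_lit 5) (nat_lit 171) (nat_lit 5) (nat_lit 172) (nat_lit 5) (nat_lit 463) (nat_lit 384) (nat_lit 293)) (XT.lf (nat_lit 0) (nat_lit 352348263) (nat_lit 532) (nat_lit 4151173388) (nat_lit 76) (nat_lit 7257150510) (nat_lit 164) (nat_lit 5) (nat_lit 171) (nat_lit 5) (nat_lit 165) (nat_lit 5) (nat_lit 464) (nat_lit 384) (nat_lit 292)))) (XT.nd (nat_lit 156) (nat_lit 380) (nat_lit 0) (XT.nd (nat_lit 78) (nat_lit 0) (nat_lit 0) (XT.lf (nat_lit 0) (nat_lit 2494214432) (nat_lit 456) (nat_lit 592870747) (nat_lit 532) (nat_lit 8813694925) (nat_lit 158) (nat_lit 5) (nat_lit 164) (nat_lit 5) (nat_lit 165) (nat_lit 5) (nat_lit 465) (nat_lit 384) (nat_lit 291)) (XT.lf (nat_lit 0) (nat_lit 5903812503) (nat_lit 532) (nat_lit 2768740317) (nat_lit 76) (nat_lit 3370602078) (nat_lit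 158) (nat_lit 5) (nat_lit 165) (nat_lit 5) (nat_lit 159) (nat_lit 5) (nat_lit 466) (nat_lit 384) (nat_lit 290))) (XT.nd (nat_lit 78) (nat_lit 0) (nat_lit 0) (XT.lf (nat_lit 0) (nat_lit 4019102999) (nat_lit 380) (nat_lit 4765444891) (nat_lit 456) (nat_lit 3403686224) (nat_lit 153) (nat_lit 5) (nat_lit 158) (nat_lit 5) (nat_lit 159) (nat_lit 5) (nat_lit 467) (nat_lit 384) (nat_lit 289)) (XT.lf (nat_lit 0) (nat_lit 10948918070) (nat_lit 380) (nat_lit 770447020) (nat_lit 456) (nat_lit 616930676) (nat_lit 153) (nat_lit 5) (nat_lit 158) (nat_lit 5) (nat_lit 159) (nat_lit 5) (nat_lit 468) (nat_lit 384) (nat_lit 288))))) (XT.nd (nat_lit 312) (nat_lit 836) (nat_lit 0) (XT.nd (nat_lit 156) (nat_lit 760) (nat_lit 0) (XT.nd (nat_lit 78) (nat_lit 0) (nat_lit 0) (XT.lf (nat_lit 0) (nat_lit 2232351339) (nat_lit 532) (nat_lit 6951038386) (nat_lit 76) (nat_lit 3302930128) (nat_lit 146) (nat_lit 5) (nat_lit 153) (nat_lit 5) (nat_lit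 147) (nat_lit 5) (nat_lit 469) (nat_lit 384) (nat_lit 287)) (XT.lf (nat_lit 0) (nat_lit 5123175986) (nat_lit 532) (nat_lit 64387777) (nat_lit 76) (nat_lit 7451852351) (nat_lit 146) (nat_lit 5) (nat_lit 153) (nat_lit 5) (nat_lit 147) (nat_lit 5) (nat_lit 470) (nat_lit 384) (nat_lit 286))) (XT.nd (nat_lit 78) (nat_lit 380) (nat_lit 0) (XT.lf (nat_lit 0) (nat_lit 7021515603) (nat_lit 380) (nat_lit 1074650625) (nat_lit 456) (nat_lit 4698930507) (nat_lit 141) (nat_lit 5) (nat_lit 146) (nat_lit 5) (nat_lit 147) (nat_lit 5) (nat_lit 471) (nat_lit 384) (nat_lit 285)) (XT.lf (nat_lit 0) (nat_lit 1261674745) (nat_lit 380) (nat_lit 9874747954) (nat_lit 456) (nat_lit 1817321374) (nat_lit 136) (nat_lit 5) (nat_lit 141) (nat_lit 5) (nat_lit 142) (nat_lit 5) (nat_lit 472) (nat_lit 384) (nat_lit 284)))) (XT.nd (nat_lit 156) (nat_lit 380) (nat_lit 0) (XT.nd (nat_lit 78) (nat_lit 380) (nat_lit 0) (XT.lf (nat_lit 0) (nat_lit 1132310345)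 (nat_lit 456) (nat_lit 4644371470) (nat_lit 76) (nat_lit 7338243640) (nat_lit 135) (nat_lit 5) (nat_lit 141) (nat_lit 5) (nat_lit 136) (nat_lit 5) (nat_lit 473) (nat_lit 384) (nat_lit 283)) (XT.lf (nat_lit 0) (nat_lit 2535277671) (nat_lit 380) (nat_lit 1577205906) (nat_lit 456) (nat_lit 9166697681) (nat_lit 130) (nat_lit 5) (nat_lit 135) (nat_lit 5) (nat_lit 136) (nat_lit 5) (nat_lit 474) (nat_lit 384) (nat_lit 282))) (XT.nd (nat_lit 78) (nat_lit 380) (nat_lit 0) (XT.lf (nat_lit 0) (nat_lit 7180749562) (nat_lit 456) (nat_lit 3572773717) (nat_lit 76) (nat_lit 2692637642) (nat_lit 130) (nat_lit 5) (nat_lit 136) (nat_lit 5) (nat_lit 131) (nat_lit 5) (nat_lit 475) (nat_lit 384) (nat_lit 281)) (XT.lf (nat_lit 0) (nat_lit 3750747855) (nat_lit 380) (nat_lit 6574377366) (nat_lit 456) (nat_lit 3291068430) (nat_lit 125) (nat_lit 5) (nat_lit 130) (nat_lit 5) (nat_lit 131) (nat_lit 5) (nat_lit 476) (nat_lit 384) (nat_lit 280))))))))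
noncomputable def xc113 : XT := (XT.nd (nat_lit 2184) (nat_lit 2280) (nat_lit 0) (XT.nd (nat_lit 1092) (nat_lit 1976) (nat_lit 0) (XT.nd (nat_lit 546) (nat_lit 1216) (nat_lit 0) (XT.nd (nat_lit 234) (nat_lit 760) (nat_lit 0) (XT.nd (nat_lit 78) (nat_lit 380) (nat_lit 0) (XT.lf (nat_lit 0) (nat_lit 11239588099) (nat_lit 380) (nat_lit 2296923563) (nat_lit 456) (nat_lit 253041108) (nat_lit 125) (nat_lit 5) (nat_lit 130) (nat_lit 5) (nat_lit 131) (nat_lit 5) (nat_lit 477) (nat_lit 384) (nat_lit 279)) (XT.nd (nat_lit 78) (nat_lit 0) (nat_lit 0) (XT.lf (nat_lit 0) (nat_lit 2834511161) (nat_lit 380) (nat_lit 9050734562) (nat_lit 76) (nat_lit 2080249960) (nat_lit 120) (nat_lit 5) (nat_lit 125) (nat_lit 5) (nat_lit 121) (nat_lit 5) (nat_lit 478) (nat_lit 384) (nat_lit 278)) (XT.lf (nat_lit 0) (nat_lit 5993398977) (nat_lit 380) (nat_lit 1627679251) (nat_lit 76) (nat_lit 6523594045) (nat_lit 120) (nat_lit 5) (nat_lit 125)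 (nat_lit 5) (nat_lit 121) (nat_lit 5) (nat_lit 479) (nat_lit 384) (nat_lit 277)))) (XT.nd (nat_lit 156) (nat_lit 380) (nat_lit 0) (XT.nd (nat_lit 78) (nat_lit 0) (nat_lit 0) (XT.lf (nat_lit 0) (nat_lit 5993610725) (nat_lit 380) (nat_lit 3241683234) (nat_lit 456) (nat_lit 5091749421) (nat_lit 115) (nat_lit 5) (nat_lit 120) (nat_lit 5) (nat_lit 121) (nat_lit 5) (nat_lit 480) (nat_lit 384) (nat_lit 276)) (XT.lf (nat_lit 0) (nat_lit 12542017089) (nat_lit 456) (nat_lit 760447234) (nat_lit 76) (nat_lit 1210605207) (nat_lit 115) (nat_lit 5) (nat_lit 121) (nat_lit 5) (nat_lit 116) (nat_lit 5) (nat_lit 481) (nat_lit 384) (nat_lit 275))) (XT.nd (nat_lit 78) (nat_lit 0) (nat_lit 0) (XT.lf (nat_lit 0) (nat_lit 1244842688) (nat_lit 380) (nat_lit 7704029065) (nat_lit 76) (nat_lit 5752820586) (nat_lit 110) (nat_lit 5) (nat_lit 115) (nat_lit 5) (nat_lit 111) (nat_lit 5) (nat_lit 482) (nat_lit 384) (nat_lit 274)) (XT.lf (nat_lit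 0) (nat_lit 4485288800) (nat_lit 380) (nat_lit 14293251) (nat_lit 76) (nat_lit 10394519467) (nat_lit 110) (nat_lit 5) (nat_lit 115) (nat_lit 5) (nat_lit 111) (nat_lit 5) (nat_lit 483) (nat_lit 384) (nat_lit 273))))) (XT.nd (nat_lit 234) (nat_lit 608) (nat_lit 0) (XT.nd (nat_lit 78) (nat_lit 304) (nat_lit 0) (XT.lf (nat_lit 0) (nat_lit 7824223756) (nat_lit 380) (nat_lit 7185224277) (nat_lit 76) (nat_lit 80244109) (nat_lit 106) (nat_lit 5) (nat_lit 111) (nat_lit 5) (nat_lit 107) (nat_lit 5) (nat_lit 484) (nat_lit 384) (nat_lit 272)) (XT.nd (nat_lit 78) (nat_lit 0) (nat_lit 0) (XT.lf (nat_lit 0) (nat_lit 643215575) (nat_lit 304) (nat_lit 10602733756) (nat_lit 380) (nat_lit 4042931735) (nat_lit 102) (nat_lit 5) (nat_lit 106) (nat_lit 5) (nat_lit 107) (nat_lit 5) (nat_lit 485) (nat_lit 384) (nat_lit 271)) (XT.lf (nat_lit 0) (nat_lit 8697779802) (nat_lit 304) (nat_lit 6068660220) (nat_lit 380) (nat_lit 725013727) (nat_lit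 102) (nat_lit 5) (nat_lit 106) (nat_lit 5) (nat_lit 107) (nat_lit 5) (nat_lit 486) (nat_lit 384) (nat_lit 270)))) (XT.nd (nat_lit 156) (nat_lit 228) (nat_lit 0) (XT.nd (nat_lit 78) (nat_lit 0) (nat_lit 0) (XT.lf (nat_lit 0) (nat_lit 1186110676) (nat_lit 304) (nat_lit 1428318441) (nat_lit 380) (nat_lit 13083508928) (nat_lit 97) (nat_lit 5) (nat_lit 101) (nat_lit 5) (nat_lit 102) (nat_lit 5) (nat_lit 487) (nat_lit 384) (nat_lit 269)) (XT.lf (nat_lit 0) (nat_lit 6060756877) (nat_lit 380) (nat_lit 6544267572) (nat_lit 76) (nat_lit 3302441864) (nat_lit 97) (nat_lit 5) (nat_lit 102) (nat_lit 5) (nat_lit 98) (nat_lit 5) (nat_lit 488) (nat_lit 384) (nat_lit 268))) (XT.nd (nat_lit 78) (nat_lit 0) (nat_lit 0) (XT.lf (nat_lit 0) (nat_lit 1566625165) (nat_lit 228) (nat_lit 8011807566) (nat_lit 304) (nat_lit 6542710078) (nat_lit 94) (nat_lit 5) (nat_lit 97) (nat_lit 5) (nat_lit 98) (nat_lit 5) (nat_lit 489) (nat_lit 384) (nat_lit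 267)) (XT.lf (nat_lit 0) (nat_lit 9901517590) (nat_lit 228) (nat_lit 3291813501) (nat_lit 304) (nat_lit 3145230334) (nat_lit 94) (nat_lit 5) (nat_lit 97) (nat_lit 5) (nat_lit 98) (nat_lit 5) (nat_lit 490) (nat_lit 384) (nat_lit 266)))))) (XT.nd (nat_lit 546) (nat_lit 760) (nat_lit 0) (XT.nd (nat_lit 234) (nat_lit 608) (nat_lit 0) (XT.nd (nat_lit 78) (nat_lit 228) (nat_lit 0) (XT.lf (nat_lit 0) (nat_lit 321020295) (nat_lit 380) (nat_lit 14732125504) (nat_lit 76) (nat_lit 1507046360) (nat_lit 89) (nat_lit 5) (nat_lit 94) (nat_lit 5) (nat_lit 90) (nat_lit 5) (nat_lit 491) (nat_lit 384) (nat_lit 265)) (XT.nd (nat_lit 78) (nat_lit 228) (nat_lit 0) (XT.lf (nat_lit 0) (nat_lit 3863068780) (nat_lit 380) (nat_lit 6509301064) (nat_lit 76) (nat_lit 6412503744) (nat_lit 89) (nat_lit 5) (nat_lit 94) (nat_lit 5) (nat_lit 90) (nat_lit 5) (nat_lit 492) (nat_lit 384) (nat_lit 264)) (XT.lf (nat_lit 0) (nat_lit 1876383917) (nat_lit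 228) (nat_lit 5595351163) (nat_lit 304) (nat_lit 9542403545) (nat_lit 86) (nat_lit 5) (nat_lit 89) (nat_lit 5) (nat_lit 90) (nat_lit 5) (nat_lit 493) (nat_lit 384) (nat_lit 263)))) (XT.nd (nat_lit 156) (nat_lit 304) (nat_lit 0) (XT.nd (nat_lit 78) (nat_lit 304) (nat_lit 0) (XT.lf (nat_lit 0) (nat_lit 10491985230) (nat_lit 228) (nat_lit 688017092) (nat_lit 304) (nat_lit 6067443496) (nat_lit 86) (nat_lit 5) (nat_lit 89) (nat_lit 5) (nat_lit 90) (nat_lit 5) (nat_lit 494) (nat_lit 384) (nat_lit 262)) (XT.lf (nat_lit 0) (nat_lit 1763796121) (nat_lit 304) (nat_lit 13222125584) (nat_lit 380) (nat_lit 2499033019) (nat_lit 82) (nat_lit 5) (nat_lit 86) (nat_lit 5) (nat_lit 87) (nat_lit 5) (nat_lit 495) (nat_lit 384) (nat_lit 261))) (XT.nd (nat_lit 78) (nat_lit 228) (nat_lit 0) (XT.lf (nat_lit 0) (nat_lit 1160014384) (nat_lit 380) (nat_lit 7219391756) (nat_lit 76) (nat_lit 9346980038) (nat_lit 81) (nat_lit 5) (nat_lit 86)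 (nat_lit 5) (nat_lit 82) (nat_lit 5) (nat_lit 496) (nat_lit 384) (nat_lit 260)) (XT.lf (nat_lit 0) (nat_lit 1429280799) (nat_lit 228) (nat_lit 3423164419) (nat_lit 304) (nat_lit 13120002377) (nat_lit 78) (nat_lit 5) (nat_lit 81) (nat_lit 5) (nat_lit 82) (nat_lit 5) (nat_lit 497) (nat_lit 384) (nat_lit 259))))) (XT.nd (nat_lit 234) (nat_lit 532) (nat_lit 0) (XT.nd (nat_lit 78) (nat_lit 228) (nat_lit 0) (XT.lf (nat_lit 0) (nat_lit 8662522940) (nat_lit 304) (nat_lit 7910002612) (nat_lit 76) (nat_lit 1650033622) (nat_lit 78) (nat_lit 5) (nat_lit 82) (nat_lit 5) (nat_lit 79) (nat_lit 5) (nat_lit 498) (nat_lit 384) (nat_lit 258)) (XT.nd (nat_lit 78) (nat_lit 0) (nat_lit 0) (XT.lf (nat_lit 0) (nat_lit 859515160) (nat_lit 228) (nat_lit 11702276952) (nat_lit 304) (nat_lit 5915625879) (nat_lit 75) (nat_lit 5) (nat_lit 78) (nat_lit 5) (nat_lit 79) (nat_lit 5) (nat_lit 499) (nat_lit 384) (nat_lit 257)) (XT.lf (nat_lit 0) (nat_lit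 9886896925) (nat_lit 228) (nat_lit 6690107959) (nat_lit 304) (nat_lit 2159614644) (nat_lit 75) (nat_lit 5) (nat_lit 78) (nat_lit 5) (nat_lit 79) (nat_lit 5) (nat_lit 500) (nat_lit 384) (nat_lit 256)))) (XT.nd (nat_lit 156) (nat_lit 228) (nat_lit 0) (XT.nd (nat_lit 78) (nat_lit 0) (nat_lit 0) (XT.lf (nat_lit 0) (nat_lit 59279919) (nat_lit 228) (nat_lit 1575771244) (nat_lit 304) (nat_lit 17366032274) (nat_lit 71) (nat_lit 5) (nat_lit 74) (nat_lit 5) (nat_lit 75) (nat_lit 5) (nat_lit 501) (nat_lit 384) (nat_lit 255)) (XT.lf (nat_lit 0) (nat_lit 5545283345) (nat_lit 304) (nat_lit 10066104052) (nat_lit 76) (nat_lit 3657796357) (nat_lit 71) (nat_lit 5) (nat_lit 75) (nat_lit 5) (nat_lit 72) (nat_lit 5) (nat_lit 502) (nat_lit 384) (nat_lit 254))) (XT.nd (nat_lit 78) (nat_lit 228) (nat_lit 0) (XT.lf (nat_lit 0) (nat_lit 9529591876) (nat_lit 304) (nat_lit 1047388684) (nat_lit 76) (nat_lit 8965752435) (nat_lit 71) (nat_lit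 5) (nat_lit 75) (nat_lit 5) (nat_lit 72) (nat_lit 5) (nat_lit 503) (nat_lit 384) (nat_lit 253)) (XT.lf (nat_lit 0) (nat_lit 8236128596) (nat_lit 228) (nat_lit 5396654090) (nat_lit 304) (nat_lit 6188190877) (nat_lit 68) (nat_lit 5) (nat_lit 71) (nat_lit 5) (nat_lit 72) (nat_lit 5) (nat_lit 504) (nat_lit 384) (nat_lit 252))))))) (XT.nd (nat_lit 1092) (nat_lit 836) (nat_lit 0) (XT.nd (nat_lit 546) (nat_lit 684) (nat_lit 0) (XT.nd (nat_lit 234) (nat_lit 456) (nat_lit 0) (XT.nd (nat_lit 78) (nat_lit 304) (nat_lit 0) (XT.lf (nat_lit 0) (nat_lit 17696078351) (nat_lit 228) (nat_lit 114836999) (nat_lit 304) (nat_lit 2294010213) (nat_lit 68) (nat_lit 5) (nat_lit 71) (nat_lit 5) (nat_lit 72) (nat_lit 5) (nat_lit 505) (nat_lit 384) (nat_lit 251)) (XT.nd (nat_lit 78) (nat_lit 0) (nat_lit 0) (XT.lf (nat_lit 0) (nat_lit 1722128259) (nat_lit 304) (nat_lit 13419731213) (nat_lit 76) (nat_lit 5251161605) (nat_lit 64) (nat_lit 5)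 (nat_lit 68) (nat_lit 5) (nat_lit 65) (nat_lit 5) (nat_lit 506) (nat_lit 384) (nat_lit 250)) (XT.lf (nat_lit 0) (nat_lit 5791029613) (nat_lit 304) (nat_lit 4150127182) (nat_lit 76) (nat_lit 10745359239) (nat_lit 64) (nat_lit 5) (nat_lit 68) (nat_lit 5) (nat_lit 65) (nat_lit 5) (nat_lit 507) (nat_lit 384) (nat_lit 249)))) (XT.nd (nat_lit 156) (nat_lit 228) (nat_lit 0) (XT.nd (nat_lit 78) (nat_lit 0) (nat_lit 0) (XT.lf (nat_lit 0) (nat_lit 5352286169) (nat_lit 228) (nat_lit 4610142047) (nat_lit 304) (nat_lit 11023034155) (nat_lit 61) (nat_lit 5) (nat_lit 64) (nat_lit 5) (nat_lit 65) (nat_lit 5) (nat_lit 508) (nat_lit 384) (nat_lit 248)) (XT.lf (nat_lit 0) (nat_lit 14237091185) (nat_lit 304) (nat_lit 6217227756) (nat_lit 76) (nat_lit 835675751) (nat_lit 61) (nat_lit 5) (nat_lit 65) (nat_lit 5) (nat_lit 62) (nat_lit 5) (nat_lit 509) (nat_lit 384) (nat_lit 247))) (XT.nd (nat_lit 78) (nat_lit 76) (nat_lit 0) (XT.lf (nat_lit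 0) (nat_lit 3378421542) (nat_lit 152) (nat_lit 15257987436) (nat_lit 228) (nat_lit 2963429164) (nat_lit 59) (nat_lit 5) (nat_lit 61) (nat_lit 5) (nat_lit 62) (nat_lit 5) (nat_lit 510) (nat_lit 384) (nat_lit 246)) (XT.lf (nat_lit 0) (nat_lit 1220712219) (nat_lit 228) (nat_lit 8695331092) (nat_lit 76) (nat_lit 11999107506) (nat_lit 58) (nat_lit 5) (nat_lit 61) (nat_lit 5) (nat_lit 59) (nat_lit 5) (nat_lit 511) (nat_lit 384) (nat_lit 245))))) (XT.nd (nat_lit 234) (nat_lit 456) (nat_lit 0) (XT.nd (nat_lit 78) (nat_lit 0) (nat_lit 0) (XT.lf (nat_lit 0) (nat_lit 992681062) (nat_lit 228) (nat_lit 4449639009) (nat_lit 304) (nat_lit 16794192130) (nat_lit 55) (nat_lit 5) (nat_lit 58) (nat_lit 5) (nat_lit 59) (nat_lit 5) (nat_lit 512) (nat_lit 384) (nat_lit 244)) (XT.nd (nat_lit 78) (nat_lit 0) (nat_lit 0) (XT.lf (nat_lit 0) (nat_lit 9801445212) (nat_lit 304) (nat_lit 11600558334) (nat_lit 76) (nat_lit 1161238993) (nat_lit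 55) (nat_lit 5) (nat_lit 59) (nat_lit 5) (nat_lit 56) (nat_lit 5) (nat_lit 513) (nat_lit 384) (nat_lit 243)) (XT.lf (nat_lit 0) (nat_lit 14264511951) (nat_lit 304) (nat_lit 1815503291) (nat_lit 76) (nat_lit 6816160424) (nat_lit 55) (nat_lit 5) (nat_lit 59) (nat_lit 5) (nat_lit 56) (nat_lit 5) (nat_lit 514) (nat_lit 384) (nat_lit 242)))) (XT.nd (nat_lit 156) (nat_lit 304) (nat_lit 0) (XT.nd (nat_lit 78) (nat_lit 0) (nat_lit 0) (XT.lf (nat_lit 0) (nat_lit 8252291562) (nat_lit 152) (nat_lit 10605668290) (nat_lit 228) (nat_lit 4376988502) (nat_lit 53) (nat_lit 5) (nat_lit 55) (nat_lit 5) (nat_lit 56) (nat_lit 5) (nat_lit 515) (nat_lit 384) (nat_lit 241)) (XT.lf (nat_lit 0) (nat_lit 18524999778) (nat_lit 152) (nat_lit 5018108014) (nat_lit 228) (nat_lit 37395315) (nat_lit 53) (nat_lit 5) (nat_lit 55) (nat_lit 5) (nat_lit 56) (nat_lit 5) (nat_lit 516) (nat_lit 384) (nat_lit 240))) (XT.nd (nat_lit 78) (nat_lit 0) (nat_lit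 0) (XT.lf (nat_lit 0) (nat_lit 4357040886) (nat_lit 304) (nat_lit 18849142272) (nat_lit 76) (nat_lit 725706709) (nat_lit 49) (nat_lit 5) (nat_lit 53) (nat_lit 5) (nat_lit 50) (nat_lit 5) (nat_lit 517) (nat_lit 384) (nat_lit 239)) (XT.lf (nat_lit 0) (nat_lit 8894103972) (nat_lit 304) (nat_lit 8851895218) (nat_lit 76) (nat_lit 6543198496) (nat_lit 49) (nat_lit 5) (nat_lit 53) (nat_lit 5) (nat_lit 50) (nat_lit 5) (nat_lit 518) (nat_lit 384) (nat_lit 238)))))) (XT.nd (nat_lit 546) (nat_lit 228) (nat_lit 0) (XT.nd (nat_lit 234) (nat_lit 456) (nat_lit 0) (XT.nd (nat_lit 78) (nat_lit 0) (nat_lit 0) (XT.lf (nat_lit 0) (nat_lit 1342455527) (nat_lit 152) (nat_lit 12176263174) (nat_lit 228) (nat_lit 11134999739) (nat_lit 47) (nat_lit 5) (nat_lit 49) (nat_lit 5) (nat_lit 50) (nat_lit 5) (nat_lit 519) (nat_lit 384) (nat_lit 237)) (XT.nd (nat_lit 78) (nat_lit 0) (nat_lit 0) (XT.lf (nat_lit 0) (nat_lit 11840369786) (nat_lit 152)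 (nat_lit 6443052643) (nat_lit 228) (nat_lit 6741158174) (nat_lit 47) (nat_lit 5) (nat_lit 49) (nat_lit 5) (nat_lit 50) (nat_lit 5) (nat_lit 520) (nat_lit 384) (nat_lit 236)) (XT.lf (nat_lit 0) (nat_lit 22528327360) (nat_lit 152) (nat_lit 603520153) (nat_lit 228) (nat_lit 2271246820) (nat_lit 47) (nat_lit 5) (nat_lit 49) (nat_lit 5) (nat_lit 50) (nat_lit 5) (nat_lit 521) (nat_lit 384) (nat_lit 235)))) (XT.nd (nat_lit 156) (nat_lit 152) (nat_lit 0) (XT.nd (nat_lit 78) (nat_lit 0) (nat_lit 0) (XT.lf (nat_lit 0) (nat_lit 2331802473) (nat_lit 304) (nat_lit 18115826551) (nat_lit 76) (nat_lit 5339779999) (nat_lit 43) (nat_lit 5) (nat_lit 47) (nat_lit 5) (nat_lit 44) (nat_lit 5) (nat_lit 522) (nat_lit 384) (nat_lit 234)) (XT.lf (nat_lit 0) (nat_lit 7008564924) (nat_lit 304) (nat_lit 7750088437) (nat_lit 76) (nat_lit 11420217808) (nat_lit 43) (nat_lit 5) (nat_lit 47) (nat_lit 5) (nat_lit 44) (nat_lit 5) (nat_lit 523) (nat_lit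 384) (nat_lit 233))) (XT.nd (nat_lit 78) (nat_lit 0) (nat_lit 0) (XT.lf (nat_lit 0) (nat_lit 2840884486) (nat_lit 152) (nat_lit 8945266142) (nat_lit 228) (nat_lit 14791868821) (nat_lit 41) (nat_lit 5) (nat_lit 43) (nat_lit 5) (nat_lit 44) (nat_lit 5) (nat_lit 524) (nat_lit 384) (nat_lit 232)) (XT.lf (nat_lit 0) (nat_lit 13729519922) (nat_lit 152) (nat_lit 2970712426) (nat_lit 228) (nat_lit 10284102061) (nat_lit 41) (nat_lit 5) (nat_lit 43) (nat_lit 5) (nat_lit 44) (nat_lit 5) (nat_lit 525) (nat_lit 384) (nat_lit 231))))) (XT.nd (nat_lit 48438) (nat_lit 0) (nat_lit 45372) (XT.nd (nat_lit 156) (nat_lit 76) (nat_lit 0) (XT.nd (nat_lit 78) (nat_lit 152) (nat_lit 0) (XT.lf (nat_lit 0) (nat_lit 21721976626) (nat_lit 228) (nat_lit 2602128687) (nat_lit 76) (nat_lit 3074485286) (nat_lit 41) (nat_lit 5) (nat_lit 44) (nat_lit 5) (nat_lit 42) (nat_lit 5) (nat_lit 526) (nat_lit 384) (nat_lit 230)) (XT.lf (nat_lit 0) (nat_lit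 8334617500) (nat_lit 152) (nat_lit 18572641607) (nat_lit 228) (nat_lit 912613237) (nat_lit 39) (nat_lit 5) (nat_lit 41) (nat_lit 5) (nat_lit 42) (nat_lit 5) (nat_lit 527) (nat_lit 384) (nat_lit 229))) (XT.nd (nat_lit 48204) (nat_lit 0) (nat_lit 45904) (XT.lf (nat_lit 0) (nat_lit 3901816164) (nat_lit 228) (nat_lit 8768250710) (nat_lit 76) (nat_lit 15578864566) (nat_lit 38) (nat_lit 5) (nat_lit 41) (nat_lit 5) (nat_lit 39) (nat_lit 5) (nat_lit 528) (nat_lit 384) (nat_lit 228)) (XT.lf (nat_lit 0) (nat_lit 564417367) (nat_lit 0) (nat_lit 564417367) (nat_lit 380) (nat_lit 2116788369) (nat_lit 642) (nat_lit 5) (nat_lit 642) (nat_lit 3) (nat_lit 647) (nat_lit 3) (nat_lit 385) (nat_lit 385) (nat_lit 370)))) (XT.nd (nat_lit 156) (nat_lit 0) (nat_lit 76) (XT.nd (nat_lit 78) (nat_lit 532) (nat_lit 0) (XT.lf (nat_lit 0) (nat_lit 4197468118) (nat_lit 0) (nat_lit 657288176) (nat_lit 380) (nat_lit 1646924549) (nat_lit 642) (nat_lit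 5) (nat_lit 642) (nat_lit 3) (nat_lit 647) (nat_lit 3) (nat_lit 386) (nat_lit 385) (nat_lit 369)) (XT.lf (nat_lit 76) (nat_lit 784251975) (nat_lit 0) (nat_lit 131242521) (nat_lit 532) (nat_lit 5598037021) (nat_lit 636) (nat_lit 5) (nat_lit 635) (nat_lit 3) (nat_lit 642) (nat_lit 5) (nat_lit 387) (nat_lit 385) (nat_lit 368))) (XT.nd (nat_lit 78) (nat_lit 0) (nat_lit 0) (XT.lf (nat_lit 0) (nat_lit 3458592678) (nat_lit 456) (nat_lit 2609373157) (nat_lit 532) (nat_lit 458481308) (nat_lit 636) (nat_lit 5) (nat_lit 642) (nat_lit 5) (nat_lit 643) (nat_lit 5) (nat_lit 388) (nat_lit 385) (nat_lit 367)) (XT.lf (nat_lit 76) (nat_lit 543759823) (nat_lit 0) (nat_lit 5447767063) (nat_lit 532) (nat_lit 549388560) (nat_lit 637) (nat_lit 5) (nat_lit 636) (nat_lit 5) (nat_lit 643) (nat_lit 5) (nat_lit 389) (nat_lit 385) (nat_lit 366))))))))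
noncomputable def xc114 : XT := (XT.nd (nat_lit 2184) (nat_lit 15808) (nat_lit 0) (XT.nd (nat_lit 1092) (nat_lit 9804) (nat_lit 0) (XT.nd (nat_lit 546) (nat_lit 2280) (nat_lit 0) (XT.nd (nat_lit 234) (nat_lit 684) (nat_lit 0) (XT.nd (nat_lit 78) (nat_lit 608) (nat_lit 0) (XT.lf (nat_lit 0) (nat_lit 1945718501) (nat_lit 532) (nat_lit 2809358079) (nat_lit 608) (nat_lit 1801350138) (nat_lit 629) (nat_lit 5) (nat_lit 636) (nat_lit 5) (nat_lit 637) (nat_lit 5) (nat_lit 390) (nat_lit 385) (nat_lit 365)) (XT.nd (nat_lit 78) (nat_lit 608) (nat_lit 0) (XT.lf (nat_lit 76) (nat_lit 408489174) (nat_lit 0) (nat_lit 4013944234) (nat_lit 608) (nat_lit 2151030525) (nat_lit 630) (nat_lit 5) (nat_lit 629) (nat_lit 5) (nat_lit 637) (nat_lit 5) (nat_lit 391) (nat_lit 385) (nat_lit 364)) (XT.lf (nat_lit 0) (nat_lit 309064407) (nat_lit 608) (nat_lit 2900235251) (nat_lit 684) (nat_lit 3382444316) (nat_lit 621) (nat_lit 5) (nat_lit 629)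 (nat_lit 5) (nat_lit 630) (nat_lit 5) (nat_lit 392) (nat_lit 385) (nat_lit 363)))) (XT.nd (nat_lit 156) (nat_lit 684) (nat_lit 0) (XT.nd (nat_lit 78) (nat_lit 0) (nat_lit 0) (XT.lf (nat_lit 76) (nat_lit 385216607) (nat_lit 0) (nat_lit 2345046525) (nat_lit 684) (nat_lit 3881093607) (nat_lit 622) (nat_lit 5) (nat_lit 621) (nat_lit 5) (nat_lit 630) (nat_lit 5) (nat_lit 393) (nat_lit 385) (nat_lit 362)) (XT.lf (nat_lit 76) (nat_lit 3740534391) (nat_lit 0) (nat_lit 1417973706) (nat_lit 684) (nat_lit 1473745505) (nat_lit 622) (nat_lit 5) (nat_lit 621) (nat_lit 5) (nat_lit 630) (nat_lit 5) (nat_lit 394) (nat_lit 385) (nat_lit 361))) (XT.nd (nat_lit 78) (nat_lit 0) (nat_lit 76) (XT.lf (nat_lit 76) (nat_lit 473903524) (nat_lit 0) (nat_lit 437942991) (nat_lit 760) (nat_lit 5742796739) (nat_lit 613) (nat_lit 5) (nat_lit 612) (nat_lit 5) (nat_lit 622) (nat_lit 5) (nat_lit 395) (nat_lit 385) (nat_lit 360)) (XT.lf (nat_lit 0)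 (nat_lit 3289618428) (nat_lit 684) (nat_lit 2781086332) (nat_lit 760) (nat_lit 607357661) (nat_lit 613) (nat_lit 5) (nat_lit 622) (nat_lit 5) (nat_lit 623) (nat_lit 5) (nat_lit 396) (nat_lit 385) (nat_lit 359))))) (XT.nd (nat_lit 234) (nat_lit 1596) (nat_lit 0) (XT.nd (nat_lit 78) (nat_lit 760) (nat_lit 0) (XT.lf (nat_lit 76) (nat_lit 656490235) (nat_lit 0) (nat_lit 5007777743) (nat_lit 760) (nat_lit 1038754940) (nat_lit 614) (nat_lit 5) (nat_lit 613) (nat_lit 5) (nat_lit 623) (nat_lit 5) (nat_lit 397) (nat_lit 385) (nat_lit 358)) (XT.nd (nat_lit 78) (nat_lit 0) (nat_lit 0) (XT.lf (nat_lit 0) (nat_lit 1301532933) (nat_lit 760) (nat_lit 2572896581) (nat_lit 836) (nat_lit 2854705575) (nat_lit 603) (nat_lit 5) (nat_lit 613) (nat_lit 5) (nat_lit 614) (nat_lit 5) (nat_lit 398) (nat_lit 385) (nat_lit 357)) (XT.lf (nat_lit 76) (nat_lit 940010761) (nat_lit 0) (nat_lit 2684576348) (nat_lit 836) (nat_lit 3132103649) (nat_lit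 604) (nat_lit 5) (nat_lit 603) (nat_lit 5) (nat_lit 614) (nat_lit 5) (nat_lit 399) (nat_lit 385) (nat_lit 356)))) (XT.nd (nat_lit 156) (nat_lit 760) (nat_lit 0) (XT.nd (nat_lit 78) (nat_lit 836) (nat_lit 0) (XT.lf (nat_lit 76) (nat_lit 4522636366) (nat_lit 0) (nat_lit 1433357722) (nat_lit 836) (nat_lit 829620486) (nat_lit 604) (nat_lit 5) (nat_lit 603) (nat_lit 5) (nat_lit 614) (nat_lit 5) (nat_lit 400) (nat_lit 385) (nat_lit 355)) (XT.lf (nat_lit 76) (nat_lit 1333929125) (nat_lit 0) (nat_lit 119022535) (nat_lit 912) (nat_lit 5362941507) (nat_lit 593) (nat_lit 5) (nat_lit 592) (nat_lit 5) (nat_lit 604) (nat_lit 5) (nat_lit 401) (nat_lit 385) (nat_lit 354))) (XT.nd (nat_lit 78) (nat_lit 836) (nat_lit 0) (XT.lf (nat_lit 0) (nat_lit 3739558444) (nat_lit 836) (nat_lit 1863067320) (nat_lit 76) (nat_lit 1244703760) (nat_lit 593) (nat_lit 5) (nat_lit 604) (nat_lit 5) (nat_lit 594) (nat_lit 5) (nat_lit 402) (nat_lit 385)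 (nat_lit 353)) (XT.lf (nat_lit 0) (nat_lit 1815427393) (nat_lit 836) (nat_lit 4216362462) (nat_lit 912) (nat_lit 848457594) (nat_lit 582) (nat_lit 5) (nat_lit 593) (nat_lit 5) (nat_lit 594) (nat_lit 5) (nat_lit 403) (nat_lit 385) (nat_lit 352)))))) (XT.nd (nat_lit 546) (nat_lit 5472) (nat_lit 0) (XT.nd (nat_lit 234) (nat_lit 3344) (nat_lit 0) (XT.nd (nat_lit 78) (nat_lit 912) (nat_lit 0) (XT.lf (nat_lit 0) (nat_lit 1397257621) (nat_lit 912) (nat_lit 1366672950) (nat_lit 76) (nat_lit 4150546577) (nat_lit 581) (nat_lit 5) (nat_lit 593) (nat_lit 5) (nat_lit 582) (nat_lit 5) (nat_lit 404) (nat_lit 385) (nat_lit 351)) (XT.nd (nat_lit 78) (nat_lit 0) (nat_lit 0) (XT.lf (nat_lit 0) (nat_lit 2395640129) (nat_lit 912) (nat_lit 1245202591) (nat_lit 988) (nat_lit 3309197994) (nat_lit 569) (nat_lit 5) (nat_lit 581) (nat_lit 5) (nat_lit 582) (nat_lit 5) (nat_lit 405) (nat_lit 385) (nat_lit 350)) (XT.lf (nat_lit 0) (nat_lit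 5890129565) (nat_lit 988) (nat_lit 772958400) (nat_lit 76) (nat_lit 324057815) (nat_lit 569) (nat_lit 5) (nat_lit 582) (nat_lit 5) (nat_lit 570) (nat_lit 5) (nat_lit 406) (nat_lit 385) (nat_lit 349)))) (XT.nd (nat_lit 156) (nat_lit 2280) (nat_lit 0) (XT.nd (nat_lit 78) (nat_lit 0) (nat_lit 0) (XT.lf (nat_lit 0) (nat_lit 1122877664) (nat_lit 1064) (nat_lit 3952383373) (nat_lit 76) (nat_lit 1950052882) (nat_lit 555) (nat_lit 5) (nat_lit 569) (nat_lit 5) (nat_lit 556) (nat_lit 5) (nat_lit 407) (nat_lit 385) (nat_lit 348)) (XT.lf (nat_lit 0) (nat_lit 3328699102) (nat_lit 1064) (nat_lit 101487576) (nat_lit 76) (nat_lit 3634833472) (nat_lit 555) (nat_lit 5) (nat_lit 569) (nat_lit 5) (nat_lit 556) (nat_lit 5) (nat_lit 408) (nat_lit 385) (nat_lit 347))) (XT.nd (nat_lit 78) (nat_lit 1216) (nat_lit 0) (XT.lf (nat_lit 0) (nat_lit 3841254426) (nat_lit 1064) (nat_lit 1714267308) (nat_lit 1140) (nat_lit 1550504340) (nat_lit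 541) (nat_lit 5) (nat_lit 555) (nat_lit 5) (nat_lit 556) (nat_lit 5) (nat_lit 409) (nat_lit 385) (nat_lit 346)) (XT.lf (nat_lit 0) (nat_lit 627931025) (nat_lit 1216) (nat_lit 6464062878) (nat_lit 76) (nat_lit 56655466) (nat_lit 525) (nat_lit 5) (nat_lit 541) (nat_lit 5) (nat_lit 526) (nat_lit 5) (nat_lit 410) (nat_lit 385) (nat_lit 345))))) (XT.nd (nat_lit 234) (nat_lit 4256) (nat_lit 0) (XT.nd (nat_lit 78) (nat_lit 1216) (nat_lit 0) (XT.lf (nat_lit 0) (nat_lit 2815677884) (nat_lit 1216) (nat_lit 2493075291) (nat_lit 76) (nat_lit 1883477665) (nat_lit 525) (nat_lit 5) (nat_lit 541) (nat_lit 5) (nat_lit 526) (nat_lit 5) (nat_lit 411) (nat_lit 385) (nat_lit 344)) (XT.nd (nat_lit 78) (nat_lit 0) (nat_lit 0) (XT.lf (nat_lit 0) (nat_lit 1541461462) (nat_lit 1216) (nat_lit 3469724882) (nat_lit 1292) (nat_lit 2226257433) (nat_lit 509) (nat_lit 5) (nat_lit 525) (nat_lit 5) (nat_lit 526) (nat_lit 5) (nat_lit 412) (nat_lit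 385) (nat_lit 343)) (XT.lf (nat_lit 0) (nat_lit 5654633530) (nat_lit 1216) (nat_lit 1567368996) (nat_lit 1292) (nat_lit 62169681) (nat_lit 509) (nat_lit 5) (nat_lit 525) (nat_lit 5) (nat_lit 526) (nat_lit 5) (nat_lit 413) (nat_lit 385) (nat_lit 342)))) (XT.nd (nat_lit 156) (nat_lit 2888) (nat_lit 0) (XT.nd (nat_lit 78) (nat_lit 0) (nat_lit 0) (XT.lf (nat_lit 0) (nat_lit 2091209966) (nat_lit 1368) (nat_lit 4833513498) (nat_lit 76) (nat_lit 407387948) (nat_lit 491) (nat_lit 5) (nat_lit 509) (nat_lit 5) (nat_lit 492) (nat_lit 5) (nat_lit 414) (nat_lit 385) (nat_lit 341)) (XT.lf (nat_lit 0) (nat_lit 4264140186) (nat_lit 1368) (nat_lit 696788025) (nat_lit 76) (nat_lit 2420563586) (nat_lit 491) (nat_lit 5) (nat_lit 509) (nat_lit 5) (nat_lit 492) (nat_lit 5) (nat_lit 415) (nat_lit 385) (nat_lit 340))) (XT.nd (nat_lit 78) (nat_lit 1520) (nat_lit 0) (XT.lf (nat_lit 0) (nat_lit 3533207345) (nat_lit 1368) (nat_lit 2927053009)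 (nat_lit 1444) (nat_lit 972041011) (nat_lit 473) (nat_lit 5) (nat_lit 491) (nat_lit 5) (nat_lit 492) (nat_lit 5) (nat_lit 416) (nat_lit 385) (nat_lit 339)) (XT.lf (nat_lit 0) (nat_lit 333487977) (nat_lit 1444) (nat_lit 830700086) (nat_lit 1520) (nat_lit 6320536681) (nat_lit 453) (nat_lit 5) (nat_lit 472) (nat_lit 5) (nat_lit 473) (nat_lit 5) (nat_lit 417) (nat_lit 385) (nat_lit 338))))))) (XT.nd (nat_lit 1092) (nat_lit 5928) (nat_lit 0) (XT.nd (nat_lit 546) (nat_lit 3496) (nat_lit 0) (XT.nd (nat_lit 234) (nat_lit 4788) (nat_lit 0) (XT.nd (nat_lit 78) (nat_lit 1596) (nat_lit 0) (XT.lf (nat_lit 0) (nat_lit 3322706192) (nat_lit 1520) (nat_lit 2886054990) (nat_lit 76) (nat_lit 1329489416) (nat_lit 453) (nat_lit 5) (nat_lit 473) (nat_lit 5) (nat_lit 454) (nat_lit 5) (nat_lit 418) (nat_lit 385) (nat_lit 337)) (XT.nd (nat_lit 78) (nat_lit 76) (nat_lit 0) (XT.lf (nat_lit 0) (nat_lit 1441703725) (nat_lit 1520) (nat_lit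 4056121413) (nat_lit 1596) (nat_lit 2095586665) (nat_lit 433) (nat_lit 5) (nat_lit 453) (nat_lit 5) (nat_lit 454) (nat_lit 5) (nat_lit 419) (nat_lit 385) (nat_lit 336)) (XT.lf (nat_lit 0) (nat_lit 44234783) (nat_lit 1596) (nat_lit 1791186748) (nat_lit 76) (nat_lit 5814711372) (nat_lit 432) (nat_lit 5) (nat_lit 453) (nat_lit 5) (nat_lit 433) (nat_lit 5) (nat_lit 420) (nat_lit 385) (nat_lit 335)))) (XT.nd (nat_lit 156) (nat_lit 3192) (nat_lit 0) (XT.nd (nat_lit 78) (nat_lit 0) (nat_lit 0) (XT.lf (nat_lit 0) (nat_lit 2178646829) (nat_lit 1672) (nat_lit 5069679810) (nat_lit 76) (nat_lit 459819183) (nat_lit 411) (nat_lit 5) (nat_lit 433) (nat_lit 5) (nat_lit 412) (nat_lit 5) (nat_lit 421) (nat_lit 385) (nat_lit 334)) (XT.lf (nat_lit 0) (nat_lit 4340241811) (nat_lit 1672) (nat_lit 634700276) (nat_lit 76) (nat_lit 2792717916) (nat_lit 411) (nat_lit 5) (nat_lit 433) (nat_lit 5) (nat_lit 412) (nat_lit 5) (nat_lit 422) (nat_lit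 385) (nat_lit 333))) (XT.nd (nat_lit 78) (nat_lit 1520) (nat_lit 0) (XT.lf (nat_lit 0) (nat_lit 3904521864) (nat_lit 1672) (nat_lit 2626917356) (nat_lit 1748) (nat_lit 1297228128) (nat_lit 389) (nat_lit 5) (nat_lit 411) (nat_lit 5) (nat_lit 412) (nat_lit 5) (nat_lit 423) (nat_lit 385) (nat_lit 332)) (XT.lf (nat_lit 0) (nat_lit 618749710) (nat_lit 1444) (nat_lit 214907680) (nat_lit 1520) (nat_lit 7057761374) (nat_lit 369) (nat_lit 5) (nat_lit 388) (nat_lit 5) (nat_lit 389) (nat_lit 5) (nat_lit 424) (nat_lit 385) (nat_lit 331))))) (XT.nd (nat_lit 234) (nat_lit 2660) (nat_lit 0) (XT.nd (nat_lit 78) (nat_lit 836) (nat_lit 0) (XT.lf (nat_lit 0) (nat_lit 2992706215) (nat_lit 1520) (nat_lit 2709093051) (nat_lit 76) (nat_lit 2253424683) (nat_lit 369) (nat_lit 5) (nat_lit 389) (nat_lit 5) (nat_lit 370) (nat_lit 5) (nat_lit 425) (nat_lit 385) (nat_lit 330)) (XT.nd (nat_lit 78) (nat_lit 0) (nat_lit 0) (XT.lf (nat_lit 0) (nat_lit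 1933864236) (nat_lit 836) (nat_lit 3237613212) (nat_lit 912) (nat_lit 2849324947) (nat_lit 358) (nat_lit 5) (nat_lit 369) (nat_lit 5) (nat_lit 370) (nat_lit 5) (nat_lit 426) (nat_lit 385) (nat_lit 329)) (XT.lf (nat_lit 0) (nat_lit 6670808881) (nat_lit 836) (nat_lit 704259910) (nat_lit 912) (nat_lit 713026160) (nat_lit 358) (nat_lit 5) (nat_lit 369) (nat_lit 5) (nat_lit 370) (nat_lit 5) (nat_lit 427) (nat_lit 385) (nat_lit 328)))) (XT.nd (nat_lit 156) (nat_lit 1672) (nat_lit 0) (XT.nd (nat_lit 78) (nat_lit 0) (nat_lit 0) (XT.lf (nat_lit 0) (nat_lit 1444429325) (nat_lit 988) (nat_lit 4824583328) (nat_lit 76) (nat_lit 1887603561) (nat_lit 345) (nat_lit 5) (nat_lit 358) (nat_lit 5) (nat_lit 346) (nat_lit 5) (nat_lit 428) (nat_lit 385) (nat_lit 327)) (XT.lf (nat_lit 0) (nat_lit 3613748375) (nat_lit 988) (nat_lit 76142231) (nat_lit 76) (nat_lit 4536983649) (nat_lit 345) (nat_lit 5) (nat_lit 358) (nat_lit 5) (nat_lit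 346) (nat_lit 5) (nat_lit 429) (nat_lit 385) (nat_lit 326))) (XT.nd (nat_lit 78) (nat_lit 836) (nat_lit 0) (XT.lf (nat_lit 0) (nat_lit 4794933051) (nat_lit 836) (nat_lit 1027373482) (nat_lit 912) (nat_lit 2476339217) (nat_lit 334) (nat_lit 5) (nat_lit 345) (nat_lit 5) (nat_lit 346) (nat_lit 5) (nat_lit 430) (nat_lit 385) (nat_lit 325)) (XT.lf (nat_lit 0) (nat_lit 1363831513) (nat_lit 836) (nat_lit 6696720031) (nat_lit 912) (nat_lit 311615666) (nat_lit 323) (nat_lit 5) (nat_lit 334) (nat_lit 5) (nat_lit 335) (nat_lit 5) (nat_lit 431) (nat_lit 385) (nat_lit 324)))))) (XT.nd (nat_lit 546) (nat_lit 2812) (nat_lit 0) (XT.nd (nat_lit 234) (nat_lit 2280) (nat_lit 0) (XT.nd (nat_lit 78) (nat_lit 760) (nat_lit 0) (XT.lf (nat_lit 0) (nat_lit 1867386962) (nat_lit 912) (nat_lit 2125699018) (nat_lit 76) (nat_lit 4453933624) (nat_lit 322) (nat_lit 5) (nat_lit 334) (nat_lit 5) (nat_lit 323) (nat_lit 5) (nat_lit 432) (nat_lit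 385) (nat_lit 323)) (XT.nd (nat_lit 78) (nat_lit 0) (nat_lit 0) (XT.lf (nat_lit 0) (nat_lit 2854713555) (nat_lit 760) (nat_lit 1215685878) (nat_lit 836) (nat_lit 4453259790) (nat_lit 312) (nat_lit 5) (nat_lit 322) (nat_lit 5) (nat_lit 323) (nat_lit 5) (nat_lit 433) (nat_lit 385) (nat_lit 322)) (XT.lf (nat_lit 0) (nat_lit 6308823393) (nat_lit 836) (nat_lit 684296702) (nat_lit 76) (nat_lit 1608907468) (nat_lit 312) (nat_lit 5) (nat_lit 323) (nat_lit 5) (nat_lit 313) (nat_lit 5) (nat_lit 434) (nat_lit 385) (nat_lit 321)))) (XT.nd (nat_lit 156) (nat_lit 760) (nat_lit 0) (XT.nd (nat_lit 78) (nat_lit 760) (nat_lit 0) (XT.lf (nat_lit 0) (nat_lit 4414892188) (nat_lit 760) (nat_lit 4180987850) (nat_lit 836) (nat_lit 86028457) (nat_lit 302) (nat_lit 5) (nat_lit 312) (nat_lit 5) (nat_lit 313) (nat_lit 5) (nat_lit 435) (nat_lit 385) (nat_lit 320)) (XT.lf (nat_lit 0) (nat_lit 823527510) (nat_lit 684) (nat_lit 1290665068) (nat_lit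 760) (nat_lit 6649388931) (nat_lit 292) (nat_lit 5) (nat_lit 301) (nat_lit 5) (nat_lit 302) (nat_lit 5) (nat_lit 436) (nat_lit 385) (nat_lit 319))) (XT.nd (nat_lit 78) (nat_lit 760) (nat_lit 0) (XT.lf (nat_lit 0) (nat_lit 4364578342) (nat_lit 760) (nat_lit 2819759791) (nat_lit 76) (nat_lit 1662413441) (nat_lit 292) (nat_lit 5) (nat_lit 302) (nat_lit 5) (nat_lit 293) (nat_lit 5) (nat_lit 437) (nat_lit 385) (nat_lit 318)) (XT.lf (nat_lit 0) (nat_lit 2390801078) (nat_lit 760) (nat_lit 4261599917) (nat_lit 836) (nat_lit 2279356255) (nat_lit 282) (nat_lit 5) (nat_lit 292) (nat_lit 5) (nat_lit 293) (nat_lit 5) (nat_lit 438) (nat_lit 385) (nat_lit 317))))) (XT.nd (nat_lit 312) (nat_lit 1368) (nat_lit 0) (XT.nd (nat_lit 156) (nat_lit 684) (nat_lit 0) (XT.nd (nat_lit 78) (nat_lit 760) (nat_lit 0) (XT.lf (nat_lit 0) (nat_lit 7709078111) (nat_lit 760) (nat_lit 1264578122) (nat_lit 836) (nat_lit 45073670) (nat_lit 282) (nat_lit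 5) (nat_lit 292) (nat_lit 5) (nat_lit 293) (nat_lit 5) (nat_lit 439) (nat_lit 385) (nat_lit 316)) (XT.lf (nat_lit 0) (nat_lit 2211790515) (nat_lit 760) (nat_lit 5088984027) (nat_lit 76) (nat_lit 1806253104) (nat_lit 272) (nat_lit 5) (nat_lit 282) (nat_lit 5) (nat_lit 273) (nat_lit 5) (nat_lit 440) (nat_lit 385) (nat_lit 315))) (XT.nd (nat_lit 78) (nat_lit 0) (nat_lit 0) (XT.lf (nat_lit 0) (nat_lit 232605289) (nat_lit 684) (nat_lit 4268817680) (nat_lit 760) (nat_lit 4695916936) (nat_lit 263) (nat_lit 5) (nat_lit 272) (nat_lit 5) (nat_lit 273) (nat_lit 5) (nat_lit 441) (nat_lit 385) (nat_lit 314)) (XT.lf (nat_lit 0) (nat_lit 5694994129) (nat_lit 684) (nat_lit 1145879340) (nat_lit 760) (nat_lit 2448523264) (nat_lit 263) (nat_lit 5) (nat_lit 272) (nat_lit 5) (nat_lit 273) (nat_lit 5) (nat_lit 442) (nat_lit 385) (nat_lit 313)))) (XT.nd (nat_lit 156) (nat_lit 684) (nat_lit 0) (XT.nd (nat_lit 78) (nat_lit 76) (nat_lit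 0) (XT.lf (nat_lit 0) (nat_lit 1859971390) (nat_lit 608) (nat_lit 7362897386) (nat_lit 684) (nat_lit 160529269) (nat_lit 255) (nat_lit 5) (nat_lit 263) (nat_lit 5) (nat_lit 264) (nat_lit 5) (nat_lit 443) (nat_lit 385) (nat_lit 312)) (XT.lf (nat_lit 0) (nat_lit 2147174520) (nat_lit 684) (nat_lit 2063197606) (nat_lit 76) (nat_lit 5268593762) (nat_lit 254) (nat_lit 5) (nat_lit 263) (nat_lit 5) (nat_lit 255) (nat_lit 5) (nat_lit 444) (nat_lit 385) (nat_lit 311))) (XT.nd (nat_lit 78) (nat_lit 0) (nat_lit 0) (XT.lf (nat_lit 0) (nat_lit 3517284890) (nat_lit 684) (nat_lit 975596831) (nat_lit 760) (nat_lit 5083679567) (nat_lit 245) (nat_lit 5) (nat_lit 254) (nat_lit 5) (nat_lit 255) (nat_lit 5) (nat_lit 445) (nat_lit 385) (nat_lit 310)) (XT.lf (nat_lit 0) (nat_lit 6885999955) (nat_lit 760) (nat_lit 488013857) (nat_lit 76) (nat_lit 2302101903) (nat_lit 245) (nat_lit 5) (nat_lit 255) (nat_lit 5) (nat_lit 246) (nat_lit 5)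 (nat_lit 446) (nat_lit 385) (nat_lit 309))))))))
noncomputable def xc115 : XT := (XT.nd (nat_lit 2184) (nat_lit 4864) (nat_lit 0) (XT.nd (nat_lit 1092) (nat_lit 3192) (nat_lit 0) (XT.nd (nat_lit 546) (nat_lit 2128) (nat_lit 0) (XT.nd (nat_lit 234) (nat_lit 1748) (nat_lit 0) (XT.nd (nat_lit 78) (nat_lit 684) (nat_lit 0) (XT.lf (nat_lit 0) (nat_lit 5223041046) (nat_lit 608) (nat_lit 4116343158) (nat_lit 684) (nat_lit 438045677) (nat_lit 237) (nat_lit 5) (nat_lit 245) (nat_lit 5) (nat_lit 246) (nat_lit 5) (nat_lit 447) (nat_lit 385) (nat_lit 308)) (XT.nd (nat_lit 78) (nat_lit 0) (nat_lit 0) (XT.lf (nat_lit 0) (nat_lit 1142621245) (nat_lit 608) (nat_lit 775603308) (nat_lit 684) (nat_lit 7962649631) (nat_lit 228) (nat_lit 5) (nat_lit 236) (nat_lit 5) (nat_lit 237) (nat_lit 5) (nat_lit 448) (nat_lit 385) (nat_lit 307)) (XT.lf (nat_lit 0) (nat_lit 4336064590) (nat_lit 684) (nat_lit 3024801658) (nat_lit 76) (nat_lit 2625072777)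 (nat_lit 228) (nat_lit 5) (nat_lit 237) (nat_lit 5) (nat_lit 229) (nat_lit 5) (nat_lit 449) (nat_lit 385) (nat_lit 306)))) (XT.nd (nat_lit 156) (nat_lit 1216) (nat_lit 0) (XT.nd (nat_lit 78) (nat_lit 0) (nat_lit 0) (XT.lf (nat_lit 0) (nat_lit 2801046606) (nat_lit 532) (nat_lit 3997528919) (nat_lit 608) (nat_lit 3294618805) (nat_lit 221) (nat_lit 5) (nat_lit 228) (nat_lit 5) (nat_lit 229) (nat_lit 5) (nat_lit 450) (nat_lit 385) (nat_lit 305)) (XT.lf (nat_lit 0) (nat_lit 8751162204) (nat_lit 532) (nat_lit 552777577) (nat_lit 608) (nat_lit 898798046) (nat_lit 221) (nat_lit 5) (nat_lit 228) (nat_lit 5) (nat_lit 229) (nat_lit 5) (nat_lit 451) (nat_lit 385) (nat_lit 304))) (XT.nd (nat_lit 78) (nat_lit 532) (nat_lit 0) (XT.lf (nat_lit 0) (nat_lit 1547120036) (nat_lit 684) (nat_lit 5811546928) (nat_lit 76) (nat_lit 2955170311) (nat_lit 212) (nat_lit 5) (nat_lit 221) (nat_lit 5) (nat_lit 213) (nat_lit 5) (nat_lit 452) (nat_lit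 385) (nat_lit 303)) (XT.lf (nat_lit 0) (nat_lit 126690671) (nat_lit 532) (nat_lit 3891432161) (nat_lit 608) (nat_lit 6409167307) (nat_lit 205) (nat_lit 5) (nat_lit 212) (nat_lit 5) (nat_lit 213) (nat_lit 5) (nat_lit 453) (nat_lit 385) (nat_lit 302))))) (XT.nd (nat_lit 234) (nat_lit 1520) (nat_lit 0) (XT.nd (nat_lit 78) (nat_lit 608) (nat_lit 0) (XT.lf (nat_lit 0) (nat_lit 6229449213) (nat_lit 532) (nat_lit 322293681) (nat_lit 608) (nat_lit 3991019215) (nat_lit 205) (nat_lit 5) (nat_lit 212) (nat_lit 5) (nat_lit 213) (nat_lit 5) (nat_lit 454) (nat_lit 385) (nat_lit 301)) (XT.nd (nat_lit 78) (nat_lit 76) (nat_lit 0) (XT.lf (nat_lit 0) (nat_lit 1762442965) (nat_lit 532) (nat_lit 7381238099) (nat_lit 608) (nat_lit 1516723259) (nat_lit 198) (nat_lit 5) (nat_lit 205) (nat_lit 5) (nat_lit 206) (nat_lit 5) (nat_lit 455) (nat_lit 385) (nat_lit 300)) (XT.lf (nat_lit 0) (nat_lit 999885983) (nat_lit 608) (nat_lit 2803482544)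 (nat_lit 76) (nat_lit 6976792567) (nat_lit 197) (nat_lit 5) (nat_lit 205) (nat_lit 5) (nat_lit 198) (nat_lit 5) (nat_lit 456) (nat_lit 385) (nat_lit 299)))) (XT.nd (nat_lit 156) (nat_lit 1064) (nat_lit 0) (XT.nd (nat_lit 78) (nat_lit 0) (nat_lit 0) (XT.lf (nat_lit 0) (nat_lit 3415300744) (nat_lit 456) (nat_lit 128670381) (nat_lit 532) (nat_lit 7358205241) (nat_lit 191) (nat_lit 5) (nat_lit 197) (nat_lit 5) (nat_lit 198) (nat_lit 5) (nat_lit 457) (nat_lit 385) (nat_lit 298)) (XT.lf (nat_lit 0) (nat_lit 6156861855) (nat_lit 532) (nat_lit 1285991362) (nat_lit 76) (nat_lit 3583432922) (nat_lit 191) (nat_lit 5) (nat_lit 198) (nat_lit 5) (nat_lit 192) (nat_lit 5) (nat_lit 458) (nat_lit 385) (nat_lit 297))) (XT.nd (nat_lit 78) (nat_lit 532) (nat_lit 0) (XT.lf (nat_lit 0) (nat_lit 5072653505) (nat_lit 532) (nat_lit 3759110828) (nat_lit 608) (nat_lit 2320931122) (nat_lit 184) (nat_lit 5) (nat_lit 191) (nat_lit 5) (nat_lit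 192) (nat_lit 5) (nat_lit 459) (nat_lit 385) (nat_lit 296)) (XT.lf (nat_lit 0) (nat_lit 261359495) (nat_lit 532) (nat_lit 11017910799) (nat_lit 76) (nat_lit 2608826) (nat_lit 177) (nat_lit 5) (nat_lit 184) (nat_lit 5) (nat_lit 178) (nat_lit 5) (nat_lit 460) (nat_lit 385) (nat_lit 295)))))) (XT.nd (nat_lit 546) (nat_lit 1748) (nat_lit 0) (XT.nd (nat_lit 234) (nat_lit 988) (nat_lit 0) (XT.nd (nat_lit 78) (nat_lit 456) (nat_lit 0) (XT.lf (nat_lit 0) (nat_lit 2906485170) (nat_lit 532) (nat_lit 4668365443) (nat_lit 76) (nat_lit 3837655396) (nat_lit 177) (nat_lit 5) (nat_lit 184) (nat_lit 5) (nat_lit 178) (nat_lit 5) (nat_lit 461) (nat_lit 385) (nat_lit 294)) (XT.nd (nat_lit 78) (nat_lit 0) (nat_lit 0) (XT.lf (nat_lit 0) (nat_lit 1800137814) (nat_lit 456) (nat_lit 3792800692) (nat_lit 532) (nat_lit 5953049907) (nat_lit 171) (nat_lit 5) (nat_lit 177) (nat_lit 5) (nat_lit 178) (nat_lit 5) (nat_lit 462) (nat_lit 385) (nat_lit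 293)) (XT.lf (nat_lit 0) (nat_lit 8342011679) (nat_lit 532) (nat_lit 3252701375) (nat_lit 76) (nat_lit 87260849) (nat_lit 171) (nat_lit 5) (nat_lit 178) (nat_lit 5) (nat_lit 172) (nat_lit 5) (nat_lit 463) (nat_lit 385) (nat_lit 292)))) (XT.nd (nat_lit 156) (nat_lit 456) (nat_lit 0) (XT.nd (nat_lit 78) (nat_lit 76) (nat_lit 0) (XT.lf (nat_lit 0) (nat_lit 3358007606) (nat_lit 456) (nat_lit 7812366070) (nat_lit 532) (nat_lit 649830313) (nat_lit 165) (nat_lit 5) (nat_lit 171) (nat_lit 5) (nat_lit 172) (nat_lit 5) (nat_lit 464) (nat_lit 385) (nat_lit 291)) (XT.lf (nat_lit 0) (nat_lit 2066081793) (nat_lit 532) (nat_lit 1860811797) (nat_lit 76) (nat_lit 8034054923) (nat_lit 164) (nat_lit 5) (nat_lit 171) (nat_lit 5) (nat_lit 165) (nat_lit 5) (nat_lit 465) (nat_lit 385) (nat_lit 290))) (XT.nd (nat_lit 78) (nat_lit 0) (nat_lit 0) (XT.lf (nat_lit 0) (nat_lit 4837776073) (nat_lit 532) (nat_lit 7202786945) (nat_lit 76) (nat_lit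 63666098) (nat_lit 158) (nat_lit 5) (nat_lit 165) (nat_lit 5) (nat_lit 159) (nat_lit 5) (nat_lit 466) (nat_lit 385) (nat_lit 289)) (XT.lf (nat_lit 0) (nat_lit 7681570602) (nat_lit 532) (nat_lit 482954590) (nat_lit 76) (nat_lit 4085527004) (nat_lit 158) (nat_lit 5) (nat_lit 165) (nat_lit 5) (nat_lit 159) (nat_lit 5) (nat_lit 467) (nat_lit 385) (nat_lit 288))))) (XT.nd (nat_lit 234) (nat_lit 836) (nat_lit 0) (XT.nd (nat_lit 78) (nat_lit 532) (nat_lit 0) (XT.lf (nat_lit 0) (nat_lit 6425243221) (nat_lit 380) (nat_lit 4177235059) (nat_lit 456) (nat_lit 1795918704) (nat_lit 153) (nat_lit 5) (nat_lit 158) (nat_lit 5) (nat_lit 159) (nat_lit 5) (nat_lit 468) (nat_lit 385) (nat_lit 287)) (XT.nd (nat_lit 78) (nat_lit 0) (nat_lit 0) (XT.lf (nat_lit 0) (nat_lit 903237188) (nat_lit 456) (nat_lit 103044529) (nat_lit 532) (nat_lit 11543548090) (nat_lit 146) (nat_lit 5) (nat_lit 152) (nat_lit 5) (nat_lit 153) (nat_lit 5) (nat_lit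 469) (nat_lit 385) (nat_lit 286)) (XT.lf (nat_lit 0) (nat_lit 3885922859) (nat_lit 532) (nat_lit 4774405987) (nat_lit 76) (nat_lit 4042825554) (nat_lit 146) (nat_lit 5) (nat_lit 153) (nat_lit 5) (nat_lit 147) (nat_lit 5) (nat_lit 470) (nat_lit 385) (nat_lit 285)))) (XT.nd (nat_lit 156) (nat_lit 456) (nat_lit 0) (XT.nd (nat_lit 78) (nat_lit 0) (nat_lit 0) (XT.lf (nat_lit 0) (nat_lit 2233870279) (nat_lit 380) (nat_lit 4583649947) (nat_lit 456) (nat_lit 6042147223) (nat_lit 141) (nat_lit 5) (nat_lit 146) (nat_lit 5) (nat_lit 147) (nat_lit 5) (nat_lit 471) (nat_lit 385) (nat_lit 284)) (XT.lf (nat_lit 0) (nat_lit 9417258274) (nat_lit 380) (nat_lit 401922257) (nat_lit 456) (nat_lit 3199910661) (nat_lit 141) (nat_lit 5) (nat_lit 146) (nat_lit 5) (nat_lit 147) (nat_lit 5) (nat_lit 472) (nat_lit 385) (nat_lit 283))) (XT.nd (nat_lit 78) (nat_lit 76) (nat_lit 0) (XT.lf (nat_lit 0) (nat_lit 3554602886) (nat_lit 380) (nat_lit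 9354171962) (nat_lit 456) (nat_lit 272379419) (nat_lit 136) (nat_lit 5) (nat_lit 141) (nat_lit 5) (nat_lit 142) (nat_lit 5) (nat_lit 473) (nat_lit 385) (nat_lit 282)) (XT.lf (nat_lit 0) (nat_lit 2684907044) (nat_lit 456) (nat_lit 2493050505) (nat_lit 76) (nat_lit 8168021293) (nat_lit 135) (nat_lit 5) (nat_lit 141) (nat_lit 5) (nat_lit 136) (nat_lit 5) (nat_lit 474) (nat_lit 385) (nat_lit 281))))))) (XT.nd (nat_lit 1092) (nat_lit 1976) (nat_lit 0) (XT.nd (nat_lit 546) (nat_lit 1368) (nat_lit 0) (XT.nd (nat_lit 234) (nat_lit 760) (nat_lit 0) (XT.nd (nat_lit 78) (nat_lit 380) (nat_lit 0) (XT.lf (nat_lit 0) (nat_lit 4815427090) (nat_lit 380) (nat_lit 893732650) (nat_lit 456) (nat_lit 7804683170) (nat_lit 130) (nat_lit 5) (nat_lit 135) (nat_lit 5) (nat_lit 136) (nat_lit 5) (nat_lit 475) (nat_lit 385) (nat_lit 280)) (XT.nd (nat_lit 78) (nat_lit 380) (nat_lit 0) (XT.lf (nat_lit 0) (nat_lit 8813647748) (nat_lit 456) (nat_lit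 1432735592) (nat_lit 76) (nat_lit 3438294113) (nat_lit 130) (nat_lit 5) (nat_lit 136) (nat_lit 5) (nat_lit 131) (nat_lit 5) (nat_lit 476) (nat_lit 385) (nat_lit 279)) (XT.lf (nat_lit 0) (nat_lit 6022707112) (nat_lit 380) (nat_lit 5983266197) (nat_lit 456) (nat_lit 1852448459) (nat_lit 125) (nat_lit 5) (nat_lit 130) (nat_lit 5) (nat_lit 131) (nat_lit 5) (nat_lit 477) (nat_lit 385) (nat_lit 278)))) (XT.nd (nat_lit 156) (nat_lit 380) (nat_lit 0) (XT.nd (nat_lit 78) (nat_lit 304) (nat_lit 0) (XT.lf (nat_lit 0) (nat_lit 1200881476) (nat_lit 456) (nat_lit 425491897) (nat_lit 76) (nat_lit 12409306798) (nat_lit 124) (nat_lit 5) (nat_lit 130) (nat_lit 5) (nat_lit 125) (nat_lit 5) (nat_lit 478) (nat_lit 385) (nat_lit 277)) (XT.lf (nat_lit 0) (nat_lit 4336943908) (nat_lit 380) (nat_lit 7047523394) (nat_lit 76) (nat_lit 2830849716) (nat_lit 120) (nat_lit 5) (nat_lit 125) (nat_lit 5) (nat_lit 121) (nat_lit 5) (nat_lit 479)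 (nat_lit 385) (nat_lit 276))) (XT.nd (nat_lit 78) (nat_lit 0) (nat_lit 0) (XT.lf (nat_lit 0) (nat_lit 487559495) (nat_lit 380) (nat_lit 7046267651) (nat_lit 456) (nat_lit 6864764889) (nat_lit 115) (nat_lit 5) (nat_lit 120) (nat_lit 5) (nat_lit 121) (nat_lit 5) (nat_lit 480) (nat_lit 385) (nat_lit 275)) (XT.lf (nat_lit 0) (nat_lit 8240792697) (nat_lit 380) (nat_lit 2582621626) (nat_lit 456) (nat_lit 3761550185) (nat_lit 115) (nat_lit 5) (nat_lit 120) (nat_lit 5) (nat_lit 121) (nat_lit 5) (nat_lit 481) (nat_lit 385) (nat_lit 274))))) (XT.nd (nat_lit 234) (nat_lit 684) (nat_lit 0) (XT.nd (nat_lit 78) (nat_lit 380) (nat_lit 0) (XT.lf (nat_lit 0) (nat_lit 1351112422) (nat_lit 304) (nat_lit 12831021732) (nat_lit 380) (nat_lit 592870595) (nat_lit 111) (nat_lit 5) (nat_lit 115) (nat_lit 5) (nat_lit 116) (nat_lit 5) (nat_lit 482) (nat_lit 385) (nat_lit 273)) (XT.nd (nat_lit 78) (nat_lit 304) (nat_lit 0) (XT.lf (nat_lit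 0) (nat_lit 2646354811) (nat_lit 380) (nat_lit 5744122310) (nat_lit 76) (nat_lit 6577197116) (nat_lit 110) (nat_lit 5) (nat_lit 115) (nat_lit 5) (nat_lit 111) (nat_lit 5) (nat_lit 483) (nat_lit 385) (nat_lit 272)) (XT.lf (nat_lit 0) (nat_lit 2085306658) (nat_lit 304) (nat_lit 3852849924) (nat_lit 380) (nat_lit 9226054272) (nat_lit 106) (nat_lit 5) (nat_lit 110) (nat_lit 5) (nat_lit 111) (nat_lit 5) (nat_lit 484) (nat_lit 385) (nat_lit 271)))) (XT.nd (nat_lit 156) (nat_lit 380) (nat_lit 0) (XT.nd (nat_lit 78) (nat_lit 304) (nat_lit 0) (XT.lf (nat_lit 0) (nat_lit 9321925737) (nat_lit 380) (nat_lit 5247487387) (nat_lit 76) (nat_lit 794749045) (nat_lit 106) (nat_lit 5) (nat_lit 111) (nat_lit 5) (nat_lit 107) (nat_lit 5) (nat_lit 485) (nat_lit 385) (nat_lit 270)) (XT.lf (nat_lit 0) (nat_lit 2723827569) (nat_lit 304) (nat_lit 10075385062) (nat_lit 380) (nat_lit 2768389498) (nat_lit 102) (nat_lit 5) (nat_lit 106) (nat_lit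 5) (nat_lit 107) (nat_lit 5) (nat_lit 486) (nat_lit 385) (nat_lit 269))) (XT.nd (nat_lit 78) (nat_lit 304) (nat_lit 0) (XT.lf (nat_lit 0) (nat_lit 581581470) (nat_lit 380) (nat_lit 4879643973) (nat_lit 76) (nat_lit 10313454820) (nat_lit 101) (nat_lit 5) (nat_lit 106) (nat_lit 5) (nat_lit 102) (nat_lit 5) (nat_lit 487) (nat_lit 385) (nat_lit 268)) (XT.lf (nat_lit 0) (nat_lit 3241480310) (nat_lit 304) (nat_lit 724111146) (nat_lit 380) (nat_lit 12019866446) (nat_lit 97) (nat_lit 5) (nat_lit 101) (nat_lit 5) (nat_lit 102) (nat_lit 5) (nat_lit 488) (nat_lit 385) (nat_lit 267)))))) (XT.nd (nat_lit 546) (nat_lit 1140) (nat_lit 0) (XT.nd (nat_lit 234) (nat_lit 608) (nat_lit 0) (XT.nd (nat_lit 78) (nat_lit 228) (nat_lit 0) (XT.lf (nat_lit 0) (nat_lit 7460042024) (nat_lit 380) (nat_lit 4662085599) (nat_lit 76) (nat_lit 4077474236) (nat_lit 97) (nat_lit 5) (nat_lit 102) (nat_lit 5) (nat_lit 98) (nat_lit 5) (nat_lit 489) (nat_lit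 385) (nat_lit 266)) (XT.nd (nat_lit 78) (nat_lit 0) (nat_lit 0) (XT.lf (nat_lit 0) (nat_lit 3597781129) (nat_lit 228) (nat_lit 7438214250) (nat_lit 304) (nat_lit 5381806895) (nat_lit 94) (nat_lit 5) (nat_lit 97) (nat_lit 5) (nat_lit 98) (nat_lit 5) (nat_lit 490) (nat_lit 385) (nat_lit 265)) (XT.lf (nat_lit 0) (nat_lit 12060159178) (nat_lit 228) (nat_lit 2638209116) (nat_lit 304) (nat_lit 1941706133) (nat_lit 94) (nat_lit 5) (nat_lit 97) (nat_lit 5) (nat_lit 98) (nat_lit 5) (nat_lit 491) (nat_lit 385) (nat_lit 264)))) (XT.nd (nat_lit 156) (nat_lit 228) (nat_lit 0) (XT.nd (nat_lit 78) (nat_lit 0) (nat_lit 0) (XT.lf (nat_lit 0) (nat_lit 1570226883) (nat_lit 380) (nat_lit 13041669933) (nat_lit 76) (nat_lit 2254225533) (nat_lit 89) (nat_lit 5) (nat_lit 94) (nat_lit 5) (nat_lit 90) (nat_lit 5) (nat_lit 492) (nat_lit 385) (nat_lit 263)) (XT.lf (nat_lit 0) (nat_lit 5158747981) (nat_lit 380) (nat_lit 4693312496) (nat_lit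 76) (nat_lit 7243732491) (nat_lit 89) (nat_lit 5) (nat_lit 94) (nat_lit 5) (nat_lit 90) (nat_lit 5) (nat_lit 493) (nat_lit 385) (nat_lit 262))) (XT.nd (nat_lit 78) (nat_lit 0) (nat_lit 0) (XT.lf (nat_lit 0) (nat_lit 3847282405) (nat_lit 228) (nat_lit 4980967382) (nat_lit 304) (nat_lit 8501628309) (nat_lit 86) (nat_lit 5) (nat_lit 89) (nat_lit 5) (nat_lit 90) (nat_lit 5) (nat_lit 494) (nat_lit 385) (nat_lit 261)) (XT.lf (nat_lit 0) (nat_lit 12587080835) (nat_lit 304) (nat_lit 4971112857) (nat_lit 76) (nat_lit 10137648) (nat_lit 86) (nat_lit 5) (nat_lit 90) (nat_lit 5) (nat_lit 87) (nat_lit 5) (nat_lit 495) (nat_lit 385) (nat_lit 260))))) (XT.nd (nat_lit 312) (nat_lit 532) (nat_lit 0) (XT.nd (nat_lit 156) (nat_lit 228) (nat_lit 0) (XT.nd (nat_lit 78) (nat_lit 76) (nat_lit 0) (XT.lf (nat_lit 0) (nat_lit 3701374552) (nat_lit 304) (nat_lit 12761356665) (nat_lit 380) (nat_lit 1347994677) (nat_lit 82) (nat_lit 5) (nat_lit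 86) (nat_lit 5) (nat_lit 87) (nat_lit 5) (nat_lit 496) (nat_lit 385) (nat_lit 259)) (XT.lf (nat_lit 0) (nat_lit 2345241556) (nat_lit 380) (nat_lit 5482963296) (nat_lit 76) (nat_lit 10229097402) (nat_lit 81) (nat_lit 5) (nat_lit 86) (nat_lit 5) (nat_lit 82) (nat_lit 5) (nat_lit 497) (nat_lit 385) (nat_lit 258))) (XT.nd (nat_lit 78) (nat_lit 0) (nat_lit 0) (XT.lf (nat_lit 0) (nat_lit 3326308919) (nat_lit 228) (nat_lit 2774558416) (nat_lit 304) (nat_lit 12207637915) (nat_lit 78) (nat_lit 5) (nat_lit 81) (nat_lit 5) (nat_lit 82) (nat_lit 5) (nat_lit 498) (nat_lit 385) (nat_lit 257)) (XT.lf (nat_lit 0) (nat_lit 9969135067) (nat_lit 304) (nat_lit 6218028044) (nat_lit 76) (nat_lit 2376823314) (nat_lit 78) (nat_lit 5) (nat_lit 82) (nat_lit 5) (nat_lit 79) (nat_lit 5) (nat_lit 499) (nat_lit 385) (nat_lit 256)))) (XT.nd (nat_lit 156) (nat_lit 304) (nat_lit 0) (XT.nd (nat_lit 78) (nat_lit 0) (nat_lit 0) (XT.lf (nat_lit 0)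 (nat_lit 2714707882) (nat_lit 228) (nat_lit 11221392494) (nat_lit 304) (nat_lit 4888054821) (nat_lit 75) (nat_lit 5) (nat_lit 78) (nat_lit 5) (nat_lit 79) (nat_lit 5) (nat_lit 500) (nat_lit 385) (nat_lit 255)) (XT.lf (nat_lit 0) (nat_lit 11886598019) (nat_lit 228) (nat_lit 6122998356) (nat_lit 304) (nat_lit 1079391667) (nat_lit 75) (nat_lit 5) (nat_lit 78) (nat_lit 5) (nat_lit 79) (nat_lit 5) (nat_lit 501) (nat_lit 385) (nat_lit 254))) (XT.nd (nat_lit 78) (nat_lit 0) (nat_lit 0) (XT.lf (nat_lit 0) (nat_lit 1865544428) (nat_lit 228) (nat_lit 900870152) (nat_lit 304) (nat_lit 16592387743) (nat_lit 71) (nat_lit 5) (nat_lit 74) (nat_lit 5) (nat_lit 75) (nat_lit 5) (nat_lit 502) (nat_lit 385) (nat_lit 253)) (XT.lf (nat_lit 0) (nat_lit 6737805599) (nat_lit 304) (nat_lit 8480372046) (nat_lit 76) (nat_lit 4414434379) (nat_lit 71) (nat_lit 5) (nat_lit 75) (nat_lit 5) (nat_lit 72) (nat_lit 5) (nat_lit 503) (nat_lit 385)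 (nat_lit 252))))))))
noncomputable def xc116 : XT := (XT.nd (nat_lit 50388) (nat_lit 0) (nat_lit 32908) (XT.nd (nat_lit 1092) (nat_lit 988) (nat_lit 0) (XT.nd (nat_lit 546) (nat_lit 684) (nat_lit 0) (XT.nd (nat_lit 234) (nat_lit 532) (nat_lit 0) (XT.nd (nat_lit 78) (nat_lit 0) (nat_lit 0) (XT.lf (nat_lit 0) (nat_lit 692763064) (nat_lit 228) (nat_lit 10092326944) (nat_lit 304) (nat_lit 9126882782) (nat_lit 68) (nat_lit 5) (nat_lit 71) (nat_lit 5) (nat_lit 72) (nat_lit 5) (nat_lit 504) (nat_lit 385) (nat_lit 251)) (XT.nd (nat_lit 78) (nat_lit 0) (nat_lit 0) (XT.lf (nat_lit 0) (nat_lit 10141338572) (nat_lit 228) (nat_lit 4815016263) (nat_lit 304) (nat_lit 5239709341) (nat_lit 68) (nat_lit 5) (nat_lit 71) (nat_lit 5) (nat_lit 72) (nat_lit 5) (nat_lit 505) (nat_lit 385) (nat_lit 250)) (XT.lf (nat_lit 0) (nat_lit 19201072801) (nat_lit 304) (nat_lit 733382165) (nat_lit 76) (nat_lit 551585885) (nat_lit 68) (nat_lit 5)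 (nat_lit 72) (nat_lit 5) (nat_lit 69) (nat_lit 5) (nat_lit 506) (nat_lit 385) (nat_lit 249)))) (XT.nd (nat_lit 156) (nat_lit 228) (nat_lit 0) (XT.nd (nat_lit 78) (nat_lit 0) (nat_lit 0) (XT.lf (nat_lit 0) (nat_lit 2789180851) (nat_lit 304) (nat_lit 11962563641) (nat_lit 76) (nat_lit 6028192188) (nat_lit 64) (nat_lit 5) (nat_lit 68) (nat_lit 5) (nat_lit 65) (nat_lit 5) (nat_lit 507) (nat_lit 385) (nat_lit 248)) (XT.lf (nat_lit 0) (nat_lit 6919212977) (nat_lit 304) (nat_lit 2541402083) (nat_lit 76) (nat_lit 11619097160) (nat_lit 64) (nat_lit 5) (nat_lit 68) (nat_lit 5) (nat_lit 65) (nat_lit 5) (nat_lit 508) (nat_lit 385) (nat_lit 247))) (XT.nd (nat_lit 78) (nat_lit 0) (nat_lit 0) (XT.lf (nat_lit 0) (nat_lit 7139929748) (nat_lit 228) (nat_lit 4025171109) (nat_lit 304) (nat_lit 10219721024) (nat_lit 61) (nat_lit 5) (nat_lit 64) (nat_lit 5) (nat_lit 65) (nat_lit 5) (nat_lit 509) (nat_lit 385) (nat_lit 246)) (XT.lf (nat_lit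 0) (nat_lit 15509892556) (nat_lit 304) (nat_lit 4678287084) (nat_lit 76) (nat_lit 1507578015) (nat_lit 61) (nat_lit 5) (nat_lit 65) (nat_lit 5) (nat_lit 62) (nat_lit 5) (nat_lit 510) (nat_lit 385) (nat_lit 245))))) (XT.nd (nat_lit 234) (nat_lit 228) (nat_lit 0) (XT.nd (nat_lit 78) (nat_lit 304) (nat_lit 0) (XT.lf (nat_lit 0) (nat_lit 5098332534) (nat_lit 152) (nat_lit 14890218558) (nat_lit 228) (nat_lit 2023425201) (nat_lit 59) (nat_lit 5) (nat_lit 61) (nat_lit 5) (nat_lit 62) (nat_lit 5) (nat_lit 511) (nat_lit 385) (nat_lit 244)) (XT.nd (nat_lit 78) (nat_lit 228) (nat_lit 0) (XT.lf (nat_lit 0) (nat_lit 2211956765) (nat_lit 228) (nat_lit 7236185525) (nat_lit 76) (nat_lit 12885715101) (nat_lit 58) (nat_lit 5) (nat_lit 61) (nat_lit 5) (nat_lit 59) (nat_lit 5) (nat_lit 512) (nat_lit 385) (nat_lit 243)) (XT.lf (nat_lit 0) (nat_lit 2634843108) (nat_lit 228) (nat_lit 3874729311) (nat_lit 304) (nat_lit 16152247165) (nat_lit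 55) (nat_lit 5) (nat_lit 58) (nat_lit 5) (nat_lit 59) (nat_lit 5) (nat_lit 513) (nat_lit 385) (nat_lit 242)))) (XT.nd (nat_lit 156) (nat_lit 228) (nat_lit 0) (XT.nd (nat_lit 78) (nat_lit 0) (nat_lit 0) (XT.lf (nat_lit 0) (nat_lit 10941313765) (nat_lit 304) (nat_lit 10227255001) (nat_lit 76) (nat_lit 1826812084) (nat_lit 55) (nat_lit 5) (nat_lit 59) (nat_lit 5) (nat_lit 56) (nat_lit 5) (nat_lit 514) (nat_lit 385) (nat_lit 241)) (XT.lf (nat_lit 0) (nat_lit 15475135179) (nat_lit 304) (nat_lit 277975611) (nat_lit 76) (nat_lit 7582236878) (nat_lit 55) (nat_lit 5) (nat_lit 59) (nat_lit 5) (nat_lit 56) (nat_lit 5) (nat_lit 515) (nat_lit 385) (nat_lit 240))) (XT.nd (nat_lit 78) (nat_lit 76) (nat_lit 0) (XT.lf (nat_lit 0) (nat_lit 9980820943) (nat_lit 152) (nat_lit 10171638484) (nat_lit 228) (nat_lit 3528601038) (nat_lit 53) (nat_lit 5) (nat_lit 55) (nat_lit 5) (nat_lit 56) (nat_lit 5) (nat_lit 516) (nat_lit 385) (nat_lit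 239)) (XT.lf (nat_lit 0) (nat_lit 867898582) (nat_lit 228) (nat_lit 3611273838) (nat_lit 76) (nat_lit 19554604145) (nat_lit 52) (nat_lit 5) (nat_lit 55) (nat_lit 5) (nat_lit 53) (nat_lit 5) (nat_lit 517) (nat_lit 385) (nat_lit 238)))))) (XT.nd (nat_lit 546) (nat_lit 304) (nat_lit 0) (XT.nd (nat_lit 234) (nat_lit 304) (nat_lit 0) (XT.nd (nat_lit 78) (nat_lit 152) (nat_lit 0) (XT.lf (nat_lit 0) (nat_lit 5346070263) (nat_lit 304) (nat_lit 17677154018) (nat_lit 76) (nat_lit 1369039409) (nat_lit 49) (nat_lit 5) (nat_lit 53) (nat_lit 5) (nat_lit 50) (nat_lit 5) (nat_lit 518) (nat_lit 385) (nat_lit 237)) (XT.nd (nat_lit 78) (nat_lit 152) (nat_lit 0) (XT.lf (nat_lit 0) (nat_lit 9956190522) (nat_lit 304) (nat_lit 7510334005) (nat_lit 76) (nat_lit 7290551256) (nat_lit 49) (nat_lit 5) (nat_lit 53) (nat_lit 5) (nat_lit 50) (nat_lit 5) (nat_lit 519) (nat_lit 385) (nat_lit 236)) (XT.lf (nat_lit 0) (nat_lit 2877912971) (nat_lit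 152) (nat_lit 11787842118) (nat_lit 228) (nat_lit 10463287061) (nat_lit 47) (nat_lit 5) (nat_lit 49) (nat_lit 5) (nat_lit 50) (nat_lit 5) (nat_lit 520) (nat_lit 385) (nat_lit 235)))) (XT.nd (nat_lit 156) (nat_lit 304) (nat_lit 0) (XT.nd (nat_lit 78) (nat_lit 0) (nat_lit 0) (XT.lf (nat_lit 0) (nat_lit 13556204960) (nat_lit 152) (nat_lit 5952358480) (nat_lit 228) (nat_lit 5999106168) (nat_lit 47) (nat_lit 5) (nat_lit 49) (nat_lit 5) (nat_lit 50) (nat_lit 5) (nat_lit 521) (nat_lit 385) (nat_lit 234)) (XT.lf (nat_lit 0) (nat_lit 24428921141) (nat_lit 152) (nat_lit 8183482) (nat_lit 228) (nat_lit 1456990217) (nat_lit 47) (nat_lit 5) (nat_lit 49) (nat_lit 5) (nat_lit 50) (nat_lit 5) (nat_lit 522) (nat_lit 385) (nat_lit 233))) (XT.nd (nat_lit 78) (nat_lit 0) (nat_lit 0) (XT.lf (nat_lit 0) (nat_lit 3223601434) (nat_lit 304) (nat_lit 17013191480) (nat_lit 76) (nat_lit 6049260170) (nat_lit 43) (nat_lit 5) (nat_lit 47) (nat_lit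 5) (nat_lit 44) (nat_lit 5) (nat_lit 523) (nat_lit 385) (nat_lit 232)) (XT.lf (nat_lit 0) (nat_lit 7977327312) (nat_lit 304) (nat_lit 6468863145) (nat_lit 76) (nat_lit 12239489391) (nat_lit 43) (nat_lit 5) (nat_lit 47) (nat_lit 5) (nat_lit 44) (nat_lit 5) (nat_lit 524) (nat_lit 385) (nat_lit 231))))) (XT.nd (nat_lit 234) (nat_lit 152) (nat_lit 0) (XT.nd (nat_lit 78) (nat_lit 0) (nat_lit 0) (XT.lf (nat_lit 0) (nat_lit 4324480375) (nat_lit 152) (nat_lit 8519001062) (nat_lit 228) (nat_lit 14249473184) (nat_lit 41) (nat_lit 5) (nat_lit 43) (nat_lit 5) (nat_lit 44) (nat_lit 5) (nat_lit 525) (nat_lit 385) (nat_lit 230)) (XT.nd (nat_lit 78) (nat_lit 0) (nat_lit 0) (XT.lf (nat_lit 0) (nat_lit 15402912476) (nat_lit 152) (nat_lit 2436822357) (nat_lit 228) (nat_lit 9667987030) (nat_lit 41) (nat_lit 5) (nat_lit 43) (nat_lit 5) (nat_lit 44) (nat_lit 5) (nat_lit 526) (nat_lit 385) (nat_lit 229)) (XT.lf (nat_lit 0) (nat_lit 22949896515)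 (nat_lit 228) (nat_lit 1270593550) (nat_lit 76) (nat_lit 3710017172) (nat_lit 41) (nat_lit 5) (nat_lit 44) (nat_lit 5) (nat_lit 42) (nat_lit 5) (nat_lit 527) (nat_lit 385) (nat_lit 228)))) (XT.nd (nat_lit 48360) (nat_lit 0) (nat_lit 45296) (XT.nd (nat_lit 48282) (nat_lit 0) (nat_lit 45296) (XT.lf (nat_lit 0) (nat_lit 9875785075) (nat_lit 152) (nat_lit 18356465137) (nat_lit 228) (nat_lit 128100733) (nat_lit 39) (nat_lit 5) (nat_lit 41) (nat_lit 5) (nat_lit 42) (nat_lit 5) (nat_lit 528) (nat_lit 385) (nat_lit 227)) (XT.lf (nat_lit 0) (nat_lit 446856202) (nat_lit 532) (nat_lit 1404748223) (nat_lit 532) (nat_lit 1404748223) (nat_lit 635) (nat_lit 3) (nat_lit 642) (nat_lit 3) (nat_lit 642) (nat_lit 5) (nat_lit 386) (nat_lit 386) (nat_lit 368))) (XT.nd (nat_lit 78) (nat_lit 0) (nat_lit 0) (XT.lf (nat_lit 76) (nat_lit 244330244) (nat_lit 0) (nat_lit 3153666027) (nat_lit 532) (nat_lit 3127113840) (nat_lit 636) (nat_lit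 5) (nat_lit 635) (nat_lit 3) (nat_lit 642) (nat_lit 5) (nat_lit 387) (nat_lit 386) (nat_lit 367)) (XT.lf (nat_lit 76) (nat_lit 3363475940) (nat_lit 0) (nat_lit 2542111123) (nat_lit 532) (nat_lit 633185379) (nat_lit 636) (nat_lit 5) (nat_lit 635) (nat_lit 3) (nat_lit 642) (nat_lit 5) (nat_lit 388) (nat_lit 386) (nat_lit 366))))))) (XT.nd (nat_lit 1092) (nat_lit 9120) (nat_lit 0) (XT.nd (nat_lit 546) (nat_lit 1520) (nat_lit 0) (XT.nd (nat_lit 234) (nat_lit 608) (nat_lit 0) (XT.nd (nat_lit 78) (nat_lit 608) (nat_lit 0) (XT.lf (nat_lit 0) (nat_lit 1820720880) (nat_lit 532) (nat_lit 54218639) (nat_lit 608) (nat_lit 4678888231) (nat_lit 628) (nat_lit 5) (nat_lit 635) (nat_lit 3) (nat_lit 636) (nat_lit 5) (nat_lit 389) (nat_lit 386) (nat_lit 365)) (XT.nd (nat_lit 78) (nat_lit 608) (nat_lit 0) (XT.lf (nat_lit 76) (nat_lit 3132732529) (nat_lit 0) (nat_lit 1139270886) (nat_lit 608) (nat_lit 2298031100) (nat_lit 629) (nat_lit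 5) (nat_lit 628) (nat_lit 5) (nat_lit 636) (nat_lit 5) (nat_lit 390) (nat_lit 386) (nat_lit 364)) (XT.lf (nat_lit 0) (nat_lit 120654432) (nat_lit 608) (nat_lit 237734591) (nat_lit 684) (nat_lit 6229472272) (nat_lit 620) (nat_lit 5) (nat_lit 628) (nat_lit 5) (nat_lit 629) (nat_lit 5) (nat_lit 391) (nat_lit 386) (nat_lit 363)))) (XT.nd (nat_lit 156) (nat_lit 684) (nat_lit 0) (XT.nd (nat_lit 78) (nat_lit 0) (nat_lit 0) (XT.lf (nat_lit 0) (nat_lit 2518031064) (nat_lit 608) (nat_lit 3593195187) (nat_lit 684) (nat_lit 495358371) (nat_lit 621) (nat_lit 5) (nat_lit 629) (nat_lit 5) (nat_lit 630) (nat_lit 5) (nat_lit 392) (nat_lit 386) (nat_lit 362)) (XT.lf (nat_lit 0) (nat_lit 4906722975) (nat_lit 608) (nat_lit 329971493) (nat_lit 684) (nat_lit 1390184882) (nat_lit 621) (nat_lit 5) (nat_lit 629) (nat_lit 5) (nat_lit 630) (nat_lit 5) (nat_lit 393) (nat_lit 386) (nat_lit 361))) (XT.nd (nat_lit 78) (nat_lit 0) (nat_lit 0)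 (XT.lf (nat_lit 0) (nat_lit 646239328) (nat_lit 684) (nat_lit 3648794807) (nat_lit 760) (nat_lit 2353322228) (nat_lit 612) (nat_lit 5) (nat_lit 621) (nat_lit 5) (nat_lit 622) (nat_lit 5) (nat_lit 394) (nat_lit 386) (nat_lit 360)) (XT.lf (nat_lit 0) (nat_lit 2980254926) (nat_lit 684) (nat_lit 316102004) (nat_lit 760) (nat_lit 3374872665) (nat_lit 612) (nat_lit 5) (nat_lit 621) (nat_lit 5) (nat_lit 622) (nat_lit 5) (nat_lit 395) (nat_lit 386) (nat_lit 359))))) (XT.nd (nat_lit 234) (nat_lit 760) (nat_lit 0) (XT.nd (nat_lit 78) (nat_lit 760) (nat_lit 0) (XT.lf (nat_lit 76) (nat_lit 3089812153) (nat_lit 0) (nat_lit 2233429592) (nat_lit 760) (nat_lit 1372132119) (nat_lit 613) (nat_lit 5) (nat_lit 612) (nat_lit 5) (nat_lit 622) (nat_lit 5) (nat_lit 396) (nat_lit 386) (nat_lit 358)) (XT.nd (nat_lit 78) (nat_lit 0) (nat_lit 76) (XT.lf (nat_lit 0) (nat_lit 924907560) (nat_lit 760) (nat_lit 192841979) (nat_lit 836) (nat_lit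 5603282715) (nat_lit 602) (nat_lit 5) (nat_lit 612) (nat_lit 5) (nat_lit 613) (nat_lit 5) (nat_lit 397) (nat_lit 386) (nat_lit 357)) (XT.lf (nat_lit 0) (nat_lit 3215192804) (nat_lit 760) (nat_lit 3459953858) (nat_lit 836) (nat_lit 72618167) (nat_lit 603) (nat_lit 5) (nat_lit 613) (nat_lit 5) (nat_lit 614) (nat_lit 5) (nat_lit 398) (nat_lit 386) (nat_lit 356)))) (XT.nd (nat_lit 156) (nat_lit 0) (nat_lit 0) (XT.nd (nat_lit 78) (nat_lit 836) (nat_lit 0) (XT.lf (nat_lit 76) (nat_lit 23632199) (nat_lit 0) (nat_lit 5481366119) (nat_lit 836) (nat_lit 1271014315) (nat_lit 604) (nat_lit 5) (nat_lit 603) (nat_lit 5) (nat_lit 614) (nat_lit 5) (nat_lit 399) (nat_lit 386) (nat_lit 355)) (XT.lf (nat_lit 0) (nat_lit 990861431) (nat_lit 836) (nat_lit 3222950589) (nat_lit 912) (nat_lit 2591558189) (nat_lit 592) (nat_lit 5) (nat_lit 603) (nat_lit 5) (nat_lit 604) (nat_lit 5) (nat_lit 400) (nat_lit 386) (nat_lit 354))) (XT.nd (nat_lit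 78) (nat_lit 0) (nat_lit 0) (XT.lf (nat_lit 76) (nat_lit 338281852) (nat_lit 0) (nat_lit 2891258158) (nat_lit 912) (nat_lit 3606686919) (nat_lit 593) (nat_lit 5) (nat_lit 592) (nat_lit 5) (nat_lit 604) (nat_lit 5) (nat_lit 401) (nat_lit 386) (nat_lit 353)) (XT.lf (nat_lit 76) (nat_lit 3979850552) (nat_lit 0) (nat_lit 1501968281) (nat_lit 912) (nat_lit 1386556106) (nat_lit 593) (nat_lit 5) (nat_lit 592) (nat_lit 5) (nat_lit 604) (nat_lit 5) (nat_lit 402) (nat_lit 386) (nat_lit 352)))))) (XT.nd (nat_lit 546) (nat_lit 5244) (nat_lit 0) (XT.nd (nat_lit 234) (nat_lit 2128) (nat_lit 0) (XT.nd (nat_lit 78) (nat_lit 836) (nat_lit 0) (XT.lf (nat_lit 76) (nat_lit 762747641) (nat_lit 0) (nat_lit 56509541) (nat_lit 988) (nat_lit 6082787547) (nat_lit 581) (nat_lit 5) (nat_lit 580) (nat_lit 5) (nat_lit 593) (nat_lit 5) (nat_lit 403) (nat_lit 386) (nat_lit 351)) (XT.nd (nat_lit 78) (nat_lit 912) (nat_lit 0) (XT.lf (nat_lit 0)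 (nat_lit 3028107393) (nat_lit 912) (nat_lit 2463914257) (nat_lit 76) (nat_lit 1444680997) (nat_lit 581) (nat_lit 5) (nat_lit 593) (nat_lit 5) (nat_lit 582) (nat_lit 5) (nat_lit 404) (nat_lit 386) (nat_lit 350)) (XT.lf (nat_lit 0) (nat_lit 1266310575) (nat_lit 912) (nat_lit 3973176584) (nat_lit 988) (nat_lit 1733446343) (nat_lit 569) (nat_lit 5) (nat_lit 581) (nat_lit 5) (nat_lit 582) (nat_lit 5) (nat_lit 405) (nat_lit 386) (nat_lit 349)))) (XT.nd (nat_lit 156) (nat_lit 1064) (nat_lit 0) (XT.nd (nat_lit 78) (nat_lit 988) (nat_lit 0) (XT.lf (nat_lit 0) (nat_lit 445629290) (nat_lit 988) (nat_lit 1943656440) (nat_lit 76) (nat_lit 4621249505) (nat_lit 568) (nat_lit 5) (nat_lit 581) (nat_lit 5) (nat_lit 569) (nat_lit 5) (nat_lit 406) (nat_lit 386) (nat_lit 348)) (XT.lf (nat_lit 0) (nat_lit 1872970329) (nat_lit 988) (nat_lit 735408741) (nat_lit 1064) (nat_lit 4441058829) (nat_lit 555) (nat_lit 5) (nat_lit 568) (nat_lit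 5) (nat_lit 569) (nat_lit 5) (nat_lit 407) (nat_lit 386) (nat_lit 347))) (XT.nd (nat_lit 78) (nat_lit 1064) (nat_lit 0) (XT.lf (nat_lit 0) (nat_lit 4785636043) (nat_lit 1064) (nat_lit 1338396247) (nat_lit 76) (nat_lit 965704549) (nat_lit 555) (nat_lit 5) (nat_lit 569) (nat_lit 5) (nat_lit 556) (nat_lit 5) (nat_lit 408) (nat_lit 386) (nat_lit 346)) (XT.lf (nat_lit 0) (nat_lit 2570424441) (nat_lit 1064) (nat_lit 4410459922) (nat_lit 1140) (nat_lit 150510884) (nat_lit 541) (nat_lit 5) (nat_lit 555) (nat_lit 5) (nat_lit 556) (nat_lit 5) (nat_lit 409) (nat_lit 386) (nat_lit 345))))) (XT.nd (nat_lit 312) (nat_lit 2736) (nat_lit 0) (XT.nd (nat_lit 156) (nat_lit 1292) (nat_lit 0) (XT.nd (nat_lit 78) (nat_lit 1140) (nat_lit 0) (XT.lf (nat_lit 0) (nat_lit 1981593629) (nat_lit 1140) (nat_lit 646774091) (nat_lit 76) (nat_lit 4546048604) (nat_lit 540) (nat_lit 5) (nat_lit 555) (nat_lit 5) (nat_lit 541) (nat_lit 5) (nat_lit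 410) (nat_lit 386) (nat_lit 344)) (XT.lf (nat_lit 0) (nat_lit 3354105075) (nat_lit 1140) (nat_lit 776153304) (nat_lit 1216) (nat_lit 3088540846) (nat_lit 525) (nat_lit 5) (nat_lit 540) (nat_lit 5) (nat_lit 541) (nat_lit 5) (nat_lit 411) (nat_lit 386) (nat_lit 343))) (XT.nd (nat_lit 78) (nat_lit 76) (nat_lit 0) (XT.lf (nat_lit 0) (nat_lit 138973400) (nat_lit 1216) (nat_lit 6150321752) (nat_lit 1292) (nat_lit 975465841) (nat_lit 509) (nat_lit 5) (nat_lit 525) (nat_lit 5) (nat_lit 526) (nat_lit 5) (nat_lit 412) (nat_lit 386) (nat_lit 342)) (XT.lf (nat_lit 0) (nat_lit 1150866748) (nat_lit 1292) (nat_lit 3084773894) (nat_lit 76) (nat_lit 3076156403) (nat_lit 508) (nat_lit 5) (nat_lit 525) (nat_lit 5) (nat_lit 509) (nat_lit 5) (nat_lit 413) (nat_lit 386) (nat_lit 341)))) (XT.nd (nat_lit 156) (nat_lit 1444) (nat_lit 0) (XT.nd (nat_lit 78) (nat_lit 0) (nat_lit 0) (XT.lf (nat_lit 0) (nat_lit 1008752077) (nat_lit 1292) (nat_lit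 2260576410) (nat_lit 1368) (nat_lit 4091100020) (nat_lit 491) (nat_lit 5) (nat_lit 508) (nat_lit 5) (nat_lit 509) (nat_lit 5) (nat_lit 414) (nat_lit 386) (nat_lit 340)) (XT.lf (nat_lit 0) (nat_lit 5191116339) (nat_lit 1292) (nat_lit 216480354) (nat_lit 1368) (nat_lit 2002923362) (nat_lit 491) (nat_lit 5) (nat_lit 508) (nat_lit 5) (nat_lit 509) (nat_lit 5) (nat_lit 415) (nat_lit 386) (nat_lit 339))) (XT.nd (nat_lit 78) (nat_lit 0) (nat_lit 0) (XT.lf (nat_lit 0) (nat_lit 107788455) (nat_lit 1444) (nat_lit 5488532977) (nat_lit 76) (nat_lit 1865661554) (nat_lit 472) (nat_lit 5) (nat_lit 491) (nat_lit 5) (nat_lit 473) (nat_lit 5) (nat_lit 416) (nat_lit 386) (nat_lit 338)) (XT.lf (nat_lit 0) (nat_lit 2208278062) (nat_lit 1444) (nat_lit 1284192047) (nat_lit 76) (nat_lit 4022286740) (nat_lit 472) (nat_lit 5) (nat_lit 491) (nat_lit 5) (nat_lit 473) (nat_lit 5) (nat_lit 417) (nat_lit 386) (nat_lit 337))))))))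
noncomputable def xc117 : XT := (XT.nd (nat_lit 2184) (nat_lit 8360) (nat_lit 0) (XT.nd (nat_lit 1092) (nat_lit 6688) (nat_lit 0) (XT.nd (nat_lit 546) (nat_lit 4180) (nat_lit 0) (XT.nd (nat_lit 234) (nat_lit 3344) (nat_lit 0) (XT.nd (nat_lit 78) (nat_lit 1596) (nat_lit 0) (XT.lf (nat_lit 0) (nat_lit 3008930243) (nat_lit 1444) (nat_lit 1320140035) (nat_lit 1520) (nat_lit 3239983500) (nat_lit 453) (nat_lit 5) (nat_lit 472) (nat_lit 5) (nat_lit 473) (nat_lit 5) (nat_lit 418) (nat_lit 386) (nat_lit 336)) (XT.nd (nat_lit 78) (nat_lit 1596) (nat_lit 0) (XT.lf (nat_lit 0) (nat_lit 6466149093) (nat_lit 1520) (nat_lit 260238965) (nat_lit 76) (nat_lit 898603960) (nat_lit 453) (nat_lit 5) (nat_lit 473) (nat_lit 5) (nat_lit 454) (nat_lit 5) (nat_lit 419) (nat_lit 386) (nat_lit 335)) (XT.lf (nat_lit 0) (nat_lit 946995273) (nat_lit 1596) (nat_lit 3551975796) (nat_lit 76) (nat_lit 3183069965) (nat_lit 432) (nat_lit 5) (nat_lit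 453) (nat_lit 5) (nat_lit 433) (nat_lit 5) (nat_lit 420) (nat_lit 386) (nat_lit 334)))) (XT.nd (nat_lit 156) (nat_lit 1748) (nat_lit 0) (XT.nd (nat_lit 78) (nat_lit 0) (nat_lit 0) (XT.lf (nat_lit 0) (nat_lit 839776261) (nat_lit 1596) (nat_lit 2207325011) (nat_lit 1672) (nat_lit 4693654098) (nat_lit 411) (nat_lit 5) (nat_lit 432) (nat_lit 5) (nat_lit 433) (nat_lit 5) (nat_lit 421) (nat_lit 386) (nat_lit 333)) (XT.lf (nat_lit 0) (nat_lit 5175067698) (nat_lit 1672) (nat_lit 2469324340) (nat_lit 76) (nat_lit 156565079) (nat_lit 411) (nat_lit 5) (nat_lit 433) (nat_lit 5) (nat_lit 412) (nat_lit 5) (nat_lit 422) (nat_lit 386) (nat_lit 332))) (XT.nd (nat_lit 78) (nat_lit 76) (nat_lit 0) (XT.lf (nat_lit 0) (nat_lit 2027976589) (nat_lit 1672) (nat_lit 5307185981) (nat_lit 1748) (nat_lit 527438646) (nat_lit 389) (nat_lit 5) (nat_lit 411) (nat_lit 5) (nat_lit 412) (nat_lit 5) (nat_lit 423) (nat_lit 386) (nat_lit 331)) (XT.lf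 (nat_lit 0) (nat_lit 1570536360) (nat_lit 1748) (nat_lit 1322302467) (nat_lit 76) (nat_lit 5032884267) (nat_lit 388) (nat_lit 5) (nat_lit 411) (nat_lit 5) (nat_lit 389) (nat_lit 5) (nat_lit 424) (nat_lit 386) (nat_lit 330))))) (XT.nd (nat_lit 234) (nat_lit 1900) (nat_lit 0) (XT.nd (nat_lit 78) (nat_lit 836) (nat_lit 0) (XT.lf (nat_lit 0) (nat_lit 3285282513) (nat_lit 1444) (nat_lit 402236856) (nat_lit 1520) (nat_lit 4302864081) (nat_lit 369) (nat_lit 5) (nat_lit 388) (nat_lit 5) (nat_lit 389) (nat_lit 5) (nat_lit 425) (nat_lit 386) (nat_lit 329)) (XT.nd (nat_lit 78) (nat_lit 836) (nat_lit 0) (XT.lf (nat_lit 0) (nat_lit 5832952960) (nat_lit 1520) (nat_lit 102284856) (nat_lit 76) (nat_lit 2121404414) (nat_lit 369) (nat_lit 5) (nat_lit 389) (nat_lit 5) (nat_lit 370) (nat_lit 5) (nat_lit 426) (nat_lit 386) (nat_lit 328)) (XT.lf (nat_lit 0) (nat_lit 4616025063) (nat_lit 836) (nat_lit 3401920300) (nat_lit 912) (nat_lit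 106374718) (nat_lit 358) (nat_lit 5) (nat_lit 369) (nat_lit 5) (nat_lit 370) (nat_lit 5) (nat_lit 427) (nat_lit 386) (nat_lit 327)))) (XT.nd (nat_lit 156) (nat_lit 912) (nat_lit 0) (XT.nd (nat_lit 78) (nat_lit 0) (nat_lit 0) (XT.lf (nat_lit 0) (nat_lit 1204498088) (nat_lit 912) (nat_lit 794608490) (nat_lit 988) (nat_lit 6194549145) (nat_lit 345) (nat_lit 5) (nat_lit 357) (nat_lit 5) (nat_lit 358) (nat_lit 5) (nat_lit 428) (nat_lit 386) (nat_lit 326)) (XT.lf (nat_lit 0) (nat_lit 4145801573) (nat_lit 988) (nat_lit 2252993575) (nat_lit 76) (nat_lit 1865583646) (nat_lit 345) (nat_lit 5) (nat_lit 358) (nat_lit 5) (nat_lit 346) (nat_lit 5) (nat_lit 429) (nat_lit 386) (nat_lit 325))) (XT.nd (nat_lit 78) (nat_lit 76) (nat_lit 0) (XT.lf (nat_lit 0) (nat_lit 2571831048) (nat_lit 836) (nat_lit 3750972349) (nat_lit 912) (nat_lit 2013990320) (nat_lit 334) (nat_lit 5) (nat_lit 345) (nat_lit 5) (nat_lit 346) (nat_lit 5) (nat_lit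 430) (nat_lit 386) (nat_lit 324)) (XT.lf (nat_lit 0) (nat_lit 111784955) (nat_lit 912) (nat_lit 922408170) (nat_lit 76) (nat_lit 7376853731) (nat_lit 333) (nat_lit 5) (nat_lit 345) (nat_lit 5) (nat_lit 334) (nat_lit 5) (nat_lit 431) (nat_lit 386) (nat_lit 323)))))) (XT.nd (nat_lit 546) (nat_lit 3572) (nat_lit 0) (XT.nd (nat_lit 234) (nat_lit 1520) (nat_lit 0) (XT.nd (nat_lit 78) (nat_lit 760) (nat_lit 0) (XT.lf (nat_lit 0) (nat_lit 2257077223) (nat_lit 912) (nat_lit 4475918495) (nat_lit 76) (nat_lit 1753467129) (nat_lit 322) (nat_lit 5) (nat_lit 334) (nat_lit 5) (nat_lit 323) (nat_lit 5) (nat_lit 432) (nat_lit 386) (nat_lit 322)) (XT.nd (nat_lit 78) (nat_lit 0) (nat_lit 0) (XT.lf (nat_lit 0) (nat_lit 455923615) (nat_lit 760) (nat_lit 3972120823) (nat_lit 836) (nat_lit 4135710297) (nat_lit 312) (nat_lit 5) (nat_lit 322) (nat_lit 5) (nat_lit 323) (nat_lit 5) (nat_lit 433) (nat_lit 386) (nat_lit 321)) (XT.lf (nat_lit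 0) (nat_lit 5512740202) (nat_lit 760) (nat_lit 1126885156) (nat_lit 836) (nat_lit 2003045722) (nat_lit 312) (nat_lit 5) (nat_lit 322) (nat_lit 5) (nat_lit 323) (nat_lit 5) (nat_lit 434) (nat_lit 386) (nat_lit 320)))) (XT.nd (nat_lit 156) (nat_lit 684) (nat_lit 0) (XT.nd (nat_lit 78) (nat_lit 0) (nat_lit 0) (XT.lf (nat_lit 0) (nat_lit 161767129) (nat_lit 836) (nat_lit 6797459767) (nat_lit 76) (nat_lit 1764103031) (nat_lit 301) (nat_lit 5) (nat_lit 312) (nat_lit 5) (nat_lit 302) (nat_lit 5) (nat_lit 435) (nat_lit 386) (nat_lit 319)) (XT.lf (nat_lit 0) (nat_lit 2339657194) (nat_lit 836) (nat_lit 1735373719) (nat_lit 76) (nat_lit 4730395410) (nat_lit 301) (nat_lit 5) (nat_lit 312) (nat_lit 5) (nat_lit 302) (nat_lit 5) (nat_lit 436) (nat_lit 386) (nat_lit 318))) (XT.nd (nat_lit 78) (nat_lit 0) (nat_lit 0) (XT.lf (nat_lit 0) (nat_lit 3439198005) (nat_lit 684) (nat_lit 1112835897) (nat_lit 760) (nat_lit 4337332961) (nat_lit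 292) (nat_lit 5) (nat_lit 301) (nat_lit 5) (nat_lit 302) (nat_lit 5) (nat_lit 437) (nat_lit 386) (nat_lit 317)) (XT.lf (nat_lit 0) (nat_lit 6801751923) (nat_lit 760) (nat_lit 280700046) (nat_lit 76) (nat_lit 1892692755) (nat_lit 292) (nat_lit 5) (nat_lit 302) (nat_lit 5) (nat_lit 293) (nat_lit 5) (nat_lit 438) (nat_lit 386) (nat_lit 316))))) (XT.nd (nat_lit 234) (nat_lit 2052) (nat_lit 0) (XT.nd (nat_lit 78) (nat_lit 684) (nat_lit 0) (XT.lf (nat_lit 0) (nat_lit 42957080) (nat_lit 836) (nat_lit 4045753438) (nat_lit 76) (nat_lit 4973751333) (nat_lit 281) (nat_lit 5) (nat_lit 292) (nat_lit 5) (nat_lit 282) (nat_lit 5) (nat_lit 439) (nat_lit 386) (nat_lit 315)) (XT.nd (nat_lit 78) (nat_lit 0) (nat_lit 0) (XT.lf (nat_lit 0) (nat_lit 1240454598) (nat_lit 684) (nat_lit 1013803957) (nat_lit 760) (nat_lit 6897404127) (nat_lit 272) (nat_lit 5) (nat_lit 281) (nat_lit 5) (nat_lit 282) (nat_lit 5) (nat_lit 440) (nat_lit 386)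 (nat_lit 314)) (XT.lf (nat_lit 0) (nat_lit 4520996701) (nat_lit 760) (nat_lit 2602998428) (nat_lit 76) (nat_lit 2118447021) (nat_lit 272) (nat_lit 5) (nat_lit 282) (nat_lit 5) (nat_lit 273) (nat_lit 5) (nat_lit 441) (nat_lit 386) (nat_lit 313)))) (XT.nd (nat_lit 156) (nat_lit 1368) (nat_lit 0) (XT.nd (nat_lit 78) (nat_lit 0) (nat_lit 0) (XT.lf (nat_lit 0) (nat_lit 2807997902) (nat_lit 684) (nat_lit 4020703671) (nat_lit 760) (nat_lit 2506441459) (nat_lit 263) (nat_lit 5) (nat_lit 272) (nat_lit 5) (nat_lit 273) (nat_lit 5) (nat_lit 442) (nat_lit 386) (nat_lit 312)) (XT.lf (nat_lit 0) (nat_lit 8329227843) (nat_lit 684) (nat_lit 841845591) (nat_lit 760) (nat_lit 258872341) (nat_lit 263) (nat_lit 5) (nat_lit 272) (nat_lit 5) (nat_lit 273) (nat_lit 5) (nat_lit 443) (nat_lit 386) (nat_lit 311))) (XT.nd (nat_lit 78) (nat_lit 684) (nat_lit 0) (XT.lf (nat_lit 0) (nat_lit 2023088797) (nat_lit 684) (nat_lit 5095895687) (nat_lit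 76) (nat_lit 2407091167) (nat_lit 254) (nat_lit 5) (nat_lit 263) (nat_lit 5) (nat_lit 255) (nat_lit 5) (nat_lit 444) (nat_lit 386) (nat_lit 310)) (XT.lf (nat_lit 0) (nat_lit 427554121) (nat_lit 684) (nat_lit 3907184143) (nat_lit 760) (nat_lit 5289622385) (nat_lit 245) (nat_lit 5) (nat_lit 254) (nat_lit 5) (nat_lit 255) (nat_lit 5) (nat_lit 445) (nat_lit 386) (nat_lit 309))))))) (XT.nd (nat_lit 1092) (nat_lit 3724) (nat_lit 0) (XT.nd (nat_lit 546) (nat_lit 2128) (nat_lit 0) (XT.nd (nat_lit 234) (nat_lit 1824) (nat_lit 0) (XT.nd (nat_lit 78) (nat_lit 684) (nat_lit 0) (XT.lf (nat_lit 0) (nat_lit 6097417711) (nat_lit 684) (nat_lit 601464189) (nat_lit 760) (nat_lit 3025620946) (nat_lit 245) (nat_lit 5) (nat_lit 254) (nat_lit 5) (nat_lit 255) (nat_lit 5) (nat_lit 446) (nat_lit 386) (nat_lit 308)) (XT.nd (nat_lit 78) (nat_lit 76) (nat_lit 0) (XT.lf (nat_lit 0) (nat_lit 2029649980) (nat_lit 608) (nat_lit 7084403049) (nat_lit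 684) (nat_lit 712536362) (nat_lit 237) (nat_lit 5) (nat_lit 245) (nat_lit 5) (nat_lit 246) (nat_lit 5) (nat_lit 447) (nat_lit 386) (nat_lit 307)) (XT.lf (nat_lit 0) (nat_lit 1626404873) (nat_lit 684) (nat_lit 2129555658) (nat_lit 76) (nat_lit 6174535188) (nat_lit 236) (nat_lit 5) (nat_lit 245) (nat_lit 5) (nat_lit 237) (nat_lit 5) (nat_lit 448) (nat_lit 386) (nat_lit 306)))) (XT.nd (nat_lit 156) (nat_lit 1216) (nat_lit 0) (XT.nd (nat_lit 78) (nat_lit 0) (nat_lit 0) (XT.lf (nat_lit 0) (nat_lit 3661960634) (nat_lit 608) (nat_lit 337652472) (nat_lit 684) (nat_lit 6036847739) (nat_lit 228) (nat_lit 5) (nat_lit 236) (nat_lit 5) (nat_lit 237) (nat_lit 5) (nat_lit 449) (nat_lit 386) (nat_lit 305)) (XT.lf (nat_lit 0) (nat_lit 6428637100) (nat_lit 684) (nat_lit 599441216) (nat_lit 76) (nat_lit 3116315071) (nat_lit 228) (nat_lit 5) (nat_lit 237) (nat_lit 5) (nat_lit 229) (nat_lit 5) (nat_lit 450) (nat_lit 386) (nat_lit 304)))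 (XT.nd (nat_lit 78) (nat_lit 684) (nat_lit 0) (XT.lf (nat_lit 0) (nat_lit 5326569695) (nat_lit 532) (nat_lit 3590531789) (nat_lit 608) (nat_lit 1337180747) (nat_lit 221) (nat_lit 5) (nat_lit 228) (nat_lit 5) (nat_lit 229) (nat_lit 5) (nat_lit 451) (nat_lit 386) (nat_lit 303)) (XT.lf (nat_lit 0) (nat_lit 986460559) (nat_lit 608) (nat_lit 72835111) (nat_lit 684) (nat_lit 9307253824) (nat_lit 212) (nat_lit 5) (nat_lit 220) (nat_lit 5) (nat_lit 221) (nat_lit 5) (nat_lit 452) (nat_lit 386) (nat_lit 302))))) (XT.nd (nat_lit 234) (nat_lit 1596) (nat_lit 0) (XT.nd (nat_lit 78) (nat_lit 532) (nat_lit 0) (XT.lf (nat_lit 0) (nat_lit 3516336213) (nat_lit 684) (nat_lit 3459172579) (nat_lit 76) (nat_lit 3504779738) (nat_lit 212) (nat_lit 5) (nat_lit 221) (nat_lit 5) (nat_lit 213) (nat_lit 5) (nat_lit 453) (nat_lit 386) (nat_lit 301)) (XT.nd (nat_lit 78) (nat_lit 0) (nat_lit 0) (XT.lf (nat_lit 0) (nat_lit 2581588948) (nat_lit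 532) (nat_lit 3433087126) (nat_lit 608) (nat_lit 4581796821) (nat_lit 205) (nat_lit 5) (nat_lit 212) (nat_lit 5) (nat_lit 213) (nat_lit 5) (nat_lit 454) (nat_lit 386) (nat_lit 300)) (XT.lf (nat_lit 0) (nat_lit 8562674711) (nat_lit 608) (nat_lit 1957987588) (nat_lit 76) (nat_lit 194338260) (nat_lit 205) (nat_lit 5) (nat_lit 213) (nat_lit 5) (nat_lit 206) (nat_lit 5) (nat_lit 455) (nat_lit 386) (nat_lit 299)))) (XT.nd (nat_lit 156) (nat_lit 988) (nat_lit 0) (XT.nd (nat_lit 78) (nat_lit 0) (nat_lit 0) (XT.lf (nat_lit 0) (nat_lit 347404738) (nat_lit 608) (nat_lit 6616581893) (nat_lit 76) (nat_lit 3871363928) (nat_lit 197) (nat_lit 5) (nat_lit 205) (nat_lit 5) (nat_lit 198) (nat_lit 5) (nat_lit 456) (nat_lit 386) (nat_lit 298)) (XT.lf (nat_lit 0) (nat_lit 2857307745) (nat_lit 608) (nat_lit 458283404) (nat_lit 76) (nat_lit 7642464599) (nat_lit 197) (nat_lit 5) (nat_lit 205) (nat_lit 5) (nat_lit 198) (nat_lit 5) (nat_lit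 457) (nat_lit 386) (nat_lit 297))) (XT.nd (nat_lit 78) (nat_lit 532) (nat_lit 0) (XT.lf (nat_lit 0) (nat_lit 5434574249) (nat_lit 532) (nat_lit 5216702739) (nat_lit 76) (nat_lit 431607168) (nat_lit 191) (nat_lit 5) (nat_lit 198) (nat_lit 5) (nat_lit 192) (nat_lit 5) (nat_lit 458) (nat_lit 386) (nat_lit 296)) (XT.lf (nat_lit 0) (nat_lit 1074000276) (nat_lit 532) (nat_lit 6997850196) (nat_lit 608) (nat_lit 3138201556) (nat_lit 184) (nat_lit 5) (nat_lit 191) (nat_lit 5) (nat_lit 192) (nat_lit 5) (nat_lit 459) (nat_lit 386) (nat_lit 295)))))) (XT.nd (nat_lit 546) (nat_lit 1748) (nat_lit 0) (XT.nd (nat_lit 234) (nat_lit 1444) (nat_lit 0) (XT.nd (nat_lit 78) (nat_lit 532) (nat_lit 0) (XT.lf (nat_lit 0) (nat_lit 7530129533) (nat_lit 532) (nat_lit 3243447595) (nat_lit 608) (nat_lit 565963973) (nat_lit 184) (nat_lit 5) (nat_lit 191) (nat_lit 5) (nat_lit 192) (nat_lit 5) (nat_lit 460) (nat_lit 386) (nat_lit 294)) (XT.nd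 (nat_lit 78) (nat_lit 0) (nat_lit 0) (XT.lf (nat_lit 0) (nat_lit 2028781806) (nat_lit 532) (nat_lit 8841298853) (nat_lit 76) (nat_lit 601322559) (nat_lit 177) (nat_lit 5) (nat_lit 184) (nat_lit 5) (nat_lit 178) (nat_lit 5) (nat_lit 461) (nat_lit 386) (nat_lit 293)) (XT.lf (nat_lit 0) (nat_lit 4692257150) (nat_lit 532) (nat_lit 2411762004) (nat_lit 76) (nat_lit 4501331598) (nat_lit 177) (nat_lit 5) (nat_lit 184) (nat_lit 5) (nat_lit 178) (nat_lit 5) (nat_lit 462) (nat_lit 386) (nat_lit 292)))) (XT.nd (nat_lit 156) (nat_lit 988) (nat_lit 0) (XT.nd (nat_lit 78) (nat_lit 0) (nat_lit 0) (XT.lf (nat_lit 0) (nat_lit 4170650984) (nat_lit 456) (nat_lit 3243070420) (nat_lit 532) (nat_lit 4328172480) (nat_lit 171) (nat_lit 5) (nat_lit 177) (nat_lit 5) (nat_lit 178) (nat_lit 5) (nat_lit 463) (nat_lit 386) (nat_lit 291)) (XT.lf (nat_lit 0) (nat_lit 10188249803) (nat_lit 532) (nat_lit 998674040) (nat_lit 76) (nat_lit 694282153)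 (nat_lit 171) (nat_lit 5) (nat_lit 178) (nat_lit 5) (nat_lit 172) (nat_lit 5) (nat_lit 464) (nat_lit 386) (nat_lit 290))) (XT.nd (nat_lit 78) (nat_lit 456) (nat_lit 0) (XT.lf (nat_lit 0) (nat_lit 1019088297) (nat_lit 532) (nat_lit 6300288703) (nat_lit 76) (nat_lit 4703065090) (nat_lit 164) (nat_lit 5) (nat_lit 171) (nat_lit 5) (nat_lit 165) (nat_lit 5) (nat_lit 465) (nat_lit 386) (nat_lit 289)) (XT.lf (nat_lit 0) (nat_lit 388288058) (nat_lit 456) (nat_lit 3362050240) (nat_lit 532) (nat_lit 8416198325) (nat_lit 158) (nat_lit 5) (nat_lit 164) (nat_lit 5) (nat_lit 165) (nat_lit 5) (nat_lit 466) (nat_lit 386) (nat_lit 288))))) (XT.nd (nat_lit 312) (nat_lit 836) (nat_lit 0) (XT.nd (nat_lit 156) (nat_lit 532) (nat_lit 0) (XT.nd (nat_lit 78) (nat_lit 380) (nat_lit 0) (XT.lf (nat_lit 0) (nat_lit 6561670662) (nat_lit 532) (nat_lit 5051587259) (nat_lit 76) (nat_lit 699755973) (nat_lit 158) (nat_lit 5) (nat_lit 165) (nat_lit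 5) (nat_lit 159) (nat_lit 5) (nat_lit 467) (nat_lit 386) (nat_lit 287)) (XT.lf (nat_lit 0) (nat_lit 1780994802) (nat_lit 380) (nat_lit 7661004992) (nat_lit 456) (nat_lit 3020175311) (nat_lit 153) (nat_lit 5) (nat_lit 158) (nat_lit 5) (nat_lit 159) (nat_lit 5) (nat_lit 468) (nat_lit 386) (nat_lit 286))) (XT.nd (nat_lit 78) (nat_lit 532) (nat_lit 0) (XT.lf (nat_lit 0) (nat_lit 8789194223) (nat_lit 380) (nat_lit 3603802897) (nat_lit 456) (nat_lit 221070792) (nat_lit 153) (nat_lit 5) (nat_lit 158) (nat_lit 5) (nat_lit 159) (nat_lit 5) (nat_lit 469) (nat_lit 386) (nat_lit 285)) (XT.lf (nat_lit 0) (nat_lit 2603101891) (nat_lit 532) (nat_lit 9608593855) (nat_lit 76) (nat_lit 556897393) (nat_lit 146) (nat_lit 5) (nat_lit 153) (nat_lit 5) (nat_lit 147) (nat_lit 5) (nat_lit 470) (nat_lit 386) (nat_lit 284)))) (XT.nd (nat_lit 156) (nat_lit 456) (nat_lit 0) (XT.nd (nat_lit 78) (nat_lit 380) (nat_lit 0) (XT.lf (nat_lit 0) (nat_lit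 5510089310) (nat_lit 532) (nat_lit 2644160575) (nat_lit 76) (nat_lit 4771352984) (nat_lit 146) (nat_lit 5) (nat_lit 153) (nat_lit 5) (nat_lit 147) (nat_lit 5) (nat_lit 471) (nat_lit 386) (nat_lit 283)) (XT.lf (nat_lit 0) (nat_lit 4489638233) (nat_lit 380) (nat_lit 3994713749) (nat_lit 456) (nat_lit 4601226975) (nat_lit 141) (nat_lit 5) (nat_lit 146) (nat_lit 5) (nat_lit 147) (nat_lit 5) (nat_lit 472) (nat_lit 386) (nat_lit 282))) (XT.nd (nat_lit 78) (nat_lit 456) (nat_lit 0) (XT.lf (nat_lit 0) (nat_lit 11517706637) (nat_lit 456) (nat_lit 1477135855) (nat_lit 76) (nat_lit 253928638) (nat_lit 141) (nat_lit 5) (nat_lit 147) (nat_lit 5) (nat_lit 142) (nat_lit 5) (nat_lit 473) (nat_lit 386) (nat_lit 281)) (XT.lf (nat_lit 0) (nat_lit 1225768206) (nat_lit 456) (nat_lit 7617074263) (nat_lit 76) (nat_lit 4571338487) (nat_lit 135) (nat_lit 5) (nat_lit 141) (nat_lit 5) (nat_lit 136) (nat_lit 5) (nat_lit 474) (nat_lit 386)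 (nat_lit 280))))))))
noncomputable def xc118 : XT := (XT.nd (nat_lit 2184) (nat_lit 2736) (nat_lit 0) (XT.nd (nat_lit 1092) (nat_lit 1976) (nat_lit 0) (XT.nd (nat_lit 546) (nat_lit 1064) (nat_lit 0) (XT.nd (nat_lit 234) (nat_lit 760) (nat_lit 0) (XT.nd (nat_lit 78) (nat_lit 760) (nat_lit 0) (XT.lf (nat_lit 0) (nat_lit 4209145835) (nat_lit 456) (nat_lit 385848468) (nat_lit 76) (nat_lit 8987872281) (nat_lit 135) (nat_lit 5) (nat_lit 141) (nat_lit 5) (nat_lit 136) (nat_lit 5) (nat_lit 475) (nat_lit 386) (nat_lit 279)) (XT.nd (nat_lit 78) (nat_lit 380) (nat_lit 0) (XT.lf (nat_lit 0) (nat_lit 7054607475) (nat_lit 380) (nat_lit 224354925) (nat_lit 456) (nat_lit 6475436134) (nat_lit 130) (nat_lit 5) (nat_lit 135) (nat_lit 5) (nat_lit 136) (nat_lit 5) (nat_lit 476) (nat_lit 386) (nat_lit 278)) (XT.lf (nat_lit 0) (nat_lit 673055547) (nat_lit 380) (nat_lit 9752687591) (nat_lit 456) (nat_lit 3503314508) (nat_lit 125) (nat_lit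 5) (nat_lit 130) (nat_lit 5) (nat_lit 131) (nat_lit 5) (nat_lit 477) (nat_lit 386) (nat_lit 277)))) (XT.nd (nat_lit 156) (nat_lit 380) (nat_lit 0) (XT.nd (nat_lit 78) (nat_lit 380) (nat_lit 0) (XT.lf (nat_lit 0) (nat_lit 8254795529) (nat_lit 380) (nat_lit 5408392193) (nat_lit 456) (nat_lit 443475379) (nat_lit 125) (nat_lit 5) (nat_lit 130) (nat_lit 5) (nat_lit 131) (nat_lit 5) (nat_lit 478) (nat_lit 386) (nat_lit 276)) (XT.lf (nat_lit 0) (nat_lit 1677382579) (nat_lit 304) (nat_lit 957482902) (nat_lit 380) (nat_lit 11652766486) (nat_lit 120) (nat_lit 5) (nat_lit 124) (nat_lit 5) (nat_lit 125) (nat_lit 5) (nat_lit 479) (nat_lit 386) (nat_lit 275))) (XT.nd (nat_lit 78) (nat_lit 380) (nat_lit 0) (XT.lf (nat_lit 0) (nat_lit 5813285365) (nat_lit 380) (nat_lit 5089064154) (nat_lit 76) (nat_lit 3568930337) (nat_lit 120) (nat_lit 5) (nat_lit 125) (nat_lit 5) (nat_lit 121) (nat_lit 5) (nat_lit 480) (nat_lit 386) (nat_lit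 274)) (XT.lf (nat_lit 0) (nat_lit 2582908486) (nat_lit 380) (nat_lit 6477491757) (nat_lit 456) (nat_lit 5598105065) (nat_lit 115) (nat_lit 5) (nat_lit 120) (nat_lit 5) (nat_lit 121) (nat_lit 5) (nat_lit 481) (nat_lit 386) (nat_lit 273))))) (XT.nd (nat_lit 234) (nat_lit 684) (nat_lit 0) (XT.nd (nat_lit 78) (nat_lit 380) (nat_lit 0) (XT.lf (nat_lit 0) (nat_lit 10450312278) (nat_lit 380) (nat_lit 1938488522) (nat_lit 456) (nat_lit 2460354598) (nat_lit 115) (nat_lit 5) (nat_lit 120) (nat_lit 5) (nat_lit 121) (nat_lit 5) (nat_lit 482) (nat_lit 386) (nat_lit 272)) (XT.nd (nat_lit 78) (nat_lit 0) (nat_lit 0) (XT.lf (nat_lit 0) (nat_lit 752825921) (nat_lit 380) (nat_lit 11615907275) (nat_lit 76) (nat_lit 2674348263) (nat_lit 110) (nat_lit 5) (nat_lit 115) (nat_lit 5) (nat_lit 111) (nat_lit 5) (nat_lit 483) (nat_lit 386) (nat_lit 271)) (XT.lf (nat_lit 0) (nat_lit 4022441527) (nat_lit 380) (nat_lit 3827106125) (nat_lit 76)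 (nat_lit 7390517411) (nat_lit 110) (nat_lit 5) (nat_lit 115) (nat_lit 5) (nat_lit 111) (nat_lit 5) (nat_lit 484) (nat_lit 386) (nat_lit 270)))) (XT.nd (nat_lit 156) (nat_lit 380) (nat_lit 0) (XT.nd (nat_lit 78) (nat_lit 0) (nat_lit 0) (XT.lf (nat_lit 0) (nat_lit 4145543668) (nat_lit 304) (nat_lit 3221697000) (nat_lit 380) (nat_lit 8073558311) (nat_lit 106) (nat_lit 5) (nat_lit 110) (nat_lit 5) (nat_lit 111) (nat_lit 5) (nat_lit 485) (nat_lit 386) (nat_lit 269)) (XT.lf (nat_lit 0) (nat_lit 10797500647) (nat_lit 380) (nat_lit 3351820665) (nat_lit 76) (nat_lit 1495861302) (nat_lit 106) (nat_lit 5) (nat_lit 111) (nat_lit 5) (nat_lit 107) (nat_lit 5) (nat_lit 486) (nat_lit 386) (nat_lit 268))) (XT.nd (nat_lit 78) (nat_lit 76) (nat_lit 0) (XT.lf (nat_lit 0) (nat_lit 4765758640) (nat_lit 304) (nat_lit 9566201328) (nat_lit 380) (nat_lit 1520988285) (nat_lit 102) (nat_lit 5) (nat_lit 106) (nat_lit 5) (nat_lit 107) (nat_lit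 5) (nat_lit 487) (nat_lit 386) (nat_lit 267)) (XT.lf (nat_lit 0) (nat_lit 1853686584) (nat_lit 380) (nat_lit 3011548618) (nat_lit 76) (nat_lit 11199276815) (nat_lit 101) (nat_lit 5) (nat_lit 106) (nat_lit 5) (nat_lit 102) (nat_lit 5) (nat_lit 488) (nat_lit 386) (nat_lit 266)))))) (XT.nd (nat_lit 546) (nat_lit 836) (nat_lit 0) (XT.nd (nat_lit 234) (nat_lit 608) (nat_lit 0) (XT.nd (nat_lit 78) (nat_lit 228) (nat_lit 0) (XT.lf (nat_lit 0) (nat_lit 5259065990) (nat_lit 304) (nat_lit 34274200) (nat_lit 380) (nat_lit 10986414620) (nat_lit 97) (nat_lit 5) (nat_lit 101) (nat_lit 5) (nat_lit 102) (nat_lit 5) (nat_lit 489) (nat_lit 386) (nat_lit 265)) (XT.nd (nat_lit 78) (nat_lit 228) (nat_lit 0) (XT.lf (nat_lit 0) (nat_lit 8837683857) (nat_lit 380) (nat_lit 2820429844) (nat_lit 76) (nat_lit 4840476560) (nat_lit 97) (nat_lit 5) (nat_lit 102) (nat_lit 5) (nat_lit 98) (nat_lit 5) (nat_lit 490) (nat_lit 386) (nat_lit 264))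 (XT.lf (nat_lit 0) (nat_lit 5591904630) (nat_lit 228) (nat_lit 6881644560) (nat_lit 304) (nat_lit 4247846162) (nat_lit 94) (nat_lit 5) (nat_lit 97) (nat_lit 5) (nat_lit 98) (nat_lit 5) (nat_lit 491) (nat_lit 386) (nat_lit 263)))) (XT.nd (nat_lit 156) (nat_lit 228) (nat_lit 0) (XT.nd (nat_lit 78) (nat_lit 380) (nat_lit 0) (XT.lf (nat_lit 0) (nat_lit 14185840674) (nat_lit 228) (nat_lit 1999469402) (nat_lit 304) (nat_lit 763288422) (nat_lit 94) (nat_lit 5) (nat_lit 97) (nat_lit 5) (nat_lit 98) (nat_lit 5) (nat_lit 492) (nat_lit 386) (nat_lit 262)) (XT.lf (nat_lit 0) (nat_lit 2796158701) (nat_lit 380) (nat_lit 11394489028) (nat_lit 76) (nat_lit 2988504820) (nat_lit 89) (nat_lit 5) (nat_lit 94) (nat_lit 5) (nat_lit 90) (nat_lit 5) (nat_lit 493) (nat_lit 386) (nat_lit 261))) (XT.nd (nat_lit 78) (nat_lit 228) (nat_lit 0) (XT.lf (nat_lit 0) (nat_lit 6433028117) (nat_lit 380) (nat_lit 2916576488) (nat_lit 76) (nat_lit 8064288294)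 (nat_lit 89) (nat_lit 5) (nat_lit 94) (nat_lit 5) (nat_lit 90) (nat_lit 5) (nat_lit 494) (nat_lit 386) (nat_lit 260)) (XT.lf (nat_lit 0) (nat_lit 5782523717) (nat_lit 228) (nat_lit 4382498683) (nat_lit 304) (nat_lit 7487863002) (nat_lit 86) (nat_lit 5) (nat_lit 89) (nat_lit 5) (nat_lit 90) (nat_lit 5) (nat_lit 495) (nat_lit 386) (nat_lit 259))))) (XT.nd (nat_lit 234) (nat_lit 456) (nat_lit 0) (XT.nd (nat_lit 78) (nat_lit 380) (nat_lit 0) (XT.lf (nat_lit 0) (nat_lit 13980724480) (nat_lit 304) (nat_lit 3229992498) (nat_lit 76) (nat_lit 685764417) (nat_lit 86) (nat_lit 5) (nat_lit 90) (nat_lit 5) (nat_lit 87) (nat_lit 5) (nat_lit 496) (nat_lit 386) (nat_lit 258)) (XT.nd (nat_lit 78) (nat_lit 76) (nat_lit 0) (XT.lf (nat_lit 0) (nat_lit 5603835827) (nat_lit 304) (nat_lit 12319533211) (nat_lit 380) (nat_lit 220572599) (nat_lit 82) (nat_lit 5) (nat_lit 86) (nat_lit 5) (nat_lit 87) (nat_lit 5) (nat_lit 497) (nat_lit 386)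 (nat_lit 257)) (XT.lf (nat_lit 0) (nat_lit 3509050352) (nat_lit 380) (nat_lit 3784840655) (nat_lit 76) (nat_lit 11101862513) (nat_lit 81) (nat_lit 5) (nat_lit 86) (nat_lit 5) (nat_lit 82) (nat_lit 5) (nat_lit 498) (nat_lit 386) (nat_lit 256)))) (XT.nd (nat_lit 156) (nat_lit 228) (nat_lit 0) (XT.nd (nat_lit 78) (nat_lit 0) (nat_lit 0) (XT.lf (nat_lit 0) (nat_lit 5188723702) (nat_lit 228) (nat_lit 2140824966) (nat_lit 304) (nat_lit 11322643701) (nat_lit 78) (nat_lit 5) (nat_lit 81) (nat_lit 5) (nat_lit 82) (nat_lit 5) (nat_lit 499) (nat_lit 386) (nat_lit 255)) (XT.lf (nat_lit 0) (nat_lit 11257869622) (nat_lit 304) (nat_lit 4564058520) (nat_lit 76) (nat_lit 3091208126) (nat_lit 78) (nat_lit 5) (nat_lit 82) (nat_lit 5) (nat_lit 79) (nat_lit 5) (nat_lit 500) (nat_lit 386) (nat_lit 254))) (XT.nd (nat_lit 78) (nat_lit 0) (nat_lit 0) (XT.lf (nat_lit 0) (nat_lit 4535632584) (nat_lit 228) (nat_lit 10758651949) (nat_lit 304)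 (nat_lit 3884428398) (nat_lit 75) (nat_lit 5) (nat_lit 78) (nat_lit 5) (nat_lit 79) (nat_lit 5) (nat_lit 501) (nat_lit 386) (nat_lit 253)) (XT.lf (nat_lit 0) (nat_lit 13856320710) (nat_lit 228) (nat_lit 5571763818) (nat_lit 304) (nat_lit 21187815) (nat_lit 75) (nat_lit 5) (nat_lit 78) (nat_lit 5) (nat_lit 79) (nat_lit 5) (nat_lit 502) (nat_lit 386) (nat_lit 252))))))) (XT.nd (nat_lit 1092) (nat_lit 1064) (nat_lit 0) (XT.nd (nat_lit 546) (nat_lit 836) (nat_lit 0) (XT.nd (nat_lit 234) (nat_lit 304) (nat_lit 0) (XT.nd (nat_lit 78) (nat_lit 228) (nat_lit 0) (XT.lf (nat_lit 0) (nat_lit 3637840812) (nat_lit 228) (nat_lit 239902053) (nat_lit 304) (nat_lit 15846798765) (nat_lit 71) (nat_lit 5) (nat_lit 74) (nat_lit 5) (nat_lit 75) (nat_lit 5) (nat_lit 503) (nat_lit 386) (nat_lit 251)) (XT.nd (nat_lit 78) (nat_lit 228) (nat_lit 0) (XT.lf (nat_lit 0) (nat_lit 7912177807) (nat_lit 304) (nat_lit 6932318889) (nat_lit 76) (nat_lit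 5159664719) (nat_lit 71) (nat_lit 5) (nat_lit 75) (nat_lit 5) (nat_lit 72) (nat_lit 5) (nat_lit 504) (nat_lit 386) (nat_lit 250)) (XT.lf (nat_lit 0) (nat_lit 2412978525) (nat_lit 228) (nat_lit 9618123572) (nat_lit 304) (nat_lit 8258199503) (nat_lit 68) (nat_lit 5) (nat_lit 71) (nat_lit 5) (nat_lit 72) (nat_lit 5) (nat_lit 505) (nat_lit 386) (nat_lit 249)))) (XT.nd (nat_lit 156) (nat_lit 76) (nat_lit 0) (XT.nd (nat_lit 78) (nat_lit 228) (nat_lit 0) (XT.lf (nat_lit 0) (nat_lit 12017067500) (nat_lit 228) (nat_lit 4248522558) (nat_lit 304) (nat_lit 4313894769) (nat_lit 68) (nat_lit 5) (nat_lit 71) (nat_lit 5) (nat_lit 72) (nat_lit 5) (nat_lit 506) (nat_lit 386) (nat_lit 248)) (XT.lf (nat_lit 0) (nat_lit 919995997) (nat_lit 228) (nat_lit 19665592489) (nat_lit 304) (nat_lit 289870680) (nat_lit 65) (nat_lit 5) (nat_lit 68) (nat_lit 5) (nat_lit 69) (nat_lit 5) (nat_lit 507) (nat_lit 386) (nat_lit 247))) (XT.nd (nat_lit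 78) (nat_lit 0) (nat_lit 0) (XT.lf (nat_lit 0) (nat_lit 3837476989) (nat_lit 304) (nat_lit 10543258401) (nat_lit 76) (nat_lit 6794668519) (nat_lit 64) (nat_lit 5) (nat_lit 68) (nat_lit 5) (nat_lit 65) (nat_lit 5) (nat_lit 508) (nat_lit 386) (nat_lit 246)) (XT.lf (nat_lit 0) (nat_lit 8030648727) (nat_lit 304) (nat_lit 966194327) (nat_lit 76) (nat_lit 12484726640) (nat_lit 64) (nat_lit 5) (nat_lit 68) (nat_lit 5) (nat_lit 65) (nat_lit 5) (nat_lit 509) (nat_lit 386) (nat_lit 245))))) (XT.nd (nat_lit 234) (nat_lit 456) (nat_lit 0) (XT.nd (nat_lit 78) (nat_lit 152) (nat_lit 0) (XT.lf (nat_lit 0) (nat_lit 8898066536) (nat_lit 228) (nat_lit 3454796235) (nat_lit 304) (nat_lit 9440096016) (nat_lit 61) (nat_lit 5) (nat_lit 64) (nat_lit 5) (nat_lit 65) (nat_lit 5) (nat_lit 510) (nat_lit 386) (nat_lit 244)) (XT.nd (nat_lit 78) (nat_lit 152) (nat_lit 0) (XT.lf (nat_lit 0) (nat_lit 16769782397) (nat_lit 304) (nat_lit 3173154992)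 (nat_lit 76) (nat_lit 2167476546) (nat_lit 61) (nat_lit 5) (nat_lit 65) (nat_lit 5) (nat_lit 62) (nat_lit 5) (nat_lit 511) (nat_lit 386) (nat_lit 243)) (XT.lf (nat_lit 0) (nat_lit 6788479270) (nat_lit 152) (nat_lit 14541224942) (nat_lit 228) (nat_lit 1103424129) (nat_lit 59) (nat_lit 5) (nat_lit 61) (nat_lit 5) (nat_lit 62) (nat_lit 5) (nat_lit 512) (nat_lit 386) (nat_lit 242)))) (XT.nd (nat_lit 156) (nat_lit 152) (nat_lit 0) (XT.nd (nat_lit 78) (nat_lit 228) (nat_lit 0) (XT.lf (nat_lit 0) (nat_lit 3185483003) (nat_lit 228) (nat_lit 5811270453) (nat_lit 76) (nat_lit 13764945595) (nat_lit 58) (nat_lit 5) (nat_lit 61) (nat_lit 5) (nat_lit 59) (nat_lit 5) (nat_lit 513) (nat_lit 386) (nat_lit 241)) (XT.lf (nat_lit 0) (nat_lit 4246852182) (nat_lit 228) (nat_lit 3314101562) (nat_lit 304) (nat_lit 15535433585) (nat_lit 55) (nat_lit 5) (nat_lit 58) (nat_lit 5) (nat_lit 59) (nat_lit 5) (nat_lit 514) (nat_lit 386) (nat_lit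 240))) (XT.nd (nat_lit 78) (nat_lit 152) (nat_lit 0) (XT.lf (nat_lit 0) (nat_lit 12067329246) (nat_lit 304) (nat_lit 8888821919) (nat_lit 76) (nat_lit 2480753469) (nat_lit 55) (nat_lit 5) (nat_lit 59) (nat_lit 5) (nat_lit 56) (nat_lit 5) (nat_lit 515) (nat_lit 386) (nat_lit 239)) (XT.lf (nat_lit 0) (nat_lit 1245523852) (nat_lit 152) (nat_lit 15436601979) (nat_lit 228) (nat_lit 7101743691) (nat_lit 53) (nat_lit 5) (nat_lit 55) (nat_lit 5) (nat_lit 56) (nat_lit 5) (nat_lit 516) (nat_lit 386) (nat_lit 238)))))) (XT.nd (nat_lit 546) (nat_lit 608) (nat_lit 0) (XT.nd (nat_lit 234) (nat_lit 152) (nat_lit 0) (XT.nd (nat_lit 78) (nat_lit 304) (nat_lit 0) (XT.lf (nat_lit 0) (nat_lit 11683208940) (nat_lit 152) (nat_lit 9754018608) (nat_lit 228) (nat_lit 2699589020) (nat_lit 53) (nat_lit 5) (nat_lit 55) (nat_lit 5) (nat_lit 56) (nat_lit 5) (nat_lit 517) (nat_lit 386) (nat_lit 237)) (XT.nd (nat_lit 78) (nat_lit 228) (nat_lit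 0) (XT.lf (nat_lit 0) (nat_lit 1755634820) (nat_lit 228) (nat_lit 2198405209) (nat_lit 76) (nat_lit 20542782733) (nat_lit 52) (nat_lit 5) (nat_lit 55) (nat_lit 5) (nat_lit 53) (nat_lit 5) (nat_lit 518) (nat_lit 386) (nat_lit 236)) (XT.lf (nat_lit 0) (nat_lit 6319858796) (nat_lit 304) (nat_lit 16541874434) (nat_lit 76) (nat_lit 2000820972) (nat_lit 49) (nat_lit 5) (nat_lit 53) (nat_lit 5) (nat_lit 50) (nat_lit 5) (nat_lit 519) (nat_lit 386) (nat_lit 235)))) (XT.nd (nat_lit 156) (nat_lit 0) (nat_lit 0) (XT.nd (nat_lit 78) (nat_lit 152) (nat_lit 0) (XT.lf (nat_lit 0) (nat_lit 11005184065) (nat_lit 304) (nat_lit 6200910622) (nat_lit 76) (nat_lit 8028912060) (nat_lit 49) (nat_lit 5) (nat_lit 53) (nat_lit 5) (nat_lit 50) (nat_lit 5) (nat_lit 520) (nat_lit 386) (nat_lit 234)) (XT.lf (nat_lit 0) (nat_lit 4385498464) (nat_lit 152) (nat_lit 11416191886) (nat_lit 228) (nat_lit 9812871263) (nat_lit 47) (nat_lit 5) (nat_lit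 49) (nat_lit 5) (nat_lit 50) (nat_lit 5) (nat_lit 521) (nat_lit 386) (nat_lit 233))) (XT.nd (nat_lit 78) (nat_lit 0) (nat_lit 0) (XT.lf (nat_lit 0) (nat_lit 15248924386) (nat_lit 152) (nat_lit 5475908517) (nat_lit 228) (nat_lit 5276263253) (nat_lit 47) (nat_lit 5) (nat_lit 49) (nat_lit 5) (nat_lit 50) (nat_lit 5) (nat_lit 522) (nat_lit 386) (nat_lit 232)) (XT.lf (nat_lit 0) (nat_lit 25739483263) (nat_lit 228) (nat_lit 88093755) (nat_lit 76) (nat_lit 567926125) (nat_lit 47) (nat_lit 5) (nat_lit 50) (nat_lit 5) (nat_lit 48) (nat_lit 5) (nat_lit 523) (nat_lit 386) (nat_lit 231))))) (XT.nd (nat_lit 312) (nat_lit 152) (nat_lit 0) (XT.nd (nat_lit 156) (nat_lit 152) (nat_lit 0) (XT.nd (nat_lit 78) (nat_lit 0) (nat_lit 0) (XT.lf (nat_lit 0) (nat_lit 4100417667) (nat_lit 304) (nat_lit 15945389563) (nat_lit 76) (nat_lit 6749526968) (nat_lit 43) (nat_lit 5) (nat_lit 47) (nat_lit 5) (nat_lit 44) (nat_lit 5) (nat_lit 524) (nat_lit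 386) (nat_lit 230)) (XT.lf (nat_lit 0) (nat_lit 8933289745) (nat_lit 304) (nat_lit 5217783793) (nat_lit 76) (nat_lit 13052202311) (nat_lit 43) (nat_lit 5) (nat_lit 47) (nat_lit 5) (nat_lit 44) (nat_lit 5) (nat_lit 525) (nat_lit 386) (nat_lit 229))) (XT.nd (nat_lit 78) (nat_lit 0) (nat_lit 0) (XT.lf (nat_lit 0) (nat_lit 5782344645) (nat_lit 152) (nat_lit 8107710184) (nat_lit 228) (nat_lit 13728779243) (nat_lit 41) (nat_lit 5) (nat_lit 43) (nat_lit 5) (nat_lit 44) (nat_lit 5) (nat_lit 526) (nat_lit 386) (nat_lit 228)) (XT.lf (nat_lit 0) (nat_lit 17055455689) (nat_lit 152) (nat_lit 1915293217) (nat_lit 228) (nat_lit 9071461081) (nat_lit 41) (nat_lit 5) (nat_lit 43) (nat_lit 5) (nat_lit 44) (nat_lit 5) (nat_lit 527) (nat_lit 386) (nat_lit 227)))) (XT.nd (nat_lit 48438) (nat_lit 0) (nat_lit 44764) (XT.nd (nat_lit 48360) (nat_lit 0) (nat_lit 45296) (XT.lf (nat_lit 0) (nat_lit 34296078) (nat_lit 152) (nat_lit 24137489587)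 (nat_lit 228) (nat_lit 4301895533) (nat_lit 39) (nat_lit 5) (nat_lit 41) (nat_lit 5) (nat_lit 42) (nat_lit 5) (nat_lit 528) (nat_lit 386) (nat_lit 226)) (XT.lf (nat_lit 0) (nat_lit 2933362568) (nat_lit 532) (nat_lit 167884361) (nat_lit 532) (nat_lit 167884361) (nat_lit 635) (nat_lit 3) (nat_lit 642) (nat_lit 3) (nat_lit 642) (nat_lit 5) (nat_lit 387) (nat_lit 387) (nat_lit 366))) (XT.nd (nat_lit 78) (nat_lit 0) (nat_lit 0) (XT.lf (nat_lit 0) (nat_lit 1764166085) (nat_lit 532) (nat_lit 3801758065) (nat_lit 608) (nat_lit 986485737) (nat_lit 628) (nat_lit 5) (nat_lit 635) (nat_lit 3) (nat_lit 636) (nat_lit 5) (nat_lit 388) (nat_lit 387) (nat_lit 365)) (XT.lf (nat_lit 0) (nat_lit 4178297114) (nat_lit 532) (nat_lit 701346370) (nat_lit 608) (nat_lit 1688403357) (nat_lit 628) (nat_lit 5) (nat_lit 635) (nat_lit 3) (nat_lit 636) (nat_lit 5) (nat_lit 389) (nat_lit 387) (nat_lit 364))))))))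
noncomputable def xc119 : XT := (XT.nd (nat_lit 2184) (nat_lit 17252) (nat_lit 0) (XT.nd (nat_lit 1092) (nat_lit 8208) (nat_lit 0) (XT.nd (nat_lit 546) (nat_lit 1672) (nat_lit 0) (XT.nd (nat_lit 234) (nat_lit 1368) (nat_lit 0) (XT.nd (nat_lit 78) (nat_lit 0) (nat_lit 0) (XT.lf (nat_lit 0) (nat_lit 9247006) (nat_lit 608) (nat_lit 4124493958) (nat_lit 684) (nat_lit 2451249559) (nat_lit 620) (nat_lit 5) (nat_lit 628) (nat_lit 5) (nat_lit 629) (nat_lit 5) (nat_lit 390) (nat_lit 387) (nat_lit 363)) (XT.nd (nat_lit 78) (nat_lit 0) (nat_lit 0) (XT.lf (nat_lit 0) (nat_lit 2367206230) (nat_lit 608) (nat_lit 956409574) (nat_lit 684) (nat_lit 3279547298) (nat_lit 620) (nat_lit 5) (nat_lit 628) (nat_lit 5) (nat_lit 629) (nat_lit 5) (nat_lit 391) (nat_lit 387) (nat_lit 362)) (XT.lf (nat_lit 76) (nat_lit 2272034051) (nat_lit 0) (nat_lit 2454467452) (nat_lit 684) (nat_lit 1896178378) (nat_lit 621) (nat_lit 5) (nat_lit 620) (nat_lit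 5) (nat_lit 629) (nat_lit 5) (nat_lit 392) (nat_lit 387) (nat_lit 361)))) (XT.nd (nat_lit 156) (nat_lit 684) (nat_lit 0) (XT.nd (nat_lit 78) (nat_lit 0) (nat_lit 0) (XT.lf (nat_lit 0) (nat_lit 430369169) (nat_lit 684) (nat_lit 1101118866) (nat_lit 760) (nat_lit 5112168973) (nat_lit 611) (nat_lit 5) (nat_lit 620) (nat_lit 5) (nat_lit 621) (nat_lit 5) (nat_lit 393) (nat_lit 387) (nat_lit 360)) (XT.lf (nat_lit 76) (nat_lit 2196864533) (nat_lit 0) (nat_lit 536602697) (nat_lit 760) (nat_lit 3932288163) (nat_lit 612) (nat_lit 5) (nat_lit 611) (nat_lit 5) (nat_lit 621) (nat_lit 5) (nat_lit 394) (nat_lit 387) (nat_lit 359))) (XT.nd (nat_lit 78) (nat_lit 760) (nat_lit 0) (XT.lf (nat_lit 0) (nat_lit 5035399739) (nat_lit 684) (nat_lit 1149523950) (nat_lit 760) (nat_lit 504376000) (nat_lit 612) (nat_lit 5) (nat_lit 621) (nat_lit 5) (nat_lit 622) (nat_lit 5) (nat_lit 395) (nat_lit 387) (nat_lit 358)) (XT.lf (nat_lit 0) (nat_lit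 622340792) (nat_lit 760) (nat_lit 4489624541) (nat_lit 836) (nat_lit 1602098160) (nat_lit 602) (nat_lit 5) (nat_lit 612) (nat_lit 5) (nat_lit 613) (nat_lit 5) (nat_lit 396) (nat_lit 387) (nat_lit 357))))) (XT.nd (nat_lit 234) (nat_lit 836) (nat_lit 0) (XT.nd (nat_lit 78) (nat_lit 836) (nat_lit 0) (XT.lf (nat_lit 0) (nat_lit 2873579207) (nat_lit 760) (nat_lit 1102582673) (nat_lit 836) (nat_lit 2763965643) (nat_lit 602) (nat_lit 5) (nat_lit 612) (nat_lit 5) (nat_lit 613) (nat_lit 5) (nat_lit 397) (nat_lit 387) (nat_lit 356)) (XT.nd (nat_lit 78) (nat_lit 836) (nat_lit 0) (XT.lf (nat_lit 76) (nat_lit 2349808861) (nat_lit 0) (nat_lit 2780224245) (nat_lit 836) (nat_lit 1637530783) (nat_lit 603) (nat_lit 5) (nat_lit 602) (nat_lit 5) (nat_lit 613) (nat_lit 5) (nat_lit 398) (nat_lit 387) (nat_lit 355)) (XT.lf (nat_lit 0) (nat_lit 580560566) (nat_lit 836) (nat_lit 947155110) (nat_lit 912) (nat_lit 5268746736) (nat_lit 591)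 (nat_lit 5) (nat_lit 602) (nat_lit 5) (nat_lit 603) (nat_lit 5) (nat_lit 399) (nat_lit 387) (nat_lit 354)))) (XT.nd (nat_lit 156) (nat_lit 836) (nat_lit 0) (XT.nd (nat_lit 78) (nat_lit 0) (nat_lit 76) (XT.lf (nat_lit 76) (nat_lit 2582778619) (nat_lit 0) (nat_lit 201556713) (nat_lit 912) (nat_lit 4042173833) (nat_lit 592) (nat_lit 5) (nat_lit 591) (nat_lit 5) (nat_lit 603) (nat_lit 5) (nat_lit 400) (nat_lit 387) (nat_lit 353)) (XT.lf (nat_lit 0) (nat_lit 4993480937) (nat_lit 836) (nat_lit 702518597) (nat_lit 912) (nat_lit 1161982104) (nat_lit 592) (nat_lit 5) (nat_lit 603) (nat_lit 5) (nat_lit 604) (nat_lit 5) (nat_lit 401) (nat_lit 387) (nat_lit 352))) (XT.nd (nat_lit 78) (nat_lit 0) (nat_lit 0) (XT.lf (nat_lit 0) (nat_lit 320492935) (nat_lit 912) (nat_lit 3979935096) (nat_lit 988) (nat_lit 2590289018) (nat_lit 580) (nat_lit 5) (nat_lit 592) (nat_lit 5) (nat_lit 593) (nat_lit 5) (nat_lit 402) (nat_lit 387) (nat_lit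 351)) (XT.lf (nat_lit 0) (nat_lit 2477854734) (nat_lit 912) (nat_lit 364481464) (nat_lit 988) (nat_lit 4082499571) (nat_lit 580) (nat_lit 5) (nat_lit 592) (nat_lit 5) (nat_lit 593) (nat_lit 5) (nat_lit 403) (nat_lit 387) (nat_lit 350)))))) (XT.nd (nat_lit 546) (nat_lit 5168) (nat_lit 0) (XT.nd (nat_lit 234) (nat_lit 2128) (nat_lit 0) (XT.nd (nat_lit 78) (nat_lit 912) (nat_lit 0) (XT.lf (nat_lit 76) (nat_lit 3333708311) (nat_lit 0) (nat_lit 1316167873) (nat_lit 988) (nat_lit 2310377262) (nat_lit 581) (nat_lit 5) (nat_lit 580) (nat_lit 5) (nat_lit 593) (nat_lit 5) (nat_lit 404) (nat_lit 387) (nat_lit 349)) (XT.nd (nat_lit 78) (nat_lit 76) (nat_lit 0) (XT.lf (nat_lit 0) (nat_lit 79724722) (nat_lit 912) (nat_lit 6740896423) (nat_lit 988) (nat_lit 176698581) (nat_lit 569) (nat_lit 5) (nat_lit 581) (nat_lit 5) (nat_lit 582) (nat_lit 5) (nat_lit 405) (nat_lit 387) (nat_lit 348)) (XT.lf (nat_lit 0) (nat_lit 1957762608)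 (nat_lit 988) (nat_lit 3181906061) (nat_lit 76) (nat_lit 1895556434) (nat_lit 568) (nat_lit 5) (nat_lit 581) (nat_lit 5) (nat_lit 569) (nat_lit 5) (nat_lit 406) (nat_lit 387) (nat_lit 347)))) (XT.nd (nat_lit 156) (nat_lit 1140) (nat_lit 0) (XT.nd (nat_lit 78) (nat_lit 0) (nat_lit 0) (XT.lf (nat_lit 0) (nat_lit 601207878) (nat_lit 988) (nat_lit 3487324428) (nat_lit 1064) (nat_lit 2986256483) (nat_lit 555) (nat_lit 5) (nat_lit 568) (nat_lit 5) (nat_lit 569) (nat_lit 5) (nat_lit 407) (nat_lit 387) (nat_lit 346)) (XT.lf (nat_lit 0) (nat_lit 4469335836) (nat_lit 988) (nat_lit 1766733745) (nat_lit 1064) (nat_lit 879633537) (nat_lit 555) (nat_lit 5) (nat_lit 568) (nat_lit 5) (nat_lit 569) (nat_lit 5) (nat_lit 408) (nat_lit 387) (nat_lit 345))) (XT.nd (nat_lit 78) (nat_lit 0) (nat_lit 0) (XT.lf (nat_lit 0) (nat_lit 1213965645) (nat_lit 1140) (nat_lit 5926674513) (nat_lit 76) (nat_lit 17441775) (nat_lit 540) (nat_lit 5)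 (nat_lit 555) (nat_lit 5) (nat_lit 541) (nat_lit 5) (nat_lit 409) (nat_lit 387) (nat_lit 344)) (XT.lf (nat_lit 0) (nat_lit 3321400403) (nat_lit 1140) (nat_lit 2030580962) (nat_lit 76) (nat_lit 1849575803) (nat_lit 540) (nat_lit 5) (nat_lit 555) (nat_lit 5) (nat_lit 541) (nat_lit 5) (nat_lit 410) (nat_lit 387) (nat_lit 343))))) (XT.nd (nat_lit 234) (nat_lit 2736) (nat_lit 0) (XT.nd (nat_lit 78) (nat_lit 1292) (nat_lit 0) (XT.lf (nat_lit 0) (nat_lit 1934894862) (nat_lit 1140) (nat_lit 3503705073) (nat_lit 1216) (nat_lit 1807988836) (nat_lit 525) (nat_lit 5) (nat_lit 540) (nat_lit 5) (nat_lit 541) (nat_lit 5) (nat_lit 411) (nat_lit 387) (nat_lit 342)) (XT.nd (nat_lit 78) (nat_lit 1216) (nat_lit 0) (XT.lf (nat_lit 0) (nat_lit 270715485) (nat_lit 1216) (nat_lit 1321441299) (nat_lit 76) (nat_lit 5700980173) (nat_lit 524) (nat_lit 5) (nat_lit 540) (nat_lit 5) (nat_lit 525) (nat_lit 5) (nat_lit 412) (nat_lit 387) (nat_lit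 341)) (XT.lf (nat_lit 0) (nat_lit 2343434520) (nat_lit 1292) (nat_lit 4604603462) (nat_lit 76) (nat_lit 392843043) (nat_lit 508) (nat_lit 5) (nat_lit 525) (nat_lit 5) (nat_lit 509) (nat_lit 5) (nat_lit 413) (nat_lit 387) (nat_lit 340)))) (XT.nd (nat_lit 156) (nat_lit 1444) (nat_lit 0) (XT.nd (nat_lit 78) (nat_lit 1292) (nat_lit 0) (XT.lf (nat_lit 0) (nat_lit 4434041339) (nat_lit 1292) (nat_lit 541332270) (nat_lit 76) (nat_lit 2414713898) (nat_lit 508) (nat_lit 5) (nat_lit 525) (nat_lit 5) (nat_lit 509) (nat_lit 5) (nat_lit 414) (nat_lit 387) (nat_lit 339)) (XT.lf (nat_lit 0) (nat_lit 3616925161) (nat_lit 1292) (nat_lit 2930825499) (nat_lit 1368) (nat_lit 892937143) (nat_lit 491) (nat_lit 5) (nat_lit 508) (nat_lit 5) (nat_lit 509) (nat_lit 5) (nat_lit 415) (nat_lit 387) (nat_lit 338))) (XT.nd (nat_lit 78) (nat_lit 0) (nat_lit 0) (XT.lf (nat_lit 0) (nat_lit 335889101) (nat_lit 1368) (nat_lit 823601296) (nat_lit 1444)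 (nat_lit 6333407621) (nat_lit 472) (nat_lit 5) (nat_lit 490) (nat_lit 5) (nat_lit 491) (nat_lit 5) (nat_lit 416) (nat_lit 387) (nat_lit 337)) (XT.lf (nat_lit 0) (nat_lit 3234215236) (nat_lit 1444) (nat_lit 2964532562) (nat_lit 76) (nat_lit 1347455935) (nat_lit 472) (nat_lit 5) (nat_lit 491) (nat_lit 5) (nat_lit 473) (nat_lit 5) (nat_lit 417) (nat_lit 387) (nat_lit 336))))))) (XT.nd (nat_lit 1092) (nat_lit 6688) (nat_lit 0) (XT.nd (nat_lit 546) (nat_lit 4180) (nat_lit 0) (XT.nd (nat_lit 234) (nat_lit 3344) (nat_lit 0) (XT.nd (nat_lit 78) (nat_lit 1596) (nat_lit 0) (XT.lf (nat_lit 0) (nat_lit 1289160183) (nat_lit 1444) (nat_lit 4034664319) (nat_lit 1520) (nat_lit 2277316051) (nat_lit 453) (nat_lit 5) (nat_lit 472) (nat_lit 5) (nat_lit 473) (nat_lit 5) (nat_lit 418) (nat_lit 387) (nat_lit 335)) (XT.nd (nat_lit 78) (nat_lit 1596) (nat_lit 0) (XT.lf (nat_lit 0) (nat_lit 5634249665) (nat_lit 1444) (nat_lit 1801008375)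 (nat_lit 1520) (nat_lit 222349573) (nat_lit 453) (nat_lit 5) (nat_lit 472) (nat_lit 5) (nat_lit 473) (nat_lit 5) (nat_lit 419) (nat_lit 387) (nat_lit 334)) (XT.lf (nat_lit 0) (nat_lit 1828254121) (nat_lit 1596) (nat_lit 5383039188) (nat_lit 76) (nat_lit 504116053) (nat_lit 432) (nat_lit 5) (nat_lit 453) (nat_lit 5) (nat_lit 433) (nat_lit 5) (nat_lit 420) (nat_lit 387) (nat_lit 333)))) (XT.nd (nat_lit 156) (nat_lit 1748) (nat_lit 0) (XT.nd (nat_lit 78) (nat_lit 1596) (nat_lit 0) (XT.lf (nat_lit 0) (nat_lit 3903709108) (nat_lit 1596) (nat_lit 1019316363) (nat_lit 76) (nat_lit 2851606243) (nat_lit 432) (nat_lit 5) (nat_lit 453) (nat_lit 5) (nat_lit 433) (nat_lit 5) (nat_lit 421) (nat_lit 387) (nat_lit 332)) (XT.lf (nat_lit 0) (nat_lit 3443141137) (nat_lit 1596) (nat_lit 2561866403) (nat_lit 1672) (nat_lit 1830373983) (nat_lit 411) (nat_lit 5) (nat_lit 432) (nat_lit 5) (nat_lit 433) (nat_lit 5) (nat_lit 422) (nat_lit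 387) (nat_lit 331))) (XT.nd (nat_lit 78) (nat_lit 0) (nat_lit 0) (XT.lf (nat_lit 0) (nat_lit 76781513) (nat_lit 1672) (nat_lit 140526662) (nat_lit 1748) (nat_lit 7680641822) (nat_lit 388) (nat_lit 5) (nat_lit 410) (nat_lit 5) (nat_lit 411) (nat_lit 5) (nat_lit 423) (nat_lit 387) (nat_lit 330)) (XT.lf (nat_lit 0) (nat_lit 2289024660) (nat_lit 1748) (nat_lit 3328476098) (nat_lit 76) (nat_lit 2343903303) (nat_lit 388) (nat_lit 5) (nat_lit 411) (nat_lit 5) (nat_lit 389) (nat_lit 5) (nat_lit 424) (nat_lit 387) (nat_lit 329))))) (XT.nd (nat_lit 234) (nat_lit 1824) (nat_lit 0) (XT.nd (nat_lit 78) (nat_lit 912) (nat_lit 0) (XT.lf (nat_lit 0) (nat_lit 1235442823) (nat_lit 1444) (nat_lit 3139188596) (nat_lit 1520) (nat_lit 3652074104) (nat_lit 369) (nat_lit 5) (nat_lit 388) (nat_lit 5) (nat_lit 389) (nat_lit 5) (nat_lit 425) (nat_lit 387) (nat_lit 328)) (XT.nd (nat_lit 78) (nat_lit 912) (nat_lit 0) (XT.lf (nat_lit 0) (nat_lit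 5902081789) (nat_lit 1444) (nat_lit 586205299) (nat_lit 1520) (nat_lit 1605326090) (nat_lit 369) (nat_lit 5) (nat_lit 388) (nat_lit 5) (nat_lit 389) (nat_lit 5) (nat_lit 426) (nat_lit 387) (nat_lit 327)) (XT.lf (nat_lit 0) (nat_lit 469927745) (nat_lit 912) (nat_lit 5679164246) (nat_lit 76) (nat_lit 2012852271) (nat_lit 357) (nat_lit 5) (nat_lit 369) (nat_lit 5) (nat_lit 358) (nat_lit 5) (nat_lit 427) (nat_lit 387) (nat_lit 326)))) (XT.nd (nat_lit 156) (nat_lit 912) (nat_lit 0) (XT.nd (nat_lit 78) (nat_lit 912) (nat_lit 0) (XT.lf (nat_lit 0) (nat_lit 2548836859) (nat_lit 912) (nat_lit 999706799) (nat_lit 76) (nat_lit 4683238523) (nat_lit 357) (nat_lit 5) (nat_lit 369) (nat_lit 5) (nat_lit 358) (nat_lit 5) (nat_lit 428) (nat_lit 387) (nat_lit 325)) (XT.lf (nat_lit 0) (nat_lit 3789676849) (nat_lit 912) (nat_lit 869879409) (nat_lit 988) (nat_lit 3643680807) (nat_lit 345) (nat_lit 5) (nat_lit 357) (nat_lit 5) (nat_lit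 358) (nat_lit 5) (nat_lit 429) (nat_lit 387) (nat_lit 324))) (XT.nd (nat_lit 78) (nat_lit 76) (nat_lit 0) (XT.lf (nat_lit 0) (nat_lit 269963743) (nat_lit 836) (nat_lit 6529214510) (nat_lit 912) (nat_lit 1577233393) (nat_lit 334) (nat_lit 5) (nat_lit 345) (nat_lit 5) (nat_lit 346) (nat_lit 5) (nat_lit 430) (nat_lit 387) (nat_lit 323)) (XT.lf (nat_lit 0) (nat_lit 526126672) (nat_lit 912) (nat_lit 3283611311) (nat_lit 76) (nat_lit 4641215420) (nat_lit 333) (nat_lit 5) (nat_lit 345) (nat_lit 5) (nat_lit 334) (nat_lit 5) (nat_lit 431) (nat_lit 387) (nat_lit 322)))))) (XT.nd (nat_lit 546) (nat_lit 3572) (nat_lit 0) (XT.nd (nat_lit 234) (nat_lit 1520) (nat_lit 0) (XT.nd (nat_lit 78) (nat_lit 760) (nat_lit 0) (XT.lf (nat_lit 0) (nat_lit 1612957628) (nat_lit 836) (nat_lit 1014922355) (nat_lit 912) (nat_lit 5899371556) (nat_lit 322) (nat_lit 5) (nat_lit 333) (nat_lit 5) (nat_lit 334) (nat_lit 5) (nat_lit 432) (nat_lit 387)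 (nat_lit 321)) (XT.nd (nat_lit 78) (nat_lit 760) (nat_lit 0) (XT.lf (nat_lit 0) (nat_lit 4773149727) (nat_lit 912) (nat_lit 1998616185) (nat_lit 76) (nat_lit 1833302607) (nat_lit 322) (nat_lit 5) (nat_lit 334) (nat_lit 5) (nat_lit 323) (nat_lit 5) (nat_lit 433) (nat_lit 387) (nat_lit 320)) (XT.lf (nat_lit 0) (nat_lit 3014975790) (nat_lit 760) (nat_lit 3940666730) (nat_lit 836) (nat_lit 1728935029) (nat_lit 312) (nat_lit 5) (nat_lit 322) (nat_lit 5) (nat_lit 323) (nat_lit 5) (nat_lit 434) (nat_lit 387) (nat_lit 319)))) (XT.nd (nat_lit 156) (nat_lit 684) (nat_lit 0) (XT.nd (nat_lit 78) (nat_lit 760) (nat_lit 0) (XT.lf (nat_lit 0) (nat_lit 392355125) (nat_lit 836) (nat_lit 645712757) (nat_lit 76) (nat_lit 7727941974) (nat_lit 311) (nat_lit 5) (nat_lit 322) (nat_lit 5) (nat_lit 312) (nat_lit 5) (nat_lit 435) (nat_lit 387) (nat_lit 318)) (XT.lf (nat_lit 0) (nat_lit 2543684214) (nat_lit 836) (nat_lit 4368297991) (nat_lit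 76) (nat_lit 1936665559) (nat_lit 301) (nat_lit 5) (nat_lit 312) (nat_lit 5) (nat_lit 302) (nat_lit 5) (nat_lit 436) (nat_lit 387) (nat_lit 317))) (XT.nd (nat_lit 78) (nat_lit 0) (nat_lit 0) (XT.lf (nat_lit 0) (nat_lit 754630599) (nat_lit 684) (nat_lit 3968760225) (nat_lit 760) (nat_lit 4209860974) (nat_lit 292) (nat_lit 5) (nat_lit 301) (nat_lit 5) (nat_lit 302) (nat_lit 5) (nat_lit 437) (nat_lit 387) (nat_lit 316)) (XT.lf (nat_lit 0) (nat_lit 6006251809) (nat_lit 684) (nat_lit 939357827) (nat_lit 760) (nat_lit 2073979900) (nat_lit 292) (nat_lit 5) (nat_lit 301) (nat_lit 5) (nat_lit 302) (nat_lit 5) (nat_lit 438) (nat_lit 387) (nat_lit 315))))) (XT.nd (nat_lit 312) (nat_lit 2052) (nat_lit 0) (XT.nd (nat_lit 156) (nat_lit 684) (nat_lit 0) (XT.nd (nat_lit 78) (nat_lit 0) (nat_lit 0) (XT.lf (nat_lit 0) (nat_lit 101894622) (nat_lit 836) (nat_lit 6870666357) (nat_lit 76) (nat_lit 2135125717) (nat_lit 281) (nat_lit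 5) (nat_lit 292) (nat_lit 5) (nat_lit 282) (nat_lit 5) (nat_lit 439) (nat_lit 387) (nat_lit 314)) (XT.lf (nat_lit 0) (nat_lit 2290460215) (nat_lit 836) (nat_lit 1617127192) (nat_lit 76) (nat_lit 5289764161) (nat_lit 281) (nat_lit 5) (nat_lit 292) (nat_lit 5) (nat_lit 282) (nat_lit 5) (nat_lit 440) (nat_lit 387) (nat_lit 313))) (XT.nd (nat_lit 78) (nat_lit 0) (nat_lit 0) (XT.lf (nat_lit 0) (nat_lit 3758294865) (nat_lit 684) (nat_lit 759827424) (nat_lit 760) (nat_lit 4770799409) (nat_lit 272) (nat_lit 5) (nat_lit 281) (nat_lit 5) (nat_lit 282) (nat_lit 5) (nat_lit 441) (nat_lit 387) (nat_lit 312)) (XT.lf (nat_lit 0) (nat_lit 6788435451) (nat_lit 760) (nat_lit 167779197) (nat_lit 76) (nat_lit 2426164726) (nat_lit 272) (nat_lit 5) (nat_lit 282) (nat_lit 5) (nat_lit 273) (nat_lit 5) (nat_lit 442) (nat_lit 387) (nat_lit 311)))) (XT.nd (nat_lit 156) (nat_lit 684) (nat_lit 0) (XT.nd (nat_lit 78) (nat_lit 684) (nat_lit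 0) (XT.lf (nat_lit 0) (nat_lit 5335073381) (nat_lit 684) (nat_lit 3780577219) (nat_lit 760) (nat_lit 361843438) (nat_lit 263) (nat_lit 5) (nat_lit 272) (nat_lit 5) (nat_lit 273) (nat_lit 5) (nat_lit 443) (nat_lit 387) (nat_lit 310)) (XT.lf (nat_lit 0) (nat_lit 1348648045) (nat_lit 608) (nat_lit 522994693) (nat_lit 684) (nat_lit 7702999498) (nat_lit 254) (nat_lit 5) (nat_lit 262) (nat_lit 5) (nat_lit 263) (nat_lit 5) (nat_lit 444) (nat_lit 387) (nat_lit 309))) (XT.nd (nat_lit 78) (nat_lit 684) (nat_lit 0) (XT.lf (nat_lit 0) (nat_lit 4163397915) (nat_lit 684) (nat_lit 2720942786) (nat_lit 76) (nat_lit 2788992699) (nat_lit 254) (nat_lit 5) (nat_lit 263) (nat_lit 5) (nat_lit 255) (nat_lit 5) (nat_lit 445) (nat_lit 387) (nat_lit 308)) (XT.lf (nat_lit 0) (nat_lit 2896680814) (nat_lit 684) (nat_lit 3599401768) (nat_lit 760) (nat_lit 3278030311) (nat_lit 245) (nat_lit 5) (nat_lit 254) (nat_lit 5) (nat_lit 255) (nat_lit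 5) (nat_lit 446) (nat_lit 387) (nat_lit 307))))))))
noncomputable def xc120 : XT := (XT.nd (nat_lit 2184) (nat_lit 4712) (nat_lit 0) (XT.nd (nat_lit 1092) (nat_lit 3648) (nat_lit 0) (XT.nd (nat_lit 546) (nat_lit 2128) (nat_lit 0) (XT.nd (nat_lit 234) (nat_lit 1216) (nat_lit 0) (XT.nd (nat_lit 78) (nat_lit 1292) (nat_lit 0) (XT.lf (nat_lit 0) (nat_lit 8631695096) (nat_lit 684) (nat_lit 235134593) (nat_lit 760) (nat_lit 1010266187) (nat_lit 245) (nat_lit 5) (nat_lit 254) (nat_lit 5) (nat_lit 255) (nat_lit 5) (nat_lit 447) (nat_lit 387) (nat_lit 306)) (XT.nd (nat_lit 78) (nat_lit 608) (nat_lit 0) (XT.lf (nat_lit 0) (nat_lit 1309560064) (nat_lit 684) (nat_lit 5484414328) (nat_lit 76) (nat_lit 3187534516) (nat_lit 236) (nat_lit 5) (nat_lit 245) (nat_lit 5) (nat_lit 237) (nat_lit 5) (nat_lit 448) (nat_lit 387) (nat_lit 305)) (XT.lf (nat_lit 0) (nat_lit 246522779) (nat_lit 608) (nat_lit 3401084517) (nat_lit 684) (nat_lit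 6440577456) (nat_lit 228) (nat_lit 5) (nat_lit 236) (nat_lit 5) (nat_lit 237) (nat_lit 5) (nat_lit 449) (nat_lit 387) (nat_lit 304)))) (XT.nd (nat_lit 156) (nat_lit 684) (nat_lit 0) (XT.nd (nat_lit 78) (nat_lit 532) (nat_lit 0) (XT.lf (nat_lit 0) (nat_lit 6043890061) (nat_lit 684) (nat_lit 4062639914) (nat_lit 76) (nat_lit 90249495) (nat_lit 228) (nat_lit 5) (nat_lit 237) (nat_lit 5) (nat_lit 229) (nat_lit 5) (nat_lit 450) (nat_lit 387) (nat_lit 303)) (XT.lf (nat_lit 0) (nat_lit 1801524921) (nat_lit 532) (nat_lit 6695343187) (nat_lit 608) (nat_lit 1810517142) (nat_lit 221) (nat_lit 5) (nat_lit 228) (nat_lit 5) (nat_lit 229) (nat_lit 5) (nat_lit 451) (nat_lit 387) (nat_lit 302))) (XT.nd (nat_lit 78) (nat_lit 608) (nat_lit 0) (XT.lf (nat_lit 0) (nat_lit 573219893) (nat_lit 608) (nat_lit 2617236989) (nat_lit 76) (nat_lit 7229642967) (nat_lit 220) (nat_lit 5) (nat_lit 228) (nat_lit 5) (nat_lit 221) (nat_lit 5) (nat_lit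 452) (nat_lit 387) (nat_lit 301)) (XT.lf (nat_lit 0) (nat_lit 2980267641) (nat_lit 684) (nat_lit 7147007100) (nat_lit 76) (nat_lit 407570791) (nat_lit 212) (nat_lit 5) (nat_lit 221) (nat_lit 5) (nat_lit 213) (nat_lit 5) (nat_lit 453) (nat_lit 387) (nat_lit 300))))) (XT.nd (nat_lit 234) (nat_lit 1064) (nat_lit 0) (XT.nd (nat_lit 78) (nat_lit 1064) (nat_lit 0) (XT.lf (nat_lit 0) (nat_lit 5449671182) (nat_lit 684) (nat_lit 1155609695) (nat_lit 76) (nat_lit 4046334406) (nat_lit 212) (nat_lit 5) (nat_lit 221) (nat_lit 5) (nat_lit 213) (nat_lit 5) (nat_lit 454) (nat_lit 387) (nat_lit 299)) (XT.nd (nat_lit 78) (nat_lit 532) (nat_lit 0) (XT.lf (nat_lit 0) (nat_lit 4990356890) (nat_lit 532) (nat_lit 2986395468) (nat_lit 608) (nat_lit 2793815464) (nat_lit 205) (nat_lit 5) (nat_lit 212) (nat_lit 5) (nat_lit 213) (nat_lit 5) (nat_lit 455) (nat_lit 387) (nat_lit 298)) (XT.lf (nat_lit 0) (nat_lit 352201927) (nat_lit 532) (nat_lit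 10192962789) (nat_lit 608) (nat_lit 346931834) (nat_lit 198) (nat_lit 5) (nat_lit 205) (nat_lit 5) (nat_lit 206) (nat_lit 5) (nat_lit 456) (nat_lit 387) (nat_lit 297)))) (XT.nd (nat_lit 156) (nat_lit 532) (nat_lit 0) (XT.nd (nat_lit 78) (nat_lit 456) (nat_lit 0) (XT.lf (nat_lit 0) (nat_lit 2155748953) (nat_lit 608) (nat_lit 4394728442) (nat_lit 76) (nat_lit 4464610990) (nat_lit 197) (nat_lit 5) (nat_lit 205) (nat_lit 5) (nat_lit 198) (nat_lit 5) (nat_lit 457) (nat_lit 387) (nat_lit 296)) (XT.lf (nat_lit 0) (nat_lit 1865035805) (nat_lit 456) (nat_lit 2827601772) (nat_lit 532) (nat_lit 6448092805) (nat_lit 191) (nat_lit 5) (nat_lit 197) (nat_lit 5) (nat_lit 198) (nat_lit 5) (nat_lit 458) (nat_lit 387) (nat_lit 295))) (XT.nd (nat_lit 78) (nat_lit 532) (nat_lit 0) (XT.lf (nat_lit 0) (nat_lit 7293146378) (nat_lit 532) (nat_lit 2995913501) (nat_lit 76) (nat_lit 979579635) (nat_lit 191) (nat_lit 5) (nat_lit 198) (nat_lit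 5) (nat_lit 192) (nat_lit 5) (nat_lit 459) (nat_lit 387) (nat_lit 294)) (XT.lf (nat_lit 0) (nat_lit 3405306711) (nat_lit 532) (nat_lit 6558546955) (nat_lit 608) (nat_lit 1434901106) (nat_lit 184) (nat_lit 5) (nat_lit 191) (nat_lit 5) (nat_lit 192) (nat_lit 5) (nat_lit 460) (nat_lit 387) (nat_lit 293)))))) (XT.nd (nat_lit 546) (nat_lit 1672) (nat_lit 0) (XT.nd (nat_lit 234) (nat_lit 1444) (nat_lit 0) (XT.nd (nat_lit 78) (nat_lit 456) (nat_lit 0) (XT.lf (nat_lit 0) (nat_lit 1139015595) (nat_lit 608) (nat_lit 1593755356) (nat_lit 76) (nat_lit 8798608850) (nat_lit 183) (nat_lit 5) (nat_lit 191) (nat_lit 5) (nat_lit 184) (nat_lit 5) (nat_lit 461) (nat_lit 387) (nat_lit 292)) (XT.nd (nat_lit 78) (nat_lit 0) (nat_lit 0) (XT.lf (nat_lit 0) (nat_lit 3763124380) (nat_lit 532) (nat_lit 6714231940) (nat_lit 76) (nat_lit 1188763809) (nat_lit 177) (nat_lit 5) (nat_lit 184) (nat_lit 5) (nat_lit 178) (nat_lit 5) (nat_lit 462)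 (nat_lit 387) (nat_lit 291)) (XT.lf (nat_lit 0) (nat_lit 6446658114) (nat_lit 532) (nat_lit 201278725) (nat_lit 76) (nat_lit 5155490386) (nat_lit 177) (nat_lit 5) (nat_lit 184) (nat_lit 5) (nat_lit 178) (nat_lit 5) (nat_lit 463) (nat_lit 387) (nat_lit 290)))) (XT.nd (nat_lit 156) (nat_lit 532) (nat_lit 0) (XT.nd (nat_lit 78) (nat_lit 456) (nat_lit 0) (XT.lf (nat_lit 0) (nat_lit 6497922532) (nat_lit 456) (nat_lit 2706637820) (nat_lit 532) (nat_lit 2738516760) (nat_lit 171) (nat_lit 5) (nat_lit 177) (nat_lit 5) (nat_lit 178) (nat_lit 5) (nat_lit 464) (nat_lit 387) (nat_lit 289)) (XT.lf (nat_lit 0) (nat_lit 1226466412) (nat_lit 456) (nat_lit 10787696244) (nat_lit 532) (nat_lit 71436897) (nat_lit 165) (nat_lit 5) (nat_lit 171) (nat_lit 5) (nat_lit 172) (nat_lit 5) (nat_lit 465) (nat_lit 387) (nat_lit 288))) (XT.nd (nat_lit 78) (nat_lit 456) (nat_lit 0) (XT.lf (nat_lit 0) (nat_lit 2647718931) (nat_lit 532) (nat_lit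 4189800728) (nat_lit 76) (nat_lit 5392449272) (nat_lit 164) (nat_lit 5) (nat_lit 171) (nat_lit 5) (nat_lit 165) (nat_lit 5) (nat_lit 466) (nat_lit 387) (nat_lit 287)) (XT.lf (nat_lit 0) (nat_lit 2617833793) (nat_lit 456) (nat_lit 2798651117) (nat_lit 532) (nat_lit 6960817469) (nat_lit 158) (nat_lit 5) (nat_lit 164) (nat_lit 5) (nat_lit 165) (nat_lit 5) (nat_lit 467) (nat_lit 387) (nat_lit 286))))) (XT.nd (nat_lit 234) (nat_lit 1216) (nat_lit 0) (XT.nd (nat_lit 78) (nat_lit 456) (nat_lit 0) (XT.lf (nat_lit 0) (nat_lit 8256859350) (nat_lit 532) (nat_lit 2946491145) (nat_lit 76) (nat_lit 1323916944) (nat_lit 158) (nat_lit 5) (nat_lit 165) (nat_lit 5) (nat_lit 159) (nat_lit 5) (nat_lit 468) (nat_lit 387) (nat_lit 285)) (XT.nd (nat_lit 78) (nat_lit 76) (nat_lit 0) (XT.lf (nat_lit 0) (nat_lit 4008228558) (nat_lit 380) (nat_lit 7170130127) (nat_lit 456) (nat_lit 1501396183) (nat_lit 153) (nat_lit 5) (nat_lit 158) (nat_lit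 5) (nat_lit 159) (nat_lit 5) (nat_lit 469) (nat_lit 387) (nat_lit 284)) (XT.lf (nat_lit 0) (nat_lit 1305378269) (nat_lit 456) (nat_lit 1730275258) (nat_lit 76) (nat_lit 9799481103) (nat_lit 152) (nat_lit 5) (nat_lit 158) (nat_lit 5) (nat_lit 153) (nat_lit 5) (nat_lit 470) (nat_lit 387) (nat_lit 283)))) (XT.nd (nat_lit 156) (nat_lit 760) (nat_lit 0) (XT.nd (nat_lit 78) (nat_lit 0) (nat_lit 0) (XT.lf (nat_lit 0) (nat_lit 4171289413) (nat_lit 532) (nat_lit 7618674035) (nat_lit 76) (nat_lit 1203006830) (nat_lit 146) (nat_lit 5) (nat_lit 153) (nat_lit 5) (nat_lit 147) (nat_lit 5) (nat_lit 471) (nat_lit 387) (nat_lit 282)) (XT.lf (nat_lit 0) (nat_lit 7106688629) (nat_lit 532) (nat_lit 557738200) (nat_lit 76) (nat_lit 5489301111) (nat_lit 146) (nat_lit 5) (nat_lit 153) (nat_lit 5) (nat_lit 147) (nat_lit 5) (nat_lit 472) (nat_lit 387) (nat_lit 281))) (XT.nd (nat_lit 78) (nat_lit 380) (nat_lit 0) (XT.lf (nat_lit 0) (nat_lit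 6704662205) (nat_lit 380) (nat_lit 3420427711) (nat_lit 456) (nat_lit 3192133490) (nat_lit 141) (nat_lit 5) (nat_lit 146) (nat_lit 5) (nat_lit 147) (nat_lit 5) (nat_lit 473) (nat_lit 387) (nat_lit 280)) (XT.lf (nat_lit 0) (nat_lit 610197775) (nat_lit 380) (nat_lit 12588195654) (nat_lit 456) (nat_lit 285713029) (nat_lit 136) (nat_lit 5) (nat_lit 141) (nat_lit 5) (nat_lit 142) (nat_lit 5) (nat_lit 474) (nat_lit 387) (nat_lit 279))))))) (XT.nd (nat_lit 1092) (nat_lit 2128) (nat_lit 0) (XT.nd (nat_lit 546) (nat_lit 1368) (nat_lit 0) (XT.nd (nat_lit 234) (nat_lit 760) (nat_lit 0) (XT.nd (nat_lit 78) (nat_lit 380) (nat_lit 0) (XT.lf (nat_lit 0) (nat_lit 2691990090) (nat_lit 456) (nat_lit 5654648055) (nat_lit 76) (nat_lit 5306383455) (nat_lit 135) (nat_lit 5) (nat_lit 141) (nat_lit 5) (nat_lit 136) (nat_lit 5) (nat_lit 475) (nat_lit 387) (nat_lit 278)) (XT.nd (nat_lit 78) (nat_lit 0) (nat_lit 0) (XT.lf (nat_lit 0) (nat_lit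 1702059032) (nat_lit 380) (nat_lit 4015758379) (nat_lit 456) (nat_lit 8107619823) (nat_lit 130) (nat_lit 5) (nat_lit 135) (nat_lit 5) (nat_lit 136) (nat_lit 5) (nat_lit 476) (nat_lit 387) (nat_lit 277)) (XT.lf (nat_lit 0) (nat_lit 8826440670) (nat_lit 456) (nat_lit 4748361275) (nat_lit 76) (nat_lit 426061375) (nat_lit 130) (nat_lit 5) (nat_lit 136) (nat_lit 5) (nat_lit 131) (nat_lit 5) (nat_lit 477) (nat_lit 387) (nat_lit 276)))) (XT.nd (nat_lit 156) (nat_lit 304) (nat_lit 0) (XT.nd (nat_lit 78) (nat_lit 76) (nat_lit 0) (XT.lf (nat_lit 0) (nat_lit 2756746339) (nat_lit 380) (nat_lit 9266820433) (nat_lit 456) (nat_lit 2155712122) (nat_lit 125) (nat_lit 5) (nat_lit 130) (nat_lit 5) (nat_lit 131) (nat_lit 5) (nat_lit 478) (nat_lit 387) (nat_lit 275)) (XT.lf (nat_lit 0) (nat_lit 925230537) (nat_lit 456) (nat_lit 3917551197) (nat_lit 76) (nat_lit 9518089061) (nat_lit 124) (nat_lit 5) (nat_lit 130) (nat_lit 5) (nat_lit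 125) (nat_lit 5) (nat_lit 479) (nat_lit 387) (nat_lit 274))) (XT.nd (nat_lit 78) (nat_lit 0) (nat_lit 0) (XT.lf (nat_lit 0) (nat_lit 3745870608) (nat_lit 304) (nat_lit 299652247) (nat_lit 380) (nat_lit 10500161912) (nat_lit 120) (nat_lit 5) (nat_lit 124) (nat_lit 5) (nat_lit 125) (nat_lit 5) (nat_lit 480) (nat_lit 387) (nat_lit 273)) (XT.lf (nat_lit 0) (nat_lit 7265193689) (nat_lit 380) (nat_lit 3172958367) (nat_lit 76) (nat_lit 4295310507) (nat_lit 120) (nat_lit 5) (nat_lit 125) (nat_lit 5) (nat_lit 121) (nat_lit 5) (nat_lit 481) (nat_lit 387) (nat_lit 272))))) (XT.nd (nat_lit 234) (nat_lit 608) (nat_lit 0) (XT.nd (nat_lit 78) (nat_lit 380) (nat_lit 0) (XT.lf (nat_lit 0) (nat_lit 4639178153) (nat_lit 380) (nat_lit 5924898909) (nat_lit 456) (nat_lit 4360629332) (nat_lit 115) (nat_lit 5) (nat_lit 120) (nat_lit 5) (nat_lit 121) (nat_lit 5) (nat_lit 482) (nat_lit 387) (nat_lit 271)) (XT.nd (nat_lit 78) (nat_lit 380)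 (nat_lit 0) (XT.lf (nat_lit 0) (nat_lit 12624623913) (nat_lit 380) (nat_lit 1308490956) (nat_lit 456) (nat_lit 1186583421) (nat_lit 115) (nat_lit 5) (nat_lit 120) (nat_lit 5) (nat_lit 121) (nat_lit 5) (nat_lit 483) (nat_lit 387) (nat_lit 270)) (XT.lf (nat_lit 0) (nat_lit 2065097753) (nat_lit 380) (nat_lit 9856167939) (nat_lit 76) (nat_lit 3396243418) (nat_lit 110) (nat_lit 5) (nat_lit 115) (nat_lit 5) (nat_lit 111) (nat_lit 5) (nat_lit 484) (nat_lit 387) (nat_lit 269)))) (XT.nd (nat_lit 156) (nat_lit 304) (nat_lit 0) (XT.nd (nat_lit 78) (nat_lit 304) (nat_lit 0) (XT.lf (nat_lit 0) (nat_lit 5374670077) (nat_lit 380) (nat_lit 1950650717) (nat_lit 76) (nat_lit 8193629906) (nat_lit 110) (nat_lit 5) (nat_lit 115) (nat_lit 5) (nat_lit 111) (nat_lit 5) (nat_lit 485) (nat_lit 387) (nat_lit 268)) (XT.lf (nat_lit 0) (nat_lit 6168603405) (nat_lit 304) (nat_lit 2605421673) (nat_lit 380) (nat_lit 6949930432) (nat_lit 106) (nat_lit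 5) (nat_lit 110) (nat_lit 5) (nat_lit 111) (nat_lit 5) (nat_lit 486) (nat_lit 387) (nat_lit 267))) (XT.nd (nat_lit 78) (nat_lit 304) (nat_lit 0) (XT.lf (nat_lit 0) (nat_lit 12252528319) (nat_lit 380) (nat_lit 1495926984) (nat_lit 76) (nat_lit 2184387982) (nat_lit 106) (nat_lit 5) (nat_lit 111) (nat_lit 5) (nat_lit 107) (nat_lit 5) (nat_lit 487) (nat_lit 387) (nat_lit 266)) (XT.lf (nat_lit 0) (nat_lit 6771353051) (nat_lit 304) (nat_lit 9074430933) (nat_lit 380) (nat_lit 299227155) (nat_lit 102) (nat_lit 5) (nat_lit 106) (nat_lit 5) (nat_lit 107) (nat_lit 5) (nat_lit 488) (nat_lit 387) (nat_lit 265)))))) (XT.nd (nat_lit 546) (nat_lit 1140) (nat_lit 0) (XT.nd (nat_lit 234) (nat_lit 608) (nat_lit 0) (XT.nd (nat_lit 78) (nat_lit 304) (nat_lit 0) (XT.lf (nat_lit 0) (nat_lit 3102288078) (nat_lit 380) (nat_lit 1182421426) (nat_lit 76) (nat_lit 12076427382) (nat_lit 101) (nat_lit 5) (nat_lit 106) (nat_lit 5) (nat_lit 102)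 (nat_lit 5) (nat_lit 489) (nat_lit 387) (nat_lit 264)) (XT.nd (nat_lit 78) (nat_lit 0) (nat_lit 0) (XT.lf (nat_lit 0) (nat_lit 6603333928) (nat_lit 380) (nat_lit 9343917315) (nat_lit 76) (nat_lit 633589836) (nat_lit 97) (nat_lit 5) (nat_lit 102) (nat_lit 5) (nat_lit 98) (nat_lit 5) (nat_lit 490) (nat_lit 387) (nat_lit 263)) (XT.lf (nat_lit 0) (nat_lit 10195176667) (nat_lit 380) (nat_lit 1017075400) (nat_lit 76) (nat_lit 5592277286) (nat_lit 97) (nat_lit 5) (nat_lit 102) (nat_lit 5) (nat_lit 98) (nat_lit 5) (nat_lit 491) (nat_lit 387) (nat_lit 262)))) (XT.nd (nat_lit 156) (nat_lit 304) (nat_lit 0) (XT.nd (nat_lit 78) (nat_lit 76) (nat_lit 0) (XT.lf (nat_lit 0) (nat_lit 7551270480) (nat_lit 228) (nat_lit 6341332454) (nat_lit 304) (nat_lit 3139418935) (nat_lit 94) (nat_lit 5) (nat_lit 97) (nat_lit 5) (nat_lit 98) (nat_lit 5) (nat_lit 492) (nat_lit 387) (nat_lit 261)) (XT.lf (nat_lit 0) (nat_lit 386296592) (nat_lit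 304) (nat_lit 985917986) (nat_lit 76) (nat_lit 15891970364) (nat_lit 93) (nat_lit 5) (nat_lit 97) (nat_lit 5) (nat_lit 94) (nat_lit 5) (nat_lit 493) (nat_lit 387) (nat_lit 260))) (XT.nd (nat_lit 78) (nat_lit 0) (nat_lit 0) (XT.lf (nat_lit 0) (nat_lit 4000224205) (nat_lit 380) (nat_lit 9788455026) (nat_lit 76) (nat_lit 3710707420) (nat_lit 89) (nat_lit 5) (nat_lit 94) (nat_lit 5) (nat_lit 90) (nat_lit 5) (nat_lit 494) (nat_lit 387) (nat_lit 259)) (XT.lf (nat_lit 0) (nat_lit 7687318414) (nat_lit 380) (nat_lit 1176943525) (nat_lit 76) (nat_lit 8875017691) (nat_lit 89) (nat_lit 5) (nat_lit 94) (nat_lit 5) (nat_lit 90) (nat_lit 5) (nat_lit 495) (nat_lit 387) (nat_lit 258))))) (XT.nd (nat_lit 312) (nat_lit 532) (nat_lit 0) (XT.nd (nat_lit 156) (nat_lit 380) (nat_lit 0) (XT.nd (nat_lit 78) (nat_lit 0) (nat_lit 0) (XT.lf (nat_lit 0) (nat_lit 7684309971) (nat_lit 228) (nat_lit 3799168220) (nat_lit 304) (nat_lit 6499790703)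 (nat_lit 86) (nat_lit 5) (nat_lit 89) (nat_lit 5) (nat_lit 90) (nat_lit 5) (nat_lit 496) (nat_lit 387) (nat_lit 257)) (XT.lf (nat_lit 0) (nat_lit 15357899550) (nat_lit 304) (nat_lit 1525520243) (nat_lit 76) (nat_lit 1348676184) (nat_lit 86) (nat_lit 5) (nat_lit 90) (nat_lit 5) (nat_lit 87) (nat_lit 5) (nat_lit 497) (nat_lit 387) (nat_lit 256))) (XT.nd (nat_lit 78) (nat_lit 0) (nat_lit 0) (XT.lf (nat_lit 0) (nat_lit 872970541) (nat_lit 380) (nat_lit 11017111979) (nat_lit 76) (nat_lit 6594517382) (nat_lit 81) (nat_lit 5) (nat_lit 86) (nat_lit 5) (nat_lit 82) (nat_lit 5) (nat_lit 498) (nat_lit 387) (nat_lit 255)) (XT.lf (nat_lit 0) (nat_lit 4652764582) (nat_lit 380) (nat_lit 2122953936) (nat_lit 76) (nat_lit 11966136559) (nat_lit 81) (nat_lit 5) (nat_lit 86) (nat_lit 5) (nat_lit 82) (nat_lit 5) (nat_lit 499) (nat_lit 387) (nat_lit 254)))) (XT.nd (nat_lit 156) (nat_lit 304) (nat_lit 0) (XT.nd (nat_lit 78) (nat_lit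 0) (nat_lit 0) (XT.lf (nat_lit 0) (nat_lit 7018650237) (nat_lit 228) (nat_lit 1521180280) (nat_lit 304) (nat_lit 10463795756) (nat_lit 78) (nat_lit 5) (nat_lit 81) (nat_lit 5) (nat_lit 82) (nat_lit 5) (nat_lit 500) (nat_lit 387) (nat_lit 253)) (XT.lf (nat_lit 0) (nat_lit 12530078007) (nat_lit 304) (nat_lit 2946064331) (nat_lit 76) (nat_lit 3793986101) (nat_lit 78) (nat_lit 5) (nat_lit 82) (nat_lit 5) (nat_lit 79) (nat_lit 5) (nat_lit 501) (nat_lit 387) (nat_lit 252))) (XT.nd (nat_lit 78) (nat_lit 76) (nat_lit 0) (XT.lf (nat_lit 0) (nat_lit 6324375364) (nat_lit 228) (nat_lit 10313340180) (nat_lit 304) (nat_lit 2903497666) (nat_lit 75) (nat_lit 5) (nat_lit 78) (nat_lit 5) (nat_lit 79) (nat_lit 5) (nat_lit 502) (nat_lit 387) (nat_lit 251)) (XT.lf (nat_lit 0) (nat_lit 1002922179) (nat_lit 304) (nat_lit 4026012654) (nat_lit 76) (nat_lit 14788530228) (nat_lit 74) (nat_lit 5) (nat_lit 78) (nat_lit 5) (nat_lit 75) (nat_lit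 5) (nat_lit 503) (nat_lit 387) (nat_lit 250))))))))
noncomputable def xc121 : XT := (XT.nd (nat_lit 50544) (nat_lit 0) (nat_lit 31236) (XT.nd (nat_lit 1092) (nat_lit 912) (nat_lit 0) (XT.nd (nat_lit 546) (nat_lit 608) (nat_lit 0) (XT.nd (nat_lit 234) (nat_lit 532) (nat_lit 0) (XT.nd (nat_lit 78) (nat_lit 228) (nat_lit 0) (XT.lf (nat_lit 0) (nat_lit 4972940434) (nat_lit 304) (nat_lit 14722865100) (nat_lit 76) (nat_lit 402569634) (nat_lit 71) (nat_lit 5) (nat_lit 75) (nat_lit 5) (nat_lit 72) (nat_lit 5) (nat_lit 504) (nat_lit 387) (nat_lit 249)) (XT.nd (nat_lit 78) (nat_lit 228) (nat_lit 0) (XT.lf (nat_lit 0) (nat_lit 9069667899) (nat_lit 304) (nat_lit 5420003522) (nat_lit 76) (nat_lit 5894289821) (nat_lit 71) (nat_lit 5) (nat_lit 75) (nat_lit 5) (nat_lit 72) (nat_lit 5) (nat_lit 505) (nat_lit 387) (nat_lit 248)) (XT.lf (nat_lit 0) (nat_lit 4101338250) (nat_lit 228) (nat_lit 9160687975) (nat_lit 304) (nat_lit 7412962749)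 (nat_lit 68) (nat_lit 5) (nat_lit 71) (nat_lit 5) (nat_lit 72) (nat_lit 5) (nat_lit 506) (nat_lit 387) (nat_lit 247)))) (XT.nd (nat_lit 156) (nat_lit 228) (nat_lit 0) (XT.nd (nat_lit 78) (nat_lit 304) (nat_lit 0) (XT.lf (nat_lit 0) (nat_lit 13865350177) (nat_lit 228) (nat_lit 3696436079) (nat_lit 304) (nat_lit 3409583699) (nat_lit 68) (nat_lit 5) (nat_lit 71) (nat_lit 5) (nat_lit 72) (nat_lit 5) (nat_lit 507) (nat_lit 387) (nat_lit 246)) (XT.lf (nat_lit 0) (nat_lit 681261136) (nat_lit 304) (nat_lit 18726616963) (nat_lit 76) (nat_lit 1865391874) (nat_lit 64) (nat_lit 5) (nat_lit 68) (nat_lit 5) (nat_lit 65) (nat_lit 5) (nat_lit 508) (nat_lit 387) (nat_lit 245))) (XT.nd (nat_lit 78) (nat_lit 228) (nat_lit 0) (XT.lf (nat_lit 0) (nat_lit 4868198578) (nat_lit 304) (nat_lit 9159970826) (nat_lit 76) (nat_lit 7551392807) (nat_lit 64) (nat_lit 5) (nat_lit 68) (nat_lit 5) (nat_lit 65) (nat_lit 5) (nat_lit 509) (nat_lit 387)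 (nat_lit 244)) (XT.lf (nat_lit 0) (nat_lit 585049662) (nat_lit 228) (nat_lit 8545277285) (nat_lit 304) (nat_lit 12761827803) (nat_lit 61) (nat_lit 5) (nat_lit 64) (nat_lit 5) (nat_lit 65) (nat_lit 5) (nat_lit 510) (nat_lit 387) (nat_lit 243))))) (XT.nd (nat_lit 234) (nat_lit 456) (nat_lit 0) (XT.nd (nat_lit 78) (nat_lit 152) (nat_lit 0) (XT.lf (nat_lit 0) (nat_lit 10628640509) (nat_lit 228) (nat_lit 2898288261) (nat_lit 304) (nat_lit 8683089182) (nat_lit 61) (nat_lit 5) (nat_lit 64) (nat_lit 5) (nat_lit 65) (nat_lit 5) (nat_lit 511) (nat_lit 387) (nat_lit 242)) (XT.nd (nat_lit 78) (nat_lit 152) (nat_lit 0) (XT.lf (nat_lit 0) (nat_lit 18017992338) (nat_lit 304) (nat_lit 1699999643) (nat_lit 76) (nat_lit 2816119206) (nat_lit 61) (nat_lit 5) (nat_lit 65) (nat_lit 5) (nat_lit 62) (nat_lit 5) (nat_lit 512) (nat_lit 387) (nat_lit 241)) (XT.lf (nat_lit 0) (nat_lit 8450757972) (nat_lit 152) (nat_lit 14210367407) (nat_lit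 228) (nat_lit 202319240) (nat_lit 59) (nat_lit 5) (nat_lit 61) (nat_lit 5) (nat_lit 62) (nat_lit 5) (nat_lit 513) (nat_lit 387) (nat_lit 240)))) (XT.nd (nat_lit 156) (nat_lit 152) (nat_lit 0) (XT.nd (nat_lit 78) (nat_lit 228) (nat_lit 0) (XT.lf (nat_lit 0) (nat_lit 4142394415) (nat_lit 228) (nat_lit 4418808066) (nat_lit 76) (nat_lit 14637626467) (nat_lit 58) (nat_lit 5) (nat_lit 61) (nat_lit 5) (nat_lit 59) (nat_lit 5) (nat_lit 514) (nat_lit 387) (nat_lit 239)) (XT.lf (nat_lit 0) (nat_lit 5830551444) (nat_lit 228) (nat_lit 2767040325) (nat_lit 304) (nat_lit 14942779586) (nat_lit 55) (nat_lit 5) (nat_lit 58) (nat_lit 5) (nat_lit 59) (nat_lit 5) (nat_lit 515) (nat_lit 387) (nat_lit 238))) (XT.nd (nat_lit 78) (nat_lit 152) (nat_lit 0) (XT.lf (nat_lit 0) (nat_lit 13180637774) (nat_lit 304) (nat_lit 7583535899) (nat_lit 76) (nat_lit 3123799088) (nat_lit 55) (nat_lit 5) (nat_lit 59) (nat_lit 5) (nat_lit 56) (nat_lit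 5) (nat_lit 516) (nat_lit 387) (nat_lit 237)) (XT.lf (nat_lit 0) (nat_lit 2743739798) (nat_lit 152) (nat_lit 15136458876) (nat_lit 228) (nat_lit 6361833429) (nat_lit 53) (nat_lit 5) (nat_lit 55) (nat_lit 5) (nat_lit 56) (nat_lit 5) (nat_lit 517) (nat_lit 387) (nat_lit 236)))))) (XT.nd (nat_lit 546) (nat_lit 152) (nat_lit 0) (XT.nd (nat_lit 234) (nat_lit 456) (nat_lit 0) (XT.nd (nat_lit 78) (nat_lit 304) (nat_lit 0) (XT.lf (nat_lit 0) (nat_lit 13361290244) (nat_lit 152) (nat_lit 9352162567) (nat_lit 228) (nat_lit 1888928707) (nat_lit 53) (nat_lit 5) (nat_lit 55) (nat_lit 5) (nat_lit 56) (nat_lit 5) (nat_lit 518) (nat_lit 387) (nat_lit 235)) (XT.nd (nat_lit 78) (nat_lit 228) (nat_lit 0) (XT.lf (nat_lit 0) (nat_lit 2627327934) (nat_lit 228) (nat_lit 814947222) (nat_lit 76) (nat_lit 21527539297) (nat_lit 52) (nat_lit 5) (nat_lit 55) (nat_lit 5) (nat_lit 53) (nat_lit 5) (nat_lit 519) (nat_lit 387) (nat_lit 234)) (XT.lf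 (nat_lit 0) (nat_lit 7279461592) (nat_lit 304) (nat_lit 15441702057) (nat_lit 76) (nat_lit 2621768547) (nat_lit 49) (nat_lit 5) (nat_lit 53) (nat_lit 5) (nat_lit 50) (nat_lit 5) (nat_lit 520) (nat_lit 387) (nat_lit 233)))) (XT.nd (nat_lit 156) (nat_lit 304) (nat_lit 0) (XT.nd (nat_lit 78) (nat_lit 152) (nat_lit 0) (XT.lf (nat_lit 0) (nat_lit 12042156002) (nat_lit 304) (nat_lit 4921977986) (nat_lit 76) (nat_lit 8759030650) (nat_lit 49) (nat_lit 5) (nat_lit 53) (nat_lit 5) (nat_lit 50) (nat_lit 5) (nat_lit 521) (nat_lit 387) (nat_lit 232)) (XT.lf (nat_lit 0) (nat_lit 5866929342) (nat_lit 152) (nat_lit 11060695006) (nat_lit 228) (nat_lit 9182829631) (nat_lit 47) (nat_lit 5) (nat_lit 49) (nat_lit 5) (nat_lit 50) (nat_lit 5) (nat_lit 522) (nat_lit 387) (nat_lit 231))) (XT.nd (nat_lit 78) (nat_lit 304) (nat_lit 0) (XT.lf (nat_lit 0) (nat_lit 16920295922) (nat_lit 152) (nat_lit 5013053436) (nat_lit 228) (nat_lit 4571691403)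 (nat_lit 47) (nat_lit 5) (nat_lit 49) (nat_lit 5) (nat_lit 50) (nat_lit 5) (nat_lit 523) (nat_lit 387) (nat_lit 230)) (XT.lf (nat_lit 0) (nat_lit 135456432) (nat_lit 304) (nat_lit 25629669764) (nat_lit 76) (nat_lit 1142268207) (nat_lit 43) (nat_lit 5) (nat_lit 47) (nat_lit 5) (nat_lit 44) (nat_lit 5) (nat_lit 524) (nat_lit 387) (nat_lit 229))))) (XT.nd (nat_lit 234) (nat_lit 0) (nat_lit 0) (XT.nd (nat_lit 78) (nat_lit 152) (nat_lit 0) (XT.lf (nat_lit 0) (nat_lit 4963225910) (nat_lit 304) (nat_lit 14910908517) (nat_lit 76) (nat_lit 7441304892) (nat_lit 43) (nat_lit 5) (nat_lit 47) (nat_lit 5) (nat_lit 44) (nat_lit 5) (nat_lit 525) (nat_lit 387) (nat_lit 228)) (XT.nd (nat_lit 78) (nat_lit 152) (nat_lit 0) (XT.lf (nat_lit 0) (nat_lit 9877445628) (nat_lit 304) (nat_lit 3995287668) (nat_lit 76) (nat_lit 13859116342) (nat_lit 43) (nat_lit 5) (nat_lit 47) (nat_lit 5) (nat_lit 44) (nat_lit 5) (nat_lit 526) (nat_lit 387)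 (nat_lit 227)) (XT.lf (nat_lit 0) (nat_lit 7216114051) (nat_lit 152) (nat_lit 7710780478) (nat_lit 228) (nat_lit 13228957093) (nat_lit 41) (nat_lit 5) (nat_lit 43) (nat_lit 5) (nat_lit 44) (nat_lit 5) (nat_lit 527) (nat_lit 387) (nat_lit 226)))) (XT.nd (nat_lit 48516) (nat_lit 0) (nat_lit 43928) (XT.nd (nat_lit 48438) (nat_lit 0) (nat_lit 44612) (XT.lf (nat_lit 0) (nat_lit 18688841777) (nat_lit 152) (nat_lit 1405477602) (nat_lit 228) (nat_lit 8493676836) (nat_lit 41) (nat_lit 5) (nat_lit 43) (nat_lit 5) (nat_lit 44) (nat_lit 5) (nat_lit 528) (nat_lit 387) (nat_lit 225)) (XT.lf (nat_lit 0) (nat_lit 1037724536) (nat_lit 0) (nat_lit 1037724536) (nat_lit 532) (nat_lit 1208204789) (nat_lit 628) (nat_lit 5) (nat_lit 628) (nat_lit 3) (nat_lit 635) (nat_lit 3) (nat_lit 388) (nat_lit 388) (nat_lit 364))) (XT.nd (nat_lit 78) (nat_lit 684) (nat_lit 0) (XT.lf (nat_lit 0) (nat_lit 5180730806) (nat_lit 0) (nat_lit 1348726185)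 (nat_lit 532) (nat_lit 54232903) (nat_lit 628) (nat_lit 5) (nat_lit 628) (nat_lit 3) (nat_lit 635) (nat_lit 3) (nat_lit 389) (nat_lit 388) (nat_lit 363)) (XT.lf (nat_lit 76) (nat_lit 1723493613) (nat_lit 0) (nat_lit 550221412) (nat_lit 684) (nat_lit 4327456100) (nat_lit 620) (nat_lit 5) (nat_lit 619) (nat_lit 3) (nat_lit 628) (nat_lit 5) (nat_lit 390) (nat_lit 388) (nat_lit 362))))))) (XT.nd (nat_lit 1092) (nat_lit 9652) (nat_lit 0) (XT.nd (nat_lit 546) (nat_lit 1672) (nat_lit 0) (XT.nd (nat_lit 234) (nat_lit 760) (nat_lit 0) (XT.nd (nat_lit 78) (nat_lit 684) (nat_lit 0) (XT.lf (nat_lit 0) (nat_lit 4598114378) (nat_lit 608) (nat_lit 1722258638) (nat_lit 684) (nat_lit 299673711) (nat_lit 620) (nat_lit 5) (nat_lit 628) (nat_lit 5) (nat_lit 629) (nat_lit 5) (nat_lit 391) (nat_lit 388) (nat_lit 361)) (XT.nd (nat_lit 78) (nat_lit 0) (nat_lit 0) (XT.lf (nat_lit 0) (nat_lit 278875289) (nat_lit 684) (nat_lit 5162244095)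 (nat_lit 760) (nat_lit 1199129484) (nat_lit 611) (nat_lit 5) (nat_lit 620) (nat_lit 5) (nat_lit 621) (nat_lit 5) (nat_lit 392) (nat_lit 388) (nat_lit 360)) (XT.lf (nat_lit 0) (nat_lit 2551406669) (nat_lit 684) (nat_lit 1941260509) (nat_lit 760) (nat_lit 2168925530) (nat_lit 611) (nat_lit 5) (nat_lit 620) (nat_lit 5) (nat_lit 621) (nat_lit 5) (nat_lit 393) (nat_lit 388) (nat_lit 359)))) (XT.nd (nat_lit 156) (nat_lit 0) (nat_lit 0) (XT.nd (nat_lit 78) (nat_lit 760) (nat_lit 0) (XT.lf (nat_lit 76) (nat_lit 1329432508) (nat_lit 0) (nat_lit 3490864348) (nat_lit 760) (nat_lit 1864107796) (nat_lit 612) (nat_lit 5) (nat_lit 611) (nat_lit 5) (nat_lit 621) (nat_lit 5) (nat_lit 394) (nat_lit 388) (nat_lit 358)) (XT.lf (nat_lit 0) (nat_lit 377173893) (nat_lit 760) (nat_lit 2051168727) (nat_lit 836) (nat_lit 4280214256) (nat_lit 601) (nat_lit 5) (nat_lit 611) (nat_lit 5) (nat_lit 612) (nat_lit 5) (nat_lit 395) (nat_lit 388)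 (nat_lit 357))) (XT.nd (nat_lit 78) (nat_lit 0) (nat_lit 0) (XT.lf (nat_lit 76) (nat_lit 1291189886) (nat_lit 0) (nat_lit 1299427224) (nat_lit 836) (nat_lit 4143338638) (nat_lit 602) (nat_lit 5) (nat_lit 601) (nat_lit 5) (nat_lit 612) (nat_lit 5) (nat_lit 396) (nat_lit 388) (nat_lit 356)) (XT.lf (nat_lit 76) (nat_lit 4696301079) (nat_lit 0) (nat_lit 110575334) (nat_lit 836) (nat_lit 1953870111) (nat_lit 602) (nat_lit 5) (nat_lit 601) (nat_lit 5) (nat_lit 612) (nat_lit 5) (nat_lit 397) (nat_lit 388) (nat_lit 355))))) (XT.nd (nat_lit 234) (nat_lit 912) (nat_lit 0) (XT.nd (nat_lit 78) (nat_lit 0) (nat_lit 0) (XT.lf (nat_lit 0) (nat_lit 237415136) (nat_lit 836) (nat_lit 5430890122) (nat_lit 912) (nat_lit 1120550484) (nat_lit 591) (nat_lit 5) (nat_lit 602) (nat_lit 5) (nat_lit 603) (nat_lit 5) (nat_lit 398) (nat_lit 388) (nat_lit 354)) (XT.nd (nat_lit 78) (nat_lit 0) (nat_lit 0) (XT.lf (nat_lit 0) (nat_lit 2407524291)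 (nat_lit 836) (nat_lit 1987311852) (nat_lit 912) (nat_lit 2423261193) (nat_lit 591) (nat_lit 5) (nat_lit 602) (nat_lit 5) (nat_lit 603) (nat_lit 5) (nat_lit 399) (nat_lit 388) (nat_lit 353)) (XT.lf (nat_lit 76) (nat_lit 1512516857) (nat_lit 0) (nat_lit 3065847388) (nat_lit 912) (nat_lit 2270463636) (nat_lit 592) (nat_lit 5) (nat_lit 591) (nat_lit 5) (nat_lit 603) (nat_lit 5) (nat_lit 400) (nat_lit 388) (nat_lit 352)))) (XT.nd (nat_lit 156) (nat_lit 0) (nat_lit 76) (XT.nd (nat_lit 78) (nat_lit 912) (nat_lit 0) (XT.lf (nat_lit 76) (nat_lit 5077036158) (nat_lit 0) (nat_lit 1677248996) (nat_lit 912) (nat_lit 126704296) (nat_lit 592) (nat_lit 5) (nat_lit 591) (nat_lit 5) (nat_lit 603) (nat_lit 5) (nat_lit 401) (nat_lit 388) (nat_lit 351)) (XT.lf (nat_lit 76) (nat_lit 1776639749) (nat_lit 0) (nat_lit 216767098) (nat_lit 988) (nat_lit 4920957822) (nat_lit 580) (nat_lit 5) (nat_lit 579) (nat_lit 5) (nat_lit 592) (nat_lit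 5) (nat_lit 402) (nat_lit 388) (nat_lit 350))) (XT.nd (nat_lit 78) (nat_lit 0) (nat_lit 0) (XT.lf (nat_lit 0) (nat_lit 4124543316) (nat_lit 912) (nat_lit 1537346622) (nat_lit 988) (nat_lit 1287141142) (nat_lit 580) (nat_lit 5) (nat_lit 592) (nat_lit 5) (nat_lit 593) (nat_lit 5) (nat_lit 403) (nat_lit 388) (nat_lit 349)) (XT.lf (nat_lit 76) (nat_lit 2128882103) (nat_lit 0) (nat_lit 4135528822) (nat_lit 988) (nat_lit 720703636) (nat_lit 581) (nat_lit 5) (nat_lit 580) (nat_lit 5) (nat_lit 593) (nat_lit 5) (nat_lit 404) (nat_lit 388) (nat_lit 348)))))) (XT.nd (nat_lit 546) (nat_lit 5548) (nat_lit 0) (XT.nd (nat_lit 234) (nat_lit 3192) (nat_lit 0) (XT.nd (nat_lit 78) (nat_lit 0) (nat_lit 0) (XT.lf (nat_lit 0) (nat_lit 1368088719) (nat_lit 988) (nat_lit 1174879876) (nat_lit 1064) (nat_lit 4479577711) (nat_lit 567) (nat_lit 5) (nat_lit 580) (nat_lit 5) (nat_lit 581) (nat_lit 5) (nat_lit 405) (nat_lit 388) (nat_lit 347))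 (XT.nd (nat_lit 78) (nat_lit 0) (nat_lit 76) (XT.lf (nat_lit 76) (nat_lit 2576649865) (nat_lit 0) (nat_lit 881290274) (nat_lit 1064) (nat_lit 3603355865) (nat_lit 568) (nat_lit 5) (nat_lit 567) (nat_lit 5) (nat_lit 581) (nat_lit 5) (nat_lit 406) (nat_lit 388) (nat_lit 346)) (XT.lf (nat_lit 0) (nat_lit 5555826674) (nat_lit 988) (nat_lit 720198597) (nat_lit 76) (nat_lit 825513078) (nat_lit 568) (nat_lit 5) (nat_lit 581) (nat_lit 5) (nat_lit 569) (nat_lit 5) (nat_lit 407) (nat_lit 388) (nat_lit 345)))) (XT.nd (nat_lit 156) (nat_lit 2204) (nat_lit 0) (XT.nd (nat_lit 78) (nat_lit 0) (nat_lit 0) (XT.lf (nat_lit 0) (nat_lit 525705051) (nat_lit 1064) (nat_lit 4024521273) (nat_lit 76) (nat_lit 2592730696) (nat_lit 554) (nat_lit 5) (nat_lit 568) (nat_lit 5) (nat_lit 555) (nat_lit 5) (nat_lit 408) (nat_lit 388) (nat_lit 344)) (XT.lf (nat_lit 0) (nat_lit 2577029376) (nat_lit 1064) (nat_lit 184886179) (nat_lit 76) (nat_lit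 4423940610) (nat_lit 554) (nat_lit 5) (nat_lit 568) (nat_lit 5) (nat_lit 555) (nat_lit 5) (nat_lit 409) (nat_lit 388) (nat_lit 343))) (XT.nd (nat_lit 78) (nat_lit 1140) (nat_lit 0) (XT.lf (nat_lit 0) (nat_lit 3748234179) (nat_lit 1064) (nat_lit 900670341) (nat_lit 1140) (nat_lit 2581157470) (nat_lit 540) (nat_lit 5) (nat_lit 554) (nat_lit 5) (nat_lit 555) (nat_lit 5) (nat_lit 410) (nat_lit 388) (nat_lit 342)) (XT.lf (nat_lit 0) (nat_lit 453607485) (nat_lit 1140) (nat_lit 6275216844) (nat_lit 1216) (nat_lit 547033878) (nat_lit 525) (nat_lit 5) (nat_lit 540) (nat_lit 5) (nat_lit 541) (nat_lit 5) (nat_lit 411) (nat_lit 388) (nat_lit 341))))) (XT.nd (nat_lit 312) (nat_lit 2888) (nat_lit 0) (XT.nd (nat_lit 156) (nat_lit 1368) (nat_lit 0) (XT.nd (nat_lit 78) (nat_lit 1216) (nat_lit 0) (XT.lf (nat_lit 0) (nat_lit 1493479143) (nat_lit 1216) (nat_lit 2856843744) (nat_lit 76) (nat_lit 2972371120) (nat_lit 524) (nat_lit 5)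 (nat_lit 540) (nat_lit 5) (nat_lit 525) (nat_lit 5) (nat_lit 412) (nat_lit 388) (nat_lit 340)) (XT.lf (nat_lit 0) (nat_lit 1166557533) (nat_lit 1216) (nat_lit 2365618304) (nat_lit 1292) (nat_lit 3838960606) (nat_lit 508) (nat_lit 5) (nat_lit 524) (nat_lit 5) (nat_lit 525) (nat_lit 5) (nat_lit 413) (nat_lit 388) (nat_lit 339))) (XT.nd (nat_lit 78) (nat_lit 1368) (nat_lit 0) (XT.lf (nat_lit 0) (nat_lit 5276378437) (nat_lit 1216) (nat_lit 312184284) (nat_lit 1292) (nat_lit 1832482172) (nat_lit 508) (nat_lit 5) (nat_lit 524) (nat_lit 5) (nat_lit 525) (nat_lit 5) (nat_lit 414) (nat_lit 388) (nat_lit 338)) (XT.lf (nat_lit 0) (nat_lit 194218024) (nat_lit 1368) (nat_lit 5495846951) (nat_lit 76) (nat_lit 1782234836) (nat_lit 490) (nat_lit 5) (nat_lit 508) (nat_lit 5) (nat_lit 491) (nat_lit 5) (nat_lit 415) (nat_lit 388) (nat_lit 337)))) (XT.nd (nat_lit 156) (nat_lit 1520) (nat_lit 0) (XT.nd (nat_lit 78) (nat_lit 1368) (nat_lit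 0) (XT.lf (nat_lit 0) (nat_lit 2212421267) (nat_lit 1368) (nat_lit 1362940821) (nat_lit 76) (nat_lit 3949498810) (nat_lit 490) (nat_lit 5) (nat_lit 508) (nat_lit 5) (nat_lit 491) (nat_lit 5) (nat_lit 416) (nat_lit 388) (nat_lit 336)) (XT.lf (nat_lit 0) (nat_lit 2857336627) (nat_lit 1368) (nat_lit 1391937443) (nat_lit 1444) (nat_lit 3329666216) (nat_lit 472) (nat_lit 5) (nat_lit 490) (nat_lit 5) (nat_lit 491) (nat_lit 5) (nat_lit 417) (nat_lit 388) (nat_lit 335))) (XT.nd (nat_lit 78) (nat_lit 1520) (nat_lit 0) (XT.lf (nat_lit 0) (nat_lit 6301851302) (nat_lit 1444) (nat_lit 492324679) (nat_lit 76) (nat_lit 840457678) (nat_lit 472) (nat_lit 5) (nat_lit 491) (nat_lit 5) (nat_lit 473) (nat_lit 5) (nat_lit 418) (nat_lit 388) (nat_lit 334)) (XT.lf (nat_lit 0) (nat_lit 689962117) (nat_lit 1520) (nat_lit 3866319929) (nat_lit 76) (nat_lit 3135195199) (nat_lit 452) (nat_lit 5) (nat_lit 472) (nat_lit 5) (nat_lit 453) (nat_lit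 5) (nat_lit 419) (nat_lit 388) (nat_lit 333))))))))
noncomputable def xc122 : XT := (XT.nd (nat_lit 2184) (nat_lit 8360) (nat_lit 0) (XT.nd (nat_lit 1092) (nat_lit 5852) (nat_lit 0) (XT.nd (nat_lit 546) (nat_lit 3572) (nat_lit 0) (XT.nd (nat_lit 234) (nat_lit 3192) (nat_lit 0) (XT.nd (nat_lit 78) (nat_lit 1596) (nat_lit 0) (XT.lf (nat_lit 0) (nat_lit 450237136) (nat_lit 1520) (nat_lit 2252746104) (nat_lit 1596) (nat_lit 5046975206) (nat_lit 432) (nat_lit 5) (nat_lit 452) (nat_lit 5) (nat_lit 453) (nat_lit 5) (nat_lit 420) (nat_lit 388) (nat_lit 332)) (XT.nd (nat_lit 78) (nat_lit 1596) (nat_lit 0) (XT.lf (nat_lit 0) (nat_lit 4744989723) (nat_lit 1596) (nat_lit 2938053943) (nat_lit 76) (nat_lit 126820804) (nat_lit 432) (nat_lit 5) (nat_lit 453) (nat_lit 5) (nat_lit 433) (nat_lit 5) (nat_lit 421) (nat_lit 388) (nat_lit 331)) (XT.lf (nat_lit 0) (nat_lit 1482332512) (nat_lit 1596) (nat_lit 5332771651) (nat_lit 1672)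 (nat_lit 1056148210) (nat_lit 411) (nat_lit 5) (nat_lit 432) (nat_lit 5) (nat_lit 433) (nat_lit 5) (nat_lit 422) (nat_lit 388) (nat_lit 330)))) (XT.nd (nat_lit 156) (nat_lit 1444) (nat_lit 0) (XT.nd (nat_lit 78) (nat_lit 1672) (nat_lit 0) (XT.lf (nat_lit 0) (nat_lit 962550086) (nat_lit 1672) (nat_lit 1942436308) (nat_lit 76) (nat_lit 5029124365) (nat_lit 410) (nat_lit 5) (nat_lit 432) (nat_lit 5) (nat_lit 411) (nat_lit 5) (nat_lit 423) (nat_lit 388) (nat_lit 329)) (XT.lf (nat_lit 0) (nat_lit 2587229038) (nat_lit 1672) (nat_lit 400759676) (nat_lit 1748) (nat_lit 5010515249) (nat_lit 388) (nat_lit 5) (nat_lit 410) (nat_lit 5) (nat_lit 411) (nat_lit 5) (nat_lit 424) (nat_lit 388) (nat_lit 328))) (XT.nd (nat_lit 78) (nat_lit 1444) (nat_lit 0) (XT.lf (nat_lit 0) (nat_lit 5045259092) (nat_lit 1748) (nat_lit 877410045) (nat_lit 76) (nat_lit 2141716332) (nat_lit 388) (nat_lit 5) (nat_lit 411) (nat_lit 5) (nat_lit 389)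 (nat_lit 5) (nat_lit 425) (nat_lit 388) (nat_lit 327)) (XT.lf (nat_lit 0) (nat_lit 3761223862) (nat_lit 1444) (nat_lit 3374446589) (nat_lit 1520) (nat_lit 996100614) (nat_lit 369) (nat_lit 5) (nat_lit 388) (nat_lit 5) (nat_lit 389) (nat_lit 5) (nat_lit 426) (nat_lit 388) (nat_lit 326))))) (XT.nd (nat_lit 234) (nat_lit 1748) (nat_lit 0) (XT.nd (nat_lit 78) (nat_lit 912) (nat_lit 0) (XT.lf (nat_lit 0) (nat_lit 267823179) (nat_lit 836) (nat_lit 758373464) (nat_lit 912) (nat_lit 7174738273) (nat_lit 357) (nat_lit 5) (nat_lit 368) (nat_lit 5) (nat_lit 369) (nat_lit 5) (nat_lit 427) (nat_lit 388) (nat_lit 325)) (XT.nd (nat_lit 78) (nat_lit 912) (nat_lit 0) (XT.lf (nat_lit 0) (nat_lit 3083165561) (nat_lit 912) (nat_lit 3265247873) (nat_lit 76) (nat_lit 1922810507) (nat_lit 357) (nat_lit 5) (nat_lit 369) (nat_lit 5) (nat_lit 358) (nat_lit 5) (nat_lit 428) (nat_lit 388) (nat_lit 324)) (XT.lf (nat_lit 0) (nat_lit 1477619147)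 (nat_lit 912) (nat_lit 3684571721) (nat_lit 988) (nat_lit 3181133899) (nat_lit 345) (nat_lit 5) (nat_lit 357) (nat_lit 5) (nat_lit 358) (nat_lit 5) (nat_lit 429) (nat_lit 388) (nat_lit 323)))) (XT.nd (nat_lit 156) (nat_lit 836) (nat_lit 0) (XT.nd (nat_lit 78) (nat_lit 912) (nat_lit 0) (XT.lf (nat_lit 0) (nat_lit 6327108985) (nat_lit 912) (nat_lit 944349997) (nat_lit 988) (nat_lit 1145659267) (nat_lit 345) (nat_lit 5) (nat_lit 357) (nat_lit 5) (nat_lit 358) (nat_lit 5) (nat_lit 430) (nat_lit 388) (nat_lit 322)) (XT.lf (nat_lit 0) (nat_lit 915708291) (nat_lit 912) (nat_lit 5725471874) (nat_lit 76) (nat_lit 1851161813) (nat_lit 333) (nat_lit 5) (nat_lit 345) (nat_lit 5) (nat_lit 334) (nat_lit 5) (nat_lit 431) (nat_lit 388) (nat_lit 321))) (XT.nd (nat_lit 78) (nat_lit 836) (nat_lit 0) (XT.lf (nat_lit 0) (nat_lit 2990950126) (nat_lit 912) (nat_lit 866283799) (nat_lit 76) (nat_lit 4711947560) (nat_lit 333) (nat_lit 5)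 (nat_lit 345) (nat_lit 5) (nat_lit 334) (nat_lit 5) (nat_lit 432) (nat_lit 388) (nat_lit 320)) (XT.lf (nat_lit 0) (nat_lit 4111880995) (nat_lit 836) (nat_lit 990749182) (nat_lit 912) (nat_lit 3545051005) (nat_lit 322) (nat_lit 5) (nat_lit 333) (nat_lit 5) (nat_lit 334) (nat_lit 5) (nat_lit 433) (nat_lit 388) (nat_lit 319)))))) (XT.nd (nat_lit 546) (nat_lit 2736) (nat_lit 0) (XT.nd (nat_lit 234) (nat_lit 1520) (nat_lit 0) (XT.nd (nat_lit 78) (nat_lit 836) (nat_lit 0) (XT.lf (nat_lit 0) (nat_lit 434254725) (nat_lit 760) (nat_lit 6812159164) (nat_lit 836) (nat_lit 1481561214) (nat_lit 312) (nat_lit 5) (nat_lit 322) (nat_lit 5) (nat_lit 323) (nat_lit 5) (nat_lit 434) (nat_lit 388) (nat_lit 318)) (XT.nd (nat_lit 78) (nat_lit 760) (nat_lit 0) (XT.lf (nat_lit 0) (nat_lit 621052374) (nat_lit 836) (nat_lit 3287669840) (nat_lit 76) (nat_lit 4900972012) (nat_lit 311) (nat_lit 5) (nat_lit 322) (nat_lit 5) (nat_lit 312) (nat_lit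 5) (nat_lit 435) (nat_lit 388) (nat_lit 317)) (XT.lf (nat_lit 0) (nat_lit 1800152959) (nat_lit 760) (nat_lit 926871668) (nat_lit 836) (nat_lit 6166224736) (nat_lit 301) (nat_lit 5) (nat_lit 311) (nat_lit 5) (nat_lit 312) (nat_lit 5) (nat_lit 436) (nat_lit 388) (nat_lit 316)))) (XT.nd (nat_lit 156) (nat_lit 836) (nat_lit 0) (XT.nd (nat_lit 78) (nat_lit 684) (nat_lit 0) (XT.lf (nat_lit 0) (nat_lit 4880872530) (nat_lit 836) (nat_lit 1990159366) (nat_lit 76) (nat_lit 2107348569) (nat_lit 301) (nat_lit 5) (nat_lit 312) (nat_lit 5) (nat_lit 302) (nat_lit 5) (nat_lit 437) (nat_lit 388) (nat_lit 315)) (XT.lf (nat_lit 0) (nat_lit 3219007372) (nat_lit 684) (nat_lit 3856238579) (nat_lit 760) (nat_lit 1990038860) (nat_lit 292) (nat_lit 5) (nat_lit 301) (nat_lit 5) (nat_lit 302) (nat_lit 5) (nat_lit 438) (nat_lit 388) (nat_lit 314))) (XT.nd (nat_lit 78) (nat_lit 760) (nat_lit 0) (XT.lf (nat_lit 0) (nat_lit 141502491) (nat_lit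 760) (nat_lit 627558769) (nat_lit 76) (nat_lit 8385183779) (nat_lit 291) (nat_lit 5) (nat_lit 301) (nat_lit 5) (nat_lit 292) (nat_lit 5) (nat_lit 439) (nat_lit 388) (nat_lit 313)) (XT.lf (nat_lit 0) (nat_lit 2306524665) (nat_lit 836) (nat_lit 4547745062) (nat_lit 76) (nat_lit 2390120193) (nat_lit 281) (nat_lit 5) (nat_lit 292) (nat_lit 5) (nat_lit 282) (nat_lit 5) (nat_lit 440) (nat_lit 388) (nat_lit 312))))) (XT.nd (nat_lit 234) (nat_lit 1368) (nat_lit 0) (XT.nd (nat_lit 78) (nat_lit 684) (nat_lit 0) (XT.lf (nat_lit 0) (nat_lit 772757889) (nat_lit 684) (nat_lit 3727932856) (nat_lit 760) (nat_lit 4835948185) (nat_lit 272) (nat_lit 5) (nat_lit 281) (nat_lit 5) (nat_lit 282) (nat_lit 5) (nat_lit 441) (nat_lit 388) (nat_lit 311)) (XT.nd (nat_lit 78) (nat_lit 684) (nat_lit 0) (XT.lf (nat_lit 0) (nat_lit 6229684498) (nat_lit 684) (nat_lit 511420923) (nat_lit 760) (nat_lit 2689597941) (nat_lit 272) (nat_lit 5) (nat_lit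 281) (nat_lit 5) (nat_lit 282) (nat_lit 5) (nat_lit 442) (nat_lit 388) (nat_lit 310)) (XT.lf (nat_lit 0) (nat_lit 2249057123) (nat_lit 684) (nat_lit 6782231930) (nat_lit 760) (nat_lit 495278216) (nat_lit 263) (nat_lit 5) (nat_lit 272) (nat_lit 5) (nat_lit 273) (nat_lit 5) (nat_lit 443) (nat_lit 388) (nat_lit 309)))) (XT.nd (nat_lit 156) (nat_lit 684) (nat_lit 0) (XT.nd (nat_lit 78) (nat_lit 608) (nat_lit 0) (XT.lf (nat_lit 0) (nat_lit 1717596669) (nat_lit 760) (nat_lit 1818972570) (nat_lit 76) (nat_lit 6087619061) (nat_lit 262) (nat_lit 5) (nat_lit 272) (nat_lit 5) (nat_lit 263) (nat_lit 5) (nat_lit 444) (nat_lit 388) (nat_lit 308)) (XT.lf (nat_lit 0) (nat_lit 3763706059) (nat_lit 608) (nat_lit 201890666) (nat_lit 684) (nat_lit 5758165957) (nat_lit 254) (nat_lit 5) (nat_lit 262) (nat_lit 5) (nat_lit 263) (nat_lit 5) (nat_lit 445) (nat_lit 388) (nat_lit 307))) (XT.nd (nat_lit 78) (nat_lit 684) (nat_lit 0) (XT.lf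 (nat_lit 0) (nat_lit 6264973583) (nat_lit 684) (nat_lit 394670741) (nat_lit 76) (nat_lit 3165571965) (nat_lit 254) (nat_lit 5) (nat_lit 263) (nat_lit 5) (nat_lit 255) (nat_lit 5) (nat_lit 446) (nat_lit 388) (nat_lit 306)) (XT.lf (nat_lit 0) (nat_lit 5319642892) (nat_lit 684) (nat_lit 3300449726) (nat_lit 760) (nat_lit 1308427017) (nat_lit 245) (nat_lit 5) (nat_lit 254) (nat_lit 5) (nat_lit 255) (nat_lit 5) (nat_lit 447) (nat_lit 388) (nat_lit 305))))))) (XT.nd (nat_lit 1092) (nat_lit 3648) (nat_lit 0) (XT.nd (nat_lit 546) (nat_lit 2204) (nat_lit 0) (XT.nd (nat_lit 234) (nat_lit 1216) (nat_lit 0) (XT.nd (nat_lit 78) (nat_lit 608) (nat_lit 0) (XT.lf (nat_lit 0) (nat_lit 960147220) (nat_lit 684) (nat_lit 8938256079) (nat_lit 76) (nat_lit 135678832) (nat_lit 236) (nat_lit 5) (nat_lit 245) (nat_lit 5) (nat_lit 237) (nat_lit 5) (nat_lit 448) (nat_lit 388) (nat_lit 304)) (XT.nd (nat_lit 78) (nat_lit 608) (nat_lit 0) (XT.lf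 (nat_lit 0) (nat_lit 3283862773) (nat_lit 684) (nat_lit 3226027751) (nat_lit 76) (nat_lit 3631161436) (nat_lit 236) (nat_lit 5) (nat_lit 245) (nat_lit 5) (nat_lit 237) (nat_lit 5) (nat_lit 449) (nat_lit 388) (nat_lit 303)) (XT.lf (nat_lit 0) (nat_lit 2603948659) (nat_lit 608) (nat_lit 3041797986) (nat_lit 684) (nat_lit 4604595219) (nat_lit 228) (nat_lit 5) (nat_lit 236) (nat_lit 5) (nat_lit 237) (nat_lit 5) (nat_lit 450) (nat_lit 388) (nat_lit 302)))) (XT.nd (nat_lit 156) (nat_lit 608) (nat_lit 0) (XT.nd (nat_lit 78) (nat_lit 608) (nat_lit 0) (XT.lf (nat_lit 0) (nat_lit 8054926266) (nat_lit 684) (nat_lit 1801414635) (nat_lit 76) (nat_lit 505489776) (nat_lit 228) (nat_lit 5) (nat_lit 237) (nat_lit 5) (nat_lit 229) (nat_lit 5) (nat_lit 451) (nat_lit 388) (nat_lit 301)) (XT.lf (nat_lit 0) (nat_lit 59116347) (nat_lit 608) (nat_lit 6310875300) (nat_lit 76) (nat_lit 4105109408) (nat_lit 220) (nat_lit 5) (nat_lit 228)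 (nat_lit 5) (nat_lit 221) (nat_lit 5) (nat_lit 452) (nat_lit 388) (nat_lit 300))) (XT.nd (nat_lit 78) (nat_lit 608) (nat_lit 0) (XT.lf (nat_lit 0) (nat_lit 2429413379) (nat_lit 608) (nat_lit 362609124) (nat_lit 76) (nat_lit 7798565907) (nat_lit 220) (nat_lit 5) (nat_lit 228) (nat_lit 5) (nat_lit 221) (nat_lit 5) (nat_lit 453) (nat_lit 388) (nat_lit 299)) (XT.lf (nat_lit 0) (nat_lit 4866351664) (nat_lit 684) (nat_lit 4963725344) (nat_lit 76) (nat_lit 877936985) (nat_lit 212) (nat_lit 5) (nat_lit 221) (nat_lit 5) (nat_lit 213) (nat_lit 5) (nat_lit 454) (nat_lit 388) (nat_lit 298))))) (XT.nd (nat_lit 234) (nat_lit 1064) (nat_lit 0) (XT.nd (nat_lit 78) (nat_lit 608) (nat_lit 0) (XT.lf (nat_lit 0) (nat_lit 1116531323) (nat_lit 532) (nat_lit 6240047907) (nat_lit 608) (nat_lit 3471130776) (nat_lit 205) (nat_lit 5) (nat_lit 212) (nat_lit 5) (nat_lit 213) (nat_lit 5) (nat_lit 455) (nat_lit 388) (nat_lit 297)) (XT.nd (nat_lit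 78) (nat_lit 608) (nat_lit 0) (XT.lf (nat_lit 0) (nat_lit 7355769720) (nat_lit 532) (nat_lit 2550781778) (nat_lit 608) (nat_lit 1043062311) (nat_lit 205) (nat_lit 5) (nat_lit 212) (nat_lit 5) (nat_lit 213) (nat_lit 5) (nat_lit 456) (nat_lit 388) (nat_lit 296)) (XT.lf (nat_lit 0) (nat_lit 1416845231) (nat_lit 608) (nat_lit 8440370356) (nat_lit 76) (nat_lit 1216524545) (nat_lit 197) (nat_lit 5) (nat_lit 205) (nat_lit 5) (nat_lit 198) (nat_lit 5) (nat_lit 457) (nat_lit 388) (nat_lit 295)))) (XT.nd (nat_lit 156) (nat_lit 608) (nat_lit 0) (XT.nd (nat_lit 78) (nat_lit 456) (nat_lit 0) (XT.lf (nat_lit 0) (nat_lit 3930309646) (nat_lit 608) (nat_lit 2219853797) (nat_lit 76) (nat_lit 5049693083) (nat_lit 197) (nat_lit 5) (nat_lit 205) (nat_lit 5) (nat_lit 198) (nat_lit 5) (nat_lit 458) (nat_lit 388) (nat_lit 294)) (XT.lf (nat_lit 0) (nat_lit 4150219095) (nat_lit 456) (nat_lit 2348361776) (nat_lit 532) (nat_lit 4829835335)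 (nat_lit 191) (nat_lit 5) (nat_lit 197) (nat_lit 5) (nat_lit 198) (nat_lit 5) (nat_lit 459) (nat_lit 388) (nat_lit 293))) (XT.nd (nat_lit 78) (nat_lit 608) (nat_lit 0) (XT.lf (nat_lit 0) (nat_lit 9120939952) (nat_lit 532) (nat_lit 820995848) (nat_lit 76) (nat_lit 1517568309) (nat_lit 191) (nat_lit 5) (nat_lit 198) (nat_lit 5) (nat_lit 192) (nat_lit 5) (nat_lit 460) (nat_lit 388) (nat_lit 292)) (XT.lf (nat_lit 0) (nat_lit 230819447) (nat_lit 608) (nat_lit 5900582662) (nat_lit 76) (nat_lit 5461177532) (nat_lit 183) (nat_lit 5) (nat_lit 191) (nat_lit 5) (nat_lit 184) (nat_lit 5) (nat_lit 461) (nat_lit 388) (nat_lit 291)))))) (XT.nd (nat_lit 546) (nat_lit 1748) (nat_lit 0) (XT.nd (nat_lit 234) (nat_lit 988) (nat_lit 0) (XT.nd (nat_lit 78) (nat_lit 456) (nat_lit 0) (XT.lf (nat_lit 0) (nat_lit 581239363) (nat_lit 456) (nat_lit 2226706031) (nat_lit 532) (nat_lit 8920319587) (nat_lit 177) (nat_lit 5) (nat_lit 183) (nat_lit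 5) (nat_lit 184) (nat_lit 5) (nat_lit 462) (nat_lit 388) (nat_lit 290)) (XT.nd (nat_lit 78) (nat_lit 456) (nat_lit 0) (XT.lf (nat_lit 0) (nat_lit 5466382771) (nat_lit 532) (nat_lit 4634086658) (nat_lit 76) (nat_lit 1765609826) (nat_lit 177) (nat_lit 5) (nat_lit 184) (nat_lit 5) (nat_lit 178) (nat_lit 5) (nat_lit 463) (nat_lit 388) (nat_lit 289)) (XT.lf (nat_lit 0) (nat_lit 1991828616) (nat_lit 456) (nat_lit 6192769347) (nat_lit 532) (nat_lit 3821930066) (nat_lit 171) (nat_lit 5) (nat_lit 177) (nat_lit 5) (nat_lit 178) (nat_lit 5) (nat_lit 464) (nat_lit 388) (nat_lit 288)))) (XT.nd (nat_lit 156) (nat_lit 456) (nat_lit 0) (XT.nd (nat_lit 78) (nat_lit 532) (nat_lit 0) (XT.lf (nat_lit 0) (nat_lit 8784607751) (nat_lit 456) (nat_lit 2182825547) (nat_lit 532) (nat_lit 1182157558) (nat_lit 171) (nat_lit 5) (nat_lit 177) (nat_lit 5) (nat_lit 178) (nat_lit 5) (nat_lit 465) (nat_lit 388) (nat_lit 287)) (XT.lf (nat_lit 0)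 (nat_lit 1504804587) (nat_lit 532) (nat_lit 8883201782) (nat_lit 76) (nat_lit 1907038166) (nat_lit 164) (nat_lit 5) (nat_lit 171) (nat_lit 5) (nat_lit 165) (nat_lit 5) (nat_lit 466) (nat_lit 388) (nat_lit 286))) (XT.nd (nat_lit 78) (nat_lit 456) (nat_lit 0) (XT.lf (nat_lit 0) (nat_lit 4246471915) (nat_lit 532) (nat_lit 2123948771) (nat_lit 76) (nat_lit 6072504025) (nat_lit 164) (nat_lit 5) (nat_lit 171) (nat_lit 5) (nat_lit 165) (nat_lit 5) (nat_lit 467) (nat_lit 388) (nat_lit 285)) (XT.lf (nat_lit 0) (nat_lit 4805696019) (nat_lit 456) (nat_lit 2248472536) (nat_lit 532) (nat_lit 5539379433) (nat_lit 158) (nat_lit 5) (nat_lit 164) (nat_lit 5) (nat_lit 165) (nat_lit 5) (nat_lit 468) (nat_lit 388) (nat_lit 284))))) (XT.nd (nat_lit 312) (nat_lit 836) (nat_lit 0) (XT.nd (nat_lit 156) (nat_lit 532) (nat_lit 0) (XT.nd (nat_lit 78) (nat_lit 380) (nat_lit 0) (XT.lf (nat_lit 0) (nat_lit 9925221522) (nat_lit 532) (nat_lit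 884959741) (nat_lit 76) (nat_lit 1936867652) (nat_lit 158) (nat_lit 5) (nat_lit 165) (nat_lit 5) (nat_lit 159) (nat_lit 5) (nat_lit 469) (nat_lit 388) (nat_lit 283)) (XT.lf (nat_lit 0) (nat_lit 6194903953) (nat_lit 380) (nat_lit 6694448757) (nat_lit 456) (nat_lit 13563060) (nat_lit 153) (nat_lit 5) (nat_lit 158) (nat_lit 5) (nat_lit 159) (nat_lit 5) (nat_lit 470) (nat_lit 388) (nat_lit 282))) (XT.nd (nat_lit 78) (nat_lit 0) (nat_lit 0) (XT.lf (nat_lit 0) (nat_lit 324760944) (nat_lit 456) (nat_lit 2477415832) (nat_lit 532) (nat_lit 10259587693) (nat_lit 146) (nat_lit 5) (nat_lit 152) (nat_lit 5) (nat_lit 153) (nat_lit 5) (nat_lit 471) (nat_lit 388) (nat_lit 281)) (XT.lf (nat_lit 0) (nat_lit 5711967685) (nat_lit 532) (nat_lit 5673689098) (nat_lit 76) (nat_lit 1837381739) (nat_lit 146) (nat_lit 5) (nat_lit 153) (nat_lit 5) (nat_lit 147) (nat_lit 5) (nat_lit 472) (nat_lit 388) (nat_lit 280)))) (XT.nd (nat_lit 156)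 (nat_lit 456) (nat_lit 0) (XT.nd (nat_lit 78) (nat_lit 0) (nat_lit 0) (XT.lf (nat_lit 0) (nat_lit 1507106753) (nat_lit 380) (nat_lit 7180179690) (nat_lit 456) (nat_lit 4700113332) (nat_lit 141) (nat_lit 5) (nat_lit 146) (nat_lit 5) (nat_lit 147) (nat_lit 5) (nat_lit 473) (nat_lit 388) (nat_lit 279)) (XT.lf (nat_lit 0) (nat_lit 8881461338) (nat_lit 380) (nat_lit 2860058571) (nat_lit 456) (nat_lit 1813148378) (nat_lit 141) (nat_lit 5) (nat_lit 146) (nat_lit 5) (nat_lit 147) (nat_lit 5) (nat_lit 474) (nat_lit 388) (nat_lit 278))) (XT.nd (nat_lit 78) (nat_lit 0) (nat_lit 0) (XT.lf (nat_lit 0) (nat_lit 1125832595) (nat_lit 456) (nat_lit 11056193058) (nat_lit 76) (nat_lit 1542935114) (nat_lit 135) (nat_lit 5) (nat_lit 141) (nat_lit 5) (nat_lit 136) (nat_lit 5) (nat_lit 475) (nat_lit 388) (nat_lit 277)) (XT.lf (nat_lit 0) (nat_lit 4131553190) (nat_lit 456) (nat_lit 3735092329) (nat_lit 76) (nat_lit 6031136843) (nat_lit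 135) (nat_lit 5) (nat_lit 141) (nat_lit 5) (nat_lit 136) (nat_lit 5) (nat_lit 476) (nat_lit 388) (nat_lit 276))))))))
noncomputable def xc123 : XT := (XT.nd (nat_lit 2184) (nat_lit 2356) (nat_lit 0) (XT.nd (nat_lit 1092) (nat_lit 1748) (nat_lit 0) (XT.nd (nat_lit 546) (nat_lit 1368) (nat_lit 0) (XT.nd (nat_lit 234) (nat_lit 760) (nat_lit 0) (XT.nd (nat_lit 78) (nat_lit 380) (nat_lit 0) (XT.lf (nat_lit 0) (nat_lit 3755376211) (nat_lit 380) (nat_lit 3448460281) (nat_lit 456) (nat_lit 6870102504) (nat_lit 130) (nat_lit 5) (nat_lit 135) (nat_lit 5) (nat_lit 136) (nat_lit 5) (nat_lit 477) (nat_lit 388) (nat_lit 275)) (XT.nd (nat_lit 78) (nat_lit 380) (nat_lit 0) (XT.lf (nat_lit 0) (nat_lit 10351859157) (nat_lit 456) (nat_lit 2840310612) (nat_lit 76) (nat_lit 1061170545) (nat_lit 130) (nat_lit 5) (nat_lit 136) (nat_lit 5) (nat_lit 131) (nat_lit 5) (nat_lit 478) (nat_lit 388) (nat_lit 274)) (XT.lf (nat_lit 0) (nat_lit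 4801721405) (nat_lit 380) (nat_lit 8797676921) (nat_lit 456) (nat_lit 836207491) (nat_lit 125) (nat_lit 5) (nat_lit 130) (nat_lit 5) (nat_lit 131) (nat_lit 5) (nat_lit 479) (nat_lit 388) (nat_lit 273)))) (XT.nd (nat_lit 156) (nat_lit 380) (nat_lit 0) (XT.nd (nat_lit 78) (nat_lit 304) (nat_lit 0) (XT.lf (nat_lit 0) (nat_lit 2262115423) (nat_lit 456) (nat_lit 2027027938) (nat_lit 76) (nat_lit 10332047206) (nat_lit 124) (nat_lit 5) (nat_lit 130) (nat_lit 5) (nat_lit 125) (nat_lit 5) (nat_lit 480) (nat_lit 388) (nat_lit 272)) (XT.lf (nat_lit 0) (nat_lit 5433902407) (nat_lit 380) (nat_lit 9035505335) (nat_lit 76) (nat_lit 340521695) (nat_lit 120) (nat_lit 5) (nat_lit 125) (nat_lit 5) (nat_lit 121) (nat_lit 5) (nat_lit 481) (nat_lit 388) (nat_lit 271))) (XT.nd (nat_lit 78) (nat_lit 380) (nat_lit 0) (XT.lf (nat_lit 0) (nat_lit 8694275549) (nat_lit 380) (nat_lit 1296887479) (nat_lit 76) (nat_lit 5010783772) (nat_lit 120)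 (nat_lit 5) (nat_lit 125) (nat_lit 5) (nat_lit 121) (nat_lit 5) (nat_lit 482) (nat_lit 388) (nat_lit 270)) (XT.lf (nat_lit 0) (nat_lit 6658731705) (nat_lit 380) (nat_lit 5387742636) (nat_lit 456) (nat_lit 3150804400) (nat_lit 115) (nat_lit 5) (nat_lit 120) (nat_lit 5) (nat_lit 121) (nat_lit 5) (nat_lit 483) (nat_lit 388) (nat_lit 269))))) (XT.nd (nat_lit 234) (nat_lit 988) (nat_lit 0) (XT.nd (nat_lit 78) (nat_lit 304) (nat_lit 0) (XT.lf (nat_lit 0) (nat_lit 60486486) (nat_lit 456) (nat_lit 630970107) (nat_lit 76) (nat_lit 14705214194) (nat_lit 114) (nat_lit 5) (nat_lit 120) (nat_lit 5) (nat_lit 115) (nat_lit 5) (nat_lit 484) (nat_lit 388) (nat_lit 268)) (XT.nd (nat_lit 78) (nat_lit 0) (nat_lit 0) (XT.lf (nat_lit 0) (nat_lit 3353242570) (nat_lit 380) (nat_lit 8138587836) (nat_lit 76) (nat_lit 4106621371) (nat_lit 110) (nat_lit 5) (nat_lit 115) (nat_lit 5) (nat_lit 111) (nat_lit 5) (nat_lit 485) (nat_lit 388) (nat_lit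 267)) (XT.lf (nat_lit 0) (nat_lit 6704558441) (nat_lit 380) (nat_lit 112503474) (nat_lit 76) (nat_lit 8987358470) (nat_lit 110) (nat_lit 5) (nat_lit 115) (nat_lit 5) (nat_lit 111) (nat_lit 5) (nat_lit 486) (nat_lit 388) (nat_lit 266)))) (XT.nd (nat_lit 156) (nat_lit 380) (nat_lit 0) (XT.nd (nat_lit 78) (nat_lit 304) (nat_lit 0) (XT.lf (nat_lit 0) (nat_lit 8156785991) (nat_lit 304) (nat_lit 2003253609) (nat_lit 380) (nat_lit 5853731958) (nat_lit 106) (nat_lit 5) (nat_lit 110) (nat_lit 5) (nat_lit 111) (nat_lit 5) (nat_lit 487) (nat_lit 388) (nat_lit 265)) (XT.lf (nat_lit 0) (nat_lit 326699575) (nat_lit 304) (nat_lit 13363963223) (nat_lit 380) (nat_lit 2536532163) (nat_lit 102) (nat_lit 5) (nat_lit 106) (nat_lit 5) (nat_lit 107) (nat_lit 5) (nat_lit 488) (nat_lit 388) (nat_lit 264))) (XT.nd (nat_lit 78) (nat_lit 304) (nat_lit 0) (XT.lf (nat_lit 0) (nat_lit 886563524) (nat_lit 380) (nat_lit 7706837688) (nat_lit 76)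 (nat_lit 7850368048) (nat_lit 101) (nat_lit 5) (nat_lit 106) (nat_lit 5) (nat_lit 102) (nat_lit 5) (nat_lit 489) (nat_lit 388) (nat_lit 263)) (XT.lf (nat_lit 0) (nat_lit 618027773) (nat_lit 304) (nat_lit 3714801375) (nat_lit 380) (nat_lit 12331742640) (nat_lit 97) (nat_lit 5) (nat_lit 101) (nat_lit 5) (nat_lit 102) (nat_lit 5) (nat_lit 490) (nat_lit 388) (nat_lit 262)))))) (XT.nd (nat_lit 546) (nat_lit 912) (nat_lit 0) (XT.nd (nat_lit 234) (nat_lit 608) (nat_lit 0) (XT.nd (nat_lit 78) (nat_lit 228) (nat_lit 0) (XT.lf (nat_lit 0) (nat_lit 7892987991) (nat_lit 380) (nat_lit 7707498563) (nat_lit 76) (nat_lit 1288409864) (nat_lit 97) (nat_lit 5) (nat_lit 102) (nat_lit 5) (nat_lit 98) (nat_lit 5) (nat_lit 491) (nat_lit 388) (nat_lit 261)) (XT.nd (nat_lit 78) (nat_lit 0) (nat_lit 0) (XT.lf (nat_lit 0) (nat_lit 760098088) (nat_lit 228) (nat_lit 10778806764) (nat_lit 304) (nat_lit 5578516893) (nat_lit 94) (nat_lit 5) (nat_lit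 97) (nat_lit 5) (nat_lit 98) (nat_lit 5) (nat_lit 492) (nat_lit 388) (nat_lit 260)) (XT.lf (nat_lit 0) (nat_lit 9478081892) (nat_lit 228) (nat_lit 5816539537) (nat_lit 304) (nat_lit 2055163724) (nat_lit 94) (nat_lit 5) (nat_lit 97) (nat_lit 5) (nat_lit 98) (nat_lit 5) (nat_lit 493) (nat_lit 388) (nat_lit 259)))) (XT.nd (nat_lit 156) (nat_lit 228) (nat_lit 0) (XT.nd (nat_lit 78) (nat_lit 0) (nat_lit 0) (XT.lf (nat_lit 0) (nat_lit 760430750) (nat_lit 304) (nat_lit 748332824) (nat_lit 380) (nat_lit 16078031713) (nat_lit 89) (nat_lit 5) (nat_lit 93) (nat_lit 5) (nat_lit 94) (nat_lit 5) (nat_lit 494) (nat_lit 388) (nat_lit 258)) (XT.lf (nat_lit 0) (nat_lit 5183787253) (nat_lit 380) (nat_lit 8221513839) (nat_lit 76) (nat_lit 4421631010) (nat_lit 89) (nat_lit 5) (nat_lit 94) (nat_lit 5) (nat_lit 90) (nat_lit 5) (nat_lit 495) (nat_lit 388) (nat_lit 257))) (XT.nd (nat_lit 78) (nat_lit 0) (nat_lit 0) (XT.lf (nat_lit 0) (nat_lit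 534677334) (nat_lit 228) (nat_lit 8391779089) (nat_lit 304) (nat_lit 9145537133) (nat_lit 86) (nat_lit 5) (nat_lit 89) (nat_lit 5) (nat_lit 90) (nat_lit 5) (nat_lit 496) (nat_lit 388) (nat_lit 256)) (XT.lf (nat_lit 0) (nat_lit 9554774120) (nat_lit 228) (nat_lit 3230226135) (nat_lit 304) (nat_lit 5536140266) (nat_lit 86) (nat_lit 5) (nat_lit 89) (nat_lit 5) (nat_lit 90) (nat_lit 5) (nat_lit 497) (nat_lit 388) (nat_lit 255))))) (XT.nd (nat_lit 234) (nat_lit 532) (nat_lit 0) (XT.nd (nat_lit 78) (nat_lit 76) (nat_lit 0) (XT.lf (nat_lit 0) (nat_lit 146264514) (nat_lit 304) (nat_lit 16574683638) (nat_lit 380) (nat_lit 1854322227) (nat_lit 82) (nat_lit 5) (nat_lit 86) (nat_lit 5) (nat_lit 87) (nat_lit 5) (nat_lit 498) (nat_lit 388) (nat_lit 254)) (XT.nd (nat_lit 78) (nat_lit 0) (nat_lit 0) (XT.lf (nat_lit 0) (nat_lit 1942913504) (nat_lit 380) (nat_lit 9533940952) (nat_lit 76) (nat_lit 7356051648) (nat_lit 81) (nat_lit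 5) (nat_lit 86) (nat_lit 5) (nat_lit 82) (nat_lit 5) (nat_lit 499) (nat_lit 388) (nat_lit 253)) (XT.lf (nat_lit 0) (nat_lit 5777666493) (nat_lit 380) (nat_lit 495301969) (nat_lit 76) (nat_lit 12822757250) (nat_lit 81) (nat_lit 5) (nat_lit 86) (nat_lit 5) (nat_lit 82) (nat_lit 5) (nat_lit 500) (nat_lit 388) (nat_lit 252)))) (XT.nd (nat_lit 156) (nat_lit 304) (nat_lit 0) (XT.nd (nat_lit 78) (nat_lit 0) (nat_lit 0) (XT.lf (nat_lit 0) (nat_lit 8818146715) (nat_lit 228) (nat_lit 914866875) (nat_lit 304) (nat_lit 9629914405) (nat_lit 78) (nat_lit 5) (nat_lit 81) (nat_lit 5) (nat_lit 82) (nat_lit 5) (nat_lit 501) (nat_lit 388) (nat_lit 251)) (XT.lf (nat_lit 0) (nat_lit 13787072295) (nat_lit 304) (nat_lit 1362083502) (nat_lit 76) (nat_lit 4485930617) (nat_lit 78) (nat_lit 5) (nat_lit 82) (nat_lit 5) (nat_lit 79) (nat_lit 5) (nat_lit 502) (nat_lit 388) (nat_lit 250))) (XT.nd (nat_lit 78) (nat_lit 76) (nat_lit 0) (XT.lf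 (nat_lit 0) (nat_lit 8082956419) (nat_lit 228) (nat_lit 9884769605) (nat_lit 304) (nat_lit 1944055798) (nat_lit 75) (nat_lit 5) (nat_lit 78) (nat_lit 5) (nat_lit 79) (nat_lit 5) (nat_lit 503) (nat_lit 388) (nat_lit 249)) (XT.lf (nat_lit 0) (nat_lit 2007458045) (nat_lit 304) (nat_lit 2493059536) (nat_lit 76) (nat_lit 15693308762) (nat_lit 74) (nat_lit 5) (nat_lit 78) (nat_lit 5) (nat_lit 75) (nat_lit 5) (nat_lit 504) (nat_lit 388) (nat_lit 248))))))) (XT.nd (nat_lit 1092) (nat_lit 760) (nat_lit 0) (XT.nd (nat_lit 546) (nat_lit 608) (nat_lit 0) (XT.nd (nat_lit 234) (nat_lit 532) (nat_lit 0) (XT.nd (nat_lit 78) (nat_lit 228) (nat_lit 0) (XT.lf (nat_lit 0) (nat_lit 6052052710) (nat_lit 304) (nat_lit 13398732457) (nat_lit 76) (nat_lit 1029671818) (nat_lit 71) (nat_lit 5) (nat_lit 75) (nat_lit 5) (nat_lit 72) (nat_lit 5) (nat_lit 505) (nat_lit 388) (nat_lit 247)) (XT.nd (nat_lit 78) (nat_lit 228) (nat_lit 0) (XT.lf (nat_lit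 0) (nat_lit 10211505832) (nat_lit 304) (nat_lit 3941550705) (nat_lit 76) (nat_lit 6619088158) (nat_lit 71) (nat_lit 5) (nat_lit 75) (nat_lit 5) (nat_lit 72) (nat_lit 5) (nat_lit 506) (nat_lit 388) (nat_lit 246)) (XT.lf (nat_lit 0) (nat_lit 5759778080) (nat_lit 228) (nat_lit 8719336116) (nat_lit 304) (nat_lit 6590056352) (nat_lit 68) (nat_lit 5) (nat_lit 71) (nat_lit 5) (nat_lit 72) (nat_lit 5) (nat_lit 507) (nat_lit 388) (nat_lit 245)))) (XT.nd (nat_lit 156) (nat_lit 228) (nat_lit 0) (XT.nd (nat_lit 78) (nat_lit 304) (nat_lit 0) (XT.lf (nat_lit 0) (nat_lit 15688160186) (nat_lit 228) (nat_lit 3158045567) (nat_lit 304) (nat_lit 2525652185) (nat_lit 68) (nat_lit 5) (nat_lit 71) (nat_lit 5) (nat_lit 72) (nat_lit 5) (nat_lit 508) (nat_lit 388) (nat_lit 244)) (XT.lf (nat_lit 0) (nat_lit 1630153074) (nat_lit 304) (nat_lit 17538254457) (nat_lit 76) (nat_lit 2511357474) (nat_lit 64) (nat_lit 5) (nat_lit 68) (nat_lit 5)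 (nat_lit 65) (nat_lit 5) (nat_lit 509) (nat_lit 388) (nat_lit 243))) (XT.nd (nat_lit 78) (nat_lit 228) (nat_lit 0) (XT.lf (nat_lit 0) (nat_lit 5882490702) (nat_lit 304) (nat_lit 7810920395) (nat_lit 76) (nat_lit 8299143959) (nat_lit 64) (nat_lit 5) (nat_lit 68) (nat_lit 5) (nat_lit 65) (nat_lit 5) (nat_lit 510) (nat_lit 388) (nat_lit 242)) (XT.lf (nat_lit 0) (nat_lit 2118919912) (nat_lit 228) (nat_lit 8102845676) (nat_lit 304) (nat_lit 12089800874) (nat_lit 61) (nat_lit 5) (nat_lit 64) (nat_lit 5) (nat_lit 65) (nat_lit 5) (nat_lit 511) (nat_lit 388) (nat_lit 241))))) (XT.nd (nat_lit 234) (nat_lit 380) (nat_lit 0) (XT.nd (nat_lit 78) (nat_lit 228) (nat_lit 0) (XT.lf (nat_lit 0) (nat_lit 12333536121) (nat_lit 228) (nat_lit 2354943089) (nat_lit 304) (nat_lit 7947669117) (nat_lit 61) (nat_lit 5) (nat_lit 64) (nat_lit 5) (nat_lit 65) (nat_lit 5) (nat_lit 512) (nat_lit 388) (nat_lit 240)) (XT.nd (nat_lit 78) (nat_lit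 228) (nat_lit 0) (XT.lf (nat_lit 0) (nat_lit 19255720787) (nat_lit 304) (nat_lit 257049953) (nat_lit 76) (nat_lit 3454230448) (nat_lit 61) (nat_lit 5) (nat_lit 65) (nat_lit 5) (nat_lit 62) (nat_lit 5) (nat_lit 513) (nat_lit 388) (nat_lit 239)) (XT.lf (nat_lit 0) (nat_lit 672028889) (nat_lit 228) (nat_lit 13220494835) (nat_lit 76) (nat_lit 9410467483) (nat_lit 58) (nat_lit 5) (nat_lit 61) (nat_lit 5) (nat_lit 59) (nat_lit 5) (nat_lit 514) (nat_lit 388) (nat_lit 238)))) (XT.nd (nat_lit 156) (nat_lit 152) (nat_lit 0) (XT.nd (nat_lit 78) (nat_lit 228) (nat_lit 0) (XT.lf (nat_lit 0) (nat_lit 5083759943) (nat_lit 228) (nat_lit 3057080618) (nat_lit 76) (nat_lit 15504563887) (nat_lit 58) (nat_lit 5) (nat_lit 61) (nat_lit 5) (nat_lit 59) (nat_lit 5) (nat_lit 515) (nat_lit 388) (nat_lit 237)) (XT.lf (nat_lit 0) (nat_lit 7387725927) (nat_lit 228) (nat_lit 2232854731) (nat_lit 304) (nat_lit 14373351180) (nat_lit 55) (nat_lit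 5) (nat_lit 58) (nat_lit 5) (nat_lit 59) (nat_lit 5) (nat_lit 516) (nat_lit 388) (nat_lit 236))) (XT.nd (nat_lit 78) (nat_lit 152) (nat_lit 0) (XT.lf (nat_lit 0) (nat_lit 14282353127) (nat_lit 304) (nat_lit 6309733282) (nat_lit 76) (nat_lit 3756661988) (nat_lit 55) (nat_lit 5) (nat_lit 59) (nat_lit 5) (nat_lit 56) (nat_lit 5) (nat_lit 517) (nat_lit 388) (nat_lit 235)) (XT.lf (nat_lit 0) (nat_lit 4214709815) (nat_lit 152) (nat_lit 14853956275) (nat_lit 228) (nat_lit 5641371966) (nat_lit 53) (nat_lit 5) (nat_lit 55) (nat_lit 5) (nat_lit 56) (nat_lit 5) (nat_lit 518) (nat_lit 388) (nat_lit 234)))))) (XT.nd (nat_lit 546) (nat_lit 0) (nat_lit 0) (XT.nd (nat_lit 234) (nat_lit 456) (nat_lit 0) (XT.nd (nat_lit 78) (nat_lit 304) (nat_lit 0) (XT.lf (nat_lit 0) (nat_lit 15016844698) (nat_lit 152) (nat_lit 8965449172) (nat_lit 228) (nat_lit 1095630682) (nat_lit 53) (nat_lit 5) (nat_lit 55) (nat_lit 5) (nat_lit 56) (nat_lit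 5) (nat_lit 519) (nat_lit 388) (nat_lit 233)) (XT.nd (nat_lit 78) (nat_lit 0) (nat_lit 0) (XT.lf (nat_lit 0) (nat_lit 547937528) (nat_lit 228) (nat_lit 2939589519) (nat_lit 304) (nat_lit 21965325765) (nat_lit 49) (nat_lit 5) (nat_lit 52) (nat_lit 5) (nat_lit 53) (nat_lit 5) (nat_lit 520) (nat_lit 388) (nat_lit 232)) (XT.lf (nat_lit 0) (nat_lit 8225902055) (nat_lit 304) (nat_lit 14375094090) (nat_lit 76) (nat_lit 3232576809) (nat_lit 49) (nat_lit 5) (nat_lit 53) (nat_lit 5) (nat_lit 50) (nat_lit 5) (nat_lit 521) (nat_lit 388) (nat_lit 231)))) (XT.nd (nat_lit 156) (nat_lit 304) (nat_lit 0) (XT.nd (nat_lit 78) (nat_lit 152) (nat_lit 0) (XT.lf (nat_lit 0) (nat_lit 13068147387) (nat_lit 304) (nat_lit 3671944989) (nat_lit 76) (nat_lit 9481635666) (nat_lit 49) (nat_lit 5) (nat_lit 53) (nat_lit 5) (nat_lit 50) (nat_lit 5) (nat_lit 522) (nat_lit 388) (nat_lit 230)) (XT.lf (nat_lit 0) (nat_lit 7323868956) (nat_lit 152) (nat_lit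 10720758659) (nat_lit 228) (nat_lit 8572273366) (nat_lit 47) (nat_lit 5) (nat_lit 49) (nat_lit 5) (nat_lit 50) (nat_lit 5) (nat_lit 523) (nat_lit 388) (nat_lit 229))) (XT.nd (nat_lit 78) (nat_lit 304) (nat_lit 0) (XT.lf (nat_lit 0) (nat_lit 18572036181) (nat_lit 152) (nat_lit 4563167203) (nat_lit 228) (nat_lit 3884485175) (nat_lit 47) (nat_lit 5) (nat_lit 49) (nat_lit 5) (nat_lit 50) (nat_lit 5) (nat_lit 524) (nat_lit 388) (nat_lit 228)) (XT.lf (nat_lit 0) (nat_lit 903655649) (nat_lit 304) (nat_lit 24815411358) (nat_lit 76) (nat_lit 1710983556) (nat_lit 43) (nat_lit 5) (nat_lit 47) (nat_lit 5) (nat_lit 44) (nat_lit 5) (nat_lit 525) (nat_lit 388) (nat_lit 227))))) (XT.nd (nat_lit 48828) (nat_lit 0) (nat_lit 42408) (XT.nd (nat_lit 48672) (nat_lit 0) (nat_lit 43776) (XT.nd (nat_lit 78) (nat_lit 0) (nat_lit 0) (XT.lf (nat_lit 0) (nat_lit 5812970907) (nat_lit 304) (nat_lit 13908291588) (nat_lit 76) (nat_lit 8125297642)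 (nat_lit 43) (nat_lit 5) (nat_lit 47) (nat_lit 5) (nat_lit 44) (nat_lit 5) (nat_lit 526) (nat_lit 388) (nat_lit 226)) (XT.lf (nat_lit 0) (nat_lit 10810759716) (nat_lit 304) (nat_lit 2799864893) (nat_lit 76) (nat_lit 14660971857) (nat_lit 43) (nat_lit 5) (nat_lit 47) (nat_lit 5) (nat_lit 44) (nat_lit 5) (nat_lit 527) (nat_lit 388) (nat_lit 225))) (XT.nd (nat_lit 78) (nat_lit 0) (nat_lit 0) (XT.lf (nat_lit 0) (nat_lit 1123546832) (nat_lit 684) (nat_lit 1088330697) (nat_lit 684) (nat_lit 1088330697) (nat_lit 619) (nat_lit 3) (nat_lit 628) (nat_lit 3) (nat_lit 628) (nat_lit 5) (nat_lit 389) (nat_lit 389) (nat_lit 362)) (XT.lf (nat_lit 76) (nat_lit 923642583) (nat_lit 0) (nat_lit 3615513192) (nat_lit 684) (nat_lit 2079470185) (nat_lit 620) (nat_lit 5) (nat_lit 619) (nat_lit 3) (nat_lit 628) (nat_lit 5) (nat_lit 390) (nat_lit 389) (nat_lit 361)))) (XT.nd (nat_lit 156) (nat_lit 684) (nat_lit 0) (XT.nd (nat_lit 78) (nat_lit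 0) (nat_lit 0) (XT.lf (nat_lit 0) (nat_lit 191385897) (nat_lit 684) (nat_lit 2554678845) (nat_lit 760) (nat_lit 3892072114) (nat_lit 610) (nat_lit 5) (nat_lit 619) (nat_lit 3) (nat_lit 620) (nat_lit 5) (nat_lit 391) (nat_lit 389) (nat_lit 360)) (XT.lf (nat_lit 76) (nat_lit 611727364) (nat_lit 0) (nat_lit 1813231427) (nat_lit 760) (nat_lit 4233961976) (nat_lit 611) (nat_lit 5) (nat_lit 610) (nat_lit 5) (nat_lit 620) (nat_lit 5) (nat_lit 392) (nat_lit 389) (nat_lit 359))) (XT.nd (nat_lit 78) (nat_lit 684) (nat_lit 0) (XT.lf (nat_lit 76) (nat_lit 3845338700) (nat_lit 0) (nat_lit 817108049) (nat_lit 760) (nat_lit 2018548129) (nat_lit 611) (nat_lit 5) (nat_lit 610) (nat_lit 5) (nat_lit 620) (nat_lit 5) (nat_lit 393) (nat_lit 389) (nat_lit 358)) (XT.lf (nat_lit 0) (nat_lit 184984735) (nat_lit 760) (nat_lit 6293120764) (nat_lit 836) (nat_lit 226491264) (nat_lit 601) (nat_lit 5) (nat_lit 611) (nat_lit 5) (nat_lit 612)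 (nat_lit 5) (nat_lit 394) (nat_lit 389) (nat_lit 357))))))))
noncomputable def xc124 : XT := (XT.nd (nat_lit 2184) (nat_lit 15504) (nat_lit 0) (XT.nd (nat_lit 1092) (nat_lit 9196) (nat_lit 0) (XT.nd (nat_lit 546) (nat_lit 1976) (nat_lit 0) (XT.nd (nat_lit 234) (nat_lit 1672) (nat_lit 0) (XT.nd (nat_lit 78) (nat_lit 0) (nat_lit 0) (XT.lf (nat_lit 0) (nat_lit 2374040942) (nat_lit 760) (nat_lit 3017316398) (nat_lit 836) (nat_lit 1337732839) (nat_lit 601) (nat_lit 5) (nat_lit 611) (nat_lit 5) (nat_lit 612) (nat_lit 5) (nat_lit 395) (nat_lit 389) (nat_lit 356)) (XT.nd (nat_lit 78) (nat_lit 0) (nat_lit 0) (XT.lf (nat_lit 76) (nat_lit 296411173) (nat_lit 0) (nat_lit 4257381503) (nat_lit 836) (nat_lit 2201397368) (nat_lit 602) (nat_lit 5) (nat_lit 601) (nat_lit 5) (nat_lit 612) (nat_lit 5) (nat_lit 396) (nat_lit 389) (nat_lit 355)) (XT.lf (nat_lit 76) (nat_lit 3686040554) (nat_lit 0) (nat_lit 3057212161) (nat_lit 836)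 (nat_lit 39290720) (nat_lit 602) (nat_lit 5) (nat_lit 601) (nat_lit 5) (nat_lit 612) (nat_lit 5) (nat_lit 397) (nat_lit 389) (nat_lit 354)))) (XT.nd (nat_lit 156) (nat_lit 836) (nat_lit 0) (XT.nd (nat_lit 78) (nat_lit 0) (nat_lit 0) (XT.lf (nat_lit 76) (nat_lit 291353861) (nat_lit 0) (nat_lit 1794711046) (nat_lit 912) (nat_lit 4725181119) (nat_lit 591) (nat_lit 5) (nat_lit 590) (nat_lit 5) (nat_lit 602) (nat_lit 5) (nat_lit 398) (nat_lit 389) (nat_lit 353)) (XT.lf (nat_lit 76) (nat_lit 3757462278) (nat_lit 0) (nat_lit 464086524) (nat_lit 912) (nat_lit 2619656419) (nat_lit 591) (nat_lit 5) (nat_lit 590) (nat_lit 5) (nat_lit 602) (nat_lit 5) (nat_lit 399) (nat_lit 389) (nat_lit 352))) (XT.nd (nat_lit 78) (nat_lit 912) (nat_lit 0) (XT.lf (nat_lit 76) (nat_lit 388605342) (nat_lit 0) (nat_lit 5967996642) (nat_lit 912) (nat_lit 516074119) (nat_lit 592) (nat_lit 5) (nat_lit 591) (nat_lit 5) (nat_lit 603) (nat_lit 5) (nat_lit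 400) (nat_lit 389) (nat_lit 351)) (XT.lf (nat_lit 0) (nat_lit 1581069444) (nat_lit 912) (nat_lit 2978290131) (nat_lit 988) (nat_lit 2345795751) (nat_lit 579) (nat_lit 5) (nat_lit 591) (nat_lit 5) (nat_lit 592) (nat_lit 5) (nat_lit 401) (nat_lit 389) (nat_lit 350))))) (XT.nd (nat_lit 234) (nat_lit 1064) (nat_lit 0) (XT.nd (nat_lit 78) (nat_lit 912) (nat_lit 0) (XT.lf (nat_lit 76) (nat_lit 569959245) (nat_lit 0) (nat_lit 3096952092) (nat_lit 988) (nat_lit 3272278090) (nat_lit 580) (nat_lit 5) (nat_lit 579) (nat_lit 5) (nat_lit 592) (nat_lit 5) (nat_lit 402) (nat_lit 389) (nat_lit 349)) (XT.nd (nat_lit 78) (nat_lit 912) (nat_lit 0) (XT.lf (nat_lit 76) (nat_lit 4198049419) (nat_lit 0) (nat_lit 1567141928) (nat_lit 988) (nat_lit 1209344346) (nat_lit 580) (nat_lit 5) (nat_lit 579) (nat_lit 5) (nat_lit 592) (nat_lit 5) (nat_lit 403) (nat_lit 389) (nat_lit 348)) (XT.lf (nat_lit 0) (nat_lit 840188786) (nat_lit 988) (nat_lit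 6149481534) (nat_lit 1064) (nat_lit 21704960) (nat_lit 567) (nat_lit 5) (nat_lit 580) (nat_lit 5) (nat_lit 581) (nat_lit 5) (nat_lit 404) (nat_lit 389) (nat_lit 347)))) (XT.nd (nat_lit 156) (nat_lit 1064) (nat_lit 0) (XT.nd (nat_lit 78) (nat_lit 0) (nat_lit 0) (XT.lf (nat_lit 0) (nat_lit 2895863191) (nat_lit 988) (nat_lit 2488882617) (nat_lit 1064) (nat_lit 1664462365) (nat_lit 567) (nat_lit 5) (nat_lit 580) (nat_lit 5) (nat_lit 581) (nat_lit 5) (nat_lit 405) (nat_lit 389) (nat_lit 346)) (XT.lf (nat_lit 76) (nat_lit 1229216091) (nat_lit 0) (nat_lit 3724548327) (nat_lit 1064) (nat_lit 2134853454) (nat_lit 568) (nat_lit 5) (nat_lit 567) (nat_lit 5) (nat_lit 581) (nat_lit 5) (nat_lit 406) (nat_lit 389) (nat_lit 345))) (XT.nd (nat_lit 78) (nat_lit 1064) (nat_lit 0) (XT.lf (nat_lit 76) (nat_lit 5023790089) (nat_lit 0) (nat_lit 1999581389) (nat_lit 1064) (nat_lit 106074915) (nat_lit 568) (nat_lit 5) (nat_lit 567) (nat_lit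 5) (nat_lit 581) (nat_lit 5) (nat_lit 407) (nat_lit 389) (nat_lit 344)) (XT.lf (nat_lit 76) (nat_lit 1701077219) (nat_lit 0) (nat_lit 201908913) (nat_lit 1140) (nat_lit 5268581269) (nat_lit 554) (nat_lit 5) (nat_lit 553) (nat_lit 5) (nat_lit 568) (nat_lit 5) (nat_lit 408) (nat_lit 389) (nat_lit 343)))))) (XT.nd (nat_lit 546) (nat_lit 4408) (nat_lit 0) (XT.nd (nat_lit 234) (nat_lit 3724) (nat_lit 0) (XT.nd (nat_lit 78) (nat_lit 1140) (nat_lit 0) (XT.lf (nat_lit 0) (nat_lit 3930815527) (nat_lit 1064) (nat_lit 1645616539) (nat_lit 76) (nat_lit 1638523777) (nat_lit 554) (nat_lit 5) (nat_lit 568) (nat_lit 5) (nat_lit 555) (nat_lit 5) (nat_lit 409) (nat_lit 389) (nat_lit 342)) (XT.nd (nat_lit 78) (nat_lit 76) (nat_lit 0) (XT.lf (nat_lit 0) (nat_lit 2252124843) (nat_lit 1064) (nat_lit 3719103069) (nat_lit 1140) (nat_lit 1288582030) (nat_lit 540) (nat_lit 5) (nat_lit 554) (nat_lit 5) (nat_lit 555) (nat_lit 5) (nat_lit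 410) (nat_lit 389) (nat_lit 341)) (XT.lf (nat_lit 0) (nat_lit 704607277) (nat_lit 1140) (nat_lit 1092371425) (nat_lit 76) (nat_lit 5509172053) (nat_lit 539) (nat_lit 5) (nat_lit 554) (nat_lit 5) (nat_lit 540) (nat_lit 5) (nat_lit 411) (nat_lit 389) (nat_lit 340)))) (XT.nd (nat_lit 156) (nat_lit 2584) (nat_lit 0) (XT.nd (nat_lit 78) (nat_lit 0) (nat_lit 0) (XT.lf (nat_lit 0) (nat_lit 2697815357) (nat_lit 1216) (nat_lit 4455944949) (nat_lit 76) (nat_lit 199975746) (nat_lit 524) (nat_lit 5) (nat_lit 540) (nat_lit 5) (nat_lit 525) (nat_lit 5) (nat_lit 412) (nat_lit 389) (nat_lit 339)) (XT.lf (nat_lit 0) (nat_lit 4708125174) (nat_lit 1216) (nat_lit 463855082) (nat_lit 76) (nat_lit 2230783539) (nat_lit 524) (nat_lit 5) (nat_lit 540) (nat_lit 5) (nat_lit 525) (nat_lit 5) (nat_lit 413) (nat_lit 389) (nat_lit 338))) (XT.nd (nat_lit 78) (nat_lit 1368) (nat_lit 0) (XT.lf (nat_lit 0) (nat_lit 3623894973) (nat_lit 1216) (nat_lit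 3117057415) (nat_lit 1292) (nat_lit 712208278) (nat_lit 508) (nat_lit 5) (nat_lit 524) (nat_lit 5) (nat_lit 525) (nat_lit 5) (nat_lit 414) (nat_lit 389) (nat_lit 337)) (XT.lf (nat_lit 0) (nat_lit 257964345) (nat_lit 1292) (nat_lit 998618839) (nat_lit 1368) (nat_lit 6248567807) (nat_lit 490) (nat_lit 5) (nat_lit 507) (nat_lit 5) (nat_lit 508) (nat_lit 5) (nat_lit 415) (nat_lit 389) (nat_lit 336))))) (XT.nd (nat_lit 234) (nat_lit 3040) (nat_lit 0) (XT.nd (nat_lit 78) (nat_lit 1368) (nat_lit 0) (XT.lf (nat_lit 0) (nat_lit 3248368955) (nat_lit 1368) (nat_lit 3124015280) (nat_lit 76) (nat_lit 1185872425) (nat_lit 490) (nat_lit 5) (nat_lit 508) (nat_lit 5) (nat_lit 491) (nat_lit 5) (nat_lit 416) (nat_lit 389) (nat_lit 335)) (XT.nd (nat_lit 78) (nat_lit 0) (nat_lit 0) (XT.lf (nat_lit 0) (nat_lit 1056746657) (nat_lit 1368) (nat_lit 4197241557) (nat_lit 1444) (nat_lit 2358988418) (nat_lit 472) (nat_lit 5) (nat_lit 490)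 (nat_lit 5) (nat_lit 491) (nat_lit 5) (nat_lit 417) (nat_lit 389) (nat_lit 334)) (XT.lf (nat_lit 0) (nat_lit 5331563082) (nat_lit 1368) (nat_lit 1950210756) (nat_lit 1444) (nat_lit 387407602) (nat_lit 472) (nat_lit 5) (nat_lit 490) (nat_lit 5) (nat_lit 491) (nat_lit 5) (nat_lit 418) (nat_lit 389) (nat_lit 333)))) (XT.nd (nat_lit 156) (nat_lit 1520) (nat_lit 0) (XT.nd (nat_lit 78) (nat_lit 0) (nat_lit 0) (XT.lf (nat_lit 0) (nat_lit 1578947721) (nat_lit 1520) (nat_lit 5780704131) (nat_lit 76) (nat_lit 367145217) (nat_lit 452) (nat_lit 5) (nat_lit 472) (nat_lit 5) (nat_lit 453) (nat_lit 5) (nat_lit 419) (nat_lit 389) (nat_lit 332)) (XT.lf (nat_lit 0) (nat_lit 3570312427) (nat_lit 1520) (nat_lit 1486112221) (nat_lit 76) (nat_lit 2729301452) (nat_lit 452) (nat_lit 5) (nat_lit 472) (nat_lit 5) (nat_lit 453) (nat_lit 5) (nat_lit 420) (nat_lit 389) (nat_lit 331))) (XT.nd (nat_lit 78) (nat_lit 0) (nat_lit 0) (XT.lf (nat_lit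 0) (nat_lit 2900607998) (nat_lit 1520) (nat_lit 2682630060) (nat_lit 1596) (nat_lit 2262990096) (nat_lit 432) (nat_lit 5) (nat_lit 452) (nat_lit 5) (nat_lit 453) (nat_lit 5) (nat_lit 421) (nat_lit 389) (nat_lit 330)) (XT.lf (nat_lit 0) (nat_lit 7363610988) (nat_lit 1520) (nat_lit 246207056) (nat_lit 1596) (nat_lit 298682833) (nat_lit 432) (nat_lit 5) (nat_lit 452) (nat_lit 5) (nat_lit 453) (nat_lit 5) (nat_lit 422) (nat_lit 389) (nat_lit 329))))))) (XT.nd (nat_lit 1092) (nat_lit 6308) (nat_lit 0) (XT.nd (nat_lit 546) (nat_lit 3496) (nat_lit 0) (XT.nd (nat_lit 234) (nat_lit 2356) (nat_lit 0) (XT.nd (nat_lit 78) (nat_lit 1672) (nat_lit 0) (XT.lf (nat_lit 0) (nat_lit 1686902286) (nat_lit 1672) (nat_lit 4033696836) (nat_lit 76) (nat_lit 2251138943) (nat_lit 410) (nat_lit 5) (nat_lit 432) (nat_lit 5) (nat_lit 411) (nat_lit 5) (nat_lit 423) (nat_lit 389) (nat_lit 328)) (XT.nd (nat_lit 78) (nat_lit 0) (nat_lit 0) (XT.lf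 (nat_lit 0) (nat_lit 452102274) (nat_lit 1672) (nat_lit 3228756569) (nat_lit 1748) (nat_lit 4355915383) (nat_lit 388) (nat_lit 5) (nat_lit 410) (nat_lit 5) (nat_lit 411) (nat_lit 5) (nat_lit 424) (nat_lit 389) (nat_lit 327)) (XT.lf (nat_lit 0) (nat_lit 5050461406) (nat_lit 1672) (nat_lit 656201322) (nat_lit 1748) (nat_lit 2396635387) (nat_lit 388) (nat_lit 5) (nat_lit 410) (nat_lit 5) (nat_lit 411) (nat_lit 5) (nat_lit 425) (nat_lit 389) (nat_lit 326)))) (XT.nd (nat_lit 156) (nat_lit 836) (nat_lit 0) (XT.nd (nat_lit 78) (nat_lit 76) (nat_lit 0) (XT.lf (nat_lit 0) (nat_lit 1545179780) (nat_lit 1444) (nat_lit 6216220535) (nat_lit 1520) (nat_lit 410009670) (nat_lit 369) (nat_lit 5) (nat_lit 388) (nat_lit 5) (nat_lit 389) (nat_lit 5) (nat_lit 426) (nat_lit 389) (nat_lit 325)) (XT.lf (nat_lit 0) (nat_lit 1585944994) (nat_lit 1520) (nat_lit 2011124837) (nat_lit 76) (nat_lit 4643813321) (nat_lit 368) (nat_lit 5) (nat_lit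 388) (nat_lit 5) (nat_lit 369) (nat_lit 5) (nat_lit 427) (nat_lit 389) (nat_lit 324))) (XT.nd (nat_lit 78) (nat_lit 0) (nat_lit 0) (XT.lf (nat_lit 0) (nat_lit 2697362072) (nat_lit 836) (nat_lit 902982514) (nat_lit 912) (nat_lit 4711691037) (nat_lit 357) (nat_lit 5) (nat_lit 368) (nat_lit 5) (nat_lit 369) (nat_lit 5) (nat_lit 428) (nat_lit 389) (nat_lit 323)) (XT.lf (nat_lit 0) (nat_lit 5647557881) (nat_lit 912) (nat_lit 901199064) (nat_lit 76) (nat_lit 1836027569) (nat_lit 357) (nat_lit 5) (nat_lit 369) (nat_lit 5) (nat_lit 358) (nat_lit 5) (nat_lit 429) (nat_lit 389) (nat_lit 322))))) (XT.nd (nat_lit 234) (nat_lit 1672) (nat_lit 0) (XT.nd (nat_lit 78) (nat_lit 912) (nat_lit 0) (XT.lf (nat_lit 0) (nat_lit 3920542706) (nat_lit 912) (nat_lit 3814217077) (nat_lit 988) (nat_lit 724271129) (nat_lit 345) (nat_lit 5) (nat_lit 357) (nat_lit 5) (nat_lit 358) (nat_lit 5) (nat_lit 430) (nat_lit 389) (nat_lit 321)) (XT.nd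 (nat_lit 78) (nat_lit 0) (nat_lit 0) (XT.lf (nat_lit 0) (nat_lit 279608402) (nat_lit 836) (nat_lit 1007616299) (nat_lit 912) (nat_lit 7247873265) (nat_lit 333) (nat_lit 5) (nat_lit 344) (nat_lit 5) (nat_lit 345) (nat_lit 5) (nat_lit 431) (nat_lit 389) (nat_lit 320)) (XT.lf (nat_lit 0) (nat_lit 3340199830) (nat_lit 912) (nat_lit 3405667842) (nat_lit 76) (nat_lit 1866526060) (nat_lit 333) (nat_lit 5) (nat_lit 345) (nat_lit 5) (nat_lit 334) (nat_lit 5) (nat_lit 432) (nat_lit 389) (nat_lit 319)))) (XT.nd (nat_lit 156) (nat_lit 836) (nat_lit 0) (XT.nd (nat_lit 78) (nat_lit 0) (nat_lit 0) (XT.lf (nat_lit 0) (nat_lit 1522946068) (nat_lit 836) (nat_lit 3896708460) (nat_lit 912) (nat_lit 3271894116) (nat_lit 322) (nat_lit 5) (nat_lit 333) (nat_lit 5) (nat_lit 334) (nat_lit 5) (nat_lit 433) (nat_lit 389) (nat_lit 318)) (XT.lf (nat_lit 0) (nat_lit 6564999250) (nat_lit 836) (nat_lit 967819432) (nat_lit 912) (nat_lit 1239646775)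 (nat_lit 322) (nat_lit 5) (nat_lit 333) (nat_lit 5) (nat_lit 334) (nat_lit 5) (nat_lit 434) (nat_lit 389) (nat_lit 317))) (XT.nd (nat_lit 78) (nat_lit 0) (nat_lit 0) (XT.lf (nat_lit 0) (nat_lit 823761734) (nat_lit 836) (nat_lit 6014612481) (nat_lit 76) (nat_lit 2016509690) (nat_lit 311) (nat_lit 5) (nat_lit 322) (nat_lit 5) (nat_lit 312) (nat_lit 5) (nat_lit 435) (nat_lit 389) (nat_lit 316)) (XT.lf (nat_lit 0) (nat_lit 2903213238) (nat_lit 836) (nat_lit 966001039) (nat_lit 76) (nat_lit 5069765074) (nat_lit 311) (nat_lit 5) (nat_lit 322) (nat_lit 5) (nat_lit 312) (nat_lit 5) (nat_lit 436) (nat_lit 389) (nat_lit 315)))))) (XT.nd (nat_lit 546) (nat_lit 3344) (nat_lit 0) (XT.nd (nat_lit 234) (nat_lit 1444) (nat_lit 0) (XT.nd (nat_lit 78) (nat_lit 760) (nat_lit 0) (XT.lf (nat_lit 0) (nat_lit 4207871491) (nat_lit 760) (nat_lit 814327492) (nat_lit 836) (nat_lit 4002618412) (nat_lit 301) (nat_lit 5) (nat_lit 311) (nat_lit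 5) (nat_lit 312) (nat_lit 5) (nat_lit 437) (nat_lit 389) (nat_lit 314)) (XT.nd (nat_lit 78) (nat_lit 76) (nat_lit 0) (XT.lf (nat_lit 0) (nat_lit 344319293) (nat_lit 684) (nat_lit 6833940484) (nat_lit 760) (nat_lit 1934237727) (nat_lit 292) (nat_lit 5) (nat_lit 301) (nat_lit 5) (nat_lit 302) (nat_lit 5) (nat_lit 438) (nat_lit 389) (nat_lit 313)) (XT.lf (nat_lit 0) (nat_lit 182289288) (nat_lit 760) (nat_lit 3565405543) (nat_lit 76) (nat_lit 5454050445) (nat_lit 291) (nat_lit 5) (nat_lit 301) (nat_lit 5) (nat_lit 292) (nat_lit 5) (nat_lit 439) (nat_lit 389) (nat_lit 312)))) (XT.nd (nat_lit 156) (nat_lit 684) (nat_lit 0) (XT.nd (nat_lit 78) (nat_lit 0) (nat_lit 0) (XT.lf (nat_lit 0) (nat_lit 1720313431) (nat_lit 760) (nat_lit 577842656) (nat_lit 836) (nat_lit 6994726138) (nat_lit 281) (nat_lit 5) (nat_lit 291) (nat_lit 5) (nat_lit 292) (nat_lit 5) (nat_lit 440) (nat_lit 389) (nat_lit 311)) (XT.lf (nat_lit 0) (nat_lit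 4469717971) (nat_lit 836) (nat_lit 2273903132) (nat_lit 76) (nat_lit 2641971003) (nat_lit 281) (nat_lit 5) (nat_lit 292) (nat_lit 5) (nat_lit 282) (nat_lit 5) (nat_lit 441) (nat_lit 389) (nat_lit 310))) (XT.nd (nat_lit 78) (nat_lit 0) (nat_lit 0) (XT.lf (nat_lit 0) (nat_lit 3137452004) (nat_lit 684) (nat_lit 3544057151) (nat_lit 760) (nat_lit 2798728467) (nat_lit 272) (nat_lit 5) (nat_lit 281) (nat_lit 5) (nat_lit 282) (nat_lit 5) (nat_lit 442) (nat_lit 389) (nat_lit 309)) (XT.lf (nat_lit 0) (nat_lit 8657453636) (nat_lit 684) (nat_lit 268282320) (nat_lit 760) (nat_lit 651293153) (nat_lit 272) (nat_lit 5) (nat_lit 281) (nat_lit 5) (nat_lit 282) (nat_lit 5) (nat_lit 443) (nat_lit 389) (nat_lit 308))))) (XT.nd (nat_lit 312) (nat_lit 1292) (nat_lit 0) (XT.nd (nat_lit 156) (nat_lit 684) (nat_lit 0) (XT.nd (nat_lit 78) (nat_lit 608) (nat_lit 0) (XT.lf (nat_lit 0) (nat_lit 1542457895) (nat_lit 760) (nat_lit 5063015473)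 (nat_lit 76) (nat_lit 3069628548) (nat_lit 262) (nat_lit 5) (nat_lit 272) (nat_lit 5) (nat_lit 263) (nat_lit 5) (nat_lit 444) (nat_lit 389) (nat_lit 307)) (XT.lf (nat_lit 0) (nat_lit 461251182) (nat_lit 608) (nat_lit 3294688344) (nat_lit 684) (nat_lit 6019435097) (nat_lit 254) (nat_lit 5) (nat_lit 262) (nat_lit 5) (nat_lit 263) (nat_lit 5) (nat_lit 445) (nat_lit 389) (nat_lit 306))) (XT.nd (nat_lit 78) (nat_lit 684) (nat_lit 0) (XT.lf (nat_lit 0) (nat_lit 6022304685) (nat_lit 684) (nat_lit 3743910043) (nat_lit 76) (nat_lit 111281537) (nat_lit 254) (nat_lit 5) (nat_lit 263) (nat_lit 5) (nat_lit 255) (nat_lit 5) (nat_lit 446) (nat_lit 389) (nat_lit 305)) (XT.lf (nat_lit 0) (nat_lit 1910741332) (nat_lit 684) (nat_lit 6431871885) (nat_lit 760) (nat_lit 1638890253) (nat_lit 245) (nat_lit 5) (nat_lit 254) (nat_lit 5) (nat_lit 255) (nat_lit 5) (nat_lit 447) (nat_lit 389) (nat_lit 304)))) (XT.nd (nat_lit 156) (nat_lit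 608) (nat_lit 0) (XT.nd (nat_lit 78) (nat_lit 608) (nat_lit 0) (XT.lf (nat_lit 0) (nat_lit 613388832) (nat_lit 760) (nat_lit 2392417703) (nat_lit 76) (nat_lit 7081722279) (nat_lit 244) (nat_lit 5) (nat_lit 254) (nat_lit 5) (nat_lit 245) (nat_lit 5) (nat_lit 448) (nat_lit 389) (nat_lit 303)) (XT.lf (nat_lit 0) (nat_lit 2889263407) (nat_lit 684) (nat_lit 6795379177) (nat_lit 76) (nat_lit 510820086) (nat_lit 236) (nat_lit 5) (nat_lit 245) (nat_lit 5) (nat_lit 237) (nat_lit 5) (nat_lit 449) (nat_lit 389) (nat_lit 302))) (XT.nd (nat_lit 78) (nat_lit 608) (nat_lit 0) (XT.lf (nat_lit 0) (nat_lit 5222003991) (nat_lit 684) (nat_lit 1014428676) (nat_lit 76) (nat_lit 4068909838) (nat_lit 236) (nat_lit 5) (nat_lit 245) (nat_lit 5) (nat_lit 237) (nat_lit 5) (nat_lit 450) (nat_lit 389) (nat_lit 301)) (XT.lf (nat_lit 0) (nat_lit 4917172791) (nat_lit 608) (nat_lit 2691918624) (nat_lit 684) (nat_lit 2808188674) (nat_lit 228) (nat_lit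 5) (nat_lit 236) (nat_lit 5) (nat_lit 237) (nat_lit 5) (nat_lit 451) (nat_lit 389) (nat_lit 300))))))))
noncomputable def xc125 : XT := (XT.nd (nat_lit 2184) (nat_lit 4712) (nat_lit 0) (XT.nd (nat_lit 1092) (nat_lit 3116) (nat_lit 0) (XT.nd (nat_lit 546) (nat_lit 1976) (nat_lit 0) (XT.nd (nat_lit 234) (nat_lit 1140) (nat_lit 0) (XT.nd (nat_lit 78) (nat_lit 684) (nat_lit 0) (XT.lf (nat_lit 0) (nat_lit 419576694) (nat_lit 532) (nat_lit 9615933515) (nat_lit 608) (nat_lit 496128142) (nat_lit 221) (nat_lit 5) (nat_lit 228) (nat_lit 5) (nat_lit 229) (nat_lit 5) (nat_lit 452) (nat_lit 389) (nat_lit 299)) (XT.nd (nat_lit 78) (nat_lit 608) (nat_lit 0) (XT.lf (nat_lit 0) (nat_lit 1868856603) (nat_lit 608) (nat_lit 4175354958) (nat_lit 76) (nat_lit 4603221480) (nat_lit 220) (nat_lit 5) (nat_lit 228) (nat_lit 5) (nat_lit 221) (nat_lit 5) (nat_lit 453) (nat_lit 389) (nat_lit 298)) (XT.lf (nat_lit 0) (nat_lit 1872081423) (nat_lit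 608) (nat_lit 2391171027) (nat_lit 684) (nat_lit 6502463423) (nat_lit 212) (nat_lit 5) (nat_lit 220) (nat_lit 5) (nat_lit 221) (nat_lit 5) (nat_lit 454) (nat_lit 389) (nat_lit 297)))) (XT.nd (nat_lit 156) (nat_lit 608) (nat_lit 0) (XT.nd (nat_lit 78) (nat_lit 532) (nat_lit 0) (XT.lf (nat_lit 0) (nat_lit 6719232975) (nat_lit 684) (nat_lit 2827107985) (nat_lit 76) (nat_lit 1339762140) (nat_lit 212) (nat_lit 5) (nat_lit 221) (nat_lit 5) (nat_lit 213) (nat_lit 5) (nat_lit 455) (nat_lit 389) (nat_lit 296)) (XT.lf (nat_lit 0) (nat_lit 3360044001) (nat_lit 532) (nat_lit 5879219845) (nat_lit 608) (nat_lit 1769348036) (nat_lit 205) (nat_lit 5) (nat_lit 212) (nat_lit 5) (nat_lit 213) (nat_lit 5) (nat_lit 456) (nat_lit 389) (nat_lit 295))) (XT.nd (nat_lit 78) (nat_lit 532) (nat_lit 0) (XT.lf (nat_lit 0) (nat_lit 663731636) (nat_lit 608) (nat_lit 1457504906) (nat_lit 76) (nat_lit 9012328951) (nat_lit 204) (nat_lit 5) (nat_lit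 212) (nat_lit 5) (nat_lit 205) (nat_lit 5) (nat_lit 457) (nat_lit 389) (nat_lit 294)) (XT.lf (nat_lit 0) (nat_lit 3142677933) (nat_lit 608) (nat_lit 6390776574) (nat_lit 76) (nat_lit 1726923539) (nat_lit 197) (nat_lit 5) (nat_lit 205) (nat_lit 5) (nat_lit 198) (nat_lit 5) (nat_lit 458) (nat_lit 389) (nat_lit 293))))) (XT.nd (nat_lit 234) (nat_lit 988) (nat_lit 0) (XT.nd (nat_lit 78) (nat_lit 988) (nat_lit 0) (XT.lf (nat_lit 0) (nat_lit 5673127405) (nat_lit 608) (nat_lit 89347746) (nat_lit 76) (nat_lit 5627224693) (nat_lit 197) (nat_lit 5) (nat_lit 205) (nat_lit 5) (nat_lit 198) (nat_lit 5) (nat_lit 459) (nat_lit 389) (nat_lit 292)) (XT.nd (nat_lit 78) (nat_lit 532) (nat_lit 0) (XT.lf (nat_lit 0) (nat_lit 6393818031) (nat_lit 456) (nat_lit 1880342437) (nat_lit 532) (nat_lit 3247059372) (nat_lit 191) (nat_lit 5) (nat_lit 197) (nat_lit 5) (nat_lit 198) (nat_lit 5) (nat_lit 460) (nat_lit 389) (nat_lit 291)) (XT.lf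 (nat_lit 0) (nat_lit 1328056453) (nat_lit 532) (nat_lit 9600544151) (nat_lit 608) (nat_lit 726752937) (nat_lit 184) (nat_lit 5) (nat_lit 191) (nat_lit 5) (nat_lit 192) (nat_lit 5) (nat_lit 461) (nat_lit 389) (nat_lit 290)))) (XT.nd (nat_lit 156) (nat_lit 456) (nat_lit 0) (XT.nd (nat_lit 78) (nat_lit 456) (nat_lit 0) (XT.lf (nat_lit 0) (nat_lit 1845608088) (nat_lit 608) (nat_lit 3862470033) (nat_lit 76) (nat_lit 6083346310) (nat_lit 183) (nat_lit 5) (nat_lit 191) (nat_lit 5) (nat_lit 184) (nat_lit 5) (nat_lit 462) (nat_lit 389) (nat_lit 289)) (XT.lf (nat_lit 0) (nat_lit 2734803405) (nat_lit 456) (nat_lit 1721808034) (nat_lit 532) (nat_lit 7473581092) (nat_lit 177) (nat_lit 5) (nat_lit 183) (nat_lit 5) (nat_lit 184) (nat_lit 5) (nat_lit 463) (nat_lit 389) (nat_lit 288))) (XT.nd (nat_lit 78) (nat_lit 456) (nat_lit 0) (XT.lf (nat_lit 0) (nat_lit 7140489264) (nat_lit 532) (nat_lit 2598327483) (nat_lit 76) (nat_lit 2332516353)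 (nat_lit 177) (nat_lit 5) (nat_lit 184) (nat_lit 5) (nat_lit 178) (nat_lit 5) (nat_lit 464) (nat_lit 389) (nat_lit 287)) (XT.lf (nat_lit 0) (nat_lit 4146103196) (nat_lit 456) (nat_lit 5750011960) (nat_lit 532) (nat_lit 2318829906) (nat_lit 171) (nat_lit 5) (nat_lit 177) (nat_lit 5) (nat_lit 178) (nat_lit 5) (nat_lit 465) (nat_lit 389) (nat_lit 286)))))) (XT.nd (nat_lit 546) (nat_lit 1216) (nat_lit 0) (XT.nd (nat_lit 234) (nat_lit 1368) (nat_lit 0) (XT.nd (nat_lit 78) (nat_lit 456) (nat_lit 0) (XT.lf (nat_lit 0) (nat_lit 338271256) (nat_lit 532) (nat_lit 1330438104) (nat_lit 76) (nat_lit 10692737109) (nat_lit 170) (nat_lit 5) (nat_lit 177) (nat_lit 5) (nat_lit 171) (nat_lit 5) (nat_lit 466) (nat_lit 389) (nat_lit 285)) (XT.nd (nat_lit 78) (nat_lit 0) (nat_lit 0) (XT.lf (nat_lit 0) (nat_lit 3050389507) (nat_lit 532) (nat_lit 6953367807) (nat_lit 76) (nat_lit 2506164976) (nat_lit 164) (nat_lit 5) (nat_lit 171) (nat_lit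 5) (nat_lit 165) (nat_lit 5) (nat_lit 467) (nat_lit 389) (nat_lit 284)) (XT.lf (nat_lit 0) (nat_lit 5817174714) (nat_lit 532) (nat_lit 100253226) (nat_lit 76) (nat_lit 6743940426) (nat_lit 164) (nat_lit 5) (nat_lit 171) (nat_lit 5) (nat_lit 165) (nat_lit 5) (nat_lit 468) (nat_lit 389) (nat_lit 283)))) (XT.nd (nat_lit 156) (nat_lit 532) (nat_lit 0) (XT.nd (nat_lit 78) (nat_lit 380) (nat_lit 0) (XT.lf (nat_lit 0) (nat_lit 6954391207) (nat_lit 456) (nat_lit 1710827989) (nat_lit 532) (nat_lit 4150114748) (nat_lit 158) (nat_lit 5) (nat_lit 164) (nat_lit 5) (nat_lit 165) (nat_lit 5) (nat_lit 469) (nat_lit 389) (nat_lit 282)) (XT.lf (nat_lit 0) (nat_lit 1150551890) (nat_lit 380) (nat_lit 10425497135) (nat_lit 456) (nat_lit 1396222193) (nat_lit 153) (nat_lit 5) (nat_lit 158) (nat_lit 5) (nat_lit 159) (nat_lit 5) (nat_lit 470) (nat_lit 389) (nat_lit 281))) (XT.nd (nat_lit 78) (nat_lit 456) (nat_lit 0) (XT.lf (nat_lit 0)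 (nat_lit 1426133764) (nat_lit 456) (nat_lit 4797589673) (nat_lit 76) (nat_lit 6907810600) (nat_lit 152) (nat_lit 5) (nat_lit 158) (nat_lit 5) (nat_lit 153) (nat_lit 5) (nat_lit 471) (nat_lit 389) (nat_lit 280)) (XT.lf (nat_lit 0) (nat_lit 2362298114) (nat_lit 456) (nat_lit 1920664605) (nat_lit 532) (nat_lit 9010908749) (nat_lit 146) (nat_lit 5) (nat_lit 152) (nat_lit 5) (nat_lit 153) (nat_lit 5) (nat_lit 472) (nat_lit 389) (nat_lit 279))))) (XT.nd (nat_lit 234) (nat_lit 836) (nat_lit 0) (XT.nd (nat_lit 78) (nat_lit 380) (nat_lit 0) (XT.lf (nat_lit 0) (nat_lit 7226872633) (nat_lit 532) (nat_lit 3771247446) (nat_lit 76) (nat_lit 2460744879) (nat_lit 146) (nat_lit 5) (nat_lit 153) (nat_lit 5) (nat_lit 147) (nat_lit 5) (nat_lit 473) (nat_lit 389) (nat_lit 278)) (XT.nd (nat_lit 78) (nat_lit 0) (nat_lit 0) (XT.lf (nat_lit 0) (nat_lit 3539901721) (nat_lit 380) (nat_lit 6707334565) (nat_lit 456) (nat_lit 3379578558) (nat_lit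 141) (nat_lit 5) (nat_lit 146) (nat_lit 5) (nat_lit 147) (nat_lit 5) (nat_lit 474) (nat_lit 389) (nat_lit 277)) (XT.lf (nat_lit 0) (nat_lit 11022475695) (nat_lit 380) (nat_lit 2312898253) (nat_lit 456) (nat_lit 462610325) (nat_lit 141) (nat_lit 5) (nat_lit 146) (nat_lit 5) (nat_lit 147) (nat_lit 5) (nat_lit 475) (nat_lit 389) (nat_lit 276)))) (XT.nd (nat_lit 156) (nat_lit 380) (nat_lit 0) (XT.nd (nat_lit 78) (nat_lit 0) (nat_lit 0) (XT.lf (nat_lit 0) (nat_lit 2506901500) (nat_lit 456) (nat_lit 9284524089) (nat_lit 76) (nat_lit 2180289620) (nat_lit 135) (nat_lit 5) (nat_lit 141) (nat_lit 5) (nat_lit 136) (nat_lit 5) (nat_lit 476) (nat_lit 389) (nat_lit 275)) (XT.lf (nat_lit 0) (nat_lit 5546098227) (nat_lit 456) (nat_lit 1856075715) (nat_lit 76) (nat_lit 6746363308) (nat_lit 135) (nat_lit 5) (nat_lit 141) (nat_lit 5) (nat_lit 136) (nat_lit 5) (nat_lit 477) (nat_lit 389) (nat_lit 274))) (XT.nd (nat_lit 78) (nat_lit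 0) (nat_lit 0) (XT.lf (nat_lit 0) (nat_lit 5771348785) (nat_lit 380) (nat_lit 2894963834) (nat_lit 456) (nat_lit 5662185719) (nat_lit 130) (nat_lit 5) (nat_lit 135) (nat_lit 5) (nat_lit 136) (nat_lit 5) (nat_lit 478) (nat_lit 389) (nat_lit 273)) (XT.lf (nat_lit 0) (nat_lit 11855406984) (nat_lit 456) (nat_lit 971878562) (nat_lit 76) (nat_lit 1684650724) (nat_lit 130) (nat_lit 5) (nat_lit 136) (nat_lit 5) (nat_lit 131) (nat_lit 5) (nat_lit 479) (nat_lit 389) (nat_lit 272))))))) (XT.nd (nat_lit 1092) (nat_lit 1976) (nat_lit 0) (XT.nd (nat_lit 546) (nat_lit 1216) (nat_lit 0) (XT.nd (nat_lit 234) (nat_lit 760) (nat_lit 0) (XT.nd (nat_lit 78) (nat_lit 304) (nat_lit 0) (XT.lf (nat_lit 0) (nat_lit 450784392) (nat_lit 456) (nat_lit 7890755399) (nat_lit 76) (nat_lit 6356518662) (nat_lit 124) (nat_lit 5) (nat_lit 130) (nat_lit 5) (nat_lit 125) (nat_lit 5) (nat_lit 480) (nat_lit 389) (nat_lit 271)) (XT.nd (nat_lit 78) (nat_lit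 304) (nat_lit 0) (XT.lf (nat_lit 0) (nat_lit 3574543695) (nat_lit 456) (nat_lit 175148002) (nat_lit 76) (nat_lit 11138069508) (nat_lit 124) (nat_lit 5) (nat_lit 130) (nat_lit 5) (nat_lit 125) (nat_lit 5) (nat_lit 481) (nat_lit 389) (nat_lit 270)) (XT.lf (nat_lit 0) (nat_lit 6801186324) (nat_lit 380) (nat_lit 7314715387) (nat_lit 76) (nat_lit 964554732) (nat_lit 120) (nat_lit 5) (nat_lit 125) (nat_lit 5) (nat_lit 121) (nat_lit 5) (nat_lit 482) (nat_lit 389) (nat_lit 269)))) (XT.nd (nat_lit 156) (nat_lit 380) (nat_lit 0) (XT.nd (nat_lit 78) (nat_lit 0) (nat_lit 0) (XT.lf (nat_lit 0) (nat_lit 548585305) (nat_lit 380) (nat_lit 9557064858) (nat_lit 456) (nat_lit 5171096120) (nat_lit 115) (nat_lit 5) (nat_lit 120) (nat_lit 5) (nat_lit 121) (nat_lit 5) (nat_lit 483) (nat_lit 389) (nat_lit 268)) (XT.lf (nat_lit 0) (nat_lit 8643857502) (nat_lit 380) (nat_lit 4865303091) (nat_lit 456) (nat_lit 1967148518) (nat_lit 115) (nat_lit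 5) (nat_lit 120) (nat_lit 5) (nat_lit 121) (nat_lit 5) (nat_lit 484) (nat_lit 389) (nat_lit 267))) (XT.nd (nat_lit 78) (nat_lit 0) (nat_lit 0) (XT.lf (nat_lit 0) (nat_lit 1204335117) (nat_lit 304) (nat_lit 71378130) (nat_lit 380) (nat_lit 14404149186) (nat_lit 110) (nat_lit 5) (nat_lit 114) (nat_lit 5) (nat_lit 115) (nat_lit 5) (nat_lit 485) (nat_lit 389) (nat_lit 266)) (XT.lf (nat_lit 0) (nat_lit 4618733856) (nat_lit 380) (nat_lit 6461006400) (nat_lit 76) (nat_lit 4806259647) (nat_lit 110) (nat_lit 5) (nat_lit 115) (nat_lit 5) (nat_lit 111) (nat_lit 5) (nat_lit 486) (nat_lit 389) (nat_lit 265))))) (XT.nd (nat_lit 234) (nat_lit 608) (nat_lit 0) (XT.nd (nat_lit 78) (nat_lit 304) (nat_lit 0) (XT.lf (nat_lit 0) (nat_lit 1711967047) (nat_lit 304) (nat_lit 6312725665) (nat_lit 380) (nat_lit 8071651708) (nat_lit 106) (nat_lit 5) (nat_lit 110) (nat_lit 5) (nat_lit 111) (nat_lit 5) (nat_lit 487) (nat_lit 389) (nat_lit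 264)) (XT.nd (nat_lit 78) (nat_lit 304) (nat_lit 0) (XT.lf (nat_lit 0) (nat_lit 10112319364) (nat_lit 304) (nat_lit 1414448538) (nat_lit 380) (nat_lit 4783573723) (nat_lit 106) (nat_lit 5) (nat_lit 110) (nat_lit 5) (nat_lit 111) (nat_lit 5) (nat_lit 488) (nat_lit 389) (nat_lit 263)) (XT.lf (nat_lit 0) (nat_lit 2133332358) (nat_lit 304) (nat_lit 12987547358) (nat_lit 380) (nat_lit 1407304782) (nat_lit 102) (nat_lit 5) (nat_lit 106) (nat_lit 5) (nat_lit 107) (nat_lit 5) (nat_lit 489) (nat_lit 389) (nat_lit 262)))) (XT.nd (nat_lit 156) (nat_lit 228) (nat_lit 0) (XT.nd (nat_lit 78) (nat_lit 304) (nat_lit 0) (XT.lf (nat_lit 0) (nat_lit 2045944464) (nat_lit 380) (nat_lit 6080590046) (nat_lit 76) (nat_lit 8622867406) (nat_lit 101) (nat_lit 5) (nat_lit 106) (nat_lit 5) (nat_lit 102) (nat_lit 5) (nat_lit 490) (nat_lit 389) (nat_lit 261)) (XT.lf (nat_lit 0) (nat_lit 2399059669) (nat_lit 304) (nat_lit 3151173831) (nat_lit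 380) (nat_lit 11424613066) (nat_lit 97) (nat_lit 5) (nat_lit 101) (nat_lit 5) (nat_lit 102) (nat_lit 5) (nat_lit 491) (nat_lit 389) (nat_lit 260))) (XT.nd (nat_lit 78) (nat_lit 228) (nat_lit 0) (XT.lf (nat_lit 0) (nat_lit 9163484606) (nat_lit 380) (nat_lit 6109152284) (nat_lit 76) (nat_lit 1931390893) (nat_lit 97) (nat_lit 5) (nat_lit 102) (nat_lit 5) (nat_lit 98) (nat_lit 5) (nat_lit 492) (nat_lit 389) (nat_lit 259)) (XT.lf (nat_lit 0) (nat_lit 2516266719) (nat_lit 228) (nat_lit 10355540187) (nat_lit 304) (nat_lit 4565534692) (nat_lit 94) (nat_lit 5) (nat_lit 97) (nat_lit 5) (nat_lit 98) (nat_lit 5) (nat_lit 493) (nat_lit 389) (nat_lit 258)))))) (XT.nd (nat_lit 546) (nat_lit 988) (nat_lit 0) (XT.nd (nat_lit 234) (nat_lit 608) (nat_lit 0) (XT.nd (nat_lit 78) (nat_lit 380) (nat_lit 0) (XT.lf (nat_lit 0) (nat_lit 11374473598) (nat_lit 228) (nat_lit 5306553943) (nat_lit 304) (nat_lit 993764509) (nat_lit 94) (nat_lit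 5) (nat_lit 97) (nat_lit 5) (nat_lit 98) (nat_lit 5) (nat_lit 494) (nat_lit 389) (nat_lit 257)) (XT.nd (nat_lit 78) (nat_lit 0) (nat_lit 0) (XT.lf (nat_lit 0) (nat_lit 2485973347) (nat_lit 304) (nat_lit 130778917) (nat_lit 380) (nat_lit 15299858827) (nat_lit 89) (nat_lit 5) (nat_lit 93) (nat_lit 5) (nat_lit 94) (nat_lit 5) (nat_lit 495) (nat_lit 389) (nat_lit 256)) (XT.lf (nat_lit 0) (nat_lit 6348169038) (nat_lit 380) (nat_lit 6691682018) (nat_lit 76) (nat_lit 5122048868) (nat_lit 89) (nat_lit 5) (nat_lit 94) (nat_lit 5) (nat_lit 90) (nat_lit 5) (nat_lit 496) (nat_lit 389) (nat_lit 255)))) (XT.nd (nat_lit 156) (nat_lit 380) (nat_lit 0) (XT.nd (nat_lit 78) (nat_lit 0) (nat_lit 0) (XT.lf (nat_lit 0) (nat_lit 2228486518) (nat_lit 228) (nat_lit 7927334819) (nat_lit 304) (nat_lit 8256245669) (nat_lit 86) (nat_lit 5) (nat_lit 89) (nat_lit 5) (nat_lit 90) (nat_lit 5) (nat_lit 497) (nat_lit 389) (nat_lit 254)) (XT.lf (nat_lit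 0) (nat_lit 11395982972) (nat_lit 228) (nat_lit 2674948450) (nat_lit 304) (nat_lit 4595684438) (nat_lit 86) (nat_lit 5) (nat_lit 89) (nat_lit 5) (nat_lit 90) (nat_lit 5) (nat_lit 498) (nat_lit 389) (nat_lit 253))) (XT.nd (nat_lit 78) (nat_lit 76) (nat_lit 0) (XT.lf (nat_lit 0) (nat_lit 1805258617) (nat_lit 304) (nat_lit 16274837118) (nat_lit 380) (nat_lit 845849354) (nat_lit 82) (nat_lit 5) (nat_lit 86) (nat_lit 5) (nat_lit 87) (nat_lit 5) (nat_lit 499) (nat_lit 389) (nat_lit 252)) (XT.lf (nat_lit 0) (nat_lit 2993386106) (nat_lit 380) (nat_lit 8087256000) (nat_lit 76) (nat_lit 8108366758) (nat_lit 81) (nat_lit 5) (nat_lit 86) (nat_lit 5) (nat_lit 82) (nat_lit 5) (nat_lit 500) (nat_lit 389) (nat_lit 251))))) (XT.nd (nat_lit 312) (nat_lit 532) (nat_lit 0) (XT.nd (nat_lit 156) (nat_lit 228) (nat_lit 0) (XT.nd (nat_lit 78) (nat_lit 0) (nat_lit 0) (XT.lf (nat_lit 0) (nat_lit 1114669682) (nat_lit 228) (nat_lit 5777566072)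 (nat_lit 304) (nat_lit 12565107414) (nat_lit 78) (nat_lit 5) (nat_lit 81) (nat_lit 5) (nat_lit 82) (nat_lit 5) (nat_lit 501) (nat_lit 389) (nat_lit 250)) (XT.lf (nat_lit 0) (nat_lit 10589207336) (nat_lit 228) (nat_lit 321152476) (nat_lit 304) (nat_lit 8819862496) (nat_lit 78) (nat_lit 5) (nat_lit 81) (nat_lit 5) (nat_lit 82) (nat_lit 5) (nat_lit 502) (nat_lit 389) (nat_lit 249))) (XT.nd (nat_lit 78) (nat_lit 0) (nat_lit 0) (XT.lf (nat_lit 0) (nat_lit 192303140) (nat_lit 228) (nat_lit 14839072430) (nat_lit 304) (nat_lit 4976736895) (nat_lit 75) (nat_lit 5) (nat_lit 78) (nat_lit 5) (nat_lit 79) (nat_lit 5) (nat_lit 503) (nat_lit 389) (nat_lit 248)) (XT.lf (nat_lit 0) (nat_lit 9813332914) (nat_lit 228) (nat_lit 9472279129) (nat_lit 304) (nat_lit 1004936316) (nat_lit 75) (nat_lit 5) (nat_lit 78) (nat_lit 5) (nat_lit 79) (nat_lit 5) (nat_lit 504) (nat_lit 389) (nat_lit 247)))) (XT.nd (nat_lit 156) (nat_lit 228) (nat_lit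 0) (XT.nd (nat_lit 78) (nat_lit 228) (nat_lit 0) (XT.lf (nat_lit 0) (nat_lit 2993856171) (nat_lit 304) (nat_lit 992100493) (nat_lit 76) (nat_lit 16592534346) (nat_lit 74) (nat_lit 5) (nat_lit 78) (nat_lit 5) (nat_lit 75) (nat_lit 5) (nat_lit 505) (nat_lit 389) (nat_lit 246)) (XT.lf (nat_lit 0) (nat_lit 7114706093) (nat_lit 304) (nat_lit 12110968981) (nat_lit 76) (nat_lit 1645277549) (nat_lit 71) (nat_lit 5) (nat_lit 75) (nat_lit 5) (nat_lit 72) (nat_lit 5) (nat_lit 506) (nat_lit 389) (nat_lit 245))) (XT.nd (nat_lit 78) (nat_lit 228) (nat_lit 0) (XT.lf (nat_lit 0) (nat_lit 11338885291) (nat_lit 304) (nat_lit 2495148263) (nat_lit 76) (nat_lit 7334815308) (nat_lit 71) (nat_lit 5) (nat_lit 75) (nat_lit 5) (nat_lit 72) (nat_lit 5) (nat_lit 507) (nat_lit 389) (nat_lit 244)) (XT.lf (nat_lit 0) (nat_lit 7390172667) (nat_lit 228) (nat_lit 8293409865) (nat_lit 304) (nat_lit 5788403373) (nat_lit 68) (nat_lit 5) (nat_lit 71)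 (nat_lit 5) (nat_lit 72) (nat_lit 5) (nat_lit 508) (nat_lit 389) (nat_lit 243))))))))
noncomputable def xc126 : XT := (XT.nd (nat_lit 50778) (nat_lit 0) (nat_lit 24700) (XT.nd (nat_lit 1092) (nat_lit 456) (nat_lit 0) (XT.nd (nat_lit 546) (nat_lit 684) (nat_lit 0) (XT.nd (nat_lit 234) (nat_lit 456) (nat_lit 0) (XT.nd (nat_lit 78) (nat_lit 304) (nat_lit 0) (XT.lf (nat_lit 0) (nat_lit 17487412631) (nat_lit 228) (nat_lit 2632664347) (nat_lit 304) (nat_lit 1661014144) (nat_lit 68) (nat_lit 5) (nat_lit 71) (nat_lit 5) (nat_lit 72) (nat_lit 5) (nat_lit 509) (nat_lit 389) (nat_lit 242)) (XT.nd (nat_lit 78) (nat_lit 0) (nat_lit 0) (XT.lf (nat_lit 0) (nat_lit 2561705305) (nat_lit 304) (nat_lit 16386813812) (nat_lit 76) (nat_lit 3146607463) (nat_lit 64) (nat_lit 5) (nat_lit 68) (nat_lit 5) (nat_lit 65) (nat_lit 5) (nat_lit 510) (nat_lit 389) (nat_lit 241)) (XT.lf (nat_lit 0) (nat_lit 6881463231) (nat_lit 304) (nat_lit 6494388083)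 (nat_lit 76) (nat_lit 9038678642) (nat_lit 64) (nat_lit 5) (nat_lit 68) (nat_lit 5) (nat_lit 65) (nat_lit 5) (nat_lit 511) (nat_lit 389) (nat_lit 240)))) (XT.nd (nat_lit 156) (nat_lit 228) (nat_lit 0) (XT.nd (nat_lit 78) (nat_lit 0) (nat_lit 0) (XT.lf (nat_lit 0) (nat_lit 3624359880) (nat_lit 228) (nat_lit 7675382063) (nat_lit 304) (nat_lit 11440340177) (nat_lit 61) (nat_lit 5) (nat_lit 64) (nat_lit 5) (nat_lit 65) (nat_lit 5) (nat_lit 512) (nat_lit 389) (nat_lit 239)) (XT.lf (nat_lit 0) (nat_lit 14014580931) (nat_lit 228) (nat_lit 1824080651) (nat_lit 304) (nat_lit 7232841408) (nat_lit 61) (nat_lit 5) (nat_lit 64) (nat_lit 5) (nat_lit 65) (nat_lit 5) (nat_lit 513) (nat_lit 389) (nat_lit 238))) (XT.nd (nat_lit 78) (nat_lit 76) (nat_lit 0) (XT.lf (nat_lit 0) (nat_lit 1172788302) (nat_lit 152) (nat_lit 19318960730) (nat_lit 228) (nat_lit 2917338563) (nat_lit 59) (nat_lit 5) (nat_lit 61) (nat_lit 5) (nat_lit 62) (nat_lit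 5) (nat_lit 514) (nat_lit 389) (nat_lit 237)) (XT.lf (nat_lit 0) (nat_lit 1527153427) (nat_lit 228) (nat_lit 12063234526) (nat_lit 76) (nat_lit 10161603196) (nat_lit 58) (nat_lit 5) (nat_lit 61) (nat_lit 5) (nat_lit 59) (nat_lit 5) (nat_lit 515) (nat_lit 389) (nat_lit 236))))) (XT.nd (nat_lit 234) (nat_lit 456) (nat_lit 0) (XT.nd (nat_lit 78) (nat_lit 228) (nat_lit 0) (XT.lf (nat_lit 0) (nat_lit 6010615495) (nat_lit 228) (nat_lit 1724427911) (nat_lit 76) (nat_lit 16366543756) (nat_lit 58) (nat_lit 5) (nat_lit 61) (nat_lit 5) (nat_lit 59) (nat_lit 5) (nat_lit 516) (nat_lit 389) (nat_lit 235)) (XT.nd (nat_lit 78) (nat_lit 0) (nat_lit 0) (XT.lf (nat_lit 0) (nat_lit 8920105065) (nat_lit 228) (nat_lit 1710877453) (nat_lit 304) (nat_lit 13826250732) (nat_lit 55) (nat_lit 5) (nat_lit 58) (nat_lit 5) (nat_lit 59) (nat_lit 5) (nat_lit 517) (nat_lit 389) (nat_lit 234)) (XT.lf (nat_lit 0) (nat_lit 15373558243) (nat_lit 304)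 (nat_lit 5065807479) (nat_lit 76) (nat_lit 4380033326) (nat_lit 55) (nat_lit 5) (nat_lit 59) (nat_lit 5) (nat_lit 56) (nat_lit 5) (nat_lit 518) (nat_lit 389) (nat_lit 233)))) (XT.nd (nat_lit 156) (nat_lit 304) (nat_lit 0) (XT.nd (nat_lit 78) (nat_lit 0) (nat_lit 0) (XT.lf (nat_lit 0) (nat_lit 5660110530) (nat_lit 152) (nat_lit 14588528886) (nat_lit 228) (nat_lit 4939418425) (nat_lit 53) (nat_lit 5) (nat_lit 55) (nat_lit 5) (nat_lit 56) (nat_lit 5) (nat_lit 519) (nat_lit 389) (nat_lit 232)) (XT.lf (nat_lit 0) (nat_lit 16651599747) (nat_lit 152) (nat_lit 8593281180) (nat_lit 228) (nat_lit 318738413) (nat_lit 53) (nat_lit 5) (nat_lit 55) (nat_lit 5) (nat_lit 56) (nat_lit 5) (nat_lit 520) (nat_lit 389) (nat_lit 231))) (XT.nd (nat_lit 78) (nat_lit 0) (nat_lit 0) (XT.lf (nat_lit 0) (nat_lit 1895142453) (nat_lit 228) (nat_lit 2443681924) (nat_lit 304) (nat_lit 21607257632) (nat_lit 49) (nat_lit 5) (nat_lit 52) (nat_lit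 5) (nat_lit 53) (nat_lit 5) (nat_lit 521) (nat_lit 389) (nat_lit 230)) (XT.lf (nat_lit 0) (nat_lit 9160173297) (nat_lit 304) (nat_lit 13340564053) (nat_lit 76) (nat_lit 3833918936) (nat_lit 49) (nat_lit 5) (nat_lit 53) (nat_lit 5) (nat_lit 50) (nat_lit 5) (nat_lit 522) (nat_lit 389) (nat_lit 229)))))) (XT.nd (nat_lit 49140) (nat_lit 0) (nat_lit 41572) (XT.nd (nat_lit 234) (nat_lit 304) (nat_lit 0) (XT.nd (nat_lit 78) (nat_lit 152) (nat_lit 0) (XT.lf (nat_lit 0) (nat_lit 14084170336) (nat_lit 304) (nat_lit 2449274164) (nat_lit 76) (nat_lit 10197435626) (nat_lit 49) (nat_lit 5) (nat_lit 53) (nat_lit 5) (nat_lit 50) (nat_lit 5) (nat_lit 523) (nat_lit 389) (nat_lit 228)) (XT.nd (nat_lit 78) (nat_lit 0) (nat_lit 0) (XT.lf (nat_lit 0) (nat_lit 8757929022) (nat_lit 152) (nat_lit 10395813733) (nat_lit 228) (nat_lit 7980346229) (nat_lit 47) (nat_lit 5) (nat_lit 49) (nat_lit 5) (nat_lit 50) (nat_lit 5) (nat_lit 524) (nat_lit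 389) (nat_lit 227)) (XT.lf (nat_lit 0) (nat_lit 20205812872) (nat_lit 152) (nat_lit 4125646136) (nat_lit 228) (nat_lit 3213770364) (nat_lit 47) (nat_lit 5) (nat_lit 49) (nat_lit 5) (nat_lit 50) (nat_lit 5) (nat_lit 525) (nat_lit 389) (nat_lit 226)))) (XT.nd (nat_lit 48750) (nat_lit 0) (nat_lit 43092) (XT.nd (nat_lit 78) (nat_lit 0) (nat_lit 0) (XT.lf (nat_lit 0) (nat_lit 1657493937) (nat_lit 304) (nat_lit 24036391057) (nat_lit 76) (nat_lit 2269876415) (nat_lit 43) (nat_lit 5) (nat_lit 47) (nat_lit 5) (nat_lit 44) (nat_lit 5) (nat_lit 526) (nat_lit 389) (nat_lit 225)) (XT.lf (nat_lit 0) (nat_lit 6650568732) (nat_lit 304) (nat_lit 12936135333) (nat_lit 76) (nat_lit 8802189073) (nat_lit 43) (nat_lit 5) (nat_lit 47) (nat_lit 5) (nat_lit 44) (nat_lit 5) (nat_lit 527) (nat_lit 389) (nat_lit 224))) (XT.nd (nat_lit 78) (nat_lit 0) (nat_lit 0) (XT.lf (nat_lit 0) (nat_lit 37783816) (nat_lit 0) (nat_lit 37783816) (nat_lit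 684) (nat_lit 3243259753) (nat_lit 610) (nat_lit 5) (nat_lit 610) (nat_lit 3) (nat_lit 619) (nat_lit 3) (nat_lit 390) (nat_lit 390) (nat_lit 360)) (XT.lf (nat_lit 0) (nat_lit 2365092457) (nat_lit 684) (nat_lit 3450118024) (nat_lit 760) (nat_lit 842307674) (nat_lit 610) (nat_lit 5) (nat_lit 619) (nat_lit 3) (nat_lit 620) (nat_lit 5) (nat_lit 391) (nat_lit 390) (nat_lit 359))))) (XT.nd (nat_lit 234) (nat_lit 760) (nat_lit 0) (XT.nd (nat_lit 78) (nat_lit 760) (nat_lit 0) (XT.lf (nat_lit 0) (nat_lit 4566129270) (nat_lit 684) (nat_lit 306758995) (nat_lit 760) (nat_lit 1806093925) (nat_lit 610) (nat_lit 5) (nat_lit 619) (nat_lit 3) (nat_lit 620) (nat_lit 5) (nat_lit 392) (nat_lit 390) (nat_lit 358)) (XT.nd (nat_lit 78) (nat_lit 0) (nat_lit 0) (XT.lf (nat_lit 0) (nat_lit 70868593) (nat_lit 760) (nat_lit 3794303504) (nat_lit 836) (nat_lit 2836506091) (nat_lit 600) (nat_lit 5) (nat_lit 610) (nat_lit 5) (nat_lit 611) (nat_lit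 5) (nat_lit 393) (nat_lit 390) (nat_lit 357)) (XT.lf (nat_lit 0) (nat_lit 2215995818) (nat_lit 760) (nat_lit 579203115) (nat_lit 836) (nat_lit 3930485371) (nat_lit 600) (nat_lit 5) (nat_lit 610) (nat_lit 5) (nat_lit 611) (nat_lit 5) (nat_lit 394) (nat_lit 390) (nat_lit 356)))) (XT.nd (nat_lit 156) (nat_lit 760) (nat_lit 0) (XT.nd (nat_lit 78) (nat_lit 0) (nat_lit 0) (XT.lf (nat_lit 76) (nat_lit 2705923858) (nat_lit 0) (nat_lit 1660693704) (nat_lit 836) (nat_lit 2384356010) (nat_lit 601) (nat_lit 5) (nat_lit 600) (nat_lit 5) (nat_lit 611) (nat_lit 5) (nat_lit 395) (nat_lit 390) (nat_lit 355)) (XT.lf (nat_lit 76) (nat_lit 6035036340) (nat_lit 0) (nat_lit 475011479) (nat_lit 836) (nat_lit 267778679) (nat_lit 601) (nat_lit 5) (nat_lit 600) (nat_lit 5) (nat_lit 611) (nat_lit 5) (nat_lit 396) (nat_lit 390) (nat_lit 354))) (XT.nd (nat_lit 78) (nat_lit 0) (nat_lit 0) (XT.lf (nat_lit 0) (nat_lit 1835006734) (nat_lit 836)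 (nat_lit 4193048138) (nat_lit 912) (nat_lit 777594163) (nat_lit 590) (nat_lit 5) (nat_lit 601) (nat_lit 5) (nat_lit 602) (nat_lit 5) (nat_lit 397) (nat_lit 390) (nat_lit 353)) (XT.lf (nat_lit 0) (nat_lit 3932000933) (nat_lit 836) (nat_lit 824518303) (nat_lit 912) (nat_lit 2078409306) (nat_lit 590) (nat_lit 5) (nat_lit 601) (nat_lit 5) (nat_lit 602) (nat_lit 5) (nat_lit 398) (nat_lit 390) (nat_lit 352))))))) (XT.nd (nat_lit 1092) (nat_lit 11856) (nat_lit 0) (XT.nd (nat_lit 546) (nat_lit 3192) (nat_lit 0) (XT.nd (nat_lit 234) (nat_lit 912) (nat_lit 0) (XT.nd (nat_lit 78) (nat_lit 912) (nat_lit 0) (XT.lf (nat_lit 76) (nat_lit 2615482381) (nat_lit 0) (nat_lit 3421034066) (nat_lit 912) (nat_lit 829015259) (nat_lit 591) (nat_lit 5) (nat_lit 590) (nat_lit 5) (nat_lit 602) (nat_lit 5) (nat_lit 399) (nat_lit 390) (nat_lit 351)) (XT.nd (nat_lit 78) (nat_lit 0) (nat_lit 0) (XT.lf (nat_lit 0) (nat_lit 1224103818) (nat_lit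 912) (nat_lit 800293975) (nat_lit 988) (nat_lit 4873137876) (nat_lit 578) (nat_lit 5) (nat_lit 590) (nat_lit 5) (nat_lit 591) (nat_lit 5) (nat_lit 400) (nat_lit 390) (nat_lit 350)) (XT.lf (nat_lit 76) (nat_lit 2718493669) (nat_lit 0) (nat_lit 556381077) (nat_lit 988) (nat_lit 3655888400) (nat_lit 579) (nat_lit 5) (nat_lit 578) (nat_lit 5) (nat_lit 591) (nat_lit 5) (nat_lit 401) (nat_lit 390) (nat_lit 349)))) (XT.nd (nat_lit 156) (nat_lit 0) (nat_lit 0) (XT.nd (nat_lit 78) (nat_lit 988) (nat_lit 0) (XT.lf (nat_lit 0) (nat_lit 5329116501) (nat_lit 912) (nat_lit 683270262) (nat_lit 988) (nat_lit 953065214) (nat_lit 579) (nat_lit 5) (nat_lit 591) (nat_lit 5) (nat_lit 592) (nat_lit 5) (nat_lit 402) (nat_lit 390) (nat_lit 348)) (XT.lf (nat_lit 0) (nat_lit 392387830) (nat_lit 988) (nat_lit 4083516730) (nat_lit 1064) (nat_lit 2525432446) (nat_lit 566) (nat_lit 5) (nat_lit 579) (nat_lit 5) (nat_lit 580) (nat_lit 5) (nat_lit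 403) (nat_lit 390) (nat_lit 347))) (XT.nd (nat_lit 78) (nat_lit 0) (nat_lit 0) (XT.lf (nat_lit 0) (nat_lit 2396702276) (nat_lit 988) (nat_lit 479470490) (nat_lit 1064) (nat_lit 4162455366) (nat_lit 566) (nat_lit 5) (nat_lit 579) (nat_lit 5) (nat_lit 580) (nat_lit 5) (nat_lit 404) (nat_lit 390) (nat_lit 346)) (XT.lf (nat_lit 76) (nat_lit 3208392210) (nat_lit 0) (nat_lit 1206768532) (nat_lit 1064) (nat_lit 2662065599) (nat_lit 567) (nat_lit 5) (nat_lit 566) (nat_lit 5) (nat_lit 580) (nat_lit 5) (nat_lit 405) (nat_lit 390) (nat_lit 345))))) (XT.nd (nat_lit 234) (nat_lit 2204) (nat_lit 0) (XT.nd (nat_lit 78) (nat_lit 1064) (nat_lit 0) (XT.lf (nat_lit 0) (nat_lit 6434499121) (nat_lit 988) (nat_lit 174471863) (nat_lit 1064) (nat_lit 508456900) (nat_lit 567) (nat_lit 5) (nat_lit 580) (nat_lit 5) (nat_lit 581) (nat_lit 5) (nat_lit 406) (nat_lit 390) (nat_lit 344)) (XT.nd (nat_lit 78) (nat_lit 0) (nat_lit 0) (XT.lf (nat_lit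 0) (nat_lit 1304474546) (nat_lit 1064) (nat_lit 3564894675) (nat_lit 1140) (nat_lit 2289206692) (nat_lit 553) (nat_lit 5) (nat_lit 567) (nat_lit 5) (nat_lit 568) (nat_lit 5) (nat_lit 407) (nat_lit 390) (nat_lit 343)) (XT.lf (nat_lit 76) (nat_lit 206183300) (nat_lit 0) (nat_lit 3074129060) (nat_lit 1140) (nat_lit 3921026825) (nat_lit 554) (nat_lit 5) (nat_lit 553) (nat_lit 5) (nat_lit 568) (nat_lit 5) (nat_lit 408) (nat_lit 390) (nat_lit 342)))) (XT.nd (nat_lit 156) (nat_lit 1216) (nat_lit 0) (XT.nd (nat_lit 78) (nat_lit 988) (nat_lit 0) (XT.lf (nat_lit 76) (nat_lit 4070180763) (nat_lit 0) (nat_lit 1205389799) (nat_lit 1140) (nat_lit 1969827508) (nat_lit 554) (nat_lit 5) (nat_lit 553) (nat_lit 5) (nat_lit 568) (nat_lit 5) (nat_lit 409) (nat_lit 390) (nat_lit 341)) (XT.lf (nat_lit 0) (nat_lit 694473116) (nat_lit 1064) (nat_lit 6582247761) (nat_lit 1140) (nat_lit 14335178) (nat_lit 540) (nat_lit 5) (nat_lit 554) (nat_lit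 5) (nat_lit 555) (nat_lit 5) (nat_lit 410) (nat_lit 390) (nat_lit 340))) (XT.nd (nat_lit 78) (nat_lit 1140) (nat_lit 0) (XT.lf (nat_lit 0) (nat_lit 1940980888) (nat_lit 1140) (nat_lit 2705188298) (nat_lit 76) (nat_lit 2691503363) (nat_lit 539) (nat_lit 5) (nat_lit 554) (nat_lit 5) (nat_lit 540) (nat_lit 5) (nat_lit 411) (nat_lit 390) (nat_lit 339)) (XT.lf (nat_lit 0) (nat_lit 1249339842) (nat_lit 1140) (nat_lit 2652075608) (nat_lit 1216) (nat_lit 3484515438) (nat_lit 524) (nat_lit 5) (nat_lit 539) (nat_lit 5) (nat_lit 540) (nat_lit 5) (nat_lit 412) (nat_lit 390) (nat_lit 338)))))) (XT.nd (nat_lit 546) (nat_lit 7828) (nat_lit 0) (XT.nd (nat_lit 234) (nat_lit 2736) (nat_lit 0) (XT.nd (nat_lit 78) (nat_lit 1292) (nat_lit 0) (XT.lf (nat_lit 0) (nat_lit 5288847157) (nat_lit 1140) (nat_lit 589079049) (nat_lit 1216) (nat_lit 1557725630) (nat_lit 524) (nat_lit 5) (nat_lit 539) (nat_lit 5) (nat_lit 540) (nat_lit 5) (nat_lit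 413) (nat_lit 390) (nat_lit 337)) (XT.nd (nat_lit 78) (nat_lit 0) (nat_lit 0) (XT.lf (nat_lit 0) (nat_lit 383908888) (nat_lit 1292) (nat_lit 5582430047) (nat_lit 76) (nat_lit 1520375694) (nat_lit 507) (nat_lit 5) (nat_lit 524) (nat_lit 5) (nat_lit 508) (nat_lit 5) (nat_lit 414) (nat_lit 390) (nat_lit 336)) (XT.lf (nat_lit 0) (nat_lit 2321826214) (nat_lit 1292) (nat_lit 1518776318) (nat_lit 76) (nat_lit 3698456841) (nat_lit 507) (nat_lit 5) (nat_lit 524) (nat_lit 5) (nat_lit 508) (nat_lit 5) (nat_lit 415) (nat_lit 390) (nat_lit 335)))) (XT.nd (nat_lit 156) (nat_lit 1444) (nat_lit 0) (XT.nd (nat_lit 78) (nat_lit 0) (nat_lit 0) (XT.lf (nat_lit 0) (nat_lit 2629808301) (nat_lit 1292) (nat_lit 1646440382) (nat_lit 1368) (nat_lit 3316679538) (nat_lit 490) (nat_lit 5) (nat_lit 507) (nat_lit 5) (nat_lit 508) (nat_lit 5) (nat_lit 416) (nat_lit 390) (nat_lit 334)) (XT.lf (nat_lit 0) (nat_lit 6245157336) (nat_lit 1368) (nat_lit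 801116298) (nat_lit 76) (nat_lit 602124373) (nat_lit 490) (nat_lit 5) (nat_lit 508) (nat_lit 5) (nat_lit 491) (nat_lit 5) (nat_lit 417) (nat_lit 390) (nat_lit 333))) (XT.nd (nat_lit 78) (nat_lit 0) (nat_lit 0) (XT.lf (nat_lit 0) (nat_lit 536556107) (nat_lit 1444) (nat_lit 4261063594) (nat_lit 76) (nat_lit 2907410912) (nat_lit 471) (nat_lit 5) (nat_lit 490) (nat_lit 5) (nat_lit 472) (nat_lit 5) (nat_lit 418) (nat_lit 390) (nat_lit 332)) (XT.lf (nat_lit 0) (nat_lit 2464112044) (nat_lit 1444) (nat_lit 18404581) (nat_lit 76) (nat_lit 5280768381) (nat_lit 471) (nat_lit 5) (nat_lit 490) (nat_lit 5) (nat_lit 472) (nat_lit 5) (nat_lit 419) (nat_lit 390) (nat_lit 331))))) (XT.nd (nat_lit 312) (nat_lit 3192) (nat_lit 0) (XT.nd (nat_lit 156) (nat_lit 1672) (nat_lit 0) (XT.nd (nat_lit 78) (nat_lit 1520) (nat_lit 0) (XT.lf (nat_lit 0) (nat_lit 4335379653) (nat_lit 1444) (nat_lit 86049900) (nat_lit 1520) (nat_lit 3401479842)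 (nat_lit 452) (nat_lit 5) (nat_lit 471) (nat_lit 5) (nat_lit 472) (nat_lit 5) (nat_lit 420) (nat_lit 390) (nat_lit 330)) (XT.lf (nat_lit 0) (nat_lit 857517087) (nat_lit 1520) (nat_lit 5545008555) (nat_lit 1596) (nat_lit 1481536529) (nat_lit 432) (nat_lit 5) (nat_lit 452) (nat_lit 5) (nat_lit 453) (nat_lit 5) (nat_lit 421) (nat_lit 390) (nat_lit 329))) (XT.nd (nat_lit 78) (nat_lit 1596) (nat_lit 0) (XT.lf (nat_lit 0) (nat_lit 458555613) (nat_lit 1596) (nat_lit 2644535551) (nat_lit 76) (nat_lit 4843552293) (nat_lit 431) (nat_lit 5) (nat_lit 452) (nat_lit 5) (nat_lit 432) (nat_lit 5) (nat_lit 422) (nat_lit 390) (nat_lit 328)) (XT.lf (nat_lit 0) (nat_lit 1808149966) (nat_lit 1596) (nat_lit 585803777) (nat_lit 1672) (nat_lit 5616826825) (nat_lit 410) (nat_lit 5) (nat_lit 431) (nat_lit 5) (nat_lit 432) (nat_lit 5) (nat_lit 423) (nat_lit 390) (nat_lit 327)))) (XT.nd (nat_lit 156) (nat_lit 1520) (nat_lit 0) (XT.nd (nat_lit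 78) (nat_lit 1672) (nat_lit 0) (XT.lf (nat_lit 0) (nat_lit 4363897594) (nat_lit 1672) (nat_lit 1734510081) (nat_lit 76) (nat_lit 1977902365) (nat_lit 410) (nat_lit 5) (nat_lit 432) (nat_lit 5) (nat_lit 411) (nat_lit 5) (nat_lit 424) (nat_lit 390) (nat_lit 326)) (XT.lf (nat_lit 0) (nat_lit 2825348033) (nat_lit 1672) (nat_lit 3535906653) (nat_lit 1748) (nat_lit 1782160978) (nat_lit 388) (nat_lit 5) (nat_lit 410) (nat_lit 5) (nat_lit 411) (nat_lit 5) (nat_lit 425) (nat_lit 390) (nat_lit 325))) (XT.nd (nat_lit 78) (nat_lit 1444) (nat_lit 0) (XT.lf (nat_lit 0) (nat_lit 161978038) (nat_lit 1748) (nat_lit 744078933) (nat_lit 76) (nat_lit 7306252416) (nat_lit 387) (nat_lit 5) (nat_lit 410) (nat_lit 5) (nat_lit 388) (nat_lit 5) (nat_lit 426) (nat_lit 390) (nat_lit 324)) (XT.lf (nat_lit 0) (nat_lit 2125159642) (nat_lit 1520) (nat_lit 4363650674) (nat_lit 76) (nat_lit 1793478971) (nat_lit 368) (nat_lit 5) (nat_lit 388) (nat_lit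 5) (nat_lit 369) (nat_lit 5) (nat_lit 427) (nat_lit 390) (nat_lit 323))))))))
noncomputable def xc127 : XT := (XT.nd (nat_lit 2184) (nat_lit 7372) (nat_lit 0) (XT.nd (nat_lit 1092) (nat_lit 5244) (nat_lit 0) (XT.nd (nat_lit 546) (nat_lit 3116) (nat_lit 0) (XT.nd (nat_lit 234) (nat_lit 1748) (nat_lit 0) (XT.nd (nat_lit 78) (nat_lit 912) (nat_lit 0) (XT.lf (nat_lit 0) (nat_lit 298040779) (nat_lit 836) (nat_lit 3809680359) (nat_lit 912) (nat_lit 4246369207) (nat_lit 357) (nat_lit 5) (nat_lit 368) (nat_lit 5) (nat_lit 369) (nat_lit 5) (nat_lit 428) (nat_lit 390) (nat_lit 322)) (XT.nd (nat_lit 78) (nat_lit 912) (nat_lit 0) (XT.lf (nat_lit 0) (nat_lit 5081357784) (nat_lit 836) (nat_lit 1045457370) (nat_lit 912) (nat_lit 2300598059) (nat_lit 357) (nat_lit 5) (nat_lit 368) (nat_lit 5) (nat_lit 369) (nat_lit 5) (nat_lit 429) (nat_lit 390) (nat_lit 321)) (XT.lf (nat_lit 0) (nat_lit 1434611136) (nat_lit 912) (nat_lit 6740757340)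 (nat_lit 988) (nat_lit 327075472) (nat_lit 345) (nat_lit 5) (nat_lit 357) (nat_lit 5) (nat_lit 358) (nat_lit 5) (nat_lit 430) (nat_lit 390) (nat_lit 320)))) (XT.nd (nat_lit 156) (nat_lit 836) (nat_lit 0) (XT.nd (nat_lit 78) (nat_lit 836) (nat_lit 0) (XT.lf (nat_lit 0) (nat_lit 1661771308) (nat_lit 988) (nat_lit 2271359913) (nat_lit 76) (nat_lit 4645687924) (nat_lit 344) (nat_lit 5) (nat_lit 357) (nat_lit 5) (nat_lit 345) (nat_lit 5) (nat_lit 431) (nat_lit 390) (nat_lit 319)) (XT.lf (nat_lit 0) (nat_lit 2622821199) (nat_lit 836) (nat_lit 1049285120) (nat_lit 912) (nat_lit 4984872103) (nat_lit 333) (nat_lit 5) (nat_lit 344) (nat_lit 5) (nat_lit 345) (nat_lit 5) (nat_lit 432) (nat_lit 390) (nat_lit 318))) (XT.nd (nat_lit 78) (nat_lit 836) (nat_lit 0) (XT.lf (nat_lit 0) (nat_lit 5719746399) (nat_lit 912) (nat_lit 1133995089) (nat_lit 76) (nat_lit 1883038638) (nat_lit 333) (nat_lit 5) (nat_lit 345) (nat_lit 5) (nat_lit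 334) (nat_lit 5) (nat_lit 433) (nat_lit 390) (nat_lit 317)) (XT.lf (nat_lit 0) (nat_lit 3877797770) (nat_lit 836) (nat_lit 3932736028) (nat_lit 912) (nat_lit 1007620969) (nat_lit 322) (nat_lit 5) (nat_lit 333) (nat_lit 5) (nat_lit 334) (nat_lit 5) (nat_lit 434) (nat_lit 390) (nat_lit 316))))) (XT.nd (nat_lit 234) (nat_lit 1520) (nat_lit 0) (XT.nd (nat_lit 78) (nat_lit 760) (nat_lit 0) (XT.lf (nat_lit 0) (nat_lit 67768731) (nat_lit 760) (nat_lit 938889862) (nat_lit 836) (nat_lit 7894816104) (nat_lit 311) (nat_lit 5) (nat_lit 321) (nat_lit 5) (nat_lit 322) (nat_lit 5) (nat_lit 435) (nat_lit 390) (nat_lit 315)) (XT.nd (nat_lit 78) (nat_lit 760) (nat_lit 0) (XT.lf (nat_lit 0) (nat_lit 3065472082) (nat_lit 836) (nat_lit 3794294733) (nat_lit 76) (nat_lit 2126225788) (nat_lit 311) (nat_lit 5) (nat_lit 322) (nat_lit 5) (nat_lit 312) (nat_lit 5) (nat_lit 436) (nat_lit 390) (nat_lit 314)) (XT.lf (nat_lit 0) (nat_lit 1326795789)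 (nat_lit 760) (nat_lit 3824699204) (nat_lit 836) (nat_lit 3921004421) (nat_lit 301) (nat_lit 5) (nat_lit 311) (nat_lit 5) (nat_lit 312) (nat_lit 5) (nat_lit 437) (nat_lit 390) (nat_lit 313)))) (XT.nd (nat_lit 156) (nat_lit 760) (nat_lit 0) (XT.nd (nat_lit 78) (nat_lit 760) (nat_lit 0) (XT.lf (nat_lit 0) (nat_lit 6571647791) (nat_lit 760) (nat_lit 704622492) (nat_lit 836) (nat_lit 1884544273) (nat_lit 301) (nat_lit 5) (nat_lit 311) (nat_lit 5) (nat_lit 312) (nat_lit 5) (nat_lit 438) (nat_lit 390) (nat_lit 312)) (XT.lf (nat_lit 0) (nat_lit 195606882) (nat_lit 760) (nat_lit 6592871098) (nat_lit 76) (nat_lit 2462301340) (nat_lit 291) (nat_lit 5) (nat_lit 301) (nat_lit 5) (nat_lit 292) (nat_lit 5) (nat_lit 439) (nat_lit 390) (nat_lit 311))) (XT.nd (nat_lit 78) (nat_lit 760) (nat_lit 0) (XT.lf (nat_lit 0) (nat_lit 2286576379) (nat_lit 760) (nat_lit 1344692912) (nat_lit 76) (nat_lit 5711153709) (nat_lit 291) (nat_lit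 5) (nat_lit 301) (nat_lit 5) (nat_lit 292) (nat_lit 5) (nat_lit 440) (nat_lit 390) (nat_lit 310)) (XT.lf (nat_lit 0) (nat_lit 4031661358) (nat_lit 760) (nat_lit 386693527) (nat_lit 836) (nat_lit 5017582276) (nat_lit 281) (nat_lit 5) (nat_lit 291) (nat_lit 5) (nat_lit 292) (nat_lit 5) (nat_lit 441) (nat_lit 390) (nat_lit 309)))))) (XT.nd (nat_lit 546) (nat_lit 2432) (nat_lit 0) (XT.nd (nat_lit 234) (nat_lit 1368) (nat_lit 0) (XT.nd (nat_lit 78) (nat_lit 1444) (nat_lit 0) (XT.lf (nat_lit 0) (nat_lit 6593967014) (nat_lit 836) (nat_lit 46412308) (nat_lit 76) (nat_lit 2890935381) (nat_lit 281) (nat_lit 5) (nat_lit 292) (nat_lit 5) (nat_lit 282) (nat_lit 5) (nat_lit 442) (nat_lit 390) (nat_lit 308)) (XT.nd (nat_lit 78) (nat_lit 760) (nat_lit 0) (XT.lf (nat_lit 0) (nat_lit 5458216188) (nat_lit 684) (nat_lit 3366539253) (nat_lit 760) (nat_lit 803627794) (nat_lit 272) (nat_lit 5) (nat_lit 281) (nat_lit 5) (nat_lit 282)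 (nat_lit 5) (nat_lit 443) (nat_lit 390) (nat_lit 307)) (XT.lf (nat_lit 0) (nat_lit 1325055282) (nat_lit 684) (nat_lit 12426818) (nat_lit 760) (nat_lit 8390094462) (nat_lit 262) (nat_lit 5) (nat_lit 271) (nat_lit 5) (nat_lit 272) (nat_lit 5) (nat_lit 444) (nat_lit 390) (nat_lit 306)))) (XT.nd (nat_lit 156) (nat_lit 760) (nat_lit 0) (XT.nd (nat_lit 78) (nat_lit 608) (nat_lit 0) (XT.lf (nat_lit 0) (nat_lit 3535068009) (nat_lit 760) (nat_lit 2899026947) (nat_lit 76) (nat_lit 3394080029) (nat_lit 262) (nat_lit 5) (nat_lit 272) (nat_lit 5) (nat_lit 263) (nat_lit 5) (nat_lit 445) (nat_lit 390) (nat_lit 305)) (XT.lf (nat_lit 0) (nat_lit 2720822088) (nat_lit 608) (nat_lit 3048142023) (nat_lit 684) (nat_lit 4161989547) (nat_lit 254) (nat_lit 5) (nat_lit 262) (nat_lit 5) (nat_lit 263) (nat_lit 5) (nat_lit 446) (nat_lit 390) (nat_lit 304))) (XT.nd (nat_lit 78) (nat_lit 760) (nat_lit 0) (XT.lf (nat_lit 0) (nat_lit 8044647213)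 (nat_lit 684) (nat_lit 1575410036) (nat_lit 76) (nat_lit 415803619) (nat_lit 254) (nat_lit 5) (nat_lit 263) (nat_lit 5) (nat_lit 255) (nat_lit 5) (nat_lit 447) (nat_lit 390) (nat_lit 303)) (XT.lf (nat_lit 0) (nat_lit 242884531) (nat_lit 760) (nat_lit 5966449788) (nat_lit 76) (nat_lit 3933060885) (nat_lit 244) (nat_lit 5) (nat_lit 254) (nat_lit 5) (nat_lit 245) (nat_lit 5) (nat_lit 448) (nat_lit 390) (nat_lit 302))))) (XT.nd (nat_lit 234) (nat_lit 1216) (nat_lit 0) (XT.nd (nat_lit 78) (nat_lit 1216) (nat_lit 0) (XT.lf (nat_lit 0) (nat_lit 2481174611) (nat_lit 760) (nat_lit 229605258) (nat_lit 76) (nat_lit 7540307947) (nat_lit 244) (nat_lit 5) (nat_lit 254) (nat_lit 5) (nat_lit 245) (nat_lit 5) (nat_lit 449) (nat_lit 390) (nat_lit 301)) (XT.nd (nat_lit 78) (nat_lit 608) (nat_lit 0) (XT.lf (nat_lit 0) (nat_lit 4782797658) (nat_lit 684) (nat_lit 4699796927) (nat_lit 76) (nat_lit 879002344) (nat_lit 236) (nat_lit 5)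 (nat_lit 245) (nat_lit 5) (nat_lit 237) (nat_lit 5) (nat_lit 450) (nat_lit 390) (nat_lit 300)) (XT.lf (nat_lit 0) (nat_lit 1168340882) (nat_lit 608) (nat_lit 5965442737) (nat_lit 684) (nat_lit 3340479714) (nat_lit 228) (nat_lit 5) (nat_lit 236) (nat_lit 5) (nat_lit 237) (nat_lit 5) (nat_lit 451) (nat_lit 390) (nat_lit 299)))) (XT.nd (nat_lit 156) (nat_lit 608) (nat_lit 0) (XT.nd (nat_lit 78) (nat_lit 608) (nat_lit 0) (XT.lf (nat_lit 0) (nat_lit 7188858384) (nat_lit 608) (nat_lit 2350990251) (nat_lit 684) (nat_lit 1049186695) (nat_lit 228) (nat_lit 5) (nat_lit 236) (nat_lit 5) (nat_lit 237) (nat_lit 5) (nat_lit 452) (nat_lit 390) (nat_lit 298)) (XT.lf (nat_lit 0) (nat_lit 1273682249) (nat_lit 608) (nat_lit 8093627228) (nat_lit 76) (nat_lit 1338586144) (nat_lit 220) (nat_lit 5) (nat_lit 228) (nat_lit 5) (nat_lit 221) (nat_lit 5) (nat_lit 453) (nat_lit 390) (nat_lit 297))) (XT.nd (nat_lit 78) (nat_lit 608) (nat_lit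 0) (XT.lf (nat_lit 0) (nat_lit 3644563156) (nat_lit 608) (nat_lit 2084950247) (nat_lit 76) (nat_lit 5095141622) (nat_lit 220) (nat_lit 5) (nat_lit 228) (nat_lit 5) (nat_lit 221) (nat_lit 5) (nat_lit 454) (nat_lit 390) (nat_lit 296)) (XT.lf (nat_lit 0) (nat_lit 4069132810) (nat_lit 608) (nat_lit 1997650838) (nat_lit 684) (nat_lit 4878939956) (nat_lit 212) (nat_lit 5) (nat_lit 220) (nat_lit 5) (nat_lit 221) (nat_lit 5) (nat_lit 455) (nat_lit 390) (nat_lit 295))))))) (XT.nd (nat_lit 1092) (nat_lit 3268) (nat_lit 0) (XT.nd (nat_lit 546) (nat_lit 1900) (nat_lit 0) (XT.nd (nat_lit 234) (nat_lit 1064) (nat_lit 0) (XT.nd (nat_lit 78) (nat_lit 1140) (nat_lit 0) (XT.lf (nat_lit 0) (nat_lit 8541001600) (nat_lit 684) (nat_lit 734580684) (nat_lit 76) (nat_lit 1793572391) (nat_lit 212) (nat_lit 5) (nat_lit 221) (nat_lit 5) (nat_lit 213) (nat_lit 5) (nat_lit 456) (nat_lit 390) (nat_lit 294)) (XT.nd (nat_lit 78) (nat_lit 608)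 (nat_lit 0) (XT.lf (nat_lit 0) (nat_lit 5562175727) (nat_lit 532) (nat_lit 5530032789) (nat_lit 608) (nat_lit 102307703) (nat_lit 205) (nat_lit 5) (nat_lit 212) (nat_lit 5) (nat_lit 213) (nat_lit 5) (nat_lit 457) (nat_lit 390) (nat_lit 293)) (XT.lf (nat_lit 0) (nat_lit 637535266) (nat_lit 532) (nat_lit 1690766827) (nat_lit 608) (nat_lit 8994039212) (nat_lit 197) (nat_lit 5) (nat_lit 204) (nat_lit 5) (nat_lit 205) (nat_lit 5) (nat_lit 458) (nat_lit 390) (nat_lit 292)))) (XT.nd (nat_lit 156) (nat_lit 608) (nat_lit 0) (XT.nd (nat_lit 78) (nat_lit 456) (nat_lit 0) (XT.lf (nat_lit 0) (nat_lit 4837111458) (nat_lit 608) (nat_lit 4386334137) (nat_lit 76) (nat_lit 2228655881) (nat_lit 197) (nat_lit 5) (nat_lit 205) (nat_lit 5) (nat_lit 198) (nat_lit 5) (nat_lit 459) (nat_lit 390) (nat_lit 291)) (XT.lf (nat_lit 0) (nat_lit 2025884121) (nat_lit 456) (nat_lit 5373447418) (nat_lit 532) (nat_lit 4185071656) (nat_lit 191) (nat_lit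 5) (nat_lit 197) (nat_lit 5) (nat_lit 198) (nat_lit 5) (nat_lit 460) (nat_lit 390) (nat_lit 290))) (XT.nd (nat_lit 78) (nat_lit 608) (nat_lit 0) (XT.lf (nat_lit 0) (nat_lit 8598390425) (nat_lit 456) (nat_lit 1422960268) (nat_lit 532) (nat_lit 1697839977) (nat_lit 191) (nat_lit 5) (nat_lit 197) (nat_lit 5) (nat_lit 198) (nat_lit 5) (nat_lit 461) (nat_lit 390) (nat_lit 289)) (XT.lf (nat_lit 0) (nat_lit 847034375) (nat_lit 608) (nat_lit 8415182761) (nat_lit 76) (nat_lit 2593980122) (nat_lit 183) (nat_lit 5) (nat_lit 191) (nat_lit 5) (nat_lit 184) (nat_lit 5) (nat_lit 462) (nat_lit 390) (nat_lit 288))))) (XT.nd (nat_lit 234) (nat_lit 1444) (nat_lit 0) (XT.nd (nat_lit 78) (nat_lit 456) (nat_lit 0) (XT.lf (nat_lit 0) (nat_lit 3430167550) (nat_lit 608) (nat_lit 1867320084) (nat_lit 76) (nat_lit 6698040175) (nat_lit 183) (nat_lit 5) (nat_lit 191) (nat_lit 5) (nat_lit 184) (nat_lit 5) (nat_lit 463) (nat_lit 390) (nat_lit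 287)) (XT.nd (nat_lit 78) (nat_lit 0) (nat_lit 0) (XT.lf (nat_lit 0) (nat_lit 4848264616) (nat_lit 456) (nat_lit 1228147196) (nat_lit 532) (nat_lit 6061014184) (nat_lit 177) (nat_lit 5) (nat_lit 183) (nat_lit 5) (nat_lit 184) (nat_lit 5) (nat_lit 464) (nat_lit 390) (nat_lit 286)) (XT.lf (nat_lit 0) (nat_lit 8787315618) (nat_lit 532) (nat_lit 604503079) (nat_lit 76) (nat_lit 2890118554) (nat_lit 177) (nat_lit 5) (nat_lit 184) (nat_lit 5) (nat_lit 178) (nat_lit 5) (nat_lit 465) (nat_lit 390) (nat_lit 285)))) (XT.nd (nat_lit 156) (nat_lit 456) (nat_lit 0) (XT.nd (nat_lit 78) (nat_lit 532) (nat_lit 0) (XT.lf (nat_lit 0) (nat_lit 6261357063) (nat_lit 456) (nat_lit 5320401690) (nat_lit 532) (nat_lit 847003157) (nat_lit 171) (nat_lit 5) (nat_lit 177) (nat_lit 5) (nat_lit 178) (nat_lit 5) (nat_lit 466) (nat_lit 390) (nat_lit 284)) (XT.lf (nat_lit 0) (nat_lit 664369073) (nat_lit 456) (nat_lit 1153894698) (nat_lit 532) (nat_lit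 10760247714) (nat_lit 164) (nat_lit 5) (nat_lit 170) (nat_lit 5) (nat_lit 171) (nat_lit 5) (nat_lit 467) (nat_lit 390) (nat_lit 283))) (XT.nd (nat_lit 78) (nat_lit 456) (nat_lit 0) (XT.lf (nat_lit 0) (nat_lit 4568037847) (nat_lit 532) (nat_lit 5066773868) (nat_lit 76) (nat_lit 3095490550) (nat_lit 164) (nat_lit 5) (nat_lit 171) (nat_lit 5) (nat_lit 165) (nat_lit 5) (nat_lit 468) (nat_lit 390) (nat_lit 282)) (XT.lf (nat_lit 0) (nat_lit 1908717325) (nat_lit 456) (nat_lit 5465272512) (nat_lit 532) (nat_lit 5511124248) (nat_lit 158) (nat_lit 5) (nat_lit 164) (nat_lit 5) (nat_lit 165) (nat_lit 5) (nat_lit 469) (nat_lit 390) (nat_lit 281)))))) (XT.nd (nat_lit 546) (nat_lit 1900) (nat_lit 0) (XT.nd (nat_lit 234) (nat_lit 912) (nat_lit 0) (XT.nd (nat_lit 78) (nat_lit 456) (nat_lit 0) (XT.lf (nat_lit 0) (nat_lit 9066356066) (nat_lit 456) (nat_lit 1185054162) (nat_lit 532) (nat_lit 2791313628) (nat_lit 158) (nat_lit 5) (nat_lit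 164) (nat_lit 5) (nat_lit 165) (nat_lit 5) (nat_lit 470) (nat_lit 390) (nat_lit 280)) (XT.nd (nat_lit 78) (nat_lit 0) (nat_lit 0) (XT.lf (nat_lit 0) (nat_lit 6086837) (nat_lit 456) (nat_lit 10044502740) (nat_lit 76) (nat_lit 3152447441) (nat_lit 152) (nat_lit 5) (nat_lit 158) (nat_lit 5) (nat_lit 153) (nat_lit 5) (nat_lit 471) (nat_lit 390) (nat_lit 279)) (XT.lf (nat_lit 0) (nat_lit 2838534415) (nat_lit 456) (nat_lit 2928439045) (nat_lit 76) (nat_lit 7598892676) (nat_lit 152) (nat_lit 5) (nat_lit 158) (nat_lit 5) (nat_lit 153) (nat_lit 5) (nat_lit 472) (nat_lit 390) (nat_lit 278)))) (XT.nd (nat_lit 156) (nat_lit 456) (nat_lit 0) (XT.nd (nat_lit 78) (nat_lit 0) (nat_lit 0) (XT.lf (nat_lit 0) (nat_lit 4361718192) (nat_lit 456) (nat_lit 1376321704) (nat_lit 532) (nat_lit 7793711797) (nat_lit 146) (nat_lit 5) (nat_lit 152) (nat_lit 5) (nat_lit 153) (nat_lit 5) (nat_lit 473) (nat_lit 390) (nat_lit 277)) (XT.lf (nat_lit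 0) (nat_lit 8717686127) (nat_lit 532) (nat_lit 1909037414) (nat_lit 76) (nat_lit 3073796288) (nat_lit 146) (nat_lit 5) (nat_lit 153) (nat_lit 5) (nat_lit 147) (nat_lit 5) (nat_lit 474) (nat_lit 390) (nat_lit 276))) (XT.nd (nat_lit 78) (nat_lit 76) (nat_lit 0) (XT.lf (nat_lit 0) (nat_lit 5535587138) (nat_lit 380) (nat_lit 6248969992) (nat_lit 456) (nat_lit 2087561286) (nat_lit 141) (nat_lit 5) (nat_lit 146) (nat_lit 5) (nat_lit 147) (nat_lit 5) (nat_lit 475) (nat_lit 390) (nat_lit 275)) (XT.lf (nat_lit 0) (nat_lit 849793999) (nat_lit 456) (nat_lit 922766257) (nat_lit 76) (nat_lit 12274573137) (nat_lit 140) (nat_lit 5) (nat_lit 146) (nat_lit 5) (nat_lit 141) (nat_lit 5) (nat_lit 476) (nat_lit 390) (nat_lit 274))))) (XT.nd (nat_lit 312) (nat_lit 760) (nat_lit 0) (XT.nd (nat_lit 156) (nat_lit 760) (nat_lit 0) (XT.nd (nat_lit 78) (nat_lit 0) (nat_lit 0) (XT.lf (nat_lit 0) (nat_lit 3862837543) (nat_lit 456) (nat_lit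 7554804315) (nat_lit 76) (nat_lit 2806840244) (nat_lit 135) (nat_lit 5) (nat_lit 141) (nat_lit 5) (nat_lit 136) (nat_lit 5) (nat_lit 477) (nat_lit 390) (nat_lit 273)) (XT.lf (nat_lit 0) (nat_lit 6937214322) (nat_lit 456) (nat_lit 15344038) (nat_lit 76) (nat_lit 7452805115) (nat_lit 135) (nat_lit 5) (nat_lit 141) (nat_lit 5) (nat_lit 136) (nat_lit 5) (nat_lit 478) (nat_lit 390) (nat_lit 272))) (XT.nd (nat_lit 78) (nat_lit 380) (nat_lit 0) (XT.lf (nat_lit 0) (nat_lit 7752274655) (nat_lit 380) (nat_lit 2354568557) (nat_lit 456) (nat_lit 4482350969) (nat_lit 130) (nat_lit 5) (nat_lit 135) (nat_lit 5) (nat_lit 136) (nat_lit 5) (nat_lit 479) (nat_lit 390) (nat_lit 271)) (XT.lf (nat_lit 0) (nat_lit 870580602) (nat_lit 380) (nat_lit 12473752463) (nat_lit 456) (nat_lit 1432285927) (nat_lit 125) (nat_lit 5) (nat_lit 130) (nat_lit 5) (nat_lit 131) (nat_lit 5) (nat_lit 480) (nat_lit 390) (nat_lit 270)))) (XT.nd (nat_lit 156)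 (nat_lit 380) (nat_lit 0) (XT.nd (nat_lit 78) (nat_lit 304) (nat_lit 0) (XT.lf (nat_lit 0) (nat_lit 1702139260) (nat_lit 456) (nat_lit 6193256296) (nat_lit 76) (nat_lit 7071277817) (nat_lit 124) (nat_lit 5) (nat_lit 130) (nat_lit 5) (nat_lit 125) (nat_lit 5) (nat_lit 481) (nat_lit 390) (nat_lit 269)) (XT.lf (nat_lit 0) (nat_lit 1662083056) (nat_lit 304) (nat_lit 3212722446) (nat_lit 380) (nat_lit 10285645836) (nat_lit 120) (nat_lit 5) (nat_lit 124) (nat_lit 5) (nat_lit 125) (nat_lit 5) (nat_lit 482) (nat_lit 390) (nat_lit 268))) (XT.nd (nat_lit 78) (nat_lit 380) (nat_lit 0) (XT.lf (nat_lit 0) (nat_lit 8146942720) (nat_lit 380) (nat_lit 5633347205) (nat_lit 76) (nat_lit 1577100923) (nat_lit 120) (nat_lit 5) (nat_lit 125) (nat_lit 5) (nat_lit 121) (nat_lit 5) (nat_lit 483) (nat_lit 390) (nat_lit 267)) (XT.lf (nat_lit 0) (nat_lit 2375195405) (nat_lit 380) (nat_lit 9130368510) (nat_lit 456) (nat_lit 4052290620) (nat_lit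 115) (nat_lit 5) (nat_lit 120) (nat_lit 5) (nat_lit 121) (nat_lit 5) (nat_lit 484) (nat_lit 390) (nat_lit 266))))))))
noncomputable def xc128 : XT := (XT.nd (nat_lit 2184) (nat_lit 1596) (nat_lit 0) (XT.nd (nat_lit 1092) (nat_lit 1672) (nat_lit 0) (XT.nd (nat_lit 546) (nat_lit 1140) (nat_lit 0) (XT.nd (nat_lit 234) (nat_lit 684) (nat_lit 0) (XT.nd (nat_lit 78) (nat_lit 380) (nat_lit 0) (XT.lf (nat_lit 0) (nat_lit 10596772294) (nat_lit 380) (nat_lit 4356885971) (nat_lit 456) (nat_lit 808229309) (nat_lit 115) (nat_lit 5) (nat_lit 120) (nat_lit 5) (nat_lit 121) (nat_lit 5) (nat_lit 485) (nat_lit 390) (nat_lit 265)) (XT.nd (nat_lit 78) (nat_lit 0) (nat_lit 0) (XT.lf (nat_lit 0) (nat_lit 2475682686) (nat_lit 380) (nat_lit 12960297324) (nat_lit 76) (nat_lit 533547057) (nat_lit 110) (nat_lit 5) (nat_lit 115) (nat_lit 5) (nat_lit 111) (nat_lit 5) (nat_lit 486) (nat_lit 390) (nat_lit 264)) (XT.lf (nat_lit 0) (nat_lit 5862998608)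 (nat_lit 380) (nat_lit 4821336493) (nat_lit 76) (nat_lit 5495912184) (nat_lit 110) (nat_lit 5) (nat_lit 115) (nat_lit 5) (nat_lit 111) (nat_lit 5) (nat_lit 487) (nat_lit 390) (nat_lit 263)))) (XT.nd (nat_lit 156) (nat_lit 380) (nat_lit 0) (XT.nd (nat_lit 78) (nat_lit 0) (nat_lit 0) (XT.lf (nat_lit 0) (nat_lit 3503458989) (nat_lit 304) (nat_lit 5822440822) (nat_lit 380) (nat_lit 7069130944) (nat_lit 106) (nat_lit 5) (nat_lit 110) (nat_lit 5) (nat_lit 111) (nat_lit 5) (nat_lit 488) (nat_lit 390) (nat_lit 262)) (XT.lf (nat_lit 0) (nat_lit 12037362419) (nat_lit 304) (nat_lit 838287160) (nat_lit 380) (nat_lit 3738114022) (nat_lit 106) (nat_lit 5) (nat_lit 110) (nat_lit 5) (nat_lit 111) (nat_lit 5) (nat_lit 489) (nat_lit 390) (nat_lit 261))) (XT.nd (nat_lit 78) (nat_lit 76) (nat_lit 0) (XT.lf (nat_lit 0) (nat_lit 3906197767) (nat_lit 304) (nat_lit 12628598642) (nat_lit 380) (nat_lit 301312061) (nat_lit 102) (nat_lit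 5) (nat_lit 106) (nat_lit 5) (nat_lit 107) (nat_lit 5) (nat_lit 490) (nat_lit 390) (nat_lit 260)) (XT.lf (nat_lit 0) (nat_lit 3184181375) (nat_lit 380) (nat_lit 4490951947) (nat_lit 76) (nat_lit 9386916447) (nat_lit 101) (nat_lit 5) (nat_lit 106) (nat_lit 5) (nat_lit 102) (nat_lit 5) (nat_lit 491) (nat_lit 390) (nat_lit 259))))) (XT.nd (nat_lit 234) (nat_lit 608) (nat_lit 0) (XT.nd (nat_lit 78) (nat_lit 228) (nat_lit 0) (XT.lf (nat_lit 0) (nat_lit 4147032540) (nat_lit 304) (nat_lit 2601045087) (nat_lit 380) (nat_lit 10544142979) (nat_lit 97) (nat_lit 5) (nat_lit 101) (nat_lit 5) (nat_lit 102) (nat_lit 5) (nat_lit 492) (nat_lit 390) (nat_lit 258)) (XT.nd (nat_lit 78) (nat_lit 228) (nat_lit 0) (XT.lf (nat_lit 0) (nat_lit 10416186109) (nat_lit 380) (nat_lit 4546890646) (nat_lit 76) (nat_lit 2563264417) (nat_lit 97) (nat_lit 5) (nat_lit 102) (nat_lit 5) (nat_lit 98) (nat_lit 5) (nat_lit 493) (nat_lit 390) (nat_lit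 257)) (XT.lf (nat_lit 0) (nat_lit 4239954866) (nat_lit 228) (nat_lit 9948615320) (nat_lit 304) (nat_lit 3575960592) (nat_lit 94) (nat_lit 5) (nat_lit 97) (nat_lit 5) (nat_lit 98) (nat_lit 5) (nat_lit 494) (nat_lit 390) (nat_lit 256)))) (XT.nd (nat_lit 156) (nat_lit 228) (nat_lit 0) (XT.nd (nat_lit 78) (nat_lit 304) (nat_lit 0) (XT.lf (nat_lit 0) (nat_lit 45447204) (nat_lit 304) (nat_lit 4764937086) (nat_lit 76) (nat_lit 13196762666) (nat_lit 93) (nat_lit 5) (nat_lit 97) (nat_lit 5) (nat_lit 94) (nat_lit 5) (nat_lit 495) (nat_lit 390) (nat_lit 255)) (XT.lf (nat_lit 0) (nat_lit 3708129106) (nat_lit 380) (nat_lit 14077343141) (nat_lit 76) (nat_lit 468340524) (nat_lit 89) (nat_lit 5) (nat_lit 94) (nat_lit 5) (nat_lit 90) (nat_lit 5) (nat_lit 496) (nat_lit 390) (nat_lit 254))) (XT.nd (nat_lit 78) (nat_lit 228) (nat_lit 0) (XT.lf (nat_lit 0) (nat_lit 7494649950) (nat_lit 380) (nat_lit 5197043822) (nat_lit 76) (nat_lit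 5812710951) (nat_lit 89) (nat_lit 5) (nat_lit 94) (nat_lit 5) (nat_lit 90) (nat_lit 5) (nat_lit 497) (nat_lit 390) (nat_lit 253)) (XT.lf (nat_lit 0) (nat_lit 3890814454) (nat_lit 228) (nat_lit 7478153861) (nat_lit 304) (nat_lit 7390803295) (nat_lit 86) (nat_lit 5) (nat_lit 89) (nat_lit 5) (nat_lit 90) (nat_lit 5) (nat_lit 498) (nat_lit 390) (nat_lit 252)))))) (XT.nd (nat_lit 546) (nat_lit 836) (nat_lit 0) (XT.nd (nat_lit 234) (nat_lit 456) (nat_lit 0) (XT.nd (nat_lit 78) (nat_lit 380) (nat_lit 0) (XT.lf (nat_lit 0) (nat_lit 13209940088) (nat_lit 228) (nat_lit 2132635993) (nat_lit 304) (nat_lit 3677238040) (nat_lit 86) (nat_lit 5) (nat_lit 89) (nat_lit 5) (nat_lit 90) (nat_lit 5) (nat_lit 499) (nat_lit 390) (nat_lit 251)) (XT.nd (nat_lit 78) (nat_lit 0) (nat_lit 0) (XT.lf (nat_lit 0) (nat_lit 140327751) (nat_lit 380) (nat_lit 15852239952) (nat_lit 76) (nat_lit 3291856006) (nat_lit 81) (nat_lit 5) (nat_lit 86) (nat_lit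 5) (nat_lit 82) (nat_lit 5) (nat_lit 500) (nat_lit 390) (nat_lit 250)) (XT.lf (nat_lit 0) (nat_lit 4025585943) (nat_lit 380) (nat_lit 6675218181) (nat_lit 76) (nat_lit 8852227747) (nat_lit 81) (nat_lit 5) (nat_lit 86) (nat_lit 5) (nat_lit 82) (nat_lit 5) (nat_lit 501) (nat_lit 390) (nat_lit 249)))) (XT.nd (nat_lit 156) (nat_lit 228) (nat_lit 0) (XT.nd (nat_lit 78) (nat_lit 0) (nat_lit 0) (XT.lf (nat_lit 0) (nat_lit 2700392180) (nat_lit 228) (nat_lit 5293105887) (nat_lit 304) (nat_lit 11833419172) (nat_lit 78) (nat_lit 5) (nat_lit 81) (nat_lit 5) (nat_lit 82) (nat_lit 5) (nat_lit 502) (nat_lit 390) (nat_lit 248)) (XT.lf (nat_lit 0) (nat_lit 12074786516) (nat_lit 304) (nat_lit 7773565078) (nat_lit 76) (nat_lit 257252300) (nat_lit 78) (nat_lit 5) (nat_lit 82) (nat_lit 5) (nat_lit 79) (nat_lit 5) (nat_lit 503) (nat_lit 390) (nat_lit 247))) (XT.nd (nat_lit 78) (nat_lit 0) (nat_lit 0) (XT.lf (nat_lit 0) (nat_lit 1734107406)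 (nat_lit 228) (nat_lit 14537632439) (nat_lit 304) (nat_lit 4117447518) (nat_lit 75) (nat_lit 5) (nat_lit 78) (nat_lit 5) (nat_lit 79) (nat_lit 5) (nat_lit 504) (nat_lit 390) (nat_lit 246)) (XT.lf (nat_lit 0) (nat_lit 11517401732) (nat_lit 228) (nat_lit 9075233103) (nat_lit 304) (nat_lit 85011399) (nat_lit 75) (nat_lit 5) (nat_lit 78) (nat_lit 5) (nat_lit 79) (nat_lit 5) (nat_lit 505) (nat_lit 390) (nat_lit 245))))) (XT.nd (nat_lit 234) (nat_lit 532) (nat_lit 0) (XT.nd (nat_lit 78) (nat_lit 0) (nat_lit 0) (XT.lf (nat_lit 0) (nat_lit 485018596) (nat_lit 228) (nat_lit 3481368725) (nat_lit 304) (nat_lit 17005144690) (nat_lit 71) (nat_lit 5) (nat_lit 74) (nat_lit 5) (nat_lit 75) (nat_lit 5) (nat_lit 506) (nat_lit 390) (nat_lit 244)) (XT.nd (nat_lit 78) (nat_lit 0) (nat_lit 0) (XT.lf (nat_lit 0) (nat_lit 8162048589) (nat_lit 304) (nat_lit 10857861443) (nat_lit 76) (nat_lit 2250090342) (nat_lit 71) (nat_lit 5) (nat_lit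 75) (nat_lit 5) (nat_lit 72) (nat_lit 5) (nat_lit 507) (nat_lit 390) (nat_lit 243)) (XT.lf (nat_lit 0) (nat_lit 12452965324) (nat_lit 304) (nat_lit 1079044447) (nat_lit 76) (nat_lit 8042204988) (nat_lit 71) (nat_lit 5) (nat_lit 75) (nat_lit 5) (nat_lit 72) (nat_lit 5) (nat_lit 508) (nat_lit 390) (nat_lit 242)))) (XT.nd (nat_lit 156) (nat_lit 304) (nat_lit 0) (XT.nd (nat_lit 78) (nat_lit 0) (nat_lit 0) (XT.lf (nat_lit 0) (nat_lit 8994338121) (nat_lit 228) (nat_lit 7882275972) (nat_lit 304) (nat_lit 5006964495) (nat_lit 68) (nat_lit 5) (nat_lit 71) (nat_lit 5) (nat_lit 72) (nat_lit 5) (nat_lit 509) (nat_lit 390) (nat_lit 241)) (XT.lf (nat_lit 0) (nat_lit 19264966766) (nat_lit 228) (nat_lit 2119629311) (nat_lit 304) (nat_lit 814619774) (nat_lit 68) (nat_lit 5) (nat_lit 71) (nat_lit 5) (nat_lit 72) (nat_lit 5) (nat_lit 510) (nat_lit 390) (nat_lit 240))) (XT.nd (nat_lit 78) (nat_lit 0) (nat_lit 0) (XT.lf (nat_lit 0)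 (nat_lit 3476981288) (nat_lit 304) (nat_lit 15270676834) (nat_lit 76) (nat_lit 3771845302) (nat_lit 64) (nat_lit 5) (nat_lit 68) (nat_lit 5) (nat_lit 65) (nat_lit 5) (nat_lit 511) (nat_lit 390) (nat_lit 239)) (XT.lf (nat_lit 0) (nat_lit 7866192376) (nat_lit 304) (nat_lit 5208713831) (nat_lit 76) (nat_lit 9770732303) (nat_lit 64) (nat_lit 5) (nat_lit 68) (nat_lit 5) (nat_lit 65) (nat_lit 5) (nat_lit 512) (nat_lit 390) (nat_lit 238))))))) (XT.nd (nat_lit 1092) (nat_lit 304) (nat_lit 0) (XT.nd (nat_lit 546) (nat_lit 608) (nat_lit 0) (XT.nd (nat_lit 234) (nat_lit 304) (nat_lit 0) (XT.nd (nat_lit 78) (nat_lit 152) (nat_lit 0) (XT.lf (nat_lit 0) (nat_lit 5103096184) (nat_lit 228) (nat_lit 7262260978) (nat_lit 304) (nat_lit 10812498852) (nat_lit 61) (nat_lit 5) (nat_lit 64) (nat_lit 5) (nat_lit 65) (nat_lit 5) (nat_lit 513) (nat_lit 390) (nat_lit 237)) (XT.nd (nat_lit 78) (nat_lit 152) (nat_lit 0) (XT.lf (nat_lit 0) (nat_lit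 15673548144) (nat_lit 228) (nat_lit 1305043905) (nat_lit 304) (nat_lit 6537647129) (nat_lit 61) (nat_lit 5) (nat_lit 64) (nat_lit 5) (nat_lit 65) (nat_lit 5) (nat_lit 514) (nat_lit 390) (nat_lit 236)) (XT.lf (nat_lit 0) (nat_lit 2578850407) (nat_lit 152) (nat_lit 19142263372) (nat_lit 228) (nat_lit 2139538769) (nat_lit 59) (nat_lit 5) (nat_lit 61) (nat_lit 5) (nat_lit 62) (nat_lit 5) (nat_lit 515) (nat_lit 390) (nat_lit 235)))) (XT.nd (nat_lit 156) (nat_lit 228) (nat_lit 0) (XT.nd (nat_lit 78) (nat_lit 0) (nat_lit 0) (XT.lf (nat_lit 0) (nat_lit 2366696841) (nat_lit 228) (nat_lit 10938034198) (nat_lit 76) (nat_lit 10905902506) (nat_lit 58) (nat_lit 5) (nat_lit 61) (nat_lit 5) (nat_lit 59) (nat_lit 5) (nat_lit 516) (nat_lit 390) (nat_lit 234)) (XT.lf (nat_lit 0) (nat_lit 6923965399) (nat_lit 228) (nat_lit 419244882) (nat_lit 76) (nat_lit 17224332716) (nat_lit 58) (nat_lit 5) (nat_lit 61) (nat_lit 5) (nat_lit 59)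 (nat_lit 5) (nat_lit 517) (nat_lit 390) (nat_lit 233))) (XT.nd (nat_lit 78) (nat_lit 0) (nat_lit 0) (XT.lf (nat_lit 0) (nat_lit 10429365125) (nat_lit 228) (nat_lit 1200463733) (nat_lit 304) (nat_lit 13300615547) (nat_lit 55) (nat_lit 5) (nat_lit 58) (nat_lit 5) (nat_lit 59) (nat_lit 5) (nat_lit 518) (nat_lit 390) (nat_lit 232)) (XT.lf (nat_lit 0) (nat_lit 16455306659) (nat_lit 304) (nat_lit 3850206607) (nat_lit 76) (nat_lit 4994583338) (nat_lit 55) (nat_lit 5) (nat_lit 59) (nat_lit 5) (nat_lit 56) (nat_lit 5) (nat_lit 519) (nat_lit 390) (nat_lit 231))))) (XT.nd (nat_lit 234) (nat_lit 152) (nat_lit 0) (XT.nd (nat_lit 78) (nat_lit 304) (nat_lit 0) (XT.lf (nat_lit 0) (nat_lit 7081565833) (nat_lit 152) (nat_lit 14339635762) (nat_lit 228) (nat_lit 4255064753) (nat_lit 53) (nat_lit 5) (nat_lit 55) (nat_lit 5) (nat_lit 56) (nat_lit 5) (nat_lit 520) (nat_lit 390) (nat_lit 230)) (XT.nd (nat_lit 78) (nat_lit 228) (nat_lit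 0) (XT.lf (nat_lit 0) (nat_lit 436867395) (nat_lit 228) (nat_lit 7795285346) (nat_lit 76) (nat_lit 17827433808) (nat_lit 52) (nat_lit 5) (nat_lit 55) (nat_lit 5) (nat_lit 53) (nat_lit 5) (nat_lit 521) (nat_lit 390) (nat_lit 229)) (XT.lf (nat_lit 0) (nat_lit 3217403409) (nat_lit 228) (nat_lit 1959395831) (nat_lit 304) (nat_lit 21272991165) (nat_lit 49) (nat_lit 5) (nat_lit 52) (nat_lit 5) (nat_lit 53) (nat_lit 5) (nat_lit 522) (nat_lit 390) (nat_lit 228)))) (XT.nd (nat_lit 156) (nat_lit 152) (nat_lit 0) (XT.nd (nat_lit 78) (nat_lit 0) (nat_lit 0) (XT.lf (nat_lit 0) (nat_lit 10083239510) (nat_lit 304) (nat_lit 12336679526) (nat_lit 76) (nat_lit 4426447557) (nat_lit 49) (nat_lit 5) (nat_lit 53) (nat_lit 5) (nat_lit 50) (nat_lit 5) (nat_lit 523) (nat_lit 390) (nat_lit 227)) (XT.lf (nat_lit 0) (nat_lit 15091209377) (nat_lit 304) (nat_lit 1252479443) (nat_lit 76) (nat_lit 10907119869) (nat_lit 49) (nat_lit 5) (nat_lit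 53) (nat_lit 5) (nat_lit 50) (nat_lit 5) (nat_lit 524) (nat_lit 390) (nat_lit 226))) (XT.nd (nat_lit 78) (nat_lit 0) (nat_lit 0) (XT.lf (nat_lit 0) (nat_lit 10170671884) (nat_lit 152) (nat_lit 10085313918) (nat_lit 228) (nat_lit 7406223238) (nat_lit 47) (nat_lit 5) (nat_lit 49) (nat_lit 5) (nat_lit 50) (nat_lit 5) (nat_lit 525) (nat_lit 390) (nat_lit 225)) (XT.lf (nat_lit 0) (nat_lit 21823247052) (nat_lit 152) (nat_lit 3699907991) (nat_lit 228) (nat_lit 2558702716) (nat_lit 47) (nat_lit 5) (nat_lit 49) (nat_lit 5) (nat_lit 50) (nat_lit 5) (nat_lit 526) (nat_lit 390) (nat_lit 224)))))) (XT.nd (nat_lit 49218) (nat_lit 0) (nat_lit 39672) (XT.nd (nat_lit 48906) (nat_lit 0) (nat_lit 41496) (XT.nd (nat_lit 48750) (nat_lit 0) (nat_lit 42256) (XT.lf (nat_lit 0) (nat_lit 2397838332) (nat_lit 304) (nat_lit 23291312910) (nat_lit 76) (nat_lit 2819573432) (nat_lit 43) (nat_lit 5) (nat_lit 47) (nat_lit 5) (nat_lit 44) (nat_lit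 5) (nat_lit 527) (nat_lit 390) (nat_lit 223)) (XT.nd (nat_lit 78) (nat_lit 836) (nat_lit 0) (XT.lf (nat_lit 0) (nat_lit 1134827320) (nat_lit 0) (nat_lit 1134827320) (nat_lit 684) (nat_lit 1069448234) (nat_lit 610) (nat_lit 5) (nat_lit 610) (nat_lit 3) (nat_lit 619) (nat_lit 3) (nat_lit 391) (nat_lit 391) (nat_lit 358)) (XT.lf (nat_lit 0) (nat_lit 5450165) (nat_lit 836) (nat_lit 1273525706) (nat_lit 836) (nat_lit 5421410745) (nat_lit 599) (nat_lit 3) (nat_lit 610) (nat_lit 3) (nat_lit 610) (nat_lit 5) (nat_lit 392) (nat_lit 391) (nat_lit 357)))) (XT.nd (nat_lit 156) (nat_lit 760) (nat_lit 0) (XT.nd (nat_lit 78) (nat_lit 0) (nat_lit 76) (XT.lf (nat_lit 76) (nat_lit 1906417276) (nat_lit 0) (nat_lit 213966280) (nat_lit 836) (nat_lit 4603273957) (nat_lit 600) (nat_lit 5) (nat_lit 599) (nat_lit 3) (nat_lit 610) (nat_lit 5) (nat_lit 393) (nat_lit 391) (nat_lit 356)) (XT.lf (nat_lit 0) (nat_lit 4236905393) (nat_lit 760)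 (nat_lit 1615485341) (nat_lit 836) (nat_lit 895872166) (nat_lit 600) (nat_lit 5) (nat_lit 610) (nat_lit 5) (nat_lit 611) (nat_lit 5) (nat_lit 394) (nat_lit 391) (nat_lit 355))) (XT.nd (nat_lit 78) (nat_lit 836) (nat_lit 0) (XT.lf (nat_lit 76) (nat_lit 1641232224) (nat_lit 0) (nat_lit 4712699702) (nat_lit 836) (nat_lit 420318777) (nat_lit 601) (nat_lit 5) (nat_lit 600) (nat_lit 5) (nat_lit 611) (nat_lit 5) (nat_lit 395) (nat_lit 391) (nat_lit 354)) (XT.lf (nat_lit 0) (nat_lit 1647559679) (nat_lit 836) (nat_lit 1856500039) (nat_lit 912) (nat_lit 3297378284) (nat_lit 589) (nat_lit 5) (nat_lit 600) (nat_lit 5) (nat_lit 601) (nat_lit 5) (nat_lit 396) (nat_lit 391) (nat_lit 353))))) (XT.nd (nat_lit 234) (nat_lit 988) (nat_lit 0) (XT.nd (nat_lit 78) (nat_lit 836) (nat_lit 0) (XT.lf (nat_lit 76) (nat_lit 1472915777) (nat_lit 0) (nat_lit 2235434660) (nat_lit 912) (nat_lit 3121670078) (nat_lit 590) (nat_lit 5) (nat_lit 589)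 (nat_lit 5) (nat_lit 601) (nat_lit 5) (nat_lit 397) (nat_lit 391) (nat_lit 352)) (XT.nd (nat_lit 78) (nat_lit 836) (nat_lit 0) (XT.lf (nat_lit 76) (nat_lit 4865110168) (nat_lit 0) (nat_lit 906158373) (nat_lit 912) (nat_lit 1088737605) (nat_lit 590) (nat_lit 5) (nat_lit 589) (nat_lit 5) (nat_lit 601) (nat_lit 5) (nat_lit 398) (nat_lit 391) (nat_lit 351)) (XT.lf (nat_lit 0) (nat_lit 933387066) (nat_lit 912) (nat_lit 5476886568) (nat_lit 988) (nat_lit 481008734) (nat_lit 578) (nat_lit 5) (nat_lit 590) (nat_lit 5) (nat_lit 591) (nat_lit 5) (nat_lit 399) (nat_lit 391) (nat_lit 350)))) (XT.nd (nat_lit 156) (nat_lit 988) (nat_lit 0) (XT.nd (nat_lit 78) (nat_lit 0) (nat_lit 0) (XT.lf (nat_lit 0) (nat_lit 2950895510) (nat_lit 912) (nat_lit 2047427685) (nat_lit 988) (nat_lit 1925373428) (nat_lit 578) (nat_lit 5) (nat_lit 590) (nat_lit 5) (nat_lit 591) (nat_lit 5) (nat_lit 400) (nat_lit 391) (nat_lit 349)) (XT.lf (nat_lit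 76) (nat_lit 1439970379) (nat_lit 0) (nat_lit 3529142148) (nat_lit 988) (nat_lit 1988485381) (nat_lit 579) (nat_lit 5) (nat_lit 578) (nat_lit 5) (nat_lit 591) (nat_lit 5) (nat_lit 401) (nat_lit 391) (nat_lit 348))) (XT.nd (nat_lit 78) (nat_lit 0) (nat_lit 0) (XT.lf (nat_lit 0) (nat_lit 296661) (nat_lit 988) (nat_lit 1997385140) (nat_lit 1064) (nat_lit 4995230017) (nat_lit 565) (nat_lit 5) (nat_lit 578) (nat_lit 5) (nat_lit 579) (nat_lit 5) (nat_lit 402) (nat_lit 391) (nat_lit 347)) (XT.lf (nat_lit 76) (nat_lit 1571258553) (nat_lit 0) (nat_lit 393564651) (nat_lit 1064) (nat_lit 5064637297) (nat_lit 566) (nat_lit 5) (nat_lit 565) (nat_lit 5) (nat_lit 579) (nat_lit 5) (nat_lit 403) (nat_lit 391) (nat_lit 346))))))))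
noncomputable def xc129 : XT := (XT.nd (nat_lit 2184) (nat_lit 11172) (nat_lit 0) (XT.nd (nat_lit 1092) (nat_lit 11096) (nat_lit 0) (XT.nd (nat_lit 546) (nat_lit 3648) (nat_lit 0) (XT.nd (nat_lit 234) (nat_lit 1064) (nat_lit 0) (XT.nd (nat_lit 78) (nat_lit 1064) (nat_lit 0) (XT.lf (nat_lit 0) (nat_lit 3943427279) (nat_lit 988) (nat_lit 1866621764) (nat_lit 1064) (nat_lit 1257237788) (nat_lit 566) (nat_lit 5) (nat_lit 579) (nat_lit 5) (nat_lit 580) (nat_lit 5) (nat_lit 404) (nat_lit 391) (nat_lit 345)) (XT.nd (nat_lit 78) (nat_lit 1064) (nat_lit 0) (XT.lf (nat_lit 76) (nat_lit 1787883911) (nat_lit 0) (nat_lit 4142077884) (nat_lit 1064) (nat_lit 1176582311) (nat_lit 567) (nat_lit 5) (nat_lit 566) (nat_lit 5) (nat_lit 580) (nat_lit 5) (nat_lit 405) (nat_lit 391) (nat_lit 344)) (XT.lf (nat_lit 0) (nat_lit 766142740) (nat_lit 1064) (nat_lit 1641090345) (nat_lit 1140) (nat_lit 4739945858) (nat_lit 552) (nat_lit 5) (nat_lit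 566) (nat_lit 5) (nat_lit 567) (nat_lit 5) (nat_lit 406) (nat_lit 391) (nat_lit 343)))) (XT.nd (nat_lit 156) (nat_lit 1064) (nat_lit 0) (XT.nd (nat_lit 78) (nat_lit 0) (nat_lit 76) (XT.lf (nat_lit 76) (nat_lit 2100178365) (nat_lit 0) (nat_lit 600843768) (nat_lit 1140) (nat_lit 4488106900) (nat_lit 553) (nat_lit 5) (nat_lit 552) (nat_lit 5) (nat_lit 567) (nat_lit 5) (nat_lit 407) (nat_lit 391) (nat_lit 342)) (XT.lf (nat_lit 0) (nat_lit 4649927842) (nat_lit 1064) (nat_lit 1331735589) (nat_lit 1140) (nat_lit 1250786537) (nat_lit 553) (nat_lit 5) (nat_lit 567) (nat_lit 5) (nat_lit 568) (nat_lit 5) (nat_lit 408) (nat_lit 391) (nat_lit 341))) (XT.nd (nat_lit 78) (nat_lit 1140) (nat_lit 0) (XT.lf (nat_lit 76) (nat_lit 2499603044) (nat_lit 0) (nat_lit 4115457433) (nat_lit 1140) (nat_lit 662069531) (nat_lit 554) (nat_lit 5) (nat_lit 553) (nat_lit 5) (nat_lit 568) (nat_lit 5) (nat_lit 409) (nat_lit 391) (nat_lit 340)) (XT.lf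 (nat_lit 0) (nat_lit 1246154256) (nat_lit 1140) (nat_lit 935614116) (nat_lit 1216) (nat_lit 5141475689) (nat_lit 538) (nat_lit 5) (nat_lit 553) (nat_lit 5) (nat_lit 554) (nat_lit 5) (nat_lit 410) (nat_lit 391) (nat_lit 339))))) (XT.nd (nat_lit 234) (nat_lit 2584) (nat_lit 0) (XT.nd (nat_lit 78) (nat_lit 1064) (nat_lit 0) (XT.lf (nat_lit 76) (nat_lit 2988306504) (nat_lit 0) (nat_lit 172991039) (nat_lit 1216) (nat_lit 4209378417) (nat_lit 539) (nat_lit 5) (nat_lit 538) (nat_lit 5) (nat_lit 554) (nat_lit 5) (nat_lit 411) (nat_lit 391) (nat_lit 338)) (XT.nd (nat_lit 78) (nat_lit 1140) (nat_lit 0) (XT.lf (nat_lit 0) (nat_lit 5092157844) (nat_lit 1140) (nat_lit 458141692) (nat_lit 76) (nat_lit 1869243472) (nat_lit 539) (nat_lit 5) (nat_lit 554) (nat_lit 5) (nat_lit 540) (nat_lit 5) (nat_lit 412) (nat_lit 391) (nat_lit 337)) (XT.lf (nat_lit 0) (nat_lit 3560337864) (nat_lit 1140) (nat_lit 3485278920) (nat_lit 1216) (nat_lit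 424125099) (nat_lit 524) (nat_lit 5) (nat_lit 539) (nat_lit 5) (nat_lit 540) (nat_lit 5) (nat_lit 413) (nat_lit 391) (nat_lit 336)))) (XT.nd (nat_lit 156) (nat_lit 1292) (nat_lit 0) (XT.nd (nat_lit 78) (nat_lit 0) (nat_lit 0) (XT.lf (nat_lit 0) (nat_lit 105881879) (nat_lit 1216) (nat_lit 1355223761) (nat_lit 1292) (nat_lit 6060398793) (nat_lit 507) (nat_lit 5) (nat_lit 523) (nat_lit 5) (nat_lit 524) (nat_lit 5) (nat_lit 414) (nat_lit 391) (nat_lit 335)) (XT.lf (nat_lit 0) (nat_lit 3370754814) (nat_lit 1292) (nat_lit 3358433473) (nat_lit 76) (nat_lit 845242165) (nat_lit 507) (nat_lit 5) (nat_lit 524) (nat_lit 5) (nat_lit 508) (nat_lit 5) (nat_lit 415) (nat_lit 391) (nat_lit 334))) (XT.nd (nat_lit 78) (nat_lit 0) (nat_lit 0) (XT.lf (nat_lit 0) (nat_lit 750539830) (nat_lit 1292) (nat_lit 4543348605) (nat_lit 1368) (nat_lit 2335052245) (nat_lit 490) (nat_lit 5) (nat_lit 507) (nat_lit 5) (nat_lit 508) (nat_lit 5) (nat_lit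 416) (nat_lit 391) (nat_lit 333)) (XT.lf (nat_lit 0) (nat_lit 4957187887) (nat_lit 1292) (nat_lit 2282838207) (nat_lit 1368) (nat_lit 444855087) (nat_lit 490) (nat_lit 5) (nat_lit 507) (nat_lit 5) (nat_lit 508) (nat_lit 5) (nat_lit 417) (nat_lit 391) (nat_lit 332)))))) (XT.nd (nat_lit 546) (nat_lit 5016) (nat_lit 0) (XT.nd (nat_lit 234) (nat_lit 3192) (nat_lit 0) (XT.nd (nat_lit 78) (nat_lit 1444) (nat_lit 0) (XT.lf (nat_lit 0) (nat_lit 1436140089) (nat_lit 1444) (nat_lit 6256742335) (nat_lit 76) (nat_lit 49446258) (nat_lit 471) (nat_lit 5) (nat_lit 490) (nat_lit 5) (nat_lit 472) (nat_lit 5) (nat_lit 418) (nat_lit 391) (nat_lit 331)) (XT.nd (nat_lit 78) (nat_lit 1444) (nat_lit 0) (XT.lf (nat_lit 0) (nat_lit 3345410033) (nat_lit 1444) (nat_lit 2029225521) (nat_lit 76) (nat_lit 2426327656) (nat_lit 471) (nat_lit 5) (nat_lit 490) (nat_lit 5) (nat_lit 472) (nat_lit 5) (nat_lit 419) (nat_lit 391) (nat_lit 330)) (XT.lf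 (nat_lit 0) (nat_lit 2282793380) (nat_lit 1444) (nat_lit 2988679964) (nat_lit 1520) (nat_lit 2589753469) (nat_lit 452) (nat_lit 5) (nat_lit 471) (nat_lit 5) (nat_lit 472) (nat_lit 5) (nat_lit 420) (nat_lit 391) (nat_lit 329)))) (XT.nd (nat_lit 156) (nat_lit 1596) (nat_lit 0) (XT.nd (nat_lit 78) (nat_lit 1596) (nat_lit 0) (XT.lf (nat_lit 0) (nat_lit 6678769140) (nat_lit 1444) (nat_lit 535209164) (nat_lit 1520) (nat_lit 709186962) (nat_lit 452) (nat_lit 5) (nat_lit 471) (nat_lit 5) (nat_lit 472) (nat_lit 5) (nat_lit 421) (nat_lit 391) (nat_lit 328)) (XT.lf (nat_lit 0) (nat_lit 1191526871) (nat_lit 1596) (nat_lit 4819019075) (nat_lit 76) (nat_lit 1975698606) (nat_lit 431) (nat_lit 5) (nat_lit 452) (nat_lit 5) (nat_lit 432) (nat_lit 5) (nat_lit 422) (nat_lit 391) (nat_lit 327))) (XT.nd (nat_lit 78) (nat_lit 1596) (nat_lit 0) (XT.lf (nat_lit 0) (nat_lit 3097996237) (nat_lit 1596) (nat_lit 405028800) (nat_lit 76) (nat_lit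 4547948258) (nat_lit 431) (nat_lit 5) (nat_lit 452) (nat_lit 5) (nat_lit 432) (nat_lit 5) (nat_lit 423) (nat_lit 391) (nat_lit 326)) (XT.lf (nat_lit 0) (nat_lit 4121628865) (nat_lit 1596) (nat_lit 913685398) (nat_lit 1672) (nat_lit 3081853816) (nat_lit 410) (nat_lit 5) (nat_lit 431) (nat_lit 5) (nat_lit 432) (nat_lit 5) (nat_lit 424) (nat_lit 391) (nat_lit 325))))) (XT.nd (nat_lit 234) (nat_lit 1824) (nat_lit 0) (XT.nd (nat_lit 78) (nat_lit 1520) (nat_lit 0) (XT.lf (nat_lit 0) (nat_lit 525134754) (nat_lit 1672) (nat_lit 6470066675) (nat_lit 1748) (nat_lit 1189834222) (nat_lit 388) (nat_lit 5) (nat_lit 410) (nat_lit 5) (nat_lit 411) (nat_lit 5) (nat_lit 425) (nat_lit 391) (nat_lit 324)) (XT.nd (nat_lit 78) (nat_lit 1444) (nat_lit 0) (XT.lf (nat_lit 0) (nat_lit 730041713) (nat_lit 1748) (nat_lit 3104839581) (nat_lit 76) (nat_lit 4419313118) (nat_lit 387) (nat_lit 5) (nat_lit 410) (nat_lit 5) (nat_lit 388) (nat_lit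 5) (nat_lit 426) (nat_lit 391) (nat_lit 323)) (XT.lf (nat_lit 0) (nat_lit 1523557505) (nat_lit 1444) (nat_lit 1126066826) (nat_lit 1520) (nat_lit 5675433784) (nat_lit 368) (nat_lit 5) (nat_lit 387) (nat_lit 5) (nat_lit 388) (nat_lit 5) (nat_lit 427) (nat_lit 391) (nat_lit 322)))) (XT.nd (nat_lit 156) (nat_lit 988) (nat_lit 0) (XT.nd (nat_lit 78) (nat_lit 836) (nat_lit 0) (XT.lf (nat_lit 0) (nat_lit 4606998292) (nat_lit 1520) (nat_lit 2151434221) (nat_lit 76) (nat_lit 1638942002) (nat_lit 368) (nat_lit 5) (nat_lit 388) (nat_lit 5) (nat_lit 369) (nat_lit 5) (nat_lit 428) (nat_lit 391) (nat_lit 321)) (XT.lf (nat_lit 0) (nat_lit 2588362840) (nat_lit 836) (nat_lit 4007849658) (nat_lit 912) (nat_lit 1875093847) (nat_lit 357) (nat_lit 5) (nat_lit 368) (nat_lit 5) (nat_lit 369) (nat_lit 5) (nat_lit 429) (nat_lit 391) (nat_lit 320))) (XT.nd (nat_lit 78) (nat_lit 912) (nat_lit 0) (XT.lf (nat_lit 0) (nat_lit 60626195) (nat_lit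 912) (nat_lit 1124917501) (nat_lit 76) (nat_lit 7361521760) (nat_lit 356) (nat_lit 5) (nat_lit 368) (nat_lit 5) (nat_lit 357) (nat_lit 5) (nat_lit 430) (nat_lit 391) (nat_lit 319)) (XT.lf (nat_lit 0) (nat_lit 2014718205) (nat_lit 988) (nat_lit 4900061093) (nat_lit 76) (nat_lit 1709238894) (nat_lit 344) (nat_lit 5) (nat_lit 357) (nat_lit 5) (nat_lit 345) (nat_lit 5) (nat_lit 431) (nat_lit 391) (nat_lit 318))))))) (XT.nd (nat_lit 1092) (nat_lit 4940) (nat_lit 0) (XT.nd (nat_lit 546) (nat_lit 2964) (nat_lit 0) (XT.nd (nat_lit 234) (nat_lit 1596) (nat_lit 0) (XT.nd (nat_lit 78) (nat_lit 1672) (nat_lit 0) (XT.lf (nat_lit 0) (nat_lit 3993006479) (nat_lit 988) (nat_lit 55059353) (nat_lit 76) (nat_lit 4654763071) (nat_lit 344) (nat_lit 5) (nat_lit 357) (nat_lit 5) (nat_lit 345) (nat_lit 5) (nat_lit 432) (nat_lit 391) (nat_lit 317)) (XT.nd (nat_lit 78) (nat_lit 836) (nat_lit 0) (XT.lf (nat_lit 0) (nat_lit 4922125594) (nat_lit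 836) (nat_lit 1090951806) (nat_lit 912) (nat_lit 2770114885) (nat_lit 333) (nat_lit 5) (nat_lit 344) (nat_lit 5) (nat_lit 345) (nat_lit 5) (nat_lit 433) (nat_lit 391) (nat_lit 316)) (XT.lf (nat_lit 0) (nat_lit 1106769857) (nat_lit 836) (nat_lit 6957493314) (nat_lit 912) (nat_lit 801105879) (nat_lit 322) (nat_lit 5) (nat_lit 333) (nat_lit 5) (nat_lit 334) (nat_lit 5) (nat_lit 434) (nat_lit 391) (nat_lit 315)))) (XT.nd (nat_lit 156) (nat_lit 760) (nat_lit 0) (XT.nd (nat_lit 78) (nat_lit 760) (nat_lit 0) (XT.lf (nat_lit 0) (nat_lit 1195583446) (nat_lit 912) (nat_lit 2767504991) (nat_lit 76) (nat_lit 4985881060) (nat_lit 321) (nat_lit 5) (nat_lit 333) (nat_lit 5) (nat_lit 322) (nat_lit 5) (nat_lit 435) (nat_lit 391) (nat_lit 314)) (XT.lf (nat_lit 0) (nat_lit 2319209042) (nat_lit 760) (nat_lit 888738241) (nat_lit 836) (nat_lit 5826478625) (nat_lit 311) (nat_lit 5) (nat_lit 321) (nat_lit 5) (nat_lit 322) (nat_lit 5)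 (nat_lit 436) (nat_lit 391) (nat_lit 313))) (XT.nd (nat_lit 78) (nat_lit 760) (nat_lit 0) (XT.lf (nat_lit 0) (nat_lit 5265608047) (nat_lit 836) (nat_lit 1620459369) (nat_lit 76) (nat_lit 2235441869) (nat_lit 311) (nat_lit 5) (nat_lit 322) (nat_lit 5) (nat_lit 312) (nat_lit 5) (nat_lit 437) (nat_lit 391) (nat_lit 312)) (XT.lf (nat_lit 0) (nat_lit 3588252166) (nat_lit 760) (nat_lit 3777672061) (nat_lit 836) (nat_lit 1844398522) (nat_lit 301) (nat_lit 5) (nat_lit 311) (nat_lit 5) (nat_lit 312) (nat_lit 5) (nat_lit 438) (nat_lit 391) (nat_lit 311))))) (XT.nd (nat_lit 234) (nat_lit 1444) (nat_lit 0) (XT.nd (nat_lit 78) (nat_lit 1444) (nat_lit 0) (XT.lf (nat_lit 0) (nat_lit 188036510) (nat_lit 836) (nat_lit 408317462) (nat_lit 76) (nat_lit 8704880904) (nat_lit 300) (nat_lit 5) (nat_lit 311) (nat_lit 5) (nat_lit 301) (nat_lit 5) (nat_lit 439) (nat_lit 391) (nat_lit 310)) (XT.nd (nat_lit 78) (nat_lit 760) (nat_lit 0) (XT.lf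 (nat_lit 0) (nat_lit 2258971280) (nat_lit 760) (nat_lit 4477649361) (nat_lit 76) (nat_lit 2656667224) (nat_lit 291) (nat_lit 5) (nat_lit 301) (nat_lit 5) (nat_lit 292) (nat_lit 5) (nat_lit 440) (nat_lit 391) (nat_lit 309)) (XT.lf (nat_lit 0) (nat_lit 842481305) (nat_lit 760) (nat_lit 3514367392) (nat_lit 836) (nat_lit 5130639795) (nat_lit 281) (nat_lit 5) (nat_lit 291) (nat_lit 5) (nat_lit 292) (nat_lit 5) (nat_lit 441) (nat_lit 391) (nat_lit 308)))) (XT.nd (nat_lit 156) (nat_lit 760) (nat_lit 0) (XT.nd (nat_lit 78) (nat_lit 684) (nat_lit 0) (XT.lf (nat_lit 0) (nat_lit 6300819823) (nat_lit 760) (nat_lit 199592736) (nat_lit 836) (nat_lit 3083102718) (nat_lit 281) (nat_lit 5) (nat_lit 291) (nat_lit 5) (nat_lit 292) (nat_lit 5) (nat_lit 442) (nat_lit 391) (nat_lit 307)) (XT.lf (nat_lit 0) (nat_lit 2165770652) (nat_lit 684) (nat_lit 6529976117) (nat_lit 760) (nat_lit 985554242) (nat_lit 272) (nat_lit 5) (nat_lit 281)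 (nat_lit 5) (nat_lit 282) (nat_lit 5) (nat_lit 443) (nat_lit 391) (nat_lit 306))) (XT.nd (nat_lit 78) (nat_lit 684) (nat_lit 0) (XT.lf (nat_lit 0) (nat_lit 1136624006) (nat_lit 760) (nat_lit 2050865284) (nat_lit 76) (nat_lit 6593462826) (nat_lit 271) (nat_lit 5) (nat_lit 281) (nat_lit 5) (nat_lit 272) (nat_lit 5) (nat_lit 444) (nat_lit 391) (nat_lit 305)) (XT.lf (nat_lit 0) (nat_lit 3287444501) (nat_lit 760) (nat_lit 6349657218) (nat_lit 76) (nat_lit 245391776) (nat_lit 262) (nat_lit 5) (nat_lit 272) (nat_lit 5) (nat_lit 263) (nat_lit 5) (nat_lit 445) (nat_lit 391) (nat_lit 304)))))) (XT.nd (nat_lit 546) (nat_lit 2356) (nat_lit 0) (XT.nd (nat_lit 234) (nat_lit 1292) (nat_lit 0) (XT.nd (nat_lit 78) (nat_lit 1292) (nat_lit 0) (XT.lf (nat_lit 0) (nat_lit 5491352758) (nat_lit 760) (nat_lit 779721024) (nat_lit 76) (nat_lit 3714805641) (nat_lit 262) (nat_lit 5) (nat_lit 272) (nat_lit 5) (nat_lit 263) (nat_lit 5) (nat_lit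 446) (nat_lit 391) (nat_lit 303)) (XT.nd (nat_lit 78) (nat_lit 684) (nat_lit 0) (XT.lf (nat_lit 0) (nat_lit 4938200739) (nat_lit 608) (nat_lit 2808797204) (nat_lit 684) (nat_lit 2344196800) (nat_lit 254) (nat_lit 5) (nat_lit 262) (nat_lit 5) (nat_lit 263) (nat_lit 5) (nat_lit 447) (nat_lit 391) (nat_lit 302)) (XT.lf (nat_lit 0) (nat_lit 556647391) (nat_lit 684) (nat_lit 9480550367) (nat_lit 760) (nat_lit 161644336) (nat_lit 245) (nat_lit 5) (nat_lit 254) (nat_lit 5) (nat_lit 255) (nat_lit 5) (nat_lit 448) (nat_lit 391) (nat_lit 301)))) (XT.nd (nat_lit 156) (nat_lit 608) (nat_lit 0) (XT.nd (nat_lit 78) (nat_lit 608) (nat_lit 0) (XT.lf (nat_lit 0) (nat_lit 2066877518) (nat_lit 760) (nat_lit 3918464274) (nat_lit 76) (nat_lit 4322458595) (nat_lit 244) (nat_lit 5) (nat_lit 254) (nat_lit 5) (nat_lit 245) (nat_lit 5) (nat_lit 449) (nat_lit 391) (nat_lit 300)) (XT.lf (nat_lit 0) (nat_lit 1915746138) (nat_lit 608) (nat_lit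 2410956236) (nat_lit 684) (nat_lit 6092449881) (nat_lit 236) (nat_lit 5) (nat_lit 244) (nat_lit 5) (nat_lit 245) (nat_lit 5) (nat_lit 450) (nat_lit 391) (nat_lit 299))) (XT.nd (nat_lit 78) (nat_lit 608) (nat_lit 0) (XT.lf (nat_lit 0) (nat_lit 6642918224) (nat_lit 684) (nat_lit 2648954501) (nat_lit 76) (nat_lit 1240647996) (nat_lit 236) (nat_lit 5) (nat_lit 245) (nat_lit 5) (nat_lit 237) (nat_lit 5) (nat_lit 451) (nat_lit 391) (nat_lit 298)) (XT.lf (nat_lit 0) (nat_lit 3322435285) (nat_lit 608) (nat_lit 5697725371) (nat_lit 684) (nat_lit 1627715041) (nat_lit 228) (nat_lit 5) (nat_lit 236) (nat_lit 5) (nat_lit 237) (nat_lit 5) (nat_lit 452) (nat_lit 391) (nat_lit 297))))) (XT.nd (nat_lit 312) (nat_lit 1140) (nat_lit 0) (XT.nd (nat_lit 156) (nat_lit 608) (nat_lit 0) (XT.nd (nat_lit 78) (nat_lit 532) (nat_lit 0) (XT.lf (nat_lit 0) (nat_lit 665663902) (nat_lit 684) (nat_lit 1348441727) (nat_lit 76) (nat_lit 8751453308)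 (nat_lit 227) (nat_lit 5) (nat_lit 236) (nat_lit 5) (nat_lit 228) (nat_lit 5) (nat_lit 453) (nat_lit 391) (nat_lit 296)) (XT.lf (nat_lit 0) (nat_lit 3003400424) (nat_lit 608) (nat_lit 6124213684) (nat_lit 76) (nat_lit 1757373271) (nat_lit 220) (nat_lit 5) (nat_lit 228) (nat_lit 5) (nat_lit 221) (nat_lit 5) (nat_lit 454) (nat_lit 391) (nat_lit 295))) (XT.nd (nat_lit 78) (nat_lit 608) (nat_lit 0) (XT.lf (nat_lit 0) (nat_lit 5388282390) (nat_lit 608) (nat_lit 37153087) (nat_lit 76) (nat_lit 5581373282) (nat_lit 220) (nat_lit 5) (nat_lit 228) (nat_lit 5) (nat_lit 221) (nat_lit 5) (nat_lit 455) (nat_lit 391) (nat_lit 294)) (XT.lf (nat_lit 0) (nat_lit 6226264946) (nat_lit 608) (nat_lit 1613398155) (nat_lit 684) (nat_lit 3291039386) (nat_lit 212) (nat_lit 5) (nat_lit 220) (nat_lit 5) (nat_lit 221) (nat_lit 5) (nat_lit 456) (nat_lit 391) (nat_lit 293)))) (XT.nd (nat_lit 156) (nat_lit 532) (nat_lit 0) (XT.nd (nat_lit 78)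 (nat_lit 76) (nat_lit 0) (XT.lf (nat_lit 0) (nat_lit 1333839723) (nat_lit 532) (nat_lit 9008502871) (nat_lit 608) (nat_lit 914697783) (nat_lit 205) (nat_lit 5) (nat_lit 212) (nat_lit 5) (nat_lit 213) (nat_lit 5) (nat_lit 457) (nat_lit 391) (nat_lit 292)) (XT.lf (nat_lit 0) (nat_lit 1511874097) (nat_lit 608) (nat_lit 3669967728) (nat_lit 76) (nat_lit 6203428551) (nat_lit 204) (nat_lit 5) (nat_lit 212) (nat_lit 5) (nat_lit 205) (nat_lit 5) (nat_lit 458) (nat_lit 391) (nat_lit 291))) (XT.nd (nat_lit 78) (nat_lit 0) (nat_lit 0) (XT.lf (nat_lit 0) (nat_lit 2710981024) (nat_lit 532) (nat_lit 1260461937) (nat_lit 608) (nat_lit 7544577859) (nat_lit 197) (nat_lit 5) (nat_lit 204) (nat_lit 5) (nat_lit 205) (nat_lit 5) (nat_lit 459) (nat_lit 391) (nat_lit 290)) (XT.lf (nat_lit 0) (nat_lit 6502077415) (nat_lit 608) (nat_lit 2424601028) (nat_lit 76) (nat_lit 2722281162) (nat_lit 197) (nat_lit 5) (nat_lit 205) (nat_lit 5) (nat_lit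 198) (nat_lit 5) (nat_lit 460) (nat_lit 391) (nat_lit 289))))))))
noncomputable def xc130 : XT := (XT.nd (nat_lit 2184) (nat_lit 3952) (nat_lit 0) (XT.nd (nat_lit 1092) (nat_lit 2736) (nat_lit 0) (XT.nd (nat_lit 546) (nat_lit 1824) (nat_lit 0) (XT.nd (nat_lit 234) (nat_lit 988) (nat_lit 0) (XT.nd (nat_lit 78) (nat_lit 608) (nat_lit 0) (XT.lf (nat_lit 0) (nat_lit 4102378307) (nat_lit 456) (nat_lit 4995633015) (nat_lit 532) (nat_lit 2686262714) (nat_lit 191) (nat_lit 5) (nat_lit 197) (nat_lit 5) (nat_lit 198) (nat_lit 5) (nat_lit 461) (nat_lit 391) (nat_lit 288)) (XT.nd (nat_lit 78) (nat_lit 608) (nat_lit 0) (XT.lf (nat_lit 0) (nat_lit 10766413630) (nat_lit 456) (nat_lit 975651482) (nat_lit 532) (nat_lit 180316016) (nat_lit 191) (nat_lit 5) (nat_lit 197) (nat_lit 5) (nat_lit 198) (nat_lit 5) (nat_lit 462) (nat_lit 391) (nat_lit 287)) (XT.lf (nat_lit 0) (nat_lit 2381276338) (nat_lit 608) (nat_lit 6551722348) (nat_lit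 76) (nat_lit 3129219468) (nat_lit 183) (nat_lit 5) (nat_lit 191) (nat_lit 5) (nat_lit 184) (nat_lit 5) (nat_lit 463) (nat_lit 391) (nat_lit 286)))) (XT.nd (nat_lit 156) (nat_lit 532) (nat_lit 0) (XT.nd (nat_lit 78) (nat_lit 0) (nat_lit 0) (XT.lf (nat_lit 0) (nat_lit 88418697) (nat_lit 456) (nat_lit 4898476546) (nat_lit 532) (nat_lit 7218038456) (nat_lit 177) (nat_lit 5) (nat_lit 183) (nat_lit 5) (nat_lit 184) (nat_lit 5) (nat_lit 464) (nat_lit 391) (nat_lit 285)) (XT.lf (nat_lit 0) (nat_lit 6924050691) (nat_lit 456) (nat_lit 745119791) (nat_lit 532) (nat_lit 4680851798) (nat_lit 177) (nat_lit 5) (nat_lit 183) (nat_lit 5) (nat_lit 184) (nat_lit 5) (nat_lit 465) (nat_lit 391) (nat_lit 284))) (XT.nd (nat_lit 78) (nat_lit 76) (nat_lit 0) (XT.lf (nat_lit 0) (nat_lit 1367694820) (nat_lit 456) (nat_lit 9049860864) (nat_lit 532) (nat_lit 2080217077) (nat_lit 171) (nat_lit 5) (nat_lit 177) (nat_lit 5) (nat_lit 178) (nat_lit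 5) (nat_lit 466) (nat_lit 391) (nat_lit 283)) (XT.lf (nat_lit 0) (nat_lit 587498888) (nat_lit 532) (nat_lit 4311905790) (nat_lit 76) (nat_lit 7748556771) (nat_lit 170) (nat_lit 5) (nat_lit 177) (nat_lit 5) (nat_lit 171) (nat_lit 5) (nat_lit 467) (nat_lit 391) (nat_lit 282))))) (XT.nd (nat_lit 234) (nat_lit 912) (nat_lit 0) (XT.nd (nat_lit 78) (nat_lit 456) (nat_lit 0) (XT.lf (nat_lit 0) (nat_lit 2637912489) (nat_lit 456) (nat_lit 641317701) (nat_lit 532) (nat_lit 9521687287) (nat_lit 164) (nat_lit 5) (nat_lit 170) (nat_lit 5) (nat_lit 171) (nat_lit 5) (nat_lit 468) (nat_lit 391) (nat_lit 281)) (XT.nd (nat_lit 78) (nat_lit 456) (nat_lit 0) (XT.lf (nat_lit 0) (nat_lit 6059476026) (nat_lit 532) (nat_lit 3221106948) (nat_lit 76) (nat_lit 3675664754) (nat_lit 164) (nat_lit 5) (nat_lit 171) (nat_lit 5) (nat_lit 165) (nat_lit 5) (nat_lit 469) (nat_lit 391) (nat_lit 280)) (XT.lf (nat_lit 0) (nat_lit 3881084843) (nat_lit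 456) (nat_lit 5025567780) (nat_lit 532) (nat_lit 4207813973) (nat_lit 158) (nat_lit 5) (nat_lit 164) (nat_lit 5) (nat_lit 165) (nat_lit 5) (nat_lit 470) (nat_lit 391) (nat_lit 279)))) (XT.nd (nat_lit 156) (nat_lit 456) (nat_lit 0) (XT.nd (nat_lit 78) (nat_lit 456) (nat_lit 0) (XT.lf (nat_lit 0) (nat_lit 11143951002) (nat_lit 456) (nat_lit 670509968) (nat_lit 532) (nat_lit 1461323469) (nat_lit 158) (nat_lit 5) (nat_lit 164) (nat_lit 5) (nat_lit 165) (nat_lit 5) (nat_lit 471) (nat_lit 391) (nat_lit 278)) (XT.lf (nat_lit 0) (nat_lit 1362951687) (nat_lit 456) (nat_lit 8318821794) (nat_lit 76) (nat_lit 3757580570) (nat_lit 152) (nat_lit 5) (nat_lit 158) (nat_lit 5) (nat_lit 153) (nat_lit 5) (nat_lit 472) (nat_lit 391) (nat_lit 277))) (XT.nd (nat_lit 78) (nat_lit 456) (nat_lit 0) (XT.lf (nat_lit 0) (nat_lit 4225445410) (nat_lit 456) (nat_lit 1098212726) (nat_lit 76) (nat_lit 8282325608) (nat_lit 152) (nat_lit 5) (nat_lit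 158) (nat_lit 5) (nat_lit 153) (nat_lit 5) (nat_lit 473) (nat_lit 391) (nat_lit 276)) (XT.lf (nat_lit 0) (nat_lit 6325321372) (nat_lit 456) (nat_lit 843721078) (nat_lit 532) (nat_lit 6606434238) (nat_lit 146) (nat_lit 5) (nat_lit 152) (nat_lit 5) (nat_lit 153) (nat_lit 5) (nat_lit 474) (nat_lit 391) (nat_lit 275)))))) (XT.nd (nat_lit 546) (nat_lit 1140) (nat_lit 0) (XT.nd (nat_lit 234) (nat_lit 760) (nat_lit 0) (XT.nd (nat_lit 78) (nat_lit 836) (nat_lit 0) (XT.lf (nat_lit 0) (nat_lit 10186038352) (nat_lit 532) (nat_lit 84823909) (nat_lit 76) (nat_lit 3677214266) (nat_lit 146) (nat_lit 5) (nat_lit 153) (nat_lit 5) (nat_lit 147) (nat_lit 5) (nat_lit 475) (nat_lit 391) (nat_lit 274)) (XT.nd (nat_lit 78) (nat_lit 456) (nat_lit 0) (XT.lf (nat_lit 0) (nat_lit 7496440540) (nat_lit 380) (nat_lit 5804446061) (nat_lit 456) (nat_lit 822498936) (nat_lit 141) (nat_lit 5) (nat_lit 146) (nat_lit 5) (nat_lit 147) (nat_lit 5) (nat_lit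 476) (nat_lit 391) (nat_lit 273)) (XT.lf (nat_lit 0) (nat_lit 901813913) (nat_lit 380) (nat_lit 1235217885) (nat_lit 456) (nat_lit 12165098786) (nat_lit 135) (nat_lit 5) (nat_lit 140) (nat_lit 5) (nat_lit 141) (nat_lit 5) (nat_lit 477) (nat_lit 391) (nat_lit 272)))) (XT.nd (nat_lit 156) (nat_lit 380) (nat_lit 0) (XT.nd (nat_lit 78) (nat_lit 380) (nat_lit 0) (XT.lf (nat_lit 0) (nat_lit 5195186579) (nat_lit 456) (nat_lit 5864867861) (nat_lit 76) (nat_lit 3423285422) (nat_lit 135) (nat_lit 5) (nat_lit 141) (nat_lit 5) (nat_lit 136) (nat_lit 5) (nat_lit 478) (nat_lit 391) (nat_lit 271)) (XT.lf (nat_lit 0) (nat_lit 1813061573) (nat_lit 380) (nat_lit 6505151266) (nat_lit 456) (nat_lit 6349893177) (nat_lit 130) (nat_lit 5) (nat_lit 135) (nat_lit 5) (nat_lit 136) (nat_lit 5) (nat_lit 479) (nat_lit 391) (nat_lit 270))) (XT.nd (nat_lit 78) (nat_lit 380) (nat_lit 0) (XT.lf (nat_lit 0) (nat_lit 9700379447) (nat_lit 380) (nat_lit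 1826597882) (nat_lit 456) (nat_lit 3329131336) (nat_lit 130) (nat_lit 5) (nat_lit 135) (nat_lit 5) (nat_lit 136) (nat_lit 5) (nat_lit 480) (nat_lit 391) (nat_lit 269)) (XT.lf (nat_lit 0) (nat_lit 2690251735) (nat_lit 380) (nat_lit 12130444884) (nat_lit 456) (nat_lit 226765750) (nat_lit 125) (nat_lit 5) (nat_lit 130) (nat_lit 5) (nat_lit 131) (nat_lit 5) (nat_lit 481) (nat_lit 391) (nat_lit 268))))) (XT.nd (nat_lit 234) (nat_lit 760) (nat_lit 0) (XT.nd (nat_lit 78) (nat_lit 304) (nat_lit 0) (XT.lf (nat_lit 0) (nat_lit 2930279680) (nat_lit 456) (nat_lit 4533851323) (nat_lit 76) (nat_lit 7777513813) (nat_lit 124) (nat_lit 5) (nat_lit 130) (nat_lit 5) (nat_lit 125) (nat_lit 5) (nat_lit 482) (nat_lit 391) (nat_lit 267)) (XT.nd (nat_lit 78) (nat_lit 0) (nat_lit 0) (XT.lf (nat_lit 0) (nat_lit 3466862776) (nat_lit 304) (nat_lit 2687624792) (nat_lit 380) (nat_lit 9285058420) (nat_lit 120) (nat_lit 5) (nat_lit 124) (nat_lit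 5) (nat_lit 125) (nat_lit 5) (nat_lit 483) (nat_lit 391) (nat_lit 266)) (XT.lf (nat_lit 0) (nat_lit 9472638850) (nat_lit 380) (nat_lit 3989322021) (nat_lit 76) (nat_lit 2178861219) (nat_lit 120) (nat_lit 5) (nat_lit 125) (nat_lit 5) (nat_lit 121) (nat_lit 5) (nat_lit 484) (nat_lit 391) (nat_lit 265)))) (XT.nd (nat_lit 156) (nat_lit 304) (nat_lit 0) (XT.nd (nat_lit 78) (nat_lit 76) (nat_lit 0) (XT.lf (nat_lit 0) (nat_lit 4167834256) (nat_lit 380) (nat_lit 8719129624) (nat_lit 456) (nat_lit 2958569591) (nat_lit 115) (nat_lit 5) (nat_lit 120) (nat_lit 5) (nat_lit 121) (nat_lit 5) (nat_lit 485) (nat_lit 391) (nat_lit 264)) (XT.lf (nat_lit 0) (nat_lit 323045200) (nat_lit 456) (nat_lit 3536608474) (nat_lit 76) (nat_lit 12194411346) (nat_lit 114) (nat_lit 5) (nat_lit 120) (nat_lit 5) (nat_lit 115) (nat_lit 5) (nat_lit 486) (nat_lit 391) (nat_lit 263))) (XT.nd (nat_lit 78) (nat_lit 0) (nat_lit 0) (XT.lf (nat_lit 0) (nat_lit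 3654500335) (nat_lit 380) (nat_lit 11485297353) (nat_lit 76) (nat_lit 1126107551) (nat_lit 110) (nat_lit 5) (nat_lit 115) (nat_lit 5) (nat_lit 111) (nat_lit 5) (nat_lit 487) (nat_lit 391) (nat_lit 262)) (XT.lf (nat_lit 0) (nat_lit 7087419360) (nat_lit 380) (nat_lit 3217561344) (nat_lit 76) (nat_lit 6176310381) (nat_lit 110) (nat_lit 5) (nat_lit 115) (nat_lit 5) (nat_lit 111) (nat_lit 5) (nat_lit 488) (nat_lit 391) (nat_lit 261))))))) (XT.nd (nat_lit 1092) (nat_lit 1748) (nat_lit 0) (XT.nd (nat_lit 546) (nat_lit 988) (nat_lit 0) (XT.nd (nat_lit 234) (nat_lit 532) (nat_lit 0) (XT.nd (nat_lit 78) (nat_lit 380) (nat_lit 0) (XT.lf (nat_lit 0) (nat_lit 5262544509) (nat_lit 304) (nat_lit 5346291257) (nat_lit 380) (nat_lit 6091757509) (nat_lit 106) (nat_lit 5) (nat_lit 110) (nat_lit 5) (nat_lit 111) (nat_lit 5) (nat_lit 489) (nat_lit 391) (nat_lit 260)) (XT.nd (nat_lit 78) (nat_lit 380) (nat_lit 0) (XT.lf (nat_lit 0) (nat_lit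 13934008040) (nat_lit 304) (nat_lit 274074097) (nat_lit 380) (nat_lit 2716056642) (nat_lit 106) (nat_lit 5) (nat_lit 110) (nat_lit 5) (nat_lit 111) (nat_lit 5) (nat_lit 490) (nat_lit 391) (nat_lit 259)) (XT.lf (nat_lit 0) (nat_lit 772494476) (nat_lit 380) (nat_lit 11508817493) (nat_lit 76) (nat_lit 4869656436) (nat_lit 101) (nat_lit 5) (nat_lit 106) (nat_lit 5) (nat_lit 102) (nat_lit 5) (nat_lit 491) (nat_lit 391) (nat_lit 258)))) (XT.nd (nat_lit 156) (nat_lit 228) (nat_lit 0) (XT.nd (nat_lit 78) (nat_lit 304) (nat_lit 0) (XT.lf (nat_lit 0) (nat_lit 4302572828) (nat_lit 380) (nat_lit 2935971005) (nat_lit 76) (nat_lit 10143274242) (nat_lit 101) (nat_lit 5) (nat_lit 106) (nat_lit 5) (nat_lit 102) (nat_lit 5) (nat_lit 492) (nat_lit 391) (nat_lit 257)) (XT.lf (nat_lit 0) (nat_lit 5863952119) (nat_lit 304) (nat_lit 2063723215) (nat_lit 380) (nat_lit 9689125851) (nat_lit 97) (nat_lit 5) (nat_lit 101) (nat_lit 5) (nat_lit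 102) (nat_lit 5) (nat_lit 493) (nat_lit 391) (nat_lit 256))) (XT.nd (nat_lit 78) (nat_lit 228) (nat_lit 0) (XT.lf (nat_lit 0) (nat_lit 11652414300) (nat_lit 380) (nat_lit 3018792814) (nat_lit 76) (nat_lit 3184738957) (nat_lit 97) (nat_lit 5) (nat_lit 102) (nat_lit 5) (nat_lit 98) (nat_lit 5) (nat_lit 494) (nat_lit 391) (nat_lit 255)) (XT.lf (nat_lit 0) (nat_lit 5933138057) (nat_lit 228) (nat_lit 9557395708) (nat_lit 304) (nat_lit 2608567085) (nat_lit 94) (nat_lit 5) (nat_lit 97) (nat_lit 5) (nat_lit 98) (nat_lit 5) (nat_lit 495) (nat_lit 391) (nat_lit 254))))) (XT.nd (nat_lit 234) (nat_lit 608) (nat_lit 0) (XT.nd (nat_lit 78) (nat_lit 304) (nat_lit 0) (XT.lf (nat_lit 0) (nat_lit 1051539670) (nat_lit 304) (nat_lit 3269687468) (nat_lit 76) (nat_lit 14025616238) (nat_lit 93) (nat_lit 5) (nat_lit 97) (nat_lit 5) (nat_lit 94) (nat_lit 5) (nat_lit 496) (nat_lit 391) (nat_lit 253)) (XT.nd (nat_lit 78) (nat_lit 0) (nat_lit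 0) (XT.lf (nat_lit 0) (nat_lit 4781818680) (nat_lit 380) (nat_lit 12762348988) (nat_lit 76) (nat_lit 1054394693) (nat_lit 89) (nat_lit 5) (nat_lit 94) (nat_lit 5) (nat_lit 90) (nat_lit 5) (nat_lit 497) (nat_lit 391) (nat_lit 252)) (XT.lf (nat_lit 0) (nat_lit 8624471373) (nat_lit 380) (nat_lit 3735748408) (nat_lit 76) (nat_lit 6494344933) (nat_lit 89) (nat_lit 5) (nat_lit 94) (nat_lit 5) (nat_lit 90) (nat_lit 5) (nat_lit 498) (nat_lit 391) (nat_lit 251)))) (XT.nd (nat_lit 156) (nat_lit 380) (nat_lit 0) (XT.nd (nat_lit 78) (nat_lit 0) (nat_lit 0) (XT.lf (nat_lit 0) (nat_lit 5523569426) (nat_lit 228) (nat_lit 7043588089) (nat_lit 304) (nat_lit 6548070256) (nat_lit 86) (nat_lit 5) (nat_lit 89) (nat_lit 5) (nat_lit 90) (nat_lit 5) (nat_lit 499) (nat_lit 391) (nat_lit 250)) (XT.lf (nat_lit 0) (nat_lit 14998588579) (nat_lit 228) (nat_lit 1602613371) (nat_lit 304) (nat_lit 2779656228) (nat_lit 86) (nat_lit 5) (nat_lit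 89) (nat_lit 5) (nat_lit 90) (nat_lit 5) (nat_lit 500) (nat_lit 391) (nat_lit 249))) (XT.nd (nat_lit 78) (nat_lit 0) (nat_lit 0) (XT.lf (nat_lit 0) (nat_lit 1096401085) (nat_lit 380) (nat_lit 14626360301) (nat_lit 76) (nat_lit 3927981022) (nat_lit 81) (nat_lit 5) (nat_lit 86) (nat_lit 5) (nat_lit 82) (nat_lit 5) (nat_lit 501) (nat_lit 391) (nat_lit 248)) (XT.lf (nat_lit 0) (nat_lit 5040672936) (nat_lit 380) (nat_lit 5296051514) (nat_lit 76) (nat_lit 9588378082) (nat_lit 81) (nat_lit 5) (nat_lit 86) (nat_lit 5) (nat_lit 82) (nat_lit 5) (nat_lit 502) (nat_lit 391) (nat_lit 247)))))) (XT.nd (nat_lit 546) (nat_lit 760) (nat_lit 0) (XT.nd (nat_lit 234) (nat_lit 532) (nat_lit 0) (XT.nd (nat_lit 78) (nat_lit 228) (nat_lit 0) (XT.lf (nat_lit 0) (nat_lit 4257119271) (nat_lit 228) (nat_lit 4822255677) (nat_lit 304) (nat_lit 11125267880) (nat_lit 78) (nat_lit 5) (nat_lit 81) (nat_lit 5) (nat_lit 82) (nat_lit 5) (nat_lit 503)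 (nat_lit 391) (nat_lit 246)) (XT.nd (nat_lit 78) (nat_lit 228) (nat_lit 0) (XT.lf (nat_lit 0) (nat_lit 13227803146) (nat_lit 304) (nat_lit 6441009317) (nat_lit 76) (nat_lit 820386211) (nat_lit 78) (nat_lit 5) (nat_lit 82) (nat_lit 5) (nat_lit 79) (nat_lit 5) (nat_lit 504) (nat_lit 391) (nat_lit 245)) (XT.lf (nat_lit 0) (nat_lit 3247026965) (nat_lit 228) (nat_lit 14253393315) (nat_lit 304) (nat_lit 3278204661) (nat_lit 75) (nat_lit 5) (nat_lit 78) (nat_lit 5) (nat_lit 79) (nat_lit 5) (nat_lit 505) (nat_lit 391) (nat_lit 244)))) (XT.nd (nat_lit 156) (nat_lit 228) (nat_lit 0) (XT.nd (nat_lit 78) (nat_lit 228) (nat_lit 0) (XT.lf (nat_lit 0) (nat_lit 806097144) (nat_lit 304) (nat_lit 7881513861) (nat_lit 76) (nat_lit 12385495650) (nat_lit 74) (nat_lit 5) (nat_lit 78) (nat_lit 5) (nat_lit 75) (nat_lit 5) (nat_lit 506) (nat_lit 391) (nat_lit 243)) (XT.lf (nat_lit 0) (nat_lit 1946477218) (nat_lit 228) (nat_lit 2982851405)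 (nat_lit 304) (nat_lit 16443696724) (nat_lit 71) (nat_lit 5) (nat_lit 74) (nat_lit 5) (nat_lit 75) (nat_lit 5) (nat_lit 507) (nat_lit 391) (nat_lit 242))) (XT.nd (nat_lit 78) (nat_lit 228) (nat_lit 0) (XT.lf (nat_lit 0) (nat_lit 9195193803) (nat_lit 304) (nat_lit 9637757121) (nat_lit 76) (nat_lit 2844791536) (nat_lit 71) (nat_lit 5) (nat_lit 75) (nat_lit 5) (nat_lit 72) (nat_lit 5) (nat_lit 508) (nat_lit 391) (nat_lit 241)) (XT.lf (nat_lit 0) (nat_lit 312553815) (nat_lit 228) (nat_lit 13244347419) (nat_lit 304) (nat_lit 8431445547) (nat_lit 68) (nat_lit 5) (nat_lit 71) (nat_lit 5) (nat_lit 72) (nat_lit 5) (nat_lit 509) (nat_lit 391) (nat_lit 240))))) (XT.nd (nat_lit 312) (nat_lit 456) (nat_lit 0) (XT.nd (nat_lit 156) (nat_lit 228) (nat_lit 0) (XT.nd (nat_lit 78) (nat_lit 76) (nat_lit 0) (XT.lf (nat_lit 0) (nat_lit 10574034573) (nat_lit 228) (nat_lit 7485325097) (nat_lit 304) (nat_lit 4244736478) (nat_lit 68) (nat_lit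 5) (nat_lit 71) (nat_lit 5) (nat_lit 72) (nat_lit 5) (nat_lit 510) (nat_lit 391) (nat_lit 239)) (XT.lf (nat_lit 0) (nat_lit 14355199) (nat_lit 304) (nat_lit 1603848410) (nat_lit 76) (nat_lit 21008177011) (nat_lit 67) (nat_lit 5) (nat_lit 71) (nat_lit 5) (nat_lit 68) (nat_lit 5) (nat_lit 511) (nat_lit 391) (nat_lit 238))) (XT.nd (nat_lit 78) (nat_lit 0) (nat_lit 0) (XT.lf (nat_lit 0) (nat_lit 4377010992) (nat_lit 304) (nat_lit 14188284475) (nat_lit 76) (nat_lit 4387752882) (nat_lit 64) (nat_lit 5) (nat_lit 68) (nat_lit 5) (nat_lit 65) (nat_lit 5) (nat_lit 512) (nat_lit 391) (nat_lit 237)) (XT.lf (nat_lit 0) (nat_lit 8837722182) (nat_lit 304) (nat_lit 3952294092) (nat_lit 76) (nat_lit 10496020159) (nat_lit 64) (nat_lit 5) (nat_lit 68) (nat_lit 5) (nat_lit 65) (nat_lit 5) (nat_lit 513) (nat_lit 391) (nat_lit 236)))) (XT.nd (nat_lit 156) (nat_lit 228) (nat_lit 0) (XT.nd (nat_lit 78) (nat_lit 0) (nat_lit 0) (XT.lf (nat_lit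 0) (nat_lit 6556800847) (nat_lit 228) (nat_lit 6862880356) (nat_lit 304) (nat_lit 10205365390) (nat_lit 61) (nat_lit 5) (nat_lit 64) (nat_lit 5) (nat_lit 65) (nat_lit 5) (nat_lit 514) (nat_lit 391) (nat_lit 235)) (XT.lf (nat_lit 0) (nat_lit 17312159047) (nat_lit 228) (nat_lit 797197879) (nat_lit 304) (nat_lit 5861161406) (nat_lit 61) (nat_lit 5) (nat_lit 64) (nat_lit 5) (nat_lit 65) (nat_lit 5) (nat_lit 515) (nat_lit 391) (nat_lit 234))) (XT.nd (nat_lit 78) (nat_lit 76) (nat_lit 0) (XT.lf (nat_lit 0) (nat_lit 3959345464) (nat_lit 152) (nat_lit 18983897018) (nat_lit 228) (nat_lit 1378651569) (nat_lit 59) (nat_lit 5) (nat_lit 61) (nat_lit 5) (nat_lit 62) (nat_lit 5) (nat_lit 516) (nat_lit 391) (nat_lit 233)) (XT.lf (nat_lit 0) (nat_lit 3191616655) (nat_lit 228) (nat_lit 9843391365) (nat_lit 76) (nat_lit 11644077502) (nat_lit 58) (nat_lit 5) (nat_lit 61) (nat_lit 5) (nat_lit 59) (nat_lit 5) (nat_lit 517) (nat_lit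 391) (nat_lit 232))))))))
noncomputable def xc131 : XT := (XT.nd (nat_lit 50934) (nat_lit 0) (nat_lit 19304) (XT.nd (nat_lit 49842) (nat_lit 0) (nat_lit 37316) (XT.nd (nat_lit 546) (nat_lit 152) (nat_lit 0) (XT.nd (nat_lit 234) (nat_lit 456) (nat_lit 0) (XT.nd (nat_lit 78) (nat_lit 0) (nat_lit 0) (XT.lf (nat_lit 0) (nat_lit 871449949) (nat_lit 228) (nat_lit 6958991883) (nat_lit 304) (nat_lit 17212887203) (nat_lit 55) (nat_lit 5) (nat_lit 58) (nat_lit 5) (nat_lit 59) (nat_lit 5) (nat_lit 518) (nat_lit 391) (nat_lit 231)) (XT.nd (nat_lit 78) (nat_lit 0) (nat_lit 0) (XT.lf (nat_lit 0) (nat_lit 11917131549) (nat_lit 228) (nat_lit 700990435) (nat_lit 304) (nat_lit 12795616516) (nat_lit 55) (nat_lit 5) (nat_lit 58) (nat_lit 5) (nat_lit 59) (nat_lit 5) (nat_lit 519) (nat_lit 391) (nat_lit 230)) (XT.lf (nat_lit 0) (nat_lit 17528623915) (nat_lit 304) (nat_lit 2661431212) (nat_lit 76) (nat_lit 5600962264) (nat_lit 55) (nat_lit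 5) (nat_lit 59) (nat_lit 5) (nat_lit 56) (nat_lit 5) (nat_lit 520) (nat_lit 391) (nat_lit 229)))) (XT.nd (nat_lit 156) (nat_lit 228) (nat_lit 0) (XT.nd (nat_lit 78) (nat_lit 76) (nat_lit 0) (XT.lf (nat_lit 0) (nat_lit 8480649181) (nat_lit 152) (nat_lit 14106759406) (nat_lit 228) (nat_lit 3587434366) (nat_lit 53) (nat_lit 5) (nat_lit 55) (nat_lit 5) (nat_lit 56) (nat_lit 5) (nat_lit 521) (nat_lit 391) (nat_lit 228)) (XT.lf (nat_lit 0) (nat_lit 1173898341) (nat_lit 228) (nat_lit 6708530740) (nat_lit 76) (nat_lit 18683597762) (nat_lit 52) (nat_lit 5) (nat_lit 55) (nat_lit 5) (nat_lit 53) (nat_lit 5) (nat_lit 522) (nat_lit 391) (nat_lit 227))) (XT.nd (nat_lit 78) (nat_lit 0) (nat_lit 0) (XT.lf (nat_lit 0) (nat_lit 4516236393) (nat_lit 228) (nat_lit 1486127258) (nat_lit 304) (nat_lit 20961800067) (nat_lit 49) (nat_lit 5) (nat_lit 52) (nat_lit 5) (nat_lit 53) (nat_lit 5) (nat_lit 523) (nat_lit 391) (nat_lit 226)) (XT.lf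 (nat_lit 0) (nat_lit 10996037274) (nat_lit 304) (nat_lit 11362059975) (nat_lit 76) (nat_lit 5010795656) (nat_lit 49) (nat_lit 5) (nat_lit 53) (nat_lit 5) (nat_lit 50) (nat_lit 5) (nat_lit 524) (nat_lit 391) (nat_lit 225))))) (XT.nd (nat_lit 48984) (nat_lit 0) (nat_lit 41116) (XT.nd (nat_lit 78) (nat_lit 152) (nat_lit 0) (XT.lf (nat_lit 0) (nat_lit 16090222755) (nat_lit 304) (nat_lit 80123992) (nat_lit 76) (nat_lit 11611359470) (nat_lit 49) (nat_lit 5) (nat_lit 53) (nat_lit 5) (nat_lit 50) (nat_lit 5) (nat_lit 525) (nat_lit 391) (nat_lit 224)) (XT.nd (nat_lit 78) (nat_lit 0) (nat_lit 0) (XT.lf (nat_lit 0) (nat_lit 11563612697) (nat_lit 152) (nat_lit 9788734836) (nat_lit 228) (nat_lit 6849109413) (nat_lit 47) (nat_lit 5) (nat_lit 49) (nat_lit 5) (nat_lit 50) (nat_lit 5) (nat_lit 526) (nat_lit 391) (nat_lit 223)) (XT.lf (nat_lit 0) (nat_lit 23425915303) (nat_lit 152) (nat_lit 3285391091) (nat_lit 228) (nat_lit 1918466684)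 (nat_lit 47) (nat_lit 5) (nat_lit 49) (nat_lit 5) (nat_lit 50) (nat_lit 5) (nat_lit 527) (nat_lit 391) (nat_lit 222)))) (XT.nd (nat_lit 156) (nat_lit 836) (nat_lit 0) (XT.nd (nat_lit 78) (nat_lit 0) (nat_lit 0) (XT.lf (nat_lit 0) (nat_lit 1046994956) (nat_lit 836) (nat_lit 1157220658) (nat_lit 836) (nat_lit 1157220658) (nat_lit 599) (nat_lit 3) (nat_lit 610) (nat_lit 3) (nat_lit 610) (nat_lit 5) (nat_lit 392) (nat_lit 392) (nat_lit 356)) (XT.lf (nat_lit 76) (nat_lit 837592821) (nat_lit 0) (nat_lit 3337180301) (nat_lit 836) (nat_lit 2572080486) (nat_lit 600) (nat_lit 5) (nat_lit 599) (nat_lit 3) (nat_lit 610) (nat_lit 5) (nat_lit 393) (nat_lit 392) (nat_lit 355))) (XT.nd (nat_lit 78) (nat_lit 836) (nat_lit 0) (XT.lf (nat_lit 76) (nat_lit 4056165247) (nat_lit 0) (nat_lit 2202469098) (nat_lit 836) (nat_lit 513504492) (nat_lit 600) (nat_lit 5) (nat_lit 599) (nat_lit 3) (nat_lit 610) (nat_lit 5) (nat_lit 394) (nat_lit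 392) (nat_lit 354)) (XT.lf (nat_lit 76) (nat_lit 509472024) (nat_lit 0) (nat_lit 1005863270) (nat_lit 912) (nat_lit 5283442280) (nat_lit 589) (nat_lit 5) (nat_lit 588) (nat_lit 5) (nat_lit 600) (nat_lit 5) (nat_lit 395) (nat_lit 392) (nat_lit 353)))))) (XT.nd (nat_lit 546) (nat_lit 2052) (nat_lit 0) (XT.nd (nat_lit 234) (nat_lit 912) (nat_lit 0) (XT.nd (nat_lit 78) (nat_lit 912) (nat_lit 0) (XT.lf (nat_lit 0) (nat_lit 3545236995) (nat_lit 836) (nat_lit 3023424465) (nat_lit 912) (nat_lit 257923212) (nat_lit 589) (nat_lit 5) (nat_lit 600) (nat_lit 5) (nat_lit 601) (nat_lit 5) (nat_lit 396) (nat_lit 392) (nat_lit 352)) (XT.nd (nat_lit 78) (nat_lit 912) (nat_lit 0) (XT.lf (nat_lit 76) (nat_lit 276139436) (nat_lit 0) (nat_lit 5296693083) (nat_lit 912) (nat_lit 1283023174) (nat_lit 590) (nat_lit 5) (nat_lit 589) (nat_lit 5) (nat_lit 601) (nat_lit 5) (nat_lit 397) (nat_lit 392) (nat_lit 351)) (XT.lf (nat_lit 0) (nat_lit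 714866873) (nat_lit 912) (nat_lit 3236797891) (nat_lit 988) (nat_lit 2934606973) (nat_lit 577) (nat_lit 5) (nat_lit 589) (nat_lit 5) (nat_lit 590) (nat_lit 5) (nat_lit 398) (nat_lit 392) (nat_lit 350)))) (XT.nd (nat_lit 156) (nat_lit 912) (nat_lit 0) (XT.nd (nat_lit 78) (nat_lit 0) (nat_lit 0) (XT.lf (nat_lit 76) (nat_lit 137728133) (nat_lit 0) (nat_lit 2548796990) (nat_lit 988) (nat_lit 4231628390) (nat_lit 578) (nat_lit 5) (nat_lit 577) (nat_lit 5) (nat_lit 590) (nat_lit 5) (nat_lit 399) (nat_lit 392) (nat_lit 349)) (XT.lf (nat_lit 76) (nat_lit 3595248027) (nat_lit 0) (nat_lit 1074963546) (nat_lit 988) (nat_lit 2281055365) (nat_lit 578) (nat_lit 5) (nat_lit 577) (nat_lit 5) (nat_lit 590) (nat_lit 5) (nat_lit 400) (nat_lit 392) (nat_lit 348))) (XT.nd (nat_lit 78) (nat_lit 988) (nat_lit 0) (XT.lf (nat_lit 76) (nat_lit 106535467) (nat_lit 0) (nat_lit 6542478857) (nat_lit 988) (nat_lit 336964466) (nat_lit 579) (nat_lit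 5) (nat_lit 578) (nat_lit 5) (nat_lit 591) (nat_lit 5) (nat_lit 401) (nat_lit 392) (nat_lit 347)) (XT.lf (nat_lit 0) (nat_lit 1606577452) (nat_lit 988) (nat_lit 3384499003) (nat_lit 1064) (nat_lit 2030494812) (nat_lit 565) (nat_lit 5) (nat_lit 578) (nat_lit 5) (nat_lit 579) (nat_lit 5) (nat_lit 402) (nat_lit 392) (nat_lit 346))))) (XT.nd (nat_lit 234) (nat_lit 1064) (nat_lit 0) (XT.nd (nat_lit 78) (nat_lit 988) (nat_lit 0) (XT.lf (nat_lit 76) (nat_lit 151231268) (nat_lit 0) (nat_lit 3387535193) (nat_lit 1064) (nat_lit 3520021236) (nat_lit 566) (nat_lit 5) (nat_lit 565) (nat_lit 5) (nat_lit 579) (nat_lit 5) (nat_lit 403) (nat_lit 392) (nat_lit 345)) (XT.nd (nat_lit 78) (nat_lit 988) (nat_lit 0) (XT.lf (nat_lit 76) (nat_lit 3774879011) (nat_lit 0) (nat_lit 1711463571) (nat_lit 1064) (nat_lit 1610912591) (nat_lit 566) (nat_lit 5) (nat_lit 565) (nat_lit 5) (nat_lit 579) (nat_lit 5) (nat_lit 404) (nat_lit 392) (nat_lit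 344)) (XT.lf (nat_lit 0) (nat_lit 288681580) (nat_lit 1064) (nat_lit 6829878178) (nat_lit 1140) (nat_lit 18794230) (nat_lit 552) (nat_lit 5) (nat_lit 566) (nat_lit 5) (nat_lit 567) (nat_lit 5) (nat_lit 405) (nat_lit 392) (nat_lit 343)))) (XT.nd (nat_lit 156) (nat_lit 1064) (nat_lit 0) (XT.nd (nat_lit 78) (nat_lit 0) (nat_lit 0) (XT.lf (nat_lit 0) (nat_lit 2193898217) (nat_lit 1064) (nat_lit 3174603330) (nat_lit 1140) (nat_lit 1809795440) (nat_lit 552) (nat_lit 5) (nat_lit 566) (nat_lit 5) (nat_lit 567) (nat_lit 5) (nat_lit 406) (nat_lit 392) (nat_lit 342)) (XT.lf (nat_lit 76) (nat_lit 531726370) (nat_lit 0) (nat_lit 3565223372) (nat_lit 1140) (nat_lit 3123952911) (nat_lit 553) (nat_lit 5) (nat_lit 552) (nat_lit 5) (nat_lit 567) (nat_lit 5) (nat_lit 407) (nat_lit 392) (nat_lit 341))) (XT.nd (nat_lit 78) (nat_lit 1064) (nat_lit 0) (XT.lf (nat_lit 76) (nat_lit 4326381869) (nat_lit 0) (nat_lit 1689932010) (nat_lit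 1140) (nat_lit 1248519186) (nat_lit 553) (nat_lit 5) (nat_lit 552) (nat_lit 5) (nat_lit 567) (nat_lit 5) (nat_lit 408) (nat_lit 392) (nat_lit 340)) (XT.lf (nat_lit 0) (nat_lit 620406228) (nat_lit 1140) (nat_lit 6446475728) (nat_lit 1216) (nat_lit 243416110) (nat_lit 538) (nat_lit 5) (nat_lit 553) (nat_lit 5) (nat_lit 554) (nat_lit 5) (nat_lit 409) (nat_lit 392) (nat_lit 339))))))) (XT.nd (nat_lit 1092) (nat_lit 9880) (nat_lit 0) (XT.nd (nat_lit 546) (nat_lit 5776) (nat_lit 0) (XT.nd (nat_lit 234) (nat_lit 2356) (nat_lit 0) (XT.nd (nat_lit 78) (nat_lit 0) (nat_lit 0) (XT.lf (nat_lit 0) (nat_lit 2499258627) (nat_lit 1140) (nat_lit 2623533799) (nat_lit 1216) (nat_lit 2233965057) (nat_lit 538) (nat_lit 5) (nat_lit 553) (nat_lit 5) (nat_lit 554) (nat_lit 5) (nat_lit 410) (nat_lit 392) (nat_lit 338)) (XT.nd (nat_lit 78) (nat_lit 0) (nat_lit 0) (XT.lf (nat_lit 76) (nat_lit 1263379461) (nat_lit 0) (nat_lit 3119540505)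 (nat_lit 1216) (nat_lit 3021916279) (nat_lit 539) (nat_lit 5) (nat_lit 538) (nat_lit 5) (nat_lit 554) (nat_lit 5) (nat_lit 411) (nat_lit 392) (nat_lit 337)) (XT.lf (nat_lit 76) (nat_lit 5234727884) (nat_lit 0) (nat_lit 1046777068) (nat_lit 1216) (nat_lit 1172860735) (nat_lit 539) (nat_lit 5) (nat_lit 538) (nat_lit 5) (nat_lit 554) (nat_lit 5) (nat_lit 412) (nat_lit 392) (nat_lit 336)))) (XT.nd (nat_lit 156) (nat_lit 1216) (nat_lit 0) (XT.nd (nat_lit 78) (nat_lit 0) (nat_lit 0) (XT.lf (nat_lit 0) (nat_lit 682566835) (nat_lit 1216) (nat_lit 5742158678) (nat_lit 76) (nat_lit 1080525500) (nat_lit 523) (nat_lit 5) (nat_lit 539) (nat_lit 5) (nat_lit 524) (nat_lit 5) (nat_lit 413) (nat_lit 392) (nat_lit 335)) (XT.lf (nat_lit 0) (nat_lit 2542144438) (nat_lit 1216) (nat_lit 1745648099) (nat_lit 76) (nat_lit 3269583679) (nat_lit 523) (nat_lit 5) (nat_lit 539) (nat_lit 5) (nat_lit 524) (nat_lit 5) (nat_lit 414) (nat_lit 392)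 (nat_lit 334))) (XT.nd (nat_lit 78) (nat_lit 0) (nat_lit 0) (XT.lf (nat_lit 0) (nat_lit 2332403588) (nat_lit 1216) (nat_lit 2083227562) (nat_lit 1292) (nat_lit 3195409936) (nat_lit 507) (nat_lit 5) (nat_lit 523) (nat_lit 5) (nat_lit 524) (nat_lit 5) (nat_lit 415) (nat_lit 392) (nat_lit 333)) (XT.lf (nat_lit 0) (nat_lit 6301652944) (nat_lit 1292) (nat_lit 1180652917) (nat_lit 76) (nat_lit 184002984) (nat_lit 507) (nat_lit 5) (nat_lit 524) (nat_lit 5) (nat_lit 508) (nat_lit 5) (nat_lit 416) (nat_lit 392) (nat_lit 332))))) (XT.nd (nat_lit 234) (nat_lit 3040) (nat_lit 0) (XT.nd (nat_lit 78) (nat_lit 1368) (nat_lit 0) (XT.lf (nat_lit 0) (nat_lit 492252037) (nat_lit 1368) (nat_lit 4730296560) (nat_lit 76) (nat_lit 2500175141) (nat_lit 489) (nat_lit 5) (nat_lit 507) (nat_lit 5) (nat_lit 490) (nat_lit 5) (nat_lit 417) (nat_lit 392) (nat_lit 331)) (XT.nd (nat_lit 78) (nat_lit 1368) (nat_lit 0) (XT.lf (nat_lit 0) (nat_lit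 2339226504) (nat_lit 1368) (nat_lit 553606606) (nat_lit 76) (nat_lit 4887858506) (nat_lit 489) (nat_lit 5) (nat_lit 507) (nat_lit 5) (nat_lit 490) (nat_lit 5) (nat_lit 418) (nat_lit 392) (nat_lit 330)) (XT.lf (nat_lit 0) (nat_lit 3726688290) (nat_lit 1368) (nat_lit 484578457) (nat_lit 1444) (nat_lit 3628818121) (nat_lit 471) (nat_lit 5) (nat_lit 489) (nat_lit 5) (nat_lit 490) (nat_lit 5) (nat_lit 419) (nat_lit 392) (nat_lit 329)))) (XT.nd (nat_lit 156) (nat_lit 1520) (nat_lit 0) (XT.nd (nat_lit 78) (nat_lit 76) (nat_lit 0) (XT.lf (nat_lit 0) (nat_lit 159365176) (nat_lit 1444) (nat_lit 5943456047) (nat_lit 1520) (nat_lit 1798231279) (nat_lit 452) (nat_lit 5) (nat_lit 471) (nat_lit 5) (nat_lit 472) (nat_lit 5) (nat_lit 420) (nat_lit 392) (nat_lit 328)) (XT.lf (nat_lit 0) (nat_lit 63802071) (nat_lit 1520) (nat_lit 3422888313) (nat_lit 76) (nat_lit 4476652261) (nat_lit 451) (nat_lit 5) (nat_lit 471) (nat_lit 5) (nat_lit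 452) (nat_lit 5) (nat_lit 421) (nat_lit 392) (nat_lit 327))) (XT.nd (nat_lit 78) (nat_lit 0) (nat_lit 0) (XT.lf (nat_lit 0) (nat_lit 953767566) (nat_lit 1520) (nat_lit 956880798) (nat_lit 1596) (nat_lit 6116585860) (nat_lit 431) (nat_lit 5) (nat_lit 451) (nat_lit 5) (nat_lit 452) (nat_lit 5) (nat_lit 422) (nat_lit 392) (nat_lit 326)) (XT.lf (nat_lit 0) (nat_lit 3794053008) (nat_lit 1596) (nat_lit 2667950964) (nat_lit 76) (nat_lit 1630433087) (nat_lit 431) (nat_lit 5) (nat_lit 452) (nat_lit 5) (nat_lit 432) (nat_lit 5) (nat_lit 423) (nat_lit 392) (nat_lit 325)))))) (XT.nd (nat_lit 546) (nat_lit 4180) (nat_lit 0) (XT.nd (nat_lit 234) (nat_lit 2356) (nat_lit 0) (XT.nd (nat_lit 78) (nat_lit 1748) (nat_lit 0) (XT.lf (nat_lit 0) (nat_lit 1814042997) (nat_lit 1596) (nat_lit 3885824074) (nat_lit 1672) (nat_lit 2459407400) (nat_lit 410) (nat_lit 5) (nat_lit 431) (nat_lit 5) (nat_lit 432) (nat_lit 5) (nat_lit 424) (nat_lit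 392) (nat_lit 324)) (XT.nd (nat_lit 78) (nat_lit 1748) (nat_lit 0) (XT.lf (nat_lit 0) (nat_lit 6392946390) (nat_lit 1596) (nat_lit 1235847558) (nat_lit 1672) (nat_lit 598979603) (nat_lit 410) (nat_lit 5) (nat_lit 431) (nat_lit 5) (nat_lit 432) (nat_lit 5) (nat_lit 425) (nat_lit 392) (nat_lit 323)) (XT.lf (nat_lit 0) (nat_lit 1276800867) (nat_lit 1748) (nat_lit 5542682931) (nat_lit 76) (nat_lit 1478110539) (nat_lit 387) (nat_lit 5) (nat_lit 410) (nat_lit 5) (nat_lit 388) (nat_lit 5) (nat_lit 426) (nat_lit 392) (nat_lit 322)))) (XT.nd (nat_lit 156) (nat_lit 912) (nat_lit 0) (XT.nd (nat_lit 78) (nat_lit 1444) (nat_lit 0) (XT.lf (nat_lit 0) (nat_lit 3170637437) (nat_lit 1748) (nat_lit 948763542) (nat_lit 76) (nat_lit 4249583575) (nat_lit 387) (nat_lit 5) (nat_lit 410) (nat_lit 5) (nat_lit 388) (nat_lit 5) (nat_lit 427) (nat_lit 392) (nat_lit 321)) (XT.lf (nat_lit 0) (nat_lit 3757608244) (nat_lit 1444) (nat_lit 1337742037)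 (nat_lit 1520) (nat_lit 3346615261) (nat_lit 368) (nat_lit 5) (nat_lit 387) (nat_lit 5) (nat_lit 388) (nat_lit 5) (nat_lit 428) (nat_lit 392) (nat_lit 320))) (XT.nd (nat_lit 78) (nat_lit 76) (nat_lit 0) (XT.lf (nat_lit 0) (nat_lit 15943685) (nat_lit 836) (nat_lit 7027911177) (nat_lit 912) (nat_lit 1472867843) (nat_lit 357) (nat_lit 5) (nat_lit 368) (nat_lit 5) (nat_lit 369) (nat_lit 5) (nat_lit 429) (nat_lit 392) (nat_lit 319)) (XT.lf (nat_lit 0) (nat_lit 442351061) (nat_lit 912) (nat_lit 3759926409) (nat_lit 76) (nat_lit 4390467342) (nat_lit 356) (nat_lit 5) (nat_lit 368) (nat_lit 5) (nat_lit 357) (nat_lit 5) (nat_lit 430) (nat_lit 392) (nat_lit 318))))) (XT.nd (nat_lit 312) (nat_lit 2432) (nat_lit 0) (XT.nd (nat_lit 156) (nat_lit 836) (nat_lit 0) (XT.nd (nat_lit 78) (nat_lit 0) (nat_lit 0) (XT.lf (nat_lit 0) (nat_lit 1050934129) (nat_lit 912) (nat_lit 1301907116) (nat_lit 988) (nat_lit 6317738840) (nat_lit 344)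 (nat_lit 5) (nat_lit 356) (nat_lit 5) (nat_lit 357) (nat_lit 5) (nat_lit 431) (nat_lit 392) (nat_lit 317)) (XT.lf (nat_lit 0) (nat_lit 4307953496) (nat_lit 988) (nat_lit 2780682159) (nat_lit 76) (nat_lit 1661228956) (nat_lit 344) (nat_lit 5) (nat_lit 357) (nat_lit 5) (nat_lit 345) (nat_lit 5) (nat_lit 432) (nat_lit 392) (nat_lit 316))) (XT.nd (nat_lit 78) (nat_lit 0) (nat_lit 0) (XT.lf (nat_lit 0) (nat_lit 2145885243) (nat_lit 836) (nat_lit 4149679490) (nat_lit 912) (nat_lit 2535322544) (nat_lit 333) (nat_lit 5) (nat_lit 344) (nat_lit 5) (nat_lit 345) (nat_lit 5) (nat_lit 433) (nat_lit 392) (nat_lit 315)) (XT.lf (nat_lit 0) (nat_lit 7180168231) (nat_lit 836) (nat_lit 1132648758) (nat_lit 912) (nat_lit 600935618) (nat_lit 333) (nat_lit 5) (nat_lit 344) (nat_lit 5) (nat_lit 345) (nat_lit 5) (nat_lit 434) (nat_lit 392) (nat_lit 314)))) (XT.nd (nat_lit 156) (nat_lit 1520) (nat_lit 0) (XT.nd (nat_lit 78) (nat_lit 0)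 (nat_lit 0) (XT.lf (nat_lit 0) (nat_lit 1360135256) (nat_lit 912) (nat_lit 5687891173) (nat_lit 76) (nat_lit 1949970005) (nat_lit 321) (nat_lit 5) (nat_lit 333) (nat_lit 5) (nat_lit 322) (nat_lit 5) (nat_lit 435) (nat_lit 392) (nat_lit 313)) (XT.lf (nat_lit 0) (nat_lit 3343560285) (nat_lit 912) (nat_lit 645821104) (nat_lit 76) (nat_lit 5094659555) (nat_lit 321) (nat_lit 5) (nat_lit 333) (nat_lit 5) (nat_lit 322) (nat_lit 5) (nat_lit 436) (nat_lit 392) (nat_lit 312))) (XT.nd (nat_lit 78) (nat_lit 760) (nat_lit 0) (XT.lf (nat_lit 0) (nat_lit 4528304618) (nat_lit 760) (nat_lit 840260201) (nat_lit 836) (nat_lit 3803221768) (nat_lit 311) (nat_lit 5) (nat_lit 321) (nat_lit 5) (nat_lit 322) (nat_lit 5) (nat_lit 437) (nat_lit 392) (nat_lit 311)) (XT.lf (nat_lit 0) (nat_lit 516264181) (nat_lit 760) (nat_lit 6913781237) (nat_lit 836) (nat_lit 1831340305) (nat_lit 301) (nat_lit 5) (nat_lit 311) (nat_lit 5) (nat_lit 312) (nat_lit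 5) (nat_lit 438) (nat_lit 392) (nat_lit 310))))))))
noncomputable def xc132 : XT := (XT.nd (nat_lit 2184) (nat_lit 6080) (nat_lit 0) (XT.nd (nat_lit 1092) (nat_lit 4484) (nat_lit 0) (XT.nd (nat_lit 546) (nat_lit 1976) (nat_lit 0) (XT.nd (nat_lit 234) (nat_lit 2204) (nat_lit 0) (XT.nd (nat_lit 78) (nat_lit 684) (nat_lit 0) (XT.lf (nat_lit 0) (nat_lit 187564574) (nat_lit 836) (nat_lit 3545677618) (nat_lit 76) (nat_lit 5619329753) (nat_lit 300) (nat_lit 5) (nat_lit 311) (nat_lit 5) (nat_lit 301) (nat_lit 5) (nat_lit 439) (nat_lit 392) (nat_lit 309)) (XT.nd (nat_lit 78) (nat_lit 0) (nat_lit 0) (XT.lf (nat_lit 0) (nat_lit 1740281286) (nat_lit 684) (nat_lit 466910756) (nat_lit 760) (nat_lit 7238467483) (nat_lit 291) (nat_lit 5) (nat_lit 300) (nat_lit 5) (nat_lit 301) (nat_lit 5) (nat_lit 440) (nat_lit 392) (nat_lit 308)) (XT.lf (nat_lit 0) (nat_lit 4283631924) (nat_lit 760) (nat_lit 2407380013) (nat_lit 76) (nat_lit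 2849285245) (nat_lit 291) (nat_lit 5) (nat_lit 301) (nat_lit 5) (nat_lit 292) (nat_lit 5) (nat_lit 441) (nat_lit 392) (nat_lit 307)))) (XT.nd (nat_lit 156) (nat_lit 1444) (nat_lit 0) (XT.nd (nat_lit 78) (nat_lit 0) (nat_lit 0) (XT.lf (nat_lit 0) (nat_lit 3004943910) (nat_lit 760) (nat_lit 3393640365) (nat_lit 836) (nat_lit 3238320038) (nat_lit 281) (nat_lit 5) (nat_lit 291) (nat_lit 5) (nat_lit 292) (nat_lit 5) (nat_lit 442) (nat_lit 392) (nat_lit 306)) (XT.lf (nat_lit 0) (nat_lit 8530378356) (nat_lit 760) (nat_lit 16315596) (nat_lit 836) (nat_lit 1188948544) (nat_lit 281) (nat_lit 5) (nat_lit 291) (nat_lit 5) (nat_lit 292) (nat_lit 5) (nat_lit 443) (nat_lit 392) (nat_lit 305))) (XT.nd (nat_lit 78) (nat_lit 684) (nat_lit 0) (XT.lf (nat_lit 0) (nat_lit 915344240) (nat_lit 760) (nat_lit 5505016994) (nat_lit 76) (nat_lit 3415377486) (nat_lit 271) (nat_lit 5) (nat_lit 281) (nat_lit 5) (nat_lit 272) (nat_lit 5) (nat_lit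 444) (nat_lit 392) (nat_lit 304)) (XT.lf (nat_lit 0) (nat_lit 20441507) (nat_lit 684) (nat_lit 3009072533) (nat_lit 760) (nat_lit 6908506572) (nat_lit 262) (nat_lit 5) (nat_lit 271) (nat_lit 5) (nat_lit 272) (nat_lit 5) (nat_lit 445) (nat_lit 392) (nat_lit 303))))) (XT.nd (nat_lit 234) (nat_lit 1368) (nat_lit 0) (XT.nd (nat_lit 78) (nat_lit 608) (nat_lit 0) (XT.lf (nat_lit 0) (nat_lit 5201804556) (nat_lit 760) (nat_lit 4342055791) (nat_lit 76) (nat_lit 498185898) (nat_lit 262) (nat_lit 5) (nat_lit 272) (nat_lit 5) (nat_lit 263) (nat_lit 5) (nat_lit 446) (nat_lit 392) (nat_lit 302)) (XT.nd (nat_lit 78) (nat_lit 0) (nat_lit 0) (XT.lf (nat_lit 0) (nat_lit 1314666417) (nat_lit 608) (nat_lit 6107412969) (nat_lit 684) (nat_lit 2725996794) (nat_lit 254) (nat_lit 5) (nat_lit 262) (nat_lit 5) (nat_lit 263) (nat_lit 5) (nat_lit 447) (nat_lit 392) (nat_lit 301)) (XT.lf (nat_lit 0) (nat_lit 7115936504) (nat_lit 608) (nat_lit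 2576326802) (nat_lit 684) (nat_lit 563867609) (nat_lit 254) (nat_lit 5) (nat_lit 262) (nat_lit 5) (nat_lit 263) (nat_lit 5) (nat_lit 448) (nat_lit 392) (nat_lit 300)))) (XT.nd (nat_lit 156) (nat_lit 608) (nat_lit 0) (XT.nd (nat_lit 78) (nat_lit 0) (nat_lit 0) (XT.lf (nat_lit 0) (nat_lit 1620751147) (nat_lit 760) (nat_lit 7709149959) (nat_lit 76) (nat_lit 1036230689) (nat_lit 244) (nat_lit 5) (nat_lit 254) (nat_lit 5) (nat_lit 245) (nat_lit 5) (nat_lit 449) (nat_lit 392) (nat_lit 299)) (XT.lf (nat_lit 0) (nat_lit 3856711124) (nat_lit 760) (nat_lit 1913678514) (nat_lit 76) (nat_lit 4707577982) (nat_lit 244) (nat_lit 5) (nat_lit 254) (nat_lit 5) (nat_lit 245) (nat_lit 5) (nat_lit 450) (nat_lit 392) (nat_lit 298))) (XT.nd (nat_lit 78) (nat_lit 0) (nat_lit 0) (XT.lf (nat_lit 0) (nat_lit 4023511139) (nat_lit 608) (nat_lit 2117373345) (nat_lit 684) (nat_lit 4451098980) (nat_lit 236) (nat_lit 5) (nat_lit 244) (nat_lit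 5) (nat_lit 245) (nat_lit 5) (nat_lit 451) (nat_lit 392) (nat_lit 297)) (XT.lf (nat_lit 0) (nat_lit 8471724890) (nat_lit 684) (nat_lit 640381915) (nat_lit 76) (nat_lit 1596166075) (nat_lit 236) (nat_lit 5) (nat_lit 245) (nat_lit 5) (nat_lit 237) (nat_lit 5) (nat_lit 452) (nat_lit 392) (nat_lit 296)))))) (XT.nd (nat_lit 546) (nat_lit 2052) (nat_lit 0) (XT.nd (nat_lit 234) (nat_lit 1216) (nat_lit 0) (XT.nd (nat_lit 78) (nat_lit 532) (nat_lit 0) (XT.lf (nat_lit 0) (nat_lit 49543480) (nat_lit 684) (nat_lit 5389806414) (nat_lit 76) (nat_lit 5386996884) (nat_lit 227) (nat_lit 5) (nat_lit 236) (nat_lit 5) (nat_lit 228) (nat_lit 5) (nat_lit 453) (nat_lit 392) (nat_lit 295)) (XT.nd (nat_lit 78) (nat_lit 0) (nat_lit 0) (XT.lf (nat_lit 0) (nat_lit 664046803) (nat_lit 532) (nat_lit 1674181114) (nat_lit 608) (nat_lit 8608534376) (nat_lit 220) (nat_lit 5) (nat_lit 227) (nat_lit 5) (nat_lit 228) (nat_lit 5) (nat_lit 454) (nat_lit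 392) (nat_lit 294)) (XT.lf (nat_lit 0) (nat_lit 4701535071) (nat_lit 608) (nat_lit 4198172306) (nat_lit 76) (nat_lit 2169313705) (nat_lit 220) (nat_lit 5) (nat_lit 228) (nat_lit 5) (nat_lit 221) (nat_lit 5) (nat_lit 455) (nat_lit 392) (nat_lit 293)))) (XT.nd (nat_lit 156) (nat_lit 608) (nat_lit 0) (XT.nd (nat_lit 78) (nat_lit 0) (nat_lit 0) (XT.lf (nat_lit 0) (nat_lit 1996648740) (nat_lit 608) (nat_lit 5118310550) (nat_lit 684) (nat_lit 4078720446) (nat_lit 212) (nat_lit 5) (nat_lit 220) (nat_lit 5) (nat_lit 221) (nat_lit 5) (nat_lit 456) (nat_lit 392) (nat_lit 292)) (XT.lf (nat_lit 0) (nat_lit 8345935843) (nat_lit 608) (nat_lit 1237932844) (nat_lit 684) (nat_lit 1736830023) (nat_lit 212) (nat_lit 5) (nat_lit 220) (nat_lit 5) (nat_lit 221) (nat_lit 5) (nat_lit 457) (nat_lit 392) (nat_lit 291))) (XT.nd (nat_lit 78) (nat_lit 0) (nat_lit 0) (XT.lf (nat_lit 0) (nat_lit 662440042) (nat_lit 608) (nat_lit 8081938399)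 (nat_lit 76) (nat_lit 2705424172) (nat_lit 204) (nat_lit 5) (nat_lit 212) (nat_lit 5) (nat_lit 205) (nat_lit 5) (nat_lit 458) (nat_lit 392) (nat_lit 290)) (XT.lf (nat_lit 0) (nat_lit 3094263958) (nat_lit 608) (nat_lit 1749574272) (nat_lit 76) (nat_lit 6737275080) (nat_lit 204) (nat_lit 5) (nat_lit 212) (nat_lit 5) (nat_lit 205) (nat_lit 5) (nat_lit 459) (nat_lit 392) (nat_lit 289))))) (XT.nd (nat_lit 234) (nat_lit 1064) (nat_lit 0) (XT.nd (nat_lit 78) (nat_lit 456) (nat_lit 0) (XT.lf (nat_lit 0) (nat_lit 4745876397) (nat_lit 532) (nat_lit 839573303) (nat_lit 608) (nat_lit 6129396620) (nat_lit 197) (nat_lit 5) (nat_lit 204) (nat_lit 5) (nat_lit 205) (nat_lit 5) (nat_lit 460) (nat_lit 392) (nat_lit 288)) (XT.nd (nat_lit 78) (nat_lit 456) (nat_lit 0) (XT.lf (nat_lit 0) (nat_lit 8139446653) (nat_lit 608) (nat_lit 503216278) (nat_lit 76) (nat_lit 3208341706) (nat_lit 197) (nat_lit 5) (nat_lit 205) (nat_lit 5) (nat_lit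 198) (nat_lit 5) (nat_lit 461) (nat_lit 392) (nat_lit 287)) (XT.lf (nat_lit 0) (nat_lit 6141342928) (nat_lit 456) (nat_lit 4629106468) (nat_lit 532) (nat_lit 1218928399) (nat_lit 191) (nat_lit 5) (nat_lit 197) (nat_lit 5) (nat_lit 198) (nat_lit 5) (nat_lit 462) (nat_lit 392) (nat_lit 286)))) (XT.nd (nat_lit 156) (nat_lit 456) (nat_lit 0) (XT.nd (nat_lit 78) (nat_lit 0) (nat_lit 0) (XT.lf (nat_lit 0) (nat_lit 771066092) (nat_lit 532) (nat_lit 524107075) (nat_lit 608) (nat_lit 10835403621) (nat_lit 183) (nat_lit 5) (nat_lit 190) (nat_lit 5) (nat_lit 191) (nat_lit 5) (nat_lit 463) (nat_lit 392) (nat_lit 285)) (XT.lf (nat_lit 0) (nat_lit 3887284482) (nat_lit 608) (nat_lit 4729888603) (nat_lit 76) (nat_lit 3656394154) (nat_lit 183) (nat_lit 5) (nat_lit 191) (nat_lit 5) (nat_lit 184) (nat_lit 5) (nat_lit 464) (nat_lit 392) (nat_lit 284))) (XT.nd (nat_lit 78) (nat_lit 0) (nat_lit 0) (XT.lf (nat_lit 0) (nat_lit 2030207446)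 (nat_lit 456) (nat_lit 4498808480) (nat_lit 532) (nat_lit 5890455431) (nat_lit 177) (nat_lit 5) (nat_lit 183) (nat_lit 5) (nat_lit 184) (nat_lit 5) (nat_lit 465) (nat_lit 392) (nat_lit 283)) (XT.lf (nat_lit 0) (nat_lit 8964512465) (nat_lit 456) (nat_lit 272142190) (nat_lit 532) (nat_lit 3331386682) (nat_lit 177) (nat_lit 5) (nat_lit 183) (nat_lit 5) (nat_lit 184) (nat_lit 5) (nat_lit 466) (nat_lit 392) (nat_lit 282))))))) (XT.nd (nat_lit 1092) (nat_lit 2508) (nat_lit 0) (XT.nd (nat_lit 546) (nat_lit 1672) (nat_lit 0) (XT.nd (nat_lit 234) (nat_lit 912) (nat_lit 0) (XT.nd (nat_lit 78) (nat_lit 532) (nat_lit 0) (XT.lf (nat_lit 0) (nat_lit 3310160365) (nat_lit 456) (nat_lit 8717659435) (nat_lit 532) (nat_lit 691184497) (nat_lit 171) (nat_lit 5) (nat_lit 177) (nat_lit 5) (nat_lit 178) (nat_lit 5) (nat_lit 467) (nat_lit 392) (nat_lit 281)) (XT.nd (nat_lit 78) (nat_lit 456) (nat_lit 0) (XT.lf (nat_lit 0) (nat_lit 1983438926)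 (nat_lit 532) (nat_lit 2501529274) (nat_lit 76) (nat_lit 8387609643) (nat_lit 170) (nat_lit 5) (nat_lit 177) (nat_lit 5) (nat_lit 171) (nat_lit 5) (nat_lit 468) (nat_lit 392) (nat_lit 280)) (XT.lf (nat_lit 0) (nat_lit 4574807643) (nat_lit 456) (nat_lit 139289296) (nat_lit 532) (nat_lit 8314807133) (nat_lit 164) (nat_lit 5) (nat_lit 170) (nat_lit 5) (nat_lit 171) (nat_lit 5) (nat_lit 469) (nat_lit 392) (nat_lit 279)))) (XT.nd (nat_lit 156) (nat_lit 456) (nat_lit 0) (XT.nd (nat_lit 78) (nat_lit 456) (nat_lit 0) (XT.lf (nat_lit 0) (nat_lit 7526376256) (nat_lit 532) (nat_lit 1414131165) (nat_lit 76) (nat_lit 4247317604) (nat_lit 164) (nat_lit 5) (nat_lit 171) (nat_lit 5) (nat_lit 165) (nat_lit 5) (nat_lit 470) (nat_lit 392) (nat_lit 278)) (XT.lf (nat_lit 0) (nat_lit 5817792633) (nat_lit 456) (nat_lit 4598387687) (nat_lit 532) (nat_lit 2933326692) (nat_lit 158) (nat_lit 5) (nat_lit 164) (nat_lit 5) (nat_lit 165) (nat_lit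 5) (nat_lit 471) (nat_lit 392) (nat_lit 277))) (XT.nd (nat_lit 78) (nat_lit 456) (nat_lit 0) (XT.lf (nat_lit 0) (nat_lit 13189463447) (nat_lit 456) (nat_lit 166575610) (nat_lit 532) (nat_lit 158546447) (nat_lit 158) (nat_lit 5) (nat_lit 164) (nat_lit 5) (nat_lit 165) (nat_lit 5) (nat_lit 472) (nat_lit 392) (nat_lit 276)) (XT.lf (nat_lit 0) (nat_lit 2694269846) (nat_lit 456) (nat_lit 6633438328) (nat_lit 76) (nat_lit 4353766572) (nat_lit 152) (nat_lit 5) (nat_lit 158) (nat_lit 5) (nat_lit 153) (nat_lit 5) (nat_lit 473) (nat_lit 392) (nat_lit 275))))) (XT.nd (nat_lit 234) (nat_lit 836) (nat_lit 0) (XT.nd (nat_lit 78) (nat_lit 380) (nat_lit 0) (XT.lf (nat_lit 0) (nat_lit 704513726) (nat_lit 456) (nat_lit 4888504101) (nat_lit 532) (nat_lit 8258850594) (nat_lit 146) (nat_lit 5) (nat_lit 152) (nat_lit 5) (nat_lit 153) (nat_lit 5) (nat_lit 474) (nat_lit 392) (nat_lit 274)) (XT.nd (nat_lit 78) (nat_lit 380) (nat_lit 0)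 (XT.lf (nat_lit 0) (nat_lit 8255334927) (nat_lit 456) (nat_lit 322218856) (nat_lit 532) (nat_lit 5447567350) (nat_lit 146) (nat_lit 5) (nat_lit 152) (nat_lit 5) (nat_lit 153) (nat_lit 5) (nat_lit 475) (nat_lit 392) (nat_lit 273)) (XT.lf (nat_lit 0) (nat_lit 1726194173) (nat_lit 380) (nat_lit 9918523506) (nat_lit 456) (nat_lit 2556669756) (nat_lit 141) (nat_lit 5) (nat_lit 146) (nat_lit 5) (nat_lit 147) (nat_lit 5) (nat_lit 476) (nat_lit 392) (nat_lit 272)))) (XT.nd (nat_lit 156) (nat_lit 380) (nat_lit 0) (XT.nd (nat_lit 78) (nat_lit 380) (nat_lit 0) (XT.lf (nat_lit 0) (nat_lit 411648899) (nat_lit 456) (nat_lit 4958734881) (nat_lit 76) (nat_lit 9010256475) (nat_lit 140) (nat_lit 5) (nat_lit 146) (nat_lit 5) (nat_lit 141) (nat_lit 5) (nat_lit 477) (nat_lit 392) (nat_lit 271)) (XT.lf (nat_lit 0) (nat_lit 2703340997) (nat_lit 380) (nat_lit 703300109) (nat_lit 456) (nat_lit 11156475072) (nat_lit 135) (nat_lit 5) (nat_lit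 140) (nat_lit 5) (nat_lit 141) (nat_lit 5) (nat_lit 478) (nat_lit 392) (nat_lit 270))) (XT.nd (nat_lit 78) (nat_lit 380) (nat_lit 0) (XT.lf (nat_lit 0) (nat_lit 6505445832) (nat_lit 456) (nat_lit 4212622214) (nat_lit 76) (nat_lit 4030302047) (nat_lit 135) (nat_lit 5) (nat_lit 141) (nat_lit 5) (nat_lit 136) (nat_lit 5) (nat_lit 479) (nat_lit 392) (nat_lit 269)) (XT.lf (nat_lit 0) (nat_lit 3607224077) (nat_lit 380) (nat_lit 6071467971) (nat_lit 456) (nat_lit 5258394323) (nat_lit 130) (nat_lit 5) (nat_lit 135) (nat_lit 5) (nat_lit 136) (nat_lit 5) (nat_lit 480) (nat_lit 392) (nat_lit 268)))))) (XT.nd (nat_lit 546) (nat_lit 1292) (nat_lit 0) (XT.nd (nat_lit 234) (nat_lit 760) (nat_lit 0) (XT.nd (nat_lit 78) (nat_lit 456) (nat_lit 0) (XT.lf (nat_lit 0) (nat_lit 11617819656) (nat_lit 380) (nat_lit 1310398153) (nat_lit 456) (nat_lit 2201109337) (nat_lit 130) (nat_lit 5) (nat_lit 135) (nat_lit 5) (nat_lit 136) (nat_lit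 5) (nat_lit 481) (nat_lit 392) (nat_lit 267)) (XT.nd (nat_lit 78) (nat_lit 0) (nat_lit 0) (XT.lf (nat_lit 0) (nat_lit 942416445) (nat_lit 456) (nat_lit 10854549069) (nat_lit 76) (nat_lit 3527591801) (nat_lit 124) (nat_lit 5) (nat_lit 130) (nat_lit 5) (nat_lit 125) (nat_lit 5) (nat_lit 482) (nat_lit 392) (nat_lit 266)) (XT.lf (nat_lit 0) (nat_lit 4136614642) (nat_lit 456) (nat_lit 2910504802) (nat_lit 76) (nat_lit 8475942252) (nat_lit 124) (nat_lit 5) (nat_lit 130) (nat_lit 5) (nat_lit 125) (nat_lit 5) (nat_lit 483) (nat_lit 392) (nat_lit 265)))) (XT.nd (nat_lit 156) (nat_lit 456) (nat_lit 0) (XT.nd (nat_lit 78) (nat_lit 0) (nat_lit 0) (XT.lf (nat_lit 0) (nat_lit 5238947108) (nat_lit 304) (nat_lit 2174910446) (nat_lit 380) (nat_lit 8311301368) (nat_lit 120) (nat_lit 5) (nat_lit 124) (nat_lit 5) (nat_lit 125) (nat_lit 5) (nat_lit 484) (nat_lit 392) (nat_lit 264)) (XT.lf (nat_lit 0) (nat_lit 10779697620) (nat_lit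 380) (nat_lit 2380630830) (nat_lit 76) (nat_lit 2770514451) (nat_lit 120) (nat_lit 5) (nat_lit 125) (nat_lit 5) (nat_lit 121) (nat_lit 5) (nat_lit 485) (nat_lit 392) (nat_lit 263))) (XT.nd (nat_lit 78) (nat_lit 76) (nat_lit 0) (XT.lf (nat_lit 0) (nat_lit 5928560168) (nat_lit 380) (nat_lit 8322725734) (nat_lit 456) (nat_lit 1888591769) (nat_lit 115) (nat_lit 5) (nat_lit 120) (nat_lit 5) (nat_lit 121) (nat_lit 5) (nat_lit 486) (nat_lit 392) (nat_lit 262)) (XT.lf (nat_lit 0) (nat_lit 1421996515) (nat_lit 456) (nat_lit 1947924457) (nat_lit 76) (nat_lit 12982957610) (nat_lit 114) (nat_lit 5) (nat_lit 120) (nat_lit 5) (nat_lit 115) (nat_lit 5) (nat_lit 487) (nat_lit 392) (nat_lit 261))))) (XT.nd (nat_lit 312) (nat_lit 684) (nat_lit 0) (XT.nd (nat_lit 156) (nat_lit 304) (nat_lit 0) (XT.nd (nat_lit 78) (nat_lit 0) (nat_lit 0) (XT.lf (nat_lit 0) (nat_lit 4813042087) (nat_lit 380) (nat_lit 10048138713) (nat_lit 76) (nat_lit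 1707923775) (nat_lit 110) (nat_lit 5) (nat_lit 115) (nat_lit 5) (nat_lit 111) (nat_lit 5) (nat_lit 488) (nat_lit 392) (nat_lit 260)) (XT.lf (nat_lit 0) (nat_lit 8293336124) (nat_lit 380) (nat_lit 1647731602) (nat_lit 76) (nat_lit 6848164111) (nat_lit 110) (nat_lit 5) (nat_lit 115) (nat_lit 5) (nat_lit 111) (nat_lit 5) (nat_lit 489) (nat_lit 392) (nat_lit 259))) (XT.nd (nat_lit 78) (nat_lit 0) (nat_lit 0) (XT.lf (nat_lit 0) (nat_lit 6991225177) (nat_lit 304) (nat_lit 4883630018) (nat_lit 380) (nat_lit 5138279266) (nat_lit 106) (nat_lit 5) (nat_lit 110) (nat_lit 5) (nat_lit 111) (nat_lit 5) (nat_lit 490) (nat_lit 392) (nat_lit 258)) (XT.lf (nat_lit 0) (nat_lit 15527233476) (nat_lit 380) (nat_lit 1439096411) (nat_lit 76) (nat_lit 275205770) (nat_lit 106) (nat_lit 5) (nat_lit 111) (nat_lit 5) (nat_lit 107) (nat_lit 5) (nat_lit 491) (nat_lit 392) (nat_lit 257)))) (XT.nd (nat_lit 156) (nat_lit 304) (nat_lit 0) (XT.nd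 (nat_lit 78) (nat_lit 0) (nat_lit 0) (XT.lf (nat_lit 0) (nat_lit 1821971645) (nat_lit 380) (nat_lit 10126444842) (nat_lit 76) (nat_lit 5524519630) (nat_lit 101) (nat_lit 5) (nat_lit 106) (nat_lit 5) (nat_lit 102) (nat_lit 5) (nat_lit 492) (nat_lit 392) (nat_lit 256)) (XT.lf (nat_lit 0) (nat_lit 5402376520) (nat_lit 380) (nat_lit 1413760032) (nat_lit 76) (nat_lit 10892679006) (nat_lit 101) (nat_lit 5) (nat_lit 106) (nat_lit 5) (nat_lit 102) (nat_lit 5) (nat_lit 493) (nat_lit 392) (nat_lit 255))) (XT.nd (nat_lit 78) (nat_lit 0) (nat_lit 0) (XT.lf (nat_lit 0) (nat_lit 7551760696) (nat_lit 304) (nat_lit 1538539804) (nat_lit 380) (nat_lit 8858398575) (nat_lit 97) (nat_lit 5) (nat_lit 101) (nat_lit 5) (nat_lit 102) (nat_lit 5) (nat_lit 494) (nat_lit 392) (nat_lit 254)) (XT.lf (nat_lit 0) (nat_lit 12873452273) (nat_lit 380) (nat_lit 1523002153) (nat_lit 76) (nat_lit 3796501068) (nat_lit 97) (nat_lit 5) (nat_lit 102) (nat_lit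 5) (nat_lit 98) (nat_lit 5) (nat_lit 495) (nat_lit 392) (nat_lit 253))))))))
noncomputable def xc133 : XT := (XT.nd (nat_lit 2184) (nat_lit 380) (nat_lit 0) (XT.nd (nat_lit 1092) (nat_lit 1444) (nat_lit 0) (XT.nd (nat_lit 546) (nat_lit 760) (nat_lit 0) (XT.nd (nat_lit 234) (nat_lit 608) (nat_lit 0) (XT.nd (nat_lit 78) (nat_lit 380) (nat_lit 0) (XT.lf (nat_lit 0) (nat_lit 7597729398) (nat_lit 228) (nat_lit 9181269576) (nat_lit 304) (nat_lit 1662167954) (nat_lit 94) (nat_lit 5) (nat_lit 97) (nat_lit 5) (nat_lit 98) (nat_lit 5) (nat_lit 496) (nat_lit 392) (nat_lit 252)) (XT.nd (nat_lit 78) (nat_lit 304) (nat_lit 0) (XT.lf (nat_lit 0) (nat_lit 2038721485) (nat_lit 304) (nat_lit 1806295789) (nat_lit 76) (nat_lit 14849110415) (nat_lit 93) (nat_lit 5) (nat_lit 97) (nat_lit 5) (nat_lit 94) (nat_lit 5) (nat_lit 497) (nat_lit 392) (nat_lit 251)) (XT.lf (nat_lit 0) (nat_lit 5838169194) (nat_lit 380) (nat_lit 11483050586)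 (nat_lit 76) (nat_lit 1629776472) (nat_lit 89) (nat_lit 5) (nat_lit 94) (nat_lit 5) (nat_lit 90) (nat_lit 5) (nat_lit 498) (nat_lit 392) (nat_lit 250)))) (XT.nd (nat_lit 156) (nat_lit 380) (nat_lit 0) (XT.nd (nat_lit 78) (nat_lit 228) (nat_lit 0) (XT.lf (nat_lit 0) (nat_lit 9738837408) (nat_lit 380) (nat_lit 2306007119) (nat_lit 76) (nat_lit 7167657209) (nat_lit 89) (nat_lit 5) (nat_lit 94) (nat_lit 5) (nat_lit 90) (nat_lit 5) (nat_lit 499) (nat_lit 392) (nat_lit 249)) (XT.lf (nat_lit 0) (nat_lit 7128599333) (nat_lit 228) (nat_lit 6623013436) (nat_lit 304) (nat_lit 5726946786) (nat_lit 86) (nat_lit 5) (nat_lit 89) (nat_lit 5) (nat_lit 90) (nat_lit 5) (nat_lit 500) (nat_lit 392) (nat_lit 248))) (XT.nd (nat_lit 78) (nat_lit 380) (nat_lit 0) (XT.lf (nat_lit 0) (nat_lit 16763813801) (nat_lit 228) (nat_lit 1084227977) (nat_lit 304) (nat_lit 1901832808) (nat_lit 86) (nat_lit 5) (nat_lit 89) (nat_lit 5) (nat_lit 90) (nat_lit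 5) (nat_lit 501) (nat_lit 392) (nat_lit 247)) (XT.lf (nat_lit 0) (nat_lit 2034579376) (nat_lit 380) (nat_lit 13435876693) (nat_lit 76) (nat_lit 4554683564) (nat_lit 81) (nat_lit 5) (nat_lit 86) (nat_lit 5) (nat_lit 82) (nat_lit 5) (nat_lit 502) (nat_lit 392) (nat_lit 246))))) (XT.nd (nat_lit 234) (nat_lit 532) (nat_lit 0) (XT.nd (nat_lit 78) (nat_lit 228) (nat_lit 0) (XT.lf (nat_lit 0) (nat_lit 6039770972) (nat_lit 380) (nat_lit 3948040374) (nat_lit 76) (nat_lit 10317540665) (nat_lit 81) (nat_lit 5) (nat_lit 86) (nat_lit 5) (nat_lit 82) (nat_lit 5) (nat_lit 503) (nat_lit 392) (nat_lit 245)) (XT.nd (nat_lit 78) (nat_lit 0) (nat_lit 0) (XT.lf (nat_lit 0) (nat_lit 5786628483) (nat_lit 228) (nat_lit 4364382905) (nat_lit 304) (nat_lit 10439642063) (nat_lit 78) (nat_lit 5) (nat_lit 81) (nat_lit 5) (nat_lit 82) (nat_lit 5) (nat_lit 504) (nat_lit 392) (nat_lit 244)) (XT.lf (nat_lit 0) (nat_lit 14368484641) (nat_lit 304)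 (nat_lit 5139584345) (nat_lit 76) (nat_lit 1373115413) (nat_lit 78) (nat_lit 5) (nat_lit 82) (nat_lit 5) (nat_lit 79) (nat_lit 5) (nat_lit 505) (nat_lit 392) (nat_lit 243)))) (XT.nd (nat_lit 156) (nat_lit 228) (nat_lit 0) (XT.nd (nat_lit 78) (nat_lit 76) (nat_lit 0) (XT.lf (nat_lit 0) (nat_lit 4732803155) (nat_lit 228) (nat_lit 13985797040) (nat_lit 304) (nat_lit 2457963481) (nat_lit 75) (nat_lit 5) (nat_lit 78) (nat_lit 5) (nat_lit 79) (nat_lit 5) (nat_lit 506) (nat_lit 392) (nat_lit 242)) (XT.lf (nat_lit 0) (nat_lit 1679265928) (nat_lit 304) (nat_lit 6634518472) (nat_lit 76) (nat_lit 13163383615) (nat_lit 74) (nat_lit 5) (nat_lit 78) (nat_lit 5) (nat_lit 75) (nat_lit 5) (nat_lit 507) (nat_lit 392) (nat_lit 241))) (XT.nd (nat_lit 78) (nat_lit 0) (nat_lit 0) (XT.lf (nat_lit 0) (nat_lit 3380791470) (nat_lit 228) (nat_lit 2496425490) (nat_lit 304) (nat_lit 15906028117) (nat_lit 71) (nat_lit 5) (nat_lit 74) (nat_lit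 5) (nat_lit 75) (nat_lit 5) (nat_lit 508) (nat_lit 392) (nat_lit 240)) (XT.lf (nat_lit 0) (nat_lit 10215222480) (nat_lit 304) (nat_lit 8449061331) (nat_lit 76) (nat_lit 3430041256) (nat_lit 71) (nat_lit 5) (nat_lit 75) (nat_lit 5) (nat_lit 72) (nat_lit 5) (nat_lit 509) (nat_lit 392) (nat_lit 239)))))) (XT.nd (nat_lit 546) (nat_lit 684) (nat_lit 0) (XT.nd (nat_lit 234) (nat_lit 456) (nat_lit 0) (XT.nd (nat_lit 78) (nat_lit 76) (nat_lit 0) (XT.lf (nat_lit 0) (nat_lit 1691167331) (nat_lit 228) (nat_lit 12965512412) (nat_lit 304) (nat_lit 7754616315) (nat_lit 68) (nat_lit 5) (nat_lit 71) (nat_lit 5) (nat_lit 72) (nat_lit 5) (nat_lit 510) (nat_lit 392) (nat_lit 238)) (XT.nd (nat_lit 78) (nat_lit 76) (nat_lit 0) (XT.lf (nat_lit 0) (nat_lit 12130968637) (nat_lit 228) (nat_lit 7101970858) (nat_lit 304) (nat_lit 3500750675) (nat_lit 68) (nat_lit 5) (nat_lit 71) (nat_lit 5) (nat_lit 72) (nat_lit 5) (nat_lit 511) (nat_lit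 392) (nat_lit 237)) (XT.lf (nat_lit 0) (nat_lit 816612515) (nat_lit 304) (nat_lit 305964955) (nat_lit 76) (nat_lit 21940060632) (nat_lit 67) (nat_lit 5) (nat_lit 71) (nat_lit 5) (nat_lit 68) (nat_lit 5) (nat_lit 512) (nat_lit 392) (nat_lit 236)))) (XT.nd (nat_lit 156) (nat_lit 228) (nat_lit 0) (XT.nd (nat_lit 78) (nat_lit 0) (nat_lit 0) (XT.lf (nat_lit 0) (nat_lit 5262792348) (nat_lit 304) (nat_lit 13138134463) (nat_lit 76) (nat_lit 4994991479) (nat_lit 64) (nat_lit 5) (nat_lit 68) (nat_lit 5) (nat_lit 65) (nat_lit 5) (nat_lit 513) (nat_lit 392) (nat_lit 235)) (XT.lf (nat_lit 0) (nat_lit 9797065975) (nat_lit 304) (nat_lit 2723579482) (nat_lit 76) (nat_lit 11215238150) (nat_lit 64) (nat_lit 5) (nat_lit 68) (nat_lit 5) (nat_lit 65) (nat_lit 5) (nat_lit 514) (nat_lit 392) (nat_lit 234))) (XT.nd (nat_lit 78) (nat_lit 0) (nat_lit 0) (XT.lf (nat_lit 0) (nat_lit 7987093668) (nat_lit 228) (nat_lit 6476660606) (nat_lit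 304) (nat_lit 9618062242) (nat_lit 61) (nat_lit 5) (nat_lit 64) (nat_lit 5) (nat_lit 65) (nat_lit 5) (nat_lit 515) (nat_lit 392) (nat_lit 233)) (XT.lf (nat_lit 0) (nat_lit 18932085369) (nat_lit 228) (nat_lit 299928742) (nat_lit 304) (nat_lit 5202492030) (nat_lit 61) (nat_lit 5) (nat_lit 64) (nat_lit 5) (nat_lit 65) (nat_lit 5) (nat_lit 516) (nat_lit 392) (nat_lit 232))))) (XT.nd (nat_lit 234) (nat_lit 228) (nat_lit 0) (XT.nd (nat_lit 78) (nat_lit 304) (nat_lit 0) (XT.lf (nat_lit 0) (nat_lit 5315846916) (nat_lit 152) (nat_lit 18843379243) (nat_lit 228) (nat_lit 633754420) (nat_lit 59) (nat_lit 5) (nat_lit 61) (nat_lit 5) (nat_lit 62) (nat_lit 5) (nat_lit 517) (nat_lit 392) (nat_lit 231)) (XT.nd (nat_lit 78) (nat_lit 228) (nat_lit 0) (XT.lf (nat_lit 0) (nat_lit 4002840257) (nat_lit 228) (nat_lit 8777856735) (nat_lit 76) (nat_lit 12376821553) (nat_lit 58) (nat_lit 5) (nat_lit 61) (nat_lit 5) (nat_lit 59) (nat_lit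 5) (nat_lit 518) (nat_lit 392) (nat_lit 230)) (XT.lf (nat_lit 0) (nat_lit 2142976126) (nat_lit 228) (nat_lit 6584953512) (nat_lit 304) (nat_lit 16801251475) (nat_lit 55) (nat_lit 5) (nat_lit 58) (nat_lit 5) (nat_lit 59) (nat_lit 5) (nat_lit 519) (nat_lit 392) (nat_lit 229)))) (XT.nd (nat_lit 156) (nat_lit 228) (nat_lit 0) (XT.nd (nat_lit 78) (nat_lit 0) (nat_lit 0) (XT.lf (nat_lit 0) (nat_lit 13384981218) (nat_lit 228) (nat_lit 211855137) (nat_lit 304) (nat_lit 12310456815) (nat_lit 55) (nat_lit 5) (nat_lit 58) (nat_lit 5) (nat_lit 59) (nat_lit 5) (nat_lit 520) (nat_lit 392) (nat_lit 228)) (XT.lf (nat_lit 0) (nat_lit 18594508890) (nat_lit 304) (nat_lit 1498032070) (nat_lit 76) (nat_lit 6199801252) (nat_lit 55) (nat_lit 5) (nat_lit 59) (nat_lit 5) (nat_lit 56) (nat_lit 5) (nat_lit 521) (nat_lit 392) (nat_lit 227))) (XT.nd (nat_lit 78) (nat_lit 76) (nat_lit 0) (XT.lf (nat_lit 0) (nat_lit 9858885801) (nat_lit 152)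 (nat_lit 13889404906) (nat_lit 228) (nat_lit 2935680861) (nat_lit 53) (nat_lit 5) (nat_lit 55) (nat_lit 5) (nat_lit 56) (nat_lit 5) (nat_lit 522) (nat_lit 392) (nat_lit 226)) (XT.lf (nat_lit 0) (nat_lit 1897389378) (nat_lit 228) (nat_lit 5648295056) (nat_lit 76) (nat_lit 19537484324) (nat_lit 52) (nat_lit 5) (nat_lit 55) (nat_lit 5) (nat_lit 53) (nat_lit 5) (nat_lit 523) (nat_lit 392) (nat_lit 225))))))) (XT.nd (nat_lit 49920) (nat_lit 0) (nat_lit 33592) (XT.nd (nat_lit 49374) (nat_lit 0) (nat_lit 39292) (XT.nd (nat_lit 234) (nat_lit 0) (nat_lit 0) (XT.nd (nat_lit 78) (nat_lit 152) (nat_lit 0) (XT.lf (nat_lit 0) (nat_lit 5793109483) (nat_lit 228) (nat_lit 1023292623) (nat_lit 304) (nat_lit 20672990200) (nat_lit 49) (nat_lit 5) (nat_lit 52) (nat_lit 5) (nat_lit 53) (nat_lit 5) (nat_lit 524) (nat_lit 392) (nat_lit 224)) (XT.nd (nat_lit 78) (nat_lit 152) (nat_lit 0) (XT.lf (nat_lit 0) (nat_lit 11899476834) (nat_lit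 304) (nat_lit 10415374665) (nat_lit 76) (nat_lit 5587577455) (nat_lit 49) (nat_lit 5) (nat_lit 53) (nat_lit 5) (nat_lit 50) (nat_lit 5) (nat_lit 525) (nat_lit 392) (nat_lit 223)) (XT.lf (nat_lit 0) (nat_lit 1083390735) (nat_lit 152) (nat_lit 16005787050) (nat_lit 228) (nat_lit 11234451472) (nat_lit 47) (nat_lit 5) (nat_lit 49) (nat_lit 5) (nat_lit 50) (nat_lit 5) (nat_lit 526) (nat_lit 392) (nat_lit 222)))) (XT.nd (nat_lit 48984) (nat_lit 0) (nat_lit 41116) (XT.nd (nat_lit 48906) (nat_lit 0) (nat_lit 41952) (XT.lf (nat_lit 0) (nat_lit 12938221529) (nat_lit 152) (nat_lit 9505573199) (nat_lit 228) (nat_lit 6308238575) (nat_lit 47) (nat_lit 5) (nat_lit 49) (nat_lit 5) (nat_lit 50) (nat_lit 5) (nat_lit 527) (nat_lit 392) (nat_lit 221)) (XT.lf (nat_lit 0) (nat_lit 3109001397) (nat_lit 836) (nat_lit 138402394) (nat_lit 836) (nat_lit 138402394) (nat_lit 599) (nat_lit 3) (nat_lit 610) (nat_lit 3) (nat_lit 610) (nat_lit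 5) (nat_lit 393) (nat_lit 393) (nat_lit 354))) (XT.nd (nat_lit 78) (nat_lit 0) (nat_lit 0) (XT.lf (nat_lit 0) (nat_lit 1456953933) (nat_lit 836) (nat_lit 3882510195) (nat_lit 912) (nat_lit 1457829135) (nat_lit 588) (nat_lit 5) (nat_lit 599) (nat_lit 3) (nat_lit 600) (nat_lit 5) (nat_lit 394) (nat_lit 393) (nat_lit 353)) (XT.lf (nat_lit 0) (nat_lit 3449828213) (nat_lit 836) (nat_lit 680713780) (nat_lit 912) (nat_lit 2693933037) (nat_lit 588) (nat_lit 5) (nat_lit 599) (nat_lit 3) (nat_lit 600) (nat_lit 5) (nat_lit 395) (nat_lit 393) (nat_lit 352))))) (XT.nd (nat_lit 234) (nat_lit 912) (nat_lit 0) (XT.nd (nat_lit 78) (nat_lit 912) (nat_lit 0) (XT.lf (nat_lit 76) (nat_lit 2592115196) (nat_lit 0) (nat_lit 2855936860) (nat_lit 912) (nat_lit 1404888232) (nat_lit 589) (nat_lit 5) (nat_lit 588) (nat_lit 5) (nat_lit 600) (nat_lit 5) (nat_lit 396) (nat_lit 393) (nat_lit 351)) (XT.nd (nat_lit 78) (nat_lit 0) (nat_lit 0) (XT.lf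 (nat_lit 0) (nat_lit 550050940) (nat_lit 912) (nat_lit 973754862) (nat_lit 988) (nat_lit 5359064140) (nat_lit 576) (nat_lit 5) (nat_lit 588) (nat_lit 5) (nat_lit 589) (nat_lit 5) (nat_lit 397) (nat_lit 393) (nat_lit 350)) (XT.lf (nat_lit 76) (nat_lit 2373881034) (nat_lit 0) (nat_lit 116936870) (nat_lit 988) (nat_lit 4423130580) (nat_lit 577) (nat_lit 5) (nat_lit 576) (nat_lit 5) (nat_lit 589) (nat_lit 5) (nat_lit 398) (nat_lit 393) (nat_lit 349)))) (XT.nd (nat_lit 156) (nat_lit 988) (nat_lit 0) (XT.nd (nat_lit 78) (nat_lit 0) (nat_lit 0) (XT.lf (nat_lit 0) (nat_lit 4436594299) (nat_lit 912) (nat_lit 1180450004) (nat_lit 988) (nat_lit 1329326324) (nat_lit 577) (nat_lit 5) (nat_lit 589) (nat_lit 5) (nat_lit 590) (nat_lit 5) (nat_lit 399) (nat_lit 393) (nat_lit 348)) (XT.lf (nat_lit 76) (nat_lit 2247612041) (nat_lit 0) (nat_lit 4141059847) (nat_lit 988) (nat_lit 591466623) (nat_lit 578) (nat_lit 5) (nat_lit 577) (nat_lit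 5) (nat_lit 590) (nat_lit 5) (nat_lit 400) (nat_lit 393) (nat_lit 347))) (XT.nd (nat_lit 78) (nat_lit 0) (nat_lit 0) (XT.lf (nat_lit 0) (nat_lit 1307703981) (nat_lit 988) (nat_lit 1291049059) (nat_lit 1064) (nat_lit 4416486708) (nat_lit 564) (nat_lit 5) (nat_lit 577) (nat_lit 5) (nat_lit 578) (nat_lit 5) (nat_lit 401) (nat_lit 393) (nat_lit 346)) (XT.lf (nat_lit 76) (nat_lit 2217019404) (nat_lit 0) (nat_lit 987679217) (nat_lit 1064) (nat_lit 3846953402) (nat_lit 565) (nat_lit 5) (nat_lit 564) (nat_lit 5) (nat_lit 578) (nat_lit 5) (nat_lit 402) (nat_lit 393) (nat_lit 345)))))) (XT.nd (nat_lit 546) (nat_lit 3648) (nat_lit 0) (XT.nd (nat_lit 234) (nat_lit 1064) (nat_lit 0) (XT.nd (nat_lit 78) (nat_lit 1064) (nat_lit 0) (XT.lf (nat_lit 0) (nat_lit 5106828582) (nat_lit 988) (nat_lit 1308482427) (nat_lit 1064) (nat_lit 674179211) (nat_lit 565) (nat_lit 5) (nat_lit 578) (nat_lit 5) (nat_lit 579) (nat_lit 5) (nat_lit 403)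 (nat_lit 393) (nat_lit 344)) (XT.nd (nat_lit 78) (nat_lit 1064) (nat_lit 0) (XT.lf (nat_lit 76) (nat_lit 2283859116) (nat_lit 0) (nat_lit 4739626707) (nat_lit 1064) (nat_lit 105110434) (nat_lit 566) (nat_lit 5) (nat_lit 565) (nat_lit 5) (nat_lit 579) (nat_lit 5) (nat_lit 404) (nat_lit 393) (nat_lit 343)) (XT.lf (nat_lit 0) (nat_lit 1750576704) (nat_lit 1064) (nat_lit 1242526504) (nat_lit 1140) (nat_lit 4175898893) (nat_lit 551) (nat_lit 5) (nat_lit 565) (nat_lit 5) (nat_lit 566) (nat_lit 5) (nat_lit 405) (nat_lit 393) (nat_lit 342)))) (XT.nd (nat_lit 156) (nat_lit 1064) (nat_lit 0) (XT.nd (nat_lit 78) (nat_lit 0) (nat_lit 76) (XT.lf (nat_lit 76) (nat_lit 2435332665) (nat_lit 0) (nat_lit 1178807978) (nat_lit 1140) (nat_lit 3596656530) (nat_lit 552) (nat_lit 5) (nat_lit 551) (nat_lit 5) (nat_lit 566) (nat_lit 5) (nat_lit 406) (nat_lit 393) (nat_lit 341)) (XT.lf (nat_lit 0) (nat_lit 5484866208) (nat_lit 1064) (nat_lit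 1082541636) (nat_lit 1140) (nat_lit 686660158) (nat_lit 552) (nat_lit 5) (nat_lit 566) (nat_lit 5) (nat_lit 567) (nat_lit 5) (nat_lit 407) (nat_lit 393) (nat_lit 340))) (XT.nd (nat_lit 78) (nat_lit 0) (nat_lit 0) (XT.lf (nat_lit 0) (nat_lit 76618296) (nat_lit 1140) (nat_lit 4615347714) (nat_lit 1216) (nat_lit 2606600939) (nat_lit 537) (nat_lit 5) (nat_lit 552) (nat_lit 5) (nat_lit 553) (nat_lit 5) (nat_lit 408) (nat_lit 393) (nat_lit 339)) (XT.lf (nat_lit 0) (nat_lit 1901310158) (nat_lit 1140) (nat_lit 844909072) (nat_lit 1216) (nat_lit 4598225346) (nat_lit 537) (nat_lit 5) (nat_lit 552) (nat_lit 5) (nat_lit 553) (nat_lit 5) (nat_lit 409) (nat_lit 393) (nat_lit 338))))) (XT.nd (nat_lit 312) (nat_lit 2508) (nat_lit 0) (XT.nd (nat_lit 156) (nat_lit 1140) (nat_lit 0) (XT.nd (nat_lit 78) (nat_lit 0) (nat_lit 76) (XT.lf (nat_lit 76) (nat_lit 3012702169) (nat_lit 0) (nat_lit 728481898) (nat_lit 1216) (nat_lit 3650516721)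 (nat_lit 538) (nat_lit 5) (nat_lit 537) (nat_lit 5) (nat_lit 553) (nat_lit 5) (nat_lit 410) (nat_lit 393) (nat_lit 337)) (XT.lf (nat_lit 0) (nat_lit 5592028042) (nat_lit 1140) (nat_lit 518027601) (nat_lit 1216) (nat_lit 1330397142) (nat_lit 538) (nat_lit 5) (nat_lit 553) (nat_lit 5) (nat_lit 554) (nat_lit 5) (nat_lit 411) (nat_lit 393) (nat_lit 336))) (XT.nd (nat_lit 78) (nat_lit 1216) (nat_lit 0) (XT.lf (nat_lit 76) (nat_lit 3432426707) (nat_lit 0) (nat_lit 4035192304) (nat_lit 1216) (nat_lit 22839654) (nat_lit 539) (nat_lit 5) (nat_lit 538) (nat_lit 5) (nat_lit 554) (nat_lit 5) (nat_lit 412) (nat_lit 393) (nat_lit 335)) (XT.lf (nat_lit 0) (nat_lit 1779557133) (nat_lit 1216) (nat_lit 112744092) (nat_lit 1292) (nat_lit 5649668305) (nat_lit 522) (nat_lit 5) (nat_lit 538) (nat_lit 5) (nat_lit 539) (nat_lit 5) (nat_lit 413) (nat_lit 393) (nat_lit 334)))) (XT.nd (nat_lit 156) (nat_lit 1368) (nat_lit 0) (XT.nd (nat_lit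 78) (nat_lit 1216) (nat_lit 0) (XT.lf (nat_lit 0) (nat_lit 3607079263) (nat_lit 1216) (nat_lit 3661771239) (nat_lit 76) (nat_lit 325900943) (nat_lit 523) (nat_lit 5) (nat_lit 539) (nat_lit 5) (nat_lit 524) (nat_lit 5) (nat_lit 414) (nat_lit 393) (nat_lit 333)) (XT.lf (nat_lit 0) (nat_lit 376564525) (nat_lit 1216) (nat_lit 5072653091) (nat_lit 1292) (nat_lit 2199840962) (nat_lit 507) (nat_lit 5) (nat_lit 523) (nat_lit 5) (nat_lit 524) (nat_lit 5) (nat_lit 415) (nat_lit 393) (nat_lit 332))) (XT.nd (nat_lit 78) (nat_lit 1368) (nat_lit 0) (XT.lf (nat_lit 0) (nat_lit 4517079411) (nat_lit 1216) (nat_lit 2798574663) (nat_lit 1292) (nat_lit 389078965) (nat_lit 507) (nat_lit 5) (nat_lit 523) (nat_lit 5) (nat_lit 524) (nat_lit 5) (nat_lit 416) (nat_lit 393) (nat_lit 331)) (XT.lf (nat_lit 0) (nat_lit 953739668) (nat_lit 1292) (nat_lit 454570728) (nat_lit 1368) (nat_lit 6353659742) (nat_lit 489) (nat_lit 5) (nat_lit 506) (nat_lit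 5) (nat_lit 507) (nat_lit 5) (nat_lit 417) (nat_lit 393) (nat_lit 330))))))))
noncomputable def xc134 : XT := (XT.nd (nat_lit 2184) (nat_lit 9044) (nat_lit 0) (XT.nd (nat_lit 1092) (nat_lit 6460) (nat_lit 0) (XT.nd (nat_lit 546) (nat_lit 5700) (nat_lit 0) (XT.nd (nat_lit 234) (nat_lit 3040) (nat_lit 0) (XT.nd (nat_lit 78) (nat_lit 1368) (nat_lit 0) (XT.lf (nat_lit 0) (nat_lit 3234477130) (nat_lit 1368) (nat_lit 2642849065) (nat_lit 76) (nat_lit 1943042106) (nat_lit 489) (nat_lit 5) (nat_lit 507) (nat_lit 5) (nat_lit 490) (nat_lit 5) (nat_lit 418) (nat_lit 393) (nat_lit 329)) (XT.nd (nat_lit 78) (nat_lit 0) (nat_lit 0) (XT.lf (nat_lit 0) (nat_lit 1595514790) (nat_lit 1368) (nat_lit 3479659356) (nat_lit 1444) (nat_lit 2805228126) (nat_lit 471) (nat_lit 5) (nat_lit 489) (nat_lit 5) (nat_lit 490) (nat_lit 5) (nat_lit 419) (nat_lit 393) (nat_lit 328)) (XT.lf (nat_lit 0) (nat_lit 5926415989) (nat_lit 1368) (nat_lit 1009152665)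 (nat_lit 1444) (nat_lit 1006438034) (nat_lit 471) (nat_lit 5) (nat_lit 489) (nat_lit 5) (nat_lit 490) (nat_lit 5) (nat_lit 420) (nat_lit 393) (nat_lit 327)))) (XT.nd (nat_lit 156) (nat_lit 1520) (nat_lit 0) (XT.nd (nat_lit 78) (nat_lit 0) (nat_lit 0) (XT.lf (nat_lit 0) (nat_lit 808199342) (nat_lit 1520) (nat_lit 5678766076) (nat_lit 76) (nat_lit 1517981880) (nat_lit 451) (nat_lit 5) (nat_lit 471) (nat_lit 5) (nat_lit 452) (nat_lit 5) (nat_lit 421) (nat_lit 393) (nat_lit 326)) (XT.lf (nat_lit 0) (nat_lit 2632077562) (nat_lit 1520) (nat_lit 1328751784) (nat_lit 76) (nat_lit 4108481691) (nat_lit 451) (nat_lit 5) (nat_lit 471) (nat_lit 5) (nat_lit 452) (nat_lit 5) (nat_lit 422) (nat_lit 393) (nat_lit 325))) (XT.nd (nat_lit 78) (nat_lit 0) (nat_lit 0) (XT.lf (nat_lit 0) (nat_lit 3121209619) (nat_lit 1520) (nat_lit 1358266461) (nat_lit 1596) (nat_lit 3655770463) (nat_lit 431) (nat_lit 5) (nat_lit 451) (nat_lit 5) (nat_lit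 452) (nat_lit 5) (nat_lit 423) (nat_lit 393) (nat_lit 324)) (XT.lf (nat_lit 0) (nat_lit 6348495775) (nat_lit 1596) (nat_lit 561132656) (nat_lit 76) (nat_lit 1293203713) (nat_lit 431) (nat_lit 5) (nat_lit 452) (nat_lit 5) (nat_lit 432) (nat_lit 5) (nat_lit 424) (nat_lit 393) (nat_lit 323))))) (XT.nd (nat_lit 234) (nat_lit 2356) (nat_lit 0) (XT.nd (nat_lit 78) (nat_lit 1748) (nat_lit 0) (XT.lf (nat_lit 0) (nat_lit 3996289492) (nat_lit 1596) (nat_lit 4261470410) (nat_lit 1672) (nat_lit 13976636) (nat_lit 410) (nat_lit 5) (nat_lit 431) (nat_lit 5) (nat_lit 432) (nat_lit 5) (nat_lit 425) (nat_lit 393) (nat_lit 322)) (XT.nd (nat_lit 78) (nat_lit 0) (nat_lit 0) (XT.lf (nat_lit 0) (nat_lit 273771190) (nat_lit 1672) (nat_lit 1538688914) (nat_lit 1748) (nat_lit 6529866275) (nat_lit 387) (nat_lit 5) (nat_lit 409) (nat_lit 5) (nat_lit 410) (nat_lit 5) (nat_lit 426) (nat_lit 393) (nat_lit 321)) (XT.lf (nat_lit 0) (nat_lit 3680763246)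 (nat_lit 1748) (nat_lit 3478857344) (nat_lit 76) (nat_lit 1254618039) (nat_lit 387) (nat_lit 5) (nat_lit 410) (nat_lit 5) (nat_lit 388) (nat_lit 5) (nat_lit 427) (nat_lit 393) (nat_lit 320)))) (XT.nd (nat_lit 156) (nat_lit 912) (nat_lit 0) (XT.nd (nat_lit 78) (nat_lit 0) (nat_lit 0) (XT.lf (nat_lit 0) (nat_lit 1179772593) (nat_lit 1444) (nat_lit 4393728009) (nat_lit 1520) (nat_lit 2914369667) (nat_lit 368) (nat_lit 5) (nat_lit 387) (nat_lit 5) (nat_lit 388) (nat_lit 5) (nat_lit 428) (nat_lit 393) (nat_lit 319)) (XT.lf (nat_lit 0) (nat_lit 5950772316) (nat_lit 1444) (nat_lit 1546305676) (nat_lit 1520) (nat_lit 1066058909) (nat_lit 368) (nat_lit 5) (nat_lit 387) (nat_lit 5) (nat_lit 388) (nat_lit 5) (nat_lit 429) (nat_lit 393) (nat_lit 318))) (XT.nd (nat_lit 78) (nat_lit 0) (nat_lit 0) (XT.lf (nat_lit 0) (nat_lit 801557229) (nat_lit 912) (nat_lit 6476473719) (nat_lit 76) (nat_lit 1361931081) (nat_lit 356) (nat_lit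 5) (nat_lit 368) (nat_lit 5) (nat_lit 357) (nat_lit 5) (nat_lit 430) (nat_lit 393) (nat_lit 317)) (XT.lf (nat_lit 0) (nat_lit 2690589420) (nat_lit 912) (nat_lit 1693392790) (nat_lit 76) (nat_lit 4334254545) (nat_lit 356) (nat_lit 5) (nat_lit 368) (nat_lit 5) (nat_lit 357) (nat_lit 5) (nat_lit 431) (nat_lit 393) (nat_lit 316)))))) (XT.nd (nat_lit 546) (nat_lit 3040) (nat_lit 0) (XT.nd (nat_lit 234) (nat_lit 1672) (nat_lit 0) (XT.nd (nat_lit 78) (nat_lit 836) (nat_lit 0) (XT.lf (nat_lit 0) (nat_lit 3199594616) (nat_lit 912) (nat_lit 1409599220) (nat_lit 988) (nat_lit 4189067693) (nat_lit 344) (nat_lit 5) (nat_lit 356) (nat_lit 5) (nat_lit 357) (nat_lit 5) (nat_lit 432) (nat_lit 393) (nat_lit 315)) (XT.nd (nat_lit 78) (nat_lit 836) (nat_lit 0) (XT.lf (nat_lit 0) (nat_lit 6559569050) (nat_lit 988) (nat_lit 705019221) (nat_lit 76) (nat_lit 1615450539) (nat_lit 344) (nat_lit 5) (nat_lit 357) (nat_lit 5) (nat_lit 345)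 (nat_lit 5) (nat_lit 433) (nat_lit 393) (nat_lit 314)) (XT.lf (nat_lit 0) (nat_lit 4306057973) (nat_lit 836) (nat_lit 4252161232) (nat_lit 912) (nat_lit 405066677) (nat_lit 333) (nat_lit 5) (nat_lit 344) (nat_lit 5) (nat_lit 345) (nat_lit 5) (nat_lit 434) (nat_lit 393) (nat_lit 313)))) (XT.nd (nat_lit 156) (nat_lit 760) (nat_lit 0) (XT.nd (nat_lit 78) (nat_lit 0) (nat_lit 0) (XT.lf (nat_lit 0) (nat_lit 345464183) (nat_lit 836) (nat_lit 1162018969) (nat_lit 912) (nat_lit 7540949491) (nat_lit 321) (nat_lit 5) (nat_lit 332) (nat_lit 5) (nat_lit 333) (nat_lit 5) (nat_lit 435) (nat_lit 393) (nat_lit 312)) (XT.lf (nat_lit 0) (nat_lit 3469754795) (nat_lit 912) (nat_lit 3667301950) (nat_lit 76) (nat_lit 1997852614) (nat_lit 321) (nat_lit 5) (nat_lit 333) (nat_lit 5) (nat_lit 322) (nat_lit 5) (nat_lit 436) (nat_lit 393) (nat_lit 311))) (XT.nd (nat_lit 78) (nat_lit 0) (nat_lit 0) (XT.lf (nat_lit 0) (nat_lit 1452813488) (nat_lit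 760) (nat_lit 4008635762) (nat_lit 836) (nat_lit 3761880915) (nat_lit 311) (nat_lit 5) (nat_lit 321) (nat_lit 5) (nat_lit 322) (nat_lit 5) (nat_lit 437) (nat_lit 393) (nat_lit 310)) (XT.lf (nat_lit 0) (nat_lit 6697601386) (nat_lit 760) (nat_lit 793385277) (nat_lit 836) (nat_lit 1822590288) (nat_lit 311) (nat_lit 5) (nat_lit 321) (nat_lit 5) (nat_lit 322) (nat_lit 5) (nat_lit 438) (nat_lit 393) (nat_lit 309))))) (XT.nd (nat_lit 234) (nat_lit 1520) (nat_lit 0) (XT.nd (nat_lit 78) (nat_lit 684) (nat_lit 0) (XT.lf (nat_lit 0) (nat_lit 160627355) (nat_lit 836) (nat_lit 6773954895) (nat_lit 76) (nat_lit 2470899682) (nat_lit 300) (nat_lit 5) (nat_lit 311) (nat_lit 5) (nat_lit 301) (nat_lit 5) (nat_lit 439) (nat_lit 393) (nat_lit 308)) (XT.nd (nat_lit 78) (nat_lit 684) (nat_lit 0) (XT.lf (nat_lit 0) (nat_lit 2156115613) (nat_lit 836) (nat_lit 1524492154) (nat_lit 76) (nat_lit 5818452807) (nat_lit 300) (nat_lit 5) (nat_lit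 311) (nat_lit 5) (nat_lit 301) (nat_lit 5) (nat_lit 440) (nat_lit 393) (nat_lit 307)) (XT.lf (nat_lit 0) (nat_lit 3853422119) (nat_lit 684) (nat_lit 337681957) (nat_lit 760) (nat_lit 5403431299) (nat_lit 291) (nat_lit 5) (nat_lit 300) (nat_lit 5) (nat_lit 301) (nat_lit 5) (nat_lit 441) (nat_lit 393) (nat_lit 306)))) (XT.nd (nat_lit 156) (nat_lit 760) (nat_lit 0) (XT.nd (nat_lit 78) (nat_lit 760) (nat_lit 0) (XT.lf (nat_lit 0) (nat_lit 6271920113) (nat_lit 760) (nat_lit 379573810) (nat_lit 76) (nat_lit 3040339267) (nat_lit 291) (nat_lit 5) (nat_lit 301) (nat_lit 5) (nat_lit 292) (nat_lit 5) (nat_lit 442) (nat_lit 393) (nat_lit 305)) (XT.lf (nat_lit 0) (nat_lit 5127339000) (nat_lit 760) (nat_lit 3277916119) (nat_lit 836) (nat_lit 1385619549) (nat_lit 281) (nat_lit 5) (nat_lit 291) (nat_lit 5) (nat_lit 292) (nat_lit 5) (nat_lit 443) (nat_lit 393) (nat_lit 304))) (XT.nd (nat_lit 78) (nat_lit 0) (nat_lit 0) (XT.lf (nat_lit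 0) (nat_lit 664952890) (nat_lit 760) (nat_lit 9056132754) (nat_lit 76) (nat_lit 171044279) (nat_lit 271) (nat_lit 5) (nat_lit 281) (nat_lit 5) (nat_lit 272) (nat_lit 5) (nat_lit 444) (nat_lit 393) (nat_lit 303)) (XT.lf (nat_lit 0) (nat_lit 2767008807) (nat_lit 760) (nat_lit 3544474193) (nat_lit 76) (nat_lit 3683178444) (nat_lit 271) (nat_lit 5) (nat_lit 281) (nat_lit 5) (nat_lit 272) (nat_lit 5) (nat_lit 445) (nat_lit 393) (nat_lit 302))))))) (XT.nd (nat_lit 1092) (nat_lit 3952) (nat_lit 0) (XT.nd (nat_lit 546) (nat_lit 2432) (nat_lit 0) (XT.nd (nat_lit 234) (nat_lit 1368) (nat_lit 0) (XT.nd (nat_lit 78) (nat_lit 608) (nat_lit 0) (XT.lf (nat_lit 0) (nat_lit 2077870826) (nat_lit 684) (nat_lit 2822998529) (nat_lit 760) (nat_lit 5198593529) (nat_lit 262) (nat_lit 5) (nat_lit 271) (nat_lit 5) (nat_lit 272) (nat_lit 5) (nat_lit 446) (nat_lit 393) (nat_lit 301)) (XT.nd (nat_lit 78) (nat_lit 608) (nat_lit 0) (XT.lf (nat_lit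 0) (nat_lit 7082667987) (nat_lit 760) (nat_lit 2377191245) (nat_lit 76) (nat_lit 746410176) (nat_lit 262) (nat_lit 5) (nat_lit 272) (nat_lit 5) (nat_lit 263) (nat_lit 5) (nat_lit 447) (nat_lit 393) (nat_lit 300)) (XT.lf (nat_lit 0) (nat_lit 3379167343) (nat_lit 608) (nat_lit 5946574614) (nat_lit 684) (nat_lit 989131311) (nat_lit 254) (nat_lit 5) (nat_lit 262) (nat_lit 5) (nat_lit 263) (nat_lit 5) (nat_lit 448) (nat_lit 393) (nat_lit 299)))) (XT.nd (nat_lit 156) (nat_lit 608) (nat_lit 0) (XT.nd (nat_lit 78) (nat_lit 684) (nat_lit 0) (XT.lf (nat_lit 0) (nat_lit 1165624714) (nat_lit 684) (nat_lit 1176968811) (nat_lit 76) (nat_lit 8083051308) (nat_lit 253) (nat_lit 5) (nat_lit 262) (nat_lit 5) (nat_lit 254) (nat_lit 5) (nat_lit 449) (nat_lit 393) (nat_lit 298)) (XT.lf (nat_lit 0) (nat_lit 3367377990) (nat_lit 760) (nat_lit 5821024090) (nat_lit 76) (nat_lit 1349769240) (nat_lit 244) (nat_lit 5) (nat_lit 254) (nat_lit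 5) (nat_lit 245) (nat_lit 5) (nat_lit 450) (nat_lit 393) (nat_lit 297))) (XT.nd (nat_lit 78) (nat_lit 0) (nat_lit 0) (XT.lf (nat_lit 0) (nat_lit 50980124) (nat_lit 608) (nat_lit 5563796041) (nat_lit 684) (nat_lit 5038152900) (nat_lit 236) (nat_lit 5) (nat_lit 244) (nat_lit 5) (nat_lit 245) (nat_lit 5) (nat_lit 451) (nat_lit 393) (nat_lit 296)) (XT.lf (nat_lit 0) (nat_lit 6093072171) (nat_lit 608) (nat_lit 1831191384) (nat_lit 684) (nat_lit 2845388261) (nat_lit 236) (nat_lit 5) (nat_lit 244) (nat_lit 5) (nat_lit 245) (nat_lit 5) (nat_lit 452) (nat_lit 393) (nat_lit 295))))) (XT.nd (nat_lit 234) (nat_lit 1216) (nat_lit 0) (XT.nd (nat_lit 78) (nat_lit 608) (nat_lit 0) (XT.lf (nat_lit 0) (nat_lit 1345962093) (nat_lit 608) (nat_lit 8934028735) (nat_lit 684) (nat_lit 608729618) (nat_lit 228) (nat_lit 5) (nat_lit 236) (nat_lit 5) (nat_lit 237) (nat_lit 5) (nat_lit 453) (nat_lit 393) (nat_lit 294)) (XT.nd (nat_lit 78)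 (nat_lit 532) (nat_lit 0) (XT.lf (nat_lit 0) (nat_lit 1673023865) (nat_lit 684) (nat_lit 3506672864) (nat_lit 76) (nat_lit 5829822481) (nat_lit 227) (nat_lit 5) (nat_lit 236) (nat_lit 5) (nat_lit 228) (nat_lit 5) (nat_lit 454) (nat_lit 393) (nat_lit 293)) (XT.lf (nat_lit 0) (nat_lit 2655159195) (nat_lit 532) (nat_lit 1333350669) (nat_lit 608) (nat_lit 7144230353) (nat_lit 220) (nat_lit 5) (nat_lit 227) (nat_lit 5) (nat_lit 228) (nat_lit 5) (nat_lit 455) (nat_lit 393) (nat_lit 292)))) (XT.nd (nat_lit 156) (nat_lit 608) (nat_lit 0) (XT.nd (nat_lit 78) (nat_lit 608) (nat_lit 0) (XT.lf (nat_lit 0) (nat_lit 6370024286) (nat_lit 608) (nat_lit 2313156848) (nat_lit 76) (nat_lit 2574861617) (nat_lit 220) (nat_lit 5) (nat_lit 228) (nat_lit 5) (nat_lit 221) (nat_lit 5) (nat_lit 456) (nat_lit 393) (nat_lit 291)) (XT.lf (nat_lit 0) (nat_lit 3992606810) (nat_lit 608) (nat_lit 4820938256) (nat_lit 684) (nat_lit 2572030002) (nat_lit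 212) (nat_lit 5) (nat_lit 220) (nat_lit 5) (nat_lit 221) (nat_lit 5) (nat_lit 457) (nat_lit 393) (nat_lit 290))) (XT.nd (nat_lit 78) (nat_lit 608) (nat_lit 0) (XT.lf (nat_lit 0) (nat_lit 10430526222) (nat_lit 608) (nat_lit 870791006) (nat_lit 684) (nat_lit 214444218) (nat_lit 212) (nat_lit 5) (nat_lit 220) (nat_lit 5) (nat_lit 221) (nat_lit 5) (nat_lit 458) (nat_lit 393) (nat_lit 289)) (XT.lf (nat_lit 0) (nat_lit 2197406862) (nat_lit 608) (nat_lit 6288878333) (nat_lit 76) (nat_lit 3161275751) (nat_lit 204) (nat_lit 5) (nat_lit 212) (nat_lit 5) (nat_lit 205) (nat_lit 5) (nat_lit 459) (nat_lit 393) (nat_lit 288)))))) (XT.nd (nat_lit 546) (nat_lit 1900) (nat_lit 0) (XT.nd (nat_lit 234) (nat_lit 1064) (nat_lit 0) (XT.nd (nat_lit 78) (nat_lit 456) (nat_lit 0) (XT.lf (nat_lit 0) (nat_lit 133557275) (nat_lit 532) (nat_lit 4515339515) (nat_lit 608) (nat_lit 7133196228) (nat_lit 197) (nat_lit 5) (nat_lit 204) (nat_lit 5)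 (nat_lit 205) (nat_lit 5) (nat_lit 460) (nat_lit 393) (nat_lit 287)) (XT.nd (nat_lit 78) (nat_lit 456) (nat_lit 0) (XT.lf (nat_lit 0) (nat_lit 6744557625) (nat_lit 532) (nat_lit 427589420) (nat_lit 608) (nat_lit 4746724271) (nat_lit 197) (nat_lit 5) (nat_lit 204) (nat_lit 5) (nat_lit 205) (nat_lit 5) (nat_lit 461) (nat_lit 393) (nat_lit 286)) (XT.lf (nat_lit 0) (nat_lit 1398444299) (nat_lit 456) (nat_lit 8361667233) (nat_lit 532) (nat_lit 2297998656) (nat_lit 191) (nat_lit 5) (nat_lit 197) (nat_lit 5) (nat_lit 198) (nat_lit 5) (nat_lit 462) (nat_lit 393) (nat_lit 285)))) (XT.nd (nat_lit 156) (nat_lit 456) (nat_lit 0) (XT.nd (nat_lit 78) (nat_lit 532) (nat_lit 0) (XT.lf (nat_lit 0) (nat_lit 215819871) (nat_lit 532) (nat_lit 4056093657) (nat_lit 76) (nat_lit 7927829231) (nat_lit 190) (nat_lit 5) (nat_lit 197) (nat_lit 5) (nat_lit 191) (nat_lit 5) (nat_lit 463) (nat_lit 393) (nat_lit 284)) (XT.lf (nat_lit 0) (nat_lit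 2674811491) (nat_lit 532) (nat_lit 73055435) (nat_lit 608) (nat_lit 9596072231) (nat_lit 183) (nat_lit 5) (nat_lit 190) (nat_lit 5) (nat_lit 191) (nat_lit 5) (nat_lit 464) (nat_lit 393) (nat_lit 283))) (XT.nd (nat_lit 78) (nat_lit 456) (nat_lit 0) (XT.lf (nat_lit 0) (nat_lit 5366782015) (nat_lit 608) (nat_lit 2947450434) (nat_lit 76) (nat_lit 4176071726) (nat_lit 183) (nat_lit 5) (nat_lit 191) (nat_lit 5) (nat_lit 184) (nat_lit 5) (nat_lit 465) (nat_lit 393) (nat_lit 282)) (XT.lf (nat_lit 0) (nat_lit 3935498615) (nat_lit 456) (nat_lit 4110470927) (nat_lit 532) (nat_lit 4593478117) (nat_lit 177) (nat_lit 5) (nat_lit 183) (nat_lit 5) (nat_lit 184) (nat_lit 5) (nat_lit 466) (nat_lit 393) (nat_lit 281))))) (XT.nd (nat_lit 312) (nat_lit 912) (nat_lit 0) (XT.nd (nat_lit 156) (nat_lit 456) (nat_lit 0) (XT.nd (nat_lit 78) (nat_lit 532) (nat_lit 0) (XT.lf (nat_lit 0) (nat_lit 10781819628) (nat_lit 532) (nat_lit 1820861287)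 (nat_lit 76) (nat_lit 188840398) (nat_lit 177) (nat_lit 5) (nat_lit 184) (nat_lit 5) (nat_lit 178) (nat_lit 5) (nat_lit 467) (nat_lit 393) (nat_lit 280)) (XT.lf (nat_lit 0) (nat_lit 661287200) (nat_lit 532) (nat_lit 7733017320) (nat_lit 76) (nat_lit 4551384316) (nat_lit 170) (nat_lit 5) (nat_lit 177) (nat_lit 5) (nat_lit 171) (nat_lit 5) (nat_lit 468) (nat_lit 393) (nat_lit 279))) (XT.nd (nat_lit 78) (nat_lit 456) (nat_lit 0) (XT.lf (nat_lit 0) (nat_lit 3353547977) (nat_lit 532) (nat_lit 728593086) (nat_lit 76) (nat_lit 9020646088) (nat_lit 170) (nat_lit 5) (nat_lit 177) (nat_lit 5) (nat_lit 171) (nat_lit 5) (nat_lit 469) (nat_lit 393) (nat_lit 278)) (XT.lf (nat_lit 0) (nat_lit 6126780658) (nat_lit 532) (nat_lit 6787552068) (nat_lit 76) (nat_lit 348160370) (nat_lit 164) (nat_lit 5) (nat_lit 171) (nat_lit 5) (nat_lit 165) (nat_lit 5) (nat_lit 470) (nat_lit 393) (nat_lit 277)))) (XT.nd (nat_lit 156) (nat_lit 456)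 (nat_lit 0) (XT.nd (nat_lit 78) (nat_lit 0) (nat_lit 0) (XT.lf (nat_lit 0) (nat_lit 361050715) (nat_lit 456) (nat_lit 8611652369) (nat_lit 532) (nat_lit 4452353610) (nat_lit 158) (nat_lit 5) (nat_lit 164) (nat_lit 5) (nat_lit 165) (nat_lit 5) (nat_lit 471) (nat_lit 393) (nat_lit 276)) (XT.lf (nat_lit 0) (nat_lit 7721044000) (nat_lit 456) (nat_lit 4183154895) (nat_lit 532) (nat_lit 1686107451) (nat_lit 158) (nat_lit 5) (nat_lit 164) (nat_lit 5) (nat_lit 165) (nat_lit 5) (nat_lit 472) (nat_lit 393) (nat_lit 275))) (XT.nd (nat_lit 78) (nat_lit 0) (nat_lit 0) (XT.lf (nat_lit 0) (nat_lit 1115593575) (nat_lit 456) (nat_lit 12303334007) (nat_lit 76) (nat_lit 339893104) (nat_lit 152) (nat_lit 5) (nat_lit 158) (nat_lit 5) (nat_lit 153) (nat_lit 5) (nat_lit 473) (nat_lit 393) (nat_lit 274)) (XT.lf (nat_lit 0) (nat_lit 4001576163) (nat_lit 456) (nat_lit 4986253287) (nat_lit 76) (nat_lit 4941643894) (nat_lit 152) (nat_lit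 5) (nat_lit 158) (nat_lit 5) (nat_lit 153) (nat_lit 5) (nat_lit 474) (nat_lit 393) (nat_lit 273))))))))
noncomputable def xc135 : XT := (XT.nd (nat_lit 2184) (nat_lit 2964) (nat_lit 0) (XT.nd (nat_lit 1092) (nat_lit 2128) (nat_lit 0) (XT.nd (nat_lit 546) (nat_lit 1216) (nat_lit 0) (XT.nd (nat_lit 234) (nat_lit 836) (nat_lit 0) (XT.nd (nat_lit 78) (nat_lit 380) (nat_lit 0) (XT.lf (nat_lit 0) (nat_lit 2486748244) (nat_lit 456) (nat_lit 4458453944) (nat_lit 532) (nat_lit 7158345671) (nat_lit 146) (nat_lit 5) (nat_lit 152) (nat_lit 5) (nat_lit 153) (nat_lit 5) (nat_lit 475) (nat_lit 393) (nat_lit 272)) (XT.nd (nat_lit 78) (nat_lit 380) (nat_lit 0) (XT.lf (nat_lit 0) (nat_lit 9966334649) (nat_lit 532) (nat_lit 4128072330) (nat_lit 76) (nat_lit 186331343) (nat_lit 146) (nat_lit 5) (nat_lit 153) (nat_lit 5) (nat_lit 147) (nat_lit 5) (nat_lit 476) (nat_lit 393) (nat_lit 271)) (XT.lf (nat_lit 0) (nat_lit 3504147865) (nat_lit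 380) (nat_lit 9580238268) (nat_lit 456) (nat_lit 1376363532) (nat_lit 141) (nat_lit 5) (nat_lit 146) (nat_lit 5) (nat_lit 147) (nat_lit 5) (nat_lit 477) (nat_lit 393) (nat_lit 270)))) (XT.nd (nat_lit 156) (nat_lit 380) (nat_lit 0) (XT.nd (nat_lit 78) (nat_lit 380) (nat_lit 0) (XT.lf (nat_lit 0) (nat_lit 1611341746) (nat_lit 456) (nat_lit 3332321340) (nat_lit 76) (nat_lit 9700251321) (nat_lit 140) (nat_lit 5) (nat_lit 146) (nat_lit 5) (nat_lit 141) (nat_lit 5) (nat_lit 478) (nat_lit 393) (nat_lit 269)) (XT.lf (nat_lit 0) (nat_lit 4471643502) (nat_lit 380) (nat_lit 182358293) (nat_lit 456) (nat_lit 10176292685) (nat_lit 135) (nat_lit 5) (nat_lit 140) (nat_lit 5) (nat_lit 141) (nat_lit 5) (nat_lit 479) (nat_lit 393) (nat_lit 268))) (XT.nd (nat_lit 78) (nat_lit 380) (nat_lit 0) (XT.lf (nat_lit 0) (nat_lit 7795066016) (nat_lit 456) (nat_lit 2596045167) (nat_lit 76) (nat_lit 4628546415) (nat_lit 135) (nat_lit 5) (nat_lit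 141) (nat_lit 5) (nat_lit 136) (nat_lit 5) (nat_lit 480) (nat_lit 393) (nat_lit 267)) (XT.lf (nat_lit 0) (nat_lit 5369008383) (nat_lit 380) (nat_lit 5651003521) (nat_lit 456) (nat_lit 4192381204) (nat_lit 130) (nat_lit 5) (nat_lit 135) (nat_lit 5) (nat_lit 136) (nat_lit 5) (nat_lit 481) (nat_lit 393) (nat_lit 266))))) (XT.nd (nat_lit 234) (nat_lit 760) (nat_lit 0) (XT.nd (nat_lit 78) (nat_lit 456) (nat_lit 0) (XT.lf (nat_lit 0) (nat_lit 13506685681) (nat_lit 380) (nat_lit 805337675) (nat_lit 456) (nat_lit 1096914852) (nat_lit 130) (nat_lit 5) (nat_lit 135) (nat_lit 5) (nat_lit 136) (nat_lit 5) (nat_lit 482) (nat_lit 393) (nat_lit 265)) (XT.nd (nat_lit 78) (nat_lit 0) (nat_lit 0) (XT.lf (nat_lit 0) (nat_lit 2086489645) (nat_lit 456) (nat_lit 9391224808) (nat_lit 76) (nat_lit 4130377130) (nat_lit 124) (nat_lit 5) (nat_lit 130) (nat_lit 5) (nat_lit 125) (nat_lit 5) (nat_lit 483) (nat_lit 393) (nat_lit 264)) (XT.lf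 (nat_lit 0) (nat_lit 5322508573) (nat_lit 456) (nat_lit 1321248974) (nat_lit 76) (nat_lit 9167258639) (nat_lit 124) (nat_lit 5) (nat_lit 130) (nat_lit 5) (nat_lit 125) (nat_lit 5) (nat_lit 484) (nat_lit 393) (nat_lit 263)))) (XT.nd (nat_lit 156) (nat_lit 456) (nat_lit 0) (XT.nd (nat_lit 78) (nat_lit 0) (nat_lit 0) (XT.lf (nat_lit 0) (nat_lit 6980353382) (nat_lit 304) (nat_lit 1673938411) (nat_lit 380) (nat_lit 7363092350) (nat_lit 120) (nat_lit 5) (nat_lit 124) (nat_lit 5) (nat_lit 125) (nat_lit 5) (nat_lit 485) (nat_lit 393) (nat_lit 262)) (XT.lf (nat_lit 0) (nat_lit 12069499563) (nat_lit 380) (nat_lit 805331459) (nat_lit 76) (nat_lit 3352718288) (nat_lit 120) (nat_lit 5) (nat_lit 125) (nat_lit 5) (nat_lit 121) (nat_lit 5) (nat_lit 486) (nat_lit 393) (nat_lit 261))) (XT.nd (nat_lit 78) (nat_lit 76) (nat_lit 0) (XT.lf (nat_lit 0) (nat_lit 7659366306) (nat_lit 380) (nat_lit 7940558101) (nat_lit 456) (nat_lit 841060631)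 (nat_lit 115) (nat_lit 5) (nat_lit 120) (nat_lit 5) (nat_lit 121) (nat_lit 5) (nat_lit 487) (nat_lit 393) (nat_lit 260)) (XT.lf (nat_lit 0) (nat_lit 2500504121) (nat_lit 456) (nat_lit 391903913) (nat_lit 76) (nat_lit 13766125065) (nat_lit 114) (nat_lit 5) (nat_lit 120) (nat_lit 5) (nat_lit 115) (nat_lit 5) (nat_lit 488) (nat_lit 393) (nat_lit 259)))))) (XT.nd (nat_lit 546) (nat_lit 836) (nat_lit 0) (XT.nd (nat_lit 234) (nat_lit 684) (nat_lit 0) (XT.nd (nat_lit 78) (nat_lit 304) (nat_lit 0) (XT.lf (nat_lit 0) (nat_lit 5952605259) (nat_lit 380) (nat_lit 8646963283) (nat_lit 76) (nat_lit 2279658252) (nat_lit 110) (nat_lit 5) (nat_lit 115) (nat_lit 5) (nat_lit 111) (nat_lit 5) (nat_lit 489) (nat_lit 393) (nat_lit 258)) (XT.nd (nat_lit 78) (nat_lit 304) (nat_lit 0) (XT.lf (nat_lit 0) (nat_lit 9482048269) (nat_lit 380) (nat_lit 109962505) (nat_lit 76) (nat_lit 7512162689) (nat_lit 110) (nat_lit 5) (nat_lit 115) (nat_lit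 5) (nat_lit 111) (nat_lit 5) (nat_lit 490) (nat_lit 393) (nat_lit 257)) (XT.lf (nat_lit 0) (nat_lit 8691439701) (nat_lit 304) (nat_lit 4433833314) (nat_lit 380) (nat_lit 4207487188) (nat_lit 106) (nat_lit 5) (nat_lit 110) (nat_lit 5) (nat_lit 111) (nat_lit 5) (nat_lit 491) (nat_lit 393) (nat_lit 256)))) (XT.nd (nat_lit 156) (nat_lit 304) (nat_lit 0) (XT.nd (nat_lit 78) (nat_lit 76) (nat_lit 0) (XT.lf (nat_lit 0) (nat_lit 79708654) (nat_lit 304) (nat_lit 16755131375) (nat_lit 380) (nat_lit 731213993) (nat_lit 102) (nat_lit 5) (nat_lit 106) (nat_lit 5) (nat_lit 107) (nat_lit 5) (nat_lit 492) (nat_lit 393) (nat_lit 255)) (XT.lf (nat_lit 0) (nat_lit 2852285819) (nat_lit 380) (nat_lit 8779041981) (nat_lit 76) (nat_lit 6170832846) (nat_lit 101) (nat_lit 5) (nat_lit 106) (nat_lit 5) (nat_lit 102) (nat_lit 5) (nat_lit 493) (nat_lit 393) (nat_lit 254))) (XT.nd (nat_lit 78) (nat_lit 0) (nat_lit 0) (XT.lf (nat_lit 0) (nat_lit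 78535715) (nat_lit 304) (nat_lit 6406785240) (nat_lit 380) (nat_lit 11557823270) (nat_lit 97) (nat_lit 5) (nat_lit 101) (nat_lit 5) (nat_lit 102) (nat_lit 5) (nat_lit 494) (nat_lit 393) (nat_lit 253)) (XT.lf (nat_lit 0) (nat_lit 9212339869) (nat_lit 304) (nat_lit 1024848974) (nat_lit 380) (nat_lit 8050839718) (nat_lit 97) (nat_lit 5) (nat_lit 101) (nat_lit 5) (nat_lit 102) (nat_lit 5) (nat_lit 495) (nat_lit 393) (nat_lit 252))))) (XT.nd (nat_lit 234) (nat_lit 532) (nat_lit 0) (XT.nd (nat_lit 78) (nat_lit 304) (nat_lit 0) (XT.lf (nat_lit 0) (nat_lit 14080546161) (nat_lit 380) (nat_lit 57723521) (nat_lit 76) (nat_lit 4399216298) (nat_lit 97) (nat_lit 5) (nat_lit 102) (nat_lit 5) (nat_lit 98) (nat_lit 5) (nat_lit 496) (nat_lit 393) (nat_lit 251)) (XT.nd (nat_lit 78) (nat_lit 76) (nat_lit 0) (XT.lf (nat_lit 0) (nat_lit 9235582275) (nat_lit 228) (nat_lit 8819648864) (nat_lit 304) (nat_lit 735616549) (nat_lit 94) (nat_lit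 5) (nat_lit 97) (nat_lit 5) (nat_lit 98) (nat_lit 5) (nat_lit 497) (nat_lit 393) (nat_lit 250)) (XT.lf (nat_lit 0) (nat_lit 3008130113) (nat_lit 304) (nat_lit 373000878) (nat_lit 76) (nat_lit 15667989828) (nat_lit 93) (nat_lit 5) (nat_lit 97) (nat_lit 5) (nat_lit 94) (nat_lit 5) (nat_lit 498) (nat_lit 393) (nat_lit 249)))) (XT.nd (nat_lit 156) (nat_lit 228) (nat_lit 0) (XT.nd (nat_lit 78) (nat_lit 0) (nat_lit 0) (XT.lf (nat_lit 0) (nat_lit 6878341018) (nat_lit 380) (nat_lit 10237754482) (nat_lit 76) (nat_lit 2195141980) (nat_lit 89) (nat_lit 5) (nat_lit 94) (nat_lit 5) (nat_lit 90) (nat_lit 5) (nat_lit 499) (nat_lit 393) (nat_lit 248)) (XT.lf (nat_lit 0) (nat_lit 10838916548) (nat_lit 380) (nat_lit 906090874) (nat_lit 76) (nat_lit 7833333862) (nat_lit 89) (nat_lit 5) (nat_lit 94) (nat_lit 5) (nat_lit 90) (nat_lit 5) (nat_lit 500) (nat_lit 393) (nat_lit 247))) (XT.nd (nat_lit 78) (nat_lit 0) (nat_lit 0) (XT.lf (nat_lit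 0) (nat_lit 8707694310) (nat_lit 228) (nat_lit 6215828940) (nat_lit 304) (nat_lit 4926371463) (nat_lit 86) (nat_lit 5) (nat_lit 89) (nat_lit 5) (nat_lit 90) (nat_lit 5) (nat_lit 501) (nat_lit 393) (nat_lit 246)) (XT.lf (nat_lit 0) (nat_lit 18507445949) (nat_lit 228) (nat_lit 576849041) (nat_lit 304) (nat_lit 1042698622) (nat_lit 86) (nat_lit 5) (nat_lit 89) (nat_lit 5) (nat_lit 90) (nat_lit 5) (nat_lit 502) (nat_lit 393) (nat_lit 245))))))) (XT.nd (nat_lit 1092) (nat_lit 1064) (nat_lit 0) (XT.nd (nat_lit 546) (nat_lit 760) (nat_lit 0) (XT.nd (nat_lit 234) (nat_lit 532) (nat_lit 0) (XT.nd (nat_lit 78) (nat_lit 228) (nat_lit 0) (XT.lf (nat_lit 0) (nat_lit 2955942117) (nat_lit 380) (nat_lit 12279170531) (nat_lit 76) (nat_lit 5172635100) (nat_lit 81) (nat_lit 5) (nat_lit 86) (nat_lit 5) (nat_lit 82) (nat_lit 5) (nat_lit 503) (nat_lit 393) (nat_lit 244)) (XT.nd (nat_lit 78) (nat_lit 228) (nat_lit 0) (XT.lf (nat_lit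 0) (nat_lit 7023969484) (nat_lit 380) (nat_lit 2629526970) (nat_lit 76) (nat_lit 11040418796) (nat_lit 81) (nat_lit 5) (nat_lit 86) (nat_lit 5) (nat_lit 82) (nat_lit 5) (nat_lit 504) (nat_lit 393) (nat_lit 243)) (XT.lf (nat_lit 0) (nat_lit 7290641356) (nat_lit 228) (nat_lit 3918877516) (nat_lit 304) (nat_lit 9775567569) (nat_lit 78) (nat_lit 5) (nat_lit 81) (nat_lit 5) (nat_lit 82) (nat_lit 5) (nat_lit 505) (nat_lit 393) (nat_lit 242)))) (XT.nd (nat_lit 156) (nat_lit 304) (nat_lit 0) (XT.nd (nat_lit 78) (nat_lit 228) (nat_lit 0) (XT.lf (nat_lit 0) (nat_lit 15497958747) (nat_lit 304) (nat_lit 3867669036) (nat_lit 76) (nat_lit 1916073182) (nat_lit 78) (nat_lit 5) (nat_lit 82) (nat_lit 5) (nat_lit 79) (nat_lit 5) (nat_lit 506) (nat_lit 393) (nat_lit 241)) (XT.lf (nat_lit 0) (nat_lit 6193122089) (nat_lit 228) (nat_lit 13734309462) (nat_lit 304) (nat_lit 1655714376) (nat_lit 75) (nat_lit 5) (nat_lit 78) (nat_lit 5)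 (nat_lit 79) (nat_lit 5) (nat_lit 507) (nat_lit 393) (nat_lit 240))) (XT.nd (nat_lit 78) (nat_lit 228) (nat_lit 0) (XT.lf (nat_lit 0) (nat_lit 2536617914) (nat_lit 304) (nat_lit 5417126502) (nat_lit 76) (nat_lit 13936241879) (nat_lit 74) (nat_lit 5) (nat_lit 78) (nat_lit 5) (nat_lit 75) (nat_lit 5) (nat_lit 508) (nat_lit 393) (nat_lit 239)) (XT.lf (nat_lit 0) (nat_lit 4789607518) (nat_lit 228) (nat_lit 2021476122) (nat_lit 304) (nat_lit 15391255041) (nat_lit 71) (nat_lit 5) (nat_lit 74) (nat_lit 5) (nat_lit 75) (nat_lit 5) (nat_lit 509) (nat_lit 393) (nat_lit 238))))) (XT.nd (nat_lit 234) (nat_lit 532) (nat_lit 0) (XT.nd (nat_lit 78) (nat_lit 228) (nat_lit 0) (XT.lf (nat_lit 0) (nat_lit 11223183986) (nat_lit 304) (nat_lit 7290235047) (nat_lit 76) (nat_lit 4006479346) (nat_lit 71) (nat_lit 5) (nat_lit 75) (nat_lit 5) (nat_lit 72) (nat_lit 5) (nat_lit 510) (nat_lit 393) (nat_lit 237)) (XT.nd (nat_lit 78) (nat_lit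 0) (nat_lit 0) (XT.lf (nat_lit 0) (nat_lit 3044062612) (nat_lit 228) (nat_lit 12702214090) (nat_lit 304) (nat_lit 7097080668) (nat_lit 68) (nat_lit 5) (nat_lit 71) (nat_lit 5) (nat_lit 72) (nat_lit 5) (nat_lit 511) (nat_lit 393) (nat_lit 236)) (XT.lf (nat_lit 0) (nat_lit 13666795788) (nat_lit 228) (nat_lit 6731648932) (nat_lit 304) (nat_lit 2774071597) (nat_lit 68) (nat_lit 5) (nat_lit 71) (nat_lit 5) (nat_lit 72) (nat_lit 5) (nat_lit 512) (nat_lit 393) (nat_lit 235)))) (XT.nd (nat_lit 156) (nat_lit 228) (nat_lit 0) (XT.nd (nat_lit 78) (nat_lit 0) (nat_lit 0) (XT.lf (nat_lit 0) (nat_lit 979072901) (nat_lit 228) (nat_lit 631057385) (nat_lit 304) (nat_lit 21897995099) (nat_lit 64) (nat_lit 5) (nat_lit 67) (nat_lit 5) (nat_lit 68) (nat_lit 5) (nat_lit 513) (nat_lit 393) (nat_lit 234)) (XT.lf (nat_lit 0) (nat_lit 6135292656) (nat_lit 304) (nat_lit 12118779023) (nat_lit 76) (nat_lit 5594202670) (nat_lit 64) (nat_lit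 5) (nat_lit 68) (nat_lit 5) (nat_lit 65) (nat_lit 5) (nat_lit 514) (nat_lit 393) (nat_lit 233))) (XT.nd (nat_lit 78) (nat_lit 228) (nat_lit 0) (XT.lf (nat_lit 0) (nat_lit 10745207745) (nat_lit 304) (nat_lit 1521072514) (nat_lit 76) (nat_lit 11929063855) (nat_lit 64) (nat_lit 5) (nat_lit 68) (nat_lit 5) (nat_lit 65) (nat_lit 5) (nat_lit 515) (nat_lit 393) (nat_lit 232)) (XT.lf (nat_lit 0) (nat_lit 9395544504) (nat_lit 228) (nat_lit 6103043726) (nat_lit 304) (nat_lit 9049744463) (nat_lit 61) (nat_lit 5) (nat_lit 64) (nat_lit 5) (nat_lit 65) (nat_lit 5) (nat_lit 516) (nat_lit 393) (nat_lit 231)))))) (XT.nd (nat_lit 546) (nat_lit 456) (nat_lit 0) (XT.nd (nat_lit 234) (nat_lit 380) (nat_lit 0) (XT.nd (nat_lit 78) (nat_lit 228) (nat_lit 0) (XT.lf (nat_lit 0) (nat_lit 20348810909) (nat_lit 304) (nat_lit 4374637482) (nat_lit 76) (nat_lit 184899865) (nat_lit 61) (nat_lit 5) (nat_lit 65) (nat_lit 5) (nat_lit 62) (nat_lit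 5) (nat_lit 517) (nat_lit 393) (nat_lit 230)) (XT.nd (nat_lit 78) (nat_lit 0) (nat_lit 0) (XT.lf (nat_lit 0) (nat_lit 94785069) (nat_lit 228) (nat_lit 18624829819) (nat_lit 76) (nat_lit 6554457589) (nat_lit 58) (nat_lit 5) (nat_lit 61) (nat_lit 5) (nat_lit 59) (nat_lit 5) (nat_lit 518) (nat_lit 393) (nat_lit 229)) (XT.lf (nat_lit 0) (nat_lit 4801266218) (nat_lit 228) (nat_lit 7740032038) (nat_lit 76) (nat_lit 13104810215) (nat_lit 58) (nat_lit 5) (nat_lit 61) (nat_lit 5) (nat_lit 59) (nat_lit 5) (nat_lit 519) (nat_lit 393) (nat_lit 228)))) (XT.nd (nat_lit 156) (nat_lit 152) (nat_lit 0) (XT.nd (nat_lit 78) (nat_lit 0) (nat_lit 0) (XT.lf (nat_lit 0) (nat_lit 3391234705) (nat_lit 228) (nat_lit 6223363262) (nat_lit 304) (nat_lit 16410735297) (nat_lit 55) (nat_lit 5) (nat_lit 58) (nat_lit 5) (nat_lit 59) (nat_lit 5) (nat_lit 520) (nat_lit 393) (nat_lit 227)) (XT.lf (nat_lit 0) (nat_lit 14568656830) (nat_lit 304) (nat_lit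 11578582857) (nat_lit 76) (nat_lit 264016105) (nat_lit 55) (nat_lit 5) (nat_lit 59) (nat_lit 5) (nat_lit 56) (nat_lit 5) (nat_lit 521) (nat_lit 393) (nat_lit 226))) (XT.nd (nat_lit 78) (nat_lit 152) (nat_lit 0) (XT.lf (nat_lit 0) (nat_lit 19653935109) (nat_lit 304) (nat_lit 358608084) (nat_lit 76) (nat_lit 6791713215) (nat_lit 55) (nat_lit 5) (nat_lit 59) (nat_lit 5) (nat_lit 56) (nat_lit 5) (nat_lit 522) (nat_lit 393) (nat_lit 225)) (XT.lf (nat_lit 0) (nat_lit 11217754824) (nat_lit 152) (nat_lit 13687099110) (nat_lit 228) (nat_lit 2298986757) (nat_lit 53) (nat_lit 5) (nat_lit 55) (nat_lit 5) (nat_lit 56) (nat_lit 5) (nat_lit 523) (nat_lit 393) (nat_lit 224))))) (XT.nd (nat_lit 49218) (nat_lit 0) (nat_lit 40204) (XT.nd (nat_lit 156) (nat_lit 152) (nat_lit 0) (XT.nd (nat_lit 78) (nat_lit 228) (nat_lit 0) (XT.lf (nat_lit 0) (nat_lit 2608167875) (nat_lit 228) (nat_lit 4613234911) (nat_lit 76) (nat_lit 20389801300)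 (nat_lit 52) (nat_lit 5) (nat_lit 55) (nat_lit 5) (nat_lit 53) (nat_lit 5) (nat_lit 524) (nat_lit 393) (nat_lit 223)) (XT.lf (nat_lit 0) (nat_lit 7049444916) (nat_lit 228) (nat_lit 570327891) (nat_lit 304) (nat_lit 20405898419) (nat_lit 49) (nat_lit 5) (nat_lit 52) (nat_lit 5) (nat_lit 53) (nat_lit 5) (nat_lit 525) (nat_lit 393) (nat_lit 222))) (XT.nd (nat_lit 78) (nat_lit 152) (nat_lit 0) (XT.lf (nat_lit 0) (nat_lit 12794443316) (nat_lit 304) (nat_lit 9495340645) (nat_lit 76) (nat_lit 6157389256) (nat_lit 49) (nat_lit 5) (nat_lit 53) (nat_lit 5) (nat_lit 50) (nat_lit 5) (nat_lit 526) (nat_lit 393) (nat_lit 221)) (XT.lf (nat_lit 0) (nat_lit 2225976763) (nat_lit 152) (nat_lit 15856357367) (nat_lit 228) (nat_lit 10794578711) (nat_lit 47) (nat_lit 5) (nat_lit 49) (nat_lit 5) (nat_lit 50) (nat_lit 5) (nat_lit 527) (nat_lit 393) (nat_lit 220)))) (XT.nd (nat_lit 156) (nat_lit 912) (nat_lit 0) (XT.nd (nat_lit 78) (nat_lit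 0) (nat_lit 0) (XT.lf (nat_lit 0) (nat_lit 854671478) (nat_lit 0) (nat_lit 854671478) (nat_lit 836) (nat_lit 1702536433) (nat_lit 588) (nat_lit 5) (nat_lit 588) (nat_lit 3) (nat_lit 599) (nat_lit 3) (nat_lit 394) (nat_lit 394) (nat_lit 352)) (XT.lf (nat_lit 0) (nat_lit 4933867319) (nat_lit 0) (nat_lit 444063157) (nat_lit 836) (nat_lit 1473707267) (nat_lit 588) (nat_lit 5) (nat_lit 588) (nat_lit 3) (nat_lit 599) (nat_lit 3) (nat_lit 395) (nat_lit 394) (nat_lit 351))) (XT.nd (nat_lit 78) (nat_lit 0) (nat_lit 0) (XT.lf (nat_lit 0) (nat_lit 453277988) (nat_lit 912) (nat_lit 5555567246) (nat_lit 988) (nat_lit 871942349) (nat_lit 576) (nat_lit 5) (nat_lit 588) (nat_lit 5) (nat_lit 589) (nat_lit 5) (nat_lit 396) (nat_lit 394) (nat_lit 350)) (XT.lf (nat_lit 0) (nat_lit 2365093813) (nat_lit 912) (nat_lit 2290987650) (nat_lit 988) (nat_lit 2254970489) (nat_lit 576) (nat_lit 5) (nat_lit 588) (nat_lit 5) (nat_lit 589) (nat_lit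 5) (nat_lit 397) (nat_lit 394) (nat_lit 349))))))))
noncomputable def xc136 : XT := (XT.nd (nat_lit 2184) (nat_lit 13832) (nat_lit 0) (XT.nd (nat_lit 1092) (nat_lit 9652) (nat_lit 0) (XT.nd (nat_lit 546) (nat_lit 1064) (nat_lit 0) (XT.nd (nat_lit 234) (nat_lit 988) (nat_lit 0) (XT.nd (nat_lit 78) (nat_lit 988) (nat_lit 0) (XT.lf (nat_lit 76) (nat_lit 1025861703) (nat_lit 0) (nat_lit 3247033126) (nat_lit 988) (nat_lit 2669917713) (nat_lit 577) (nat_lit 5) (nat_lit 576) (nat_lit 5) (nat_lit 589) (nat_lit 5) (nat_lit 398) (nat_lit 394) (nat_lit 348)) (XT.nd (nat_lit 78) (nat_lit 988) (nat_lit 0) (XT.lf (nat_lit 76) (nat_lit 4413800975) (nat_lit 0) (nat_lit 1772301207) (nat_lit 988) (nat_lit 789806166) (nat_lit 577) (nat_lit 5) (nat_lit 576) (nat_lit 5) (nat_lit 589) (nat_lit 5) (nat_lit 399) (nat_lit 394) (nat_lit 347)) (XT.lf (nat_lit 76) (nat_lit 837026312) (nat_lit 0) (nat_lit 233987296) (nat_lit 1064) (nat_lit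 5939391290) (nat_lit 564) (nat_lit 5) (nat_lit 563) (nat_lit 5) (nat_lit 577) (nat_lit 5) (nat_lit 400) (nat_lit 394) (nat_lit 346)))) (XT.nd (nat_lit 156) (nat_lit 1064) (nat_lit 0) (XT.nd (nat_lit 78) (nat_lit 0) (nat_lit 0) (XT.lf (nat_lit 0) (nat_lit 2937818019) (nat_lit 988) (nat_lit 2747785587) (nat_lit 1064) (nat_lit 1360338902) (nat_lit 564) (nat_lit 5) (nat_lit 577) (nat_lit 5) (nat_lit 578) (nat_lit 5) (nat_lit 401) (nat_lit 394) (nat_lit 345)) (XT.lf (nat_lit 76) (nat_lit 727449428) (nat_lit 0) (nat_lit 4075054893) (nat_lit 1064) (nat_lit 2280517216) (nat_lit 565) (nat_lit 5) (nat_lit 564) (nat_lit 5) (nat_lit 578) (nat_lit 5) (nat_lit 402) (nat_lit 394) (nat_lit 344))) (XT.nd (nat_lit 78) (nat_lit 1064) (nat_lit 0) (XT.lf (nat_lit 76) (nat_lit 4282751929) (nat_lit 0) (nat_lit 2395167998) (nat_lit 1064) (nat_lit 443494277) (nat_lit 565) (nat_lit 5) (nat_lit 564) (nat_lit 5) (nat_lit 578) (nat_lit 5)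 (nat_lit 403) (nat_lit 394) (nat_lit 343)) (XT.lf (nat_lit 76) (nat_lit 721977469) (nat_lit 0) (nat_lit 649768243) (nat_lit 1140) (nat_lit 5789477776) (nat_lit 551) (nat_lit 5) (nat_lit 550) (nat_lit 5) (nat_lit 565) (nat_lit 5) (nat_lit 404) (nat_lit 394) (nat_lit 342))))) (XT.nd (nat_lit 234) (nat_lit 1140) (nat_lit 0) (XT.nd (nat_lit 78) (nat_lit 0) (nat_lit 0) (XT.lf (nat_lit 0) (nat_lit 3200230323) (nat_lit 1064) (nat_lit 2847181979) (nat_lit 1140) (nat_lit 1154738879) (nat_lit 551) (nat_lit 5) (nat_lit 565) (nat_lit 5) (nat_lit 566) (nat_lit 5) (nat_lit 405) (nat_lit 394) (nat_lit 341)) (XT.nd (nat_lit 78) (nat_lit 0) (nat_lit 0) (XT.lf (nat_lit 76) (nat_lit 795759305) (nat_lit 0) (nat_lit 4236208132) (nat_lit 1140) (nat_lit 2212633998) (nat_lit 552) (nat_lit 5) (nat_lit 551) (nat_lit 5) (nat_lit 566) (nat_lit 5) (nat_lit 406) (nat_lit 394) (nat_lit 340)) (XT.lf (nat_lit 76) (nat_lit 4523234528) (nat_lit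 0) (nat_lit 2354088149) (nat_lit 1140) (nat_lit 411075274) (nat_lit 552) (nat_lit 5) (nat_lit 551) (nat_lit 5) (nat_lit 566) (nat_lit 5) (nat_lit 407) (nat_lit 394) (nat_lit 339)))) (XT.nd (nat_lit 156) (nat_lit 0) (nat_lit 76) (XT.nd (nat_lit 78) (nat_lit 0) (nat_lit 76) (XT.lf (nat_lit 76) (nat_lit 968651236) (nat_lit 0) (nat_lit 403837531) (nat_lit 1216) (nat_lit 5961138222) (nat_lit 537) (nat_lit 5) (nat_lit 536) (nat_lit 5) (nat_lit 552) (nat_lit 5) (nat_lit 408) (nat_lit 394) (nat_lit 338)) (XT.lf (nat_lit 0) (nat_lit 3174324861) (nat_lit 1140) (nat_lit 2605651914) (nat_lit 1216) (nat_lit 1600002182) (nat_lit 537) (nat_lit 5) (nat_lit 552) (nat_lit 5) (nat_lit 553) (nat_lit 5) (nat_lit 409) (nat_lit 394) (nat_lit 337))) (XT.nd (nat_lit 78) (nat_lit 0) (nat_lit 0) (XT.lf (nat_lit 76) (nat_lit 1214913569) (nat_lit 0) (nat_lit 3767775718) (nat_lit 1216) (nat_lit 2445192960) (nat_lit 538) (nat_lit 5) (nat_lit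 537) (nat_lit 5) (nat_lit 553) (nat_lit 5) (nat_lit 410) (nat_lit 394) (nat_lit 336)) (XT.lf (nat_lit 76) (nat_lit 5120185416) (nat_lit 0) (nat_lit 1685060283) (nat_lit 1216) (nat_lit 671970852) (nat_lit 538) (nat_lit 5) (nat_lit 537) (nat_lit 5) (nat_lit 553) (nat_lit 5) (nat_lit 411) (nat_lit 394) (nat_lit 335)))))) (XT.nd (nat_lit 546) (nat_lit 6080) (nat_lit 0) (XT.nd (nat_lit 234) (nat_lit 2508) (nat_lit 0) (XT.nd (nat_lit 78) (nat_lit 0) (nat_lit 0) (XT.lf (nat_lit 0) (nat_lit 1096019931) (nat_lit 1216) (nat_lit 5968958097) (nat_lit 1292) (nat_lit 462959805) (nat_lit 522) (nat_lit 5) (nat_lit 538) (nat_lit 5) (nat_lit 539) (nat_lit 5) (nat_lit 412) (nat_lit 394) (nat_lit 334)) (XT.nd (nat_lit 78) (nat_lit 0) (nat_lit 0) (XT.lf (nat_lit 0) (nat_lit 2879151402) (nat_lit 1216) (nat_lit 2037551951) (nat_lit 1292) (nat_lit 2663137298) (nat_lit 522) (nat_lit 5) (nat_lit 538) (nat_lit 5) (nat_lit 539) (nat_lit 5)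 (nat_lit 413) (nat_lit 394) (nat_lit 333)) (XT.lf (nat_lit 76) (nat_lit 1971136552) (nat_lit 0) (nat_lit 2702047211) (nat_lit 1292) (nat_lit 2960123893) (nat_lit 523) (nat_lit 5) (nat_lit 522) (nat_lit 5) (nat_lit 539) (nat_lit 5) (nat_lit 414) (nat_lit 394) (nat_lit 332)))) (XT.nd (nat_lit 156) (nat_lit 1292) (nat_lit 0) (XT.nd (nat_lit 78) (nat_lit 1216) (nat_lit 0) (XT.lf (nat_lit 76) (nat_lit 6060599735) (nat_lit 0) (nat_lit 419171459) (nat_lit 1292) (nat_lit 1208569610) (nat_lit 523) (nat_lit 5) (nat_lit 522) (nat_lit 5) (nat_lit 539) (nat_lit 5) (nat_lit 415) (nat_lit 394) (nat_lit 331)) (XT.lf (nat_lit 0) (nat_lit 562644933) (nat_lit 1292) (nat_lit 5268158664) (nat_lit 76) (nat_lit 1913780877) (nat_lit 506) (nat_lit 5) (nat_lit 523) (nat_lit 5) (nat_lit 507) (nat_lit 5) (nat_lit 416) (nat_lit 394) (nat_lit 330))) (XT.nd (nat_lit 78) (nat_lit 1292) (nat_lit 0) (XT.lf (nat_lit 0) (nat_lit 2330946685) (nat_lit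 1292) (nat_lit 1155480229) (nat_lit 76) (nat_lit 4315837963) (nat_lit 506) (nat_lit 5) (nat_lit 523) (nat_lit 5) (nat_lit 507) (nat_lit 5) (nat_lit 417) (nat_lit 394) (nat_lit 329)) (XT.lf (nat_lit 0) (nat_lit 3052392215) (nat_lit 1292) (nat_lit 1066804361) (nat_lit 1368) (nat_lit 3742238653) (nat_lit 489) (nat_lit 5) (nat_lit 506) (nat_lit 5) (nat_lit 507) (nat_lit 5) (nat_lit 418) (nat_lit 394) (nat_lit 328))))) (XT.nd (nat_lit 234) (nat_lit 3192) (nat_lit 0) (XT.nd (nat_lit 78) (nat_lit 2888) (nat_lit 0) (XT.lf (nat_lit 0) (nat_lit 5925445076) (nat_lit 1368) (nat_lit 598384414) (nat_lit 76) (nat_lit 1398342263) (nat_lit 489) (nat_lit 5) (nat_lit 507) (nat_lit 5) (nat_lit 490) (nat_lit 5) (nat_lit 419) (nat_lit 394) (nat_lit 327)) (XT.nd (nat_lit 78) (nat_lit 1520) (nat_lit 0) (XT.lf (nat_lit 0) (nat_lit 3710948549) (nat_lit 1368) (nat_lit 4054039445) (nat_lit 1444) (nat_lit 219218522) (nat_lit 471) (nat_lit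 5) (nat_lit 489) (nat_lit 5) (nat_lit 490) (nat_lit 5) (nat_lit 420) (nat_lit 394) (nat_lit 326)) (XT.lf (nat_lit 0) (nat_lit 29753754) (nat_lit 1444) (nat_lit 1513671891) (nat_lit 1520) (nat_lit 6504465431) (nat_lit 451) (nat_lit 5) (nat_lit 470) (nat_lit 5) (nat_lit 471) (nat_lit 5) (nat_lit 421) (nat_lit 394) (nat_lit 325)))) (XT.nd (nat_lit 156) (nat_lit 1672) (nat_lit 0) (XT.nd (nat_lit 78) (nat_lit 1520) (nat_lit 0) (XT.lf (nat_lit 0) (nat_lit 3341029455) (nat_lit 1520) (nat_lit 3672150912) (nat_lit 76) (nat_lit 1099612483) (nat_lit 451) (nat_lit 5) (nat_lit 471) (nat_lit 5) (nat_lit 452) (nat_lit 5) (nat_lit 422) (nat_lit 394) (nat_lit 324)) (XT.lf (nat_lit 0) (nat_lit 732903463) (nat_lit 1520) (nat_lit 4423893878) (nat_lit 1596) (nat_lit 3022575931) (nat_lit 431) (nat_lit 5) (nat_lit 451) (nat_lit 5) (nat_lit 452) (nat_lit 5) (nat_lit 423) (nat_lit 394) (nat_lit 323))) (XT.nd (nat_lit 78) (nat_lit 1672)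 (nat_lit 0) (XT.lf (nat_lit 0) (nat_lit 5248576815) (nat_lit 1520) (nat_lit 1752836680) (nat_lit 1596) (nat_lit 1246045509) (nat_lit 431) (nat_lit 5) (nat_lit 451) (nat_lit 5) (nat_lit 452) (nat_lit 5) (nat_lit 424) (nat_lit 394) (nat_lit 322)) (XT.lf (nat_lit 0) (nat_lit 543221780) (nat_lit 1672) (nat_lit 6796882813) (nat_lit 76) (nat_lit 977059182) (nat_lit 409) (nat_lit 5) (nat_lit 431) (nat_lit 5) (nat_lit 410) (nat_lit 5) (nat_lit 425) (nat_lit 394) (nat_lit 321))))))) (XT.nd (nat_lit 1092) (nat_lit 6308) (nat_lit 0) (XT.nd (nat_lit 546) (nat_lit 2584) (nat_lit 0) (XT.nd (nat_lit 234) (nat_lit 3268) (nat_lit 0) (XT.nd (nat_lit 78) (nat_lit 1672) (nat_lit 0) (XT.lf (nat_lit 0) (nat_lit 2352233701) (nat_lit 1672) (nat_lit 2265042267) (nat_lit 76) (nat_lit 3770832029) (nat_lit 409) (nat_lit 5) (nat_lit 431) (nat_lit 5) (nat_lit 410) (nat_lit 5) (nat_lit 426) (nat_lit 394) (nat_lit 320)) (XT.nd (nat_lit 78) (nat_lit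 0) (nat_lit 0) (XT.lf (nat_lit 0) (nat_lit 2361279477) (nat_lit 1672) (nat_lit 1820852569) (nat_lit 1748) (nat_lit 4278667438) (nat_lit 387) (nat_lit 5) (nat_lit 409) (nat_lit 5) (nat_lit 410) (nat_lit 5) (nat_lit 427) (nat_lit 394) (nat_lit 319)) (XT.lf (nat_lit 0) (nat_lit 6040447679) (nat_lit 1748) (nat_lit 1458200690) (nat_lit 76) (nat_lit 1036482112) (nat_lit 387) (nat_lit 5) (nat_lit 410) (nat_lit 5) (nat_lit 388) (nat_lit 5) (nat_lit 428) (nat_lit 394) (nat_lit 318)))) (XT.nd (nat_lit 156) (nat_lit 1748) (nat_lit 0) (XT.nd (nat_lit 78) (nat_lit 76) (nat_lit 0) (XT.lf (nat_lit 0) (nat_lit 3279850307) (nat_lit 1444) (nat_lit 4659846490) (nat_lit 1520) (nat_lit 671197592) (nat_lit 368) (nat_lit 5) (nat_lit 387) (nat_lit 5) (nat_lit 388) (nat_lit 5) (nat_lit 429) (nat_lit 394) (nat_lit 317)) (XT.lf (nat_lit 0) (nat_lit 1153621698) (nat_lit 1520) (nat_lit 590617623) (nat_lit 76) (nat_lit 6944191579) (nat_lit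 367) (nat_lit 5) (nat_lit 387) (nat_lit 5) (nat_lit 368) (nat_lit 5) (nat_lit 430) (nat_lit 394) (nat_lit 316))) (XT.nd (nat_lit 78) (nat_lit 912) (nat_lit 0) (XT.lf (nat_lit 0) (nat_lit 3013070078) (nat_lit 912) (nat_lit 4506265794) (nat_lit 76) (nat_lit 1247971522) (nat_lit 356) (nat_lit 5) (nat_lit 368) (nat_lit 5) (nat_lit 357) (nat_lit 5) (nat_lit 431) (nat_lit 394) (nat_lit 315)) (XT.lf (nat_lit 0) (nat_lit 335708306) (nat_lit 912) (nat_lit 4563305587) (nat_lit 988) (nat_lit 3948981381) (nat_lit 344) (nat_lit 5) (nat_lit 356) (nat_lit 5) (nat_lit 357) (nat_lit 5) (nat_lit 432) (nat_lit 394) (nat_lit 314))))) (XT.nd (nat_lit 234) (nat_lit 1672) (nat_lit 0) (XT.nd (nat_lit 78) (nat_lit 912) (nat_lit 0) (XT.lf (nat_lit 0) (nat_lit 5308609388) (nat_lit 912) (nat_lit 1516274444) (nat_lit 988) (nat_lit 2105388529) (nat_lit 344) (nat_lit 5) (nat_lit 356) (nat_lit 5) (nat_lit 357) (nat_lit 5) (nat_lit 433) (nat_lit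 394) (nat_lit 313)) (XT.nd (nat_lit 78) (nat_lit 76) (nat_lit 0) (XT.lf (nat_lit 0) (nat_lit 1347063893) (nat_lit 836) (nat_lit 7433811740) (nat_lit 912) (nat_lit 233506476) (nat_lit 333) (nat_lit 5) (nat_lit 344) (nat_lit 5) (nat_lit 345) (nat_lit 5) (nat_lit 434) (nat_lit 394) (nat_lit 312)) (XT.lf (nat_lit 0) (nat_lit 1661030659) (nat_lit 912) (nat_lit 2683758812) (nat_lit 76) (nat_lit 4755041515) (nat_lit 332) (nat_lit 5) (nat_lit 344) (nat_lit 5) (nat_lit 333) (nat_lit 5) (nat_lit 435) (nat_lit 394) (nat_lit 311)))) (XT.nd (nat_lit 156) (nat_lit 836) (nat_lit 0) (XT.nd (nat_lit 78) (nat_lit 0) (nat_lit 0) (XT.lf (nat_lit 0) (nat_lit 2402726068) (nat_lit 836) (nat_lit 1176434582) (nat_lit 912) (nat_lit 5608038847) (nat_lit 321) (nat_lit 5) (nat_lit 332) (nat_lit 5) (nat_lit 333) (nat_lit 5) (nat_lit 436) (nat_lit 394) (nat_lit 310)) (XT.lf (nat_lit 0) (nat_lit 5540703941) (nat_lit 912) (nat_lit 1689180240)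 (nat_lit 76) (nat_lit 2046347930) (nat_lit 321) (nat_lit 5) (nat_lit 333) (nat_lit 5) (nat_lit 322) (nat_lit 5) (nat_lit 437) (nat_lit 394) (nat_lit 309))) (XT.nd (nat_lit 78) (nat_lit 76) (nat_lit 0) (XT.lf (nat_lit 0) (nat_lit 3519841009) (nat_lit 760) (nat_lit 4026376980) (nat_lit 836) (nat_lit 1820749989) (nat_lit 311) (nat_lit 5) (nat_lit 321) (nat_lit 5) (nat_lit 322) (nat_lit 5) (nat_lit 438) (nat_lit 394) (nat_lit 308)) (XT.lf (nat_lit 0) (nat_lit 116244976) (nat_lit 836) (nat_lit 631020590) (nat_lit 76) (nat_lit 8712539403) (nat_lit 310) (nat_lit 5) (nat_lit 321) (nat_lit 5) (nat_lit 311) (nat_lit 5) (nat_lit 439) (nat_lit 394) (nat_lit 307)))))) (XT.nd (nat_lit 546) (nat_lit 3344) (nat_lit 0) (XT.nd (nat_lit 234) (nat_lit 1520) (nat_lit 0) (XT.nd (nat_lit 78) (nat_lit 684) (nat_lit 0) (XT.lf (nat_lit 0) (nat_lit 2090114164) (nat_lit 836) (nat_lit 4858356526) (nat_lit 76) (nat_lit 2605353419) (nat_lit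 300) (nat_lit 5) (nat_lit 311) (nat_lit 5) (nat_lit 301) (nat_lit 5) (nat_lit 440) (nat_lit 394) (nat_lit 306)) (XT.nd (nat_lit 78) (nat_lit 0) (nat_lit 0) (XT.lf (nat_lit 0) (nat_lit 461936645) (nat_lit 684) (nat_lit 3628804657) (nat_lit 760) (nat_lit 5559252792) (nat_lit 291) (nat_lit 5) (nat_lit 300) (nat_lit 5) (nat_lit 301) (nat_lit 5) (nat_lit 441) (nat_lit 394) (nat_lit 305)) (XT.lf (nat_lit 0) (nat_lit 5928121479) (nat_lit 684) (nat_lit 211249308) (nat_lit 760) (nat_lit 3608572654) (nat_lit 291) (nat_lit 5) (nat_lit 300) (nat_lit 5) (nat_lit 301) (nat_lit 5) (nat_lit 442) (nat_lit 394) (nat_lit 304)))) (XT.nd (nat_lit 156) (nat_lit 684) (nat_lit 0) (XT.nd (nat_lit 78) (nat_lit 76) (nat_lit 0) (XT.lf (nat_lit 0) (nat_lit 1629548521) (nat_lit 760) (nat_lit 6607124774) (nat_lit 836) (nat_lit 1611039922) (nat_lit 281) (nat_lit 5) (nat_lit 291) (nat_lit 5) (nat_lit 292) (nat_lit 5) (nat_lit 443) (nat_lit 394)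 (nat_lit 303)) (XT.lf (nat_lit 0) (nat_lit 424042078) (nat_lit 836) (nat_lit 2740119061) (nat_lit 76) (nat_lit 6785212892) (nat_lit 280) (nat_lit 5) (nat_lit 291) (nat_lit 5) (nat_lit 281) (nat_lit 5) (nat_lit 444) (nat_lit 394) (nat_lit 302))) (XT.nd (nat_lit 78) (nat_lit 0) (nat_lit 0) (XT.lf (nat_lit 0) (nat_lit 2475661439) (nat_lit 760) (nat_lit 7207213114) (nat_lit 76) (nat_lit 370046938) (nat_lit 271) (nat_lit 5) (nat_lit 281) (nat_lit 5) (nat_lit 272) (nat_lit 5) (nat_lit 445) (nat_lit 394) (nat_lit 301)) (XT.lf (nat_lit 0) (nat_lit 4584515151) (nat_lit 760) (nat_lit 1625126132) (nat_lit 76) (nat_lit 3948588850) (nat_lit 271) (nat_lit 5) (nat_lit 281) (nat_lit 5) (nat_lit 272) (nat_lit 5) (nat_lit 446) (nat_lit 394) (nat_lit 300))))) (XT.nd (nat_lit 312) (nat_lit 1292) (nat_lit 0) (XT.nd (nat_lit 156) (nat_lit 1368) (nat_lit 0) (XT.nd (nat_lit 78) (nat_lit 0) (nat_lit 0) (XT.lf (nat_lit 0) (nat_lit 4096572118)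 (nat_lit 684) (nat_lit 2642765444) (nat_lit 760) (nat_lit 3526245548) (nat_lit 262) (nat_lit 5) (nat_lit 271) (nat_lit 5) (nat_lit 272) (nat_lit 5) (nat_lit 447) (nat_lit 394) (nat_lit 299)) (XT.lf (nat_lit 0) (nat_lit 8932152316) (nat_lit 760) (nat_lit 452699640) (nat_lit 76) (nat_lit 990346991) (nat_lit 262) (nat_lit 5) (nat_lit 272) (nat_lit 5) (nat_lit 263) (nat_lit 5) (nat_lit 448) (nat_lit 394) (nat_lit 298))) (XT.nd (nat_lit 78) (nat_lit 684) (nat_lit 0) (XT.lf (nat_lit 0) (nat_lit 703559861) (nat_lit 684) (nat_lit 5085227089) (nat_lit 76) (nat_lit 4697531085) (nat_lit 253) (nat_lit 5) (nat_lit 262) (nat_lit 5) (nat_lit 254) (nat_lit 5) (nat_lit 449) (nat_lit 394) (nat_lit 297)) (XT.lf (nat_lit 0) (nat_lit 753136407) (nat_lit 684) (nat_lit 2106613909) (nat_lit 760) (nat_lit 7740011862) (nat_lit 244) (nat_lit 5) (nat_lit 253) (nat_lit 5) (nat_lit 254) (nat_lit 5) (nat_lit 450) (nat_lit 394) (nat_lit 296))))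 (XT.nd (nat_lit 156) (nat_lit 684) (nat_lit 0) (XT.nd (nat_lit 78) (nat_lit 608) (nat_lit 0) (XT.lf (nat_lit 0) (nat_lit 5082372435) (nat_lit 760) (nat_lit 3974441046) (nat_lit 76) (nat_lit 1658208239) (nat_lit 244) (nat_lit 5) (nat_lit 254) (nat_lit 5) (nat_lit 245) (nat_lit 5) (nat_lit 451) (nat_lit 394) (nat_lit 295)) (XT.lf (nat_lit 0) (nat_lit 2002088756) (nat_lit 608) (nat_lit 5352984288) (nat_lit 684) (nat_lit 3477413313) (nat_lit 236) (nat_lit 5) (nat_lit 244) (nat_lit 5) (nat_lit 245) (nat_lit 5) (nat_lit 452) (nat_lit 394) (nat_lit 294))) (XT.nd (nat_lit 78) (nat_lit 684) (nat_lit 0) (XT.lf (nat_lit 0) (nat_lit 8126785603) (nat_lit 608) (nat_lit 1552042983) (nat_lit 684) (nat_lit 1273371865) (nat_lit 236) (nat_lit 5) (nat_lit 244) (nat_lit 5) (nat_lit 245) (nat_lit 5) (nat_lit 453) (nat_lit 394) (nat_lit 293)) (XT.lf (nat_lit 0) (nat_lit 977915055) (nat_lit 684) (nat_lit 7777690356) (nat_lit 76) (nat_lit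 2318269576) (nat_lit 227) (nat_lit 5) (nat_lit 236) (nat_lit 5) (nat_lit 228) (nat_lit 5) (nat_lit 454) (nat_lit 394) (nat_lit 292))))))))
noncomputable def xc137 : XT := (XT.nd (nat_lit 2184) (nat_lit 4484) (nat_lit 0) (XT.nd (nat_lit 1092) (nat_lit 3572) (nat_lit 0) (XT.nd (nat_lit 546) (nat_lit 1520) (nat_lit 0) (XT.nd (nat_lit 234) (nat_lit 1748) (nat_lit 0) (XT.nd (nat_lit 78) (nat_lit 532) (nat_lit 0) (XT.lf (nat_lit 0) (nat_lit 3265970612) (nat_lit 684) (nat_lit 1663186869) (nat_lit 76) (nat_lit 6268492806) (nat_lit 227) (nat_lit 5) (nat_lit 236) (nat_lit 5) (nat_lit 228) (nat_lit 5) (nat_lit 455) (nat_lit 394) (nat_lit 291)) (XT.nd (nat_lit 78) (nat_lit 0) (nat_lit 0) (XT.lf (nat_lit 0) (nat_lit 4609292230) (nat_lit 532) (nat_lit 1000238687) (nat_lit 608) (nat_lit 5714186558) (nat_lit 220) (nat_lit 5) (nat_lit 227) (nat_lit 5) (nat_lit 228) (nat_lit 5) (nat_lit 456) (nat_lit 394) (nat_lit 290)) (XT.lf (nat_lit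 0) (nat_lit 8010745143) (nat_lit 608) (nat_lit 466898931) (nat_lit 76) (nat_lit 2974457310) (nat_lit 220) (nat_lit 5) (nat_lit 228) (nat_lit 5) (nat_lit 221) (nat_lit 5) (nat_lit 457) (nat_lit 394) (nat_lit 289)))) (XT.nd (nat_lit 156) (nat_lit 532) (nat_lit 0) (XT.nd (nat_lit 78) (nat_lit 608) (nat_lit 0) (XT.lf (nat_lit 0) (nat_lit 5952529204) (nat_lit 608) (nat_lit 4533140850) (nat_lit 684) (nat_lit 1096880008) (nat_lit 212) (nat_lit 5) (nat_lit 220) (nat_lit 5) (nat_lit 221) (nat_lit 5) (nat_lit 458) (nat_lit 394) (nat_lit 288)) (XT.lf (nat_lit 0) (nat_lit 768177692) (nat_lit 532) (nat_lit 497973960) (nat_lit 608) (nat_lit 10449525498) (nat_lit 204) (nat_lit 5) (nat_lit 211) (nat_lit 5) (nat_lit 212) (nat_lit 5) (nat_lit 459) (nat_lit 394) (nat_lit 287))) (XT.nd (nat_lit 78) (nat_lit 532) (nat_lit 0) (XT.lf (nat_lit 0) (nat_lit 3703982853) (nat_lit 608) (nat_lit 4535860404) (nat_lit 76) (nat_lit 3610644187)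 (nat_lit 204) (nat_lit 5) (nat_lit 212) (nat_lit 5) (nat_lit 205) (nat_lit 5) (nat_lit 460) (nat_lit 394) (nat_lit 286)) (XT.lf (nat_lit 0) (nat_lit 2002663420) (nat_lit 532) (nat_lit 4185278317) (nat_lit 608) (nat_lit 5800114779) (nat_lit 197) (nat_lit 5) (nat_lit 204) (nat_lit 5) (nat_lit 205) (nat_lit 5) (nat_lit 461) (nat_lit 394) (nat_lit 285))))) (XT.nd (nat_lit 234) (nat_lit 988) (nat_lit 0) (XT.nd (nat_lit 78) (nat_lit 532) (nat_lit 0) (XT.lf (nat_lit 0) (nat_lit 8709287012) (nat_lit 532) (nat_lit 24015729) (nat_lit 608) (nat_lit 3394849566) (nat_lit 197) (nat_lit 5) (nat_lit 204) (nat_lit 5) (nat_lit 205) (nat_lit 5) (nat_lit 462) (nat_lit 394) (nat_lit 284)) (XT.nd (nat_lit 78) (nat_lit 76) (nat_lit 0) (XT.lf (nat_lit 0) (nat_lit 3270459833) (nat_lit 456) (nat_lit 8089364495) (nat_lit 532) (nat_lit 910630225) (nat_lit 191) (nat_lit 5) (nat_lit 197) (nat_lit 5) (nat_lit 198) (nat_lit 5) (nat_lit 463) (nat_lit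 394) (nat_lit 283)) (XT.lf (nat_lit 0) (nat_lit 1606930429) (nat_lit 532) (nat_lit 2310197523) (nat_lit 76) (nat_lit 8498174407) (nat_lit 190) (nat_lit 5) (nat_lit 197) (nat_lit 5) (nat_lit 191) (nat_lit 5) (nat_lit 464) (nat_lit 394) (nat_lit 282)))) (XT.nd (nat_lit 156) (nat_lit 456) (nat_lit 0) (XT.nd (nat_lit 78) (nat_lit 0) (nat_lit 0) (XT.lf (nat_lit 0) (nat_lit 4176606967) (nat_lit 608) (nat_lit 8021795095) (nat_lit 76) (nat_lit 364254566) (nat_lit 183) (nat_lit 5) (nat_lit 191) (nat_lit 5) (nat_lit 184) (nat_lit 5) (nat_lit 465) (nat_lit 394) (nat_lit 281)) (XT.lf (nat_lit 0) (nat_lit 6821437765) (nat_lit 608) (nat_lit 1202251095) (nat_lit 76) (nat_lit 4688802780) (nat_lit 183) (nat_lit 5) (nat_lit 191) (nat_lit 5) (nat_lit 184) (nat_lit 5) (nat_lit 466) (nat_lit 394) (nat_lit 280))) (XT.nd (nat_lit 78) (nat_lit 0) (nat_lit 0) (XT.lf (nat_lit 0) (nat_lit 5806487538) (nat_lit 456) (nat_lit 3732940128) (nat_lit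 532) (nat_lit 3325499138) (nat_lit 177) (nat_lit 5) (nat_lit 183) (nat_lit 5) (nat_lit 184) (nat_lit 5) (nat_lit 467) (nat_lit 394) (nat_lit 279)) (XT.lf (nat_lit 0) (nat_lit 12306792953) (nat_lit 532) (nat_lit 76294375) (nat_lit 76) (nat_lit 637431561) (nat_lit 177) (nat_lit 5) (nat_lit 184) (nat_lit 5) (nat_lit 178) (nat_lit 5) (nat_lit 468) (nat_lit 394) (nat_lit 278)))))) (XT.nd (nat_lit 546) (nat_lit 1672) (nat_lit 0) (XT.nd (nat_lit 234) (nat_lit 912) (nat_lit 0) (XT.nd (nat_lit 78) (nat_lit 456) (nat_lit 0) (XT.lf (nat_lit 0) (nat_lit 1978866153) (nat_lit 532) (nat_lit 6100455339) (nat_lit 76) (nat_lit 5098573034) (nat_lit 170) (nat_lit 5) (nat_lit 177) (nat_lit 5) (nat_lit 171) (nat_lit 5) (nat_lit 469) (nat_lit 394) (nat_lit 277)) (XT.nd (nat_lit 78) (nat_lit 0) (nat_lit 0) (XT.lf (nat_lit 0) (nat_lit 1022423066) (nat_lit 456) (nat_lit 3683611774) (nat_lit 532) (nat_lit 8632490889) (nat_lit 164) (nat_lit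 5) (nat_lit 170) (nat_lit 5) (nat_lit 171) (nat_lit 5) (nat_lit 470) (nat_lit 394) (nat_lit 276)) (XT.lf (nat_lit 0) (nat_lit 7517409528) (nat_lit 532) (nat_lit 5159843051) (nat_lit 76) (nat_lit 824531605) (nat_lit 164) (nat_lit 5) (nat_lit 171) (nat_lit 5) (nat_lit 165) (nat_lit 5) (nat_lit 471) (nat_lit 394) (nat_lit 275)))) (XT.nd (nat_lit 156) (nat_lit 456) (nat_lit 0) (XT.nd (nat_lit 78) (nat_lit 0) (nat_lit 0) (XT.lf (nat_lit 0) (nat_lit 2120130077) (nat_lit 456) (nat_lit 8286629979) (nat_lit 532) (nat_lit 3261120510) (nat_lit 158) (nat_lit 5) (nat_lit 164) (nat_lit 5) (nat_lit 165) (nat_lit 5) (nat_lit 472) (nat_lit 394) (nat_lit 274)) (XT.lf (nat_lit 0) (nat_lit 9592973063) (nat_lit 456) (nat_lit 3779312662) (nat_lit 532) (nat_lit 464652961) (nat_lit 158) (nat_lit 5) (nat_lit 164) (nat_lit 5) (nat_lit 165) (nat_lit 5) (nat_lit 473) (nat_lit 394) (nat_lit 273))) (XT.nd (nat_lit 78) (nat_lit 0) (nat_lit 0)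 (XT.lf (nat_lit 0) (nat_lit 2366749485) (nat_lit 456) (nat_lit 10804445974) (nat_lit 76) (nat_lit 837673309) (nat_lit 152) (nat_lit 5) (nat_lit 158) (nat_lit 5) (nat_lit 153) (nat_lit 5) (nat_lit 474) (nat_lit 394) (nat_lit 272)) (XT.lf (nat_lit 0) (nat_lit 5286356744) (nat_lit 456) (nat_lit 3375238438) (nat_lit 76) (nat_lit 5521832010) (nat_lit 152) (nat_lit 5) (nat_lit 158) (nat_lit 5) (nat_lit 153) (nat_lit 5) (nat_lit 475) (nat_lit 394) (nat_lit 271))))) (XT.nd (nat_lit 234) (nat_lit 836) (nat_lit 0) (XT.nd (nat_lit 78) (nat_lit 380) (nat_lit 0) (XT.lf (nat_lit 0) (nat_lit 4235968256) (nat_lit 456) (nat_lit 4040298687) (nat_lit 532) (nat_lit 6084978622) (nat_lit 146) (nat_lit 5) (nat_lit 152) (nat_lit 5) (nat_lit 153) (nat_lit 5) (nat_lit 476) (nat_lit 394) (nat_lit 270)) (XT.nd (nat_lit 78) (nat_lit 380) (nat_lit 0) (XT.lf (nat_lit 0) (nat_lit 11337675653) (nat_lit 532) (nat_lit 2523805922) (nat_lit 76) (nat_lit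 680911584) (nat_lit 146) (nat_lit 5) (nat_lit 153) (nat_lit 5) (nat_lit 147) (nat_lit 5) (nat_lit 477) (nat_lit 394) (nat_lit 269)) (XT.lf (nat_lit 0) (nat_lit 5249961125) (nat_lit 380) (nat_lit 9256026322) (nat_lit 456) (nat_lit 220269485) (nat_lit 141) (nat_lit 5) (nat_lit 146) (nat_lit 5) (nat_lit 147) (nat_lit 5) (nat_lit 478) (nat_lit 394) (nat_lit 268)))) (XT.nd (nat_lit 156) (nat_lit 380) (nat_lit 0) (XT.nd (nat_lit 78) (nat_lit 380) (nat_lit 0) (XT.lf (nat_lit 0) (nat_lit 2788762612) (nat_lit 456) (nat_lit 1740386222) (nat_lit 76) (nat_lit 10384250309) (nat_lit 140) (nat_lit 5) (nat_lit 146) (nat_lit 5) (nat_lit 141) (nat_lit 5) (nat_lit 479) (nat_lit 394) (nat_lit 267)) (XT.lf (nat_lit 0) (nat_lit 5882649912) (nat_lit 456) (nat_lit 8897136433) (nat_lit 76) (nat_lit 323922592) (nat_lit 135) (nat_lit 5) (nat_lit 141) (nat_lit 5) (nat_lit 136) (nat_lit 5) (nat_lit 480) (nat_lit 394) (nat_lit 266))) (XT.nd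 (nat_lit 78) (nat_lit 380) (nat_lit 0) (XT.lf (nat_lit 0) (nat_lit 9065453367) (nat_lit 456) (nat_lit 1013181860) (nat_lit 76) (nat_lit 5218655144) (nat_lit 135) (nat_lit 5) (nat_lit 141) (nat_lit 5) (nat_lit 136) (nat_lit 5) (nat_lit 481) (nat_lit 394) (nat_lit 265)) (XT.lf (nat_lit 0) (nat_lit 7100417602) (nat_lit 380) (nat_lit 5243172178) (nat_lit 456) (nat_lit 3150526209) (nat_lit 130) (nat_lit 5) (nat_lit 135) (nat_lit 5) (nat_lit 136) (nat_lit 5) (nat_lit 482) (nat_lit 394) (nat_lit 264))))))) (XT.nd (nat_lit 1092) (nat_lit 1976) (nat_lit 0) (XT.nd (nat_lit 546) (nat_lit 988) (nat_lit 0) (XT.nd (nat_lit 234) (nat_lit 760) (nat_lit 0) (XT.nd (nat_lit 78) (nat_lit 760) (nat_lit 0) (XT.lf (nat_lit 0) (nat_lit 15369004739) (nat_lit 380) (nat_lit 310805788) (nat_lit 456) (nat_lit 15223130) (nat_lit 130) (nat_lit 5) (nat_lit 135) (nat_lit 5) (nat_lit 136) (nat_lit 5) (nat_lit 483) (nat_lit 394) (nat_lit 263)) (XT.nd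 (nat_lit 78) (nat_lit 304) (nat_lit 0) (XT.lf (nat_lit 0) (nat_lit 3209750456) (nat_lit 456) (nat_lit 7963886634) (nat_lit 76) (nat_lit 4724550890) (nat_lit 124) (nat_lit 5) (nat_lit 130) (nat_lit 5) (nat_lit 125) (nat_lit 5) (nat_lit 484) (nat_lit 394) (nat_lit 262)) (XT.lf (nat_lit 0) (nat_lit 238952768) (nat_lit 304) (nat_lit 6251881944) (nat_lit 380) (nat_lit 9614737990) (nat_lit 120) (nat_lit 5) (nat_lit 124) (nat_lit 5) (nat_lit 125) (nat_lit 5) (nat_lit 485) (nat_lit 394) (nat_lit 261)))) (XT.nd (nat_lit 156) (nat_lit 380) (nat_lit 0) (XT.nd (nat_lit 78) (nat_lit 380) (nat_lit 0) (XT.lf (nat_lit 0) (nat_lit 8693035549) (nat_lit 304) (nat_lit 1184089378) (nat_lit 380) (nat_lit 6439194024) (nat_lit 120) (nat_lit 5) (nat_lit 124) (nat_lit 5) (nat_lit 125) (nat_lit 5) (nat_lit 486) (nat_lit 394) (nat_lit 260)) (XT.lf (nat_lit 0) (nat_lit 748267916) (nat_lit 380) (nat_lit 12599975075) (nat_lit 456) (nat_lit 3182700502)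 (nat_lit 115) (nat_lit 5) (nat_lit 120) (nat_lit 5) (nat_lit 121) (nat_lit 5) (nat_lit 487) (nat_lit 394) (nat_lit 259))) (XT.nd (nat_lit 78) (nat_lit 304) (nat_lit 0) (XT.lf (nat_lit 0) (nat_lit 182847544) (nat_lit 456) (nat_lit 7387976235) (nat_lit 76) (nat_lit 9178108972) (nat_lit 114) (nat_lit 5) (nat_lit 120) (nat_lit 5) (nat_lit 115) (nat_lit 5) (nat_lit 488) (nat_lit 394) (nat_lit 258)) (XT.lf (nat_lit 0) (nat_lit 1148363049) (nat_lit 304) (nat_lit 2418899357) (nat_lit 380) (nat_lit 13403720288) (nat_lit 110) (nat_lit 5) (nat_lit 114) (nat_lit 5) (nat_lit 115) (nat_lit 5) (nat_lit 489) (nat_lit 394) (nat_lit 257))))) (XT.nd (nat_lit 234) (nat_lit 684) (nat_lit 0) (XT.nd (nat_lit 78) (nat_lit 304) (nat_lit 0) (XT.lf (nat_lit 0) (nat_lit 7074446994) (nat_lit 380) (nat_lit 7279977323) (nat_lit 76) (nat_lit 2841952687) (nat_lit 110) (nat_lit 5) (nat_lit 115) (nat_lit 5) (nat_lit 111) (nat_lit 5) (nat_lit 490)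 (nat_lit 394) (nat_lit 256)) (XT.nd (nat_lit 78) (nat_lit 0) (nat_lit 0) (XT.lf (nat_lit 0) (nat_lit 1416141812) (nat_lit 304) (nat_lit 9247869042) (nat_lit 380) (nat_lit 6762028535) (nat_lit 106) (nat_lit 5) (nat_lit 110) (nat_lit 5) (nat_lit 111) (nat_lit 5) (nat_lit 491) (nat_lit 394) (nat_lit 255)) (XT.lf (nat_lit 0) (nat_lit 10365066670) (nat_lit 304) (nat_lit 3996299577) (nat_lit 380) (nat_lit 3298213572) (nat_lit 106) (nat_lit 5) (nat_lit 110) (nat_lit 5) (nat_lit 111) (nat_lit 5) (nat_lit 492) (nat_lit 394) (nat_lit 254)))) (XT.nd (nat_lit 156) (nat_lit 304) (nat_lit 0) (XT.nd (nat_lit 78) (nat_lit 0) (nat_lit 0) (XT.lf (nat_lit 0) (nat_lit 238330529) (nat_lit 380) (nat_lit 16311688861) (nat_lit 76) (nat_lit 1347615117) (nat_lit 101) (nat_lit 5) (nat_lit 106) (nat_lit 5) (nat_lit 102) (nat_lit 5) (nat_lit 493) (nat_lit 394) (nat_lit 253)) (XT.lf (nat_lit 0) (nat_lit 3864612908) (nat_lit 380) (nat_lit 7464876803)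 (nat_lit 76) (nat_lit 6809265673) (nat_lit 101) (nat_lit 5) (nat_lit 106) (nat_lit 5) (nat_lit 102) (nat_lit 5) (nat_lit 494) (nat_lit 394) (nat_lit 252))) (XT.nd (nat_lit 78) (nat_lit 0) (nat_lit 0) (XT.lf (nat_lit 0) (nat_lit 1560051488) (nat_lit 304) (nat_lit 6001135038) (nat_lit 380) (nat_lit 10823561276) (nat_lit 97) (nat_lit 5) (nat_lit 101) (nat_lit 5) (nat_lit 102) (nat_lit 5) (nat_lit 495) (nat_lit 394) (nat_lit 251)) (XT.lf (nat_lit 0) (nat_lit 10847513194) (nat_lit 304) (nat_lit 522026437) (nat_lit 380) (nat_lit 7265367827) (nat_lit 97) (nat_lit 5) (nat_lit 101) (nat_lit 5) (nat_lit 102) (nat_lit 5) (nat_lit 496) (nat_lit 394) (nat_lit 250)))))) (XT.nd (nat_lit 546) (nat_lit 1140) (nat_lit 0) (XT.nd (nat_lit 234) (nat_lit 228) (nat_lit 0) (XT.nd (nat_lit 78) (nat_lit 380) (nat_lit 0) (XT.lf (nat_lit 0) (nat_lit 1397102578) (nat_lit 228) (nat_lit 13886875175) (nat_lit 304) (nat_lit 3605498460) (nat_lit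 94) (nat_lit 5) (nat_lit 97) (nat_lit 5) (nat_lit 98) (nat_lit 5) (nat_lit 497) (nat_lit 394) (nat_lit 249)) (XT.nd (nat_lit 78) (nat_lit 304) (nat_lit 0) (XT.lf (nat_lit 0) (nat_lit 169937503) (nat_lit 304) (nat_lit 8300890435) (nat_lit 76) (nat_lit 10677415094) (nat_lit 93) (nat_lit 5) (nat_lit 97) (nat_lit 5) (nat_lit 94) (nat_lit 5) (nat_lit 498) (nat_lit 394) (nat_lit 248)) (XT.lf (nat_lit 0) (nat_lit 1045613944) (nat_lit 304) (nat_lit 2922041792) (nat_lit 380) (nat_lit 15444155800) (nat_lit 89) (nat_lit 5) (nat_lit 93) (nat_lit 5) (nat_lit 94) (nat_lit 5) (nat_lit 499) (nat_lit 394) (nat_lit 247)))) (XT.nd (nat_lit 156) (nat_lit 0) (nat_lit 0) (XT.nd (nat_lit 78) (nat_lit 228) (nat_lit 0) (XT.lf (nat_lit 0) (nat_lit 7903459202) (nat_lit 380) (nat_lit 9024826839) (nat_lit 76) (nat_lit 2751126690) (nat_lit 89) (nat_lit 5) (nat_lit 94) (nat_lit 5) (nat_lit 90) (nat_lit 5) (nat_lit 500) (nat_lit 394) (nat_lit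 246)) (XT.lf (nat_lit 0) (nat_lit 471860879) (nat_lit 228) (nat_lit 11457046030) (nat_lit 304) (nat_lit 8023244343) (nat_lit 86) (nat_lit 5) (nat_lit 89) (nat_lit 5) (nat_lit 90) (nat_lit 5) (nat_lit 501) (nat_lit 394) (nat_lit 245))) (XT.nd (nat_lit 78) (nat_lit 0) (nat_lit 0) (XT.lf (nat_lit 0) (nat_lit 10262589247) (nat_lit 228) (nat_lit 5821455817) (nat_lit 304) (nat_lit 4145319635) (nat_lit 86) (nat_lit 5) (nat_lit 89) (nat_lit 5) (nat_lit 90) (nat_lit 5) (nat_lit 502) (nat_lit 394) (nat_lit 244)) (XT.lf (nat_lit 0) (nat_lit 20231262566) (nat_lit 228) (nat_lit 79866707) (nat_lit 304) (nat_lit 201219989) (nat_lit 86) (nat_lit 5) (nat_lit 89) (nat_lit 5) (nat_lit 90) (nat_lit 5) (nat_lit 503) (nat_lit 394) (nat_lit 243))))) (XT.nd (nat_lit 312) (nat_lit 532) (nat_lit 0) (XT.nd (nat_lit 156) (nat_lit 228) (nat_lit 0) (XT.nd (nat_lit 78) (nat_lit 0) (nat_lit 0) (XT.lf (nat_lit 0) (nat_lit 3861534579) (nat_lit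 380) (nat_lit 11154681184) (nat_lit 76) (nat_lit 5782487133) (nat_lit 81) (nat_lit 5) (nat_lit 86) (nat_lit 5) (nat_lit 82) (nat_lit 5) (nat_lit 504) (nat_lit 394) (nat_lit 242)) (XT.lf (nat_lit 0) (nat_lit 7994324971) (nat_lit 380) (nat_lit 1338908924) (nat_lit 76) (nat_lit 11757697105) (nat_lit 81) (nat_lit 5) (nat_lit 86) (nat_lit 5) (nat_lit 82) (nat_lit 5) (nat_lit 505) (nat_lit 394) (nat_lit 241))) (XT.nd (nat_lit 78) (nat_lit 0) (nat_lit 0) (XT.lf (nat_lit 0) (nat_lit 8770825870) (nat_lit 228) (nat_lit 3485151024) (nat_lit 304) (nat_lit 9132106087) (nat_lit 78) (nat_lit 5) (nat_lit 81) (nat_lit 5) (nat_lit 82) (nat_lit 5) (nat_lit 506) (nat_lit 394) (nat_lit 240)) (XT.lf (nat_lit 0) (nat_lit 16617322395) (nat_lit 304) (nat_lit 2623696969) (nat_lit 76) (nat_lit 2449872789) (nat_lit 78) (nat_lit 5) (nat_lit 82) (nat_lit 5) (nat_lit 79) (nat_lit 5) (nat_lit 507) (nat_lit 394) (nat_lit 239)))) (XT.nd (nat_lit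 156) (nat_lit 228) (nat_lit 0) (XT.nd (nat_lit 78) (nat_lit 76) (nat_lit 0) (XT.lf (nat_lit 0) (nat_lit 7629617048) (nat_lit 228) (nat_lit 13498419412) (nat_lit 304) (nat_lit 870481513) (nat_lit 75) (nat_lit 5) (nat_lit 78) (nat_lit 5) (nat_lit 79) (nat_lit 5) (nat_lit 508) (nat_lit 394) (nat_lit 238)) (XT.lf (nat_lit 0) (nat_lit 3379129077) (nat_lit 304) (nat_lit 4227812035) (nat_lit 76) (nat_lit 14704769285) (nat_lit 74) (nat_lit 5) (nat_lit 78) (nat_lit 5) (nat_lit 75) (nat_lit 5) (nat_lit 509) (nat_lit 394) (nat_lit 237))) (XT.nd (nat_lit 78) (nat_lit 0) (nat_lit 0) (XT.lf (nat_lit 0) (nat_lit 6174519448) (nat_lit 228) (nat_lit 1557409415) (nat_lit 304) (nat_lit 14898528779) (nat_lit 71) (nat_lit 5) (nat_lit 74) (nat_lit 5) (nat_lit 75) (nat_lit 5) (nat_lit 510) (nat_lit 394) (nat_lit 236)) (XT.lf (nat_lit 0) (nat_lit 12220097739) (nat_lit 304) (nat_lit 6159792622) (nat_lit 76) (nat_lit 4574726257) (nat_lit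 71) (nat_lit 5) (nat_lit 75) (nat_lit 5) (nat_lit 72) (nat_lit 5) (nat_lit 511) (nat_lit 394) (nat_lit 235))))))))
noncomputable def xc138 : XT := (XT.nd (nat_lit 51168) (nat_lit 0) (nat_lit 21508) (XT.nd (nat_lit 1092) (nat_lit 228) (nat_lit 0) (XT.nd (nat_lit 546) (nat_lit 684) (nat_lit 0) (XT.nd (nat_lit 234) (nat_lit 228) (nat_lit 0) (XT.nd (nat_lit 78) (nat_lit 304) (nat_lit 0) (XT.lf (nat_lit 0) (nat_lit 4372794627) (nat_lit 228) (nat_lit 12453943330) (nat_lit 304) (nat_lit 6457949642) (nat_lit 68) (nat_lit 5) (nat_lit 71) (nat_lit 5) (nat_lit 72) (nat_lit 5) (nat_lit 512) (nat_lit 394) (nat_lit 234)) (XT.nd (nat_lit 78) (nat_lit 304) (nat_lit 0) (XT.lf (nat_lit 0) (nat_lit 15183122648) (nat_lit 228) (nat_lit 6373816183) (nat_lit 304) (nat_lit 2063795540) (nat_lit 68) (nat_lit 5) (nat_lit 71) (nat_lit 5) (nat_lit 72) (nat_lit 5) (nat_lit 513) (nat_lit 394) (nat_lit 233)) (XT.lf (nat_lit 0) (nat_lit 2243660695)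 (nat_lit 228) (nat_lit 147652115) (nat_lit 304) (nat_lit 21571782328) (nat_lit 64) (nat_lit 5) (nat_lit 67) (nat_lit 5) (nat_lit 68) (nat_lit 5) (nat_lit 514) (nat_lit 394) (nat_lit 232)))) (XT.nd (nat_lit 156) (nat_lit 228) (nat_lit 0) (XT.nd (nat_lit 78) (nat_lit 0) (nat_lit 0) (XT.lf (nat_lit 0) (nat_lit 6995449931) (nat_lit 304) (nat_lit 11128822684) (nat_lit 76) (nat_lit 6186009215) (nat_lit 64) (nat_lit 5) (nat_lit 68) (nat_lit 5) (nat_lit 65) (nat_lit 5) (nat_lit 515) (nat_lit 394) (nat_lit 231)) (XT.lf (nat_lit 0) (nat_lit 11683103491) (nat_lit 304) (nat_lit 343325416) (nat_lit 76) (nat_lit 12638157379) (nat_lit 64) (nat_lit 5) (nat_lit 68) (nat_lit 5) (nat_lit 65) (nat_lit 5) (nat_lit 516) (nat_lit 394) (nat_lit 230))) (XT.nd (nat_lit 78) (nat_lit 0) (nat_lit 0) (XT.lf (nat_lit 0) (nat_lit 10783675465) (nat_lit 228) (nat_lit 5741492439) (nat_lit 304) (nat_lit 8499598422) (nat_lit 61) (nat_lit 5) (nat_lit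 64) (nat_lit 5) (nat_lit 65) (nat_lit 5) (nat_lit 517) (nat_lit 394) (nat_lit 229)) (XT.lf (nat_lit 0) (nat_lit 21461422265) (nat_lit 304) (nat_lit 3274274191) (nat_lit 76) (nat_lit 656509138) (nat_lit 61) (nat_lit 5) (nat_lit 65) (nat_lit 5) (nat_lit 62) (nat_lit 5) (nat_lit 518) (nat_lit 394) (nat_lit 228))))) (XT.nd (nat_lit 234) (nat_lit 228) (nat_lit 0) (XT.nd (nat_lit 78) (nat_lit 228) (nat_lit 0) (XT.lf (nat_lit 0) (nat_lit 800964256) (nat_lit 228) (nat_lit 17807736384) (nat_lit 76) (nat_lit 7156578340) (nat_lit 58) (nat_lit 5) (nat_lit 61) (nat_lit 5) (nat_lit 59) (nat_lit 5) (nat_lit 519) (nat_lit 394) (nat_lit 227)) (XT.nd (nat_lit 78) (nat_lit 228) (nat_lit 0) (XT.lf (nat_lit 0) (nat_lit 5587765548) (nat_lit 228) (nat_lit 6728567942) (nat_lit 76) (nat_lit 13828702104) (nat_lit 58) (nat_lit 5) (nat_lit 61) (nat_lit 5) (nat_lit 59) (nat_lit 5) (nat_lit 520) (nat_lit 394) (nat_lit 226)) (XT.lf (nat_lit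 0) (nat_lit 4617651341) (nat_lit 228) (nat_lit 5873696232) (nat_lit 304) (nat_lit 16040621276) (nat_lit 55) (nat_lit 5) (nat_lit 58) (nat_lit 5) (nat_lit 59) (nat_lit 5) (nat_lit 521) (nat_lit 394) (nat_lit 225)))) (XT.nd (nat_lit 156) (nat_lit 76) (nat_lit 0) (XT.nd (nat_lit 78) (nat_lit 152) (nat_lit 0) (XT.lf (nat_lit 0) (nat_lit 15534084909) (nat_lit 304) (nat_lit 10663698997) (nat_lit 76) (nat_lit 728037543) (nat_lit 55) (nat_lit 5) (nat_lit 59) (nat_lit 5) (nat_lit 56) (nat_lit 5) (nat_lit 522) (nat_lit 394) (nat_lit 224)) (XT.lf (nat_lit 0) (nat_lit 768271773) (nat_lit 152) (nat_lit 19944568347) (nat_lit 228) (nat_lit 6614010028) (nat_lit 53) (nat_lit 5) (nat_lit 55) (nat_lit 5) (nat_lit 56) (nat_lit 5) (nat_lit 523) (nat_lit 394) (nat_lit 223))) (XT.nd (nat_lit 78) (nat_lit 76) (nat_lit 0) (XT.lf (nat_lit 0) (nat_lit 12558691339) (nat_lit 152) (nat_lit 13499389829) (nat_lit 228) (nat_lit 1676562301) (nat_lit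 53) (nat_lit 5) (nat_lit 55) (nat_lit 5) (nat_lit 56) (nat_lit 5) (nat_lit 524) (nat_lit 394) (nat_lit 222)) (XT.lf (nat_lit 0) (nat_lit 3307035105) (nat_lit 228) (nat_lit 3602052813) (nat_lit 76) (nat_lit 21241241394) (nat_lit 52) (nat_lit 5) (nat_lit 55) (nat_lit 5) (nat_lit 53) (nat_lit 5) (nat_lit 525) (nat_lit 394) (nat_lit 221)))))) (XT.nd (nat_lit 49530) (nat_lit 0) (nat_lit 38076) (XT.nd (nat_lit 49218) (nat_lit 0) (nat_lit 39064) (XT.nd (nat_lit 78) (nat_lit 0) (nat_lit 0) (XT.lf (nat_lit 0) (nat_lit 8286621092) (nat_lit 228) (nat_lit 126687752) (nat_lit 304) (nat_lit 20159891450) (nat_lit 49) (nat_lit 5) (nat_lit 52) (nat_lit 5) (nat_lit 53) (nat_lit 5) (nat_lit 526) (nat_lit 394) (nat_lit 220)) (XT.nd (nat_lit 49062) (nat_lit 0) (nat_lit 39976) (XT.lf (nat_lit 0) (nat_lit 13681797913) (nat_lit 304) (nat_lit 8600720821) (nat_lit 76) (nat_lit 6720810255) (nat_lit 49) (nat_lit 5) (nat_lit 53) (nat_lit 5)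 (nat_lit 50) (nat_lit 5) (nat_lit 527) (nat_lit 394) (nat_lit 219)) (XT.lf (nat_lit 0) (nat_lit 213234604) (nat_lit 988) (nat_lit 1613378863) (nat_lit 988) (nat_lit 1613378863) (nat_lit 575) (nat_lit 3) (nat_lit 588) (nat_lit 3) (nat_lit 588) (nat_lit 5) (nat_lit 395) (nat_lit 395) (nat_lit 350)))) (XT.nd (nat_lit 156) (nat_lit 912) (nat_lit 0) (XT.nd (nat_lit 78) (nat_lit 0) (nat_lit 0) (XT.lf (nat_lit 0) (nat_lit 2295054873) (nat_lit 988) (nat_lit 17546317) (nat_lit 988) (nat_lit 4597146563) (nat_lit 575) (nat_lit 3) (nat_lit 588) (nat_lit 3) (nat_lit 588) (nat_lit 5) (nat_lit 396) (nat_lit 395) (nat_lit 349)) (XT.lf (nat_lit 76) (nat_lit 3273823221) (nat_lit 0) (nat_lit 899543053) (nat_lit 988) (nat_lit 2767338665) (nat_lit 576) (nat_lit 5) (nat_lit 575) (nat_lit 3) (nat_lit 588) (nat_lit 5) (nat_lit 397) (nat_lit 395) (nat_lit 348))) (XT.nd (nat_lit 78) (nat_lit 988) (nat_lit 0) (XT.lf (nat_lit 0) (nat_lit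 6044927352) (nat_lit 912) (nat_lit 370496322) (nat_lit 988) (nat_lit 557788937) (nat_lit 576) (nat_lit 5) (nat_lit 588) (nat_lit 5) (nat_lit 589) (nat_lit 5) (nat_lit 398) (nat_lit 395) (nat_lit 347)) (XT.lf (nat_lit 0) (nat_lit 913356711) (nat_lit 988) (nat_lit 4013101305) (nat_lit 1064) (nat_lit 2080267945) (nat_lit 563) (nat_lit 5) (nat_lit 576) (nat_lit 5) (nat_lit 577) (nat_lit 5) (nat_lit 399) (nat_lit 395) (nat_lit 346))))) (XT.nd (nat_lit 234) (nat_lit 988) (nat_lit 0) (XT.nd (nat_lit 78) (nat_lit 0) (nat_lit 0) (XT.lf (nat_lit 0) (nat_lit 2735312347) (nat_lit 988) (nat_lit 642916098) (nat_lit 1064) (nat_lit 3663482619) (nat_lit 563) (nat_lit 5) (nat_lit 576) (nat_lit 5) (nat_lit 577) (nat_lit 5) (nat_lit 400) (nat_lit 395) (nat_lit 345)) (XT.nd (nat_lit 78) (nat_lit 0) (nat_lit 0) (XT.lf (nat_lit 76) (nat_lit 2806040790) (nat_lit 0) (nat_lit 1760195037) (nat_lit 1064) (nat_lit 2511751051) (nat_lit 564)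 (nat_lit 5) (nat_lit 563) (nat_lit 5) (nat_lit 577) (nat_lit 5) (nat_lit 401) (nat_lit 395) (nat_lit 344)) (XT.lf (nat_lit 76) (nat_lit 6307425292) (nat_lit 0) (nat_lit 85708680) (nat_lit 1064) (nat_lit 722707881) (nat_lit 564) (nat_lit 5) (nat_lit 563) (nat_lit 5) (nat_lit 577) (nat_lit 5) (nat_lit 402) (nat_lit 395) (nat_lit 343)))) (XT.nd (nat_lit 156) (nat_lit 0) (nat_lit 0) (XT.nd (nat_lit 78) (nat_lit 0) (nat_lit 0) (XT.lf (nat_lit 0) (nat_lit 1071784084) (nat_lit 1064) (nat_lit 4438104375) (nat_lit 1140) (nat_lit 1644779093) (nat_lit 550) (nat_lit 5) (nat_lit 564) (nat_lit 5) (nat_lit 565) (nat_lit 5) (nat_lit 403) (nat_lit 395) (nat_lit 342)) (XT.lf (nat_lit 0) (nat_lit 2854945207) (nat_lit 1064) (nat_lit 902815714) (nat_lit 1140) (nat_lit 3437202591) (nat_lit 550) (nat_lit 5) (nat_lit 564) (nat_lit 5) (nat_lit 565) (nat_lit 5) (nat_lit 404) (nat_lit 395) (nat_lit 341))) (XT.nd (nat_lit 78) (nat_lit 0)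 (nat_lit 0) (XT.lf (nat_lit 76) (nat_lit 2713009759) (nat_lit 0) (nat_lit 1935647878) (nat_lit 1140) (nat_lit 2587947656) (nat_lit 551) (nat_lit 5) (nat_lit 550) (nat_lit 5) (nat_lit 565) (nat_lit 5) (nat_lit 405) (nat_lit 395) (nat_lit 340)) (XT.lf (nat_lit 76) (nat_lit 6387808491) (nat_lit 0) (nat_lit 54439309) (nat_lit 1140) (nat_lit 837588967) (nat_lit 551) (nat_lit 5) (nat_lit 550) (nat_lit 5) (nat_lit 565) (nat_lit 5) (nat_lit 406) (nat_lit 395) (nat_lit 339))))))) (XT.nd (nat_lit 1092) (nat_lit 10488) (nat_lit 0) (XT.nd (nat_lit 546) (nat_lit 3876) (nat_lit 0) (XT.nd (nat_lit 234) (nat_lit 1140) (nat_lit 0) (XT.nd (nat_lit 78) (nat_lit 0) (nat_lit 0) (XT.lf (nat_lit 0) (nat_lit 924469168) (nat_lit 1140) (nat_lit 4519381031) (nat_lit 1216) (nat_lit 1880212638) (nat_lit 536) (nat_lit 5) (nat_lit 551) (nat_lit 5) (nat_lit 552) (nat_lit 5) (nat_lit 407) (nat_lit 395) (nat_lit 338)) (XT.nd (nat_lit 78) (nat_lit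 0) (nat_lit 0) (XT.lf (nat_lit 0) (nat_lit 2676159600) (nat_lit 1140) (nat_lit 814033814) (nat_lit 1216) (nat_lit 3879591953) (nat_lit 536) (nat_lit 5) (nat_lit 551) (nat_lit 5) (nat_lit 552) (nat_lit 5) (nat_lit 408) (nat_lit 395) (nat_lit 337)) (XT.lf (nat_lit 76) (nat_lit 2978552480) (nat_lit 0) (nat_lit 1463679723) (nat_lit 1216) (nat_lit 2974637290) (nat_lit 537) (nat_lit 5) (nat_lit 536) (nat_lit 5) (nat_lit 552) (nat_lit 5) (nat_lit 409) (nat_lit 395) (nat_lit 336)))) (XT.nd (nat_lit 156) (nat_lit 0) (nat_lit 0) (XT.nd (nat_lit 78) (nat_lit 1216) (nat_lit 0) (XT.lf (nat_lit 0) (nat_lit 6213757341) (nat_lit 1140) (nat_lit 637385527) (nat_lit 1216) (nat_lit 614383257) (nat_lit 537) (nat_lit 5) (nat_lit 552) (nat_lit 5) (nat_lit 553) (nat_lit 5) (nat_lit 410) (nat_lit 395) (nat_lit 335)) (XT.lf (nat_lit 0) (nat_lit 491098507) (nat_lit 1216) (nat_lit 4272275182) (nat_lit 1292) (nat_lit 2751905259) (nat_lit 521)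 (nat_lit 5) (nat_lit 537) (nat_lit 5) (nat_lit 538) (nat_lit 5) (nat_lit 411) (nat_lit 395) (nat_lit 334))) (XT.nd (nat_lit 78) (nat_lit 0) (nat_lit 0) (XT.lf (nat_lit 0) (nat_lit 2218171949) (nat_lit 1216) (nat_lit 391133838) (nat_lit 1292) (nat_lit 4957264873) (nat_lit 521) (nat_lit 5) (nat_lit 537) (nat_lit 5) (nat_lit 538) (nat_lit 5) (nat_lit 412) (nat_lit 395) (nat_lit 333)) (XT.lf (nat_lit 76) (nat_lit 3588701559) (nat_lit 0) (nat_lit 376923570) (nat_lit 1292) (nat_lit 3653577210) (nat_lit 522) (nat_lit 5) (nat_lit 521) (nat_lit 5) (nat_lit 538) (nat_lit 5) (nat_lit 413) (nat_lit 395) (nat_lit 332))))) (XT.nd (nat_lit 234) (nat_lit 2660) (nat_lit 0) (XT.nd (nat_lit 78) (nat_lit 1292) (nat_lit 0) (XT.lf (nat_lit 0) (nat_lit 5726183020) (nat_lit 1216) (nat_lit 58416993) (nat_lit 1292) (nat_lit 1888753816) (nat_lit 522) (nat_lit 5) (nat_lit 538) (nat_lit 5) (nat_lit 539) (nat_lit 5) (nat_lit 414) (nat_lit 395)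 (nat_lit 331)) (XT.nd (nat_lit 78) (nat_lit 1292) (nat_lit 0) (XT.lf (nat_lit 76) (nat_lit 4017156556) (nat_lit 0) (nat_lit 3497272562) (nat_lit 1292) (nat_lit 214339388) (nat_lit 523) (nat_lit 5) (nat_lit 522) (nat_lit 5) (nat_lit 539) (nat_lit 5) (nat_lit 415) (nat_lit 395) (nat_lit 330)) (XT.lf (nat_lit 76) (nat_lit 357882693) (nat_lit 0) (nat_lit 1141788196) (nat_lit 1368) (nat_lit 6286109610) (nat_lit 506) (nat_lit 5) (nat_lit 505) (nat_lit 5) (nat_lit 523) (nat_lit 5) (nat_lit 416) (nat_lit 395) (nat_lit 329)))) (XT.nd (nat_lit 156) (nat_lit 1444) (nat_lit 0) (XT.nd (nat_lit 78) (nat_lit 1292) (nat_lit 0) (XT.lf (nat_lit 0) (nat_lit 3243115805) (nat_lit 1292) (nat_lit 3321218121) (nat_lit 76) (nat_lit 1279637965) (nat_lit 506) (nat_lit 5) (nat_lit 523) (nat_lit 5) (nat_lit 507) (nat_lit 5) (nat_lit 417) (nat_lit 395) (nat_lit 328)) (XT.lf (nat_lit 0) (nat_lit 844549046) (nat_lit 1292) (nat_lit 4155380310)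 (nat_lit 1368) (nat_lit 2903855197) (nat_lit 489) (nat_lit 5) (nat_lit 506) (nat_lit 5) (nat_lit 507) (nat_lit 5) (nat_lit 418) (nat_lit 395) (nat_lit 327))) (XT.nd (nat_lit 78) (nat_lit 1444) (nat_lit 0) (XT.lf (nat_lit 0) (nat_lit 5112265274) (nat_lit 1292) (nat_lit 1667861919) (nat_lit 1368) (nat_lit 1184928213) (nat_lit 489) (nat_lit 5) (nat_lit 506) (nat_lit 5) (nat_lit 507) (nat_lit 5) (nat_lit 419) (nat_lit 395) (nat_lit 326)) (XT.lf (nat_lit 0) (nat_lit 542343551) (nat_lit 1444) (nat_lit 6607308021) (nat_lit 76) (nat_lit 878223739) (nat_lit 470) (nat_lit 5) (nat_lit 489) (nat_lit 5) (nat_lit 471) (nat_lit 5) (nat_lit 420) (nat_lit 395) (nat_lit 325)))))) (XT.nd (nat_lit 546) (nat_lit 5852) (nat_lit 0) (XT.nd (nat_lit 234) (nat_lit 3192) (nat_lit 0) (XT.nd (nat_lit 78) (nat_lit 1444) (nat_lit 0) (XT.lf (nat_lit 0) (nat_lit 2285541122) (nat_lit 1444) (nat_lit 2319427338) (nat_lit 76) (nat_lit 3486906923)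 (nat_lit 470) (nat_lit 5) (nat_lit 489) (nat_lit 5) (nat_lit 471) (nat_lit 5) (nat_lit 421) (nat_lit 395) (nat_lit 324)) (XT.nd (nat_lit 78) (nat_lit 0) (nat_lit 0) (XT.lf (nat_lit 0) (nat_lit 2054785970) (nat_lit 1444) (nat_lit 1989722199) (nat_lit 1520) (nat_lit 4113054026) (nat_lit 451) (nat_lit 5) (nat_lit 470) (nat_lit 5) (nat_lit 471) (nat_lit 5) (nat_lit 422) (nat_lit 395) (nat_lit 323)) (XT.lf (nat_lit 0) (nat_lit 5826790958) (nat_lit 1520) (nat_lit 1707733026) (nat_lit 76) (nat_lit 690300394) (nat_lit 451) (nat_lit 5) (nat_lit 471) (nat_lit 5) (nat_lit 452) (nat_lit 5) (nat_lit 423) (nat_lit 395) (nat_lit 322)))) (XT.nd (nat_lit 156) (nat_lit 1596) (nat_lit 0) (XT.nd (nat_lit 78) (nat_lit 76) (nat_lit 0) (XT.lf (nat_lit 0) (nat_lit 2772015457) (nat_lit 1520) (nat_lit 4872572628) (nat_lit 1596) (nat_lit 648870230) (nat_lit 431) (nat_lit 5) (nat_lit 451) (nat_lit 5) (nat_lit 452) (nat_lit 5) (nat_lit 424)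 (nat_lit 395) (nat_lit 321)) (XT.lf (nat_lit 0) (nat_lit 1100832738) (nat_lit 1596) (nat_lit 1032811618) (nat_lit 76) (nat_lit 6230087195) (nat_lit 430) (nat_lit 5) (nat_lit 451) (nat_lit 5) (nat_lit 431) (nat_lit 5) (nat_lit 425) (nat_lit 395) (nat_lit 320))) (XT.nd (nat_lit 78) (nat_lit 0) (nat_lit 0) (XT.lf (nat_lit 0) (nat_lit 2873991018) (nat_lit 1672) (nat_lit 4878093841) (nat_lit 76) (nat_lit 683319128) (nat_lit 409) (nat_lit 5) (nat_lit 431) (nat_lit 5) (nat_lit 410) (nat_lit 5) (nat_lit 426) (nat_lit 395) (nat_lit 319)) (XT.lf (nat_lit 0) (nat_lit 4673694848) (nat_lit 1672) (nat_lit 295905241) (nat_lit 76) (nat_lit 3539110201) (nat_lit 409) (nat_lit 5) (nat_lit 431) (nat_lit 5) (nat_lit 410) (nat_lit 5) (nat_lit 427) (nat_lit 395) (nat_lit 318))))) (XT.nd (nat_lit 312) (nat_lit 1824) (nat_lit 0) (XT.nd (nat_lit 156) (nat_lit 912) (nat_lit 0) (XT.nd (nat_lit 78) (nat_lit 1444) (nat_lit 0) (XT.lf (nat_lit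 0) (nat_lit 4409690057) (nat_lit 1672) (nat_lit 2098897722) (nat_lit 1748) (nat_lit 2074932671) (nat_lit 387) (nat_lit 5) (nat_lit 409) (nat_lit 5) (nat_lit 410) (nat_lit 5) (nat_lit 428) (nat_lit 395) (nat_lit 317)) (XT.lf (nat_lit 0) (nat_lit 528635925) (nat_lit 1444) (nat_lit 7833351278) (nat_lit 1520) (nat_lit 298224648) (nat_lit 368) (nat_lit 5) (nat_lit 387) (nat_lit 5) (nat_lit 388) (nat_lit 5) (nat_lit 429) (nat_lit 395) (nat_lit 316))) (XT.nd (nat_lit 78) (nat_lit 836) (nat_lit 0) (XT.lf (nat_lit 0) (nat_lit 1507436410) (nat_lit 1520) (nat_lit 3406813809) (nat_lit 76) (nat_lit 3823745136) (nat_lit 367) (nat_lit 5) (nat_lit 387) (nat_lit 5) (nat_lit 368) (nat_lit 5) (nat_lit 430) (nat_lit 395) (nat_lit 315)) (XT.lf (nat_lit 0) (nat_lit 1402638565) (nat_lit 836) (nat_lit 1923435976) (nat_lit 912) (nat_lit 5491623406) (nat_lit 356) (nat_lit 5) (nat_lit 367) (nat_lit 5) (nat_lit 368) (nat_lit 5) (nat_lit 431)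 (nat_lit 395) (nat_lit 314)))) (XT.nd (nat_lit 156) (nat_lit 912) (nat_lit 0) (XT.nd (nat_lit 78) (nat_lit 912) (nat_lit 0) (XT.lf (nat_lit 0) (nat_lit 5183559953) (nat_lit 912) (nat_lit 2578189073) (nat_lit 76) (nat_lit 1137215669) (nat_lit 356) (nat_lit 5) (nat_lit 368) (nat_lit 5) (nat_lit 357) (nat_lit 5) (nat_lit 432) (nat_lit 395) (nat_lit 313)) (XT.lf (nat_lit 0) (nat_lit 2347346864) (nat_lit 912) (nat_lit 4731516051) (nat_lit 988) (nat_lit 1902999716) (nat_lit 344) (nat_lit 5) (nat_lit 356) (nat_lit 5) (nat_lit 357) (nat_lit 5) (nat_lit 433) (nat_lit 395) (nat_lit 312))) (XT.nd (nat_lit 78) (nat_lit 912) (nat_lit 0) (XT.lf (nat_lit 0) (nat_lit 7380393725) (nat_lit 912) (nat_lit 1622035572) (nat_lit 988) (nat_lit 64200915) (nat_lit 344) (nat_lit 5) (nat_lit 356) (nat_lit 5) (nat_lit 357) (nat_lit 5) (nat_lit 434) (nat_lit 395) (nat_lit 311)) (XT.lf (nat_lit 0) (nat_lit 1793162708) (nat_lit 912) (nat_lit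 5795656322) (nat_lit 76) (nat_lit 1563946095) (nat_lit 332) (nat_lit 5) (nat_lit 344) (nat_lit 5) (nat_lit 333) (nat_lit 5) (nat_lit 435) (nat_lit 395) (nat_lit 310))))))))
noncomputable def xc139 : XT := (XT.nd (nat_lit 2184) (nat_lit 6916) (nat_lit 0) (XT.nd (nat_lit 1092) (nat_lit 4256) (nat_lit 0) (XT.nd (nat_lit 546) (nat_lit 2888) (nat_lit 0) (XT.nd (nat_lit 234) (nat_lit 1520) (nat_lit 0) (XT.nd (nat_lit 78) (nat_lit 1596) (nat_lit 0) (XT.lf (nat_lit 0) (nat_lit 3682697924) (nat_lit 912) (nat_lit 753647853) (nat_lit 76) (nat_lit 4804368540) (nat_lit 332) (nat_lit 5) (nat_lit 344) (nat_lit 5) (nat_lit 333) (nat_lit 5) (nat_lit 436) (nat_lit 395) (nat_lit 309)) (XT.nd (nat_lit 78) (nat_lit 760) (nat_lit 0) (XT.lf (nat_lit 0) (nat_lit 4421515501) (nat_lit 836) (nat_lit 1191481183) (nat_lit 912) (nat_lit 3717383751) (nat_lit 321) (nat_lit 5) (nat_lit 332) (nat_lit 5) (nat_lit 333) (nat_lit 5) (nat_lit 437) (nat_lit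 395) (nat_lit 308)) (XT.lf (nat_lit 0) (nat_lit 252149902) (nat_lit 760) (nat_lit 7324836508) (nat_lit 836) (nat_lit 1844968822) (nat_lit 311) (nat_lit 5) (nat_lit 321) (nat_lit 5) (nat_lit 322) (nat_lit 5) (nat_lit 438) (nat_lit 395) (nat_lit 307)))) (XT.nd (nat_lit 156) (nat_lit 684) (nat_lit 0) (XT.nd (nat_lit 78) (nat_lit 760) (nat_lit 0) (XT.lf (nat_lit 0) (nat_lit 79844416) (nat_lit 836) (nat_lit 3966517098) (nat_lit 76) (nat_lit 5468691958) (nat_lit 310) (nat_lit 5) (nat_lit 321) (nat_lit 5) (nat_lit 311) (nat_lit 5) (nat_lit 439) (nat_lit 395) (nat_lit 306)) (XT.lf (nat_lit 0) (nat_lit 1320237347) (nat_lit 760) (nat_lit 682053750) (nat_lit 836) (nat_lit 7607817922) (nat_lit 300) (nat_lit 5) (nat_lit 310) (nat_lit 5) (nat_lit 311) (nat_lit 5) (nat_lit 440) (nat_lit 395) (nat_lit 305))) (XT.nd (nat_lit 78) (nat_lit 684) (nat_lit 0) (XT.lf (nat_lit 0) (nat_lit 3983391132) (nat_lit 836) (nat_lit 2984092028)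 (nat_lit 76) (nat_lit 2739194189) (nat_lit 300) (nat_lit 5) (nat_lit 311) (nat_lit 5) (nat_lit 301) (nat_lit 5) (nat_lit 441) (nat_lit 395) (nat_lit 304)) (XT.lf (nat_lit 0) (nat_lit 2429637063) (nat_lit 684) (nat_lit 3570805958) (nat_lit 760) (nat_lit 3804822875) (nat_lit 291) (nat_lit 5) (nat_lit 300) (nat_lit 5) (nat_lit 301) (nat_lit 5) (nat_lit 442) (nat_lit 395) (nat_lit 303))))) (XT.nd (nat_lit 234) (nat_lit 2052) (nat_lit 0) (XT.nd (nat_lit 78) (nat_lit 836) (nat_lit 0) (XT.lf (nat_lit 0) (nat_lit 7966744384) (nat_lit 684) (nat_lit 87459792) (nat_lit 760) (nat_lit 1851709821) (nat_lit 291) (nat_lit 5) (nat_lit 300) (nat_lit 5) (nat_lit 301) (nat_lit 5) (nat_lit 443) (nat_lit 395) (nat_lit 302)) (XT.nd (nat_lit 78) (nat_lit 0) (nat_lit 0) (XT.lf (nat_lit 0) (nat_lit 161465366) (nat_lit 836) (nat_lit 6403710781) (nat_lit 76) (nat_lit 3442938388) (nat_lit 280) (nat_lit 5) (nat_lit 291) (nat_lit 5) (nat_lit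 281) (nat_lit 5) (nat_lit 444) (nat_lit 395) (nat_lit 301)) (XT.lf (nat_lit 0) (nat_lit 2180733142) (nat_lit 836) (nat_lit 865364511) (nat_lit 76) (nat_lit 7066218439) (nat_lit 280) (nat_lit 5) (nat_lit 291) (nat_lit 5) (nat_lit 281) (nat_lit 5) (nat_lit 445) (nat_lit 395) (nat_lit 300)))) (XT.nd (nat_lit 156) (nat_lit 684) (nat_lit 0) (XT.nd (nat_lit 78) (nat_lit 684) (nat_lit 0) (XT.lf (nat_lit 0) (nat_lit 4252788559) (nat_lit 760) (nat_lit 5400144098) (nat_lit 76) (nat_lit 565434972) (nat_lit 271) (nat_lit 5) (nat_lit 281) (nat_lit 5) (nat_lit 272) (nat_lit 5) (nat_lit 446) (nat_lit 395) (nat_lit 299)) (XT.lf (nat_lit 0) (nat_lit 258718681) (nat_lit 684) (nat_lit 6112905655) (nat_lit 760) (nat_lit 3954822793) (nat_lit 262) (nat_lit 5) (nat_lit 271) (nat_lit 5) (nat_lit 272) (nat_lit 5) (nat_lit 447) (nat_lit 395) (nat_lit 298))) (XT.nd (nat_lit 78) (nat_lit 684) (nat_lit 0) (XT.lf (nat_lit 0) (nat_lit 6078872530)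 (nat_lit 684) (nat_lit 2468118776) (nat_lit 760) (nat_lit 1889427272) (nat_lit 262) (nat_lit 5) (nat_lit 271) (nat_lit 5) (nat_lit 272) (nat_lit 5) (nat_lit 448) (nat_lit 395) (nat_lit 297)) (XT.lf (nat_lit 0) (nat_lit 210262044) (nat_lit 684) (nat_lit 9097309985) (nat_lit 76) (nat_lit 1241085433) (nat_lit 253) (nat_lit 5) (nat_lit 262) (nat_lit 5) (nat_lit 254) (nat_lit 5) (nat_lit 449) (nat_lit 395) (nat_lit 296)))))) (XT.nd (nat_lit 546) (nat_lit 1748) (nat_lit 0) (XT.nd (nat_lit 234) (nat_lit 1824) (nat_lit 0) (XT.nd (nat_lit 78) (nat_lit 684) (nat_lit 0) (XT.lf (nat_lit 0) (nat_lit 2350889144) (nat_lit 684) (nat_lit 3281277635) (nat_lit 76) (nat_lit 5030252367) (nat_lit 253) (nat_lit 5) (nat_lit 262) (nat_lit 5) (nat_lit 254) (nat_lit 5) (nat_lit 450) (nat_lit 395) (nat_lit 295)) (XT.nd (nat_lit 78) (nat_lit 0) (nat_lit 0) (XT.lf (nat_lit 0) (nat_lit 2661315933) (nat_lit 684) (nat_lit 1869154175) (nat_lit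 760) (nat_lit 6248075553) (nat_lit 244) (nat_lit 5) (nat_lit 253) (nat_lit 5) (nat_lit 254) (nat_lit 5) (nat_lit 451) (nat_lit 395) (nat_lit 294)) (XT.lf (nat_lit 0) (nat_lit 6767686632) (nat_lit 760) (nat_lit 2167152160) (nat_lit 76) (nat_lit 1961887219) (nat_lit 244) (nat_lit 5) (nat_lit 254) (nat_lit 5) (nat_lit 245) (nat_lit 5) (nat_lit 452) (nat_lit 395) (nat_lit 293)))) (XT.nd (nat_lit 156) (nat_lit 1140) (nat_lit 0) (XT.nd (nat_lit 78) (nat_lit 76) (nat_lit 0) (XT.lf (nat_lit 0) (nat_lit 3916495226) (nat_lit 608) (nat_lit 5150463357) (nat_lit 684) (nat_lit 1949977107) (nat_lit 236) (nat_lit 5) (nat_lit 244) (nat_lit 5) (nat_lit 245) (nat_lit 5) (nat_lit 453) (nat_lit 395) (nat_lit 292)) (XT.lf (nat_lit 0) (nat_lit 263332202) (nat_lit 684) (nat_lit 1014474133) (nat_lit 76) (nat_lit 9861834461) (nat_lit 235) (nat_lit 5) (nat_lit 244) (nat_lit 5) (nat_lit 236) (nat_lit 5) (nat_lit 454) (nat_lit 395) (nat_lit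 291))) (XT.nd (nat_lit 78) (nat_lit 532) (nat_lit 0) (XT.lf (nat_lit 0) (nat_lit 2526381464) (nat_lit 684) (nat_lit 6057146661) (nat_lit 76) (nat_lit 2680393669) (nat_lit 227) (nat_lit 5) (nat_lit 236) (nat_lit 5) (nat_lit 228) (nat_lit 5) (nat_lit 455) (nat_lit 395) (nat_lit 290)) (XT.lf (nat_lit 0) (nat_lit 144759213) (nat_lit 532) (nat_lit 4686400202) (nat_lit 608) (nat_lit 6559610676) (nat_lit 220) (nat_lit 5) (nat_lit 227) (nat_lit 5) (nat_lit 228) (nat_lit 5) (nat_lit 456) (nat_lit 395) (nat_lit 289))))) (XT.nd (nat_lit 234) (nat_lit 1064) (nat_lit 0) (XT.nd (nat_lit 78) (nat_lit 684) (nat_lit 0) (XT.lf (nat_lit 0) (nat_lit 6528688619) (nat_lit 532) (nat_lit 674435121) (nat_lit 608) (nat_lit 4316620613) (nat_lit 220) (nat_lit 5) (nat_lit 227) (nat_lit 5) (nat_lit 228) (nat_lit 5) (nat_lit 457) (nat_lit 395) (nat_lit 288)) (XT.nd (nat_lit 78) (nat_lit 76) (nat_lit 0) (XT.lf (nat_lit 0) (nat_lit 1360640286)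 (nat_lit 608) (nat_lit 8273710236) (nat_lit 684) (nat_lit 2016721722) (nat_lit 212) (nat_lit 5) (nat_lit 220) (nat_lit 5) (nat_lit 221) (nat_lit 5) (nat_lit 458) (nat_lit 395) (nat_lit 287)) (XT.lf (nat_lit 0) (nat_lit 343923055) (nat_lit 684) (nat_lit 3908276118) (nat_lit 76) (nat_lit 7532413666) (nat_lit 211) (nat_lit 5) (nat_lit 220) (nat_lit 5) (nat_lit 212) (nat_lit 5) (nat_lit 459) (nat_lit 395) (nat_lit 286)))) (XT.nd (nat_lit 156) (nat_lit 532) (nat_lit 0) (XT.nd (nat_lit 78) (nat_lit 0) (nat_lit 0) (XT.lf (nat_lit 0) (nat_lit 2598602028) (nat_lit 532) (nat_lit 124330932) (nat_lit 608) (nat_lit 9197671545) (nat_lit 204) (nat_lit 5) (nat_lit 211) (nat_lit 5) (nat_lit 212) (nat_lit 5) (nat_lit 460) (nat_lit 395) (nat_lit 285)) (XT.lf (nat_lit 0) (nat_lit 5183894742) (nat_lit 608) (nat_lit 2820738035) (nat_lit 76) (nat_lit 4054005592) (nat_lit 204) (nat_lit 5) (nat_lit 212) (nat_lit 5) (nat_lit 205) (nat_lit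 5) (nat_lit 461) (nat_lit 395) (nat_lit 284))) (XT.nd (nat_lit 78) (nat_lit 0) (nat_lit 0) (XT.lf (nat_lit 0) (nat_lit 3836675742) (nat_lit 532) (nat_lit 3864939296) (nat_lit 608) (nat_lit 4497676692) (nat_lit 197) (nat_lit 5) (nat_lit 204) (nat_lit 5) (nat_lit 205) (nat_lit 5) (nat_lit 462) (nat_lit 395) (nat_lit 283)) (XT.lf (nat_lit 0) (nat_lit 10273042881) (nat_lit 608) (nat_lit 1702905475) (nat_lit 76) (nat_lit 366752157) (nat_lit 197) (nat_lit 5) (nat_lit 205) (nat_lit 5) (nat_lit 198) (nat_lit 5) (nat_lit 463) (nat_lit 395) (nat_lit 282))))))) (XT.nd (nat_lit 1092) (nat_lit 3040) (nat_lit 0) (XT.nd (nat_lit 546) (nat_lit 1824) (nat_lit 0) (XT.nd (nat_lit 234) (nat_lit 988) (nat_lit 0) (XT.nd (nat_lit 78) (nat_lit 532) (nat_lit 0) (XT.lf (nat_lit 0) (nat_lit 442941228) (nat_lit 532) (nat_lit 7382769827) (nat_lit 76) (nat_lit 4662395501) (nat_lit 190) (nat_lit 5) (nat_lit 197) (nat_lit 5) (nat_lit 191) (nat_lit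 5) (nat_lit 464) (nat_lit 395) (nat_lit 281)) (XT.nd (nat_lit 78) (nat_lit 532) (nat_lit 0) (XT.lf (nat_lit 0) (nat_lit 2972012291) (nat_lit 532) (nat_lit 600328802) (nat_lit 76) (nat_lit 9063936233) (nat_lit 190) (nat_lit 5) (nat_lit 197) (nat_lit 5) (nat_lit 191) (nat_lit 5) (nat_lit 465) (nat_lit 395) (nat_lit 280)) (XT.lf (nat_lit 0) (nat_lit 5581041175) (nat_lit 608) (nat_lit 6413458107) (nat_lit 76) (nat_lit 792333402) (nat_lit 183) (nat_lit 5) (nat_lit 191) (nat_lit 5) (nat_lit 184) (nat_lit 5) (nat_lit 466) (nat_lit 395) (nat_lit 279)))) (XT.nd (nat_lit 156) (nat_lit 532) (nat_lit 0) (XT.nd (nat_lit 78) (nat_lit 0) (nat_lit 0) (XT.lf (nat_lit 0) (nat_lit 514543278) (nat_lit 456) (nat_lit 7741666027) (nat_lit 532) (nat_lit 4683919201) (nat_lit 177) (nat_lit 5) (nat_lit 183) (nat_lit 5) (nat_lit 184) (nat_lit 5) (nat_lit 467) (nat_lit 395) (nat_lit 278)) (XT.lf (nat_lit 0) (nat_lit 7645299863) (nat_lit 456)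 (nat_lit 3365710986) (nat_lit 532) (nat_lit 2084965155) (nat_lit 177) (nat_lit 5) (nat_lit 183) (nat_lit 5) (nat_lit 184) (nat_lit 5) (nat_lit 468) (nat_lit 395) (nat_lit 277))) (XT.nd (nat_lit 78) (nat_lit 0) (nat_lit 0) (XT.lf (nat_lit 0) (nat_lit 559809691) (nat_lit 532) (nat_lit 11602885155) (nat_lit 76) (nat_lit 1092154862) (nat_lit 170) (nat_lit 5) (nat_lit 177) (nat_lit 5) (nat_lit 171) (nat_lit 5) (nat_lit 469) (nat_lit 395) (nat_lit 276)) (XT.lf (nat_lit 0) (nat_lit 3272147060) (nat_lit 532) (nat_lit 4504642140) (nat_lit 76) (nat_lit 5638992238) (nat_lit 170) (nat_lit 5) (nat_lit 177) (nat_lit 5) (nat_lit 171) (nat_lit 5) (nat_lit 470) (nat_lit 395) (nat_lit 275))))) (XT.nd (nat_lit 234) (nat_lit 912) (nat_lit 0) (XT.nd (nat_lit 78) (nat_lit 456) (nat_lit 0) (XT.lf (nat_lit 0) (nat_lit 2749392371) (nat_lit 456) (nat_lit 3290964192) (nat_lit 532) (nat_lit 7539550457) (nat_lit 164) (nat_lit 5) (nat_lit 170)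 (nat_lit 5) (nat_lit 171) (nat_lit 5) (nat_lit 471) (nat_lit 395) (nat_lit 274)) (XT.nd (nat_lit 78) (nat_lit 456) (nat_lit 0) (XT.lf (nat_lit 0) (nat_lit 8886609369) (nat_lit 532) (nat_lit 3568057157) (nat_lit 76) (nat_lit 1292202580) (nat_lit 164) (nat_lit 5) (nat_lit 171) (nat_lit 5) (nat_lit 165) (nat_lit 5) (nat_lit 472) (nat_lit 395) (nat_lit 273)) (XT.lf (nat_lit 0) (nat_lit 3846364231) (nat_lit 456) (nat_lit 7974416176) (nat_lit 532) (nat_lit 2095777588) (nat_lit 158) (nat_lit 5) (nat_lit 164) (nat_lit 5) (nat_lit 165) (nat_lit 5) (nat_lit 473) (nat_lit 395) (nat_lit 272)))) (XT.nd (nat_lit 156) (nat_lit 456) (nat_lit 0) (XT.nd (nat_lit 78) (nat_lit 380) (nat_lit 0) (XT.lf (nat_lit 0) (nat_lit 722883833) (nat_lit 532) (nat_lit 2658589246) (nat_lit 76) (nat_lit 10707913008) (nat_lit 157) (nat_lit 5) (nat_lit 164) (nat_lit 5) (nat_lit 158) (nat_lit 5) (nat_lit 474) (nat_lit 395) (nat_lit 271)) (XT.lf (nat_lit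 0) (nat_lit 3595211002) (nat_lit 456) (nat_lit 9343338898) (nat_lit 76) (nat_lit 1326343676) (nat_lit 152) (nat_lit 5) (nat_lit 158) (nat_lit 5) (nat_lit 153) (nat_lit 5) (nat_lit 475) (nat_lit 395) (nat_lit 270))) (XT.nd (nat_lit 78) (nat_lit 456) (nat_lit 0) (XT.lf (nat_lit 0) (nat_lit 6550051062) (nat_lit 456) (nat_lit 1798433407) (nat_lit 76) (nat_lit 6094932278) (nat_lit 152) (nat_lit 5) (nat_lit 158) (nat_lit 5) (nat_lit 153) (nat_lit 5) (nat_lit 476) (nat_lit 395) (nat_lit 269)) (XT.lf (nat_lit 0) (nat_lit 5954179592) (nat_lit 456) (nat_lit 3633480347) (nat_lit 532) (nat_lit 5037383728) (nat_lit 146) (nat_lit 5) (nat_lit 152) (nat_lit 5) (nat_lit 153) (nat_lit 5) (nat_lit 477) (nat_lit 395) (nat_lit 268)))))) (XT.nd (nat_lit 546) (nat_lit 1368) (nat_lit 0) (XT.nd (nat_lit 234) (nat_lit 1216) (nat_lit 0) (XT.nd (nat_lit 78) (nat_lit 456) (nat_lit 0) (XT.lf (nat_lit 0) (nat_lit 12690932734) (nat_lit 532) (nat_lit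 952955767) (nat_lit 76) (nat_lit 1166322985) (nat_lit 146) (nat_lit 5) (nat_lit 153) (nat_lit 5) (nat_lit 147) (nat_lit 5) (nat_lit 478) (nat_lit 395) (nat_lit 267)) (XT.nd (nat_lit 78) (nat_lit 0) (nat_lit 0) (XT.lf (nat_lit 0) (nat_lit 901011022) (nat_lit 456) (nat_lit 8038302647) (nat_lit 76) (nat_lit 6058562721) (nat_lit 140) (nat_lit 5) (nat_lit 146) (nat_lit 5) (nat_lit 141) (nat_lit 5) (nat_lit 479) (nat_lit 395) (nat_lit 266)) (XT.lf (nat_lit 0) (nat_lit 3945262615) (nat_lit 456) (nat_lit 181017145) (nat_lit 76) (nat_lit 11062902213) (nat_lit 140) (nat_lit 5) (nat_lit 146) (nat_lit 5) (nat_lit 141) (nat_lit 5) (nat_lit 480) (nat_lit 395) (nat_lit 265)))) (XT.nd (nat_lit 156) (nat_lit 456) (nat_lit 0) (XT.nd (nat_lit 78) (nat_lit 380) (nat_lit 0) (XT.lf (nat_lit 0) (nat_lit 7092936274) (nat_lit 456) (nat_lit 7472349544) (nat_lit 76) (nat_lit 818183201) (nat_lit 135) (nat_lit 5) (nat_lit 141) (nat_lit 5)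 (nat_lit 136) (nat_lit 5) (nat_lit 481) (nat_lit 395) (nat_lit 264)) (XT.lf (nat_lit 0) (nat_lit 545005899) (nat_lit 380) (nat_lit 9776504255) (nat_lit 456) (nat_lit 5259778689) (nat_lit 130) (nat_lit 5) (nat_lit 135) (nat_lit 5) (nat_lit 136) (nat_lit 5) (nat_lit 482) (nat_lit 395) (nat_lit 263))) (XT.nd (nat_lit 78) (nat_lit 456) (nat_lit 0) (XT.lf (nat_lit 0) (nat_lit 8803391977) (nat_lit 380) (nat_lit 4847409504) (nat_lit 456) (nat_lit 2131546518) (nat_lit 130) (nat_lit 5) (nat_lit 135) (nat_lit 5) (nat_lit 136) (nat_lit 5) (nat_lit 483) (nat_lit 395) (nat_lit 262)) (XT.lf (nat_lit 0) (nat_lit 1040739950) (nat_lit 456) (nat_lit 14760280559) (nat_lit 76) (nat_lit 186368272) (nat_lit 124) (nat_lit 5) (nat_lit 130) (nat_lit 5) (nat_lit 125) (nat_lit 5) (nat_lit 484) (nat_lit 395) (nat_lit 261))))) (XT.nd (nat_lit 312) (nat_lit 684) (nat_lit 0) (XT.nd (nat_lit 156) (nat_lit 380) (nat_lit 0) (XT.nd (nat_lit 78)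 (nat_lit 304) (nat_lit 0) (XT.lf (nat_lit 0) (nat_lit 4313479315) (nat_lit 456) (nat_lit 6570720431) (nat_lit 76) (nat_lit 5310743385) (nat_lit 124) (nat_lit 5) (nat_lit 130) (nat_lit 5) (nat_lit 125) (nat_lit 5) (nat_lit 485) (nat_lit 395) (nat_lit 260)) (XT.lf (nat_lit 0) (nat_lit 1785962312) (nat_lit 304) (nat_lit 5863853111) (nat_lit 380) (nat_lit 8756875717) (nat_lit 120) (nat_lit 5) (nat_lit 124) (nat_lit 5) (nat_lit 125) (nat_lit 5) (nat_lit 486) (nat_lit 395) (nat_lit 259))) (XT.nd (nat_lit 78) (nat_lit 380) (nat_lit 0) (XT.lf (nat_lit 0) (nat_lit 10378886935) (nat_lit 304) (nat_lit 704764821) (nat_lit 380) (nat_lit 5538412185) (nat_lit 120) (nat_lit 5) (nat_lit 124) (nat_lit 5) (nat_lit 125) (nat_lit 5) (nat_lit 487) (nat_lit 395) (nat_lit 258)) (XT.lf (nat_lit 0) (nat_lit 2282478262) (nat_lit 380) (nat_lit 12334995674) (nat_lit 456) (nat_lit 2223649280) (nat_lit 115) (nat_lit 5) (nat_lit 120) (nat_lit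 5) (nat_lit 121) (nat_lit 5) (nat_lit 488) (nat_lit 395) (nat_lit 257)))) (XT.nd (nat_lit 156) (nat_lit 304) (nat_lit 0) (XT.nd (nat_lit 78) (nat_lit 304) (nat_lit 0) (XT.lf (nat_lit 0) (nat_lit 1176006719) (nat_lit 456) (nat_lit 6032751394) (nat_lit 76) (nat_lit 9854984717) (nat_lit 114) (nat_lit 5) (nat_lit 120) (nat_lit 5) (nat_lit 115) (nat_lit 5) (nat_lit 489) (nat_lit 395) (nat_lit 256)) (XT.lf (nat_lit 0) (nat_lit 2664426621) (nat_lit 304) (nat_lit 1953975424) (nat_lit 380) (nat_lit 12672033304) (nat_lit 110) (nat_lit 5) (nat_lit 114) (nat_lit 5) (nat_lit 115) (nat_lit 5) (nat_lit 490) (nat_lit 395) (nat_lit 255))) (XT.nd (nat_lit 78) (nat_lit 304) (nat_lit 0) (XT.lf (nat_lit 0) (nat_lit 8179786020) (nat_lit 380) (nat_lit 5945448818) (nat_lit 76) (nat_lit 3395428872) (nat_lit 110) (nat_lit 5) (nat_lit 115) (nat_lit 5) (nat_lit 111) (nat_lit 5) (nat_lit 491) (nat_lit 395) (nat_lit 254)) (XT.lf (nat_lit 0)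 (nat_lit 2914855015) (nat_lit 304) (nat_lit 8916933870) (nat_lit 380) (nat_lit 5923324636) (nat_lit 106) (nat_lit 5) (nat_lit 110) (nat_lit 5) (nat_lit 111) (nat_lit 5) (nat_lit 492) (nat_lit 395) (nat_lit 253))))))))
noncomputable def xc140 : XT := (XT.nd (nat_lit 2184) (nat_lit 456) (nat_lit 0) (XT.nd (nat_lit 1092) (nat_lit 1748) (nat_lit 0) (XT.nd (nat_lit 546) (nat_lit 912) (nat_lit 0) (XT.nd (nat_lit 234) (nat_lit 608) (nat_lit 0) (XT.nd (nat_lit 78) (nat_lit 380) (nat_lit 0) (XT.lf (nat_lit 0) (nat_lit 12013927187) (nat_lit 304) (nat_lit 3570448555) (nat_lit 380) (nat_lit 2409330324) (nat_lit 106) (nat_lit 5) (nat_lit 110) (nat_lit 5) (nat_lit 111) (nat_lit 5) (nat_lit 493) (nat_lit 395) (nat_lit 252)) (XT.nd (nat_lit 78) (nat_lit 0) (nat_lit 0) (XT.lf (nat_lit 0) (nat_lit 1179647505) (nat_lit 380) (nat_lit 15177387326) (nat_lit 76) (nat_lit 1879485233) (nat_lit 101) (nat_lit 5) (nat_lit 106) (nat_lit 5)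 (nat_lit 102) (nat_lit 5) (nat_lit 494) (nat_lit 395) (nat_lit 251)) (XT.lf (nat_lit 0) (nat_lit 4860091799) (nat_lit 380) (nat_lit 6182276974) (nat_lit 76) (nat_lit 7440468450) (nat_lit 101) (nat_lit 5) (nat_lit 106) (nat_lit 5) (nat_lit 102) (nat_lit 5) (nat_lit 495) (nat_lit 395) (nat_lit 250)))) (XT.nd (nat_lit 156) (nat_lit 304) (nat_lit 0) (XT.nd (nat_lit 78) (nat_lit 0) (nat_lit 0) (XT.lf (nat_lit 0) (nat_lit 3013729505) (nat_lit 304) (nat_lit 5608099389) (nat_lit 380) (nat_lit 10112102417) (nat_lit 97) (nat_lit 5) (nat_lit 101) (nat_lit 5) (nat_lit 102) (nat_lit 5) (nat_lit 496) (nat_lit 395) (nat_lit 249)) (XT.lf (nat_lit 0) (nat_lit 12459048740) (nat_lit 304) (nat_lit 29468583) (nat_lit 380) (nat_lit 6500939807) (nat_lit 97) (nat_lit 5) (nat_lit 101) (nat_lit 5) (nat_lit 102) (nat_lit 5) (nat_lit 497) (nat_lit 395) (nat_lit 248))) (XT.nd (nat_lit 78) (nat_lit 76) (nat_lit 0) (XT.lf (nat_lit 0) (nat_lit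 2825239774) (nat_lit 228) (nat_lit 13650815097) (nat_lit 304) (nat_lit 2773172387) (nat_lit 94) (nat_lit 5) (nat_lit 97) (nat_lit 5) (nat_lit 98) (nat_lit 5) (nat_lit 498) (nat_lit 395) (nat_lit 247)) (XT.lf (nat_lit 0) (nat_lit 1048408999) (nat_lit 304) (nat_lit 7082240180) (nat_lit 76) (nat_lit 11382758789) (nat_lit 93) (nat_lit 5) (nat_lit 97) (nat_lit 5) (nat_lit 94) (nat_lit 5) (nat_lit 499) (nat_lit 395) (nat_lit 246))))) (XT.nd (nat_lit 234) (nat_lit 380) (nat_lit 0) (XT.nd (nat_lit 78) (nat_lit 228) (nat_lit 0) (XT.lf (nat_lit 0) (nat_lit 2442084629) (nat_lit 304) (nat_lit 2471769716) (nat_lit 380) (nat_lit 14868563893) (nat_lit 89) (nat_lit 5) (nat_lit 93) (nat_lit 5) (nat_lit 94) (nat_lit 5) (nat_lit 500) (nat_lit 395) (nat_lit 245)) (XT.nd (nat_lit 78) (nat_lit 228) (nat_lit 0) (XT.lf (nat_lit 0) (nat_lit 8914615050) (nat_lit 380) (nat_lit 7842690992) (nat_lit 76) (nat_lit 3298346331) (nat_lit 89) (nat_lit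 5) (nat_lit 94) (nat_lit 5) (nat_lit 90) (nat_lit 5) (nat_lit 501) (nat_lit 395) (nat_lit 244)) (XT.lf (nat_lit 0) (nat_lit 1834965794) (nat_lit 228) (nat_lit 11177667635) (nat_lit 304) (nat_lit 7321376624) (nat_lit 86) (nat_lit 5) (nat_lit 89) (nat_lit 5) (nat_lit 90) (nat_lit 5) (nat_lit 502) (nat_lit 395) (nat_lit 243)))) (XT.nd (nat_lit 156) (nat_lit 0) (nat_lit 0) (XT.nd (nat_lit 78) (nat_lit 380) (nat_lit 0) (XT.lf (nat_lit 0) (nat_lit 11794966226) (nat_lit 228) (nat_lit 5439336585) (nat_lit 304) (nat_lit 3382801905) (nat_lit 86) (nat_lit 5) (nat_lit 89) (nat_lit 5) (nat_lit 90) (nat_lit 5) (nat_lit 503) (nat_lit 395) (nat_lit 242)) (XT.lf (nat_lit 0) (nat_lit 624895875) (nat_lit 380) (nat_lit 19868070030) (nat_lit 76) (nat_lit 412842992) (nat_lit 81) (nat_lit 5) (nat_lit 86) (nat_lit 5) (nat_lit 82) (nat_lit 5) (nat_lit 504) (nat_lit 395) (nat_lit 241))) (XT.nd (nat_lit 78) (nat_lit 0) (nat_lit 0) (XT.lf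 (nat_lit 0) (nat_lit 4752369288) (nat_lit 380) (nat_lit 10060903646) (nat_lit 76) (nat_lit 6384872103) (nat_lit 81) (nat_lit 5) (nat_lit 86) (nat_lit 5) (nat_lit 82) (nat_lit 5) (nat_lit 505) (nat_lit 395) (nat_lit 240)) (XT.lf (nat_lit 0) (nat_lit 8951862468) (nat_lit 380) (nat_lit 74636944) (nat_lit 76) (nat_lit 12470042447) (nat_lit 81) (nat_lit 5) (nat_lit 86) (nat_lit 5) (nat_lit 82) (nat_lit 5) (nat_lit 506) (nat_lit 395) (nat_lit 239)))))) (XT.nd (nat_lit 546) (nat_lit 760) (nat_lit 0) (XT.nd (nat_lit 234) (nat_lit 532) (nat_lit 0) (XT.nd (nat_lit 78) (nat_lit 228) (nat_lit 0) (XT.lf (nat_lit 0) (nat_lit 10228798795) (nat_lit 228) (nat_lit 3062635625) (nat_lit 304) (nat_lit 8508353714) (nat_lit 78) (nat_lit 5) (nat_lit 81) (nat_lit 5) (nat_lit 82) (nat_lit 5) (nat_lit 507) (nat_lit 395) (nat_lit 238)) (XT.nd (nat_lit 78) (nat_lit 228) (nat_lit 0) (XT.lf (nat_lit 0) (nat_lit 17727643154) (nat_lit 304) (nat_lit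 1406154138) (nat_lit 76) (nat_lit 2975108368) (nat_lit 78) (nat_lit 5) (nat_lit 82) (nat_lit 5) (nat_lit 79) (nat_lit 5) (nat_lit 508) (nat_lit 395) (nat_lit 237)) (XT.lf (nat_lit 0) (nat_lit 9043870786) (nat_lit 228) (nat_lit 13277637859) (nat_lit 304) (nat_lit 101321410) (nat_lit 75) (nat_lit 5) (nat_lit 78) (nat_lit 5) (nat_lit 79) (nat_lit 5) (nat_lit 509) (nat_lit 395) (nat_lit 236)))) (XT.nd (nat_lit 156) (nat_lit 228) (nat_lit 0) (XT.nd (nat_lit 78) (nat_lit 228) (nat_lit 0) (XT.lf (nat_lit 0) (nat_lit 4207744727) (nat_lit 304) (nat_lit 3065100881) (nat_lit 76) (nat_lit 15469647608) (nat_lit 74) (nat_lit 5) (nat_lit 78) (nat_lit 5) (nat_lit 75) (nat_lit 5) (nat_lit 510) (nat_lit 395) (nat_lit 235)) (XT.lf (nat_lit 0) (nat_lit 7537071525) (nat_lit 228) (nat_lit 1103651578) (nat_lit 304) (nat_lit 14427034377) (nat_lit 71) (nat_lit 5) (nat_lit 74) (nat_lit 5) (nat_lit 75) (nat_lit 5) (nat_lit 511) (nat_lit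 395) (nat_lit 234))) (XT.nd (nat_lit 78) (nat_lit 228) (nat_lit 0) (XT.lf (nat_lit 0) (nat_lit 13206954589) (nat_lit 304) (nat_lit 5056299580) (nat_lit 76) (nat_lit 5135383916) (nat_lit 71) (nat_lit 5) (nat_lit 75) (nat_lit 5) (nat_lit 72) (nat_lit 5) (nat_lit 512) (nat_lit 395) (nat_lit 233)) (XT.lf (nat_lit 0) (nat_lit 5678869093) (nat_lit 228) (nat_lit 12220212660) (nat_lit 304) (nat_lit 5836365999) (nat_lit 68) (nat_lit 5) (nat_lit 71) (nat_lit 5) (nat_lit 72) (nat_lit 5) (nat_lit 513) (nat_lit 395) (nat_lit 232))))) (XT.nd (nat_lit 234) (nat_lit 456) (nat_lit 0) (XT.nd (nat_lit 78) (nat_lit 304) (nat_lit 0) (XT.lf (nat_lit 0) (nat_lit 16681509192) (nat_lit 228) (nat_lit 6027949824) (nat_lit 304) (nat_lit 1369049258) (nat_lit 68) (nat_lit 5) (nat_lit 71) (nat_lit 5) (nat_lit 72) (nat_lit 5) (nat_lit 514) (nat_lit 395) (nat_lit 231)) (XT.nd (nat_lit 78) (nat_lit 0) (nat_lit 0) (XT.lf (nat_lit 0) (nat_lit 3161152829)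 (nat_lit 304) (nat_lit 20944676756) (nat_lit 76) (nat_lit 321882302) (nat_lit 64) (nat_lit 5) (nat_lit 68) (nat_lit 5) (nat_lit 65) (nat_lit 5) (nat_lit 515) (nat_lit 395) (nat_lit 230)) (XT.lf (nat_lit 0) (nat_lit 7844174215) (nat_lit 304) (nat_lit 10166920168) (nat_lit 76) (nat_lit 6771015916) (nat_lit 64) (nat_lit 5) (nat_lit 68) (nat_lit 5) (nat_lit 65) (nat_lit 5) (nat_lit 516) (nat_lit 395) (nat_lit 229)))) (XT.nd (nat_lit 156) (nat_lit 228) (nat_lit 0) (XT.nd (nat_lit 78) (nat_lit 0) (nat_lit 0) (XT.lf (nat_lit 0) (nat_lit 821840553) (nat_lit 228) (nat_lit 11795177887) (nat_lit 304) (nat_lit 12526657590) (nat_lit 61) (nat_lit 5) (nat_lit 64) (nat_lit 5) (nat_lit 65) (nat_lit 5) (nat_lit 517) (nat_lit 395) (nat_lit 228)) (XT.lf (nat_lit 0) (nat_lit 12152963038) (nat_lit 228) (nat_lit 5391489376) (nat_lit 304) (nat_lit 7966840554) (nat_lit 61) (nat_lit 5) (nat_lit 64) (nat_lit 5) (nat_lit 65) (nat_lit 5) (nat_lit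 518) (nat_lit 395) (nat_lit 227))) (XT.nd (nat_lit 78) (nat_lit 228) (nat_lit 0) (XT.lf (nat_lit 0) (nat_lit 22568885176) (nat_lit 304) (nat_lit 2198029533) (nat_lit 76) (nat_lit 1119381031) (nat_lit 61) (nat_lit 5) (nat_lit 65) (nat_lit 5) (nat_lit 62) (nat_lit 5) (nat_lit 519) (nat_lit 395) (nat_lit 226)) (XT.lf (nat_lit 0) (nat_lit 1493918840) (nat_lit 228) (nat_lit 17020494312) (nat_lit 76) (nat_lit 7752450774) (nat_lit 58) (nat_lit 5) (nat_lit 61) (nat_lit 5) (nat_lit 59) (nat_lit 5) (nat_lit 520) (nat_lit 395) (nat_lit 225))))))) (XT.nd (nat_lit 50232) (nat_lit 0) (nat_lit 34428) (XT.nd (nat_lit 49686) (nat_lit 0) (nat_lit 37772) (XT.nd (nat_lit 234) (nat_lit 228) (nat_lit 0) (XT.nd (nat_lit 78) (nat_lit 228) (nat_lit 0) (XT.lf (nat_lit 0) (nat_lit 6363182917) (nat_lit 228) (nat_lit 5742162046) (nat_lit 76) (nat_lit 14549139742) (nat_lit 58) (nat_lit 5) (nat_lit 61) (nat_lit 5) (nat_lit 59) (nat_lit 5) (nat_lit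 521) (nat_lit 395) (nat_lit 224)) (XT.nd (nat_lit 78) (nat_lit 0) (nat_lit 0) (XT.lf (nat_lit 0) (nat_lit 5823606773) (nat_lit 228) (nat_lit 5535447074) (nat_lit 304) (nat_lit 15690221930) (nat_lit 55) (nat_lit 5) (nat_lit 58) (nat_lit 5) (nat_lit 59) (nat_lit 5) (nat_lit 522) (nat_lit 395) (nat_lit 223)) (XT.lf (nat_lit 0) (nat_lit 16492647175) (nat_lit 304) (nat_lit 9775035725) (nat_lit 76) (nat_lit 1183525934) (nat_lit 55) (nat_lit 5) (nat_lit 59) (nat_lit 5) (nat_lit 56) (nat_lit 5) (nat_lit 523) (nat_lit 395) (nat_lit 222)))) (XT.nd (nat_lit 156) (nat_lit 76) (nat_lit 0) (XT.nd (nat_lit 78) (nat_lit 0) (nat_lit 0) (XT.lf (nat_lit 0) (nat_lit 1878324874) (nat_lit 152) (nat_lit 19891056514) (nat_lit 228) (nat_lit 6090992002) (nat_lit 53) (nat_lit 5) (nat_lit 55) (nat_lit 5) (nat_lit 56) (nat_lit 5) (nat_lit 524) (nat_lit 395) (nat_lit 221)) (XT.lf (nat_lit 0) (nat_lit 13883088367) (nat_lit 152) (nat_lit 13325845077)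 (nat_lit 228) (nat_lit 1067644304) (nat_lit 53) (nat_lit 5) (nat_lit 55) (nat_lit 5) (nat_lit 56) (nat_lit 5) (nat_lit 525) (nat_lit 395) (nat_lit 220))) (XT.nd (nat_lit 49218) (nat_lit 0) (nat_lit 39748) (XT.lf (nat_lit 0) (nat_lit 3994767381) (nat_lit 228) (nat_lit 2613495258) (nat_lit 76) (nat_lit 22092483051) (nat_lit 52) (nat_lit 5) (nat_lit 55) (nat_lit 5) (nat_lit 53) (nat_lit 5) (nat_lit 526) (nat_lit 395) (nat_lit 219)) (XT.lf (nat_lit 0) (nat_lit 2069715861) (nat_lit 988) (nat_lit 700146507) (nat_lit 988) (nat_lit 700146507) (nat_lit 575) (nat_lit 3) (nat_lit 588) (nat_lit 3) (nat_lit 588) (nat_lit 5) (nat_lit 396) (nat_lit 396) (nat_lit 348))))) (XT.nd (nat_lit 234) (nat_lit 988) (nat_lit 0) (XT.nd (nat_lit 78) (nat_lit 988) (nat_lit 0) (XT.lf (nat_lit 76) (nat_lit 1860423989) (nat_lit 0) (nat_lit 4124408274) (nat_lit 988) (nat_lit 986823173) (nat_lit 576) (nat_lit 5) (nat_lit 575) (nat_lit 3) (nat_lit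 588) (nat_lit 5) (nat_lit 397) (nat_lit 396) (nat_lit 347)) (XT.nd (nat_lit 78) (nat_lit 0) (nat_lit 0) (XT.lf (nat_lit 0) (nat_lit 813836034) (nat_lit 988) (nat_lit 1829055198) (nat_lit 1064) (nat_lit 4361726969) (nat_lit 562) (nat_lit 5) (nat_lit 575) (nat_lit 3) (nat_lit 576) (nat_lit 5) (nat_lit 398) (nat_lit 396) (nat_lit 346)) (XT.lf (nat_lit 76) (nat_lit 1507503308) (nat_lit 0) (nat_lit 1093006699) (nat_lit 1064) (nat_lit 4438377869) (nat_lit 563) (nat_lit 5) (nat_lit 562) (nat_lit 5) (nat_lit 576) (nat_lit 5) (nat_lit 399) (nat_lit 396) (nat_lit 345)))) (XT.nd (nat_lit 156) (nat_lit 1064) (nat_lit 0) (XT.nd (nat_lit 78) (nat_lit 0) (nat_lit 0) (XT.lf (nat_lit 0) (nat_lit 4392750334) (nat_lit 988) (nat_lit 2166693803) (nat_lit 1064) (nat_lit 515043734) (nat_lit 563) (nat_lit 5) (nat_lit 576) (nat_lit 5) (nat_lit 577) (nat_lit 5) (nat_lit 400) (nat_lit 396) (nat_lit 344)) (XT.lf (nat_lit 76) (nat_lit 1249504752)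 (nat_lit 0) (nat_lit 4941887719) (nat_lit 1064) (nat_lit 920037024) (nat_lit 564) (nat_lit 5) (nat_lit 563) (nat_lit 5) (nat_lit 577) (nat_lit 5) (nat_lit 401) (nat_lit 396) (nat_lit 343))) (XT.nd (nat_lit 78) (nat_lit 0) (nat_lit 0) (XT.lf (nat_lit 0) (nat_lit 835624853) (nat_lit 1064) (nat_lit 2416611809) (nat_lit 1140) (nat_lit 3897394045) (nat_lit 549) (nat_lit 5) (nat_lit 563) (nat_lit 5) (nat_lit 564) (nat_lit 5) (nat_lit 402) (nat_lit 396) (nat_lit 342)) (XT.lf (nat_lit 76) (nat_lit 1080786835) (nat_lit 0) (nat_lit 1496785359) (nat_lit 1140) (nat_lit 4611670708) (nat_lit 550) (nat_lit 5) (nat_lit 549) (nat_lit 5) (nat_lit 564) (nat_lit 5) (nat_lit 403) (nat_lit 396) (nat_lit 341)))))) (XT.nd (nat_lit 546) (nat_lit 2280) (nat_lit 0) (XT.nd (nat_lit 234) (nat_lit 0) (nat_lit 0) (XT.nd (nat_lit 78) (nat_lit 1140) (nat_lit 0) (XT.lf (nat_lit 0) (nat_lit 4329863426) (nat_lit 1064) (nat_lit 2576197091) (nat_lit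 1140) (nat_lit 324114389) (nat_lit 550) (nat_lit 5) (nat_lit 564) (nat_lit 5) (nat_lit 565) (nat_lit 5) (nat_lit 404) (nat_lit 396) (nat_lit 340)) (XT.nd (nat_lit 78) (nat_lit 1140) (nat_lit 0) (XT.lf (nat_lit 76) (nat_lit 1004726086) (nat_lit 0) (nat_lit 5087021432) (nat_lit 1140) (nat_lit 1180724016) (nat_lit 551) (nat_lit 5) (nat_lit 550) (nat_lit 5) (nat_lit 565) (nat_lit 5) (nat_lit 405) (nat_lit 396) (nat_lit 339)) (XT.lf (nat_lit 0) (nat_lit 541599921) (nat_lit 1140) (nat_lit 2652583116) (nat_lit 1216) (nat_lit 4121874848) (nat_lit 535) (nat_lit 5) (nat_lit 550) (nat_lit 5) (nat_lit 551) (nat_lit 5) (nat_lit 406) (nat_lit 396) (nat_lit 338)))) (XT.nd (nat_lit 156) (nat_lit 0) (nat_lit 76) (XT.nd (nat_lit 78) (nat_lit 0) (nat_lit 76) (XT.lf (nat_lit 76) (nat_lit 1015213997) (nat_lit 0) (nat_lit 1233228103) (nat_lit 1216) (nat_lit 5112634935) (nat_lit 536) (nat_lit 5) (nat_lit 535) (nat_lit 5) (nat_lit 551)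 (nat_lit 5) (nat_lit 407) (nat_lit 396) (nat_lit 337)) (XT.lf (nat_lit 0) (nat_lit 3972328383) (nat_lit 1140) (nat_lit 2645346568) (nat_lit 1216) (nat_lit 789697585) (nat_lit 536) (nat_lit 5) (nat_lit 551) (nat_lit 5) (nat_lit 552) (nat_lit 5) (nat_lit 408) (nat_lit 396) (nat_lit 336))) (XT.nd (nat_lit 78) (nat_lit 0) (nat_lit 0) (XT.lf (nat_lit 76) (nat_lit 1110149320) (nat_lit 0) (nat_lit 4596711719) (nat_lit 1216) (nat_lit 1748242978) (nat_lit 537) (nat_lit 5) (nat_lit 536) (nat_lit 5) (nat_lit 552) (nat_lit 5) (nat_lit 409) (nat_lit 396) (nat_lit 335)) (XT.lf (nat_lit 76) (nat_lit 4951357113) (nat_lit 0) (nat_lit 2503877425) (nat_lit 1216) (nat_lit 49005376) (nat_lit 537) (nat_lit 5) (nat_lit 536) (nat_lit 5) (nat_lit 552) (nat_lit 5) (nat_lit 410) (nat_lit 396) (nat_lit 334))))) (XT.nd (nat_lit 312) (nat_lit 1140) (nat_lit 0) (XT.nd (nat_lit 156) (nat_lit 0) (nat_lit 76) (XT.nd (nat_lit 78) (nat_lit 0) (nat_lit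 76) (XT.lf (nat_lit 76) (nat_lit 1295790642) (nat_lit 0) (nat_lit 336623718) (nat_lit 1292) (nat_lit 5922351257) (nat_lit 521) (nat_lit 5) (nat_lit 520) (nat_lit 5) (nat_lit 537) (nat_lit 5) (nat_lit 411) (nat_lit 396) (nat_lit 333)) (XT.lf (nat_lit 0) (nat_lit 3338756693) (nat_lit 1216) (nat_lit 2388516978) (nat_lit 1292) (nat_lit 1879213577) (nat_lit 521) (nat_lit 5) (nat_lit 537) (nat_lit 5) (nat_lit 538) (nat_lit 5) (nat_lit 412) (nat_lit 396) (nat_lit 332))) (XT.nd (nat_lit 78) (nat_lit 0) (nat_lit 0) (XT.lf (nat_lit 76) (nat_lit 1551989982) (nat_lit 0) (nat_lit 3502814322) (nat_lit 1292) (nat_lit 2604957729) (nat_lit 522) (nat_lit 5) (nat_lit 521) (nat_lit 5) (nat_lit 538) (nat_lit 5) (nat_lit 413) (nat_lit 396) (nat_lit 331)) (XT.lf (nat_lit 76) (nat_lit 5578366198) (nat_lit 0) (nat_lit 1206663228) (nat_lit 1292) (nat_lit 929505455) (nat_lit 522) (nat_lit 5) (nat_lit 521) (nat_lit 5) (nat_lit 538) (nat_lit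 5) (nat_lit 414) (nat_lit 396) (nat_lit 330)))) (XT.nd (nat_lit 156) (nat_lit 0) (nat_lit 0) (XT.nd (nat_lit 78) (nat_lit 0) (nat_lit 0) (XT.lf (nat_lit 0) (nat_lit 753460074) (nat_lit 1292) (nat_lit 5868827054) (nat_lit 1368) (nat_lit 1148358849) (nat_lit 505) (nat_lit 5) (nat_lit 522) (nat_lit 5) (nat_lit 523) (nat_lit 5) (nat_lit 415) (nat_lit 396) (nat_lit 329)) (XT.lf (nat_lit 0) (nat_lit 2444947674) (nat_lit 1292) (nat_lit 1818266766) (nat_lit 1368) (nat_lit 3564823782) (nat_lit 505) (nat_lit 5) (nat_lit 522) (nat_lit 5) (nat_lit 523) (nat_lit 5) (nat_lit 416) (nat_lit 396) (nat_lit 328))) (XT.nd (nat_lit 78) (nat_lit 0) (nat_lit 76) (XT.lf (nat_lit 76) (nat_lit 2318263055) (nat_lit 0) (nat_lit 1832618682) (nat_lit 1368) (nat_lit 3736111677) (nat_lit 506) (nat_lit 5) (nat_lit 505) (nat_lit 5) (nat_lit 523) (nat_lit 5) (nat_lit 417) (nat_lit 396) (nat_lit 327)) (XT.lf (nat_lit 0) (nat_lit 5873547107) (nat_lit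 1292) (nat_lit 1415032221) (nat_lit 76) (nat_lit 658923027) (nat_lit 506) (nat_lit 5) (nat_lit 523) (nat_lit 5) (nat_lit 507) (nat_lit 5) (nat_lit 418) (nat_lit 396) (nat_lit 326))))))))
noncomputable def xc141 : XT := (XT.nd (nat_lit 2184) (nat_lit 8664) (nat_lit 0) (XT.nd (nat_lit 1092) (nat_lit 6460) (nat_lit 0) (XT.nd (nat_lit 546) (nat_lit 5624) (nat_lit 0) (XT.nd (nat_lit 234) (nat_lit 3040) (nat_lit 0) (XT.nd (nat_lit 78) (nat_lit 1444) (nat_lit 0) (XT.lf (nat_lit 0) (nat_lit 2821072590) (nat_lit 1292) (nat_lit 4806842300) (nat_lit 1368) (nat_lit 381387974) (nat_lit 489) (nat_lit 5) (nat_lit 506) (nat_lit 5) (nat_lit 507) (nat_lit 5) (nat_lit 419) (nat_lit 396) (nat_lit 325)) (XT.nd (nat_lit 78) (nat_lit 1368) (nat_lit 0) (XT.lf (nat_lit 0) (nat_lit 1303989308) (nat_lit 1368) (nat_lit 945689573) (nat_lit 76) (nat_lit 5822979211) (nat_lit 488) (nat_lit 5) (nat_lit 506) (nat_lit 5) (nat_lit 489) (nat_lit 5)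 (nat_lit 420) (nat_lit 396) (nat_lit 324)) (XT.lf (nat_lit 0) (nat_lit 3010260445) (nat_lit 1444) (nat_lit 4741567898) (nat_lit 76) (nat_lit 385580653) (nat_lit 470) (nat_lit 5) (nat_lit 489) (nat_lit 5) (nat_lit 471) (nat_lit 5) (nat_lit 421) (nat_lit 396) (nat_lit 323)))) (XT.nd (nat_lit 156) (nat_lit 1596) (nat_lit 0) (XT.nd (nat_lit 78) (nat_lit 1444) (nat_lit 0) (XT.lf (nat_lit 0) (nat_lit 4740144123) (nat_lit 1444) (nat_lit 407103842) (nat_lit 76) (nat_lit 3056441570) (nat_lit 470) (nat_lit 5) (nat_lit 489) (nat_lit 5) (nat_lit 471) (nat_lit 5) (nat_lit 422) (nat_lit 396) (nat_lit 322)) (XT.lf (nat_lit 0) (nat_lit 4041707469) (nat_lit 1444) (nat_lit 2457983454) (nat_lit 1520) (nat_lit 1771727338) (nat_lit 451) (nat_lit 5) (nat_lit 470) (nat_lit 5) (nat_lit 471) (nat_lit 5) (nat_lit 423) (nat_lit 396) (nat_lit 321))) (XT.nd (nat_lit 78) (nat_lit 76) (nat_lit 0) (XT.lf (nat_lit 0) (nat_lit 219722292) (nat_lit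 1520) (nat_lit 8050041558) (nat_lit 1596) (nat_lit 71254425) (nat_lit 431) (nat_lit 5) (nat_lit 451) (nat_lit 5) (nat_lit 452) (nat_lit 5) (nat_lit 424) (nat_lit 396) (nat_lit 320)) (XT.lf (nat_lit 0) (nat_lit 1655783796) (nat_lit 1596) (nat_lit 3649342936) (nat_lit 76) (nat_lit 3106402700) (nat_lit 430) (nat_lit 5) (nat_lit 451) (nat_lit 5) (nat_lit 431) (nat_lit 5) (nat_lit 425) (nat_lit 396) (nat_lit 319))))) (XT.nd (nat_lit 234) (nat_lit 2356) (nat_lit 0) (XT.nd (nat_lit 78) (nat_lit 1672) (nat_lit 0) (XT.lf (nat_lit 0) (nat_lit 897749059) (nat_lit 1596) (nat_lit 2494606745) (nat_lit 1672) (nat_lit 5091588714) (nat_lit 409) (nat_lit 5) (nat_lit 430) (nat_lit 5) (nat_lit 431) (nat_lit 5) (nat_lit 426) (nat_lit 396) (nat_lit 318)) (XT.nd (nat_lit 78) (nat_lit 1672) (nat_lit 0) (XT.lf (nat_lit 0) (nat_lit 5161290910) (nat_lit 1672) (nat_lit 3000716629) (nat_lit 76) (nat_lit 395869365) (nat_lit 409) (nat_lit 5)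 (nat_lit 431) (nat_lit 5) (nat_lit 410) (nat_lit 5) (nat_lit 427) (nat_lit 396) (nat_lit 317)) (XT.lf (nat_lit 0) (nat_lit 1656111649) (nat_lit 1672) (nat_lit 5307907780) (nat_lit 1748) (nat_lit 1669321423) (nat_lit 387) (nat_lit 5) (nat_lit 409) (nat_lit 5) (nat_lit 410) (nat_lit 5) (nat_lit 428) (nat_lit 396) (nat_lit 316)))) (XT.nd (nat_lit 156) (nat_lit 836) (nat_lit 0) (XT.nd (nat_lit 78) (nat_lit 1444) (nat_lit 0) (XT.lf (nat_lit 0) (nat_lit 82878751) (nat_lit 1748) (nat_lit 2289686153) (nat_lit 76) (nat_lit 6337925485) (nat_lit 386) (nat_lit 5) (nat_lit 409) (nat_lit 5) (nat_lit 387) (nat_lit 5) (nat_lit 429) (nat_lit 396) (nat_lit 315)) (XT.lf (nat_lit 0) (nat_lit 1840073903) (nat_lit 1520) (nat_lit 6305559763) (nat_lit 76) (nat_lit 643502488) (nat_lit 367) (nat_lit 5) (nat_lit 387) (nat_lit 5) (nat_lit 368) (nat_lit 5) (nat_lit 430) (nat_lit 396) (nat_lit 314))) (XT.nd (nat_lit 78) (nat_lit 836) (nat_lit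 0) (XT.lf (nat_lit 0) (nat_lit 3635892539) (nat_lit 1520) (nat_lit 1527231766) (nat_lit 76) (nat_lit 3706180531) (nat_lit 367) (nat_lit 5) (nat_lit 387) (nat_lit 5) (nat_lit 368) (nat_lit 5) (nat_lit 431) (nat_lit 396) (nat_lit 313)) (XT.lf (nat_lit 0) (nat_lit 3365595718) (nat_lit 836) (nat_lit 2096727115) (nat_lit 912) (nat_lit 3488879363) (nat_lit 356) (nat_lit 5) (nat_lit 367) (nat_lit 5) (nat_lit 368) (nat_lit 5) (nat_lit 432) (nat_lit 396) (nat_lit 312)))))) (XT.nd (nat_lit 546) (nat_lit 2964) (nat_lit 0) (XT.nd (nat_lit 234) (nat_lit 1672) (nat_lit 0) (XT.nd (nat_lit 78) (nat_lit 1824) (nat_lit 0) (XT.lf (nat_lit 0) (nat_lit 7315516883) (nat_lit 912) (nat_lit 689920062) (nat_lit 76) (nat_lit 1029514689) (nat_lit 356) (nat_lit 5) (nat_lit 368) (nat_lit 5) (nat_lit 357) (nat_lit 5) (nat_lit 433) (nat_lit 396) (nat_lit 311)) (XT.nd (nat_lit 78) (nat_lit 836) (nat_lit 0) (XT.lf (nat_lit 0) (nat_lit 100057039)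 (nat_lit 988) (nat_lit 4799374406) (nat_lit 76) (nat_lit 4220636061) (nat_lit 343) (nat_lit 5) (nat_lit 356) (nat_lit 5) (nat_lit 344) (nat_lit 5) (nat_lit 434) (nat_lit 396) (nat_lit 310)) (XT.lf (nat_lit 0) (nat_lit 199977906) (nat_lit 836) (nat_lit 1712831065) (nat_lit 912) (nat_lit 7294269291) (nat_lit 332) (nat_lit 5) (nat_lit 343) (nat_lit 5) (nat_lit 344) (nat_lit 5) (nat_lit 435) (nat_lit 396) (nat_lit 309)))) (XT.nd (nat_lit 156) (nat_lit 836) (nat_lit 0) (XT.nd (nat_lit 78) (nat_lit 836) (nat_lit 0) (XT.lf (nat_lit 0) (nat_lit 3778483465) (nat_lit 912) (nat_lit 3966681080) (nat_lit 76) (nat_lit 1550348737) (nat_lit 332) (nat_lit 5) (nat_lit 344) (nat_lit 5) (nat_lit 333) (nat_lit 5) (nat_lit 436) (nat_lit 396) (nat_lit 308)) (XT.lf (nat_lit 0) (nat_lit 1153156344) (nat_lit 836) (nat_lit 4521915440) (nat_lit 912) (nat_lit 3710790269) (nat_lit 321) (nat_lit 5) (nat_lit 332) (nat_lit 5) (nat_lit 333) (nat_lit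 5) (nat_lit 437) (nat_lit 396) (nat_lit 307))) (XT.nd (nat_lit 78) (nat_lit 836) (nat_lit 0) (XT.lf (nat_lit 0) (nat_lit 6404154683) (nat_lit 836) (nat_lit 1207158087) (nat_lit 912) (nat_lit 1866687334) (nat_lit 321) (nat_lit 5) (nat_lit 332) (nat_lit 5) (nat_lit 333) (nat_lit 5) (nat_lit 438) (nat_lit 396) (nat_lit 306)) (XT.lf (nat_lit 0) (nat_lit 17962206) (nat_lit 836) (nat_lit 7394419901) (nat_lit 76) (nat_lit 2159535985) (nat_lit 310) (nat_lit 5) (nat_lit 321) (nat_lit 5) (nat_lit 311) (nat_lit 5) (nat_lit 439) (nat_lit 396) (nat_lit 305))))) (XT.nd (nat_lit 234) (nat_lit 2204) (nat_lit 0) (XT.nd (nat_lit 78) (nat_lit 760) (nat_lit 0) (XT.lf (nat_lit 0) (nat_lit 1919823035) (nat_lit 836) (nat_lit 2137452147) (nat_lit 76) (nat_lit 5610117976) (nat_lit 310) (nat_lit 5) (nat_lit 321) (nat_lit 5) (nat_lit 311) (nat_lit 5) (nat_lit 440) (nat_lit 396) (nat_lit 304)) (XT.nd (nat_lit 78) (nat_lit 0) (nat_lit 0) (XT.lf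 (nat_lit 0) (nat_lit 3242482155) (nat_lit 760) (nat_lit 614498846) (nat_lit 836) (nat_lit 5907866976) (nat_lit 300) (nat_lit 5) (nat_lit 310) (nat_lit 5) (nat_lit 311) (nat_lit 5) (nat_lit 441) (nat_lit 396) (nat_lit 303)) (XT.lf (nat_lit 0) (nat_lit 5842638621) (nat_lit 836) (nat_lit 1148895332) (nat_lit 76) (nat_lit 2872537955) (nat_lit 300) (nat_lit 5) (nat_lit 311) (nat_lit 5) (nat_lit 301) (nat_lit 5) (nat_lit 442) (nat_lit 396) (nat_lit 302)))) (XT.nd (nat_lit 156) (nat_lit 1520) (nat_lit 0) (XT.nd (nat_lit 78) (nat_lit 0) (nat_lit 0) (XT.lf (nat_lit 0) (nat_lit 4360642034) (nat_lit 684) (nat_lit 3516717663) (nat_lit 760) (nat_lit 2087748464) (nat_lit 291) (nat_lit 5) (nat_lit 300) (nat_lit 5) (nat_lit 301) (nat_lit 5) (nat_lit 443) (nat_lit 396) (nat_lit 301)) (XT.lf (nat_lit 0) (nat_lit 9937966579) (nat_lit 760) (nat_lit 97118483) (nat_lit 76) (nat_lit 33390808) (nat_lit 291) (nat_lit 5) (nat_lit 301) (nat_lit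 5) (nat_lit 292) (nat_lit 5) (nat_lit 444) (nat_lit 396) (nat_lit 300))) (XT.nd (nat_lit 78) (nat_lit 684) (nat_lit 0) (XT.lf (nat_lit 0) (nat_lit 1878626264) (nat_lit 836) (nat_lit 4640062515) (nat_lit 76) (nat_lit 3654249399) (nat_lit 280) (nat_lit 5) (nat_lit 291) (nat_lit 5) (nat_lit 281) (nat_lit 5) (nat_lit 445) (nat_lit 396) (nat_lit 299)) (XT.lf (nat_lit 0) (nat_lit 984874893) (nat_lit 684) (nat_lit 2926192462) (nat_lit 760) (nat_lit 6368721438) (nat_lit 271) (nat_lit 5) (nat_lit 280) (nat_lit 5) (nat_lit 281) (nat_lit 5) (nat_lit 446) (nat_lit 396) (nat_lit 298))))))) (XT.nd (nat_lit 1092) (nat_lit 4104) (nat_lit 0) (XT.nd (nat_lit 546) (nat_lit 2508) (nat_lit 0) (XT.nd (nat_lit 234) (nat_lit 1368) (nat_lit 0) (XT.nd (nat_lit 78) (nat_lit 684) (nat_lit 0) (XT.lf (nat_lit 0) (nat_lit 5998372868) (nat_lit 760) (nat_lit 3632701691) (nat_lit 76) (nat_lit 757430998) (nat_lit 271) (nat_lit 5) (nat_lit 281) (nat_lit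 5) (nat_lit 272) (nat_lit 5) (nat_lit 447) (nat_lit 396) (nat_lit 297)) (XT.nd (nat_lit 78) (nat_lit 0) (nat_lit 0) (XT.lf (nat_lit 0) (nat_lit 2126999887) (nat_lit 684) (nat_lit 6012122615) (nat_lit 760) (nat_lit 2360053379) (nat_lit 262) (nat_lit 5) (nat_lit 271) (nat_lit 5) (nat_lit 272) (nat_lit 5) (nat_lit 448) (nat_lit 396) (nat_lit 296)) (XT.lf (nat_lit 0) (nat_lit 8027025307) (nat_lit 684) (nat_lit 2298813355) (nat_lit 760) (nat_lit 286170848) (nat_lit 262) (nat_lit 5) (nat_lit 271) (nat_lit 5) (nat_lit 272) (nat_lit 5) (nat_lit 449) (nat_lit 396) (nat_lit 295)))) (XT.nd (nat_lit 156) (nat_lit 684) (nat_lit 0) (XT.nd (nat_lit 78) (nat_lit 0) (nat_lit 0) (XT.lf (nat_lit 0) (nat_lit 1815700702) (nat_lit 684) (nat_lit 7410967954) (nat_lit 76) (nat_lit 1499996025) (nat_lit 253) (nat_lit 5) (nat_lit 262) (nat_lit 5) (nat_lit 254) (nat_lit 5) (nat_lit 450) (nat_lit 396) (nat_lit 294)) (XT.lf (nat_lit 0) (nat_lit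 3967743610) (nat_lit 684) (nat_lit 1515248059) (nat_lit 76) (nat_lit 5360356319) (nat_lit 253) (nat_lit 5) (nat_lit 262) (nat_lit 5) (nat_lit 254) (nat_lit 5) (nat_lit 451) (nat_lit 396) (nat_lit 293))) (XT.nd (nat_lit 78) (nat_lit 0) (nat_lit 0) (XT.lf (nat_lit 0) (nat_lit 4534147018) (nat_lit 684) (nat_lit 1637802146) (nat_lit 760) (nat_lit 4790245306) (nat_lit 244) (nat_lit 5) (nat_lit 253) (nat_lit 5) (nat_lit 254) (nat_lit 5) (nat_lit 452) (nat_lit 396) (nat_lit 292)) (XT.lf (nat_lit 0) (nat_lit 8425211403) (nat_lit 760) (nat_lit 396983375) (nat_lit 76) (nat_lit 2261135360) (nat_lit 244) (nat_lit 5) (nat_lit 254) (nat_lit 5) (nat_lit 245) (nat_lit 5) (nat_lit 453) (nat_lit 396) (nat_lit 291))))) (XT.nd (nat_lit 234) (nat_lit 1216) (nat_lit 0) (XT.nd (nat_lit 78) (nat_lit 684) (nat_lit 0) (XT.lf (nat_lit 0) (nat_lit 5796405960) (nat_lit 608) (nat_lit 4955913400) (nat_lit 684) (nat_lit 454005030) (nat_lit 236)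 (nat_lit 5) (nat_lit 244) (nat_lit 5) (nat_lit 245) (nat_lit 5) (nat_lit 454) (nat_lit 396) (nat_lit 290)) (XT.nd (nat_lit 78) (nat_lit 0) (nat_lit 0) (XT.lf (nat_lit 0) (nat_lit 762059151) (nat_lit 608) (nat_lit 996624930) (nat_lit 684) (nat_lit 9573112013) (nat_lit 227) (nat_lit 5) (nat_lit 235) (nat_lit 5) (nat_lit 236) (nat_lit 5) (nat_lit 455) (nat_lit 396) (nat_lit 289)) (XT.lf (nat_lit 0) (nat_lit 4046447836) (nat_lit 684) (nat_lit 4375043245) (nat_lit 76) (nat_lit 3037498948) (nat_lit 227) (nat_lit 5) (nat_lit 236) (nat_lit 5) (nat_lit 228) (nat_lit 5) (nat_lit 456) (nat_lit 396) (nat_lit 288)))) (XT.nd (nat_lit 156) (nat_lit 684) (nat_lit 0) (XT.nd (nat_lit 78) (nat_lit 0) (nat_lit 0) (XT.lf (nat_lit 0) (nat_lit 1939037284) (nat_lit 532) (nat_lit 4441100422) (nat_lit 608) (nat_lit 5208597325) (nat_lit 220) (nat_lit 5) (nat_lit 227) (nat_lit 5) (nat_lit 228) (nat_lit 5) (nat_lit 457) (nat_lit 396) (nat_lit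 287)) (XT.lf (nat_lit 0) (nat_lit 8415520124) (nat_lit 532) (nat_lit 355543644) (nat_lit 608) (nat_lit 2949810315) (nat_lit 220) (nat_lit 5) (nat_lit 227) (nat_lit 5) (nat_lit 228) (nat_lit 5) (nat_lit 458) (nat_lit 396) (nat_lit 286))) (XT.nd (nat_lit 78) (nat_lit 76) (nat_lit 0) (XT.lf (nat_lit 0) (nat_lit 3159485286) (nat_lit 608) (nat_lit 8077128961) (nat_lit 684) (nat_lit 618515744) (nat_lit 212) (nat_lit 5) (nat_lit 220) (nat_lit 5) (nat_lit 221) (nat_lit 5) (nat_lit 459) (nat_lit 396) (nat_lit 285)) (XT.lf (nat_lit 0) (nat_lit 1742638473) (nat_lit 684) (nat_lit 2230308372) (nat_lit 76) (nat_lit 8018779332) (nat_lit 211) (nat_lit 5) (nat_lit 220) (nat_lit 5) (nat_lit 212) (nat_lit 5) (nat_lit 460) (nat_lit 396) (nat_lit 284)))))) (XT.nd (nat_lit 546) (nat_lit 1976) (nat_lit 0) (XT.nd (nat_lit 234) (nat_lit 1064) (nat_lit 0) (XT.nd (nat_lit 78) (nat_lit 532) (nat_lit 0) (XT.lf (nat_lit 0) (nat_lit 4154835130)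 (nat_lit 608) (nat_lit 7737188185) (nat_lit 76) (nat_lit 238716783) (nat_lit 204) (nat_lit 5) (nat_lit 212) (nat_lit 5) (nat_lit 205) (nat_lit 5) (nat_lit 461) (nat_lit 396) (nat_lit 283)) (XT.nd (nat_lit 78) (nat_lit 532) (nat_lit 0) (XT.lf (nat_lit 0) (nat_lit 6638814689) (nat_lit 608) (nat_lit 1141436170) (nat_lit 76) (nat_lit 4491822076) (nat_lit 204) (nat_lit 5) (nat_lit 212) (nat_lit 5) (nat_lit 205) (nat_lit 5) (nat_lit 462) (nat_lit 396) (nat_lit 282)) (XT.lf (nat_lit 0) (nat_lit 5637706694) (nat_lit 532) (nat_lit 3553883038) (nat_lit 608) (nat_lit 3224269613) (nat_lit 197) (nat_lit 5) (nat_lit 204) (nat_lit 5) (nat_lit 205) (nat_lit 5) (nat_lit 463) (nat_lit 396) (nat_lit 281)))) (XT.nd (nat_lit 156) (nat_lit 532) (nat_lit 0) (XT.nd (nat_lit 78) (nat_lit 532) (nat_lit 0) (XT.lf (nat_lit 0) (nat_lit 11790723201) (nat_lit 608) (nat_lit 22067311) (nat_lit 76) (nat_lit 749833962) (nat_lit 197) (nat_lit 5)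 (nat_lit 205) (nat_lit 5) (nat_lit 198) (nat_lit 5) (nat_lit 464) (nat_lit 396) (nat_lit 280)) (XT.lf (nat_lit 0) (nat_lit 1758607164) (nat_lit 532) (nat_lit 5808785350) (nat_lit 76) (nat_lit 5143680997) (nat_lit 190) (nat_lit 5) (nat_lit 197) (nat_lit 5) (nat_lit 191) (nat_lit 5) (nat_lit 465) (nat_lit 396) (nat_lit 279))) (XT.nd (nat_lit 78) (nat_lit 0) (nat_lit 0) (XT.lf (nat_lit 0) (nat_lit 1089840301) (nat_lit 532) (nat_lit 3229871643) (nat_lit 608) (nat_lit 8542879629) (nat_lit 183) (nat_lit 5) (nat_lit 190) (nat_lit 5) (nat_lit 191) (nat_lit 5) (nat_lit 466) (nat_lit 396) (nat_lit 278)) (XT.lf (nat_lit 0) (nat_lit 6962271831) (nat_lit 608) (nat_lit 4841637987) (nat_lit 76) (nat_lit 1212633881) (nat_lit 183) (nat_lit 5) (nat_lit 191) (nat_lit 5) (nat_lit 184) (nat_lit 5) (nat_lit 467) (nat_lit 396) (nat_lit 277))))) (XT.nd (nat_lit 312) (nat_lit 988) (nat_lit 0) (XT.nd (nat_lit 156) (nat_lit 532) (nat_lit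 0) (XT.nd (nat_lit 78) (nat_lit 0) (nat_lit 0) (XT.lf (nat_lit 0) (nat_lit 2213738628) (nat_lit 456) (nat_lit 7463275872) (nat_lit 532) (nat_lit 3496181933) (nat_lit 177) (nat_lit 5) (nat_lit 183) (nat_lit 5) (nat_lit 184) (nat_lit 5) (nat_lit 468) (nat_lit 396) (nat_lit 276)) (XT.lf (nat_lit 0) (nat_lit 9453994571) (nat_lit 456) (nat_lit 3008296309) (nat_lit 532) (nat_lit 870374603) (nat_lit 177) (nat_lit 5) (nat_lit 183) (nat_lit 5) (nat_lit 184) (nat_lit 5) (nat_lit 469) (nat_lit 396) (nat_lit 275))) (XT.nd (nat_lit 78) (nat_lit 0) (nat_lit 0) (XT.lf (nat_lit 0) (nat_lit 1800127046) (nat_lit 532) (nat_lit 10150803342) (nat_lit 76) (nat_lit 1543848687) (nat_lit 170) (nat_lit 5) (nat_lit 177) (nat_lit 5) (nat_lit 171) (nat_lit 5) (nat_lit 470) (nat_lit 396) (nat_lit 274)) (XT.lf (nat_lit 0) (nat_lit 4542610747) (nat_lit 532) (nat_lit 2943617810) (nat_lit 76) (nat_lit 6173194365) (nat_lit 170) (nat_lit 5) (nat_lit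 177) (nat_lit 5) (nat_lit 171) (nat_lit 5) (nat_lit 471) (nat_lit 396) (nat_lit 273)))) (XT.nd (nat_lit 156) (nat_lit 532) (nat_lit 0) (XT.nd (nat_lit 78) (nat_lit 0) (nat_lit 0) (XT.lf (nat_lit 0) (nat_lit 4444634778) (nat_lit 456) (nat_lit 2908571425) (nat_lit 532) (nat_lit 6473895628) (nat_lit 164) (nat_lit 5) (nat_lit 170) (nat_lit 5) (nat_lit 171) (nat_lit 5) (nat_lit 472) (nat_lit 396) (nat_lit 272)) (XT.lf (nat_lit 0) (nat_lit 10235863712) (nat_lit 532) (nat_lit 2010253791) (nat_lit 76) (nat_lit 1751707092) (nat_lit 164) (nat_lit 5) (nat_lit 171) (nat_lit 5) (nat_lit 165) (nat_lit 5) (nat_lit 473) (nat_lit 396) (nat_lit 271))) (XT.nd (nat_lit 78) (nat_lit 76) (nat_lit 0) (XT.lf (nat_lit 0) (nat_lit 5541737837) (nat_lit 456) (nat_lit 7674517338) (nat_lit 532) (nat_lit 954912160) (nat_lit 158) (nat_lit 5) (nat_lit 164) (nat_lit 5) (nat_lit 165) (nat_lit 5) (nat_lit 474) (nat_lit 396) (nat_lit 270)) (XT.lf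 (nat_lit 0) (nat_lit 1881722486) (nat_lit 532) (nat_lit 1109321086) (nat_lit 76) (nat_lit 11356722973) (nat_lit 157) (nat_lit 5) (nat_lit 164) (nat_lit 5) (nat_lit 158) (nat_lit 5) (nat_lit 475) (nat_lit 396) (nat_lit 269))))))))
noncomputable def xc142 : XT := (XT.nd (nat_lit 2184) (nat_lit 2508) (nat_lit 0) (XT.nd (nat_lit 1092) (nat_lit 2204) (nat_lit 0) (XT.nd (nat_lit 546) (nat_lit 1520) (nat_lit 0) (XT.nd (nat_lit 234) (nat_lit 836) (nat_lit 0) (XT.nd (nat_lit 78) (nat_lit 456) (nat_lit 0) (XT.lf (nat_lit 0) (nat_lit 4802377167) (nat_lit 456) (nat_lit 7918137245) (nat_lit 76) (nat_lit 1806462341) (nat_lit 152) (nat_lit 5) (nat_lit 158) (nat_lit 5) (nat_lit 153) (nat_lit 5) (nat_lit 476) (nat_lit 396) (nat_lit 268)) (XT.nd (nat_lit 78) (nat_lit 456) (nat_lit 0) (XT.lf (nat_lit 0) (nat_lit 7794053990) (nat_lit 456) (nat_lit 253942830) (nat_lit 76) (nat_lit 6661528759) (nat_lit 152) (nat_lit 5) (nat_lit 158)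 (nat_lit 5) (nat_lit 153) (nat_lit 5) (nat_lit 477) (nat_lit 396) (nat_lit 267)) (XT.lf (nat_lit 0) (nat_lit 7643324672) (nat_lit 456) (nat_lit 3237460687) (nat_lit 532) (nat_lit 4014242066) (nat_lit 146) (nat_lit 5) (nat_lit 152) (nat_lit 5) (nat_lit 153) (nat_lit 5) (nat_lit 478) (nat_lit 396) (nat_lit 266)))) (XT.nd (nat_lit 156) (nat_lit 380) (nat_lit 0) (XT.nd (nat_lit 78) (nat_lit 76) (nat_lit 0) (XT.lf (nat_lit 0) (nat_lit 594145642) (nat_lit 380) (nat_lit 13437223394) (nat_lit 456) (nat_lit 1052834255) (nat_lit 141) (nat_lit 5) (nat_lit 146) (nat_lit 5) (nat_lit 147) (nat_lit 5) (nat_lit 479) (nat_lit 396) (nat_lit 265)) (XT.lf (nat_lit 0) (nat_lit 1998173155) (nat_lit 456) (nat_lit 6636150267) (nat_lit 76) (nat_lit 6641466228) (nat_lit 140) (nat_lit 5) (nat_lit 146) (nat_lit 5) (nat_lit 141) (nat_lit 5) (nat_lit 480) (nat_lit 396) (nat_lit 264))) (XT.nd (nat_lit 78) (nat_lit 0) (nat_lit 0) (XT.lf (nat_lit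 0) (nat_lit 1365544851) (nat_lit 380) (nat_lit 3725471306) (nat_lit 456) (nat_lit 10380160109) (nat_lit 135) (nat_lit 5) (nat_lit 140) (nat_lit 5) (nat_lit 141) (nat_lit 5) (nat_lit 481) (nat_lit 396) (nat_lit 263)) (XT.lf (nat_lit 0) (nat_lit 8285000079) (nat_lit 456) (nat_lit 6081302861) (nat_lit 76) (nat_lit 1303387847) (nat_lit 135) (nat_lit 5) (nat_lit 141) (nat_lit 5) (nat_lit 136) (nat_lit 5) (nat_lit 482) (nat_lit 396) (nat_lit 262))))) (XT.nd (nat_lit 234) (nat_lit 684) (nat_lit 0) (XT.nd (nat_lit 78) (nat_lit 456) (nat_lit 0) (XT.lf (nat_lit 0) (nat_lit 2086264863) (nat_lit 380) (nat_lit 9481224421) (nat_lit 456) (nat_lit 4304199543) (nat_lit 130) (nat_lit 5) (nat_lit 135) (nat_lit 5) (nat_lit 136) (nat_lit 5) (nat_lit 483) (nat_lit 396) (nat_lit 261)) (XT.nd (nat_lit 78) (nat_lit 456) (nat_lit 0) (XT.lf (nat_lit 0) (nat_lit 10479811627) (nat_lit 380) (nat_lit 4463171498) (nat_lit 456) (nat_lit 1134202233)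 (nat_lit 130) (nat_lit 5) (nat_lit 135) (nat_lit 5) (nat_lit 136) (nat_lit 5) (nat_lit 484) (nat_lit 396) (nat_lit 260)) (XT.lf (nat_lit 0) (nat_lit 2080705583) (nat_lit 456) (nat_lit 13533482311) (nat_lit 76) (nat_lit 672155909) (nat_lit 124) (nat_lit 5) (nat_lit 130) (nat_lit 5) (nat_lit 125) (nat_lit 5) (nat_lit 485) (nat_lit 396) (nat_lit 259)))) (XT.nd (nat_lit 156) (nat_lit 380) (nat_lit 0) (XT.nd (nat_lit 78) (nat_lit 304) (nat_lit 0) (XT.lf (nat_lit 0) (nat_lit 5398916386) (nat_lit 456) (nat_lit 5209974194) (nat_lit 76) (nat_lit 5889566363) (nat_lit 124) (nat_lit 5) (nat_lit 130) (nat_lit 5) (nat_lit 125) (nat_lit 5) (nat_lit 486) (nat_lit 396) (nat_lit 258)) (XT.lf (nat_lit 0) (nat_lit 3304025358) (nat_lit 304) (nat_lit 5487986698) (nat_lit 380) (nat_lit 7922635075) (nat_lit 120) (nat_lit 5) (nat_lit 124) (nat_lit 5) (nat_lit 125) (nat_lit 5) (nat_lit 487) (nat_lit 396) (nat_lit 257))) (XT.nd (nat_lit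 78) (nat_lit 380) (nat_lit 0) (XT.lf (nat_lit 0) (nat_lit 12039742908) (nat_lit 304) (nat_lit 235386123) (nat_lit 380) (nat_lit 4659594002) (nat_lit 120) (nat_lit 5) (nat_lit 124) (nat_lit 5) (nat_lit 125) (nat_lit 5) (nat_lit 488) (nat_lit 396) (nat_lit 256)) (XT.lf (nat_lit 0) (nat_lit 3788378680) (nat_lit 380) (nat_lit 12084791605) (nat_lit 456) (nat_lit 1285129925) (nat_lit 115) (nat_lit 5) (nat_lit 120) (nat_lit 5) (nat_lit 121) (nat_lit 5) (nat_lit 489) (nat_lit 396) (nat_lit 255)))))) (XT.nd (nat_lit 546) (nat_lit 1140) (nat_lit 0) (XT.nd (nat_lit 234) (nat_lit 684) (nat_lit 0) (XT.nd (nat_lit 78) (nat_lit 304) (nat_lit 0) (XT.lf (nat_lit 0) (nat_lit 2150605500) (nat_lit 456) (nat_lit 4708784770) (nat_lit 76) (nat_lit 10526242009) (nat_lit 114) (nat_lit 5) (nat_lit 120) (nat_lit 5) (nat_lit 115) (nat_lit 5) (nat_lit 490) (nat_lit 396) (nat_lit 254)) (XT.nd (nat_lit 78) (nat_lit 0) (nat_lit 0) (XT.lf (nat_lit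 0) (nat_lit 4152832716) (nat_lit 304) (nat_lit 1499685152) (nat_lit 380) (nat_lit 11964534534) (nat_lit 110) (nat_lit 5) (nat_lit 114) (nat_lit 5) (nat_lit 115) (nat_lit 5) (nat_lit 491) (nat_lit 396) (nat_lit 253)) (XT.lf (nat_lit 0) (nat_lit 9269804353) (nat_lit 380) (nat_lit 4641704919) (nat_lit 76) (nat_lit 3940689554) (nat_lit 110) (nat_lit 5) (nat_lit 115) (nat_lit 5) (nat_lit 111) (nat_lit 5) (nat_lit 492) (nat_lit 396) (nat_lit 252)))) (XT.nd (nat_lit 156) (nat_lit 380) (nat_lit 0) (XT.nd (nat_lit 78) (nat_lit 0) (nat_lit 0) (XT.lf (nat_lit 0) (nat_lit 4386445433) (nat_lit 304) (nat_lit 8599412731) (nat_lit 380) (nat_lit 5105666109) (nat_lit 106) (nat_lit 5) (nat_lit 110) (nat_lit 5) (nat_lit 111) (nat_lit 5) (nat_lit 493) (nat_lit 396) (nat_lit 251)) (XT.lf (nat_lit 0) (nat_lit 13639787414) (nat_lit 304) (nat_lit 3155720452) (nat_lit 380) (nat_lit 1539747303) (nat_lit 106) (nat_lit 5) (nat_lit 110) (nat_lit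 5) (nat_lit 111) (nat_lit 5) (nat_lit 494) (nat_lit 396) (nat_lit 250))) (XT.nd (nat_lit 78) (nat_lit 0) (nat_lit 0) (XT.lf (nat_lit 0) (nat_lit 2103423429) (nat_lit 380) (nat_lit 14077114126) (nat_lit 76) (nat_lit 2402386177) (nat_lit 101) (nat_lit 5) (nat_lit 106) (nat_lit 5) (nat_lit 102) (nat_lit 5) (nat_lit 495) (nat_lit 396) (nat_lit 249)) (XT.lf (nat_lit 0) (nat_lit 5839825962) (nat_lit 380) (nat_lit 4929627468) (nat_lit 76) (nat_lit 8065073152) (nat_lit 101) (nat_lit 5) (nat_lit 106) (nat_lit 5) (nat_lit 102) (nat_lit 5) (nat_lit 496) (nat_lit 396) (nat_lit 248))))) (XT.nd (nat_lit 234) (nat_lit 608) (nat_lit 0) (XT.nd (nat_lit 78) (nat_lit 228) (nat_lit 0) (XT.lf (nat_lit 0) (nat_lit 4441244568) (nat_lit 304) (nat_lit 5227125707) (nat_lit 380) (nat_lit 9422447038) (nat_lit 97) (nat_lit 5) (nat_lit 101) (nat_lit 5) (nat_lit 102) (nat_lit 5) (nat_lit 497) (nat_lit 396) (nat_lit 247)) (XT.nd (nat_lit 78)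 (nat_lit 228) (nat_lit 0) (XT.lf (nat_lit 0) (nat_lit 13598196992) (nat_lit 380) (nat_lit 5306084801) (nat_lit 76) (nat_lit 447461854) (nat_lit 97) (nat_lit 5) (nat_lit 102) (nat_lit 5) (nat_lit 98) (nat_lit 5) (nat_lit 498) (nat_lit 396) (nat_lit 246)) (XT.lf (nat_lit 0) (nat_lit 4227568430) (nat_lit 228) (nat_lit 13429985204) (nat_lit 304) (nat_lit 1959320145) (nat_lit 94) (nat_lit 5) (nat_lit 97) (nat_lit 5) (nat_lit 98) (nat_lit 5) (nat_lit 499) (nat_lit 396) (nat_lit 245)))) (XT.nd (nat_lit 156) (nat_lit 228) (nat_lit 0) (XT.nd (nat_lit 78) (nat_lit 304) (nat_lit 0) (XT.lf (nat_lit 0) (nat_lit 1910469784) (nat_lit 304) (nat_lit 5892985268) (nat_lit 76) (nat_lit 12083112342) (nat_lit 93) (nat_lit 5) (nat_lit 97) (nat_lit 5) (nat_lit 94) (nat_lit 5) (nat_lit 500) (nat_lit 396) (nat_lit 244)) (XT.lf (nat_lit 0) (nat_lit 3813070118) (nat_lit 304) (nat_lit 2032246142) (nat_lit 380) (nat_lit 14315805391) (nat_lit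 89) (nat_lit 5) (nat_lit 93) (nat_lit 5) (nat_lit 94) (nat_lit 5) (nat_lit 501) (nat_lit 396) (nat_lit 243))) (XT.nd (nat_lit 78) (nat_lit 228) (nat_lit 0) (XT.lf (nat_lit 0) (nat_lit 9912867619) (nat_lit 380) (nat_lit 6689825104) (nat_lit 76) (nat_lit 3837397752) (nat_lit 89) (nat_lit 5) (nat_lit 94) (nat_lit 5) (nat_lit 90) (nat_lit 5) (nat_lit 502) (nat_lit 396) (nat_lit 242)) (XT.lf (nat_lit 0) (nat_lit 3172768241) (nat_lit 228) (nat_lit 10912448097) (nat_lit 304) (nat_lit 6638956978) (nat_lit 86) (nat_lit 5) (nat_lit 89) (nat_lit 5) (nat_lit 90) (nat_lit 5) (nat_lit 503) (nat_lit 396) (nat_lit 241))))))) (XT.nd (nat_lit 1092) (nat_lit 836) (nat_lit 0) (XT.nd (nat_lit 546) (nat_lit 760) (nat_lit 0) (XT.nd (nat_lit 234) (nat_lit 532) (nat_lit 0) (XT.nd (nat_lit 78) (nat_lit 380) (nat_lit 0) (XT.lf (nat_lit 0) (nat_lit 13306456855) (nat_lit 228) (nat_lit 5068934209) (nat_lit 304) (nat_lit 2637862669) (nat_lit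 86) (nat_lit 5) (nat_lit 89) (nat_lit 5) (nat_lit 90) (nat_lit 5) (nat_lit 504) (nat_lit 396) (nat_lit 240)) (XT.nd (nat_lit 78) (nat_lit 0) (nat_lit 0) (XT.lf (nat_lit 0) (nat_lit 1435044790) (nat_lit 380) (nat_lit 18974381272) (nat_lit 76) (nat_lit 898291251) (nat_lit 81) (nat_lit 5) (nat_lit 86) (nat_lit 5) (nat_lit 82) (nat_lit 5) (nat_lit 505) (nat_lit 396) (nat_lit 239)) (XT.lf (nat_lit 0) (nat_lit 5629427456) (nat_lit 380) (nat_lit 8996386269) (nat_lit 76) (nat_lit 6980404251) (nat_lit 81) (nat_lit 5) (nat_lit 86) (nat_lit 5) (nat_lit 82) (nat_lit 5) (nat_lit 506) (nat_lit 396) (nat_lit 238)))) (XT.nd (nat_lit 156) (nat_lit 304) (nat_lit 0) (XT.nd (nat_lit 78) (nat_lit 0) (nat_lit 0) (XT.lf (nat_lit 0) (nat_lit 1180266836) (nat_lit 228) (nat_lit 8724973193) (nat_lit 304) (nat_lit 12005501010) (nat_lit 78) (nat_lit 5) (nat_lit 81) (nat_lit 5) (nat_lit 82) (nat_lit 5) (nat_lit 507) (nat_lit 396) (nat_lit 237))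 (XT.lf (nat_lit 0) (nat_lit 11666127950) (nat_lit 228) (nat_lit 2650783360) (nat_lit 304) (nat_lit 7903439574) (nat_lit 78) (nat_lit 5) (nat_lit 81) (nat_lit 5) (nat_lit 82) (nat_lit 5) (nat_lit 508) (nat_lit 396) (nat_lit 236))) (XT.nd (nat_lit 78) (nat_lit 304) (nat_lit 0) (XT.lf (nat_lit 0) (nat_lit 18829960638) (nat_lit 304) (nat_lit 213576749) (nat_lit 76) (nat_lit 3492355752) (nat_lit 78) (nat_lit 5) (nat_lit 82) (nat_lit 5) (nat_lit 79) (nat_lit 5) (nat_lit 509) (nat_lit 396) (nat_lit 235)) (XT.lf (nat_lit 0) (nat_lit 644118438) (nat_lit 304) (nat_lit 12423056281) (nat_lit 76) (nat_lit 9788976937) (nat_lit 74) (nat_lit 5) (nat_lit 78) (nat_lit 5) (nat_lit 75) (nat_lit 5) (nat_lit 510) (nat_lit 396) (nat_lit 234))))) (XT.nd (nat_lit 234) (nat_lit 532) (nat_lit 0) (XT.nd (nat_lit 78) (nat_lit 228) (nat_lit 0) (XT.lf (nat_lit 0) (nat_lit 5023380848) (nat_lit 304) (nat_lit 1927568418) (nat_lit 76) (nat_lit 16231542422)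 (nat_lit 74) (nat_lit 5) (nat_lit 78) (nat_lit 5) (nat_lit 75) (nat_lit 5) (nat_lit 511) (nat_lit 396) (nat_lit 233)) (XT.nd (nat_lit 78) (nat_lit 0) (nat_lit 0) (XT.lf (nat_lit 0) (nat_lit 8878760368) (nat_lit 228) (nat_lit 659648075) (nat_lit 304) (nat_lit 13975989349) (nat_lit 71) (nat_lit 5) (nat_lit 74) (nat_lit 5) (nat_lit 75) (nat_lit 5) (nat_lit 512) (nat_lit 396) (nat_lit 232)) (XT.lf (nat_lit 0) (nat_lit 14184718147) (nat_lit 304) (nat_lit 3978370502) (nat_lit 76) (nat_lit 5689036551) (nat_lit 71) (nat_lit 5) (nat_lit 75) (nat_lit 5) (nat_lit 72) (nat_lit 5) (nat_lit 513) (nat_lit 396) (nat_lit 231)))) (XT.nd (nat_lit 156) (nat_lit 304) (nat_lit 0) (XT.nd (nat_lit 78) (nat_lit 0) (nat_lit 0) (XT.lf (nat_lit 0) (nat_lit 6963744603) (nat_lit 228) (nat_lit 12000555459) (nat_lit 304) (nat_lit 5231502934) (nat_lit 68) (nat_lit 5) (nat_lit 71) (nat_lit 5) (nat_lit 72) (nat_lit 5) (nat_lit 514) (nat_lit 396)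 (nat_lit 230)) (XT.lf (nat_lit 0) (nat_lit 18163470875) (nat_lit 228) (nat_lit 5693546610) (nat_lit 304) (nat_lit 688988690) (nat_lit 68) (nat_lit 5) (nat_lit 71) (nat_lit 5) (nat_lit 72) (nat_lit 5) (nat_lit 515) (nat_lit 396) (nat_lit 229))) (XT.nd (nat_lit 78) (nat_lit 0) (nat_lit 0) (XT.lf (nat_lit 0) (nat_lit 3919292832) (nat_lit 304) (nat_lit 20202316399) (nat_lit 76) (nat_lit 780561631) (nat_lit 64) (nat_lit 5) (nat_lit 68) (nat_lit 5) (nat_lit 65) (nat_lit 5) (nat_lit 516) (nat_lit 396) (nat_lit 228)) (XT.lf (nat_lit 0) (nat_lit 8682348823) (nat_lit 304) (nat_lit 9231774364) (nat_lit 76) (nat_lit 7349810433) (nat_lit 64) (nat_lit 5) (nat_lit 68) (nat_lit 5) (nat_lit 65) (nat_lit 5) (nat_lit 517) (nat_lit 396) (nat_lit 227)))))) (XT.nd (nat_lit 546) (nat_lit 152) (nat_lit 0) (XT.nd (nat_lit 234) (nat_lit 456) (nat_lit 0) (XT.nd (nat_lit 78) (nat_lit 0) (nat_lit 0) (XT.lf (nat_lit 0) (nat_lit 1969271544)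 (nat_lit 228) (nat_lit 11575362904) (nat_lit 304) (nat_lit 12088220313) (nat_lit 61) (nat_lit 5) (nat_lit 64) (nat_lit 5) (nat_lit 65) (nat_lit 5) (nat_lit 518) (nat_lit 396) (nat_lit 226)) (XT.nd (nat_lit 78) (nat_lit 0) (nat_lit 0) (XT.lf (nat_lit 0) (nat_lit 13504840122) (nat_lit 228) (nat_lit 5052536280) (nat_lit 304) (nat_lit 7450716161) (nat_lit 61) (nat_lit 5) (nat_lit 64) (nat_lit 5) (nat_lit 65) (nat_lit 5) (nat_lit 519) (nat_lit 396) (nat_lit 225)) (XT.lf (nat_lit 0) (nat_lit 23672160674) (nat_lit 304) (nat_lit 1144594755) (nat_lit 76) (nat_lit 1574046343) (nat_lit 61) (nat_lit 5) (nat_lit 65) (nat_lit 5) (nat_lit 62) (nat_lit 5) (nat_lit 520) (nat_lit 396) (nat_lit 224)))) (XT.nd (nat_lit 156) (nat_lit 228) (nat_lit 0) (XT.nd (nat_lit 78) (nat_lit 0) (nat_lit 0) (XT.lf (nat_lit 0) (nat_lit 2174446294) (nat_lit 228) (nat_lit 16261906889) (nat_lit 76) (nat_lit 8342660178) (nat_lit 58) (nat_lit 5) (nat_lit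 61) (nat_lit 5) (nat_lit 59) (nat_lit 5) (nat_lit 521) (nat_lit 396) (nat_lit 223)) (XT.lf (nat_lit 0) (nat_lit 7128337827) (nat_lit 228) (nat_lit 4779556945) (nat_lit 76) (nat_lit 15266750369) (nat_lit 58) (nat_lit 5) (nat_lit 61) (nat_lit 5) (nat_lit 59) (nat_lit 5) (nat_lit 522) (nat_lit 396) (nat_lit 222))) (XT.nd (nat_lit 78) (nat_lit 0) (nat_lit 0) (XT.lf (nat_lit 0) (nat_lit 7010438774) (nat_lit 228) (nat_lit 5208129216) (nat_lit 304) (nat_lit 15358878569) (nat_lit 55) (nat_lit 5) (nat_lit 58) (nat_lit 5) (nat_lit 59) (nat_lit 5) (nat_lit 523) (nat_lit 396) (nat_lit 221)) (XT.lf (nat_lit 0) (nat_lit 17445222694) (nat_lit 304) (nat_lit 8911388754) (nat_lit 76) (nat_lit 1631002334) (nat_lit 55) (nat_lit 5) (nat_lit 59) (nat_lit 5) (nat_lit 56) (nat_lit 5) (nat_lit 524) (nat_lit 396) (nat_lit 220))))) (XT.nd (nat_lit 49530) (nat_lit 0) (nat_lit 37620) (XT.nd (nat_lit 49374) (nat_lit 0) (nat_lit 38684) (XT.nd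 (nat_lit 78) (nat_lit 0) (nat_lit 0) (XT.lf (nat_lit 0) (nat_lit 2968070980) (nat_lit 152) (nat_lit 19854041813) (nat_lit 228) (nat_lit 5582959643) (nat_lit 53) (nat_lit 5) (nat_lit 55) (nat_lit 5) (nat_lit 56) (nat_lit 5) (nat_lit 525) (nat_lit 396) (nat_lit 219)) (XT.lf (nat_lit 0) (nat_lit 15192298770) (nat_lit 152) (nat_lit 13166052340) (nat_lit 228) (nat_lit 471495035) (nat_lit 53) (nat_lit 5) (nat_lit 55) (nat_lit 5) (nat_lit 56) (nat_lit 5) (nat_lit 526) (nat_lit 396) (nat_lit 218))) (XT.nd (nat_lit 78) (nat_lit 0) (nat_lit 0) (XT.lf (nat_lit 0) (nat_lit 193355083) (nat_lit 0) (nat_lit 193355083) (nat_lit 988) (nat_lit 3115320150) (nat_lit 562) (nat_lit 5) (nat_lit 562) (nat_lit 3) (nat_lit 575) (nat_lit 3) (nat_lit 397) (nat_lit 397) (nat_lit 346)) (XT.lf (nat_lit 0) (nat_lit 2535564560) (nat_lit 988) (nat_lit 3351197874) (nat_lit 1064) (nat_lit 1150665275) (nat_lit 562) (nat_lit 5) (nat_lit 575) (nat_lit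 3) (nat_lit 576) (nat_lit 5) (nat_lit 398) (nat_lit 397) (nat_lit 345)))) (XT.nd (nat_lit 156) (nat_lit 1064) (nat_lit 0) (XT.nd (nat_lit 78) (nat_lit 0) (nat_lit 0) (XT.lf (nat_lit 0) (nat_lit 4289841174) (nat_lit 988) (nat_lit 46300076) (nat_lit 1064) (nat_lit 2736224667) (nat_lit 562) (nat_lit 5) (nat_lit 575) (nat_lit 3) (nat_lit 576) (nat_lit 5) (nat_lit 399) (nat_lit 397) (nat_lit 344)) (XT.lf (nat_lit 76) (nat_lit 3345020283) (nat_lit 0) (nat_lit 2711125157) (nat_lit 1064) (nat_lit 1052359377) (nat_lit 563) (nat_lit 5) (nat_lit 562) (nat_lit 5) (nat_lit 576) (nat_lit 5) (nat_lit 400) (nat_lit 397) (nat_lit 343))) (XT.nd (nat_lit 78) (nat_lit 0) (nat_lit 76) (XT.lf (nat_lit 0) (nat_lit 658997630) (nat_lit 1064) (nat_lit 369213126) (nat_lit 1140) (nat_lit 6117983779) (nat_lit 548) (nat_lit 5) (nat_lit 562) (nat_lit 5) (nat_lit 563) (nat_lit 5) (nat_lit 401) (nat_lit 397) (nat_lit 342)) (XT.lf (nat_lit 0) (nat_lit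 2371919052) (nat_lit 1064) (nat_lit 4086659407) (nat_lit 1140) (nat_lit 726330317) (nat_lit 549) (nat_lit 5) (nat_lit 563) (nat_lit 5) (nat_lit 564) (nat_lit 5) (nat_lit 402) (nat_lit 397) (nat_lit 341))))))))
noncomputable def xc143 : XT := (XT.nd (nat_lit 2184) (nat_lit 12616) (nat_lit 0) (XT.nd (nat_lit 1092) (nat_lit 8968) (nat_lit 0) (XT.nd (nat_lit 546) (nat_lit 2280) (nat_lit 0) (XT.nd (nat_lit 234) (nat_lit 0) (nat_lit 76) (XT.nd (nat_lit 78) (nat_lit 1140) (nat_lit 0) (XT.lf (nat_lit 0) (nat_lit 4085718759) (nat_lit 1064) (nat_lit 615521624) (nat_lit 1140) (nat_lit 2523862186) (nat_lit 549) (nat_lit 5) (nat_lit 563) (nat_lit 5) (nat_lit 564) (nat_lit 5) (nat_lit 403) (nat_lit 397) (nat_lit 340)) (XT.nd (nat_lit 78) (nat_lit 1140) (nat_lit 0) (XT.lf (nat_lit 76) (nat_lit 2939657741) (nat_lit 0) (nat_lit 2871376350) (nat_lit 1140) (nat_lit 1455558279) (nat_lit 550) (nat_lit 5) (nat_lit 549) (nat_lit 5) (nat_lit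 564) (nat_lit 5) (nat_lit 404) (nat_lit 397) (nat_lit 339)) (XT.lf (nat_lit 0) (nat_lit 221177268) (nat_lit 1140) (nat_lit 760637875) (nat_lit 1216) (nat_lit 6327844923) (nat_lit 534) (nat_lit 5) (nat_lit 549) (nat_lit 5) (nat_lit 550) (nat_lit 5) (nat_lit 405) (nat_lit 397) (nat_lit 338)))) (XT.nd (nat_lit 156) (nat_lit 0) (nat_lit 0) (XT.nd (nat_lit 78) (nat_lit 0) (nat_lit 0) (XT.lf (nat_lit 0) (nat_lit 1896443192) (nat_lit 1140) (nat_lit 4479059814) (nat_lit 1216) (nat_lit 978238770) (nat_lit 535) (nat_lit 5) (nat_lit 550) (nat_lit 5) (nat_lit 551) (nat_lit 5) (nat_lit 406) (nat_lit 397) (nat_lit 337)) (XT.lf (nat_lit 0) (nat_lit 3576928560) (nat_lit 1140) (nat_lit 836790485) (nat_lit 1216) (nat_lit 2985585903) (nat_lit 535) (nat_lit 5) (nat_lit 550) (nat_lit 5) (nat_lit 551) (nat_lit 5) (nat_lit 407) (nat_lit 397) (nat_lit 336))) (XT.nd (nat_lit 78) (nat_lit 0) (nat_lit 0) (XT.lf (nat_lit 76) (nat_lit 2892067543)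 (nat_lit 0) (nat_lit 2378590134) (nat_lit 1216) (nat_lit 2175562472) (nat_lit 536) (nat_lit 5) (nat_lit 535) (nat_lit 5) (nat_lit 551) (nat_lit 5) (nat_lit 408) (nat_lit 397) (nat_lit 335)) (XT.lf (nat_lit 76) (nat_lit 6682818098) (nat_lit 0) (nat_lit 282526912) (nat_lit 1216) (nat_lit 529419759) (nat_lit 536) (nat_lit 5) (nat_lit 535) (nat_lit 5) (nat_lit 551) (nat_lit 5) (nat_lit 409) (nat_lit 397) (nat_lit 334))))) (XT.nd (nat_lit 234) (nat_lit 1216) (nat_lit 0) (XT.nd (nat_lit 78) (nat_lit 0) (nat_lit 0) (XT.lf (nat_lit 0) (nat_lit 1128389266) (nat_lit 1216) (nat_lit 4543786667) (nat_lit 1292) (nat_lit 1872110153) (nat_lit 520) (nat_lit 5) (nat_lit 536) (nat_lit 5) (nat_lit 537) (nat_lit 5) (nat_lit 410) (nat_lit 397) (nat_lit 333)) (XT.nd (nat_lit 78) (nat_lit 0) (nat_lit 0) (XT.lf (nat_lit 0) (nat_lit 2782248528) (nat_lit 1216) (nat_lit 724704785) (nat_lit 1292) (nat_lit 4088405765) (nat_lit 520) (nat_lit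 5) (nat_lit 536) (nat_lit 5) (nat_lit 537) (nat_lit 5) (nat_lit 411) (nat_lit 397) (nat_lit 332)) (XT.lf (nat_lit 76) (nat_lit 3188256331) (nat_lit 0) (nat_lit 1264982494) (nat_lit 1292) (nat_lit 3194563919) (nat_lit 521) (nat_lit 5) (nat_lit 520) (nat_lit 5) (nat_lit 537) (nat_lit 5) (nat_lit 412) (nat_lit 397) (nat_lit 331)))) (XT.nd (nat_lit 156) (nat_lit 0) (nat_lit 0) (XT.nd (nat_lit 78) (nat_lit 1292) (nat_lit 0) (XT.lf (nat_lit 0) (nat_lit 6133171404) (nat_lit 1216) (nat_lit 543550189) (nat_lit 1292) (nat_lit 1025092940) (nat_lit 521) (nat_lit 5) (nat_lit 537) (nat_lit 5) (nat_lit 538) (nat_lit 5) (nat_lit 413) (nat_lit 397) (nat_lit 330)) (XT.lf (nat_lit 0) (nat_lit 84122523) (nat_lit 1292) (nat_lit 4294263172) (nat_lit 1368) (nat_lit 3378627662) (nat_lit 504) (nat_lit 5) (nat_lit 521) (nat_lit 5) (nat_lit 522) (nat_lit 5) (nat_lit 414) (nat_lit 397) (nat_lit 329))) (XT.nd (nat_lit 78) (nat_lit 0) (nat_lit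 76) (XT.lf (nat_lit 0) (nat_lit 1717605183) (nat_lit 1292) (nat_lit 291939387) (nat_lit 1368) (nat_lit 5804218883) (nat_lit 504) (nat_lit 5) (nat_lit 521) (nat_lit 5) (nat_lit 522) (nat_lit 5) (nat_lit 415) (nat_lit 397) (nat_lit 328)) (XT.lf (nat_lit 0) (nat_lit 3377065088) (nat_lit 1292) (nat_lit 4058597755) (nat_lit 1368) (nat_lit 436146991) (nat_lit 505) (nat_lit 5) (nat_lit 522) (nat_lit 5) (nat_lit 523) (nat_lit 5) (nat_lit 416) (nat_lit 397) (nat_lit 327)))))) (XT.nd (nat_lit 546) (nat_lit 4940) (nat_lit 0) (XT.nd (nat_lit 234) (nat_lit 2812) (nat_lit 0) (XT.nd (nat_lit 78) (nat_lit 1292) (nat_lit 0) (XT.lf (nat_lit 76) (nat_lit 35645037) (nat_lit 0) (nat_lit 5015821074) (nat_lit 1368) (nat_lit 2879942892) (nat_lit 506) (nat_lit 5) (nat_lit 505) (nat_lit 5) (nat_lit 523) (nat_lit 5) (nat_lit 417) (nat_lit 397) (nat_lit 326)) (XT.nd (nat_lit 78) (nat_lit 1292) (nat_lit 0) (XT.lf (nat_lit 76) (nat_lit 4242005005)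 (nat_lit 0) (nat_lit 2511326730) (nat_lit 1368) (nat_lit 1239015258) (nat_lit 506) (nat_lit 5) (nat_lit 505) (nat_lit 5) (nat_lit 523) (nat_lit 5) (nat_lit 418) (nat_lit 397) (nat_lit 325)) (XT.lf (nat_lit 0) (nat_lit 399516181) (nat_lit 1368) (nat_lit 7599049472) (nat_lit 76) (nat_lit 56497249) (nat_lit 488) (nat_lit 5) (nat_lit 506) (nat_lit 5) (nat_lit 489) (nat_lit 5) (nat_lit 419) (nat_lit 397) (nat_lit 324)))) (XT.nd (nat_lit 156) (nat_lit 1444) (nat_lit 0) (XT.nd (nat_lit 78) (nat_lit 1368) (nat_lit 0) (XT.lf (nat_lit 0) (nat_lit 2063894835) (nat_lit 1368) (nat_lit 3371518979) (nat_lit 76) (nat_lit 2683287028) (nat_lit 488) (nat_lit 5) (nat_lit 506) (nat_lit 5) (nat_lit 489) (nat_lit 5) (nat_lit 420) (nat_lit 397) (nat_lit 323)) (XT.lf (nat_lit 0) (nat_lit 927909622) (nat_lit 1368) (nat_lit 2807996389) (nat_lit 1444) (nat_lit 4448242994) (nat_lit 470) (nat_lit 5) (nat_lit 488) (nat_lit 5) (nat_lit 489) (nat_lit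 5) (nat_lit 421) (nat_lit 397) (nat_lit 322))) (XT.nd (nat_lit 78) (nat_lit 1444) (nat_lit 0) (XT.lf (nat_lit 0) (nat_lit 5334369725) (nat_lit 1368) (nat_lit 98393765) (nat_lit 1444) (nat_lit 2818338403) (nat_lit 470) (nat_lit 5) (nat_lit 488) (nat_lit 5) (nat_lit 489) (nat_lit 5) (nat_lit 422) (nat_lit 397) (nat_lit 321)) (XT.lf (nat_lit 0) (nat_lit 1486908014) (nat_lit 1444) (nat_lit 5673044944) (nat_lit 1520) (nat_lit 1159536400) (nat_lit 451) (nat_lit 5) (nat_lit 470) (nat_lit 5) (nat_lit 471) (nat_lit 5) (nat_lit 423) (nat_lit 397) (nat_lit 320))))) (XT.nd (nat_lit 234) (nat_lit 3344) (nat_lit 0) (XT.nd (nat_lit 78) (nat_lit 1520) (nat_lit 0) (XT.lf (nat_lit 0) (nat_lit 515464759) (nat_lit 1520) (nat_lit 2400048245) (nat_lit 76) (nat_lit 5473884812) (nat_lit 450) (nat_lit 5) (nat_lit 470) (nat_lit 5) (nat_lit 451) (nat_lit 5) (nat_lit 424) (nat_lit 397) (nat_lit 319)) (XT.nd (nat_lit 78) (nat_lit 0) (nat_lit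 0) (XT.lf (nat_lit 0) (nat_lit 2116593420) (nat_lit 1520) (nat_lit 75850370) (nat_lit 1596) (nat_lit 6268449350) (nat_lit 430) (nat_lit 5) (nat_lit 450) (nat_lit 5) (nat_lit 451) (nat_lit 5) (nat_lit 425) (nat_lit 397) (nat_lit 318)) (XT.lf (nat_lit 0) (nat_lit 3908191265) (nat_lit 1596) (nat_lit 1820915315) (nat_lit 76) (nat_lit 2804628844) (nat_lit 430) (nat_lit 5) (nat_lit 451) (nat_lit 5) (nat_lit 431) (nat_lit 5) (nat_lit 426) (nat_lit 397) (nat_lit 317)))) (XT.nd (nat_lit 156) (nat_lit 1748) (nat_lit 0) (XT.nd (nat_lit 78) (nat_lit 0) (nat_lit 0) (XT.lf (nat_lit 0) (nat_lit 2804609215) (nat_lit 1596) (nat_lit 2843633998) (nat_lit 1672) (nat_lit 2960012760) (nat_lit 409) (nat_lit 5) (nat_lit 430) (nat_lit 5) (nat_lit 431) (nat_lit 5) (nat_lit 427) (nat_lit 397) (nat_lit 316)) (XT.lf (nat_lit 0) (nat_lit 7407750169) (nat_lit 1672) (nat_lit 1162481164) (nat_lit 76) (nat_lit 114363314) (nat_lit 409) (nat_lit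 5) (nat_lit 431) (nat_lit 5) (nat_lit 410) (nat_lit 5) (nat_lit 428) (nat_lit 397) (nat_lit 315))) (XT.nd (nat_lit 78) (nat_lit 0) (nat_lit 0) (XT.lf (nat_lit 0) (nat_lit 448596701) (nat_lit 1748) (nat_lit 5190150471) (nat_lit 76) (nat_lit 3123388172) (nat_lit 386) (nat_lit 5) (nat_lit 409) (nat_lit 5) (nat_lit 387) (nat_lit 5) (nat_lit 429) (nat_lit 397) (nat_lit 314)) (XT.lf (nat_lit 0) (nat_lit 2171764987) (nat_lit 1748) (nat_lit 457471829) (nat_lit 76) (nat_lit 6212234531) (nat_lit 386) (nat_lit 5) (nat_lit 409) (nat_lit 5) (nat_lit 387) (nat_lit 5) (nat_lit 430) (nat_lit 397) (nat_lit 313))))))) (XT.nd (nat_lit 1092) (nat_lit 5396) (nat_lit 0) (XT.nd (nat_lit 546) (nat_lit 3116) (nat_lit 0) (XT.nd (nat_lit 234) (nat_lit 1824) (nat_lit 0) (XT.nd (nat_lit 78) (nat_lit 836) (nat_lit 0) (XT.lf (nat_lit 0) (nat_lit 3934039500) (nat_lit 1520) (nat_lit 4522143195) (nat_lit 76) (nat_lit 466137726) (nat_lit 367) (nat_lit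 5) (nat_lit 387) (nat_lit 5) (nat_lit 368) (nat_lit 5) (nat_lit 431) (nat_lit 397) (nat_lit 312)) (XT.nd (nat_lit 78) (nat_lit 0) (nat_lit 0) (XT.lf (nat_lit 0) (nat_lit 318486649) (nat_lit 836) (nat_lit 5409019135) (nat_lit 912) (nat_lit 3277380601) (nat_lit 356) (nat_lit 5) (nat_lit 367) (nat_lit 5) (nat_lit 368) (nat_lit 5) (nat_lit 432) (nat_lit 397) (nat_lit 311)) (XT.lf (nat_lit 0) (nat_lit 5292677319) (nat_lit 836) (nat_lit 2268248758) (nat_lit 912) (nat_lit 1528114360) (nat_lit 356) (nat_lit 5) (nat_lit 367) (nat_lit 5) (nat_lit 368) (nat_lit 5) (nat_lit 433) (nat_lit 397) (nat_lit 310)))) (XT.nd (nat_lit 156) (nat_lit 836) (nat_lit 0) (XT.nd (nat_lit 78) (nat_lit 0) (nat_lit 0) (XT.lf (nat_lit 0) (nat_lit 240654545) (nat_lit 988) (nat_lit 8000504923) (nat_lit 76) (nat_lit 933945057) (nat_lit 343) (nat_lit 5) (nat_lit 356) (nat_lit 5) (nat_lit 344) (nat_lit 5) (nat_lit 434) (nat_lit 397) (nat_lit 309))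 (XT.lf (nat_lit 0) (nat_lit 2039447071) (nat_lit 988) (nat_lit 3016056791) (nat_lit 76) (nat_lit 4206899221) (nat_lit 343) (nat_lit 5) (nat_lit 356) (nat_lit 5) (nat_lit 344) (nat_lit 5) (nat_lit 435) (nat_lit 397) (nat_lit 308))) (XT.nd (nat_lit 78) (nat_lit 0) (nat_lit 0) (XT.lf (nat_lit 0) (nat_lit 2070918718) (nat_lit 836) (nat_lit 1791668728) (nat_lit 912) (nat_lit 5489109783) (nat_lit 332) (nat_lit 5) (nat_lit 343) (nat_lit 5) (nat_lit 344) (nat_lit 5) (nat_lit 436) (nat_lit 397) (nat_lit 307)) (XT.lf (nat_lit 0) (nat_lit 5727810826) (nat_lit 912) (nat_lit 2176648719) (nat_lit 76) (nat_lit 1538222032) (nat_lit 332) (nat_lit 5) (nat_lit 344) (nat_lit 5) (nat_lit 333) (nat_lit 5) (nat_lit 437) (nat_lit 397) (nat_lit 306))))) (XT.nd (nat_lit 234) (nat_lit 1444) (nat_lit 0) (XT.nd (nat_lit 78) (nat_lit 836) (nat_lit 0) (XT.lf (nat_lit 0) (nat_lit 3033286993) (nat_lit 836) (nat_lit 4604360885) (nat_lit 912) (nat_lit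 1897707945) (nat_lit 321) (nat_lit 5) (nat_lit 332) (nat_lit 5) (nat_lit 333) (nat_lit 5) (nat_lit 438) (nat_lit 397) (nat_lit 305)) (XT.nd (nat_lit 78) (nat_lit 836) (nat_lit 0) (XT.lf (nat_lit 0) (nat_lit 8352892210) (nat_lit 836) (nat_lit 1223465108) (nat_lit 912) (nat_lit 53728798) (nat_lit 321) (nat_lit 5) (nat_lit 332) (nat_lit 5) (nat_lit 333) (nat_lit 5) (nat_lit 439) (nat_lit 397) (nat_lit 304)) (XT.lf (nat_lit 0) (nat_lit 1820656480) (nat_lit 836) (nat_lit 5671332522) (nat_lit 76) (nat_lit 2234150409) (nat_lit 310) (nat_lit 5) (nat_lit 321) (nat_lit 5) (nat_lit 311) (nat_lit 5) (nat_lit 440) (nat_lit 397) (nat_lit 303)))) (XT.nd (nat_lit 156) (nat_lit 684) (nat_lit 0) (XT.nd (nat_lit 78) (nat_lit 760) (nat_lit 0) (XT.lf (nat_lit 0) (nat_lit 3725214623) (nat_lit 836) (nat_lit 345911212) (nat_lit 76) (nat_lit 5753127889) (nat_lit 310) (nat_lit 5) (nat_lit 321) (nat_lit 5) (nat_lit 311) (nat_lit 5) (nat_lit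 441) (nat_lit 397) (nat_lit 302)) (XT.lf (nat_lit 0) (nat_lit 5129554079) (nat_lit 760) (nat_lit 548745781) (nat_lit 836) (nat_lit 4245836594) (nat_lit 300) (nat_lit 5) (nat_lit 310) (nat_lit 5) (nat_lit 311) (nat_lit 5) (nat_lit 442) (nat_lit 397) (nat_lit 301))) (XT.nd (nat_lit 78) (nat_lit 0) (nat_lit 0) (XT.lf (nat_lit 0) (nat_lit 658055368) (nat_lit 684) (nat_lit 7016184975) (nat_lit 760) (nat_lit 2351715183) (nat_lit 291) (nat_lit 5) (nat_lit 300) (nat_lit 5) (nat_lit 301) (nat_lit 5) (nat_lit 443) (nat_lit 397) (nat_lit 300)) (XT.lf (nat_lit 0) (nat_lit 6257170744) (nat_lit 684) (nat_lit 3466421091) (nat_lit 760) (nat_lit 405963575) (nat_lit 291) (nat_lit 5) (nat_lit 300) (nat_lit 5) (nat_lit 301) (nat_lit 5) (nat_lit 444) (nat_lit 397) (nat_lit 299)))))) (XT.nd (nat_lit 546) (nat_lit 2508) (nat_lit 0) (XT.nd (nat_lit 234) (nat_lit 1368) (nat_lit 0) (XT.nd (nat_lit 78) (nat_lit 684) (nat_lit 0) (XT.lf (nat_lit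 0) (nat_lit 1548295464) (nat_lit 836) (nat_lit 8514737242) (nat_lit 76) (nat_lit 172197355) (nat_lit 280) (nat_lit 5) (nat_lit 291) (nat_lit 5) (nat_lit 281) (nat_lit 5) (nat_lit 445) (nat_lit 397) (nat_lit 298)) (XT.nd (nat_lit 78) (nat_lit 684) (nat_lit 0) (XT.lf (nat_lit 0) (nat_lit 3563576328) (nat_lit 836) (nat_lit 2914599173) (nat_lit 76) (nat_lit 3864255037) (nat_lit 280) (nat_lit 5) (nat_lit 291) (nat_lit 5) (nat_lit 281) (nat_lit 5) (nat_lit 446) (nat_lit 397) (nat_lit 297)) (XT.lf (nat_lit 0) (nat_lit 2810874716) (nat_lit 684) (nat_lit 2805217716) (nat_lit 760) (nat_lit 4835757186) (nat_lit 271) (nat_lit 5) (nat_lit 280) (nat_lit 5) (nat_lit 281) (nat_lit 5) (nat_lit 447) (nat_lit 397) (nat_lit 296)))) (XT.nd (nat_lit 156) (nat_lit 684) (nat_lit 0) (XT.nd (nat_lit 78) (nat_lit 684) (nat_lit 0) (XT.lf (nat_lit 0) (nat_lit 7714388516) (nat_lit 760) (nat_lit 1902736262) (nat_lit 76) (nat_lit 946250636) (nat_lit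 271) (nat_lit 5) (nat_lit 281) (nat_lit 5) (nat_lit 272) (nat_lit 5) (nat_lit 448) (nat_lit 397) (nat_lit 295)) (XT.lf (nat_lit 0) (nat_lit 3960300009) (nat_lit 684) (nat_lit 5917984874) (nat_lit 760) (nat_lit 798386829) (nat_lit 262) (nat_lit 5) (nat_lit 271) (nat_lit 5) (nat_lit 272) (nat_lit 5) (nat_lit 449) (nat_lit 397) (nat_lit 294))) (XT.nd (nat_lit 78) (nat_lit 608) (nat_lit 0) (XT.lf (nat_lit 0) (nat_lit 1268568323) (nat_lit 760) (nat_lit 857531877) (nat_lit 76) (nat_lit 8666131909) (nat_lit 261) (nat_lit 5) (nat_lit 271) (nat_lit 5) (nat_lit 262) (nat_lit 5) (nat_lit 450) (nat_lit 397) (nat_lit 293)) (XT.lf (nat_lit 0) (nat_lit 3391070287) (nat_lit 684) (nat_lit 5763446990) (nat_lit 76) (nat_lit 1754994871) (nat_lit 253) (nat_lit 5) (nat_lit 262) (nat_lit 5) (nat_lit 254) (nat_lit 5) (nat_lit 451) (nat_lit 397) (nat_lit 292))))) (XT.nd (nat_lit 312) (nat_lit 1140) (nat_lit 0) (XT.nd (nat_lit 156) (nat_lit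 684) (nat_lit 0) (XT.nd (nat_lit 78) (nat_lit 0) (nat_lit 0) (XT.lf (nat_lit 0) (nat_lit 217833634) (nat_lit 684) (nat_lit 5339557179) (nat_lit 760) (nat_lit 5471731315) (nat_lit 244) (nat_lit 5) (nat_lit 253) (nat_lit 5) (nat_lit 254) (nat_lit 5) (nat_lit 452) (nat_lit 397) (nat_lit 291)) (XT.lf (nat_lit 0) (nat_lit 6373777254) (nat_lit 684) (nat_lit 1412258388) (nat_lit 760) (nat_lit 3364720186) (nat_lit 244) (nat_lit 5) (nat_lit 253) (nat_lit 5) (nat_lit 254) (nat_lit 5) (nat_lit 453) (nat_lit 397) (nat_lit 290))) (XT.nd (nat_lit 78) (nat_lit 76) (nat_lit 0) (XT.lf (nat_lit 0) (nat_lit 1355951457) (nat_lit 608) (nat_lit 8709631192) (nat_lit 684) (nat_lit 1209124220) (nat_lit 236) (nat_lit 5) (nat_lit 244) (nat_lit 5) (nat_lit 245) (nat_lit 5) (nat_lit 454) (nat_lit 397) (nat_lit 289)) (XT.lf (nat_lit 0) (nat_lit 999005413) (nat_lit 684) (nat_lit 3763317766) (nat_lit 76) (nat_lit 6638248064) (nat_lit 235) (nat_lit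 5) (nat_lit 244) (nat_lit 5) (nat_lit 236) (nat_lit 5) (nat_lit 455) (nat_lit 397) (nat_lit 288)))) (XT.nd (nat_lit 156) (nat_lit 532) (nat_lit 0) (XT.nd (nat_lit 78) (nat_lit 0) (nat_lit 0) (XT.lf (nat_lit 0) (nat_lit 2517567761) (nat_lit 608) (nat_lit 715056716) (nat_lit 684) (nat_lit 8296228845) (nat_lit 227) (nat_lit 5) (nat_lit 235) (nat_lit 5) (nat_lit 236) (nat_lit 5) (nat_lit 456) (nat_lit 397) (nat_lit 287)) (XT.lf (nat_lit 0) (nat_lit 5539851555) (nat_lit 684) (nat_lit 2729320013) (nat_lit 76) (nat_lit 3389961159) (nat_lit 227) (nat_lit 5) (nat_lit 236) (nat_lit 5) (nat_lit 228) (nat_lit 5) (nat_lit 457) (nat_lit 397) (nat_lit 286))) (XT.nd (nat_lit 78) (nat_lit 0) (nat_lit 0) (XT.lf (nat_lit 0) (nat_lit 3699639336) (nat_lit 532) (nat_lit 4204059509) (nat_lit 608) (nat_lit 3888119555) (nat_lit 220) (nat_lit 5) (nat_lit 227) (nat_lit 5) (nat_lit 228) (nat_lit 5) (nat_lit 458) (nat_lit 397) (nat_lit 285))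 (XT.lf (nat_lit 0) (nat_lit 10271890631) (nat_lit 532) (nat_lit 43181065) (nat_lit 608) (nat_lit 1612091113) (nat_lit 220) (nat_lit 5) (nat_lit 227) (nat_lit 5) (nat_lit 228) (nat_lit 5) (nat_lit 459) (nat_lit 397) (nat_lit 284))))))))
noncomputable def xc144 : XT := (XT.nd (nat_lit 2184) (nat_lit 4256) (nat_lit 0) (XT.nd (nat_lit 1092) (nat_lit 3040) (nat_lit 0) (XT.nd (nat_lit 546) (nat_lit 1976) (nat_lit 0) (XT.nd (nat_lit 234) (nat_lit 1064) (nat_lit 0) (XT.nd (nat_lit 78) (nat_lit 532) (nat_lit 0) (XT.lf (nat_lit 0) (nat_lit 741934160) (nat_lit 684) (nat_lit 7143762186) (nat_lit 76) (nat_lit 4178599619) (nat_lit 211) (nat_lit 5) (nat_lit 220) (nat_lit 5) (nat_lit 212) (nat_lit 5) (nat_lit 460) (nat_lit 397) (nat_lit 283)) (XT.nd (nat_lit 78) (nat_lit 532) (nat_lit 0) (XT.lf (nat_lit 0) (nat_lit 3115281474) (nat_lit 684) (nat_lit 586974067) (nat_lit 76) (nat_lit 8501835995) (nat_lit 211) (nat_lit 5) (nat_lit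 220) (nat_lit 5) (nat_lit 212) (nat_lit 5) (nat_lit 461) (nat_lit 397) (nat_lit 282)) (XT.lf (nat_lit 0) (nat_lit 5562678943) (nat_lit 608) (nat_lit 6190248983) (nat_lit 76) (nat_lit 593232659) (nat_lit 204) (nat_lit 5) (nat_lit 212) (nat_lit 5) (nat_lit 205) (nat_lit 5) (nat_lit 462) (nat_lit 397) (nat_lit 281)))) (XT.nd (nat_lit 156) (nat_lit 532) (nat_lit 0) (XT.nd (nat_lit 78) (nat_lit 0) (nat_lit 0) (XT.lf (nat_lit 0) (nat_lit 510750321) (nat_lit 532) (nat_lit 7562928468) (nat_lit 608) (nat_lit 4417108190) (nat_lit 197) (nat_lit 5) (nat_lit 204) (nat_lit 5) (nat_lit 205) (nat_lit 5) (nat_lit 463) (nat_lit 397) (nat_lit 280)) (XT.lf (nat_lit 0) (nat_lit 7407801694) (nat_lit 532) (nat_lit 3251685954) (nat_lit 608) (nat_lit 1978335346) (nat_lit 197) (nat_lit 5) (nat_lit 204) (nat_lit 5) (nat_lit 205) (nat_lit 5) (nat_lit 464) (nat_lit 397) (nat_lit 279))) (XT.nd (nat_lit 78) (nat_lit 0) (nat_lit 0) (XT.lf (nat_lit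 0) (nat_lit 504021175) (nat_lit 532) (nat_lit 11143692573) (nat_lit 76) (nat_lit 1139998655) (nat_lit 190) (nat_lit 5) (nat_lit 197) (nat_lit 5) (nat_lit 191) (nat_lit 5) (nat_lit 465) (nat_lit 397) (nat_lit 278)) (XT.lf (nat_lit 0) (nat_lit 3049841505) (nat_lit 532) (nat_lit 4270174557) (nat_lit 76) (nat_lit 5619524231) (nat_lit 190) (nat_lit 5) (nat_lit 197) (nat_lit 5) (nat_lit 191) (nat_lit 5) (nat_lit 466) (nat_lit 397) (nat_lit 277))))) (XT.nd (nat_lit 234) (nat_lit 988) (nat_lit 0) (XT.nd (nat_lit 78) (nat_lit 456) (nat_lit 0) (XT.lf (nat_lit 0) (nat_lit 2755536853) (nat_lit 532) (nat_lit 2892676145) (nat_lit 608) (nat_lit 7446167247) (nat_lit 183) (nat_lit 5) (nat_lit 190) (nat_lit 5) (nat_lit 191) (nat_lit 5) (nat_lit 467) (nat_lit 397) (nat_lit 276)) (XT.nd (nat_lit 78) (nat_lit 456) (nat_lit 0) (XT.lf (nat_lit 0) (nat_lit 8321826602) (nat_lit 608) (nat_lit 3304398003) (nat_lit 76) (nat_lit 1625634935)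 (nat_lit 183) (nat_lit 5) (nat_lit 191) (nat_lit 5) (nat_lit 184) (nat_lit 5) (nat_lit 468) (nat_lit 397) (nat_lit 275)) (XT.lf (nat_lit 0) (nat_lit 3881335666) (nat_lit 456) (nat_lit 7196140510) (nat_lit 532) (nat_lit 2334448851) (nat_lit 177) (nat_lit 5) (nat_lit 183) (nat_lit 5) (nat_lit 184) (nat_lit 5) (nat_lit 469) (nat_lit 397) (nat_lit 274)))) (XT.nd (nat_lit 156) (nat_lit 456) (nat_lit 0) (XT.nd (nat_lit 78) (nat_lit 456) (nat_lit 0) (XT.lf (nat_lit 0) (nat_lit 315531249) (nat_lit 532) (nat_lit 2342577448) (nat_lit 76) (nat_lit 10916918249) (nat_lit 176) (nat_lit 5) (nat_lit 183) (nat_lit 5) (nat_lit 177) (nat_lit 5) (nat_lit 470) (nat_lit 397) (nat_lit 273)) (XT.lf (nat_lit 0) (nat_lit 3017522475) (nat_lit 532) (nat_lit 8735077083) (nat_lit 76) (nat_lit 1987884762) (nat_lit 170) (nat_lit 5) (nat_lit 177) (nat_lit 5) (nat_lit 171) (nat_lit 5) (nat_lit 471) (nat_lit 397) (nat_lit 272))) (XT.nd (nat_lit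 78) (nat_lit 456) (nat_lit 0) (XT.lf (nat_lit 0) (nat_lit 5791691284) (nat_lit 532) (nat_lit 1415487886) (nat_lit 76) (nat_lit 6701716194) (nat_lit 170) (nat_lit 5) (nat_lit 177) (nat_lit 5) (nat_lit 171) (nat_lit 5) (nat_lit 472) (nat_lit 397) (nat_lit 271)) (XT.lf (nat_lit 0) (nat_lit 6110088950) (nat_lit 456) (nat_lit 2535935423) (nat_lit 532) (nat_lit 5434163776) (nat_lit 164) (nat_lit 5) (nat_lit 170) (nat_lit 5) (nat_lit 171) (nat_lit 5) (nat_lit 473) (nat_lit 397) (nat_lit 270)))))) (XT.nd (nat_lit 546) (nat_lit 1292) (nat_lit 0) (XT.nd (nat_lit 234) (nat_lit 836) (nat_lit 0) (XT.nd (nat_lit 78) (nat_lit 912) (nat_lit 0) (XT.lf (nat_lit 0) (nat_lit 11566611509) (nat_lit 532) (nat_lit 484556801) (nat_lit 76) (nat_lit 2203562129) (nat_lit 164) (nat_lit 5) (nat_lit 171) (nat_lit 5) (nat_lit 165) (nat_lit 5) (nat_lit 474) (nat_lit 397) (nat_lit 269)) (XT.nd (nat_lit 78) (nat_lit 380) (nat_lit 0) (XT.lf (nat_lit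 0) (nat_lit 160706051) (nat_lit 532) (nat_lit 7224674613) (nat_lit 76) (nat_lit 7046388198) (nat_lit 157) (nat_lit 5) (nat_lit 164) (nat_lit 5) (nat_lit 158) (nat_lit 5) (nat_lit 475) (nat_lit 397) (nat_lit 268)) (XT.lf (nat_lit 0) (nat_lit 414139250) (nat_lit 380) (nat_lit 2607849819) (nat_lit 456) (nat_lit 11590180698) (nat_lit 152) (nat_lit 5) (nat_lit 157) (nat_lit 5) (nat_lit 158) (nat_lit 5) (nat_lit 476) (nat_lit 397) (nat_lit 267)))) (XT.nd (nat_lit 156) (nat_lit 380) (nat_lit 0) (XT.nd (nat_lit 78) (nat_lit 456) (nat_lit 0) (XT.lf (nat_lit 0) (nat_lit 5989603050) (nat_lit 456) (nat_lit 6527030142) (nat_lit 76) (nat_lit 2278569858) (nat_lit 152) (nat_lit 5) (nat_lit 158) (nat_lit 5) (nat_lit 153) (nat_lit 5) (nat_lit 477) (nat_lit 397) (nat_lit 266)) (XT.lf (nat_lit 0) (nat_lit 1276812019) (nat_lit 456) (nat_lit 7751195647) (nat_lit 532) (nat_lit 5953666902) (nat_lit 146) (nat_lit 5) (nat_lit 152) (nat_lit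 5) (nat_lit 153) (nat_lit 5) (nat_lit 478) (nat_lit 397) (nat_lit 265))) (XT.nd (nat_lit 78) (nat_lit 380) (nat_lit 0) (XT.lf (nat_lit 0) (nat_lit 9305285252) (nat_lit 456) (nat_lit 2851720409) (nat_lit 532) (nat_lit 3014279563) (nat_lit 146) (nat_lit 5) (nat_lit 152) (nat_lit 5) (nat_lit 153) (nat_lit 5) (nat_lit 479) (nat_lit 397) (nat_lit 264)) (XT.lf (nat_lit 0) (nat_lit 2123789120) (nat_lit 380) (nat_lit 13238776773) (nat_lit 456) (nat_lit 1848645) (nat_lit 141) (nat_lit 5) (nat_lit 146) (nat_lit 5) (nat_lit 147) (nat_lit 5) (nat_lit 480) (nat_lit 397) (nat_lit 263))))) (XT.nd (nat_lit 234) (nat_lit 836) (nat_lit 0) (XT.nd (nat_lit 78) (nat_lit 380) (nat_lit 0) (XT.lf (nat_lit 0) (nat_lit 3075374135) (nat_lit 456) (nat_lit 5266644867) (nat_lit 76) (nat_lit 7218098180) (nat_lit 140) (nat_lit 5) (nat_lit 146) (nat_lit 5) (nat_lit 141) (nat_lit 5) (nat_lit 481) (nat_lit 397) (nat_lit 262)) (XT.nd (nat_lit 78)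 (nat_lit 0) (nat_lit 0) (XT.lf (nat_lit 0) (nat_lit 2885201072) (nat_lit 380) (nat_lit 3334224231) (nat_lit 456) (nat_lit 9540207898) (nat_lit 135) (nat_lit 5) (nat_lit 140) (nat_lit 5) (nat_lit 141) (nat_lit 5) (nat_lit 482) (nat_lit 397) (nat_lit 261)) (XT.lf (nat_lit 0) (nat_lit 9460124416) (nat_lit 456) (nat_lit 4722254492) (nat_lit 76) (nat_lit 1780090919) (nat_lit 135) (nat_lit 5) (nat_lit 141) (nat_lit 5) (nat_lit 136) (nat_lit 5) (nat_lit 483) (nat_lit 397) (nat_lit 260)))) (XT.nd (nat_lit 156) (nat_lit 456) (nat_lit 0) (XT.nd (nat_lit 78) (nat_lit 0) (nat_lit 0) (XT.lf (nat_lit 0) (nat_lit 3598923308) (nat_lit 380) (nat_lit 9199097737) (nat_lit 456) (nat_lit 3370699989) (nat_lit 130) (nat_lit 5) (nat_lit 135) (nat_lit 5) (nat_lit 136) (nat_lit 5) (nat_lit 484) (nat_lit 397) (nat_lit 259)) (XT.lf (nat_lit 0) (nat_lit 12131499180) (nat_lit 380) (nat_lit 4089933779) (nat_lit 456) (nat_lit 157294566) (nat_lit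 130) (nat_lit 5) (nat_lit 135) (nat_lit 5) (nat_lit 136) (nat_lit 5) (nat_lit 485) (nat_lit 397) (nat_lit 258))) (XT.nd (nat_lit 78) (nat_lit 0) (nat_lit 0) (XT.lf (nat_lit 0) (nat_lit 3101895659) (nat_lit 456) (nat_lit 12341249364) (nat_lit 76) (nat_lit 1148940312) (nat_lit 124) (nat_lit 5) (nat_lit 130) (nat_lit 5) (nat_lit 125) (nat_lit 5) (nat_lit 486) (nat_lit 397) (nat_lit 257)) (XT.lf (nat_lit 0) (nat_lit 6467263307) (nat_lit 456) (nat_lit 3879955449) (nat_lit 76) (nat_lit 6461613851) (nat_lit 124) (nat_lit 5) (nat_lit 130) (nat_lit 5) (nat_lit 125) (nat_lit 5) (nat_lit 487) (nat_lit 397) (nat_lit 256))))))) (XT.nd (nat_lit 1092) (nat_lit 1900) (nat_lit 0) (XT.nd (nat_lit 546) (nat_lit 988) (nat_lit 0) (XT.nd (nat_lit 234) (nat_lit 684) (nat_lit 0) (XT.nd (nat_lit 78) (nat_lit 380) (nat_lit 0) (XT.lf (nat_lit 0) (nat_lit 4794888448) (nat_lit 304) (nat_lit 5123752319) (nat_lit 380) (nat_lit 7110905005) (nat_lit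 120) (nat_lit 5) (nat_lit 124) (nat_lit 5) (nat_lit 125) (nat_lit 5) (nat_lit 488) (nat_lit 397) (nat_lit 255)) (XT.nd (nat_lit 78) (nat_lit 380) (nat_lit 0) (XT.lf (nat_lit 0) (nat_lit 13454235463) (nat_lit 380) (nat_lit 3578478329) (nat_lit 76) (nat_lit 221660513) (nat_lit 120) (nat_lit 5) (nat_lit 125) (nat_lit 5) (nat_lit 121) (nat_lit 5) (nat_lit 489) (nat_lit 397) (nat_lit 254)) (XT.lf (nat_lit 0) (nat_lit 5267693786) (nat_lit 380) (nat_lit 11848878842) (nat_lit 456) (nat_lit 366010973) (nat_lit 115) (nat_lit 5) (nat_lit 120) (nat_lit 5) (nat_lit 121) (nat_lit 5) (nat_lit 490) (nat_lit 397) (nat_lit 253)))) (XT.nd (nat_lit 156) (nat_lit 304) (nat_lit 0) (XT.nd (nat_lit 78) (nat_lit 304) (nat_lit 0) (XT.lf (nat_lit 0) (nat_lit 3107764713) (nat_lit 456) (nat_lit 3414435233) (nat_lit 76) (nat_lit 11192512330) (nat_lit 114) (nat_lit 5) (nat_lit 120) (nat_lit 5) (nat_lit 115) (nat_lit 5) (nat_lit 491) (nat_lit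 397) (nat_lit 252)) (XT.lf (nat_lit 0) (nat_lit 5615279568) (nat_lit 304) (nat_lit 1055467224) (nat_lit 380) (nat_lit 11280200238) (nat_lit 110) (nat_lit 5) (nat_lit 114) (nat_lit 5) (nat_lit 115) (nat_lit 5) (nat_lit 492) (nat_lit 397) (nat_lit 251))) (XT.nd (nat_lit 78) (nat_lit 304) (nat_lit 0) (XT.lf (nat_lit 0) (nat_lit 10345648933) (nat_lit 380) (nat_lit 3367129486) (nat_lit 76) (nat_lit 4478319287) (nat_lit 110) (nat_lit 5) (nat_lit 115) (nat_lit 5) (nat_lit 111) (nat_lit 5) (nat_lit 493) (nat_lit 397) (nat_lit 250)) (XT.lf (nat_lit 0) (nat_lit 5832587757) (nat_lit 304) (nat_lit 8294796010) (nat_lit 380) (nat_lit 4308005287) (nat_lit 106) (nat_lit 5) (nat_lit 110) (nat_lit 5) (nat_lit 111) (nat_lit 5) (nat_lit 494) (nat_lit 397) (nat_lit 249))))) (XT.nd (nat_lit 234) (nat_lit 608) (nat_lit 0) (XT.nd (nat_lit 78) (nat_lit 380) (nat_lit 0) (XT.lf (nat_lit 0) (nat_lit 15244361021) (nat_lit 304) (nat_lit 2751575081)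 (nat_lit 380) (nat_lit 688410735) (nat_lit 106) (nat_lit 5) (nat_lit 110) (nat_lit 5) (nat_lit 111) (nat_lit 5) (nat_lit 495) (nat_lit 397) (nat_lit 248)) (XT.nd (nat_lit 78) (nat_lit 0) (nat_lit 0) (XT.lf (nat_lit 0) (nat_lit 3010719669) (nat_lit 380) (nat_lit 13009347541) (nat_lit 76) (nat_lit 2916899913) (nat_lit 101) (nat_lit 5) (nat_lit 106) (nat_lit 5) (nat_lit 102) (nat_lit 5) (nat_lit 496) (nat_lit 397) (nat_lit 247)) (XT.lf (nat_lit 0) (nat_lit 6804885002) (nat_lit 380) (nat_lit 3705368186) (nat_lit 76) (nat_lit 8683694235) (nat_lit 101) (nat_lit 5) (nat_lit 106) (nat_lit 5) (nat_lit 102) (nat_lit 5) (nat_lit 497) (nat_lit 397) (nat_lit 246)))) (XT.nd (nat_lit 156) (nat_lit 304) (nat_lit 0) (XT.nd (nat_lit 78) (nat_lit 0) (nat_lit 0) (XT.lf (nat_lit 0) (nat_lit 5844218318) (nat_lit 304) (nat_lit 4857681611) (nat_lit 380) (nat_lit 8753632014) (nat_lit 97) (nat_lit 5) (nat_lit 101) (nat_lit 5) (nat_lit 102)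 (nat_lit 5) (nat_lit 498) (nat_lit 397) (nat_lit 245)) (XT.lf (nat_lit 0) (nat_lit 14696866504) (nat_lit 380) (nat_lit 4110075969) (nat_lit 76) (nat_lit 915009317) (nat_lit 97) (nat_lit 5) (nat_lit 102) (nat_lit 5) (nat_lit 98) (nat_lit 5) (nat_lit 499) (nat_lit 397) (nat_lit 244))) (XT.nd (nat_lit 78) (nat_lit 76) (nat_lit 0) (XT.lf (nat_lit 0) (nat_lit 5605683678) (nat_lit 228) (nat_lit 13223915363) (nat_lit 304) (nat_lit 1162947447) (nat_lit 94) (nat_lit 5) (nat_lit 97) (nat_lit 5) (nat_lit 98) (nat_lit 5) (nat_lit 500) (nat_lit 397) (nat_lit 243)) (XT.lf (nat_lit 0) (nat_lit 2757111134) (nat_lit 304) (nat_lit 4731625715) (nat_lit 76) (nat_lit 12779117513) (nat_lit 93) (nat_lit 5) (nat_lit 97) (nat_lit 5) (nat_lit 94) (nat_lit 5) (nat_lit 501) (nat_lit 397) (nat_lit 242)))))) (XT.nd (nat_lit 546) (nat_lit 760) (nat_lit 0) (XT.nd (nat_lit 234) (nat_lit 608) (nat_lit 0) (XT.nd (nat_lit 78) (nat_lit 228) (nat_lit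 0) (XT.lf (nat_lit 0) (nat_lit 5160134862) (nat_lit 304) (nat_lit 1602918969) (nat_lit 380) (nat_lit 13785003295) (nat_lit 89) (nat_lit 5) (nat_lit 93) (nat_lit 5) (nat_lit 94) (nat_lit 5) (nat_lit 502) (nat_lit 397) (nat_lit 241)) (XT.nd (nat_lit 78) (nat_lit 228) (nat_lit 0) (XT.lf (nat_lit 0) (nat_lit 10899245183) (nat_lit 380) (nat_lit 5564759910) (nat_lit 76) (nat_lit 4368859754) (nat_lit 89) (nat_lit 5) (nat_lit 94) (nat_lit 5) (nat_lit 90) (nat_lit 5) (nat_lit 503) (nat_lit 397) (nat_lit 240)) (XT.lf (nat_lit 0) (nat_lit 4486803317) (nat_lit 228) (nat_lit 10660903816) (nat_lit 304) (nat_lit 5975074084) (nat_lit 86) (nat_lit 5) (nat_lit 89) (nat_lit 5) (nat_lit 90) (nat_lit 5) (nat_lit 504) (nat_lit 397) (nat_lit 239)))) (XT.nd (nat_lit 156) (nat_lit 228) (nat_lit 0) (XT.nd (nat_lit 78) (nat_lit 380) (nat_lit 0) (XT.lf (nat_lit 0) (nat_lit 14798644532) (nat_lit 228) (nat_lit 4709731282) (nat_lit 304) (nat_lit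 1909578714) (nat_lit 86) (nat_lit 5) (nat_lit 89) (nat_lit 5) (nat_lit 90) (nat_lit 5) (nat_lit 505) (nat_lit 397) (nat_lit 238)) (XT.lf (nat_lit 0) (nat_lit 2230422923) (nat_lit 380) (nat_lit 18112951790) (nat_lit 76) (nat_lit 1374918553) (nat_lit 81) (nat_lit 5) (nat_lit 86) (nat_lit 5) (nat_lit 82) (nat_lit 5) (nat_lit 506) (nat_lit 397) (nat_lit 237))) (XT.nd (nat_lit 78) (nat_lit 228) (nat_lit 0) (XT.lf (nat_lit 0) (nat_lit 6493660355) (nat_lit 380) (nat_lit 7959728595) (nat_lit 76) (nat_lit 7569680450) (nat_lit 81) (nat_lit 5) (nat_lit 86) (nat_lit 5) (nat_lit 82) (nat_lit 5) (nat_lit 507) (nat_lit 397) (nat_lit 236)) (XT.lf (nat_lit 0) (nat_lit 2412453721) (nat_lit 228) (nat_lit 8435644247) (nat_lit 304) (nat_lit 11485727487) (nat_lit 78) (nat_lit 5) (nat_lit 81) (nat_lit 5) (nat_lit 82) (nat_lit 5) (nat_lit 508) (nat_lit 397) (nat_lit 235))))) (XT.nd (nat_lit 312) (nat_lit 456) (nat_lit 0) (XT.nd (nat_lit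 156) (nat_lit 76) (nat_lit 0) (XT.nd (nat_lit 78) (nat_lit 228) (nat_lit 0) (XT.lf (nat_lit 0) (nat_lit 13084334380) (nat_lit 228) (nat_lit 2249065292) (nat_lit 304) (nat_lit 7316524500) (nat_lit 78) (nat_lit 5) (nat_lit 81) (nat_lit 5) (nat_lit 82) (nat_lit 5) (nat_lit 509) (nat_lit 397) (nat_lit 234)) (XT.lf (nat_lit 0) (nat_lit 968148339) (nat_lit 228) (nat_lit 18963425382) (nat_lit 304) (nat_lit 3040310802) (nat_lit 75) (nat_lit 5) (nat_lit 78) (nat_lit 5) (nat_lit 79) (nat_lit 5) (nat_lit 510) (nat_lit 397) (nat_lit 233))) (XT.nd (nat_lit 78) (nat_lit 0) (nat_lit 0) (XT.lf (nat_lit 0) (nat_lit 1374139264) (nat_lit 304) (nat_lit 11496189484) (nat_lit 76) (nat_lit 10428385753) (nat_lit 74) (nat_lit 5) (nat_lit 78) (nat_lit 5) (nat_lit 75) (nat_lit 5) (nat_lit 511) (nat_lit 397) (nat_lit 232)) (XT.lf (nat_lit 0) (nat_lit 5826925384) (nat_lit 304) (nat_lit 813837509) (nat_lit 76) (nat_lit 16991103934) (nat_lit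 74) (nat_lit 5) (nat_lit 78) (nat_lit 5) (nat_lit 75) (nat_lit 5) (nat_lit 512) (nat_lit 397) (nat_lit 231)))) (XT.nd (nat_lit 156) (nat_lit 228) (nat_lit 0) (XT.nd (nat_lit 78) (nat_lit 0) (nat_lit 0) (XT.lf (nat_lit 0) (nat_lit 10201037048) (nat_lit 228) (nat_lit 224862822) (nat_lit 304) (nat_lit 13544642436) (nat_lit 71) (nat_lit 5) (nat_lit 74) (nat_lit 5) (nat_lit 75) (nat_lit 5) (nat_lit 513) (nat_lit 397) (nat_lit 230)) (XT.lf (nat_lit 0) (nat_lit 15154326069) (nat_lit 304) (nat_lit 2924666988) (nat_lit 76) (nat_lit 6236251498) (nat_lit 71) (nat_lit 5) (nat_lit 75) (nat_lit 5) (nat_lit 72) (nat_lit 5) (nat_lit 514) (nat_lit 397) (nat_lit 229))) (XT.nd (nat_lit 78) (nat_lit 0) (nat_lit 0) (XT.lf (nat_lit 0) (nat_lit 8228834690) (nat_lit 228) (nat_lit 11794525186) (nat_lit 304) (nat_lit 4642562842) (nat_lit 68) (nat_lit 5) (nat_lit 71) (nat_lit 5) (nat_lit 72) (nat_lit 5) (nat_lit 515) (nat_lit 397) (nat_lit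 228)) (XT.lf (nat_lit 0) (nat_lit 19630480679) (nat_lit 228) (nat_lit 5370122070) (nat_lit 304) (nat_lit 22797727) (nat_lit 68) (nat_lit 5) (nat_lit 71) (nat_lit 5) (nat_lit 72) (nat_lit 5) (nat_lit 516) (nat_lit 397) (nat_lit 227))))))))
noncomputable def xc145 : XT := (XT.nd (nat_lit 51480) (nat_lit 0) (nat_lit 18088) (XT.nd (nat_lit 50388) (nat_lit 0) (nat_lit 34276) (XT.nd (nat_lit 546) (nat_lit 380) (nat_lit 0) (XT.nd (nat_lit 234) (nat_lit 228) (nat_lit 0) (XT.nd (nat_lit 78) (nat_lit 228) (nat_lit 0) (XT.lf (nat_lit 0) (nat_lit 4665611163) (nat_lit 304) (nat_lit 19490201740) (nat_lit 76) (nat_lit 1230853451) (nat_lit 64) (nat_lit 5) (nat_lit 68) (nat_lit 5) (nat_lit 65) (nat_lit 5) (nat_lit 517) (nat_lit 397) (nat_lit 226)) (XT.nd (nat_lit 78) (nat_lit 228) (nat_lit 0) (XT.lf (nat_lit 0) (nat_lit 9510831558) (nat_lit 304) (nat_lit 8322134374) (nat_lit 76) (nat_lit 7922964080) (nat_lit 64) (nat_lit 5) (nat_lit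 68) (nat_lit 5) (nat_lit 65) (nat_lit 5) (nat_lit 518) (nat_lit 397) (nat_lit 225)) (XT.lf (nat_lit 0) (nat_lit 3095733272) (nat_lit 228) (nat_lit 11368847727) (nat_lit 304) (nat_lit 11667767853) (nat_lit 61) (nat_lit 5) (nat_lit 64) (nat_lit 5) (nat_lit 65) (nat_lit 5) (nat_lit 519) (nat_lit 397) (nat_lit 224)))) (XT.nd (nat_lit 156) (nat_lit 228) (nat_lit 0) (XT.nd (nat_lit 78) (nat_lit 0) (nat_lit 0) (XT.lf (nat_lit 0) (nat_lit 14840698000) (nat_lit 228) (nat_lit 4724153246) (nat_lit 304) (nat_lit 6950498263) (nat_lit 61) (nat_lit 5) (nat_lit 64) (nat_lit 5) (nat_lit 65) (nat_lit 5) (nat_lit 520) (nat_lit 397) (nat_lit 223)) (XT.lf (nat_lit 0) (nat_lit 24772187697) (nat_lit 304) (nat_lit 112704480) (nat_lit 76) (nat_lit 2021019092) (nat_lit 61) (nat_lit 5) (nat_lit 65) (nat_lit 5) (nat_lit 62) (nat_lit 5) (nat_lit 521) (nat_lit 397) (nat_lit 222))) (XT.nd (nat_lit 78) (nat_lit 0) (nat_lit 0) (XT.lf (nat_lit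 0) (nat_lit 2843318800) (nat_lit 228) (nat_lit 15530823123) (nat_lit 76) (nat_lit 8927775961) (nat_lit 58) (nat_lit 5) (nat_lit 61) (nat_lit 5) (nat_lit 59) (nat_lit 5) (nat_lit 522) (nat_lit 397) (nat_lit 221)) (XT.lf (nat_lit 0) (nat_lit 7884025741) (nat_lit 228) (nat_lit 3839538374) (nat_lit 76) (nat_lit 15982146729) (nat_lit 58) (nat_lit 5) (nat_lit 61) (nat_lit 5) (nat_lit 59) (nat_lit 5) (nat_lit 523) (nat_lit 397) (nat_lit 220))))) (XT.nd (nat_lit 49530) (nat_lit 0) (nat_lit 37620) (XT.nd (nat_lit 78) (nat_lit 152) (nat_lit 0) (XT.lf (nat_lit 0) (nat_lit 8179444038) (nat_lit 228) (nat_lit 4891274115) (nat_lit 304) (nat_lit 15045960215) (nat_lit 55) (nat_lit 5) (nat_lit 58) (nat_lit 5) (nat_lit 59) (nat_lit 5) (nat_lit 524) (nat_lit 397) (nat_lit 219)) (XT.nd (nat_lit 78) (nat_lit 152) (nat_lit 0) (XT.lf (nat_lit 0) (nat_lit 18392668647) (nat_lit 304) (nat_lit 8071596839) (nat_lit 76) (nat_lit 2070971364)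 (nat_lit 55) (nat_lit 5) (nat_lit 59) (nat_lit 5) (nat_lit 56) (nat_lit 5) (nat_lit 525) (nat_lit 397) (nat_lit 218)) (XT.lf (nat_lit 0) (nat_lit 4038754591) (nat_lit 152) (nat_lit 19833172023) (nat_lit 228) (nat_lit 5089224566) (nat_lit 53) (nat_lit 5) (nat_lit 55) (nat_lit 5) (nat_lit 56) (nat_lit 5) (nat_lit 526) (nat_lit 397) (nat_lit 217)))) (XT.nd (nat_lit 156) (nat_lit 1064) (nat_lit 0) (XT.nd (nat_lit 78) (nat_lit 0) (nat_lit 0) (XT.lf (nat_lit 0) (nat_lit 1064971291) (nat_lit 0) (nat_lit 1064971291) (nat_lit 988) (nat_lit 1405843337) (nat_lit 562) (nat_lit 5) (nat_lit 562) (nat_lit 3) (nat_lit 575) (nat_lit 3) (nat_lit 398) (nat_lit 398) (nat_lit 344)) (XT.lf (nat_lit 0) (nat_lit 5469299269) (nat_lit 0) (nat_lit 512192683) (nat_lit 988) (nat_lit 1125691676) (nat_lit 562) (nat_lit 5) (nat_lit 562) (nat_lit 3) (nat_lit 575) (nat_lit 3) (nat_lit 399) (nat_lit 398) (nat_lit 343))) (XT.nd (nat_lit 78) (nat_lit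 0) (nat_lit 0) (XT.lf (nat_lit 0) (nat_lit 560709306) (nat_lit 1064) (nat_lit 5423668166) (nat_lit 1140) (nat_lit 1159602692) (nat_lit 548) (nat_lit 5) (nat_lit 562) (nat_lit 5) (nat_lit 563) (nat_lit 5) (nat_lit 400) (nat_lit 398) (nat_lit 342)) (XT.lf (nat_lit 0) (nat_lit 2236724417) (nat_lit 1064) (nat_lit 2047887312) (nat_lit 1140) (nat_lit 2897371322) (nat_lit 548) (nat_lit 5) (nat_lit 562) (nat_lit 5) (nat_lit 563) (nat_lit 5) (nat_lit 401) (nat_lit 398) (nat_lit 341)))))) (XT.nd (nat_lit 546) (nat_lit 2280) (nat_lit 0) (XT.nd (nat_lit 234) (nat_lit 1064) (nat_lit 0) (XT.nd (nat_lit 78) (nat_lit 0) (nat_lit 0) (XT.lf (nat_lit 76) (nat_lit 1390559306) (nat_lit 0) (nat_lit 2522071280) (nat_lit 1140) (nat_lit 3308825657) (nat_lit 549) (nat_lit 5) (nat_lit 548) (nat_lit 5) (nat_lit 563) (nat_lit 5) (nat_lit 402) (nat_lit 398) (nat_lit 340)) (XT.nd (nat_lit 78) (nat_lit 0) (nat_lit 76) (XT.lf (nat_lit 76) (nat_lit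 4902599109) (nat_lit 0) (nat_lit 691228007) (nat_lit 1140) (nat_lit 1668493261) (nat_lit 549) (nat_lit 5) (nat_lit 548) (nat_lit 5) (nat_lit 563) (nat_lit 5) (nat_lit 403) (nat_lit 398) (nat_lit 339)) (XT.lf (nat_lit 76) (nat_lit 1165054943) (nat_lit 0) (nat_lit 6117767769) (nat_lit 1140) (nat_lit 21731784) (nat_lit 550) (nat_lit 5) (nat_lit 549) (nat_lit 5) (nat_lit 564) (nat_lit 5) (nat_lit 404) (nat_lit 398) (nat_lit 338)))) (XT.nd (nat_lit 156) (nat_lit 0) (nat_lit 0) (XT.nd (nat_lit 78) (nat_lit 0) (nat_lit 0) (XT.lf (nat_lit 0) (nat_lit 1616062548) (nat_lit 1140) (nat_lit 2594337379) (nat_lit 1216) (nat_lit 3137456029) (nat_lit 534) (nat_lit 5) (nat_lit 549) (nat_lit 5) (nat_lit 550) (nat_lit 5) (nat_lit 405) (nat_lit 398) (nat_lit 337)) (XT.lf (nat_lit 76) (nat_lit 1011430622) (nat_lit 0) (nat_lit 2241580488) (nat_lit 1216) (nat_lit 4139709789) (nat_lit 535) (nat_lit 5) (nat_lit 534) (nat_lit 5) (nat_lit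 550) (nat_lit 5) (nat_lit 406) (nat_lit 398) (nat_lit 336))) (XT.nd (nat_lit 78) (nat_lit 0) (nat_lit 76) (XT.lf (nat_lit 76) (nat_lit 4701216390) (nat_lit 0) (nat_lit 199644675) (nat_lit 1216) (nat_lit 2538092273) (nat_lit 535) (nat_lit 5) (nat_lit 534) (nat_lit 5) (nat_lit 550) (nat_lit 5) (nat_lit 407) (nat_lit 398) (nat_lit 335)) (XT.lf (nat_lit 76) (nat_lit 955277127) (nat_lit 0) (nat_lit 5606444046) (nat_lit 1216) (nat_lit 924820977) (nat_lit 536) (nat_lit 5) (nat_lit 535) (nat_lit 5) (nat_lit 551) (nat_lit 5) (nat_lit 408) (nat_lit 398) (nat_lit 334))))) (XT.nd (nat_lit 234) (nat_lit 1140) (nat_lit 0) (XT.nd (nat_lit 78) (nat_lit 0) (nat_lit 0) (XT.lf (nat_lit 0) (nat_lit 693020856) (nat_lit 1216) (nat_lit 2805669966) (nat_lit 1292) (nat_lit 4036694697) (nat_lit 519) (nat_lit 5) (nat_lit 535) (nat_lit 5) (nat_lit 536) (nat_lit 5) (nat_lit 409) (nat_lit 398) (nat_lit 333)) (XT.nd (nat_lit 78) (nat_lit 0)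 (nat_lit 76) (XT.lf (nat_lit 76) (nat_lit 977511305) (nat_lit 0) (nat_lit 1322371287) (nat_lit 1292) (nat_lit 5285850870) (nat_lit 520) (nat_lit 5) (nat_lit 519) (nat_lit 5) (nat_lit 536) (nat_lit 5) (nat_lit 410) (nat_lit 398) (nat_lit 332)) (XT.lf (nat_lit 0) (nat_lit 3927014349) (nat_lit 1216) (nat_lit 2792592662) (nat_lit 1292) (nat_lit 917748989) (nat_lit 520) (nat_lit 5) (nat_lit 536) (nat_lit 5) (nat_lit 537) (nat_lit 5) (nat_lit 411) (nat_lit 398) (nat_lit 331)))) (XT.nd (nat_lit 156) (nat_lit 1216) (nat_lit 0) (XT.nd (nat_lit 78) (nat_lit 0) (nat_lit 0) (XT.lf (nat_lit 76) (nat_lit 1080928413) (nat_lit 0) (nat_lit 4485607991) (nat_lit 1292) (nat_lit 2123907329) (nat_lit 521) (nat_lit 5) (nat_lit 520) (nat_lit 5) (nat_lit 537) (nat_lit 5) (nat_lit 412) (nat_lit 398) (nat_lit 330)) (XT.lf (nat_lit 76) (nat_lit 5046090927) (nat_lit 0) (nat_lit 2176120573) (nat_lit 1292) (nat_lit 522743583) (nat_lit 521) (nat_lit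 5) (nat_lit 520) (nat_lit 5) (nat_lit 537) (nat_lit 5) (nat_lit 413) (nat_lit 398) (nat_lit 329))) (XT.nd (nat_lit 78) (nat_lit 0) (nat_lit 0) (XT.lf (nat_lit 0) (nat_lit 1070563145) (nat_lit 1292) (nat_lit 6526503408) (nat_lit 1368) (nat_lit 203880232) (nat_lit 504) (nat_lit 5) (nat_lit 521) (nat_lit 5) (nat_lit 522) (nat_lit 5) (nat_lit 414) (nat_lit 398) (nat_lit 328)) (XT.lf (nat_lit 0) (nat_lit 2687046448) (nat_lit 1292) (nat_lit 2536229804) (nat_lit 1368) (nat_lit 2634774198) (nat_lit 504) (nat_lit 5) (nat_lit 521) (nat_lit 5) (nat_lit 522) (nat_lit 5) (nat_lit 415) (nat_lit 398) (nat_lit 327))))))) (XT.nd (nat_lit 1092) (nat_lit 7220) (nat_lit 0) (XT.nd (nat_lit 546) (nat_lit 6384) (nat_lit 0) (XT.nd (nat_lit 234) (nat_lit 2584) (nat_lit 0) (XT.nd (nat_lit 78) (nat_lit 0) (nat_lit 0) (XT.lf (nat_lit 76) (nat_lit 1530052097) (nat_lit 0) (nat_lit 2782076041) (nat_lit 1368) (nat_lit 3604669572) (nat_lit 505)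 (nat_lit 5) (nat_lit 504) (nat_lit 5) (nat_lit 522) (nat_lit 5) (nat_lit 416) (nat_lit 398) (nat_lit 326)) (XT.nd (nat_lit 78) (nat_lit 0) (nat_lit 76) (XT.lf (nat_lit 76) (nat_lit 5688331817) (nat_lit 0) (nat_lit 265239874) (nat_lit 1368) (nat_lit 2023497392) (nat_lit 505) (nat_lit 5) (nat_lit 504) (nat_lit 5) (nat_lit 522) (nat_lit 5) (nat_lit 417) (nat_lit 398) (nat_lit 325)) (XT.lf (nat_lit 76) (nat_lit 1876923320) (nat_lit 0) (nat_lit 5745603842) (nat_lit 1368) (nat_lit 416150914) (nat_lit 506) (nat_lit 5) (nat_lit 505) (nat_lit 5) (nat_lit 523) (nat_lit 5) (nat_lit 418) (nat_lit 398) (nat_lit 324)))) (XT.nd (nat_lit 156) (nat_lit 1292) (nat_lit 0) (XT.nd (nat_lit 78) (nat_lit 0) (nat_lit 0) (XT.lf (nat_lit 0) (nat_lit 1192311049) (nat_lit 1368) (nat_lit 1978365050) (nat_lit 1444) (nat_lit 4931008887) (nat_lit 487) (nat_lit 5) (nat_lit 505) (nat_lit 5) (nat_lit 506) (nat_lit 5) (nat_lit 419) (nat_lit 398)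 (nat_lit 323)) (XT.lf (nat_lit 76) (nat_lit 2292201562) (nat_lit 0) (nat_lit 518483594) (nat_lit 1444) (nat_lit 5355569920) (nat_lit 488) (nat_lit 5) (nat_lit 487) (nat_lit 5) (nat_lit 506) (nat_lit 5) (nat_lit 420) (nat_lit 398) (nat_lit 322))) (XT.nd (nat_lit 78) (nat_lit 1368) (nat_lit 0) (XT.lf (nat_lit 0) (nat_lit 4457929900) (nat_lit 1368) (nat_lit 1595475549) (nat_lit 76) (nat_lit 2178804942) (nat_lit 488) (nat_lit 5) (nat_lit 506) (nat_lit 5) (nat_lit 489) (nat_lit 5) (nat_lit 421) (nat_lit 398) (nat_lit 321)) (XT.lf (nat_lit 0) (nat_lit 2777813508) (nat_lit 1368) (nat_lit 3351325609) (nat_lit 1444) (nat_lit 2170548719) (nat_lit 470) (nat_lit 5) (nat_lit 488) (nat_lit 5) (nat_lit 489) (nat_lit 5) (nat_lit 422) (nat_lit 398) (nat_lit 320))))) (XT.nd (nat_lit 234) (nat_lit 4864) (nat_lit 0) (XT.nd (nat_lit 78) (nat_lit 1520) (nat_lit 0) (XT.lf (nat_lit 0) (nat_lit 7236494073) (nat_lit 1368) (nat_lit 577978594)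 (nat_lit 1444) (nat_lit 554451118) (nat_lit 470) (nat_lit 5) (nat_lit 488) (nat_lit 5) (nat_lit 489) (nat_lit 5) (nat_lit 423) (nat_lit 398) (nat_lit 319)) (XT.nd (nat_lit 78) (nat_lit 0) (nat_lit 0) (XT.lf (nat_lit 0) (nat_lit 1086632974) (nat_lit 1520) (nat_lit 5096334835) (nat_lit 76) (nat_lit 2256316412) (nat_lit 450) (nat_lit 5) (nat_lit 470) (nat_lit 5) (nat_lit 451) (nat_lit 5) (nat_lit 424) (nat_lit 398) (nat_lit 318)) (XT.lf (nat_lit 0) (nat_lit 2735429372) (nat_lit 1520) (nat_lit 619403046) (nat_lit 76) (nat_lit 5156521487) (nat_lit 450) (nat_lit 5) (nat_lit 470) (nat_lit 5) (nat_lit 451) (nat_lit 5) (nat_lit 425) (nat_lit 398) (nat_lit 317)))) (XT.nd (nat_lit 156) (nat_lit 3344) (nat_lit 0) (XT.nd (nat_lit 78) (nat_lit 0) (nat_lit 0) (XT.lf (nat_lit 0) (nat_lit 3975540886) (nat_lit 1520) (nat_lit 438875196) (nat_lit 1596) (nat_lit 4170525823) (nat_lit 430) (nat_lit 5) (nat_lit 450) (nat_lit 5) (nat_lit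 451) (nat_lit 5) (nat_lit 426) (nat_lit 398) (nat_lit 316)) (XT.lf (nat_lit 0) (nat_lit 6119469079) (nat_lit 1596) (nat_lit 29753382) (nat_lit 76) (nat_lit 2510950266) (nat_lit 430) (nat_lit 5) (nat_lit 451) (nat_lit 5) (nat_lit 431) (nat_lit 5) (nat_lit 427) (nat_lit 398) (nat_lit 315))) (XT.nd (nat_lit 78) (nat_lit 1748) (nat_lit 0) (XT.lf (nat_lit 0) (nat_lit 4676258084) (nat_lit 1596) (nat_lit 3188026015) (nat_lit 1672) (nat_lit 872531231) (nat_lit 409) (nat_lit 5) (nat_lit 430) (nat_lit 5) (nat_lit 431) (nat_lit 5) (nat_lit 428) (nat_lit 398) (nat_lit 314)) (XT.lf (nat_lit 0) (nat_lit 640947687) (nat_lit 1672) (nat_lit 154128754) (nat_lit 1748) (nat_lit 8020287402) (nat_lit 386) (nat_lit 5) (nat_lit 408) (nat_lit 5) (nat_lit 409) (nat_lit 5) (nat_lit 429) (nat_lit 398) (nat_lit 313)))))) (XT.nd (nat_lit 546) (nat_lit 3952) (nat_lit 0) (XT.nd (nat_lit 234) (nat_lit 1824) (nat_lit 0) (XT.nd (nat_lit 78) (nat_lit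 1444) (nat_lit 0) (XT.lf (nat_lit 0) (nat_lit 2503871244) (nat_lit 1748) (nat_lit 3452769120) (nat_lit 76) (nat_lit 2938356462) (nat_lit 386) (nat_lit 5) (nat_lit 409) (nat_lit 5) (nat_lit 387) (nat_lit 5) (nat_lit 430) (nat_lit 398) (nat_lit 312)) (XT.nd (nat_lit 78) (nat_lit 0) (nat_lit 0) (XT.lf (nat_lit 0) (nat_lit 1356248888) (nat_lit 1444) (nat_lit 2873936094) (nat_lit 1520) (nat_lit 4746389457) (nat_lit 367) (nat_lit 5) (nat_lit 386) (nat_lit 5) (nat_lit 387) (nat_lit 5) (nat_lit 431) (nat_lit 398) (nat_lit 311)) (XT.lf (nat_lit 0) (nat_lit 5990002219) (nat_lit 1520) (nat_lit 2777207586) (nat_lit 76) (nat_lit 292612719) (nat_lit 367) (nat_lit 5) (nat_lit 387) (nat_lit 5) (nat_lit 368) (nat_lit 5) (nat_lit 432) (nat_lit 398) (nat_lit 310)))) (XT.nd (nat_lit 156) (nat_lit 912) (nat_lit 0) (XT.nd (nat_lit 78) (nat_lit 76) (nat_lit 0) (XT.lf (nat_lit 0) (nat_lit 2148159996) (nat_lit 836) (nat_lit 5644245695)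 (nat_lit 912) (nat_lit 1352200183) (nat_lit 356) (nat_lit 5) (nat_lit 367) (nat_lit 5) (nat_lit 368) (nat_lit 5) (nat_lit 433) (nat_lit 398) (nat_lit 309)) (XT.lf (nat_lit 0) (nat_lit 387863004) (nat_lit 912) (nat_lit 2047703040) (nat_lit 76) (nat_lit 6795617660) (nat_lit 355) (nat_lit 5) (nat_lit 367) (nat_lit 5) (nat_lit 356) (nat_lit 5) (nat_lit 434) (nat_lit 398) (nat_lit 308))) (XT.nd (nat_lit 78) (nat_lit 0) (nat_lit 0) (XT.lf (nat_lit 0) (nat_lit 2144868510) (nat_lit 988) (nat_lit 6318059038) (nat_lit 76) (nat_lit 856398898) (nat_lit 343) (nat_lit 5) (nat_lit 356) (nat_lit 5) (nat_lit 344) (nat_lit 5) (nat_lit 435) (nat_lit 398) (nat_lit 307)) (XT.lf (nat_lit 0) (nat_lit 3942393733) (nat_lit 988) (nat_lit 1270048531) (nat_lit 76) (nat_lit 4196698910) (nat_lit 343) (nat_lit 5) (nat_lit 356) (nat_lit 5) (nat_lit 344) (nat_lit 5) (nat_lit 436) (nat_lit 398) (nat_lit 306))))) (XT.nd (nat_lit 312) (nat_lit 1444)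 (nat_lit 0) (XT.nd (nat_lit 156) (nat_lit 1672) (nat_lit 0) (XT.nd (nat_lit 78) (nat_lit 0) (nat_lit 0) (XT.lf (nat_lit 0) (nat_lit 3906782742) (nat_lit 836) (nat_lit 1870352008) (nat_lit 912) (nat_lit 3723608536) (nat_lit 332) (nat_lit 5) (nat_lit 343) (nat_lit 5) (nat_lit 344) (nat_lit 5) (nat_lit 437) (nat_lit 398) (nat_lit 305)) (XT.lf (nat_lit 0) (nat_lit 7643364440) (nat_lit 912) (nat_lit 423405470) (nat_lit 76) (nat_lit 1527527727) (nat_lit 332) (nat_lit 5) (nat_lit 344) (nat_lit 5) (nat_lit 333) (nat_lit 5) (nat_lit 438) (nat_lit 398) (nat_lit 304))) (XT.nd (nat_lit 78) (nat_lit 836) (nat_lit 0) (XT.lf (nat_lit 0) (nat_lit 4878908060) (nat_lit 836) (nat_lit 4688765613) (nat_lit 912) (nat_lit 121650062) (nat_lit 321) (nat_lit 5) (nat_lit 332) (nat_lit 5) (nat_lit 333) (nat_lit 5) (nat_lit 439) (nat_lit 398) (nat_lit 303)) (XT.lf (nat_lit 0) (nat_lit 478319480) (nat_lit 760) (nat_lit 1225820045) (nat_lit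 836) (nat_lit 8082243553) (nat_lit 310) (nat_lit 5) (nat_lit 320) (nat_lit 5) (nat_lit 321) (nat_lit 5) (nat_lit 440) (nat_lit 398) (nat_lit 302)))) (XT.nd (nat_lit 156) (nat_lit 684) (nat_lit 0) (XT.nd (nat_lit 78) (nat_lit 760) (nat_lit 0) (XT.lf (nat_lit 0) (nat_lit 3589417774) (nat_lit 836) (nat_lit 3986435664) (nat_lit 76) (nat_lit 2309036902) (nat_lit 310) (nat_lit 5) (nat_lit 321) (nat_lit 5) (nat_lit 311) (nat_lit 5) (nat_lit 441) (nat_lit 398) (nat_lit 301)) (XT.lf (nat_lit 0) (nat_lit 1428974078) (nat_lit 760) (nat_lit 4078403238) (nat_lit 836) (nat_lit 4478105475) (nat_lit 300) (nat_lit 5) (nat_lit 310) (nat_lit 5) (nat_lit 311) (nat_lit 5) (nat_lit 442) (nat_lit 398) (nat_lit 300))) (XT.nd (nat_lit 78) (nat_lit 684) (nat_lit 0) (XT.lf (nat_lit 0) (nat_lit 6983608330) (nat_lit 760) (nat_lit 484708162) (nat_lit 836) (nat_lit 2619692463) (nat_lit 300) (nat_lit 5) (nat_lit 310) (nat_lit 5) (nat_lit 311)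 (nat_lit 5) (nat_lit 443) (nat_lit 398) (nat_lit 299)) (XT.lf (nat_lit 0) (nat_lit 2445055563) (nat_lit 684) (nat_lit 7038243062) (nat_lit 760) (nat_lit 709004528) (nat_lit 291) (nat_lit 5) (nat_lit 300) (nat_lit 5) (nat_lit 301) (nat_lit 5) (nat_lit 444) (nat_lit 398) (nat_lit 298))))))))
noncomputable def xc146 : XT := (XT.nd (nat_lit 2184) (nat_lit 5776) (nat_lit 0) (XT.nd (nat_lit 1092) (nat_lit 4332) (nat_lit 0) (XT.nd (nat_lit 546) (nat_lit 1976) (nat_lit 0) (XT.nd (nat_lit 234) (nat_lit 2052) (nat_lit 0) (XT.nd (nat_lit 78) (nat_lit 760) (nat_lit 0) (XT.lf (nat_lit 0) (nat_lit 1226233855) (nat_lit 760) (nat_lit 2185340304) (nat_lit 76) (nat_lit 6886909557) (nat_lit 290) (nat_lit 5) (nat_lit 300) (nat_lit 5) (nat_lit 291) (nat_lit 5) (nat_lit 445) (nat_lit 398) (nat_lit 297)) (XT.nd (nat_lit 78) (nat_lit 0) (nat_lit 0) (XT.lf (nat_lit 0) (nat_lit 3194337392) (nat_lit 836) (nat_lit 6902419642) (nat_lit 76)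 (nat_lit 309877234) (nat_lit 280) (nat_lit 5) (nat_lit 291) (nat_lit 5) (nat_lit 281) (nat_lit 5) (nat_lit 446) (nat_lit 398) (nat_lit 296)) (XT.lf (nat_lit 0) (nat_lit 5218255715) (nat_lit 836) (nat_lit 1225231995) (nat_lit 76) (nat_lit 4073143992) (nat_lit 280) (nat_lit 5) (nat_lit 291) (nat_lit 5) (nat_lit 281) (nat_lit 5) (nat_lit 447) (nat_lit 398) (nat_lit 295)))) (XT.nd (nat_lit 156) (nat_lit 1368) (nat_lit 0) (XT.nd (nat_lit 78) (nat_lit 0) (nat_lit 0) (XT.lf (nat_lit 0) (nat_lit 4603253615) (nat_lit 684) (nat_lit 2688793625) (nat_lit 760) (nat_lit 3336606623) (nat_lit 271) (nat_lit 5) (nat_lit 280) (nat_lit 5) (nat_lit 281) (nat_lit 5) (nat_lit 448) (nat_lit 398) (nat_lit 294)) (XT.lf (nat_lit 0) (nat_lit 9402747981) (nat_lit 760) (nat_lit 208169436) (nat_lit 76) (nat_lit 1132102809) (nat_lit 271) (nat_lit 5) (nat_lit 281) (nat_lit 5) (nat_lit 272) (nat_lit 5) (nat_lit 449) (nat_lit 398) (nat_lit 293)))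 (XT.nd (nat_lit 78) (nat_lit 608) (nat_lit 0) (XT.lf (nat_lit 0) (nat_lit 722437941) (nat_lit 760) (nat_lit 5103003143) (nat_lit 76) (nat_lit 5033442855) (nat_lit 261) (nat_lit 5) (nat_lit 271) (nat_lit 5) (nat_lit 262) (nat_lit 5) (nat_lit 450) (nat_lit 398) (nat_lit 292)) (XT.lf (nat_lit 0) (nat_lit 844638864) (nat_lit 608) (nat_lit 1950973115) (nat_lit 684) (nat_lit 8181544354) (nat_lit 253) (nat_lit 5) (nat_lit 261) (nat_lit 5) (nat_lit 262) (nat_lit 5) (nat_lit 451) (nat_lit 398) (nat_lit 291))))) (XT.nd (nat_lit 234) (nat_lit 1292) (nat_lit 0) (XT.nd (nat_lit 78) (nat_lit 684) (nat_lit 0) (XT.lf (nat_lit 0) (nat_lit 4938183861) (nat_lit 684) (nat_lit 4152706393) (nat_lit 76) (nat_lit 2006356713) (nat_lit 253) (nat_lit 5) (nat_lit 262) (nat_lit 5) (nat_lit 254) (nat_lit 5) (nat_lit 452) (nat_lit 398) (nat_lit 290)) (XT.nd (nat_lit 78) (nat_lit 0) (nat_lit 0) (XT.lf (nat_lit 0) (nat_lit 1936844517) (nat_lit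 684) (nat_lit 5193113224) (nat_lit 760) (nat_lit 4089665916) (nat_lit 244) (nat_lit 5) (nat_lit 253) (nat_lit 5) (nat_lit 254) (nat_lit 5) (nat_lit 453) (nat_lit 398) (nat_lit 289)) (XT.lf (nat_lit 0) (nat_lit 8182286339) (nat_lit 684) (nat_lit 1192233850) (nat_lit 760) (nat_lit 1969759664) (nat_lit 244) (nat_lit 5) (nat_lit 253) (nat_lit 5) (nat_lit 254) (nat_lit 5) (nat_lit 454) (nat_lit 398) (nat_lit 288)))) (XT.nd (nat_lit 156) (nat_lit 608) (nat_lit 0) (XT.nd (nat_lit 78) (nat_lit 0) (nat_lit 0) (XT.lf (nat_lit 0) (nat_lit 210336078) (nat_lit 684) (nat_lit 8391679569) (nat_lit 76) (nat_lit 2868992796) (nat_lit 235) (nat_lit 5) (nat_lit 244) (nat_lit 5) (nat_lit 236) (nat_lit 5) (nat_lit 455) (nat_lit 398) (nat_lit 287)) (XT.lf (nat_lit 0) (nat_lit 2418463702) (nat_lit 684) (nat_lit 2154815977) (nat_lit 76) (nat_lit 7026525818) (nat_lit 235) (nat_lit 5) (nat_lit 244) (nat_lit 5) (nat_lit 236) (nat_lit 5) (nat_lit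 456) (nat_lit 398) (nat_lit 286))) (XT.nd (nat_lit 78) (nat_lit 0) (nat_lit 0) (XT.lf (nat_lit 0) (nat_lit 4240609839) (nat_lit 608) (nat_lit 439564778) (nat_lit 684) (nat_lit 7050825655) (nat_lit 227) (nat_lit 5) (nat_lit 235) (nat_lit 5) (nat_lit 236) (nat_lit 5) (nat_lit 457) (nat_lit 398) (nat_lit 285)) (XT.lf (nat_lit 0) (nat_lit 7008275232) (nat_lit 684) (nat_lit 1117985521) (nat_lit 76) (nat_lit 3738145072) (nat_lit 227) (nat_lit 5) (nat_lit 236) (nat_lit 5) (nat_lit 228) (nat_lit 5) (nat_lit 458) (nat_lit 398) (nat_lit 284)))))) (XT.nd (nat_lit 546) (nat_lit 2052) (nat_lit 0) (XT.nd (nat_lit 234) (nat_lit 1064) (nat_lit 0) (XT.nd (nat_lit 78) (nat_lit 684) (nat_lit 0) (XT.lf (nat_lit 0) (nat_lit 5428593009) (nat_lit 532) (nat_lit 3974931432) (nat_lit 608) (nat_lit 2596553115) (nat_lit 220) (nat_lit 5) (nat_lit 227) (nat_lit 5) (nat_lit 228) (nat_lit 5) (nat_lit 459) (nat_lit 398) (nat_lit 283)) (XT.nd (nat_lit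 78) (nat_lit 684) (nat_lit 0) (XT.lf (nat_lit 0) (nat_lit 11838523615) (nat_lit 608) (nat_lit 40538188) (nat_lit 76) (nat_lit 259573625) (nat_lit 220) (nat_lit 5) (nat_lit 228) (nat_lit 5) (nat_lit 221) (nat_lit 5) (nat_lit 460) (nat_lit 398) (nat_lit 282)) (XT.lf (nat_lit 0) (nat_lit 2068331894) (nat_lit 684) (nat_lit 5631793829) (nat_lit 76) (nat_lit 4578525609) (nat_lit 211) (nat_lit 5) (nat_lit 220) (nat_lit 5) (nat_lit 212) (nat_lit 5) (nat_lit 461) (nat_lit 398) (nat_lit 281)))) (XT.nd (nat_lit 156) (nat_lit 532) (nat_lit 0) (XT.nd (nat_lit 78) (nat_lit 0) (nat_lit 0) (XT.lf (nat_lit 0) (nat_lit 1037286335) (nat_lit 532) (nat_lit 3432877725) (nat_lit 608) (nat_lit 7951472108) (nat_lit 204) (nat_lit 5) (nat_lit 211) (nat_lit 5) (nat_lit 212) (nat_lit 5) (nat_lit 462) (nat_lit 398) (nat_lit 280)) (XT.lf (nat_lit 0) (nat_lit 6947238087) (nat_lit 608) (nat_lit 4678449420) (nat_lit 76) (nat_lit 941257963) (nat_lit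 204) (nat_lit 5) (nat_lit 212) (nat_lit 5) (nat_lit 205) (nat_lit 5) (nat_lit 463) (nat_lit 398) (nat_lit 279))) (XT.nd (nat_lit 78) (nat_lit 0) (nat_lit 0) (XT.lf (nat_lit 0) (nat_lit 2145809314) (nat_lit 532) (nat_lit 7348231406) (nat_lit 608) (nat_lit 3220725197) (nat_lit 197) (nat_lit 5) (nat_lit 204) (nat_lit 5) (nat_lit 205) (nat_lit 5) (nat_lit 464) (nat_lit 398) (nat_lit 278)) (XT.lf (nat_lit 0) (nat_lit 9148942028) (nat_lit 532) (nat_lit 2957939642) (nat_lit 608) (nat_lit 758367586) (nat_lit 197) (nat_lit 5) (nat_lit 204) (nat_lit 5) (nat_lit 205) (nat_lit 5) (nat_lit 465) (nat_lit 398) (nat_lit 277))))) (XT.nd (nat_lit 234) (nat_lit 988) (nat_lit 0) (XT.nd (nat_lit 78) (nat_lit 532) (nat_lit 0) (XT.lf (nat_lit 0) (nat_lit 1745535126) (nat_lit 532) (nat_lit 9744226720) (nat_lit 76) (nat_lit 1528455112) (nat_lit 190) (nat_lit 5) (nat_lit 197) (nat_lit 5) (nat_lit 191) (nat_lit 5) (nat_lit 466) (nat_lit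 398) (nat_lit 276)) (XT.nd (nat_lit 78) (nat_lit 532) (nat_lit 0) (XT.lf (nat_lit 0) (nat_lit 4318126108) (nat_lit 532) (nat_lit 2765048926) (nat_lit 76) (nat_lit 6090401465) (nat_lit 190) (nat_lit 5) (nat_lit 197) (nat_lit 5) (nat_lit 191) (nat_lit 5) (nat_lit 467) (nat_lit 398) (nat_lit 275)) (XT.lf (nat_lit 0) (nat_lit 4390712706) (nat_lit 532) (nat_lit 2564338846) (nat_lit 608) (nat_lit 6376741905) (nat_lit 183) (nat_lit 5) (nat_lit 190) (nat_lit 5) (nat_lit 191) (nat_lit 5) (nat_lit 468) (nat_lit 398) (nat_lit 274)))) (XT.nd (nat_lit 156) (nat_lit 532) (nat_lit 0) (XT.nd (nat_lit 78) (nat_lit 456) (nat_lit 0) (XT.lf (nat_lit 0) (nat_lit 9661186370) (nat_lit 608) (nat_lit 1799866255) (nat_lit 76) (nat_lit 2031800438) (nat_lit 183) (nat_lit 5) (nat_lit 191) (nat_lit 5) (nat_lit 184) (nat_lit 5) (nat_lit 469) (nat_lit 398) (nat_lit 273)) (XT.lf (nat_lit 0) (nat_lit 5519249062) (nat_lit 456) (nat_lit 6939831794)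 (nat_lit 532) (nat_lit 1197307838) (nat_lit 177) (nat_lit 5) (nat_lit 183) (nat_lit 5) (nat_lit 184) (nat_lit 5) (nat_lit 470) (nat_lit 398) (nat_lit 272))) (XT.nd (nat_lit 78) (nat_lit 456) (nat_lit 0) (XT.lf (nat_lit 0) (nat_lit 1467237801) (nat_lit 532) (nat_lit 843963011) (nat_lit 76) (nat_lit 11511867304) (nat_lit 176) (nat_lit 5) (nat_lit 183) (nat_lit 5) (nat_lit 177) (nat_lit 5) (nat_lit 471) (nat_lit 398) (nat_lit 271)) (XT.lf (nat_lit 0) (nat_lit 4213390887) (nat_lit 532) (nat_lit 7353894036) (nat_lit 76) (nat_lit 2424758086) (nat_lit 170) (nat_lit 5) (nat_lit 177) (nat_lit 5) (nat_lit 171) (nat_lit 5) (nat_lit 472) (nat_lit 398) (nat_lit 270))))))) (XT.nd (nat_lit 1092) (nat_lit 2660) (nat_lit 0) (XT.nd (nat_lit 546) (nat_lit 1292) (nat_lit 0) (XT.nd (nat_lit 234) (nat_lit 912) (nat_lit 0) (XT.nd (nat_lit 78) (nat_lit 456) (nat_lit 0) (XT.lf (nat_lit 0) (nat_lit 82663550) (nat_lit 456) (nat_lit 6938651170)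 (nat_lit 532) (nat_lit 7142952723) (nat_lit 164) (nat_lit 5) (nat_lit 170) (nat_lit 5) (nat_lit 171) (nat_lit 5) (nat_lit 473) (nat_lit 398) (nat_lit 269)) (XT.nd (nat_lit 78) (nat_lit 456) (nat_lit 0) (XT.lf (nat_lit 0) (nat_lit 7747632401) (nat_lit 456) (nat_lit 2172575479) (nat_lit 532) (nat_lit 4419039128) (nat_lit 164) (nat_lit 5) (nat_lit 170) (nat_lit 5) (nat_lit 171) (nat_lit 5) (nat_lit 474) (nat_lit 398) (nat_lit 268)) (XT.lf (nat_lit 0) (nat_lit 1024281883) (nat_lit 456) (nat_lit 11862617558) (nat_lit 532) (nat_lit 1630637038) (nat_lit 158) (nat_lit 5) (nat_lit 164) (nat_lit 5) (nat_lit 165) (nat_lit 5) (nat_lit 475) (nat_lit 398) (nat_lit 267)))) (XT.nd (nat_lit 156) (nat_lit 456) (nat_lit 0) (XT.nd (nat_lit 78) (nat_lit 380) (nat_lit 0) (XT.lf (nat_lit 0) (nat_lit 1242295925) (nat_lit 532) (nat_lit 5859153155) (nat_lit 76) (nat_lit 7596897972) (nat_lit 157) (nat_lit 5) (nat_lit 164) (nat_lit 5) (nat_lit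 158) (nat_lit 5) (nat_lit 476) (nat_lit 398) (nat_lit 266)) (XT.lf (nat_lit 0) (nat_lit 1922502676) (nat_lit 380) (nat_lit 2226896824) (nat_lit 456) (nat_lit 10733194179) (nat_lit 152) (nat_lit 5) (nat_lit 157) (nat_lit 5) (nat_lit 158) (nat_lit 5) (nat_lit 477) (nat_lit 398) (nat_lit 265))) (XT.nd (nat_lit 78) (nat_lit 456) (nat_lit 0) (XT.lf (nat_lit 0) (nat_lit 7158201666) (nat_lit 456) (nat_lit 5168268698) (nat_lit 76) (nat_lit 2743189958) (nat_lit 152) (nat_lit 5) (nat_lit 158) (nat_lit 5) (nat_lit 153) (nat_lit 5) (nat_lit 478) (nat_lit 398) (nat_lit 264)) (XT.lf (nat_lit 0) (nat_lit 2781852265) (nat_lit 456) (nat_lit 7464563196) (nat_lit 532) (nat_lit 5013674216) (nat_lit 146) (nat_lit 5) (nat_lit 152) (nat_lit 5) (nat_lit 153) (nat_lit 5) (nat_lit 479) (nat_lit 398) (nat_lit 263))))) (XT.nd (nat_lit 234) (nat_lit 836) (nat_lit 0) (XT.nd (nat_lit 78) (nat_lit 456) (nat_lit 0) (XT.lf (nat_lit 0) (nat_lit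 10941885080) (nat_lit 456) (nat_lit 2475758382) (nat_lit 532) (nat_lit 2036265131) (nat_lit 146) (nat_lit 5) (nat_lit 152) (nat_lit 5) (nat_lit 153) (nat_lit 5) (nat_lit 480) (nat_lit 398) (nat_lit 262)) (XT.nd (nat_lit 78) (nat_lit 0) (nat_lit 0) (XT.lf (nat_lit 0) (nat_lit 1015038637) (nat_lit 456) (nat_lit 12032652738) (nat_lit 76) (nat_lit 2603238893) (nat_lit 140) (nat_lit 5) (nat_lit 146) (nat_lit 5) (nat_lit 141) (nat_lit 5) (nat_lit 481) (nat_lit 398) (nat_lit 261)) (XT.lf (nat_lit 0) (nat_lit 4133841937) (nat_lit 456) (nat_lit 3928082719) (nat_lit 76) (nat_lit 7789029374) (nat_lit 140) (nat_lit 5) (nat_lit 146) (nat_lit 5) (nat_lit 141) (nat_lit 5) (nat_lit 482) (nat_lit 398) (nat_lit 260)))) (XT.nd (nat_lit 156) (nat_lit 456) (nat_lit 0) (XT.nd (nat_lit 78) (nat_lit 0) (nat_lit 0) (XT.lf (nat_lit 0) (nat_lit 4377300829) (nat_lit 380) (nat_lit 2953238106) (nat_lit 456) (nat_lit 8724134496) (nat_lit 135)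 (nat_lit 5) (nat_lit 140) (nat_lit 5) (nat_lit 141) (nat_lit 5) (nat_lit 483) (nat_lit 398) (nat_lit 259)) (XT.lf (nat_lit 0) (nat_lit 10619554062) (nat_lit 456) (nat_lit 3393521548) (nat_lit 76) (nat_lit 2248829334) (nat_lit 135) (nat_lit 5) (nat_lit 141) (nat_lit 5) (nat_lit 136) (nat_lit 5) (nat_lit 484) (nat_lit 398) (nat_lit 258))) (XT.nd (nat_lit 78) (nat_lit 76) (nat_lit 0) (XT.lf (nat_lit 0) (nat_lit 5084716795) (nat_lit 380) (nat_lit 8929647193) (nat_lit 456) (nat_lit 2458122115) (nat_lit 130) (nat_lit 5) (nat_lit 135) (nat_lit 5) (nat_lit 136) (nat_lit 5) (nat_lit 485) (nat_lit 398) (nat_lit 257)) (XT.lf (nat_lit 0) (nat_lit 789839339) (nat_lit 456) (nat_lit 2932051212) (nat_lit 76) (nat_lit 12965082745) (nat_lit 129) (nat_lit 5) (nat_lit 135) (nat_lit 5) (nat_lit 130) (nat_lit 5) (nat_lit 486) (nat_lit 398) (nat_lit 256)))))) (XT.nd (nat_lit 546) (nat_lit 1216) (nat_lit 0) (XT.nd (nat_lit 234) (nat_lit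 760) (nat_lit 0) (XT.nd (nat_lit 78) (nat_lit 304) (nat_lit 0) (XT.lf (nat_lit 0) (nat_lit 4105471409) (nat_lit 456) (nat_lit 11181978048) (nat_lit 76) (nat_lit 1617268295) (nat_lit 124) (nat_lit 5) (nat_lit 130) (nat_lit 5) (nat_lit 125) (nat_lit 5) (nat_lit 487) (nat_lit 398) (nat_lit 255)) (XT.nd (nat_lit 78) (nat_lit 304) (nat_lit 0) (XT.lf (nat_lit 0) (nat_lit 7519684883) (nat_lit 456) (nat_lit 2579028770) (nat_lit 76) (nat_lit 7027462969) (nat_lit 124) (nat_lit 5) (nat_lit 130) (nat_lit 5) (nat_lit 125) (nat_lit 5) (nat_lit 488) (nat_lit 398) (nat_lit 254)) (XT.lf (nat_lit 0) (nat_lit 6260242755) (nat_lit 304) (nat_lit 4770639022) (nat_lit 380) (nat_lit 6320613713) (nat_lit 120) (nat_lit 5) (nat_lit 124) (nat_lit 5) (nat_lit 125) (nat_lit 5) (nat_lit 489) (nat_lit 398) (nat_lit 253)))) (XT.nd (nat_lit 156) (nat_lit 304) (nat_lit 0) (XT.nd (nat_lit 78) (nat_lit 456) (nat_lit 0) (XT.lf (nat_lit 0) (nat_lit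 14622169365) (nat_lit 380) (nat_lit 2292067744) (nat_lit 76) (nat_lit 666890999) (nat_lit 120) (nat_lit 5) (nat_lit 125) (nat_lit 5) (nat_lit 121) (nat_lit 5) (nat_lit 490) (nat_lit 398) (nat_lit 252)) (XT.lf (nat_lit 0) (nat_lit 527787763) (nat_lit 456) (nat_lit 11095464451) (nat_lit 76) (nat_lit 6190764236) (nat_lit 114) (nat_lit 5) (nat_lit 120) (nat_lit 5) (nat_lit 115) (nat_lit 5) (nat_lit 491) (nat_lit 398) (nat_lit 251))) (XT.nd (nat_lit 78) (nat_lit 304) (nat_lit 0) (XT.lf (nat_lit 0) (nat_lit 4048569665) (nat_lit 456) (nat_lit 2148116833) (nat_lit 76) (nat_lit 11854410905) (nat_lit 114) (nat_lit 5) (nat_lit 120) (nat_lit 5) (nat_lit 115) (nat_lit 5) (nat_lit 492) (nat_lit 398) (nat_lit 250)) (XT.lf (nat_lit 0) (nat_lit 7053411954) (nat_lit 304) (nat_lit 620779153) (nat_lit 380) (nat_lit 10618044740) (nat_lit 110) (nat_lit 5) (nat_lit 114) (nat_lit 5) (nat_lit 115) (nat_lit 5) (nat_lit 493) (nat_lit 398)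 (nat_lit 249))))) (XT.nd (nat_lit 312) (nat_lit 532) (nat_lit 0) (XT.nd (nat_lit 156) (nat_lit 380) (nat_lit 0) (XT.nd (nat_lit 78) (nat_lit 304) (nat_lit 0) (XT.lf (nat_lit 0) (nat_lit 11408433205) (nat_lit 380) (nat_lit 2120160724) (nat_lit 76) (nat_lit 5008885232) (nat_lit 110) (nat_lit 5) (nat_lit 115) (nat_lit 5) (nat_lit 111) (nat_lit 5) (nat_lit 494) (nat_lit 398) (nat_lit 248)) (XT.lf (nat_lit 0) (nat_lit 7254904079) (nat_lit 304) (nat_lit 8002594107) (nat_lit 380) (nat_lit 3529330576) (nat_lit 106) (nat_lit 5) (nat_lit 110) (nat_lit 5) (nat_lit 111) (nat_lit 5) (nat_lit 495) (nat_lit 398) (nat_lit 247))) (XT.nd (nat_lit 78) (nat_lit 304) (nat_lit 0) (XT.lf (nat_lit 0) (nat_lit 143787461) (nat_lit 380) (nat_lit 2212738719) (nat_lit 76) (nat_lit 16684559191) (nat_lit 105) (nat_lit 5) (nat_lit 110) (nat_lit 5) (nat_lit 106) (nat_lit 5) (nat_lit 496) (nat_lit 398) (nat_lit 246)) (XT.lf (nat_lit 0) (nat_lit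 3902563985) (nat_lit 380) (nat_lit 11972620932) (nat_lit 76) (nat_lit 3423590480) (nat_lit 101) (nat_lit 5) (nat_lit 106) (nat_lit 5) (nat_lit 102) (nat_lit 5) (nat_lit 497) (nat_lit 398) (nat_lit 245)))) (XT.nd (nat_lit 156) (nat_lit 228) (nat_lit 0) (XT.nd (nat_lit 78) (nat_lit 304) (nat_lit 0) (XT.lf (nat_lit 0) (nat_lit 7756306156) (nat_lit 380) (nat_lit 2507991667) (nat_lit 76) (nat_lit 9296929462) (nat_lit 101) (nat_lit 5) (nat_lit 106) (nat_lit 5) (nat_lit 102) (nat_lit 5) (nat_lit 498) (nat_lit 398) (nat_lit 244)) (XT.lf (nat_lit 0) (nat_lit 7224221541) (nat_lit 304) (nat_lit 4499254111) (nat_lit 380) (nat_lit 8104729295) (nat_lit 97) (nat_lit 5) (nat_lit 101) (nat_lit 5) (nat_lit 102) (nat_lit 5) (nat_lit 499) (nat_lit 398) (nat_lit 243))) (XT.nd (nat_lit 78) (nat_lit 228) (nat_lit 0) (XT.lf (nat_lit 0) (nat_lit 15785407422) (nat_lit 380) (nat_lit 2940710276) (nat_lit 76) (nat_lit 1374099801) (nat_lit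 97) (nat_lit 5) (nat_lit 102) (nat_lit 5) (nat_lit 98) (nat_lit 5) (nat_lit 500) (nat_lit 398) (nat_lit 242)) (XT.lf (nat_lit 0) (nat_lit 6961130569) (nat_lit 228) (nat_lit 13032156121) (nat_lit 304) (nat_lit 383093073) (nat_lit 94) (nat_lit 5) (nat_lit 97) (nat_lit 5) (nat_lit 98) (nat_lit 5) (nat_lit 501) (nat_lit 398) (nat_lit 241))))))))
noncomputable def xc147 : XT := (XT.nd (nat_lit 51558) (nat_lit 0) (nat_lit 25156) (XT.nd (nat_lit 1092) (nat_lit 1216) (nat_lit 0) (XT.nd (nat_lit 546) (nat_lit 760) (nat_lit 0) (XT.nd (nat_lit 234) (nat_lit 608) (nat_lit 0) (XT.nd (nat_lit 78) (nat_lit 304) (nat_lit 0) (XT.lf (nat_lit 0) (nat_lit 3589292913) (nat_lit 304) (nat_lit 3596712615) (nat_lit 76) (nat_lit 13471400098) (nat_lit 93) (nat_lit 5) (nat_lit 97) (nat_lit 5) (nat_lit 94) (nat_lit 5) (nat_lit 502) (nat_lit 398) (nat_lit 240)) (XT.nd (nat_lit 78) (nat_lit 0) (nat_lit 0) (XT.lf (nat_lit 0) (nat_lit 6484794058)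 (nat_lit 304) (nat_lit 1183254842) (nat_lit 380) (nat_lit 13275314853) (nat_lit 89) (nat_lit 5) (nat_lit 93) (nat_lit 5) (nat_lit 94) (nat_lit 5) (nat_lit 503) (nat_lit 398) (nat_lit 239)) (XT.lf (nat_lit 0) (nat_lit 11874746630) (nat_lit 380) (nat_lit 4466076547) (nat_lit 76) (nat_lit 4893293894) (nat_lit 89) (nat_lit 5) (nat_lit 94) (nat_lit 5) (nat_lit 90) (nat_lit 5) (nat_lit 504) (nat_lit 398) (nat_lit 238)))) (XT.nd (nat_lit 156) (nat_lit 380) (nat_lit 0) (XT.nd (nat_lit 78) (nat_lit 0) (nat_lit 0) (XT.lf (nat_lit 0) (nat_lit 5778557560) (nat_lit 228) (nat_lit 10422571293) (nat_lit 304) (nat_lit 5328848891) (nat_lit 86) (nat_lit 5) (nat_lit 89) (nat_lit 5) (nat_lit 90) (nat_lit 5) (nat_lit 505) (nat_lit 398) (nat_lit 237)) (XT.lf (nat_lit 0) (nat_lit 16273066615) (nat_lit 228) (nat_lit 4361229241) (nat_lit 304) (nat_lit 1197057861) (nat_lit 86) (nat_lit 5) (nat_lit 89) (nat_lit 5) (nat_lit 90) (nat_lit 5)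 (nat_lit 506) (nat_lit 398) (nat_lit 236))) (XT.nd (nat_lit 78) (nat_lit 0) (nat_lit 0) (XT.lf (nat_lit 0) (nat_lit 3011937607) (nat_lit 380) (nat_lit 17282480042) (nat_lit 76) (nat_lit 1843268016) (nat_lit 81) (nat_lit 5) (nat_lit 86) (nat_lit 5) (nat_lit 82) (nat_lit 5) (nat_lit 507) (nat_lit 398) (nat_lit 235)) (XT.lf (nat_lit 0) (nat_lit 7345990646) (nat_lit 380) (nat_lit 6949579261) (nat_lit 76) (nat_lit 8153281012) (nat_lit 81) (nat_lit 5) (nat_lit 86) (nat_lit 5) (nat_lit 82) (nat_lit 5) (nat_lit 508) (nat_lit 398) (nat_lit 234))))) (XT.nd (nat_lit 234) (nat_lit 304) (nat_lit 0) (XT.nd (nat_lit 78) (nat_lit 228) (nat_lit 0) (XT.lf (nat_lit 0) (nat_lit 3622353650) (nat_lit 228) (nat_lit 8158539745) (nat_lit 304) (nat_lit 10985065698) (nat_lit 78) (nat_lit 5) (nat_lit 81) (nat_lit 5) (nat_lit 82) (nat_lit 5) (nat_lit 509) (nat_lit 398) (nat_lit 233)) (XT.nd (nat_lit 78) (nat_lit 228) (nat_lit 0) (XT.lf (nat_lit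 0) (nat_lit 14484894454) (nat_lit 228) (nat_lit 1856970728) (nat_lit 304) (nat_lit 6746799755) (nat_lit 78) (nat_lit 5) (nat_lit 81) (nat_lit 5) (nat_lit 82) (nat_lit 5) (nat_lit 510) (nat_lit 398) (nat_lit 232)) (XT.lf (nat_lit 0) (nat_lit 2130236904) (nat_lit 228) (nat_lit 18898206547) (nat_lit 304) (nat_lit 2388696576) (nat_lit 75) (nat_lit 5) (nat_lit 78) (nat_lit 5) (nat_lit 79) (nat_lit 5) (nat_lit 511) (nat_lit 398) (nat_lit 231)))) (XT.nd (nat_lit 156) (nat_lit 0) (nat_lit 0) (XT.nd (nat_lit 78) (nat_lit 228) (nat_lit 0) (XT.lf (nat_lit 0) (nat_lit 2090913146) (nat_lit 304) (nat_lit 10596424767) (nat_lit 76) (nat_lit 11063356079) (nat_lit 74) (nat_lit 5) (nat_lit 78) (nat_lit 5) (nat_lit 75) (nat_lit 5) (nat_lit 512) (nat_lit 398) (nat_lit 230)) (XT.lf (nat_lit 0) (nat_lit 281110304) (nat_lit 228) (nat_lit 6339954327) (nat_lit 304) (nat_lit 17469682638) (nat_lit 71) (nat_lit 5) (nat_lit 74) (nat_lit 5)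 (nat_lit 75) (nat_lit 5) (nat_lit 513) (nat_lit 398) (nat_lit 229))) (XT.nd (nat_lit 78) (nat_lit 0) (nat_lit 0) (XT.lf (nat_lit 0) (nat_lit 11305392983) (nat_lit 304) (nat_lit 12932356280) (nat_lit 76) (nat_lit 198583524) (nat_lit 71) (nat_lit 5) (nat_lit 75) (nat_lit 5) (nat_lit 72) (nat_lit 5) (nat_lit 514) (nat_lit 398) (nat_lit 228)) (XT.lf (nat_lit 0) (nat_lit 16116691290) (nat_lit 304) (nat_lit 1893895694) (nat_lit 76) (nat_lit 6777579964) (nat_lit 71) (nat_lit 5) (nat_lit 75) (nat_lit 5) (nat_lit 72) (nat_lit 5) (nat_lit 515) (nat_lit 398) (nat_lit 227)))))) (XT.nd (nat_lit 546) (nat_lit 304) (nat_lit 0) (XT.nd (nat_lit 234) (nat_lit 380) (nat_lit 0) (XT.nd (nat_lit 78) (nat_lit 304) (nat_lit 0) (XT.lf (nat_lit 0) (nat_lit 9475509802) (nat_lit 228) (nat_lit 11601694638) (nat_lit 304) (nat_lit 4068776122) (nat_lit 68) (nat_lit 5) (nat_lit 71) (nat_lit 5) (nat_lit 72) (nat_lit 5) (nat_lit 516) (nat_lit 398)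 (nat_lit 226)) (XT.nd (nat_lit 78) (nat_lit 228) (nat_lit 0) (XT.lf (nat_lit 0) (nat_lit 622046293) (nat_lit 304) (nat_lit 4430989203) (nat_lit 76) (nat_lit 20457750544) (nat_lit 67) (nat_lit 5) (nat_lit 71) (nat_lit 5) (nat_lit 68) (nat_lit 5) (nat_lit 517) (nat_lit 398) (nat_lit 225)) (XT.lf (nat_lit 0) (nat_lit 5400919228) (nat_lit 304) (nat_lit 18807186678) (nat_lit 76) (nat_lit 1673271930) (nat_lit 64) (nat_lit 5) (nat_lit 68) (nat_lit 5) (nat_lit 65) (nat_lit 5) (nat_lit 518) (nat_lit 398) (nat_lit 224)))) (XT.nd (nat_lit 156) (nat_lit 152) (nat_lit 0) (XT.nd (nat_lit 78) (nat_lit 228) (nat_lit 0) (XT.lf (nat_lit 0) (nat_lit 10330455878) (nat_lit 304) (nat_lit 7436793634) (nat_lit 76) (nat_lit 8491032587) (nat_lit 64) (nat_lit 5) (nat_lit 68) (nat_lit 5) (nat_lit 65) (nat_lit 5) (nat_lit 519) (nat_lit 398) (nat_lit 223)) (XT.lf (nat_lit 0) (nat_lit 4202511737) (nat_lit 228) (nat_lit 11175211192) (nat_lit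 304) (nat_lit 11264621032) (nat_lit 61) (nat_lit 5) (nat_lit 64) (nat_lit 5) (nat_lit 65) (nat_lit 5) (nat_lit 520) (nat_lit 398) (nat_lit 222))) (XT.nd (nat_lit 78) (nat_lit 152) (nat_lit 0) (XT.lf (nat_lit 0) (nat_lit 16161888234) (nat_lit 228) (nat_lit 4405877988) (nat_lit 304) (nat_lit 6465486484) (nat_lit 61) (nat_lit 5) (nat_lit 64) (nat_lit 5) (nat_lit 65) (nat_lit 5) (nat_lit 521) (nat_lit 398) (nat_lit 221)) (XT.lf (nat_lit 0) (nat_lit 910810566) (nat_lit 152) (nat_lit 24964987267) (nat_lit 228) (nat_lit 1555900262) (nat_lit 59) (nat_lit 5) (nat_lit 61) (nat_lit 5) (nat_lit 62) (nat_lit 5) (nat_lit 522) (nat_lit 398) (nat_lit 220))))) (XT.nd (nat_lit 234) (nat_lit 0) (nat_lit 0) (XT.nd (nat_lit 78) (nat_lit 228) (nat_lit 0) (XT.lf (nat_lit 0) (nat_lit 3501284350) (nat_lit 228) (nat_lit 14826135948) (nat_lit 76) (nat_lit 9508352415) (nat_lit 58) (nat_lit 5) (nat_lit 61) (nat_lit 5) (nat_lit 59) (nat_lit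 5) (nat_lit 523) (nat_lit 398) (nat_lit 219)) (XT.nd (nat_lit 78) (nat_lit 228) (nat_lit 0) (XT.lf (nat_lit 0) (nat_lit 8631019171) (nat_lit 228) (nat_lit 2920933419) (nat_lit 76) (nat_lit 16695927834) (nat_lit 58) (nat_lit 5) (nat_lit 61) (nat_lit 5) (nat_lit 59) (nat_lit 5) (nat_lit 524) (nat_lit 398) (nat_lit 218)) (XT.lf (nat_lit 0) (nat_lit 9331879985) (nat_lit 228) (nat_lit 4584430542) (nat_lit 304) (nat_lit 14750862576) (nat_lit 55) (nat_lit 5) (nat_lit 58) (nat_lit 5) (nat_lit 59) (nat_lit 5) (nat_lit 525) (nat_lit 398) (nat_lit 217)))) (XT.nd (nat_lit 49530) (nat_lit 0) (nat_lit 37392) (XT.nd (nat_lit 49452) (nat_lit 0) (nat_lit 37392) (XT.lf (nat_lit 0) (nat_lit 19335821423) (nat_lit 304) (nat_lit 7254540031) (nat_lit 76) (nat_lit 2503921916) (nat_lit 55) (nat_lit 5) (nat_lit 59) (nat_lit 5) (nat_lit 56) (nat_lit 5) (nat_lit 526) (nat_lit 398) (nat_lit 216)) (XT.lf (nat_lit 0) (nat_lit 265494231) (nat_lit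 1140) (nat_lit 1653048230) (nat_lit 1140) (nat_lit 1653048230) (nat_lit 547) (nat_lit 3) (nat_lit 562) (nat_lit 3) (nat_lit 562) (nat_lit 5) (nat_lit 399) (nat_lit 399) (nat_lit 342))) (XT.nd (nat_lit 78) (nat_lit 0) (nat_lit 0) (XT.lf (nat_lit 76) (nat_lit 19167128) (nat_lit 0) (nat_lit 2143198552) (nat_lit 1140) (nat_lit 5018290287) (nat_lit 548) (nat_lit 5) (nat_lit 547) (nat_lit 3) (nat_lit 562) (nat_lit 5) (nat_lit 400) (nat_lit 399) (nat_lit 341)) (XT.lf (nat_lit 76) (nat_lit 3433691831) (nat_lit 0) (nat_lit 372071969) (nat_lit 1140) (nat_lit 3413566038) (nat_lit 548) (nat_lit 5) (nat_lit 547) (nat_lit 3) (nat_lit 562) (nat_lit 5) (nat_lit 401) (nat_lit 399) (nat_lit 340))))))) (XT.nd (nat_lit 1092) (nat_lit 8892) (nat_lit 0) (XT.nd (nat_lit 546) (nat_lit 1140) (nat_lit 0) (XT.nd (nat_lit 234) (nat_lit 1140) (nat_lit 0) (XT.nd (nat_lit 78) (nat_lit 1140) (nat_lit 0) (XT.lf (nat_lit 0) (nat_lit 5449522209)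 (nat_lit 1064) (nat_lit 374218332) (nat_lit 1140) (nat_lit 1435723723) (nat_lit 548) (nat_lit 5) (nat_lit 562) (nat_lit 5) (nat_lit 563) (nat_lit 5) (nat_lit 402) (nat_lit 399) (nat_lit 339)) (XT.nd (nat_lit 78) (nat_lit 1140) (nat_lit 0) (XT.lf (nat_lit 76) (nat_lit 3121716779) (nat_lit 0) (nat_lit 3986170088) (nat_lit 1140) (nat_lit 192916093) (nat_lit 549) (nat_lit 5) (nat_lit 548) (nat_lit 5) (nat_lit 563) (nat_lit 5) (nat_lit 403) (nat_lit 399) (nat_lit 338)) (XT.lf (nat_lit 0) (nat_lit 1399234021) (nat_lit 1140) (nat_lit 682367560) (nat_lit 1216) (nat_lit 5261974813) (nat_lit 533) (nat_lit 5) (nat_lit 548) (nat_lit 5) (nat_lit 549) (nat_lit 5) (nat_lit 404) (nat_lit 399) (nat_lit 337)))) (XT.nd (nat_lit 156) (nat_lit 1140) (nat_lit 0) (XT.nd (nat_lit 78) (nat_lit 0) (nat_lit 76) (XT.lf (nat_lit 76) (nat_lit 2898850610) (nat_lit 0) (nat_lit 100771378) (nat_lit 1216) (nat_lit 4388012359) (nat_lit 534) (nat_lit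 5) (nat_lit 533) (nat_lit 5) (nat_lit 549) (nat_lit 5) (nat_lit 405) (nat_lit 399) (nat_lit 336)) (XT.lf (nat_lit 0) (nat_lit 4609994993) (nat_lit 1140) (nat_lit 906992596) (nat_lit 1216) (nat_lit 1916059770) (nat_lit 534) (nat_lit 5) (nat_lit 549) (nat_lit 5) (nat_lit 550) (nat_lit 5) (nat_lit 406) (nat_lit 399) (nat_lit 335))) (XT.nd (nat_lit 78) (nat_lit 1216) (nat_lit 0) (XT.lf (nat_lit 76) (nat_lit 2759448453) (nat_lit 0) (nat_lit 3473381220) (nat_lit 1216) (nat_lit 1246966662) (nat_lit 535) (nat_lit 5) (nat_lit 534) (nat_lit 5) (nat_lit 550) (nat_lit 5) (nat_lit 407) (nat_lit 399) (nat_lit 334)) (XT.lf (nat_lit 0) (nat_lit 324033106) (nat_lit 1216) (nat_lit 1041125247) (nat_lit 1292) (nat_lit 6162944178) (nat_lit 518) (nat_lit 5) (nat_lit 534) (nat_lit 5) (nat_lit 535) (nat_lit 5) (nat_lit 408) (nat_lit 399) (nat_lit 333))))) (XT.nd (nat_lit 234) (nat_lit 1216) (nat_lit 0) (XT.nd (nat_lit 78) (nat_lit 0)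 (nat_lit 0) (XT.lf (nat_lit 0) (nat_lit 1895516171) (nat_lit 1216) (nat_lit 4866395099) (nat_lit 1292) (nat_lit 815614425) (nat_lit 519) (nat_lit 5) (nat_lit 535) (nat_lit 5) (nat_lit 536) (nat_lit 5) (nat_lit 409) (nat_lit 399) (nat_lit 332)) (XT.nd (nat_lit 78) (nat_lit 0) (nat_lit 0) (XT.lf (nat_lit 0) (nat_lit 3477922245) (nat_lit 1216) (nat_lit 1107498480) (nat_lit 1292) (nat_lit 3042957023) (nat_lit 519) (nat_lit 5) (nat_lit 535) (nat_lit 5) (nat_lit 536) (nat_lit 5) (nat_lit 410) (nat_lit 399) (nat_lit 331)) (XT.lf (nat_lit 76) (nat_lit 2739805068) (nat_lit 0) (nat_lit 2334097058) (nat_lit 1292) (nat_lit 2606735898) (nat_lit 520) (nat_lit 5) (nat_lit 519) (nat_lit 5) (nat_lit 536) (nat_lit 5) (nat_lit 411) (nat_lit 399) (nat_lit 330)))) (XT.nd (nat_lit 156) (nat_lit 0) (nat_lit 0) (XT.nd (nat_lit 78) (nat_lit 1216) (nat_lit 0) (XT.lf (nat_lit 76) (nat_lit 6656512451) (nat_lit 0) (nat_lit 17414863) (nat_lit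 1292) (nat_lit 1060602795) (nat_lit 520) (nat_lit 5) (nat_lit 519) (nat_lit 5) (nat_lit 536) (nat_lit 5) (nat_lit 412) (nat_lit 399) (nat_lit 329)) (XT.lf (nat_lit 0) (nat_lit 508921435) (nat_lit 1292) (nat_lit 4931452632) (nat_lit 1368) (nat_lit 2349102051) (nat_lit 503) (nat_lit 5) (nat_lit 520) (nat_lit 5) (nat_lit 521) (nat_lit 5) (nat_lit 413) (nat_lit 399) (nat_lit 328))) (XT.nd (nat_lit 78) (nat_lit 0) (nat_lit 0) (XT.lf (nat_lit 0) (nat_lit 2068789025) (nat_lit 1292) (nat_lit 988411540) (nat_lit 1368) (nat_lit 4788744623) (nat_lit 503) (nat_lit 5) (nat_lit 520) (nat_lit 5) (nat_lit 521) (nat_lit 5) (nat_lit 414) (nat_lit 399) (nat_lit 327)) (XT.lf (nat_lit 76) (nat_lit 3050710458) (nat_lit 0) (nat_lit 595366201) (nat_lit 1368) (nat_lit 4257769422) (nat_lit 504) (nat_lit 5) (nat_lit 503) (nat_lit 5) (nat_lit 521) (nat_lit 5) (nat_lit 415) (nat_lit 399) (nat_lit 326)))))) (XT.nd (nat_lit 546) (nat_lit 6384)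 (nat_lit 0) (XT.nd (nat_lit 234) (nat_lit 1216) (nat_lit 0) (XT.nd (nat_lit 78) (nat_lit 1368) (nat_lit 0) (XT.lf (nat_lit 0) (nat_lit 5241019474) (nat_lit 1292) (nat_lit 814637375) (nat_lit 1368) (nat_lit 1907552325) (nat_lit 504) (nat_lit 5) (nat_lit 521) (nat_lit 5) (nat_lit 522) (nat_lit 5) (nat_lit 416) (nat_lit 399) (nat_lit 325)) (XT.nd (nat_lit 78) (nat_lit 1368) (nat_lit 0) (XT.lf (nat_lit 76) (nat_lit 3321310183) (nat_lit 0) (nat_lit 3539699809) (nat_lit 1368) (nat_lit 1162912414) (nat_lit 505) (nat_lit 5) (nat_lit 504) (nat_lit 5) (nat_lit 522) (nat_lit 5) (nat_lit 417) (nat_lit 399) (nat_lit 324)) (XT.lf (nat_lit 0) (nat_lit 395338186) (nat_lit 1368) (nat_lit 560771448) (nat_lit 1444) (nat_lit 7130241697) (nat_lit 486) (nat_lit 5) (nat_lit 504) (nat_lit 5) (nat_lit 505) (nat_lit 5) (nat_lit 418) (nat_lit 399) (nat_lit 323)))) (XT.nd (nat_lit 156) (nat_lit 1292) (nat_lit 0) (XT.nd (nat_lit 78) (nat_lit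 0) (nat_lit 0) (XT.lf (nat_lit 0) (nat_lit 1972790871) (nat_lit 1368) (nat_lit 4479509984) (nat_lit 1444) (nat_lit 1697526435) (nat_lit 487) (nat_lit 5) (nat_lit 505) (nat_lit 5) (nat_lit 506) (nat_lit 5) (nat_lit 419) (nat_lit 399) (nat_lit 322)) (XT.lf (nat_lit 0) (nat_lit 3560958987) (nat_lit 1368) (nat_lit 250555977) (nat_lit 1444) (nat_lit 4403498361) (nat_lit 487) (nat_lit 5) (nat_lit 505) (nat_lit 5) (nat_lit 506) (nat_lit 5) (nat_lit 420) (nat_lit 399) (nat_lit 321))) (XT.nd (nat_lit 78) (nat_lit 1292) (nat_lit 0) (XT.lf (nat_lit 76) (nat_lit 4093794491) (nat_lit 0) (nat_lit 1083329068) (nat_lit 1444) (nat_lit 3104478277) (nat_lit 488) (nat_lit 5) (nat_lit 487) (nat_lit 5) (nat_lit 506) (nat_lit 5) (nat_lit 421) (nat_lit 399) (nat_lit 320)) (XT.lf (nat_lit 0) (nat_lit 146424802) (nat_lit 1368) (nat_lit 6663011123) (nat_lit 1444) (nat_lit 1540432658) (nat_lit 470) (nat_lit 5) (nat_lit 488) (nat_lit 5) (nat_lit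 489) (nat_lit 5) (nat_lit 422) (nat_lit 399) (nat_lit 319))))) (XT.nd (nat_lit 312) (nat_lit 3344) (nat_lit 0) (XT.nd (nat_lit 156) (nat_lit 1520) (nat_lit 0) (XT.nd (nat_lit 78) (nat_lit 1444) (nat_lit 0) (XT.lf (nat_lit 0) (nat_lit 60001789) (nat_lit 1444) (nat_lit 3826199605) (nat_lit 76) (nat_lit 4533197653) (nat_lit 469) (nat_lit 5) (nat_lit 488) (nat_lit 5) (nat_lit 470) (nat_lit 5) (nat_lit 423) (nat_lit 399) (nat_lit 318)) (XT.lf (nat_lit 0) (nat_lit 613241937) (nat_lit 1444) (nat_lit 1033523522) (nat_lit 1520) (nat_lit 6843873709) (nat_lit 450) (nat_lit 5) (nat_lit 469) (nat_lit 5) (nat_lit 470) (nat_lit 5) (nat_lit 424) (nat_lit 399) (nat_lit 317))) (XT.nd (nat_lit 78) (nat_lit 1520) (nat_lit 0) (XT.lf (nat_lit 0) (nat_lit 3274694376) (nat_lit 1520) (nat_lit 3405471174) (nat_lit 76) (nat_lit 1882971150) (nat_lit 450) (nat_lit 5) (nat_lit 470) (nat_lit 5) (nat_lit 451) (nat_lit 5) (nat_lit 425) (nat_lit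 399) (nat_lit 316)) (XT.lf (nat_lit 0) (nat_lit 1140808405) (nat_lit 1520) (nat_lit 3780588148) (nat_lit 1596) (nat_lit 3715984132) (nat_lit 430) (nat_lit 5) (nat_lit 450) (nat_lit 5) (nat_lit 451) (nat_lit 5) (nat_lit 426) (nat_lit 399) (nat_lit 315)))) (XT.nd (nat_lit 156) (nat_lit 1748) (nat_lit 0) (XT.nd (nat_lit 78) (nat_lit 1596) (nat_lit 0) (XT.lf (nat_lit 0) (nat_lit 5801125904) (nat_lit 1520) (nat_lit 795122729) (nat_lit 1596) (nat_lit 2116976984) (nat_lit 430) (nat_lit 5) (nat_lit 450) (nat_lit 5) (nat_lit 451) (nat_lit 5) (nat_lit 427) (nat_lit 399) (nat_lit 314)) (XT.lf (nat_lit 0) (nat_lit 1749205769) (nat_lit 1596) (nat_lit 6554292267) (nat_lit 1672) (nat_lit 487131391) (nat_lit 409) (nat_lit 5) (nat_lit 430) (nat_lit 5) (nat_lit 431) (nat_lit 5) (nat_lit 428) (nat_lit 399) (nat_lit 313))) (XT.nd (nat_lit 78) (nat_lit 1672) (nat_lit 0) (XT.lf (nat_lit 0) (nat_lit 1157953070) (nat_lit 1672) (nat_lit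 2362417601) (nat_lit 76) (nat_lit 5349116106) (nat_lit 408) (nat_lit 5) (nat_lit 430) (nat_lit 5) (nat_lit 409) (nat_lit 5) (nat_lit 429) (nat_lit 399) (nat_lit 312)) (XT.lf (nat_lit 0) (nat_lit 2415670840) (nat_lit 1672) (nat_lit 403082518) (nat_lit 1748) (nat_lit 6131335614) (nat_lit 386) (nat_lit 5) (nat_lit 408) (nat_lit 5) (nat_lit 409) (nat_lit 5) (nat_lit 430) (nat_lit 399) (nat_lit 311))))))))
noncomputable def xc148 : XT := (XT.nd (nat_lit 2184) (nat_lit 7448) (nat_lit 0) (XT.nd (nat_lit 1092) (nat_lit 5548) (nat_lit 0) (XT.nd (nat_lit 546) (nat_lit 2432) (nat_lit 0) (XT.nd (nat_lit 234) (nat_lit 2660) (nat_lit 0) (XT.nd (nat_lit 78) (nat_lit 1444) (nat_lit 0) (XT.lf (nat_lit 0) (nat_lit 4520790853) (nat_lit 1748) (nat_lit 1752135575) (nat_lit 76) (nat_lit 2759234823) (nat_lit 386) (nat_lit 5) (nat_lit 409) (nat_lit 5) (nat_lit 387) (nat_lit 5) (nat_lit 431) (nat_lit 399) (nat_lit 310)) (XT.nd (nat_lit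 78) (nat_lit 0) (nat_lit 0) (XT.lf (nat_lit 0) (nat_lit 3141420103) (nat_lit 1444) (nat_lit 3113059632) (nat_lit 1520) (nat_lit 2861461129) (nat_lit 367) (nat_lit 5) (nat_lit 386) (nat_lit 5) (nat_lit 387) (nat_lit 5) (nat_lit 432) (nat_lit 399) (nat_lit 309)) (XT.lf (nat_lit 0) (nat_lit 8010303925) (nat_lit 1520) (nat_lit 1068643248) (nat_lit 76) (nat_lit 122717412) (nat_lit 367) (nat_lit 5) (nat_lit 387) (nat_lit 5) (nat_lit 368) (nat_lit 5) (nat_lit 433) (nat_lit 399) (nat_lit 308)))) (XT.nd (nat_lit 156) (nat_lit 1748) (nat_lit 0) (XT.nd (nat_lit 78) (nat_lit 0) (nat_lit 0) (XT.lf (nat_lit 0) (nat_lit 527175561) (nat_lit 912) (nat_lit 5348530241) (nat_lit 76) (nat_lit 3412912522) (nat_lit 355) (nat_lit 5) (nat_lit 367) (nat_lit 5) (nat_lit 356) (nat_lit 5) (nat_lit 434) (nat_lit 399) (nat_lit 307)) (XT.lf (nat_lit 0) (nat_lit 2246924884) (nat_lit 912) (nat_lit 344647702) (nat_lit 76) (nat_lit 6785941882) (nat_lit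 355) (nat_lit 5) (nat_lit 367) (nat_lit 5) (nat_lit 356) (nat_lit 5) (nat_lit 435) (nat_lit 399) (nat_lit 306))) (XT.nd (nat_lit 78) (nat_lit 836) (nat_lit 0) (XT.lf (nat_lit 0) (nat_lit 4013410704) (nat_lit 988) (nat_lit 4673509046) (nat_lit 76) (nat_lit 781038351) (nat_lit 343) (nat_lit 5) (nat_lit 356) (nat_lit 5) (nat_lit 344) (nat_lit 5) (nat_lit 436) (nat_lit 399) (nat_lit 305)) (XT.lf (nat_lit 0) (nat_lit 446595096) (nat_lit 836) (nat_lit 5367393968) (nat_lit 912) (nat_lit 3746262360) (nat_lit 332) (nat_lit 5) (nat_lit 343) (nat_lit 5) (nat_lit 344) (nat_lit 5) (nat_lit 437) (nat_lit 399) (nat_lit 304))))) (XT.nd (nat_lit 234) (nat_lit 1520) (nat_lit 0) (XT.nd (nat_lit 78) (nat_lit 912) (nat_lit 0) (XT.lf (nat_lit 0) (nat_lit 5709683535) (nat_lit 836) (nat_lit 1948945039) (nat_lit 912) (nat_lit 1995616806) (nat_lit 332) (nat_lit 5) (nat_lit 343) (nat_lit 5) (nat_lit 344) (nat_lit 5) (nat_lit 438) (nat_lit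 399) (nat_lit 303)) (XT.nd (nat_lit 78) (nat_lit 76) (nat_lit 0) (XT.lf (nat_lit 0) (nat_lit 1312343249) (nat_lit 836) (nat_lit 8223471555) (nat_lit 912) (nat_lit 214406782) (nat_lit 321) (nat_lit 5) (nat_lit 332) (nat_lit 5) (nat_lit 333) (nat_lit 5) (nat_lit 439) (nat_lit 399) (nat_lit 302)) (XT.lf (nat_lit 0) (nat_lit 1598248794) (nat_lit 912) (nat_lit 3166182870) (nat_lit 76) (nat_lit 5083155672) (nat_lit 320) (nat_lit 5) (nat_lit 332) (nat_lit 5) (nat_lit 321) (nat_lit 5) (nat_lit 440) (nat_lit 399) (nat_lit 301)))) (XT.nd (nat_lit 156) (nat_lit 760) (nat_lit 0) (XT.nd (nat_lit 78) (nat_lit 0) (nat_lit 0) (XT.lf (nat_lit 0) (nat_lit 2216076389) (nat_lit 760) (nat_lit 1220331669) (nat_lit 836) (nat_lit 6510636127) (nat_lit 310) (nat_lit 5) (nat_lit 320) (nat_lit 5) (nat_lit 321) (nat_lit 5) (nat_lit 441) (nat_lit 399) (nat_lit 300)) (XT.lf (nat_lit 0) (nat_lit 5326285103) (nat_lit 836) (nat_lit 2337671963)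 (nat_lit 76) (nat_lit 2384248286) (nat_lit 310) (nat_lit 5) (nat_lit 321) (nat_lit 5) (nat_lit 311) (nat_lit 5) (nat_lit 442) (nat_lit 399) (nat_lit 299))) (XT.nd (nat_lit 78) (nat_lit 0) (nat_lit 0) (XT.lf (nat_lit 0) (nat_lit 3174674314) (nat_lit 760) (nat_lit 4086429602) (nat_lit 836) (nat_lit 2890156935) (nat_lit 300) (nat_lit 5) (nat_lit 310) (nat_lit 5) (nat_lit 311) (nat_lit 5) (nat_lit 443) (nat_lit 399) (nat_lit 298)) (XT.lf (nat_lit 0) (nat_lit 8806732216) (nat_lit 760) (nat_lit 422302619) (nat_lit 836) (nat_lit 1027468029) (nat_lit 300) (nat_lit 5) (nat_lit 310) (nat_lit 5) (nat_lit 311) (nat_lit 5) (nat_lit 444) (nat_lit 399) (nat_lit 297)))))) (XT.nd (nat_lit 546) (nat_lit 2584) (nat_lit 0) (XT.nd (nat_lit 234) (nat_lit 1444) (nat_lit 0) (XT.nd (nat_lit 78) (nat_lit 760) (nat_lit 0) (XT.lf (nat_lit 0) (nat_lit 889129422) (nat_lit 760) (nat_lit 6170238760) (nat_lit 76) (nat_lit 3303819479) (nat_lit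 290) (nat_lit 5) (nat_lit 300) (nat_lit 5) (nat_lit 291) (nat_lit 5) (nat_lit 445) (nat_lit 399) (nat_lit 296)) (XT.nd (nat_lit 78) (nat_lit 760) (nat_lit 0) (XT.lf (nat_lit 0) (nat_lit 2822159851) (nat_lit 760) (nat_lit 535656533) (nat_lit 76) (nat_lit 7114229690) (nat_lit 290) (nat_lit 5) (nat_lit 300) (nat_lit 5) (nat_lit 291) (nat_lit 5) (nat_lit 446) (nat_lit 399) (nat_lit 295)) (XT.lf (nat_lit 0) (nat_lit 4810584787) (nat_lit 836) (nat_lit 5327076699) (nat_lit 76) (nat_lit 445098165) (nat_lit 280) (nat_lit 5) (nat_lit 291) (nat_lit 5) (nat_lit 281) (nat_lit 5) (nat_lit 447) (nat_lit 399) (nat_lit 294)))) (XT.nd (nat_lit 156) (nat_lit 760) (nat_lit 0) (XT.nd (nat_lit 78) (nat_lit 0) (nat_lit 0) (XT.lf (nat_lit 0) (nat_lit 435774046) (nat_lit 684) (nat_lit 6411598321) (nat_lit 760) (nat_lit 3848155675) (nat_lit 271) (nat_lit 5) (nat_lit 280) (nat_lit 5) (nat_lit 281) (nat_lit 5) (nat_lit 448) (nat_lit 399)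 (nat_lit 293)) (XT.lf (nat_lit 0) (nat_lit 6364062828) (nat_lit 684) (nat_lit 2576740542) (nat_lit 760) (nat_lit 1869442459) (nat_lit 271) (nat_lit 5) (nat_lit 280) (nat_lit 5) (nat_lit 281) (nat_lit 5) (nat_lit 449) (nat_lit 399) (nat_lit 292))) (XT.nd (nat_lit 78) (nat_lit 0) (nat_lit 0) (XT.lf (nat_lit 0) (nat_lit 145633935) (nat_lit 760) (nat_lit 9455934170) (nat_lit 76) (nat_lit 1325707428) (nat_lit 261) (nat_lit 5) (nat_lit 271) (nat_lit 5) (nat_lit 262) (nat_lit 5) (nat_lit 450) (nat_lit 399) (nat_lit 291)) (XT.lf (nat_lit 0) (nat_lit 2203738008) (nat_lit 760) (nat_lit 3530314393) (nat_lit 76) (nat_lit 5311802609) (nat_lit 261) (nat_lit 5) (nat_lit 271) (nat_lit 5) (nat_lit 262) (nat_lit 5) (nat_lit 451) (nat_lit 399) (nat_lit 290))))) (XT.nd (nat_lit 234) (nat_lit 1292) (nat_lit 0) (XT.nd (nat_lit 78) (nat_lit 684) (nat_lit 0) (XT.lf (nat_lit 0) (nat_lit 2525262370) (nat_lit 608) (nat_lit 1775153409) (nat_lit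 684) (nat_lit 6866453318) (nat_lit 253) (nat_lit 5) (nat_lit 261) (nat_lit 5) (nat_lit 262) (nat_lit 5) (nat_lit 452) (nat_lit 399) (nat_lit 289)) (XT.nd (nat_lit 78) (nat_lit 684) (nat_lit 0) (XT.lf (nat_lit 0) (nat_lit 6458796989) (nat_lit 684) (nat_lit 2576774038) (nat_lit 76) (nat_lit 2254348076) (nat_lit 253) (nat_lit 5) (nat_lit 262) (nat_lit 5) (nat_lit 254) (nat_lit 5) (nat_lit 453) (nat_lit 399) (nat_lit 288)) (XT.lf (nat_lit 0) (nat_lit 3623653506) (nat_lit 684) (nat_lit 5053573817) (nat_lit 760) (nat_lit 2737875973) (nat_lit 244) (nat_lit 5) (nat_lit 253) (nat_lit 5) (nat_lit 254) (nat_lit 5) (nat_lit 454) (nat_lit 399) (nat_lit 287)))) (XT.nd (nat_lit 156) (nat_lit 608) (nat_lit 0) (XT.nd (nat_lit 78) (nat_lit 684) (nat_lit 0) (XT.lf (nat_lit 0) (nat_lit 9961689025) (nat_lit 684) (nat_lit 977449437) (nat_lit 760) (nat_lit 603681071) (nat_lit 244) (nat_lit 5) (nat_lit 253) (nat_lit 5) (nat_lit 254) (nat_lit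 5) (nat_lit 455) (nat_lit 399) (nat_lit 286)) (XT.lf (nat_lit 0) (nat_lit 1586580232) (nat_lit 684) (nat_lit 6908760077) (nat_lit 76) (nat_lit 3176875390) (nat_lit 235) (nat_lit 5) (nat_lit 244) (nat_lit 5) (nat_lit 236) (nat_lit 5) (nat_lit 456) (nat_lit 399) (nat_lit 285))) (XT.nd (nat_lit 78) (nat_lit 608) (nat_lit 0) (XT.lf (nat_lit 0) (nat_lit 3811967714) (nat_lit 684) (nat_lit 579526921) (nat_lit 76) (nat_lit 7412647254) (nat_lit 235) (nat_lit 5) (nat_lit 244) (nat_lit 5) (nat_lit 236) (nat_lit 5) (nat_lit 457) (nat_lit 399) (nat_lit 284)) (XT.lf (nat_lit 0) (nat_lit 5933160138) (nat_lit 608) (nat_lit 169816019) (nat_lit 684) (nat_lit 5835317979) (nat_lit 227) (nat_lit 5) (nat_lit 235) (nat_lit 5) (nat_lit 236) (nat_lit 5) (nat_lit 458) (nat_lit 399) (nat_lit 283))))))) (XT.nd (nat_lit 1092) (nat_lit 3116) (nat_lit 0) (XT.nd (nat_lit 546) (nat_lit 2052) (nat_lit 0) (XT.nd (nat_lit 234) (nat_lit 1064) (nat_lit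 0) (XT.nd (nat_lit 78) (nat_lit 684) (nat_lit 0) (XT.lf (nat_lit 0) (nat_lit 467010852) (nat_lit 532) (nat_lit 7989370377) (nat_lit 608) (nat_lit 3618426277) (nat_lit 220) (nat_lit 5) (nat_lit 227) (nat_lit 5) (nat_lit 228) (nat_lit 5) (nat_lit 459) (nat_lit 399) (nat_lit 282)) (XT.nd (nat_lit 78) (nat_lit 684) (nat_lit 0) (XT.lf (nat_lit 0) (nat_lit 7127861607) (nat_lit 532) (nat_lit 3753383092) (nat_lit 608) (nat_lit 1332328054) (nat_lit 220) (nat_lit 5) (nat_lit 227) (nat_lit 5) (nat_lit 228) (nat_lit 5) (nat_lit 460) (nat_lit 399) (nat_lit 281)) (XT.lf (nat_lit 0) (nat_lit 983469062) (nat_lit 684) (nat_lit 10798927052) (nat_lit 76) (nat_lit 572654746) (nat_lit 211) (nat_lit 5) (nat_lit 220) (nat_lit 5) (nat_lit 212) (nat_lit 5) (nat_lit 461) (nat_lit 399) (nat_lit 280)))) (XT.nd (nat_lit 156) (nat_lit 532) (nat_lit 0) (XT.nd (nat_lit 78) (nat_lit 532) (nat_lit 0) (XT.lf (nat_lit 0) (nat_lit 3370328146) (nat_lit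 684) (nat_lit 4153845699) (nat_lit 76) (nat_lit 4974165707) (nat_lit 211) (nat_lit 5) (nat_lit 220) (nat_lit 5) (nat_lit 212) (nat_lit 5) (nat_lit 462) (nat_lit 399) (nat_lit 279)) (XT.lf (nat_lit 0) (nat_lit 2638151700) (nat_lit 532) (nat_lit 3167586212) (nat_lit 608) (nat_lit 6838748534) (nat_lit 204) (nat_lit 5) (nat_lit 211) (nat_lit 5) (nat_lit 212) (nat_lit 5) (nat_lit 463) (nat_lit 399) (nat_lit 278))) (XT.nd (nat_lit 78) (nat_lit 532) (nat_lit 0) (XT.lf (nat_lit 0) (nat_lit 8310044408) (nat_lit 608) (nat_lit 3199926384) (nat_lit 76) (nat_lit 1283190246) (nat_lit 204) (nat_lit 5) (nat_lit 212) (nat_lit 5) (nat_lit 205) (nat_lit 5) (nat_lit 464) (nat_lit 399) (nat_lit 277)) (XT.lf (nat_lit 0) (nat_lit 3750474814) (nat_lit 532) (nat_lit 7143450906) (nat_lit 608) (nat_lit 2050301989) (nat_lit 197) (nat_lit 5) (nat_lit 204) (nat_lit 5) (nat_lit 205) (nat_lit 5) (nat_lit 465) (nat_lit 399) (nat_lit 276))))) (XT.nd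 (nat_lit 234) (nat_lit 1520) (nat_lit 0) (XT.nd (nat_lit 78) (nat_lit 456) (nat_lit 0) (XT.lf (nat_lit 0) (nat_lit 431357752) (nat_lit 608) (nat_lit 2237997880) (nat_lit 76) (nat_lit 10428795257) (nat_lit 196) (nat_lit 5) (nat_lit 204) (nat_lit 5) (nat_lit 197) (nat_lit 5) (nat_lit 466) (nat_lit 399) (nat_lit 275)) (XT.nd (nat_lit 78) (nat_lit 0) (nat_lit 0) (XT.lf (nat_lit 0) (nat_lit 2964061291) (nat_lit 532) (nat_lit 8379768977) (nat_lit 76) (nat_lit 1910481812) (nat_lit 190) (nat_lit 5) (nat_lit 197) (nat_lit 5) (nat_lit 191) (nat_lit 5) (nat_lit 467) (nat_lit 399) (nat_lit 274)) (XT.lf (nat_lit 0) (nat_lit 5564895947) (nat_lit 532) (nat_lit 1291582966) (nat_lit 76) (nat_lit 6556775766) (nat_lit 190) (nat_lit 5) (nat_lit 197) (nat_lit 5) (nat_lit 191) (nat_lit 5) (nat_lit 468) (nat_lit 399) (nat_lit 273)))) (XT.nd (nat_lit 156) (nat_lit 988) (nat_lit 0) (XT.nd (nat_lit 78) (nat_lit 0) (nat_lit 0) (XT.lf (nat_lit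 0) (nat_lit 5997236221) (nat_lit 532) (nat_lit 2244431062) (nat_lit 608) (nat_lit 5333238020) (nat_lit 183) (nat_lit 5) (nat_lit 190) (nat_lit 5) (nat_lit 191) (nat_lit 5) (nat_lit 469) (nat_lit 399) (nat_lit 272)) (XT.lf (nat_lit 0) (nat_lit 10981787295) (nat_lit 608) (nat_lit 326232950) (nat_lit 76) (nat_lit 2431579856) (nat_lit 183) (nat_lit 5) (nat_lit 191) (nat_lit 5) (nat_lit 184) (nat_lit 5) (nat_lit 470) (nat_lit 399) (nat_lit 271))) (XT.nd (nat_lit 78) (nat_lit 532) (nat_lit 0) (XT.lf (nat_lit 0) (nat_lit 7129332893) (nat_lit 456) (nat_lit 6693938382) (nat_lit 532) (nat_lit 83393567) (nat_lit 177) (nat_lit 5) (nat_lit 183) (nat_lit 5) (nat_lit 184) (nat_lit 5) (nat_lit 471) (nat_lit 399) (nat_lit 270)) (XT.lf (nat_lit 0) (nat_lit 632912142) (nat_lit 456) (nat_lit 1968698508) (nat_lit 532) (nat_lit 11475288230) (nat_lit 170) (nat_lit 5) (nat_lit 176) (nat_lit 5) (nat_lit 177) (nat_lit 5) (nat_lit 472) (nat_lit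 399) (nat_lit 269)))))) (XT.nd (nat_lit 546) (nat_lit 1748) (nat_lit 0) (XT.nd (nat_lit 234) (nat_lit 912) (nat_lit 0) (XT.nd (nat_lit 78) (nat_lit 456) (nat_lit 0) (XT.lf (nat_lit 0) (nat_lit 5389083121) (nat_lit 532) (nat_lit 6005504223) (nat_lit 76) (nat_lit 2854948393) (nat_lit 170) (nat_lit 5) (nat_lit 177) (nat_lit 5) (nat_lit 171) (nat_lit 5) (nat_lit 473) (nat_lit 399) (nat_lit 268)) (XT.nd (nat_lit 78) (nat_lit 0) (nat_lit 0) (XT.lf (nat_lit 0) (nat_lit 1569945912) (nat_lit 456) (nat_lit 6671464730) (nat_lit 532) (nat_lit 6184039303) (nat_lit 164) (nat_lit 5) (nat_lit 170) (nat_lit 5) (nat_lit 171) (nat_lit 5) (nat_lit 474) (nat_lit 399) (nat_lit 267)) (XT.lf (nat_lit 0) (nat_lit 9359084158) (nat_lit 456) (nat_lit 1818027514) (nat_lit 532) (nat_lit 3427250819) (nat_lit 164) (nat_lit 5) (nat_lit 170) (nat_lit 5) (nat_lit 171) (nat_lit 5) (nat_lit 475) (nat_lit 399) (nat_lit 266)))) (XT.nd (nat_lit 156)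 (nat_lit 380) (nat_lit 0) (XT.nd (nat_lit 78) (nat_lit 76) (nat_lit 0) (XT.lf (nat_lit 0) (nat_lit 2510644218) (nat_lit 456) (nat_lit 11683788804) (nat_lit 532) (nat_lit 591968604) (nat_lit 158) (nat_lit 5) (nat_lit 164) (nat_lit 5) (nat_lit 165) (nat_lit 5) (nat_lit 476) (nat_lit 399) (nat_lit 265)) (XT.lf (nat_lit 0) (nat_lit 2303642952) (nat_lit 532) (nat_lit 4524956990) (nat_lit 76) (nat_lit 8142513372) (nat_lit 157) (nat_lit 5) (nat_lit 164) (nat_lit 5) (nat_lit 158) (nat_lit 5) (nat_lit 477) (nat_lit 399) (nat_lit 264))) (XT.nd (nat_lit 78) (nat_lit 0) (nat_lit 0) (XT.lf (nat_lit 0) (nat_lit 3402783411) (nat_lit 380) (nat_lit 1855142957) (nat_lit 456) (nat_lit 9901346979) (nat_lit 152) (nat_lit 5) (nat_lit 157) (nat_lit 5) (nat_lit 158) (nat_lit 5) (nat_lit 478) (nat_lit 399) (nat_lit 263)) (XT.lf (nat_lit 0) (nat_lit 8309445818) (nat_lit 456) (nat_lit 3840163440) (nat_lit 76) (nat_lit 3200830287) (nat_lit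 152) (nat_lit 5) (nat_lit 158) (nat_lit 5) (nat_lit 153) (nat_lit 5) (nat_lit 479) (nat_lit 399) (nat_lit 262))))) (XT.nd (nat_lit 312) (nat_lit 836) (nat_lit 0) (XT.nd (nat_lit 156) (nat_lit 456) (nat_lit 0) (XT.nd (nat_lit 78) (nat_lit 0) (nat_lit 0) (XT.lf (nat_lit 0) (nat_lit 4259542373) (nat_lit 456) (nat_lit 7189348150) (nat_lit 532) (nat_lit 4096006501) (nat_lit 146) (nat_lit 5) (nat_lit 152) (nat_lit 5) (nat_lit 153) (nat_lit 5) (nat_lit 480) (nat_lit 399) (nat_lit 261)) (XT.lf (nat_lit 0) (nat_lit 12554892451) (nat_lit 456) (nat_lit 2109090893) (nat_lit 532) (nat_lit 1079008866) (nat_lit 146) (nat_lit 5) (nat_lit 152) (nat_lit 5) (nat_lit 153) (nat_lit 5) (nat_lit 481) (nat_lit 399) (nat_lit 260))) (XT.nd (nat_lit 78) (nat_lit 0) (nat_lit 0) (XT.lf (nat_lit 0) (nat_lit 2012751489) (nat_lit 456) (nat_lit 10857722415) (nat_lit 76) (nat_lit 3073508799) (nat_lit 140) (nat_lit 5) (nat_lit 146) (nat_lit 5) (nat_lit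 141) (nat_lit 5) (nat_lit 482) (nat_lit 399) (nat_lit 259)) (XT.lf (nat_lit 0) (nat_lit 5174765912) (nat_lit 456) (nat_lit 2618817532) (nat_lit 76) (nat_lit 8354814989) (nat_lit 140) (nat_lit 5) (nat_lit 146) (nat_lit 5) (nat_lit 141) (nat_lit 5) (nat_lit 483) (nat_lit 399) (nat_lit 258)))) (XT.nd (nat_lit 156) (nat_lit 456) (nat_lit 0) (XT.nd (nat_lit 78) (nat_lit 0) (nat_lit 0) (XT.lf (nat_lit 0) (nat_lit 5843543247) (nat_lit 380) (nat_lit 2582015854) (nat_lit 456) (nat_lit 7930837909) (nat_lit 135) (nat_lit 5) (nat_lit 140) (nat_lit 5) (nat_lit 141) (nat_lit 5) (nat_lit 484) (nat_lit 399) (nat_lit 257)) (XT.lf (nat_lit 0) (nat_lit 11764497199) (nat_lit 456) (nat_lit 2093477683) (nat_lit 76) (nat_lit 2710123296) (nat_lit 135) (nat_lit 5) (nat_lit 141) (nat_lit 5) (nat_lit 136) (nat_lit 5) (nat_lit 485) (nat_lit 399) (nat_lit 256))) (XT.nd (nat_lit 78) (nat_lit 76) (nat_lit 0) (XT.lf (nat_lit 0) (nat_lit 6545325991)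 (nat_lit 380) (nat_lit 8672414974) (nat_lit 456) (nat_lit 1565346963) (nat_lit 130) (nat_lit 5) (nat_lit 135) (nat_lit 5) (nat_lit 136) (nat_lit 5) (nat_lit 486) (nat_lit 399) (nat_lit 255)) (XT.lf (nat_lit 0) (nat_lit 1716992903) (nat_lit 456) (nat_lit 1645940203) (nat_lit 76) (nat_lit 13639181408) (nat_lit 129) (nat_lit 5) (nat_lit 135) (nat_lit 5) (nat_lit 130) (nat_lit 5) (nat_lit 487) (nat_lit 399) (nat_lit 254))))))))
noncomputable def xc149 : XT := (XT.nd (nat_lit 2184) (nat_lit 1216) (nat_lit 0) (XT.nd (nat_lit 1092) (nat_lit 1976) (nat_lit 0) (XT.nd (nat_lit 546) (nat_lit 988) (nat_lit 0) (XT.nd (nat_lit 234) (nat_lit 760) (nat_lit 0) (XT.nd (nat_lit 78) (nat_lit 304) (nat_lit 0) (XT.lf (nat_lit 0) (nat_lit 5092557611) (nat_lit 456) (nat_lit 10054121739) (nat_lit 76) (nat_lit 2077669388) (nat_lit 124) (nat_lit 5) (nat_lit 130) (nat_lit 5) (nat_lit 125) (nat_lit 5) (nat_lit 488) (nat_lit 399) (nat_lit 253))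 (XT.nd (nat_lit 78) (nat_lit 304) (nat_lit 0) (XT.lf (nat_lit 0) (nat_lit 8557310713) (nat_lit 456) (nat_lit 1305613395) (nat_lit 76) (nat_lit 7587674705) (nat_lit 124) (nat_lit 5) (nat_lit 130) (nat_lit 5) (nat_lit 125) (nat_lit 5) (nat_lit 489) (nat_lit 399) (nat_lit 252)) (XT.lf (nat_lit 0) (nat_lit 7701726483) (nat_lit 304) (nat_lit 4428154509) (nat_lit 380) (nat_lit 5550727071) (nat_lit 120) (nat_lit 5) (nat_lit 124) (nat_lit 5) (nat_lit 125) (nat_lit 5) (nat_lit 490) (nat_lit 399) (nat_lit 251)))) (XT.nd (nat_lit 156) (nat_lit 304) (nat_lit 0) (XT.nd (nat_lit 78) (nat_lit 456) (nat_lit 0) (XT.lf (nat_lit 0) (nat_lit 15778558535) (nat_lit 380) (nat_lit 1032660972) (nat_lit 76) (nat_lit 1103909399) (nat_lit 120) (nat_lit 5) (nat_lit 125) (nat_lit 5) (nat_lit 121) (nat_lit 5) (nat_lit 491) (nat_lit 399) (nat_lit 250)) (XT.lf (nat_lit 0) (nat_lit 1399764752) (nat_lit 456) (nat_lit 10008935402) (nat_lit 76) (nat_lit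 6744038666) (nat_lit 114) (nat_lit 5) (nat_lit 120) (nat_lit 5) (nat_lit 115) (nat_lit 5) (nat_lit 492) (nat_lit 399) (nat_lit 249))) (XT.nd (nat_lit 78) (nat_lit 304) (nat_lit 0) (XT.lf (nat_lit 0) (nat_lit 4974071679) (nat_lit 456) (nat_lit 908296485) (nat_lit 76) (nat_lit 12512537502) (nat_lit 114) (nat_lit 5) (nat_lit 120) (nat_lit 5) (nat_lit 115) (nat_lit 5) (nat_lit 493) (nat_lit 399) (nat_lit 248)) (XT.lf (nat_lit 0) (nat_lit 8468823519) (nat_lit 304) (nat_lit 195096490) (nat_lit 380) (nat_lit 9977118915) (nat_lit 110) (nat_lit 5) (nat_lit 114) (nat_lit 5) (nat_lit 115) (nat_lit 5) (nat_lit 494) (nat_lit 399) (nat_lit 247))))) (XT.nd (nat_lit 234) (nat_lit 608) (nat_lit 0) (XT.nd (nat_lit 78) (nat_lit 380) (nat_lit 0) (XT.lf (nat_lit 0) (nat_lit 12459238637) (nat_lit 380) (nat_lit 899288898) (nat_lit 76) (nat_lit 5532937945) (nat_lit 110) (nat_lit 5) (nat_lit 115) (nat_lit 5) (nat_lit 111) (nat_lit 5) (nat_lit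 495) (nat_lit 399) (nat_lit 246)) (XT.nd (nat_lit 78) (nat_lit 76) (nat_lit 0) (XT.lf (nat_lit 0) (nat_lit 8654966181) (nat_lit 304) (nat_lit 7722336663) (nat_lit 380) (nat_lit 2768664960) (nat_lit 106) (nat_lit 5) (nat_lit 110) (nat_lit 5) (nat_lit 111) (nat_lit 5) (nat_lit 496) (nat_lit 399) (nat_lit 245)) (XT.lf (nat_lit 0) (nat_lit 950928117) (nat_lit 380) (nat_lit 1015655735) (nat_lit 76) (nat_lit 17438945310) (nat_lit 105) (nat_lit 5) (nat_lit 110) (nat_lit 5) (nat_lit 106) (nat_lit 5) (nat_lit 497) (nat_lit 399) (nat_lit 244)))) (XT.nd (nat_lit 156) (nat_lit 304) (nat_lit 0) (XT.nd (nat_lit 78) (nat_lit 0) (nat_lit 0) (XT.lf (nat_lit 0) (nat_lit 4779951984) (nat_lit 380) (nat_lit 10965520524) (nat_lit 76) (nat_lit 3923004782) (nat_lit 101) (nat_lit 5) (nat_lit 106) (nat_lit 5) (nat_lit 102) (nat_lit 5) (nat_lit 498) (nat_lit 399) (nat_lit 243)) (XT.lf (nat_lit 0) (nat_lit 8695095729) (nat_lit 380) (nat_lit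 1336040887) (nat_lit 76) (nat_lit 9905360690) (nat_lit 101) (nat_lit 5) (nat_lit 106) (nat_lit 5) (nat_lit 102) (nat_lit 5) (nat_lit 499) (nat_lit 399) (nat_lit 242))) (XT.nd (nat_lit 78) (nat_lit 0) (nat_lit 0) (XT.lf (nat_lit 0) (nat_lit 8582776384) (nat_lit 304) (nat_lit 4151348832) (nat_lit 380) (nat_lit 7474844489) (nat_lit 97) (nat_lit 5) (nat_lit 101) (nat_lit 5) (nat_lit 102) (nat_lit 5) (nat_lit 500) (nat_lit 399) (nat_lit 241)) (XT.lf (nat_lit 0) (nat_lit 16864863733) (nat_lit 380) (nat_lit 1796557149) (nat_lit 76) (nat_lit 1825255670) (nat_lit 97) (nat_lit 5) (nat_lit 102) (nat_lit 5) (nat_lit 98) (nat_lit 5) (nat_lit 501) (nat_lit 399) (nat_lit 240)))))) (XT.nd (nat_lit 546) (nat_lit 760) (nat_lit 0) (XT.nd (nat_lit 234) (nat_lit 608) (nat_lit 0) (XT.nd (nat_lit 78) (nat_lit 304) (nat_lit 0) (XT.lf (nat_lit 0) (nat_lit 376173372) (nat_lit 304) (nat_lit 12475580262) (nat_lit 76) (nat_lit 7916708560)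 (nat_lit 93) (nat_lit 5) (nat_lit 97) (nat_lit 5) (nat_lit 94) (nat_lit 5) (nat_lit 502) (nat_lit 399) (nat_lit 239)) (XT.nd (nat_lit 78) (nat_lit 304) (nat_lit 0) (XT.lf (nat_lit 0) (nat_lit 4407944934) (nat_lit 304) (nat_lit 2486846007) (nat_lit 76) (nat_lit 14160570732) (nat_lit 93) (nat_lit 5) (nat_lit 97) (nat_lit 5) (nat_lit 94) (nat_lit 5) (nat_lit 503) (nat_lit 399) (nat_lit 238)) (XT.lf (nat_lit 0) (nat_lit 7788515793) (nat_lit 304) (nat_lit 772738367) (nat_lit 380) (nat_lit 12785930234) (nat_lit 89) (nat_lit 5) (nat_lit 93) (nat_lit 5) (nat_lit 94) (nat_lit 5) (nat_lit 504) (nat_lit 399) (nat_lit 237)))) (XT.nd (nat_lit 156) (nat_lit 380) (nat_lit 0) (XT.nd (nat_lit 78) (nat_lit 228) (nat_lit 0) (XT.lf (nat_lit 0) (nat_lit 12840342816) (nat_lit 380) (nat_lit 3392404458) (nat_lit 76) (nat_lit 5411245264) (nat_lit 89) (nat_lit 5) (nat_lit 94) (nat_lit 5) (nat_lit 90) (nat_lit 5) (nat_lit 505) (nat_lit 399)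 (nat_lit 236)) (XT.lf (nat_lit 0) (nat_lit 7049471056) (nat_lit 228) (nat_lit 10197006380) (nat_lit 304) (nat_lit 4699433293) (nat_lit 86) (nat_lit 5) (nat_lit 89) (nat_lit 5) (nat_lit 90) (nat_lit 5) (nat_lit 506) (nat_lit 399) (nat_lit 235))) (XT.nd (nat_lit 78) (nat_lit 380) (nat_lit 0) (XT.lf (nat_lit 0) (nat_lit 17731216522) (nat_lit 228) (nat_lit 4022947611) (nat_lit 304) (nat_lit 499437670) (nat_lit 86) (nat_lit 5) (nat_lit 89) (nat_lit 5) (nat_lit 90) (nat_lit 5) (nat_lit 507) (nat_lit 399) (nat_lit 234)) (XT.lf (nat_lit 0) (nat_lit 3780467618) (nat_lit 380) (nat_lit 16481714048) (nat_lit 76) (nat_lit 2303865683) (nat_lit 81) (nat_lit 5) (nat_lit 86) (nat_lit 5) (nat_lit 82) (nat_lit 5) (nat_lit 508) (nat_lit 399) (nat_lit 233))))) (XT.nd (nat_lit 234) (nat_lit 532) (nat_lit 0) (XT.nd (nat_lit 78) (nat_lit 228) (nat_lit 0) (XT.lf (nat_lit 0) (nat_lit 8187313654) (nat_lit 380) (nat_lit 5964633989) (nat_lit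 76) (nat_lit 8731770463) (nat_lit 81) (nat_lit 5) (nat_lit 86) (nat_lit 5) (nat_lit 82) (nat_lit 5) (nat_lit 509) (nat_lit 399) (nat_lit 232)) (XT.nd (nat_lit 78) (nat_lit 0) (nat_lit 0) (XT.lf (nat_lit 0) (nat_lit 4811343258) (nat_lit 228) (nat_lit 7893204785) (nat_lit 304) (nat_lit 10502752076) (nat_lit 78) (nat_lit 5) (nat_lit 81) (nat_lit 5) (nat_lit 82) (nat_lit 5) (nat_lit 510) (nat_lit 399) (nat_lit 231)) (XT.lf (nat_lit 0) (nat_lit 15869241888) (nat_lit 228) (nat_lit 1474006461) (nat_lit 304) (nat_lit 6193485814) (nat_lit 78) (nat_lit 5) (nat_lit 81) (nat_lit 5) (nat_lit 82) (nat_lit 5) (nat_lit 511) (nat_lit 399) (nat_lit 230)))) (XT.nd (nat_lit 156) (nat_lit 228) (nat_lit 0) (XT.nd (nat_lit 78) (nat_lit 76) (nat_lit 0) (XT.lf (nat_lit 0) (nat_lit 3271193813) (nat_lit 228) (nat_lit 18848943322) (nat_lit 304) (nat_lit 1751714221) (nat_lit 75) (nat_lit 5) (nat_lit 78) (nat_lit 5) (nat_lit 79) (nat_lit 5)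 (nat_lit 512) (nat_lit 399) (nat_lit 229)) (XT.lf (nat_lit 0) (nat_lit 2795256493) (nat_lit 304) (nat_lit 9722531937) (nat_lit 76) (nat_lit 11694468078) (nat_lit 74) (nat_lit 5) (nat_lit 78) (nat_lit 5) (nat_lit 75) (nat_lit 5) (nat_lit 513) (nat_lit 399) (nat_lit 228))) (XT.nd (nat_lit 78) (nat_lit 0) (nat_lit 0) (XT.lf (nat_lit 0) (nat_lit 1365410274) (nat_lit 228) (nat_lit 6044613537) (nat_lit 304) (nat_lit 17149210722) (nat_lit 71) (nat_lit 5) (nat_lit 74) (nat_lit 5) (nat_lit 75) (nat_lit 5) (nat_lit 514) (nat_lit 399) (nat_lit 227)) (XT.lf (nat_lit 0) (nat_lit 12177852509) (nat_lit 304) (nat_lit 12123096903) (nat_lit 76) (nat_lit 610989936) (nat_lit 71) (nat_lit 5) (nat_lit 75) (nat_lit 5) (nat_lit 72) (nat_lit 5) (nat_lit 515) (nat_lit 399) (nat_lit 226))))))) (XT.nd (nat_lit 50544) (nat_lit 0) (nat_lit 33972) (XT.nd (nat_lit 546) (nat_lit 456) (nat_lit 0) (XT.nd (nat_lit 234) (nat_lit 456) (nat_lit 0) (XT.nd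 (nat_lit 78) (nat_lit 304) (nat_lit 0) (XT.lf (nat_lit 0) (nat_lit 17072703220) (nat_lit 304) (nat_lit 884806448) (nat_lit 76) (nat_lit 7313557780) (nat_lit 71) (nat_lit 5) (nat_lit 75) (nat_lit 5) (nat_lit 72) (nat_lit 5) (nat_lit 516) (nat_lit 399) (nat_lit 225)) (XT.nd (nat_lit 78) (nat_lit 76) (nat_lit 0) (XT.lf (nat_lit 0) (nat_lit 10705099217) (nat_lit 228) (nat_lit 11421655240) (nat_lit 304) (nat_lit 3509400034) (nat_lit 68) (nat_lit 5) (nat_lit 71) (nat_lit 5) (nat_lit 72) (nat_lit 5) (nat_lit 517) (nat_lit 399) (nat_lit 224)) (XT.lf (nat_lit 0) (nat_lit 1254436276) (nat_lit 304) (nat_lit 3491506323) (nat_lit 76) (nat_lit 21262481821) (nat_lit 67) (nat_lit 5) (nat_lit 71) (nat_lit 5) (nat_lit 68) (nat_lit 5) (nat_lit 518) (nat_lit 399) (nat_lit 223)))) (XT.nd (nat_lit 156) (nat_lit 228) (nat_lit 0) (XT.nd (nat_lit 78) (nat_lit 0) (nat_lit 0) (XT.lf (nat_lit 0) (nat_lit 6126003974) (nat_lit 304) (nat_lit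 18152170189) (nat_lit 76) (nat_lit 2108315041) (nat_lit 64) (nat_lit 5) (nat_lit 68) (nat_lit 5) (nat_lit 65) (nat_lit 5) (nat_lit 519) (nat_lit 399) (nat_lit 222)) (XT.lf (nat_lit 0) (nat_lit 11142032016) (nat_lit 304) (nat_lit 6574588111) (nat_lit 76) (nat_lit 9054556839) (nat_lit 64) (nat_lit 5) (nat_lit 68) (nat_lit 5) (nat_lit 65) (nat_lit 5) (nat_lit 520) (nat_lit 399) (nat_lit 221))) (XT.nd (nat_lit 78) (nat_lit 0) (nat_lit 0) (XT.lf (nat_lit 0) (nat_lit 5290852437) (nat_lit 228) (nat_lit 10994050393) (nat_lit 304) (nat_lit 10878127429) (nat_lit 61) (nat_lit 5) (nat_lit 64) (nat_lit 5) (nat_lit 65) (nat_lit 5) (nat_lit 521) (nat_lit 399) (nat_lit 220)) (XT.lf (nat_lit 0) (nat_lit 17469724494) (nat_lit 228) (nat_lit 4097265133) (nat_lit 304) (nat_lit 5995005995) (nat_lit 61) (nat_lit 5) (nat_lit 64) (nat_lit 5) (nat_lit 65) (nat_lit 5) (nat_lit 522) (nat_lit 399) (nat_lit 219))))) (XT.nd (nat_lit 234) (nat_lit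 228) (nat_lit 0) (XT.nd (nat_lit 78) (nat_lit 76) (nat_lit 0) (XT.lf (nat_lit 0) (nat_lit 1916432463) (nat_lit 152) (nat_lit 25062158805) (nat_lit 228) (nat_lit 989873694) (nat_lit 59) (nat_lit 5) (nat_lit 61) (nat_lit 5) (nat_lit 62) (nat_lit 5) (nat_lit 523) (nat_lit 399) (nat_lit 218)) (XT.nd (nat_lit 78) (nat_lit 0) (nat_lit 0) (XT.lf (nat_lit 0) (nat_lit 4149067797) (nat_lit 228) (nat_lit 14146780508) (nat_lit 76) (nat_lit 10084929434) (nat_lit 58) (nat_lit 5) (nat_lit 61) (nat_lit 5) (nat_lit 59) (nat_lit 5) (nat_lit 524) (nat_lit 399) (nat_lit 217)) (XT.lf (nat_lit 0) (nat_lit 9370068731) (nat_lit 228) (nat_lit 2022608794) (nat_lit 76) (nat_lit 17408679696) (nat_lit 58) (nat_lit 5) (nat_lit 61) (nat_lit 5) (nat_lit 59) (nat_lit 5) (nat_lit 525) (nat_lit 399) (nat_lit 216)))) (XT.nd (nat_lit 49608) (nat_lit 0) (nat_lit 37392) (XT.nd (nat_lit 49530) (nat_lit 0) (nat_lit 37392) (XT.lf (nat_lit 0) (nat_lit 10468966515)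 (nat_lit 228) (nat_lit 4287163890) (nat_lit 304) (nat_lit 14473007043) (nat_lit 55) (nat_lit 5) (nat_lit 58) (nat_lit 5) (nat_lit 59) (nat_lit 5) (nat_lit 526) (nat_lit 399) (nat_lit 215)) (XT.lf (nat_lit 0) (nat_lit 1886190304) (nat_lit 1140) (nat_lit 861548958) (nat_lit 1140) (nat_lit 861548958) (nat_lit 547) (nat_lit 3) (nat_lit 562) (nat_lit 3) (nat_lit 562) (nat_lit 5) (nat_lit 400) (nat_lit 400) (nat_lit 340))) (XT.nd (nat_lit 78) (nat_lit 0) (nat_lit 0) (XT.lf (nat_lit 76) (nat_lit 1657821467) (nat_lit 0) (nat_lit 3725852166) (nat_lit 1140) (nat_lit 1874237060) (nat_lit 548) (nat_lit 5) (nat_lit 547) (nat_lit 3) (nat_lit 562) (nat_lit 5) (nat_lit 401) (nat_lit 400) (nat_lit 339)) (XT.lf (nat_lit 76) (nat_lit 5108513704) (nat_lit 0) (nat_lit 1889111098) (nat_lit 1140) (nat_lit 301034385) (nat_lit 548) (nat_lit 5) (nat_lit 547) (nat_lit 3) (nat_lit 562) (nat_lit 5) (nat_lit 402) (nat_lit 400) (nat_lit 338))))))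 (XT.nd (nat_lit 546) (nat_lit 1216) (nat_lit 0) (XT.nd (nat_lit 234) (nat_lit 1140) (nat_lit 0) (XT.nd (nat_lit 78) (nat_lit 0) (nat_lit 0) (XT.lf (nat_lit 0) (nat_lit 1254320647) (nat_lit 1140) (nat_lit 6065977591) (nat_lit 1216) (nat_lit 20434213) (nat_lit 533) (nat_lit 5) (nat_lit 548) (nat_lit 5) (nat_lit 549) (nat_lit 5) (nat_lit 403) (nat_lit 400) (nat_lit 337)) (XT.nd (nat_lit 78) (nat_lit 0) (nat_lit 0) (XT.lf (nat_lit 0) (nat_lit 2824215049) (nat_lit 1140) (nat_lit 2581489815) (nat_lit 1216) (nat_lit 1978187370) (nat_lit 533) (nat_lit 5) (nat_lit 548) (nat_lit 5) (nat_lit 549) (nat_lit 5) (nat_lit 404) (nat_lit 400) (nat_lit 336)) (XT.lf (nat_lit 76) (nat_lit 963583939) (nat_lit 0) (nat_lit 3429115236) (nat_lit 1216) (nat_lit 3035905646) (nat_lit 534) (nat_lit 5) (nat_lit 533) (nat_lit 5) (nat_lit 549) (nat_lit 5) (nat_lit 405) (nat_lit 400) (nat_lit 335)))) (XT.nd (nat_lit 156) (nat_lit 0) (nat_lit 0)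 (XT.nd (nat_lit 78) (nat_lit 1140) (nat_lit 0) (XT.lf (nat_lit 76) (nat_lit 4592953625) (nat_lit 0) (nat_lit 1378483861) (nat_lit 1216) (nat_lit 1503229271) (nat_lit 534) (nat_lit 5) (nat_lit 533) (nat_lit 5) (nat_lit 549) (nat_lit 5) (nat_lit 406) (nat_lit 400) (nat_lit 334)) (XT.lf (nat_lit 0) (nat_lit 31059154) (nat_lit 1216) (nat_lit 6765963107) (nat_lit 1292) (nat_lit 725216448) (nat_lit 518) (nat_lit 5) (nat_lit 534) (nat_lit 5) (nat_lit 535) (nat_lit 5) (nat_lit 407) (nat_lit 400) (nat_lit 333))) (XT.nd (nat_lit 78) (nat_lit 0) (nat_lit 0) (XT.lf (nat_lit 0) (nat_lit 1567259532) (nat_lit 1216) (nat_lit 3105949840) (nat_lit 1292) (nat_lit 2897557810) (nat_lit 518) (nat_lit 5) (nat_lit 534) (nat_lit 5) (nat_lit 535) (nat_lit 5) (nat_lit 408) (nat_lit 400) (nat_lit 332)) (XT.lf (nat_lit 76) (nat_lit 613298654) (nat_lit 0) (nat_lit 2488338479) (nat_lit 1292) (nat_lit 4519310319) (nat_lit 519) (nat_lit 5) (nat_lit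 518) (nat_lit 5) (nat_lit 535) (nat_lit 5) (nat_lit 409) (nat_lit 400) (nat_lit 331))))) (XT.nd (nat_lit 312) (nat_lit 0) (nat_lit 76) (XT.nd (nat_lit 156) (nat_lit 1216) (nat_lit 0) (XT.nd (nat_lit 78) (nat_lit 0) (nat_lit 76) (XT.lf (nat_lit 76) (nat_lit 4427170319) (nat_lit 0) (nat_lit 224420094) (nat_lit 1292) (nat_lit 3020872848) (nat_lit 519) (nat_lit 5) (nat_lit 518) (nat_lit 5) (nat_lit 535) (nat_lit 5) (nat_lit 410) (nat_lit 400) (nat_lit 330)) (XT.lf (nat_lit 76) (nat_lit 563911211) (nat_lit 0) (nat_lit 5650668837) (nat_lit 1292) (nat_lit 1510817709) (nat_lit 520) (nat_lit 5) (nat_lit 519) (nat_lit 5) (nat_lit 536) (nat_lit 5) (nat_lit 411) (nat_lit 400) (nat_lit 329))) (XT.nd (nat_lit 78) (nat_lit 0) (nat_lit 0) (XT.lf (nat_lit 0) (nat_lit 17589200) (nat_lit 1292) (nat_lit 3310090552) (nat_lit 1368) (nat_lit 4451964617) (nat_lit 502) (nat_lit 5) (nat_lit 519) (nat_lit 5) (nat_lit 520) (nat_lit 5) (nat_lit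 412) (nat_lit 400) (nat_lit 328)) (XT.lf (nat_lit 76) (nat_lit 593957185) (nat_lit 0) (nat_lit 932064926) (nat_lit 1368) (nat_lit 6309387755) (nat_lit 503) (nat_lit 5) (nat_lit 502) (nat_lit 5) (nat_lit 520) (nat_lit 5) (nat_lit 413) (nat_lit 400) (nat_lit 327)))) (XT.nd (nat_lit 156) (nat_lit 0) (nat_lit 0) (XT.nd (nat_lit 78) (nat_lit 0) (nat_lit 0) (XT.lf (nat_lit 0) (nat_lit 3063212106) (nat_lit 1292) (nat_lit 3303642447) (nat_lit 1368) (nat_lit 1525491249) (nat_lit 503) (nat_lit 5) (nat_lit 520) (nat_lit 5) (nat_lit 521) (nat_lit 5) (nat_lit 414) (nat_lit 400) (nat_lit 326)) (XT.lf (nat_lit 76) (nat_lit 693503135) (nat_lit 0) (nat_lit 3915392041) (nat_lit 1368) (nat_lit 3341996667) (nat_lit 504) (nat_lit 5) (nat_lit 503) (nat_lit 5) (nat_lit 521) (nat_lit 5) (nat_lit 415) (nat_lit 400) (nat_lit 325))) (XT.nd (nat_lit 78) (nat_lit 0) (nat_lit 76) (XT.lf (nat_lit 76) (nat_lit 4793176711) (nat_lit 0) (nat_lit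 1382059846) (nat_lit 1368) (nat_lit 1835603206) (nat_lit 504) (nat_lit 5) (nat_lit 503) (nat_lit 5) (nat_lit 521) (nat_lit 5) (nat_lit 416) (nat_lit 400) (nat_lit 324)) (XT.lf (nat_lit 76) (nat_lit 884161609) (nat_lit 0) (nat_lit 6870563856) (nat_lit 1368) (nat_lit 317650111) (nat_lit 505) (nat_lit 5) (nat_lit 504) (nat_lit 5) (nat_lit 522) (nat_lit 5) (nat_lit 417) (nat_lit 400) (nat_lit 323))))))))
noncomputable def xc150 : XT := (XT.nd (nat_lit 2184) (nat_lit 9120) (nat_lit 0) (XT.nd (nat_lit 1092) (nat_lit 7296) (nat_lit 0) (XT.nd (nat_lit 546) (nat_lit 6308) (nat_lit 0) (XT.nd (nat_lit 234) (nat_lit 1292) (nat_lit 0) (XT.nd (nat_lit 78) (nat_lit 0) (nat_lit 0) (XT.lf (nat_lit 0) (nat_lit 1213931495) (nat_lit 1368) (nat_lit 3063139613) (nat_lit 1444) (nat_lit 3857947357) (nat_lit 486) (nat_lit 5) (nat_lit 504) (nat_lit 5) (nat_lit 505) (nat_lit 5) (nat_lit 418) (nat_lit 400) (nat_lit 322)) (XT.nd (nat_lit 78)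 (nat_lit 0) (nat_lit 76) (XT.lf (nat_lit 76) (nat_lit 1134881064) (nat_lit 0) (nat_lit 1613521811) (nat_lit 1444) (nat_lit 5450962998) (nat_lit 487) (nat_lit 5) (nat_lit 486) (nat_lit 5) (nat_lit 505) (nat_lit 5) (nat_lit 419) (nat_lit 400) (nat_lit 321)) (XT.lf (nat_lit 0) (nat_lit 4311071901) (nat_lit 1368) (nat_lit 2836378249) (nat_lit 1444) (nat_lit 1117623333) (nat_lit 487) (nat_lit 5) (nat_lit 505) (nat_lit 5) (nat_lit 506) (nat_lit 5) (nat_lit 420) (nat_lit 400) (nat_lit 320)))) (XT.nd (nat_lit 156) (nat_lit 1368) (nat_lit 0) (XT.nd (nat_lit 78) (nat_lit 0) (nat_lit 0) (XT.lf (nat_lit 76) (nat_lit 1462358999) (nat_lit 0) (nat_lit 4433063981) (nat_lit 1444) (nat_lit 2436886648) (nat_lit 488) (nat_lit 5) (nat_lit 487) (nat_lit 5) (nat_lit 506) (nat_lit 5) (nat_lit 421) (nat_lit 400) (nat_lit 319)) (XT.lf (nat_lit 76) (nat_lit 5863241409) (nat_lit 0) (nat_lit 1637940480) (nat_lit 1444) (nat_lit 899936698) (nat_lit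 488) (nat_lit 5) (nat_lit 487) (nat_lit 5) (nat_lit 506) (nat_lit 5) (nat_lit 422) (nat_lit 400) (nat_lit 318))) (XT.nd (nat_lit 78) (nat_lit 0) (nat_lit 0) (XT.lf (nat_lit 0) (nat_lit 650272667) (nat_lit 1444) (nat_lit 6600705511) (nat_lit 76) (nat_lit 1220434908) (nat_lit 469) (nat_lit 5) (nat_lit 488) (nat_lit 5) (nat_lit 470) (nat_lit 5) (nat_lit 423) (nat_lit 400) (nat_lit 317)) (XT.lf (nat_lit 0) (nat_lit 2218953654) (nat_lit 1444) (nat_lit 2180561239) (nat_lit 76) (nat_lit 4143510467) (nat_lit 469) (nat_lit 5) (nat_lit 488) (nat_lit 5) (nat_lit 470) (nat_lit 5) (nat_lit 424) (nat_lit 400) (nat_lit 316))))) (XT.nd (nat_lit 234) (nat_lit 3344) (nat_lit 0) (XT.nd (nat_lit 78) (nat_lit 1520) (nat_lit 0) (XT.lf (nat_lit 0) (nat_lit 2336339117) (nat_lit 1444) (nat_lit 1469912480) (nat_lit 1520) (nat_lit 4810094211) (nat_lit 450) (nat_lit 5) (nat_lit 469) (nat_lit 5) (nat_lit 470) (nat_lit 5) (nat_lit 425) (nat_lit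 400) (nat_lit 315)) (XT.nd (nat_lit 78) (nat_lit 1520) (nat_lit 0) (XT.lf (nat_lit 0) (nat_lit 5422395822) (nat_lit 1520) (nat_lit 1750406475) (nat_lit 76) (nat_lit 1518408746) (nat_lit 450) (nat_lit 5) (nat_lit 470) (nat_lit 5) (nat_lit 451) (nat_lit 5) (nat_lit 426) (nat_lit 400) (nat_lit 314)) (XT.lf (nat_lit 0) (nat_lit 2875462024) (nat_lit 1520) (nat_lit 4196856802) (nat_lit 1596) (nat_lit 1695245623) (nat_lit 430) (nat_lit 5) (nat_lit 450) (nat_lit 5) (nat_lit 451) (nat_lit 5) (nat_lit 427) (nat_lit 400) (nat_lit 313)))) (XT.nd (nat_lit 156) (nat_lit 1672) (nat_lit 0) (XT.nd (nat_lit 78) (nat_lit 1672) (nat_lit 0) (XT.lf (nat_lit 0) (nat_lit 7595420432) (nat_lit 1520) (nat_lit 1145002528) (nat_lit 1596) (nat_lit 105337904) (nat_lit 430) (nat_lit 5) (nat_lit 450) (nat_lit 5) (nat_lit 451) (nat_lit 5) (nat_lit 428) (nat_lit 400) (nat_lit 312)) (XT.lf (nat_lit 0) (nat_lit 1505978509) (nat_lit 1672) (nat_lit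 5440229588) (nat_lit 76) (nat_lit 1978945080) (nat_lit 408) (nat_lit 5) (nat_lit 430) (nat_lit 5) (nat_lit 409) (nat_lit 5) (nat_lit 429) (nat_lit 400) (nat_lit 311))) (XT.nd (nat_lit 78) (nat_lit 1672) (nat_lit 0) (XT.lf (nat_lit 0) (nat_lit 3138304226) (nat_lit 1672) (nat_lit 704963494) (nat_lit 76) (nat_lit 5163066284) (nat_lit 408) (nat_lit 5) (nat_lit 430) (nat_lit 5) (nat_lit 409) (nat_lit 5) (nat_lit 430) (nat_lit 400) (nat_lit 310)) (XT.lf (nat_lit 0) (nat_lit 4157471568) (nat_lit 1672) (nat_lit 647467879) (nat_lit 1748) (nat_lit 4284183842) (nat_lit 386) (nat_lit 5) (nat_lit 408) (nat_lit 5) (nat_lit 409) (nat_lit 5) (nat_lit 431) (nat_lit 400) (nat_lit 309)))))) (XT.nd (nat_lit 546) (nat_lit 3192) (nat_lit 0) (XT.nd (nat_lit 234) (nat_lit 1748) (nat_lit 0) (XT.nd (nat_lit 78) (nat_lit 2356) (nat_lit 0) (XT.lf (nat_lit 0) (nat_lit 6501673976) (nat_lit 1748) (nat_lit 86208537) (nat_lit 76) (nat_lit 2585768262)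 (nat_lit 386) (nat_lit 5) (nat_lit 409) (nat_lit 5) (nat_lit 387) (nat_lit 5) (nat_lit 432) (nat_lit 400) (nat_lit 308)) (XT.nd (nat_lit 78) (nat_lit 912) (nat_lit 0) (XT.lf (nat_lit 0) (nat_lit 4894027664) (nat_lit 1444) (nat_lit 3349912152) (nat_lit 1520) (nat_lit 1015714460) (nat_lit 367) (nat_lit 5) (nat_lit 386) (nat_lit 5) (nat_lit 387) (nat_lit 5) (nat_lit 433) (nat_lit 400) (nat_lit 307)) (XT.lf (nat_lit 0) (nat_lit 609072288) (nat_lit 836) (nat_lit 35996931) (nat_lit 912) (nat_lit 8702633245) (nat_lit 355) (nat_lit 5) (nat_lit 366) (nat_lit 5) (nat_lit 367) (nat_lit 5) (nat_lit 434) (nat_lit 400) (nat_lit 306)))) (XT.nd (nat_lit 156) (nat_lit 836) (nat_lit 0) (XT.nd (nat_lit 78) (nat_lit 912) (nat_lit 0) (XT.lf (nat_lit 0) (nat_lit 2352723602) (nat_lit 912) (nat_lit 3745687710) (nat_lit 76) (nat_lit 3338437311) (nat_lit 355) (nat_lit 5) (nat_lit 367) (nat_lit 5) (nat_lit 356) (nat_lit 5) (nat_lit 435)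 (nat_lit 400) (nat_lit 305)) (XT.lf (nat_lit 0) (nat_lit 1342351918) (nat_lit 912) (nat_lit 2737643109) (nat_lit 988) (nat_lit 5448089475) (nat_lit 343) (nat_lit 5) (nat_lit 355) (nat_lit 5) (nat_lit 356) (nat_lit 5) (nat_lit 436) (nat_lit 400) (nat_lit 304))) (XT.nd (nat_lit 78) (nat_lit 836) (nat_lit 0) (XT.lf (nat_lit 0) (nat_lit 5848431728) (nat_lit 988) (nat_lit 3064834694) (nat_lit 76) (nat_lit 707762036) (nat_lit 343) (nat_lit 5) (nat_lit 356) (nat_lit 5) (nat_lit 344) (nat_lit 5) (nat_lit 437) (nat_lit 400) (nat_lit 303)) (XT.lf (nat_lit 0) (nat_lit 2146473212) (nat_lit 836) (nat_lit 5515120270) (nat_lit 912) (nat_lit 2054066135) (nat_lit 332) (nat_lit 5) (nat_lit 343) (nat_lit 5) (nat_lit 344) (nat_lit 5) (nat_lit 438) (nat_lit 400) (nat_lit 302))))) (XT.nd (nat_lit 234) (nat_lit 2280) (nat_lit 0) (XT.nd (nat_lit 78) (nat_lit 912) (nat_lit 0) (XT.lf (nat_lit 0) (nat_lit 7481667612) (nat_lit 836) (nat_lit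 2027510629) (nat_lit 912) (nat_lit 303057111) (nat_lit 332) (nat_lit 5) (nat_lit 343) (nat_lit 5) (nat_lit 344) (nat_lit 5) (nat_lit 439) (nat_lit 400) (nat_lit 301)) (XT.nd (nat_lit 78) (nat_lit 0) (nat_lit 0) (XT.lf (nat_lit 0) (nat_lit 1471138488) (nat_lit 912) (nat_lit 6899691002) (nat_lit 76) (nat_lit 1539582783) (nat_lit 320) (nat_lit 5) (nat_lit 332) (nat_lit 5) (nat_lit 321) (nat_lit 5) (nat_lit 440) (nat_lit 400) (nat_lit 300)) (XT.lf (nat_lit 0) (nat_lit 3284101205) (nat_lit 912) (nat_lit 1557423204) (nat_lit 76) (nat_lit 5168855710) (nat_lit 320) (nat_lit 5) (nat_lit 332) (nat_lit 5) (nat_lit 321) (nat_lit 5) (nat_lit 441) (nat_lit 400) (nat_lit 299)))) (XT.nd (nat_lit 156) (nat_lit 1520) (nat_lit 0) (XT.nd (nat_lit 78) (nat_lit 0) (nat_lit 0) (XT.lf (nat_lit 0) (nat_lit 3921480691) (nat_lit 760) (nat_lit 1215898648) (nat_lit 836) (nat_lit 4974900852) (nat_lit 310) (nat_lit 5) (nat_lit 320) (nat_lit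 5) (nat_lit 321) (nat_lit 5) (nat_lit 442) (nat_lit 400) (nat_lit 298)) (XT.lf (nat_lit 0) (nat_lit 7033232733) (nat_lit 836) (nat_lit 723052454) (nat_lit 76) (nat_lit 2459836602) (nat_lit 310) (nat_lit 5) (nat_lit 321) (nat_lit 5) (nat_lit 311) (nat_lit 5) (nat_lit 443) (nat_lit 400) (nat_lit 297))) (XT.nd (nat_lit 78) (nat_lit 760) (nat_lit 0) (XT.lf (nat_lit 0) (nat_lit 4888610662) (nat_lit 760) (nat_lit 4097472207) (nat_lit 836) (nat_lit 1335589207) (nat_lit 300) (nat_lit 5) (nat_lit 310) (nat_lit 5) (nat_lit 311) (nat_lit 5) (nat_lit 444) (nat_lit 400) (nat_lit 296)) (XT.lf (nat_lit 0) (nat_lit 170061168) (nat_lit 684) (nat_lit 356794383) (nat_lit 760) (nat_lit 9902711608) (nat_lit 290) (nat_lit 5) (nat_lit 299) (nat_lit 5) (nat_lit 300) (nat_lit 5) (nat_lit 445) (nat_lit 400) (nat_lit 295))))))) (XT.nd (nat_lit 1092) (nat_lit 4332) (nat_lit 0) (XT.nd (nat_lit 546) (nat_lit 2584) (nat_lit 0) (XT.nd (nat_lit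 234) (nat_lit 1444) (nat_lit 0) (XT.nd (nat_lit 78) (nat_lit 760) (nat_lit 0) (XT.lf (nat_lit 0) (nat_lit 2447501538) (nat_lit 760) (nat_lit 4633456695) (nat_lit 76) (nat_lit 3457721302) (nat_lit 290) (nat_lit 5) (nat_lit 300) (nat_lit 5) (nat_lit 291) (nat_lit 5) (nat_lit 446) (nat_lit 400) (nat_lit 294)) (XT.nd (nat_lit 78) (nat_lit 0) (nat_lit 0) (XT.lf (nat_lit 0) (nat_lit 1095633928) (nat_lit 760) (nat_lit 3300464592) (nat_lit 836) (nat_lit 6254097303) (nat_lit 280) (nat_lit 5) (nat_lit 290) (nat_lit 5) (nat_lit 291) (nat_lit 5) (nat_lit 447) (nat_lit 400) (nat_lit 293)) (XT.lf (nat_lit 0) (nat_lit 6398877075) (nat_lit 836) (nat_lit 3786759972) (nat_lit 76) (nat_lit 578013379) (nat_lit 280) (nat_lit 5) (nat_lit 291) (nat_lit 5) (nat_lit 281) (nat_lit 5) (nat_lit 448) (nat_lit 400) (nat_lit 292)))) (XT.nd (nat_lit 156) (nat_lit 760) (nat_lit 0) (XT.nd (nat_lit 78) (nat_lit 0) (nat_lit 0) (XT.lf (nat_lit 0)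 (nat_lit 2080513195) (nat_lit 684) (nat_lit 6377252880) (nat_lit 760) (nat_lit 2421298890) (nat_lit 271) (nat_lit 5) (nat_lit 280) (nat_lit 5) (nat_lit 281) (nat_lit 5) (nat_lit 449) (nat_lit 400) (nat_lit 291)) (XT.lf (nat_lit 0) (nat_lit 8095288857) (nat_lit 684) (nat_lit 2468885738) (nat_lit 760) (nat_lit 432498074) (nat_lit 271) (nat_lit 5) (nat_lit 280) (nat_lit 5) (nat_lit 281) (nat_lit 5) (nat_lit 450) (nat_lit 400) (nat_lit 290))) (XT.nd (nat_lit 78) (nat_lit 0) (nat_lit 0) (XT.lf (nat_lit 0) (nat_lit 1586636131) (nat_lit 760) (nat_lit 8003142252) (nat_lit 76) (nat_lit 1526428339) (nat_lit 261) (nat_lit 5) (nat_lit 271) (nat_lit 5) (nat_lit 262) (nat_lit 5) (nat_lit 451) (nat_lit 400) (nat_lit 289)) (XT.lf (nat_lit 0) (nat_lit 3657704452) (nat_lit 760) (nat_lit 1991204405) (nat_lit 76) (nat_lit 5588829605) (nat_lit 261) (nat_lit 5) (nat_lit 271) (nat_lit 5) (nat_lit 262) (nat_lit 5) (nat_lit 452) (nat_lit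 400) (nat_lit 288))))) (XT.nd (nat_lit 234) (nat_lit 1292) (nat_lit 0) (XT.nd (nat_lit 78) (nat_lit 684) (nat_lit 0) (XT.lf (nat_lit 0) (nat_lit 4174893654) (nat_lit 608) (nat_lit 1604159776) (nat_lit 684) (nat_lit 5582481036) (nat_lit 253) (nat_lit 5) (nat_lit 261) (nat_lit 5) (nat_lit 262) (nat_lit 5) (nat_lit 453) (nat_lit 400) (nat_lit 287)) (XT.nd (nat_lit 78) (nat_lit 684) (nat_lit 0) (XT.lf (nat_lit 0) (nat_lit 7954610232) (nat_lit 684) (nat_lit 1033743503) (nat_lit 76) (nat_lit 2499227645) (nat_lit 253) (nat_lit 5) (nat_lit 262) (nat_lit 5) (nat_lit 254) (nat_lit 5) (nat_lit 454) (nat_lit 400) (nat_lit 286)) (XT.lf (nat_lit 0) (nat_lit 5280202026) (nat_lit 684) (nat_lit 4920695205) (nat_lit 760) (nat_lit 1414718016) (nat_lit 244) (nat_lit 5) (nat_lit 253) (nat_lit 5) (nat_lit 254) (nat_lit 5) (nat_lit 455) (nat_lit 400) (nat_lit 285)))) (XT.nd (nat_lit 156) (nat_lit 608) (nat_lit 0) (XT.nd (nat_lit 78)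 (nat_lit 608) (nat_lit 0) (XT.lf (nat_lit 0) (nat_lit 725501301) (nat_lit 760) (nat_lit 37265797) (nat_lit 76) (nat_lit 10983568155) (nat_lit 243) (nat_lit 5) (nat_lit 253) (nat_lit 5) (nat_lit 244) (nat_lit 5) (nat_lit 456) (nat_lit 400) (nat_lit 284)) (XT.lf (nat_lit 0) (nat_lit 2937071383) (nat_lit 684) (nat_lit 5460282950) (nat_lit 76) (nat_lit 3481188309) (nat_lit 235) (nat_lit 5) (nat_lit 244) (nat_lit 5) (nat_lit 236) (nat_lit 5) (nat_lit 457) (nat_lit 400) (nat_lit 283))) (XT.nd (nat_lit 78) (nat_lit 0) (nat_lit 0) (XT.lf (nat_lit 0) (nat_lit 977240726) (nat_lit 608) (nat_lit 4210212753) (nat_lit 684) (nat_lit 6826058693) (nat_lit 227) (nat_lit 5) (nat_lit 235) (nat_lit 5) (nat_lit 236) (nat_lit 5) (nat_lit 458) (nat_lit 400) (nat_lit 282)) (XT.lf (nat_lit 0) (nat_lit 7503232983) (nat_lit 684) (nat_lit 4554277605) (nat_lit 76) (nat_lit 93272126) (nat_lit 227) (nat_lit 5) (nat_lit 236) (nat_lit 5) (nat_lit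 228) (nat_lit 5) (nat_lit 459) (nat_lit 400) (nat_lit 281)))))) (XT.nd (nat_lit 546) (nat_lit 2052) (nat_lit 0) (XT.nd (nat_lit 234) (nat_lit 1064) (nat_lit 0) (XT.nd (nat_lit 78) (nat_lit 684) (nat_lit 0) (XT.lf (nat_lit 0) (nat_lit 2035857675) (nat_lit 532) (nat_lit 7854013697) (nat_lit 608) (nat_lit 2400445661) (nat_lit 220) (nat_lit 5) (nat_lit 227) (nat_lit 5) (nat_lit 228) (nat_lit 5) (nat_lit 460) (nat_lit 400) (nat_lit 280)) (XT.nd (nat_lit 78) (nat_lit 684) (nat_lit 0) (XT.lf (nat_lit 0) (nat_lit 8799346885) (nat_lit 532) (nat_lit 3539093805) (nat_lit 608) (nat_lit 93926437) (nat_lit 220) (nat_lit 5) (nat_lit 227) (nat_lit 5) (nat_lit 228) (nat_lit 5) (nat_lit 461) (nat_lit 400) (nat_lit 279)) (XT.lf (nat_lit 0) (nat_lit 2239049830) (nat_lit 684) (nat_lit 9455509508) (nat_lit 76) (nat_lit 882215278) (nat_lit 211) (nat_lit 5) (nat_lit 220) (nat_lit 5) (nat_lit 212) (nat_lit 5) (nat_lit 462) (nat_lit 400)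 (nat_lit 278)))) (XT.nd (nat_lit 156) (nat_lit 532) (nat_lit 0) (XT.nd (nat_lit 78) (nat_lit 532) (nat_lit 0) (XT.lf (nat_lit 0) (nat_lit 4649412538) (nat_lit 684) (nat_lit 2708102921) (nat_lit 76) (nat_lit 5365911214) (nat_lit 211) (nat_lit 5) (nat_lit 220) (nat_lit 5) (nat_lit 212) (nat_lit 5) (nat_lit 463) (nat_lit 400) (nat_lit 277)) (XT.lf (nat_lit 0) (nat_lit 4209676401) (nat_lit 532) (nat_lit 2909956518) (nat_lit 608) (nat_lit 5753154207) (nat_lit 204) (nat_lit 5) (nat_lit 211) (nat_lit 5) (nat_lit 212) (nat_lit 5) (nat_lit 464) (nat_lit 400) (nat_lit 276))) (XT.nd (nat_lit 78) (nat_lit 532) (nat_lit 0) (XT.lf (nat_lit 0) (nat_lit 9652582819) (nat_lit 608) (nat_lit 1752879136) (nat_lit 76) (nat_lit 1619414530) (nat_lit 204) (nat_lit 5) (nat_lit 212) (nat_lit 5) (nat_lit 205) (nat_lit 5) (nat_lit 465) (nat_lit 400) (nat_lit 275)) (XT.lf (nat_lit 0) (nat_lit 5326588995) (nat_lit 532) (nat_lit 6948233488) (nat_lit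 608) (nat_lit 904420569) (nat_lit 197) (nat_lit 5) (nat_lit 204) (nat_lit 5) (nat_lit 205) (nat_lit 5) (nat_lit 466) (nat_lit 400) (nat_lit 274))))) (XT.nd (nat_lit 312) (nat_lit 988) (nat_lit 0) (XT.nd (nat_lit 156) (nat_lit 532) (nat_lit 0) (XT.nd (nat_lit 78) (nat_lit 456) (nat_lit 0) (XT.lf (nat_lit 0) (nat_lit 1588339041) (nat_lit 608) (nat_lit 795240353) (nat_lit 76) (nat_lit 10952982227) (nat_lit 196) (nat_lit 5) (nat_lit 204) (nat_lit 5) (nat_lit 197) (nat_lit 5) (nat_lit 467) (nat_lit 400) (nat_lit 273)) (XT.lf (nat_lit 0) (nat_lit 4160996749) (nat_lit 532) (nat_lit 7048573240) (nat_lit 76) (nat_lit 2286501519) (nat_lit 190) (nat_lit 5) (nat_lit 197) (nat_lit 5) (nat_lit 191) (nat_lit 5) (nat_lit 468) (nat_lit 400) (nat_lit 272))) (XT.nd (nat_lit 78) (nat_lit 0) (nat_lit 0) (XT.lf (nat_lit 0) (nat_lit 154008275) (nat_lit 532) (nat_lit 6638532800) (nat_lit 608) (nat_lit 6866089274) (nat_lit 183) (nat_lit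 5) (nat_lit 190) (nat_lit 5) (nat_lit 191) (nat_lit 5) (nat_lit 469) (nat_lit 400) (nat_lit 271)) (XT.lf (nat_lit 0) (nat_lit 7576916875) (nat_lit 532) (nat_lit 1932539059) (nat_lit 608) (nat_lit 4314336919) (nat_lit 183) (nat_lit 5) (nat_lit 190) (nat_lit 5) (nat_lit 191) (nat_lit 5) (nat_lit 470) (nat_lit 400) (nat_lit 270)))) (XT.nd (nat_lit 156) (nat_lit 456) (nat_lit 0) (XT.nd (nat_lit 78) (nat_lit 76) (nat_lit 0) (XT.lf (nat_lit 0) (nat_lit 1133113206) (nat_lit 456) (nat_lit 11159266523) (nat_lit 532) (nat_lit 1699652603) (nat_lit 177) (nat_lit 5) (nat_lit 183) (nat_lit 5) (nat_lit 184) (nat_lit 5) (nat_lit 471) (nat_lit 400) (nat_lit 269)) (XT.lf (nat_lit 0) (nat_lit 995386321) (nat_lit 532) (nat_lit 5455999198) (nat_lit 76) (nat_lit 7711317379) (nat_lit 176) (nat_lit 5) (nat_lit 183) (nat_lit 5) (nat_lit 177) (nat_lit 5) (nat_lit 472) (nat_lit 400) (nat_lit 268))) (XT.nd (nat_lit 78) (nat_lit 0) (nat_lit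 0) (XT.lf (nat_lit 0) (nat_lit 2092316402) (nat_lit 456) (nat_lit 1628888485) (nat_lit 532) (nat_lit 10615371276) (nat_lit 170) (nat_lit 5) (nat_lit 176) (nat_lit 5) (nat_lit 177) (nat_lit 5) (nat_lit 473) (nat_lit 400) (nat_lit 267)) (XT.lf (nat_lit 0) (nat_lit 6545907859) (nat_lit 532) (nat_lit 4688217447) (nat_lit 76) (nat_lit 3278920819) (nat_lit 170) (nat_lit 5) (nat_lit 177) (nat_lit 5) (nat_lit 171) (nat_lit 5) (nat_lit 474) (nat_lit 400) (nat_lit 266))))))))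
noncomputable def xc151 : XT := (XT.nd (nat_lit 2184) (nat_lit 2964) (nat_lit 0) (XT.nd (nat_lit 1092) (nat_lit 2432) (nat_lit 0) (XT.nd (nat_lit 546) (nat_lit 1292) (nat_lit 0) (XT.nd (nat_lit 234) (nat_lit 836) (nat_lit 0) (XT.nd (nat_lit 78) (nat_lit 532) (nat_lit 0) (XT.lf (nat_lit 0) (nat_lit 3029285132) (nat_lit 456) (nat_lit 6414698461) (nat_lit 532) (nat_lit 5248730783) (nat_lit 164) (nat_lit 5) (nat_lit 170) (nat_lit 5) (nat_lit 171) (nat_lit 5) (nat_lit 475) (nat_lit 400) (nat_lit 265)) (XT.nd (nat_lit 78) (nat_lit 532) (nat_lit 0) (XT.lf (nat_lit 0) (nat_lit 10946207314) (nat_lit 456) (nat_lit 1471843395) (nat_lit 532) (nat_lit 2457571025) (nat_lit 164) (nat_lit 5) (nat_lit 170) (nat_lit 5) (nat_lit 171) (nat_lit 5) (nat_lit 476) (nat_lit 400) (nat_lit 264)) (XT.lf (nat_lit 0) (nat_lit 420288630) (nat_lit 532) (nat_lit 11094431422) (nat_lit 76) (nat_lit 3546703032) (nat_lit 157) (nat_lit 5) (nat_lit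 164) (nat_lit 5) (nat_lit 158) (nat_lit 5) (nat_lit 477) (nat_lit 400) (nat_lit 263)))) (XT.nd (nat_lit 156) (nat_lit 456) (nat_lit 0) (XT.nd (nat_lit 78) (nat_lit 380) (nat_lit 0) (XT.lf (nat_lit 0) (nat_lit 3345968317) (nat_lit 532) (nat_lit 3220435725) (nat_lit 76) (nat_lit 8683754105) (nat_lit 157) (nat_lit 5) (nat_lit 164) (nat_lit 5) (nat_lit 158) (nat_lit 5) (nat_lit 478) (nat_lit 400) (nat_lit 262)) (XT.lf (nat_lit 0) (nat_lit 4856681717) (nat_lit 380) (nat_lit 1492119131) (nat_lit 456) (nat_lit 9093500134) (nat_lit 152) (nat_lit 5) (nat_lit 157) (nat_lit 5) (nat_lit 158) (nat_lit 5) (nat_lit 479) (nat_lit 400) (nat_lit 261))) (XT.nd (nat_lit 78) (nat_lit 456) (nat_lit 0) (XT.lf (nat_lit 0) (nat_lit 9444569873) (nat_lit 456) (nat_lit 2541081826) (nat_lit 76) (nat_lit 3651983120) (nat_lit 152) (nat_lit 5) (nat_lit 158) (nat_lit 5) (nat_lit 153) (nat_lit 5) (nat_lit 480) (nat_lit 400) (nat_lit 260)) (XT.lf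 (nat_lit 0) (nat_lit 5711566230) (nat_lit 456) (nat_lit 6925112901) (nat_lit 532) (nat_lit 3199513330) (nat_lit 146) (nat_lit 5) (nat_lit 152) (nat_lit 5) (nat_lit 153) (nat_lit 5) (nat_lit 481) (nat_lit 400) (nat_lit 259))))) (XT.nd (nat_lit 234) (nat_lit 836) (nat_lit 0) (XT.nd (nat_lit 78) (nat_lit 456) (nat_lit 0) (XT.lf (nat_lit 0) (nat_lit 14146022662) (nat_lit 456) (nat_lit 1751250934) (nat_lit 532) (nat_lit 141360316) (nat_lit 146) (nat_lit 5) (nat_lit 152) (nat_lit 5) (nat_lit 153) (nat_lit 5) (nat_lit 482) (nat_lit 400) (nat_lit 258)) (XT.nd (nat_lit 78) (nat_lit 0) (nat_lit 0) (XT.lf (nat_lit 0) (nat_lit 2992464495) (nat_lit 456) (nat_lit 9714262313) (nat_lit 76) (nat_lit 3536944688) (nat_lit 140) (nat_lit 5) (nat_lit 146) (nat_lit 5) (nat_lit 141) (nat_lit 5) (nat_lit 483) (nat_lit 400) (nat_lit 257)) (XT.lf (nat_lit 0) (nat_lit 6199298462) (nat_lit 456) (nat_lit 1337258049) (nat_lit 76) (nat_lit 8915995321)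 (nat_lit 140) (nat_lit 5) (nat_lit 146) (nat_lit 5) (nat_lit 141) (nat_lit 5) (nat_lit 484) (nat_lit 400) (nat_lit 256)))) (XT.nd (nat_lit 156) (nat_lit 456) (nat_lit 0) (XT.nd (nat_lit 78) (nat_lit 0) (nat_lit 0) (XT.lf (nat_lit 0) (nat_lit 7285574052) (nat_lit 380) (nat_lit 2220077727) (nat_lit 456) (nat_lit 7159255439) (nat_lit 135) (nat_lit 5) (nat_lit 140) (nat_lit 5) (nat_lit 141) (nat_lit 5) (nat_lit 485) (nat_lit 400) (nat_lit 255)) (XT.lf (nat_lit 0) (nat_lit 12896127065) (nat_lit 456) (nat_lit 820550720) (nat_lit 76) (nat_lit 3164477025) (nat_lit 135) (nat_lit 5) (nat_lit 141) (nat_lit 5) (nat_lit 136) (nat_lit 5) (nat_lit 486) (nat_lit 400) (nat_lit 254))) (XT.nd (nat_lit 78) (nat_lit 76) (nat_lit 0) (XT.lf (nat_lit 0) (nat_lit 7982379050) (nat_lit 380) (nat_lit 8426961733) (nat_lit 456) (nat_lit 691292892) (nat_lit 130) (nat_lit 5) (nat_lit 135) (nat_lit 5) (nat_lit 136) (nat_lit 5) (nat_lit 487) (nat_lit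 400) (nat_lit 253)) (XT.lf (nat_lit 0) (nat_lit 2627300445) (nat_lit 456) (nat_lit 386325335) (nat_lit 76) (nat_lit 14310654972) (nat_lit 129) (nat_lit 5) (nat_lit 135) (nat_lit 5) (nat_lit 130) (nat_lit 5) (nat_lit 488) (nat_lit 400) (nat_lit 252)))))) (XT.nd (nat_lit 546) (nat_lit 988) (nat_lit 0) (XT.nd (nat_lit 234) (nat_lit 760) (nat_lit 0) (XT.nd (nat_lit 78) (nat_lit 304) (nat_lit 0) (XT.lf (nat_lit 0) (nat_lit 6064244187) (nat_lit 456) (nat_lit 8956188536) (nat_lit 76) (nat_lit 2530656576) (nat_lit 124) (nat_lit 5) (nat_lit 130) (nat_lit 5) (nat_lit 125) (nat_lit 5) (nat_lit 489) (nat_lit 400) (nat_lit 251)) (XT.nd (nat_lit 78) (nat_lit 304) (nat_lit 0) (XT.lf (nat_lit 0) (nat_lit 9581236754) (nat_lit 456) (nat_lit 58180920) (nat_lit 76) (nat_lit 8142794671) (nat_lit 124) (nat_lit 5) (nat_lit 130) (nat_lit 5) (nat_lit 125) (nat_lit 5) (nat_lit 490) (nat_lit 400) (nat_lit 250)) (XT.lf (nat_lit 0) (nat_lit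 9120927172) (nat_lit 304) (nat_lit 4095824391) (nat_lit 380) (nat_lit 4800247076) (nat_lit 120) (nat_lit 5) (nat_lit 124) (nat_lit 5) (nat_lit 125) (nat_lit 5) (nat_lit 491) (nat_lit 400) (nat_lit 249)))) (XT.nd (nat_lit 156) (nat_lit 304) (nat_lit 0) (XT.nd (nat_lit 78) (nat_lit 76) (nat_lit 0) (XT.lf (nat_lit 0) (nat_lit 203924059) (nat_lit 380) (nat_lit 16721927372) (nat_lit 456) (nat_lit 1330616084) (nat_lit 115) (nat_lit 5) (nat_lit 120) (nat_lit 5) (nat_lit 121) (nat_lit 5) (nat_lit 492) (nat_lit 400) (nat_lit 248)) (XT.lf (nat_lit 0) (nat_lit 2255731243) (nat_lit 456) (nat_lit 8951484027) (nat_lit 76) (nat_lit 7291702163) (nat_lit 114) (nat_lit 5) (nat_lit 120) (nat_lit 5) (nat_lit 115) (nat_lit 5) (nat_lit 493) (nat_lit 400) (nat_lit 247))) (XT.nd (nat_lit 78) (nat_lit 0) (nat_lit 0) (XT.lf (nat_lit 0) (nat_lit 310581588) (nat_lit 304) (nat_lit 5576724493) (nat_lit 380) (nat_lit 12858912110) (nat_lit 110)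 (nat_lit 5) (nat_lit 114) (nat_lit 5) (nat_lit 115) (nat_lit 5) (nat_lit 494) (nat_lit 400) (nat_lit 246)) (XT.lf (nat_lit 0) (nat_lit 9642413015) (nat_lit 380) (nat_lit 9135862743) (nat_lit 76) (nat_lit 219175213) (nat_lit 110) (nat_lit 5) (nat_lit 115) (nat_lit 5) (nat_lit 111) (nat_lit 5) (nat_lit 495) (nat_lit 400) (nat_lit 245))))) (XT.nd (nat_lit 234) (nat_lit 304) (nat_lit 0) (XT.nd (nat_lit 78) (nat_lit 380) (nat_lit 0) (XT.lf (nat_lit 0) (nat_lit 300892108) (nat_lit 304) (nat_lit 13200177672) (nat_lit 380) (nat_lit 5752073613) (nat_lit 106) (nat_lit 5) (nat_lit 110) (nat_lit 5) (nat_lit 111) (nat_lit 5) (nat_lit 496) (nat_lit 400) (nat_lit 244)) (XT.nd (nat_lit 78) (nat_lit 380) (nat_lit 0) (XT.lf (nat_lit 0) (nat_lit 10034297742) (nat_lit 304) (nat_lit 7453571817) (nat_lit 380) (nat_lit 2025064568) (nat_lit 106) (nat_lit 5) (nat_lit 110) (nat_lit 5) (nat_lit 111) (nat_lit 5) (nat_lit 497) (nat_lit 400)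 (nat_lit 243)) (XT.lf (nat_lit 0) (nat_lit 159254906) (nat_lit 304) (nat_lit 1584760082) (nat_lit 380) (nat_lit 18033862136) (nat_lit 101) (nat_lit 5) (nat_lit 105) (nat_lit 5) (nat_lit 106) (nat_lit 5) (nat_lit 498) (nat_lit 400) (nat_lit 242)))) (XT.nd (nat_lit 156) (nat_lit 304) (nat_lit 0) (XT.nd (nat_lit 78) (nat_lit 0) (nat_lit 0) (XT.lf (nat_lit 0) (nat_lit 5643848524) (nat_lit 380) (nat_lit 9986683274) (nat_lit 76) (nat_lit 4415673348) (nat_lit 101) (nat_lit 5) (nat_lit 106) (nat_lit 5) (nat_lit 102) (nat_lit 5) (nat_lit 499) (nat_lit 400) (nat_lit 241)) (XT.lf (nat_lit 0) (nat_lit 9622230487) (nat_lit 380) (nat_lit 188107136) (nat_lit 76) (nat_lit 10509554639) (nat_lit 101) (nat_lit 5) (nat_lit 106) (nat_lit 5) (nat_lit 102) (nat_lit 5) (nat_lit 500) (nat_lit 400) (nat_lit 240))) (XT.nd (nat_lit 78) (nat_lit 0) (nat_lit 0) (XT.lf (nat_lit 0) (nat_lit 9921358490) (nat_lit 304) (nat_lit 3813489263) (nat_lit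 380) (nat_lit 6863115512) (nat_lit 97) (nat_lit 5) (nat_lit 101) (nat_lit 5) (nat_lit 102) (nat_lit 5) (nat_lit 501) (nat_lit 400) (nat_lit 239)) (XT.lf (nat_lit 0) (nat_lit 17936251897) (nat_lit 380) (nat_lit 676233647) (nat_lit 76) (nat_lit 2268982884) (nat_lit 97) (nat_lit 5) (nat_lit 102) (nat_lit 5) (nat_lit 98) (nat_lit 5) (nat_lit 502) (nat_lit 400) (nat_lit 238))))))) (XT.nd (nat_lit 1092) (nat_lit 988) (nat_lit 0) (XT.nd (nat_lit 546) (nat_lit 760) (nat_lit 0) (XT.nd (nat_lit 234) (nat_lit 608) (nat_lit 0) (XT.nd (nat_lit 78) (nat_lit 304) (nat_lit 0) (XT.lf (nat_lit 0) (nat_lit 1115918568) (nat_lit 304) (nat_lit 11566463573) (nat_lit 76) (nat_lit 8486555116) (nat_lit 93) (nat_lit 5) (nat_lit 97) (nat_lit 5) (nat_lit 94) (nat_lit 5) (nat_lit 503) (nat_lit 400) (nat_lit 237)) (XT.nd (nat_lit 78) (nat_lit 304) (nat_lit 0) (XT.lf (nat_lit 0) (nat_lit 5213968273) (nat_lit 304) (nat_lit 1400672835) (nat_lit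 76) (nat_lit 14847225661) (nat_lit 93) (nat_lit 5) (nat_lit 97) (nat_lit 5) (nat_lit 94) (nat_lit 5) (nat_lit 504) (nat_lit 400) (nat_lit 236)) (XT.lf (nat_lit 0) (nat_lit 9072723109) (nat_lit 304) (nat_lit 370871363) (nat_lit 380) (nat_lit 12316071258) (nat_lit 89) (nat_lit 5) (nat_lit 93) (nat_lit 5) (nat_lit 94) (nat_lit 5) (nat_lit 505) (nat_lit 400) (nat_lit 235)))) (XT.nd (nat_lit 156) (nat_lit 380) (nat_lit 0) (XT.nd (nat_lit 78) (nat_lit 228) (nat_lit 0) (XT.lf (nat_lit 0) (nat_lit 13796977866) (nat_lit 380) (nat_lit 2342419388) (nat_lit 76) (nat_lit 5923243230) (nat_lit 89) (nat_lit 5) (nat_lit 94) (nat_lit 5) (nat_lit 90) (nat_lit 5) (nat_lit 506) (nat_lit 400) (nat_lit 234)) (XT.lf (nat_lit 0) (nat_lit 8300939472) (nat_lit 228) (nat_lit 9983783552) (nat_lit 304) (nat_lit 4086008873) (nat_lit 86) (nat_lit 5) (nat_lit 89) (nat_lit 5) (nat_lit 90) (nat_lit 5) (nat_lit 507) (nat_lit 400) (nat_lit 233)))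 (XT.nd (nat_lit 78) (nat_lit 304) (nat_lit 0) (XT.lf (nat_lit 0) (nat_lit 181701105) (nat_lit 304) (nat_lit 3511502858) (nat_lit 76) (nat_lit 18991625333) (nat_lit 85) (nat_lit 5) (nat_lit 89) (nat_lit 5) (nat_lit 86) (nat_lit 5) (nat_lit 508) (nat_lit 400) (nat_lit 232)) (XT.lf (nat_lit 0) (nat_lit 4536864416) (nat_lit 380) (nat_lit 15709449450) (nat_lit 76) (nat_lit 2757221262) (nat_lit 81) (nat_lit 5) (nat_lit 86) (nat_lit 5) (nat_lit 82) (nat_lit 5) (nat_lit 509) (nat_lit 400) (nat_lit 231))))) (XT.nd (nat_lit 234) (nat_lit 532) (nat_lit 0) (XT.nd (nat_lit 78) (nat_lit 228) (nat_lit 0) (XT.lf (nat_lit 0) (nat_lit 9018498600) (nat_lit 380) (nat_lit 5003633650) (nat_lit 76) (nat_lit 9305698289) (nat_lit 81) (nat_lit 5) (nat_lit 86) (nat_lit 5) (nat_lit 82) (nat_lit 5) (nat_lit 510) (nat_lit 400) (nat_lit 230)) (XT.nd (nat_lit 78) (nat_lit 0) (nat_lit 0) (XT.lf (nat_lit 0) (nat_lit 5980755951) (nat_lit 228) (nat_lit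 7639202527) (nat_lit 304) (nat_lit 10038052278) (nat_lit 78) (nat_lit 5) (nat_lit 81) (nat_lit 5) (nat_lit 82) (nat_lit 5) (nat_lit 511) (nat_lit 400) (nat_lit 229)) (XT.lf (nat_lit 0) (nat_lit 17238769694) (nat_lit 228) (nat_lit 1099696047) (nat_lit 304) (nat_lit 5655831177) (nat_lit 78) (nat_lit 5) (nat_lit 81) (nat_lit 5) (nat_lit 82) (nat_lit 5) (nat_lit 512) (nat_lit 400) (nat_lit 228)))) (XT.nd (nat_lit 156) (nat_lit 228) (nat_lit 0) (XT.nd (nat_lit 78) (nat_lit 76) (nat_lit 0) (XT.lf (nat_lit 0) (nat_lit 4392319507) (nat_lit 228) (nat_lit 18815284590) (nat_lit 304) (nat_lit 1128582139) (nat_lit 75) (nat_lit 5) (nat_lit 78) (nat_lit 5) (nat_lit 79) (nat_lit 5) (nat_lit 513) (nat_lit 400) (nat_lit 227)) (XT.lf (nat_lit 0) (nat_lit 3487960050) (nat_lit 304) (nat_lit 8873325015) (nat_lit 76) (nat_lit 12322287542) (nat_lit 74) (nat_lit 5) (nat_lit 78) (nat_lit 5) (nat_lit 75) (nat_lit 5) (nat_lit 514) (nat_lit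 400) (nat_lit 226))) (XT.nd (nat_lit 78) (nat_lit 0) (nat_lit 0) (XT.lf (nat_lit 0) (nat_lit 2429509872) (nat_lit 228) (nat_lit 5759758137) (nat_lit 304) (nat_lit 16848341065) (nat_lit 71) (nat_lit 5) (nat_lit 74) (nat_lit 5) (nat_lit 75) (nat_lit 5) (nat_lit 515) (nat_lit 400) (nat_lit 225)) (XT.lf (nat_lit 0) (nat_lit 13042662603) (nat_lit 304) (nat_lit 11339120449) (nat_lit 76) (nat_lit 1015784457) (nat_lit 71) (nat_lit 5) (nat_lit 75) (nat_lit 5) (nat_lit 72) (nat_lit 5) (nat_lit 516) (nat_lit 400) (nat_lit 224)))))) (XT.nd (nat_lit 546) (nat_lit 228) (nat_lit 0) (XT.nd (nat_lit 234) (nat_lit 456) (nat_lit 0) (XT.nd (nat_lit 78) (nat_lit 76) (nat_lit 0) (XT.lf (nat_lit 0) (nat_lit 105189145) (nat_lit 228) (nat_lit 17918722707) (nat_lit 304) (nat_lit 7740199927) (nat_lit 68) (nat_lit 5) (nat_lit 71) (nat_lit 5) (nat_lit 72) (nat_lit 5) (nat_lit 517) (nat_lit 400) (nat_lit 223)) (XT.nd (nat_lit 78) (nat_lit 76)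 (nat_lit 0) (XT.lf (nat_lit 0) (nat_lit 11918892875) (nat_lit 228) (nat_lit 11254016362) (nat_lit 304) (nat_lit 2963717589) (nat_lit 68) (nat_lit 5) (nat_lit 71) (nat_lit 5) (nat_lit 72) (nat_lit 5) (nat_lit 518) (nat_lit 400) (nat_lit 222)) (XT.lf (nat_lit 0) (nat_lit 1875400682) (nat_lit 304) (nat_lit 2573156265) (nat_lit 76) (nat_lit 22067947015) (nat_lit 67) (nat_lit 5) (nat_lit 71) (nat_lit 5) (nat_lit 68) (nat_lit 5) (nat_lit 519) (nat_lit 400) (nat_lit 221)))) (XT.nd (nat_lit 156) (nat_lit 228) (nat_lit 0) (XT.nd (nat_lit 78) (nat_lit 0) (nat_lit 0) (XT.lf (nat_lit 0) (nat_lit 6841628976) (nat_lit 304) (nat_lit 17524094578) (nat_lit 76) (nat_lit 2536465264) (nat_lit 64) (nat_lit 5) (nat_lit 68) (nat_lit 5) (nat_lit 65) (nat_lit 5) (nat_lit 520) (nat_lit 400) (nat_lit 220)) (XT.lf (nat_lit 0) (nat_lit 11946348071) (nat_lit 304) (nat_lit 5734394565) (nat_lit 76) (nat_lit 9614063586) (nat_lit 64) (nat_lit 5)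 (nat_lit 68) (nat_lit 5) (nat_lit 65) (nat_lit 5) (nat_lit 521) (nat_lit 400) (nat_lit 219))) (XT.nd (nat_lit 78) (nat_lit 0) (nat_lit 0) (XT.lf (nat_lit 0) (nat_lit 6361962128) (nat_lit 228) (nat_lit 10824980014) (nat_lit 304) (nat_lit 10507660351) (nat_lit 61) (nat_lit 5) (nat_lit 64) (nat_lit 5) (nat_lit 65) (nat_lit 5) (nat_lit 522) (nat_lit 400) (nat_lit 218)) (XT.lf (nat_lit 0) (nat_lit 18765484319) (nat_lit 228) (nat_lit 3797885546) (nat_lit 304) (nat_lit 5538406481) (nat_lit 61) (nat_lit 5) (nat_lit 64) (nat_lit 5) (nat_lit 65) (nat_lit 5) (nat_lit 523) (nat_lit 400) (nat_lit 217))))) (XT.nd (nat_lit 49842) (nat_lit 0) (nat_lit 36024) (XT.nd (nat_lit 156) (nat_lit 0) (nat_lit 0) (XT.nd (nat_lit 78) (nat_lit 76) (nat_lit 0) (XT.lf (nat_lit 0) (nat_lit 2903824632) (nat_lit 152) (nat_lit 25176888902) (nat_lit 228) (nat_lit 435714445) (nat_lit 59) (nat_lit 5) (nat_lit 61) (nat_lit 5) (nat_lit 62) (nat_lit 5)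 (nat_lit 524) (nat_lit 400) (nat_lit 216)) (XT.lf (nat_lit 0) (nat_lit 4787371875) (nat_lit 228) (nat_lit 13491732497) (nat_lit 76) (nat_lit 10658033224) (nat_lit 58) (nat_lit 5) (nat_lit 61) (nat_lit 5) (nat_lit 59) (nat_lit 5) (nat_lit 525) (nat_lit 400) (nat_lit 215))) (XT.nd (nat_lit 49608) (nat_lit 0) (nat_lit 37164) (XT.lf (nat_lit 0) (nat_lit 10101904147) (nat_lit 228) (nat_lit 1143469184) (nat_lit 76) (nat_lit 18120976036) (nat_lit 58) (nat_lit 5) (nat_lit 61) (nat_lit 5) (nat_lit 59) (nat_lit 5) (nat_lit 526) (nat_lit 400) (nat_lit 214)) (XT.lf (nat_lit 0) (nat_lit 3476572883) (nat_lit 1140) (nat_lit 86238379) (nat_lit 1140) (nat_lit 86238379) (nat_lit 547) (nat_lit 3) (nat_lit 562) (nat_lit 3) (nat_lit 562) (nat_lit 5) (nat_lit 401) (nat_lit 401) (nat_lit 338)))) (XT.nd (nat_lit 156) (nat_lit 0) (nat_lit 0) (XT.nd (nat_lit 78) (nat_lit 0) (nat_lit 0) (XT.lf (nat_lit 0) (nat_lit 1190886235) (nat_lit 1140)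 (nat_lit 4081489236) (nat_lit 1216) (nat_lit 2066755125) (nat_lit 532) (nat_lit 5) (nat_lit 547) (nat_lit 3) (nat_lit 548) (nat_lit 5) (nat_lit 402) (nat_lit 401) (nat_lit 337)) (XT.lf (nat_lit 0) (nat_lit 2714163638) (nat_lit 1140) (nat_lit 645494386) (nat_lit 1216) (nat_lit 4022086223) (nat_lit 532) (nat_lit 5) (nat_lit 547) (nat_lit 3) (nat_lit 548) (nat_lit 5) (nat_lit 403) (nat_lit 401) (nat_lit 336))) (XT.nd (nat_lit 78) (nat_lit 0) (nat_lit 76) (XT.lf (nat_lit 76) (nat_lit 2876412986) (nat_lit 0) (nat_lit 1371120545) (nat_lit 1216) (nat_lit 3178117547) (nat_lit 533) (nat_lit 5) (nat_lit 532) (nat_lit 5) (nat_lit 548) (nat_lit 5) (nat_lit 404) (nat_lit 401) (nat_lit 335)) (XT.lf (nat_lit 0) (nat_lit 5781899593) (nat_lit 1140) (nat_lit 1018451695) (nat_lit 1216) (nat_lit 670710970) (nat_lit 533) (nat_lit 5) (nat_lit 548) (nat_lit 5) (nat_lit 549) (nat_lit 5) (nat_lit 405) (nat_lit 401) (nat_lit 334))))))))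
noncomputable def xc152 : XT := (XT.nd (nat_lit 2184) (nat_lit 11248) (nat_lit 0) (XT.nd (nat_lit 1092) (nat_lit 8968) (nat_lit 0) (XT.nd (nat_lit 546) (nat_lit 1292) (nat_lit 0) (XT.nd (nat_lit 234) (nat_lit 1140) (nat_lit 0) (XT.nd (nat_lit 78) (nat_lit 1216) (nat_lit 0) (XT.lf (nat_lit 76) (nat_lit 2586900719) (nat_lit 0) (nat_lit 4748380928) (nat_lit 1216) (nat_lit 182365587) (nat_lit 534) (nat_lit 5) (nat_lit 533) (nat_lit 5) (nat_lit 549) (nat_lit 5) (nat_lit 406) (nat_lit 401) (nat_lit 333)) (XT.nd (nat_lit 78) (nat_lit 0) (nat_lit 0) (XT.lf (nat_lit 0) (nat_lit 1306459834) (nat_lit 1216) (nat_lit 1316986855) (nat_lit 1292) (nat_lit 4942179067) (nat_lit 517) (nat_lit 5) (nat_lit 533) (nat_lit 5) (nat_lit 534) (nat_lit 5) (nat_lit 407) (nat_lit 401) (nat_lit 332)) (XT.lf (nat_lit 76) (nat_lit 2378162480) (nat_lit 0) (nat_lit 423408328) (nat_lit 1292) (nat_lit 4813420204) (nat_lit 518) (nat_lit 5) (nat_lit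 517) (nat_lit 5) (nat_lit 534) (nat_lit 5) (nat_lit 408) (nat_lit 401) (nat_lit 331)))) (XT.nd (nat_lit 156) (nat_lit 1216) (nat_lit 0) (XT.nd (nat_lit 78) (nat_lit 0) (nat_lit 0) (XT.lf (nat_lit 0) (nat_lit 4311488472) (nat_lit 1216) (nat_lit 1533556205) (nat_lit 1292) (nat_lit 1820630506) (nat_lit 518) (nat_lit 5) (nat_lit 534) (nat_lit 5) (nat_lit 535) (nat_lit 5) (nat_lit 409) (nat_lit 401) (nat_lit 330)) (XT.lf (nat_lit 76) (nat_lit 2249323887) (nat_lit 0) (nat_lit 3584578461) (nat_lit 1292) (nat_lit 1883853846) (nat_lit 519) (nat_lit 5) (nat_lit 518) (nat_lit 5) (nat_lit 535) (nat_lit 5) (nat_lit 410) (nat_lit 401) (nat_lit 329))) (XT.nd (nat_lit 78) (nat_lit 1216) (nat_lit 0) (XT.lf (nat_lit 76) (nat_lit 6107634569) (nat_lit 0) (nat_lit 1254862626) (nat_lit 1292) (nat_lit 408895522) (nat_lit 519) (nat_lit 5) (nat_lit 518) (nat_lit 5) (nat_lit 535) (nat_lit 5) (nat_lit 411) (nat_lit 401) (nat_lit 328)) (XT.lf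 (nat_lit 0) (nat_lit 1068969278) (nat_lit 1292) (nat_lit 5615989380) (nat_lit 1368) (nat_lit 1141272969) (nat_lit 502) (nat_lit 5) (nat_lit 519) (nat_lit 5) (nat_lit 520) (nat_lit 5) (nat_lit 412) (nat_lit 401) (nat_lit 327))))) (XT.nd (nat_lit 234) (nat_lit 1292) (nat_lit 0) (XT.nd (nat_lit 78) (nat_lit 0) (nat_lit 0) (XT.lf (nat_lit 0) (nat_lit 2556953144) (nat_lit 1292) (nat_lit 1730486988) (nat_lit 1368) (nat_lit 3594979288) (nat_lit 502) (nat_lit 5) (nat_lit 519) (nat_lit 5) (nat_lit 520) (nat_lit 5) (nat_lit 413) (nat_lit 401) (nat_lit 326)) (XT.nd (nat_lit 78) (nat_lit 0) (nat_lit 76) (XT.lf (nat_lit 76) (nat_lit 2240814037) (nat_lit 0) (nat_lit 1815571484) (nat_lit 1368) (nat_lit 3883738042) (nat_lit 503) (nat_lit 5) (nat_lit 502) (nat_lit 5) (nat_lit 520) (nat_lit 5) (nat_lit 414) (nat_lit 401) (nat_lit 325)) (XT.lf (nat_lit 0) (nat_lit 5569797612) (nat_lit 1292) (nat_lit 1710315798) (nat_lit 1368) (nat_lit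 719214411) (nat_lit 503) (nat_lit 5) (nat_lit 520) (nat_lit 5) (nat_lit 521) (nat_lit 5) (nat_lit 415) (nat_lit 401) (nat_lit 324)))) (XT.nd (nat_lit 156) (nat_lit 0) (nat_lit 76) (XT.nd (nat_lit 78) (nat_lit 1368) (nat_lit 0) (XT.lf (nat_lit 76) (nat_lit 2355855593) (nat_lit 0) (nat_lit 4753294314) (nat_lit 1368) (nat_lit 950678164) (nat_lit 504) (nat_lit 5) (nat_lit 503) (nat_lit 5) (nat_lit 521) (nat_lit 5) (nat_lit 416) (nat_lit 401) (nat_lit 323)) (XT.lf (nat_lit 0) (nat_lit 530592682) (nat_lit 1368) (nat_lit 1620248229) (nat_lit 1444) (nat_lit 5971046218) (nat_lit 485) (nat_lit 5) (nat_lit 503) (nat_lit 5) (nat_lit 504) (nat_lit 5) (nat_lit 417) (nat_lit 401) (nat_lit 322))) (XT.nd (nat_lit 78) (nat_lit 0) (nat_lit 0) (XT.lf (nat_lit 0) (nat_lit 2018035771) (nat_lit 1368) (nat_lit 5637890830) (nat_lit 1444) (nat_lit 529373443) (nat_lit 486) (nat_lit 5) (nat_lit 504) (nat_lit 5) (nat_lit 505) (nat_lit 5) (nat_lit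 418) (nat_lit 401) (nat_lit 321)) (XT.lf (nat_lit 0) (nat_lit 3530160641) (nat_lit 1368) (nat_lit 1465594784) (nat_lit 1444) (nat_lit 3254350551) (nat_lit 486) (nat_lit 5) (nat_lit 504) (nat_lit 5) (nat_lit 505) (nat_lit 5) (nat_lit 419) (nat_lit 401) (nat_lit 320)))))) (XT.nd (nat_lit 546) (nat_lit 6308) (nat_lit 0) (XT.nd (nat_lit 234) (nat_lit 2736) (nat_lit 0) (XT.nd (nat_lit 78) (nat_lit 0) (nat_lit 76) (XT.lf (nat_lit 76) (nat_lit 2805473099) (nat_lit 0) (nat_lit 2255607368) (nat_lit 1444) (nat_lit 3255379467) (nat_lit 487) (nat_lit 5) (nat_lit 486) (nat_lit 5) (nat_lit 505) (nat_lit 5) (nat_lit 420) (nat_lit 401) (nat_lit 319)) (XT.nd (nat_lit 78) (nat_lit 0) (nat_lit 0) (XT.lf (nat_lit 0) (nat_lit 6606852368) (nat_lit 1368) (nat_lit 1227667583) (nat_lit 1444) (nat_lit 549958853) (nat_lit 487) (nat_lit 5) (nat_lit 505) (nat_lit 5) (nat_lit 506) (nat_lit 5) (nat_lit 421) (nat_lit 401) (nat_lit 318)) (XT.lf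 (nat_lit 76) (nat_lit 3146087579) (nat_lit 0) (nat_lit 5044220193) (nat_lit 1444) (nat_lit 263436985) (nat_lit 488) (nat_lit 5) (nat_lit 487) (nat_lit 5) (nat_lit 506) (nat_lit 5) (nat_lit 422) (nat_lit 401) (nat_lit 317)))) (XT.nd (nat_lit 156) (nat_lit 1368) (nat_lit 0) (XT.nd (nat_lit 78) (nat_lit 0) (nat_lit 76) (XT.lf (nat_lit 0) (nat_lit 1244145621) (nat_lit 1444) (nat_lit 930454730) (nat_lit 1520) (nat_lit 6350052332) (nat_lit 468) (nat_lit 5) (nat_lit 487) (nat_lit 5) (nat_lit 488) (nat_lit 5) (nat_lit 423) (nat_lit 401) (nat_lit 316)) (XT.lf (nat_lit 0) (nat_lit 2778721091) (nat_lit 1444) (nat_lit 5044325154) (nat_lit 76) (nat_lit 773911118) (nat_lit 469) (nat_lit 5) (nat_lit 488) (nat_lit 5) (nat_lit 470) (nat_lit 5) (nat_lit 424) (nat_lit 401) (nat_lit 315))) (XT.nd (nat_lit 78) (nat_lit 1444) (nat_lit 0) (XT.lf (nat_lit 0) (nat_lit 4337296424) (nat_lit 1444) (nat_lit 568883770) (nat_lit 76) (nat_lit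 3764682159) (nat_lit 469) (nat_lit 5) (nat_lit 488) (nat_lit 5) (nat_lit 470) (nat_lit 5) (nat_lit 425) (nat_lit 401) (nat_lit 314)) (XT.lf (nat_lit 0) (nat_lit 4027464536) (nat_lit 1444) (nat_lit 1898886361) (nat_lit 1520) (nat_lit 2819928379) (nat_lit 450) (nat_lit 5) (nat_lit 469) (nat_lit 5) (nat_lit 470) (nat_lit 5) (nat_lit 426) (nat_lit 401) (nat_lit 313))))) (XT.nd (nat_lit 234) (nat_lit 3116) (nat_lit 0) (XT.nd (nat_lit 78) (nat_lit 3192) (nat_lit 0) (XT.lf (nat_lit 0) (nat_lit 7532196638) (nat_lit 1520) (nat_lit 129153433) (nat_lit 76) (nat_lit 1162173857) (nat_lit 450) (nat_lit 5) (nat_lit 470) (nat_lit 5) (nat_lit 451) (nat_lit 5) (nat_lit 427) (nat_lit 401) (nat_lit 312)) (XT.nd (nat_lit 78) (nat_lit 1596) (nat_lit 0) (XT.lf (nat_lit 0) (nat_lit 280822016) (nat_lit 1596) (nat_lit 4325516228) (nat_lit 76) (nat_lit 4295629501) (nat_lit 429) (nat_lit 5) (nat_lit 450) (nat_lit 5) (nat_lit 430) (nat_lit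 5) (nat_lit 428) (nat_lit 401) (nat_lit 311)) (XT.lf (nat_lit 0) (nat_lit 370604487) (nat_lit 1596) (nat_lit 1474094091) (nat_lit 1672) (nat_lit 7137578108) (nat_lit 408) (nat_lit 5) (nat_lit 429) (nat_lit 5) (nat_lit 430) (nat_lit 5) (nat_lit 429) (nat_lit 401) (nat_lit 310)))) (XT.nd (nat_lit 156) (nat_lit 1444) (nat_lit 0) (XT.nd (nat_lit 78) (nat_lit 1672) (nat_lit 0) (XT.lf (nat_lit 0) (nat_lit 3454913858) (nat_lit 1672) (nat_lit 3877757259) (nat_lit 76) (nat_lit 1731237565) (nat_lit 408) (nat_lit 5) (nat_lit 430) (nat_lit 5) (nat_lit 409) (nat_lit 5) (nat_lit 430) (nat_lit 401) (nat_lit 309)) (XT.lf (nat_lit 0) (nat_lit 931662948) (nat_lit 1672) (nat_lit 4156648276) (nat_lit 1748) (nat_lit 4059060286) (nat_lit 386) (nat_lit 5) (nat_lit 408) (nat_lit 5) (nat_lit 409) (nat_lit 5) (nat_lit 431) (nat_lit 401) (nat_lit 308))) (XT.nd (nat_lit 78) (nat_lit 1444) (nat_lit 0) (XT.lf (nat_lit 0) (nat_lit 5868348135)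 (nat_lit 1672) (nat_lit 887564209) (nat_lit 1748) (nat_lit 2476577933) (nat_lit 386) (nat_lit 5) (nat_lit 408) (nat_lit 5) (nat_lit 409) (nat_lit 5) (nat_lit 432) (nat_lit 401) (nat_lit 307)) (XT.lf (nat_lit 0) (nat_lit 1567544946) (nat_lit 1444) (nat_lit 6891398206) (nat_lit 1520) (nat_lit 860343772) (nat_lit 367) (nat_lit 5) (nat_lit 386) (nat_lit 5) (nat_lit 387) (nat_lit 5) (nat_lit 433) (nat_lit 401) (nat_lit 306))))))) (XT.nd (nat_lit 1092) (nat_lit 5396) (nat_lit 0) (XT.nd (nat_lit 546) (nat_lit 3116) (nat_lit 0) (XT.nd (nat_lit 234) (nat_lit 1824) (nat_lit 0) (XT.nd (nat_lit 78) (nat_lit 836) (nat_lit 0) (XT.lf (nat_lit 0) (nat_lit 782651245) (nat_lit 1520) (nat_lit 2796818881) (nat_lit 76) (nat_lit 5828167945) (nat_lit 366) (nat_lit 5) (nat_lit 386) (nat_lit 5) (nat_lit 367) (nat_lit 5) (nat_lit 434) (nat_lit 401) (nat_lit 305)) (XT.nd (nat_lit 78) (nat_lit 0) (nat_lit 0) (XT.lf (nat_lit 0) (nat_lit 2259796137)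 (nat_lit 836) (nat_lit 178511295) (nat_lit 912) (nat_lit 7059524720) (nat_lit 355) (nat_lit 5) (nat_lit 366) (nat_lit 5) (nat_lit 367) (nat_lit 5) (nat_lit 435) (nat_lit 401) (nat_lit 304)) (XT.lf (nat_lit 0) (nat_lit 4144303766) (nat_lit 912) (nat_lit 2177182456) (nat_lit 76) (nat_lit 3268015110) (nat_lit 355) (nat_lit 5) (nat_lit 367) (nat_lit 5) (nat_lit 356) (nat_lit 5) (nat_lit 436) (nat_lit 401) (nat_lit 303)))) (XT.nd (nat_lit 156) (nat_lit 912) (nat_lit 0) (XT.nd (nat_lit 78) (nat_lit 0) (nat_lit 0) (XT.lf (nat_lit 0) (nat_lit 3001805997) (nat_lit 912) (nat_lit 2880708204) (nat_lit 988) (nat_lit 3800543263) (nat_lit 343) (nat_lit 5) (nat_lit 355) (nat_lit 5) (nat_lit 356) (nat_lit 5) (nat_lit 437) (nat_lit 401) (nat_lit 302)) (XT.lf (nat_lit 0) (nat_lit 7652013982) (nat_lit 988) (nat_lit 1490083202) (nat_lit 76) (nat_lit 636472177) (nat_lit 343) (nat_lit 5) (nat_lit 356) (nat_lit 5) (nat_lit 344) (nat_lit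 5) (nat_lit 438) (nat_lit 401) (nat_lit 301))) (XT.nd (nat_lit 78) (nat_lit 76) (nat_lit 0) (XT.lf (nat_lit 0) (nat_lit 3814687388) (nat_lit 836) (nat_lit 5664233155) (nat_lit 912) (nat_lit 396645467) (nat_lit 332) (nat_lit 5) (nat_lit 343) (nat_lit 5) (nat_lit 344) (nat_lit 5) (nat_lit 439) (nat_lit 401) (nat_lit 300)) (XT.lf (nat_lit 0) (nat_lit 1338294546) (nat_lit 912) (nat_lit 758835123) (nat_lit 76) (nat_lit 7877442140) (nat_lit 331) (nat_lit 5) (nat_lit 343) (nat_lit 5) (nat_lit 332) (nat_lit 5) (nat_lit 440) (nat_lit 401) (nat_lit 299))))) (XT.nd (nat_lit 234) (nat_lit 1520) (nat_lit 0) (XT.nd (nat_lit 78) (nat_lit 760) (nat_lit 0) (XT.lf (nat_lit 0) (nat_lit 3122019527) (nat_lit 912) (nat_lit 5398387446) (nat_lit 76) (nat_lit 1554724365) (nat_lit 320) (nat_lit 5) (nat_lit 332) (nat_lit 5) (nat_lit 321) (nat_lit 5) (nat_lit 441) (nat_lit 401) (nat_lit 298)) (XT.nd (nat_lit 78) (nat_lit 0) (nat_lit 0) (XT.lf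 (nat_lit 0) (nat_lit 18829575) (nat_lit 760) (nat_lit 4920740878) (nat_lit 836) (nat_lit 5238182294) (nat_lit 310) (nat_lit 5) (nat_lit 320) (nat_lit 5) (nat_lit 321) (nat_lit 5) (nat_lit 442) (nat_lit 401) (nat_lit 297)) (XT.lf (nat_lit 0) (nat_lit 5596491212) (nat_lit 760) (nat_lit 1212496845) (nat_lit 836) (nat_lit 3473141662) (nat_lit 310) (nat_lit 5) (nat_lit 320) (nat_lit 5) (nat_lit 321) (nat_lit 5) (nat_lit 443) (nat_lit 401) (nat_lit 296)))) (XT.nd (nat_lit 156) (nat_lit 684) (nat_lit 0) (XT.nd (nat_lit 78) (nat_lit 76) (nat_lit 0) (XT.lf (nat_lit 0) (nat_lit 870766567) (nat_lit 760) (nat_lit 7847060009) (nat_lit 836) (nat_lit 1670740190) (nat_lit 300) (nat_lit 5) (nat_lit 310) (nat_lit 5) (nat_lit 311) (nat_lit 5) (nat_lit 444) (nat_lit 401) (nat_lit 295)) (XT.lf (nat_lit 0) (nat_lit 185000983) (nat_lit 836) (nat_lit 3925238051) (nat_lit 76) (nat_lit 6386494593) (nat_lit 299) (nat_lit 5) (nat_lit 310)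 (nat_lit 5) (nat_lit 300) (nat_lit 5) (nat_lit 445) (nat_lit 401) (nat_lit 294))) (XT.nd (nat_lit 78) (nat_lit 0) (nat_lit 0) (XT.lf (nat_lit 0) (nat_lit 1770525446) (nat_lit 684) (nat_lit 276682637) (nat_lit 760) (nat_lit 8559812848) (nat_lit 290) (nat_lit 5) (nat_lit 299) (nat_lit 5) (nat_lit 300) (nat_lit 5) (nat_lit 446) (nat_lit 401) (nat_lit 293)) (XT.lf (nat_lit 0) (nat_lit 3977218128) (nat_lit 760) (nat_lit 3130406068) (nat_lit 76) (nat_lit 3611290792) (nat_lit 290) (nat_lit 5) (nat_lit 300) (nat_lit 5) (nat_lit 291) (nat_lit 5) (nat_lit 447) (nat_lit 401) (nat_lit 292)))))) (XT.nd (nat_lit 546) (nat_lit 2584) (nat_lit 0) (XT.nd (nat_lit 234) (nat_lit 1368) (nat_lit 0) (XT.nd (nat_lit 78) (nat_lit 684) (nat_lit 0) (XT.lf (nat_lit 0) (nat_lit 2702768211) (nat_lit 760) (nat_lit 3243276510) (nat_lit 836) (nat_lit 4887009821) (nat_lit 280) (nat_lit 5) (nat_lit 290) (nat_lit 5) (nat_lit 291) (nat_lit 5) (nat_lit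 448) (nat_lit 401) (nat_lit 291)) (XT.nd (nat_lit 78) (nat_lit 684) (nat_lit 0) (XT.lf (nat_lit 0) (nat_lit 7960995900) (nat_lit 836) (nat_lit 2279586423) (nat_lit 76) (nat_lit 708771312) (nat_lit 280) (nat_lit 5) (nat_lit 291) (nat_lit 5) (nat_lit 281) (nat_lit 5) (nat_lit 449) (nat_lit 401) (nat_lit 290)) (XT.lf (nat_lit 0) (nat_lit 3694618334) (nat_lit 684) (nat_lit 6348533609) (nat_lit 760) (nat_lit 1024300129) (nat_lit 271) (nat_lit 5) (nat_lit 280) (nat_lit 5) (nat_lit 281) (nat_lit 5) (nat_lit 450) (nat_lit 401) (nat_lit 289)))) (XT.nd (nat_lit 156) (nat_lit 608) (nat_lit 0) (XT.nd (nat_lit 78) (nat_lit 684) (nat_lit 0) (XT.lf (nat_lit 0) (nat_lit 963135477) (nat_lit 760) (nat_lit 1395464508) (nat_lit 76) (nat_lit 8829257653) (nat_lit 270) (nat_lit 5) (nat_lit 280) (nat_lit 5) (nat_lit 271) (nat_lit 5) (nat_lit 451) (nat_lit 401) (nat_lit 288)) (XT.lf (nat_lit 0) (nat_lit 3000615603) (nat_lit 760) (nat_lit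 6585051886) (nat_lit 76) (nat_lit 1724399007) (nat_lit 261) (nat_lit 5) (nat_lit 271) (nat_lit 5) (nat_lit 262) (nat_lit 5) (nat_lit 452) (nat_lit 401) (nat_lit 287))) (XT.nd (nat_lit 78) (nat_lit 608) (nat_lit 0) (XT.lf (nat_lit 0) (nat_lit 5086002412) (nat_lit 760) (nat_lit 483819462) (nat_lit 76) (nat_lit 5864765120) (nat_lit 261) (nat_lit 5) (nat_lit 271) (nat_lit 5) (nat_lit 262) (nat_lit 5) (nat_lit 453) (nat_lit 401) (nat_lit 286)) (XT.lf (nat_lit 0) (nat_lit 5795421552) (nat_lit 608) (nat_lit 1437764789) (nat_lit 684) (nat_lit 4328020171) (nat_lit 253) (nat_lit 5) (nat_lit 261) (nat_lit 5) (nat_lit 262) (nat_lit 5) (nat_lit 454) (nat_lit 401) (nat_lit 285))))) (XT.nd (nat_lit 312) (nat_lit 1216) (nat_lit 0) (XT.nd (nat_lit 156) (nat_lit 684) (nat_lit 0) (XT.nd (nat_lit 78) (nat_lit 0) (nat_lit 0) (XT.lf (nat_lit 0) (nat_lit 484584108) (nat_lit 684) (nat_lit 8945833681) (nat_lit 760) (nat_lit 2259808748)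 (nat_lit 244) (nat_lit 5) (nat_lit 253) (nat_lit 5) (nat_lit 254) (nat_lit 5) (nat_lit 455) (nat_lit 401) (nat_lit 284)) (XT.lf (nat_lit 0) (nat_lit 6908369936) (nat_lit 684) (nat_lit 4794243588) (nat_lit 760) (nat_lit 118603038) (nat_lit 244) (nat_lit 5) (nat_lit 253) (nat_lit 5) (nat_lit 254) (nat_lit 5) (nat_lit 456) (nat_lit 401) (nat_lit 283))) (XT.nd (nat_lit 78) (nat_lit 0) (nat_lit 0) (XT.lf (nat_lit 0) (nat_lit 1492023628) (nat_lit 608) (nat_lit 539086153) (nat_lit 684) (nat_lit 9923602582) (nat_lit 235) (nat_lit 5) (nat_lit 243) (nat_lit 5) (nat_lit 244) (nat_lit 5) (nat_lit 457) (nat_lit 401) (nat_lit 282)) (XT.lf (nat_lit 0) (nat_lit 4263363317) (nat_lit 684) (nat_lit 4044447924) (nat_lit 76) (nat_lit 3782237884) (nat_lit 235) (nat_lit 5) (nat_lit 244) (nat_lit 5) (nat_lit 236) (nat_lit 5) (nat_lit 458) (nat_lit 401) (nat_lit 281)))) (XT.nd (nat_lit 156) (nat_lit 608) (nat_lit 0) (XT.nd (nat_lit 78)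 (nat_lit 0) (nat_lit 0) (XT.lf (nat_lit 0) (nat_lit 2511793063) (nat_lit 608) (nat_lit 4031942494) (nat_lit 684) (nat_lit 5684296826) (nat_lit 227) (nat_lit 5) (nat_lit 235) (nat_lit 5) (nat_lit 236) (nat_lit 5) (nat_lit 459) (nat_lit 401) (nat_lit 280)) (XT.lf (nat_lit 0) (nat_lit 8882941924) (nat_lit 684) (nat_lit 3136487279) (nat_lit 76) (nat_lit 349090621) (nat_lit 227) (nat_lit 5) (nat_lit 236) (nat_lit 5) (nat_lit 228) (nat_lit 5) (nat_lit 460) (nat_lit 401) (nat_lit 279))) (XT.nd (nat_lit 78) (nat_lit 76) (nat_lit 0) (XT.lf (nat_lit 0) (nat_lit 3575523892) (nat_lit 532) (nat_lit 7727410688) (nat_lit 608) (nat_lit 1208211263) (nat_lit 220) (nat_lit 5) (nat_lit 227) (nat_lit 5) (nat_lit 228) (nat_lit 5) (nat_lit 461) (nat_lit 401) (nat_lit 278)) (XT.lf (nat_lit 0) (nat_lit 1105429275) (nat_lit 608) (nat_lit 2218907528) (nat_lit 76) (nat_lit 9332044441) (nat_lit 219) (nat_lit 5) (nat_lit 227) (nat_lit 5) (nat_lit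 220) (nat_lit 5) (nat_lit 462) (nat_lit 401) (nat_lit 277))))))))
noncomputable def xc153 : XT := (XT.nd (nat_lit 2184) (nat_lit 4256) (nat_lit 0) (XT.nd (nat_lit 1092) (nat_lit 3040) (nat_lit 0) (XT.nd (nat_lit 546) (nat_lit 1976) (nat_lit 0) (XT.nd (nat_lit 234) (nat_lit 1064) (nat_lit 0) (XT.nd (nat_lit 78) (nat_lit 532) (nat_lit 0) (XT.lf (nat_lit 0) (nat_lit 3471750267) (nat_lit 684) (nat_lit 8145776863) (nat_lit 76) (nat_lit 1186391145) (nat_lit 211) (nat_lit 5) (nat_lit 220) (nat_lit 5) (nat_lit 212) (nat_lit 5) (nat_lit 463) (nat_lit 401) (nat_lit 276)) (XT.nd (nat_lit 78) (nat_lit 532) (nat_lit 0) (XT.lf (nat_lit 0) (nat_lit 5907027692) (nat_lit 684) (nat_lit 1292811220) (nat_lit 76) (nat_lit 5754142734) (nat_lit 211) (nat_lit 5) (nat_lit 220) (nat_lit 5) (nat_lit 212) (nat_lit 5) (nat_lit 464) (nat_lit 401) (nat_lit 275)) (XT.lf (nat_lit 0) (nat_lit 5753656230) (nat_lit 532) (nat_lit 2659638330) (nat_lit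 608) (nat_lit 4693314084) (nat_lit 204) (nat_lit 5) (nat_lit 211) (nat_lit 5) (nat_lit 212) (nat_lit 5) (nat_lit 465) (nat_lit 401) (nat_lit 274)))) (XT.nd (nat_lit 156) (nat_lit 456) (nat_lit 0) (XT.nd (nat_lit 78) (nat_lit 608) (nat_lit 0) (XT.lf (nat_lit 0) (nat_lit 10976293379) (nat_lit 608) (nat_lit 335566692) (nat_lit 76) (nat_lit 1950303858) (nat_lit 204) (nat_lit 5) (nat_lit 212) (nat_lit 5) (nat_lit 205) (nat_lit 5) (nat_lit 466) (nat_lit 401) (nat_lit 273)) (XT.lf (nat_lit 0) (nat_lit 215427276) (nat_lit 608) (nat_lit 6545367123) (nat_lit 76) (nat_lit 6659062829) (nat_lit 196) (nat_lit 5) (nat_lit 204) (nat_lit 5) (nat_lit 197) (nat_lit 5) (nat_lit 467) (nat_lit 401) (nat_lit 272))) (XT.nd (nat_lit 78) (nat_lit 0) (nat_lit 0) (XT.lf (nat_lit 0) (nat_lit 626831212) (nat_lit 456) (nat_lit 2101106557) (nat_lit 532) (nat_lit 10852635966) (nat_lit 190) (nat_lit 5) (nat_lit 196) (nat_lit 5) (nat_lit 197) (nat_lit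 5) (nat_lit 468) (nat_lit 401) (nat_lit 271)) (XT.lf (nat_lit 0) (nat_lit 5337694416) (nat_lit 532) (nat_lit 5748953475) (nat_lit 76) (nat_lit 2656924043) (nat_lit 190) (nat_lit 5) (nat_lit 197) (nat_lit 5) (nat_lit 191) (nat_lit 5) (nat_lit 469) (nat_lit 401) (nat_lit 270))))) (XT.nd (nat_lit 234) (nat_lit 988) (nat_lit 0) (XT.nd (nat_lit 78) (nat_lit 456) (nat_lit 0) (XT.lf (nat_lit 0) (nat_lit 1588202097) (nat_lit 532) (nat_lit 6421518531) (nat_lit 608) (nat_lit 5899915116) (nat_lit 183) (nat_lit 5) (nat_lit 190) (nat_lit 5) (nat_lit 191) (nat_lit 5) (nat_lit 470) (nat_lit 401) (nat_lit 269)) (XT.nd (nat_lit 78) (nat_lit 456) (nat_lit 0) (XT.lf (nat_lit 0) (nat_lit 9131507817) (nat_lit 532) (nat_lit 1628263443) (nat_lit 608) (nat_lit 3318764890) (nat_lit 183) (nat_lit 5) (nat_lit 190) (nat_lit 5) (nat_lit 191) (nat_lit 5) (nat_lit 471) (nat_lit 401) (nat_lit 268)) (XT.lf (nat_lit 0) (nat_lit 2568975191) (nat_lit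 456) (nat_lit 11019949829) (nat_lit 532) (nat_lit 661414360) (nat_lit 177) (nat_lit 5) (nat_lit 183) (nat_lit 5) (nat_lit 184) (nat_lit 5) (nat_lit 472) (nat_lit 401) (nat_lit 267)))) (XT.nd (nat_lit 156) (nat_lit 456) (nat_lit 0) (XT.nd (nat_lit 78) (nat_lit 456) (nat_lit 0) (XT.lf (nat_lit 0) (nat_lit 2052714428) (nat_lit 532) (nat_lit 4165343022) (nat_lit 76) (nat_lit 8206651632) (nat_lit 176) (nat_lit 5) (nat_lit 183) (nat_lit 5) (nat_lit 177) (nat_lit 5) (nat_lit 473) (nat_lit 401) (nat_lit 266)) (XT.lf (nat_lit 0) (nat_lit 3524729835) (nat_lit 456) (nat_lit 1297006438) (nat_lit 532) (nat_lit 9780559595) (nat_lit 170) (nat_lit 5) (nat_lit 176) (nat_lit 5) (nat_lit 177) (nat_lit 5) (nat_lit 474) (nat_lit 401) (nat_lit 265))) (XT.nd (nat_lit 78) (nat_lit 456) (nat_lit 0) (XT.lf (nat_lit 0) (nat_lit 7685133471) (nat_lit 532) (nat_lit 3400400807) (nat_lit 76) (nat_lit 3697126550) (nat_lit 170) (nat_lit 5) (nat_lit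 177) (nat_lit 5) (nat_lit 171) (nat_lit 5) (nat_lit 475) (nat_lit 401) (nat_lit 264)) (XT.lf (nat_lit 0) (nat_lit 4462362475) (nat_lit 456) (nat_lit 6167948637) (nat_lit 532) (nat_lit 4335837938) (nat_lit 164) (nat_lit 5) (nat_lit 170) (nat_lit 5) (nat_lit 171) (nat_lit 5) (nat_lit 476) (nat_lit 401) (nat_lit 263)))))) (XT.nd (nat_lit 546) (nat_lit 1596) (nat_lit 0) (XT.nd (nat_lit 234) (nat_lit 912) (nat_lit 0) (XT.nd (nat_lit 78) (nat_lit 532) (nat_lit 0) (XT.lf (nat_lit 0) (nat_lit 12510711499) (nat_lit 456) (nat_lit 1133590269) (nat_lit 532) (nat_lit 1508813170) (nat_lit 164) (nat_lit 5) (nat_lit 170) (nat_lit 5) (nat_lit 171) (nat_lit 5) (nat_lit 477) (nat_lit 401) (nat_lit 262)) (XT.nd (nat_lit 78) (nat_lit 0) (nat_lit 0) (XT.lf (nat_lit 0) (nat_lit 1405412547) (nat_lit 532) (nat_lit 9948652987) (nat_lit 76) (nat_lit 3988608137) (nat_lit 157) (nat_lit 5) (nat_lit 164) (nat_lit 5) (nat_lit 158) (nat_lit 5)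 (nat_lit 478) (nat_lit 401) (nat_lit 261)) (XT.lf (nat_lit 0) (nat_lit 4370454491) (nat_lit 532) (nat_lit 1943994378) (nat_lit 76) (nat_lit 9221126291) (nat_lit 157) (nat_lit 5) (nat_lit 164) (nat_lit 5) (nat_lit 158) (nat_lit 5) (nat_lit 479) (nat_lit 401) (nat_lit 260)))) (XT.nd (nat_lit 156) (nat_lit 532) (nat_lit 0) (XT.nd (nat_lit 78) (nat_lit 0) (nat_lit 0) (XT.lf (nat_lit 0) (nat_lit 6285844032) (nat_lit 380) (nat_lit 1137372236) (nat_lit 456) (nat_lit 8308555658) (nat_lit 152) (nat_lit 5) (nat_lit 157) (nat_lit 5) (nat_lit 158) (nat_lit 5) (nat_lit 480) (nat_lit 401) (nat_lit 259)) (XT.lf (nat_lit 0) (nat_lit 10564771476) (nat_lit 456) (nat_lit 1269445866) (nat_lit 76) (nat_lit 4097126038) (nat_lit 152) (nat_lit 5) (nat_lit 158) (nat_lit 5) (nat_lit 153) (nat_lit 5) (nat_lit 481) (nat_lit 401) (nat_lit 258))) (XT.nd (nat_lit 78) (nat_lit 76) (nat_lit 0) (XT.lf (nat_lit 0) (nat_lit 7139554772) (nat_lit 456)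 (nat_lit 6671436947) (nat_lit 532) (nat_lit 2323083275) (nat_lit 146) (nat_lit 5) (nat_lit 152) (nat_lit 5) (nat_lit 153) (nat_lit 5) (nat_lit 482) (nat_lit 401) (nat_lit 257)) (XT.lf (nat_lit 0) (nat_lit 767592286) (nat_lit 532) (nat_lit 629044275) (nat_lit 76) (nat_lit 14944197152) (nat_lit 145) (nat_lit 5) (nat_lit 152) (nat_lit 5) (nat_lit 146) (nat_lit 5) (nat_lit 483) (nat_lit 401) (nat_lit 256))))) (XT.nd (nat_lit 234) (nat_lit 836) (nat_lit 0) (XT.nd (nat_lit 78) (nat_lit 380) (nat_lit 0) (XT.lf (nat_lit 0) (nat_lit 3955291462) (nat_lit 456) (nat_lit 8600767330) (nat_lit 76) (nat_lit 3994040476) (nat_lit 140) (nat_lit 5) (nat_lit 146) (nat_lit 5) (nat_lit 141) (nat_lit 5) (nat_lit 484) (nat_lit 401) (nat_lit 255)) (XT.nd (nat_lit 78) (nat_lit 380) (nat_lit 0) (XT.lf (nat_lit 0) (nat_lit 7208556664) (nat_lit 456) (nat_lit 81865730) (nat_lit 76) (nat_lit 9473096496) (nat_lit 140) (nat_lit 5) (nat_lit 146)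 (nat_lit 5) (nat_lit 141) (nat_lit 5) (nat_lit 485) (nat_lit 401) (nat_lit 254)) (XT.lf (nat_lit 0) (nat_lit 8704987897) (nat_lit 380) (nat_lit 1866960592) (nat_lit 456) (nat_lit 6408362089) (nat_lit 135) (nat_lit 5) (nat_lit 140) (nat_lit 5) (nat_lit 141) (nat_lit 5) (nat_lit 486) (nat_lit 401) (nat_lit 253)))) (XT.nd (nat_lit 156) (nat_lit 380) (nat_lit 0) (XT.nd (nat_lit 78) (nat_lit 76) (nat_lit 0) (XT.lf (nat_lit 0) (nat_lit 432451307) (nat_lit 380) (nat_lit 13585940010) (nat_lit 456) (nat_lit 3182735921) (nat_lit 130) (nat_lit 5) (nat_lit 135) (nat_lit 5) (nat_lit 136) (nat_lit 5) (nat_lit 487) (nat_lit 401) (nat_lit 252)) (XT.lf (nat_lit 0) (nat_lit 162920855) (nat_lit 456) (nat_lit 8028851745) (nat_lit 76) (nat_lit 9233439769) (nat_lit 129) (nat_lit 5) (nat_lit 135) (nat_lit 5) (nat_lit 130) (nat_lit 5) (nat_lit 488) (nat_lit 401) (nat_lit 251))) (XT.nd (nat_lit 78) (nat_lit 0) (nat_lit 0) (XT.lf (nat_lit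 0) (nat_lit 859564515) (nat_lit 380) (nat_lit 2667815592) (nat_lit 456) (nat_lit 14126092739) (nat_lit 124) (nat_lit 5) (nat_lit 129) (nat_lit 5) (nat_lit 130) (nat_lit 5) (nat_lit 489) (nat_lit 401) (nat_lit 250)) (XT.lf (nat_lit 0) (nat_lit 7021587725) (nat_lit 456) (nat_lit 7886739029) (nat_lit 76) (nat_lit 2976727032) (nat_lit 124) (nat_lit 5) (nat_lit 130) (nat_lit 5) (nat_lit 125) (nat_lit 5) (nat_lit 490) (nat_lit 401) (nat_lit 249))))))) (XT.nd (nat_lit 1092) (nat_lit 1900) (nat_lit 0) (XT.nd (nat_lit 546) (nat_lit 988) (nat_lit 0) (XT.nd (nat_lit 234) (nat_lit 684) (nat_lit 0) (XT.nd (nat_lit 78) (nat_lit 380) (nat_lit 0) (XT.lf (nat_lit 0) (nat_lit 1180225783) (nat_lit 304) (nat_lit 9419963861) (nat_lit 380) (nat_lit 7520790849) (nat_lit 120) (nat_lit 5) (nat_lit 124) (nat_lit 5) (nat_lit 125) (nat_lit 5) (nat_lit 491) (nat_lit 401) (nat_lit 248)) (XT.nd (nat_lit 78) (nat_lit 380) (nat_lit 0) (XT.lf (nat_lit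 0) (nat_lit 10519383931) (nat_lit 304) (nat_lit 3773191468) (nat_lit 380) (nat_lit 4068210363) (nat_lit 120) (nat_lit 5) (nat_lit 124) (nat_lit 5) (nat_lit 125) (nat_lit 5) (nat_lit 492) (nat_lit 401) (nat_lit 247)) (XT.lf (nat_lit 0) (nat_lit 1429875131) (nat_lit 380) (nat_lit 16640578896) (nat_lit 456) (nat_lit 534704388) (nat_lit 115) (nat_lit 5) (nat_lit 120) (nat_lit 5) (nat_lit 121) (nat_lit 5) (nat_lit 493) (nat_lit 401) (nat_lit 246)))) (XT.nd (nat_lit 156) (nat_lit 304) (nat_lit 0) (XT.nd (nat_lit 78) (nat_lit 304) (nat_lit 0) (XT.lf (nat_lit 0) (nat_lit 3096665934) (nat_lit 456) (nat_lit 7921718933) (nat_lit 76) (nat_lit 7834290074) (nat_lit 114) (nat_lit 5) (nat_lit 120) (nat_lit 5) (nat_lit 115) (nat_lit 5) (nat_lit 494) (nat_lit 401) (nat_lit 245)) (XT.lf (nat_lit 0) (nat_lit 1517635397) (nat_lit 304) (nat_lit 5275429221) (nat_lit 380) (nat_lit 12312019218) (nat_lit 110) (nat_lit 5) (nat_lit 114) (nat_lit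 5) (nat_lit 115) (nat_lit 5) (nat_lit 495) (nat_lit 401) (nat_lit 244))) (XT.nd (nat_lit 78) (nat_lit 304) (nat_lit 0) (XT.lf (nat_lit 0) (nat_lit 10610450274) (nat_lit 380) (nat_lit 8128167712) (nat_lit 76) (nat_lit 622985605) (nat_lit 110) (nat_lit 5) (nat_lit 115) (nat_lit 5) (nat_lit 111) (nat_lit 5) (nat_lit 496) (nat_lit 401) (nat_lit 243)) (XT.lf (nat_lit 0) (nat_lit 1489490575) (nat_lit 304) (nat_lit 13049267913) (nat_lit 380) (nat_lit 5083807545) (nat_lit 106) (nat_lit 5) (nat_lit 110) (nat_lit 5) (nat_lit 111) (nat_lit 5) (nat_lit 497) (nat_lit 401) (nat_lit 242))))) (XT.nd (nat_lit 234) (nat_lit 608) (nat_lit 0) (XT.nd (nat_lit 78) (nat_lit 380) (nat_lit 0) (XT.lf (nat_lit 0) (nat_lit 11394376467) (nat_lit 304) (nat_lit 7195865496) (nat_lit 380) (nat_lit 1297617292) (nat_lit 106) (nat_lit 5) (nat_lit 110) (nat_lit 5) (nat_lit 111) (nat_lit 5) (nat_lit 498) (nat_lit 401) (nat_lit 241)) (XT.nd (nat_lit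 78) (nat_lit 0) (nat_lit 0) (XT.lf (nat_lit 0) (nat_lit 1324484638) (nat_lit 304) (nat_lit 1204971869) (nat_lit 380) (nat_lit 17628696601) (nat_lit 101) (nat_lit 5) (nat_lit 105) (nat_lit 5) (nat_lit 106) (nat_lit 5) (nat_lit 499) (nat_lit 401) (nat_lit 240)) (XT.lf (nat_lit 0) (nat_lit 6495189066) (nat_lit 380) (nat_lit 9034794813) (nat_lit 76) (nat_lit 4902111065) (nat_lit 101) (nat_lit 5) (nat_lit 106) (nat_lit 5) (nat_lit 102) (nat_lit 5) (nat_lit 500) (nat_lit 401) (nat_lit 239)))) (XT.nd (nat_lit 156) (nat_lit 304) (nat_lit 0) (XT.nd (nat_lit 78) (nat_lit 0) (nat_lit 0) (XT.lf (nat_lit 0) (nat_lit 949626544) (nat_lit 304) (nat_lit 9595198052) (nat_lit 380) (nat_lit 10166602685) (nat_lit 97) (nat_lit 5) (nat_lit 101) (nat_lit 5) (nat_lit 102) (nat_lit 5) (nat_lit 501) (nat_lit 401) (nat_lit 238)) (XT.lf (nat_lit 0) (nat_lit 11241399057) (nat_lit 304) (nat_lit 3485216041) (nat_lit 380) (nat_lit 6268711284)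 (nat_lit 97) (nat_lit 5) (nat_lit 101) (nat_lit 5) (nat_lit 102) (nat_lit 5) (nat_lit 502) (nat_lit 401) (nat_lit 237))) (XT.nd (nat_lit 78) (nat_lit 76) (nat_lit 0) (XT.lf (nat_lit 0) (nat_lit 427200356) (nat_lit 228) (nat_lit 18576135493) (nat_lit 304) (nat_lit 2281345024) (nat_lit 94) (nat_lit 5) (nat_lit 97) (nat_lit 5) (nat_lit 98) (nat_lit 5) (nat_lit 503) (nat_lit 401) (nat_lit 236)) (XT.lf (nat_lit 0) (nat_lit 1842025606) (nat_lit 304) (nat_lit 10684155499) (nat_lit 76) (nat_lit 9051819075) (nat_lit 93) (nat_lit 5) (nat_lit 97) (nat_lit 5) (nat_lit 94) (nat_lit 5) (nat_lit 504) (nat_lit 401) (nat_lit 235)))))) (XT.nd (nat_lit 546) (nat_lit 988) (nat_lit 0) (XT.nd (nat_lit 234) (nat_lit 608) (nat_lit 0) (XT.nd (nat_lit 78) (nat_lit 304) (nat_lit 0) (XT.lf (nat_lit 0) (nat_lit 6008236527) (nat_lit 304) (nat_lit 336884973) (nat_lit 76) (nat_lit 15531947485) (nat_lit 93) (nat_lit 5) (nat_lit 97) (nat_lit 5)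 (nat_lit 94) (nat_lit 5) (nat_lit 505) (nat_lit 401) (nat_lit 234)) (XT.nd (nat_lit 78) (nat_lit 0) (nat_lit 0) (XT.lf (nat_lit 0) (nat_lit 10316116332) (nat_lit 380) (nat_lit 11842310510) (nat_lit 76) (nat_lit 22528476) (nat_lit 89) (nat_lit 5) (nat_lit 94) (nat_lit 5) (nat_lit 90) (nat_lit 5) (nat_lit 506) (nat_lit 401) (nat_lit 233)) (XT.lf (nat_lit 0) (nat_lit 14745570435) (nat_lit 380) (nat_lit 1314841440) (nat_lit 76) (nat_lit 6429802155) (nat_lit 89) (nat_lit 5) (nat_lit 94) (nat_lit 5) (nat_lit 90) (nat_lit 5) (nat_lit 507) (nat_lit 401) (nat_lit 232)))) (XT.nd (nat_lit 156) (nat_lit 304) (nat_lit 0) (XT.nd (nat_lit 78) (nat_lit 76) (nat_lit 0) (XT.lf (nat_lit 0) (nat_lit 9534316003) (nat_lit 228) (nat_lit 9782495213) (nat_lit 304) (nat_lit 3487785676) (nat_lit 86) (nat_lit 5) (nat_lit 89) (nat_lit 5) (nat_lit 90) (nat_lit 5) (nat_lit 508) (nat_lit 401) (nat_lit 231)) (XT.lf (nat_lit 0) (nat_lit 843203553)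 (nat_lit 304) (nat_lit 2526347875) (nat_lit 76) (nat_lit 19755603929) (nat_lit 85) (nat_lit 5) (nat_lit 89) (nat_lit 5) (nat_lit 86) (nat_lit 5) (nat_lit 509) (nat_lit 401) (nat_lit 230))) (XT.nd (nat_lit 78) (nat_lit 0) (nat_lit 0) (XT.lf (nat_lit 0) (nat_lit 5281953344) (nat_lit 380) (nat_lit 14964527636) (nat_lit 76) (nat_lit 3203828841) (nat_lit 81) (nat_lit 5) (nat_lit 86) (nat_lit 5) (nat_lit 82) (nat_lit 5) (nat_lit 510) (nat_lit 401) (nat_lit 229)) (XT.lf (nat_lit 0) (nat_lit 9840389787) (nat_lit 380) (nat_lit 4065362399) (nat_lit 76) (nat_lit 9875599660) (nat_lit 81) (nat_lit 5) (nat_lit 86) (nat_lit 5) (nat_lit 82) (nat_lit 5) (nat_lit 511) (nat_lit 401) (nat_lit 228))))) (XT.nd (nat_lit 312) (nat_lit 456) (nat_lit 0) (XT.nd (nat_lit 156) (nat_lit 304) (nat_lit 0) (XT.nd (nat_lit 78) (nat_lit 0) (nat_lit 0) (XT.lf (nat_lit 0) (nat_lit 7131883785) (nat_lit 228) (nat_lit 7396113496) (nat_lit 304) (nat_lit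 9590260036) (nat_lit 78) (nat_lit 5) (nat_lit 81) (nat_lit 5) (nat_lit 82) (nat_lit 5) (nat_lit 512) (nat_lit 401) (nat_lit 227)) (XT.lf (nat_lit 0) (nat_lit 18594832063) (nat_lit 228) (nat_lit 733579104) (nat_lit 304) (nat_lit 5133111244) (nat_lit 78) (nat_lit 5) (nat_lit 81) (nat_lit 5) (nat_lit 82) (nat_lit 5) (nat_lit 513) (nat_lit 401) (nat_lit 226))) (XT.nd (nat_lit 78) (nat_lit 76) (nat_lit 0) (XT.lf (nat_lit 0) (nat_lit 5494873526) (nat_lit 228) (nat_lit 18796898243) (nat_lit 304) (nat_lit 518544818) (nat_lit 75) (nat_lit 5) (nat_lit 78) (nat_lit 5) (nat_lit 79) (nat_lit 5) (nat_lit 514) (nat_lit 401) (nat_lit 225)) (XT.lf (nat_lit 0) (nat_lit 4169790020) (nat_lit 304) (nat_lit 8047660451) (nat_lit 76) (nat_lit 12947366609) (nat_lit 74) (nat_lit 5) (nat_lit 78) (nat_lit 5) (nat_lit 75) (nat_lit 5) (nat_lit 515) (nat_lit 401) (nat_lit 224)))) (XT.nd (nat_lit 156) (nat_lit 228) (nat_lit 0) (XT.nd (nat_lit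 78) (nat_lit 0) (nat_lit 0) (XT.lf (nat_lit 0) (nat_lit 3474631587) (nat_lit 228) (nat_lit 5484961306) (nat_lit 304) (nat_lit 16566455644) (nat_lit 71) (nat_lit 5) (nat_lit 74) (nat_lit 5) (nat_lit 75) (nat_lit 5) (nat_lit 516) (nat_lit 401) (nat_lit 223)) (XT.lf (nat_lit 0) (nat_lit 13900644885) (nat_lit 304) (nat_lit 10579322319) (nat_lit 76) (nat_lit 1413430714) (nat_lit 71) (nat_lit 5) (nat_lit 75) (nat_lit 5) (nat_lit 72) (nat_lit 5) (nat_lit 517) (nat_lit 401) (nat_lit 222))) (XT.nd (nat_lit 78) (nat_lit 0) (nat_lit 0) (XT.lf (nat_lit 0) (nat_lit 1087382805) (nat_lit 228) (nat_lit 17888791296) (nat_lit 304) (nat_lit 7291209371) (nat_lit 68) (nat_lit 5) (nat_lit 71) (nat_lit 5) (nat_lit 72) (nat_lit 5) (nat_lit 518) (nat_lit 401) (nat_lit 221)) (XT.lf (nat_lit 0) (nat_lit 13118143161) (nat_lit 228) (nat_lit 11098404664) (nat_lit 304) (nat_lit 2431036496) (nat_lit 68) (nat_lit 5) (nat_lit 71) (nat_lit 5) (nat_lit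 72) (nat_lit 5) (nat_lit 519) (nat_lit 401) (nat_lit 220))))))))
noncomputable def xc154 : XT := (XT.nd (nat_lit 51870) (nat_lit 0) (nat_lit 15428) (XT.nd (nat_lit 50778) (nat_lit 0) (nat_lit 31084) (XT.nd (nat_lit 50232) (nat_lit 0) (nat_lit 34808) (XT.nd (nat_lit 234) (nat_lit 456) (nat_lit 0) (XT.nd (nat_lit 78) (nat_lit 228) (nat_lit 0) (XT.lf (nat_lit 0) (nat_lit 2485645796) (nat_lit 304) (nat_lit 1674811446) (nat_lit 76) (nat_lit 22874757279) (nat_lit 67) (nat_lit 5) (nat_lit 71) (nat_lit 5) (nat_lit 68) (nat_lit 5) (nat_lit 520) (nat_lit 401) (nat_lit 219)) (XT.nd (nat_lit 78) (nat_lit 0) (nat_lit 0) (XT.lf (nat_lit 0) (nat_lit 7548535490) (nat_lit 304) (nat_lit 16921943814) (nat_lit 76) (nat_lit 2958190265) (nat_lit 64) (nat_lit 5) (nat_lit 68) (nat_lit 5) (nat_lit 65) (nat_lit 5) (nat_lit 521) (nat_lit 401) (nat_lit 218)) (XT.lf (nat_lit 0) (nat_lit 12744171047) (nat_lit 304) (nat_lit 4915128872) (nat_lit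 76) (nat_lit 10170066128) (nat_lit 64) (nat_lit 5) (nat_lit 68) (nat_lit 5) (nat_lit 65) (nat_lit 5) (nat_lit 522) (nat_lit 401) (nat_lit 217)))) (XT.nd (nat_lit 156) (nat_lit 228) (nat_lit 0) (XT.nd (nat_lit 78) (nat_lit 0) (nat_lit 0) (XT.lf (nat_lit 0) (nat_lit 7417010523) (nat_lit 228) (nat_lit 10667631684) (nat_lit 304) (nat_lit 10152617839) (nat_lit 61) (nat_lit 5) (nat_lit 64) (nat_lit 5) (nat_lit 65) (nat_lit 5) (nat_lit 523) (nat_lit 401) (nat_lit 216)) (XT.lf (nat_lit 0) (nat_lit 20050410821) (nat_lit 228) (nat_lit 3507325679) (nat_lit 304) (nat_lit 5095061160) (nat_lit 61) (nat_lit 5) (nat_lit 64) (nat_lit 5) (nat_lit 65) (nat_lit 5) (nat_lit 524) (nat_lit 401) (nat_lit 215))) (XT.nd (nat_lit 49764) (nat_lit 0) (nat_lit 36024) (XT.lf (nat_lit 0) (nat_lit 105834069) (nat_lit 228) (nat_lit 25202378103) (nat_lit 76) (nat_lit 3767567079) (nat_lit 58) (nat_lit 5) (nat_lit 61) (nat_lit 5) (nat_lit 59) (nat_lit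 5) (nat_lit 525) (nat_lit 401) (nat_lit 214)) (XT.lf (nat_lit 0) (nat_lit 669370141) (nat_lit 0) (nat_lit 669370141) (nat_lit 1140) (nat_lit 2351773932) (nat_lit 532) (nat_lit 5) (nat_lit 532) (nat_lit 3) (nat_lit 547) (nat_lit 3) (nat_lit 402) (nat_lit 402) (nat_lit 336))))) (XT.nd (nat_lit 234) (nat_lit 1216) (nat_lit 0) (XT.nd (nat_lit 78) (nat_lit 0) (nat_lit 0) (XT.lf (nat_lit 0) (nat_lit 4172734968) (nat_lit 1140) (nat_lit 2607765686) (nat_lit 1216) (nat_lit 643718441) (nat_lit 532) (nat_lit 5) (nat_lit 547) (nat_lit 3) (nat_lit 548) (nat_lit 5) (nat_lit 403) (nat_lit 402) (nat_lit 335)) (XT.nd (nat_lit 78) (nat_lit 0) (nat_lit 0) (XT.lf (nat_lit 76) (nat_lit 877966626) (nat_lit 0) (nat_lit 4796211026) (nat_lit 1216) (nat_lit 1794603049) (nat_lit 533) (nat_lit 5) (nat_lit 532) (nat_lit 5) (nat_lit 548) (nat_lit 5) (nat_lit 404) (nat_lit 402) (nat_lit 334)) (XT.lf (nat_lit 76) (nat_lit 4448765508) (nat_lit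 0) (nat_lit 2736720997) (nat_lit 1216) (nat_lit 329182435) (nat_lit 533) (nat_lit 5) (nat_lit 532) (nat_lit 5) (nat_lit 548) (nat_lit 5) (nat_lit 405) (nat_lit 402) (nat_lit 333)))) (XT.nd (nat_lit 156) (nat_lit 0) (nat_lit 76) (XT.nd (nat_lit 78) (nat_lit 0) (nat_lit 76) (XT.lf (nat_lit 76) (nat_lit 508476498) (nat_lit 0) (nat_lit 607885784) (nat_lit 1292) (nat_lit 6445670166) (nat_lit 517) (nat_lit 5) (nat_lit 516) (nat_lit 5) (nat_lit 533) (nat_lit 5) (nat_lit 406) (nat_lit 402) (nat_lit 332)) (XT.lf (nat_lit 0) (nat_lit 2580783817) (nat_lit 1216) (nat_lit 3447364138) (nat_lit 1292) (nat_lit 1582294572) (nat_lit 517) (nat_lit 5) (nat_lit 533) (nat_lit 5) (nat_lit 534) (nat_lit 5) (nat_lit 407) (nat_lit 402) (nat_lit 331))) (XT.nd (nat_lit 78) (nat_lit 0) (nat_lit 0) (XT.lf (nat_lit 76) (nat_lit 209210961) (nat_lit 0) (nat_lit 3834890449) (nat_lit 1292) (nat_lit 3616356944) (nat_lit 518) (nat_lit 5) (nat_lit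 517) (nat_lit 5) (nat_lit 534) (nat_lit 5) (nat_lit 408) (nat_lit 402) (nat_lit 330)) (XT.lf (nat_lit 76) (nat_lit 3965323432) (nat_lit 0) (nat_lit 1559288649) (nat_lit 1292) (nat_lit 2187132996) (nat_lit 518) (nat_lit 5) (nat_lit 517) (nat_lit 5) (nat_lit 534) (nat_lit 5) (nat_lit 409) (nat_lit 402) (nat_lit 329)))))) (XT.nd (nat_lit 546) (nat_lit 2584) (nat_lit 0) (XT.nd (nat_lit 234) (nat_lit 0) (nat_lit 76) (XT.nd (nat_lit 78) (nat_lit 1292) (nat_lit 0) (XT.lf (nat_lit 76) (nat_lit 6905755) (nat_lit 0) (nat_lit 6998396489) (nat_lit 1292) (nat_lit 759372450) (nat_lit 519) (nat_lit 5) (nat_lit 518) (nat_lit 5) (nat_lit 535) (nat_lit 5) (nat_lit 410) (nat_lit 402) (nat_lit 328)) (XT.nd (nat_lit 78) (nat_lit 0) (nat_lit 0) (XT.lf (nat_lit 0) (nat_lit 689303481) (nat_lit 1292) (nat_lit 3968178341) (nat_lit 1368) (nat_lit 3161088002) (nat_lit 501) (nat_lit 5) (nat_lit 518) (nat_lit 5) (nat_lit 519) (nat_lit 5) (nat_lit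 411) (nat_lit 402) (nat_lit 327)) (XT.lf (nat_lit 0) (nat_lit 2123331052) (nat_lit 1292) (nat_lit 128495238) (nat_lit 1368) (nat_lit 5622312155) (nat_lit 501) (nat_lit 5) (nat_lit 518) (nat_lit 5) (nat_lit 519) (nat_lit 5) (nat_lit 412) (nat_lit 402) (nat_lit 326)))) (XT.nd (nat_lit 156) (nat_lit 0) (nat_lit 0) (XT.nd (nat_lit 78) (nat_lit 0) (nat_lit 0) (XT.lf (nat_lit 0) (nat_lit 3579576271) (nat_lit 1292) (nat_lit 4114774486) (nat_lit 1368) (nat_lit 236623309) (nat_lit 502) (nat_lit 5) (nat_lit 519) (nat_lit 5) (nat_lit 520) (nat_lit 5) (nat_lit 413) (nat_lit 402) (nat_lit 325)) (XT.lf (nat_lit 0) (nat_lit 5048511430) (nat_lit 1292) (nat_lit 183199982) (nat_lit 1368) (nat_lit 2757589540) (nat_lit 502) (nat_lit 5) (nat_lit 519) (nat_lit 5) (nat_lit 520) (nat_lit 5) (nat_lit 414) (nat_lit 402) (nat_lit 324))) (XT.nd (nat_lit 78) (nat_lit 0) (nat_lit 0) (XT.lf (nat_lit 76) (nat_lit 3857119849) (nat_lit 0) (nat_lit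 2683164401) (nat_lit 1368) (nat_lit 1508666294) (nat_lit 503) (nat_lit 5) (nat_lit 502) (nat_lit 5) (nat_lit 520) (nat_lit 5) (nat_lit 415) (nat_lit 402) (nat_lit 323)) (XT.lf (nat_lit 76) (nat_lit 7960391108) (nat_lit 0) (nat_lit 71634009) (nat_lit 1368) (nat_lit 78390207) (nat_lit 503) (nat_lit 5) (nat_lit 502) (nat_lit 5) (nat_lit 520) (nat_lit 5) (nat_lit 416) (nat_lit 402) (nat_lit 322))))) (XT.nd (nat_lit 234) (nat_lit 1368) (nat_lit 0) (XT.nd (nat_lit 78) (nat_lit 0) (nat_lit 0) (XT.lf (nat_lit 0) (nat_lit 1374743798) (nat_lit 1368) (nat_lit 4194489603) (nat_lit 1444) (nat_lit 2603473468) (nat_lit 485) (nat_lit 5) (nat_lit 503) (nat_lit 5) (nat_lit 504) (nat_lit 5) (nat_lit 417) (nat_lit 402) (nat_lit 321)) (XT.nd (nat_lit 78) (nat_lit 0) (nat_lit 0) (XT.lf (nat_lit 0) (nat_lit 2827202423) (nat_lit 1368) (nat_lit 67097856) (nat_lit 1444) (nat_lit 5342530786) (nat_lit 485) (nat_lit 5) (nat_lit 503) (nat_lit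 5) (nat_lit 504) (nat_lit 5) (nat_lit 418) (nat_lit 402) (nat_lit 320)) (XT.lf (nat_lit 76) (nat_lit 4177104873) (nat_lit 0) (nat_lit 129140388) (nat_lit 1444) (nat_lit 3996064742) (nat_lit 486) (nat_lit 5) (nat_lit 485) (nat_lit 5) (nat_lit 504) (nat_lit 5) (nat_lit 419) (nat_lit 402) (nat_lit 319)))) (XT.nd (nat_lit 156) (nat_lit 1444) (nat_lit 0) (XT.nd (nat_lit 78) (nat_lit 0) (nat_lit 0) (XT.lf (nat_lit 76) (nat_lit 100809555) (nat_lit 0) (nat_lit 5703560105) (nat_lit 1444) (nat_lit 2564961351) (nat_lit 487) (nat_lit 5) (nat_lit 486) (nat_lit 5) (nat_lit 505) (nat_lit 5) (nat_lit 420) (nat_lit 402) (nat_lit 318)) (XT.lf (nat_lit 76) (nat_lit 4445487226) (nat_lit 0) (nat_lit 2886854771) (nat_lit 1444) (nat_lit 1105374800) (nat_lit 487) (nat_lit 5) (nat_lit 486) (nat_lit 5) (nat_lit 505) (nat_lit 5) (nat_lit 421) (nat_lit 402) (nat_lit 317))) (XT.nd (nat_lit 78) (nat_lit 0) (nat_lit 76) (XT.lf (nat_lit 76) (nat_lit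 350803526) (nat_lit 0) (nat_lit 1557096) (nat_lit 1520) (nat_lit 8155601388) (nat_lit 468) (nat_lit 5) (nat_lit 467) (nat_lit 5) (nat_lit 487) (nat_lit 5) (nat_lit 422) (nat_lit 402) (nat_lit 316)) (XT.lf (nat_lit 0) (nat_lit 1842702874) (nat_lit 1444) (nat_lit 3792242033) (nat_lit 1520) (nat_lit 2944176821) (nat_lit 468) (nat_lit 5) (nat_lit 487) (nat_lit 5) (nat_lit 488) (nat_lit 5) (nat_lit 423) (nat_lit 402) (nat_lit 315))))))) (XT.nd (nat_lit 1092) (nat_lit 7144) (nat_lit 0) (XT.nd (nat_lit 546) (nat_lit 4028) (nat_lit 0) (XT.nd (nat_lit 234) (nat_lit 3192) (nat_lit 0) (XT.nd (nat_lit 78) (nat_lit 1368) (nat_lit 0) (XT.lf (nat_lit 76) (nat_lit 647490554) (nat_lit 0) (nat_lit 2692295325) (nat_lit 1520) (nat_lit 5312400470) (nat_lit 469) (nat_lit 5) (nat_lit 468) (nat_lit 5) (nat_lit 488) (nat_lit 5) (nat_lit 424) (nat_lit 402) (nat_lit 314)) (XT.nd (nat_lit 78) (nat_lit 1444) (nat_lit 0) (XT.lf (nat_lit 0)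 (nat_lit 4867593254) (nat_lit 1444) (nat_lit 3522379604) (nat_lit 76) (nat_lit 336743734) (nat_lit 469) (nat_lit 5) (nat_lit 488) (nat_lit 5) (nat_lit 470) (nat_lit 5) (nat_lit 425) (nat_lit 402) (nat_lit 313)) (XT.lf (nat_lit 0) (nat_lit 1024182711) (nat_lit 1444) (nat_lit 5399938473) (nat_lit 1520) (nat_lit 2378672562) (nat_lit 450) (nat_lit 5) (nat_lit 469) (nat_lit 5) (nat_lit 470) (nat_lit 5) (nat_lit 426) (nat_lit 402) (nat_lit 312)))) (XT.nd (nat_lit 156) (nat_lit 1596) (nat_lit 0) (XT.nd (nat_lit 78) (nat_lit 1596) (nat_lit 0) (XT.lf (nat_lit 0) (nat_lit 5688558461) (nat_lit 1444) (nat_lit 2320923711) (nat_lit 1520) (nat_lit 870975431) (nat_lit 450) (nat_lit 5) (nat_lit 469) (nat_lit 5) (nat_lit 470) (nat_lit 5) (nat_lit 427) (nat_lit 402) (nat_lit 311)) (XT.lf (nat_lit 0) (nat_lit 647576320) (nat_lit 1596) (nat_lit 7484547794) (nat_lit 76) (nat_lit 827693553) (nat_lit 429) (nat_lit 5) (nat_lit 450) (nat_lit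 5) (nat_lit 430) (nat_lit 5) (nat_lit 428) (nat_lit 402) (nat_lit 310))) (XT.nd (nat_lit 78) (nat_lit 1596) (nat_lit 0) (XT.lf (nat_lit 0) (nat_lit 2196563823) (nat_lit 1596) (nat_lit 2803797550) (nat_lit 76) (nat_lit 4040071976) (nat_lit 429) (nat_lit 5) (nat_lit 450) (nat_lit 5) (nat_lit 430) (nat_lit 5) (nat_lit 429) (nat_lit 402) (nat_lit 309)) (XT.lf (nat_lit 0) (nat_lit 1975665125) (nat_lit 1596) (nat_lit 1788972346) (nat_lit 1672) (nat_lit 5358279493) (nat_lit 408) (nat_lit 5) (nat_lit 429) (nat_lit 5) (nat_lit 430) (nat_lit 5) (nat_lit 430) (nat_lit 402) (nat_lit 308))))) (XT.nd (nat_lit 234) (nat_lit 2356) (nat_lit 0) (XT.nd (nat_lit 78) (nat_lit 1672) (nat_lit 0) (XT.lf (nat_lit 0) (nat_lit 5368317959) (nat_lit 1672) (nat_lit 2348933203) (nat_lit 76) (nat_lit 1489731582) (nat_lit 408) (nat_lit 5) (nat_lit 430) (nat_lit 5) (nat_lit 409) (nat_lit 5) (nat_lit 431) (nat_lit 402) (nat_lit 307)) (XT.nd (nat_lit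 78) (nat_lit 0) (nat_lit 0) (XT.lf (nat_lit 0) (nat_lit 2546107123) (nat_lit 1672) (nat_lit 4462474353) (nat_lit 1748) (nat_lit 2284075231) (nat_lit 386) (nat_lit 5) (nat_lit 408) (nat_lit 5) (nat_lit 409) (nat_lit 5) (nat_lit 432) (nat_lit 402) (nat_lit 306)) (XT.lf (nat_lit 0) (nat_lit 7550235604) (nat_lit 1672) (nat_lit 1123642072) (nat_lit 1748) (nat_lit 706338649) (nat_lit 386) (nat_lit 5) (nat_lit 408) (nat_lit 5) (nat_lit 409) (nat_lit 5) (nat_lit 433) (nat_lit 402) (nat_lit 305)))) (XT.nd (nat_lit 156) (nat_lit 836) (nat_lit 0) (XT.nd (nat_lit 78) (nat_lit 0) (nat_lit 0) (XT.lf (nat_lit 0) (nat_lit 903656912) (nat_lit 1520) (nat_lit 6284026551) (nat_lit 76) (nat_lit 2281491562) (nat_lit 366) (nat_lit 5) (nat_lit 386) (nat_lit 5) (nat_lit 367) (nat_lit 5) (nat_lit 434) (nat_lit 402) (nat_lit 304)) (XT.lf (nat_lit 0) (nat_lit 2533302628) (nat_lit 1520) (nat_lit 1267409547) (nat_lit 76) (nat_lit 5759184941)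 (nat_lit 366) (nat_lit 5) (nat_lit 386) (nat_lit 5) (nat_lit 367) (nat_lit 5) (nat_lit 435) (nat_lit 402) (nat_lit 303))) (XT.nd (nat_lit 78) (nat_lit 0) (nat_lit 0) (XT.lf (nat_lit 0) (nat_lit 3879907866) (nat_lit 836) (nat_lit 318369896) (nat_lit 912) (nat_lit 5454116608) (nat_lit 355) (nat_lit 5) (nat_lit 366) (nat_lit 5) (nat_lit 367) (nat_lit 5) (nat_lit 436) (nat_lit 402) (nat_lit 302)) (XT.lf (nat_lit 0) (nat_lit 5903973475) (nat_lit 912) (nat_lit 641123061) (nat_lit 76) (nat_lit 3201511757) (nat_lit 355) (nat_lit 5) (nat_lit 367) (nat_lit 5) (nat_lit 356) (nat_lit 5) (nat_lit 437) (nat_lit 402) (nat_lit 301)))))) (XT.nd (nat_lit 546) (nat_lit 3724) (nat_lit 0) (XT.nd (nat_lit 234) (nat_lit 1596) (nat_lit 0) (XT.nd (nat_lit 78) (nat_lit 912) (nat_lit 0) (XT.lf (nat_lit 0) (nat_lit 4631053036) (nat_lit 912) (nat_lit 3023205329) (nat_lit 988) (nat_lit 2188253473) (nat_lit 343) (nat_lit 5) (nat_lit 355) (nat_lit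 5) (nat_lit 356) (nat_lit 5) (nat_lit 438) (nat_lit 402) (nat_lit 300)) (XT.nd (nat_lit 78) (nat_lit 76) (nat_lit 0) (XT.lf (nat_lit 0) (nat_lit 53333047) (nat_lit 836) (nat_lit 9373187845) (nat_lit 912) (nat_lit 514087683) (nat_lit 332) (nat_lit 5) (nat_lit 343) (nat_lit 5) (nat_lit 344) (nat_lit 5) (nat_lit 439) (nat_lit 402) (nat_lit 299)) (XT.lf (nat_lit 0) (nat_lit 1211863681) (nat_lit 912) (nat_lit 4594825314) (nat_lit 76) (nat_lit 4233158136) (nat_lit 331) (nat_lit 5) (nat_lit 343) (nat_lit 5) (nat_lit 332) (nat_lit 5) (nat_lit 440) (nat_lit 402) (nat_lit 298)))) (XT.nd (nat_lit 156) (nat_lit 760) (nat_lit 0) (XT.nd (nat_lit 78) (nat_lit 0) (nat_lit 0) (XT.lf (nat_lit 0) (nat_lit 789920762) (nat_lit 836) (nat_lit 2159813403) (nat_lit 912) (nat_lit 7191596376) (nat_lit 320) (nat_lit 5) (nat_lit 331) (nat_lit 5) (nat_lit 332) (nat_lit 5) (nat_lit 441) (nat_lit 402) (nat_lit 297)) (XT.lf (nat_lit 0) (nat_lit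 4742954986) (nat_lit 912) (nat_lit 3930713734) (nat_lit 76) (nat_lit 1570776490) (nat_lit 320) (nat_lit 5) (nat_lit 332) (nat_lit 5) (nat_lit 321) (nat_lit 5) (nat_lit 442) (nat_lit 402) (nat_lit 296))) (XT.nd (nat_lit 78) (nat_lit 0) (nat_lit 0) (XT.lf (nat_lit 0) (nat_lit 1584481565) (nat_lit 760) (nat_lit 4991979444) (nat_lit 836) (nat_lit 3773085933) (nat_lit 310) (nat_lit 5) (nat_lit 320) (nat_lit 5) (nat_lit 321) (nat_lit 5) (nat_lit 443) (nat_lit 402) (nat_lit 295)) (XT.lf (nat_lit 0) (nat_lit 7243004760) (nat_lit 760) (nat_lit 1210103398) (nat_lit 836) (nat_lit 2003526058) (nat_lit 310) (nat_lit 5) (nat_lit 320) (nat_lit 5) (nat_lit 321) (nat_lit 5) (nat_lit 444) (nat_lit 402) (nat_lit 294))))) (XT.nd (nat_lit 312) (nat_lit 2204) (nat_lit 0) (XT.nd (nat_lit 156) (nat_lit 684) (nat_lit 0) (XT.nd (nat_lit 78) (nat_lit 76) (nat_lit 0) (XT.lf (nat_lit 0) (nat_lit 2443431069) (nat_lit 760) (nat_lit 7937392225)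 (nat_lit 836) (nat_lit 184781915) (nat_lit 300) (nat_lit 5) (nat_lit 310) (nat_lit 5) (nat_lit 311) (nat_lit 5) (nat_lit 445) (nat_lit 402) (nat_lit 293)) (XT.lf (nat_lit 0) (nat_lit 1658746324) (nat_lit 836) (nat_lit 2458529787) (nat_lit 76) (nat_lit 6559068475) (nat_lit 299) (nat_lit 5) (nat_lit 310) (nat_lit 5) (nat_lit 300) (nat_lit 5) (nat_lit 446) (nat_lit 402) (nat_lit 292))) (XT.nd (nat_lit 78) (nat_lit 0) (nat_lit 0) (XT.lf (nat_lit 0) (nat_lit 3340983105) (nat_lit 684) (nat_lit 198356587) (nat_lit 760) (nat_lit 7249893196) (nat_lit 290) (nat_lit 5) (nat_lit 299) (nat_lit 5) (nat_lit 300) (nat_lit 5) (nat_lit 447) (nat_lit 402) (nat_lit 291)) (XT.lf (nat_lit 0) (nat_lit 5480029079) (nat_lit 760) (nat_lit 1659258171) (nat_lit 76) (nat_lit 3764653732) (nat_lit 290) (nat_lit 5) (nat_lit 300) (nat_lit 5) (nat_lit 291) (nat_lit 5) (nat_lit 448) (nat_lit 402) (nat_lit 290)))) (XT.nd (nat_lit 156) (nat_lit 1444)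 (nat_lit 0) (XT.nd (nat_lit 78) (nat_lit 0) (nat_lit 0) (XT.lf (nat_lit 0) (nat_lit 4280489093) (nat_lit 760) (nat_lit 3189728570) (nat_lit 836) (nat_lit 3550523347) (nat_lit 280) (nat_lit 5) (nat_lit 290) (nat_lit 5) (nat_lit 291) (nat_lit 5) (nat_lit 449) (nat_lit 402) (nat_lit 289)) (XT.lf (nat_lit 0) (nat_lit 9498667648) (nat_lit 836) (nat_lit 803735679) (nat_lit 76) (nat_lit 837515813) (nat_lit 280) (nat_lit 5) (nat_lit 291) (nat_lit 5) (nat_lit 281) (nat_lit 5) (nat_lit 450) (nat_lit 402) (nat_lit 288))) (XT.nd (nat_lit 78) (nat_lit 684) (nat_lit 0) (XT.lf (nat_lit 0) (nat_lit 339992678) (nat_lit 760) (nat_lit 5983033679) (nat_lit 76) (nat_lit 4937669475) (nat_lit 270) (nat_lit 5) (nat_lit 280) (nat_lit 5) (nat_lit 271) (nat_lit 5) (nat_lit 451) (nat_lit 402) (nat_lit 287)) (XT.lf (nat_lit 0) (nat_lit 78114700) (nat_lit 684) (nat_lit 2248983064) (nat_lit 760) (nat_lit 9056819677) (nat_lit 261) (nat_lit 5)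 (nat_lit 270) (nat_lit 5) (nat_lit 271) (nat_lit 5) (nat_lit 452) (nat_lit 402) (nat_lit 286))))))))
noncomputable def xc155 : XT := (XT.nd (nat_lit 2184) (nat_lit 5396) (nat_lit 0) (XT.nd (nat_lit 1092) (nat_lit 3572) (nat_lit 0) (XT.nd (nat_lit 546) (nat_lit 2356) (nat_lit 0) (XT.nd (nat_lit 234) (nat_lit 1368) (nat_lit 0) (XT.nd (nat_lit 78) (nat_lit 608) (nat_lit 0) (XT.lf (nat_lit 0) (nat_lit 4389200338) (nat_lit 760) (nat_lit 5199881325) (nat_lit 76) (nat_lit 1919827107) (nat_lit 261) (nat_lit 5) (nat_lit 271) (nat_lit 5) (nat_lit 262) (nat_lit 5) (nat_lit 453) (nat_lit 402) (nat_lit 285)) (XT.nd (nat_lit 78) (nat_lit 0) (nat_lit 0) (XT.lf (nat_lit 0) (nat_lit 1006838028) (nat_lit 608) (nat_lit 5489943476) (nat_lit 684) (nat_lit 5139543886) (nat_lit 253) (nat_lit 5) (nat_lit 261) (nat_lit 5) (nat_lit 262) (nat_lit 5) (nat_lit 454) (nat_lit 402) (nat_lit 284)) (XT.lf (nat_lit 0) (nat_lit 7388675257) (nat_lit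 608) (nat_lit 1275749052) (nat_lit 684) (nat_lit 3101517825) (nat_lit 253) (nat_lit 5) (nat_lit 261) (nat_lit 5) (nat_lit 262) (nat_lit 5) (nat_lit 455) (nat_lit 402) (nat_lit 283)))) (XT.nd (nat_lit 156) (nat_lit 608) (nat_lit 0) (XT.nd (nat_lit 78) (nat_lit 76) (nat_lit 0) (XT.lf (nat_lit 0) (nat_lit 1986985466) (nat_lit 684) (nat_lit 8904293962) (nat_lit 760) (nat_lit 1006564395) (nat_lit 244) (nat_lit 5) (nat_lit 253) (nat_lit 5) (nat_lit 254) (nat_lit 5) (nat_lit 456) (nat_lit 402) (nat_lit 282)) (XT.lf (nat_lit 0) (nat_lit 1136897047) (nat_lit 760) (nat_lit 3529468516) (nat_lit 76) (nat_lit 7365451969) (nat_lit 243) (nat_lit 5) (nat_lit 253) (nat_lit 5) (nat_lit 244) (nat_lit 5) (nat_lit 457) (nat_lit 402) (nat_lit 281))) (XT.nd (nat_lit 78) (nat_lit 0) (nat_lit 0) (XT.lf (nat_lit 0) (nat_lit 2992971261) (nat_lit 608) (nat_lit 319964605) (nat_lit 684) (nat_lit 8855347293) (nat_lit 235) (nat_lit 5) (nat_lit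 243) (nat_lit 5) (nat_lit 244) (nat_lit 5) (nat_lit 458) (nat_lit 402) (nat_lit 280)) (XT.lf (nat_lit 0) (nat_lit 5566960558) (nat_lit 684) (nat_lit 2659515386) (nat_lit 76) (nat_lit 4080321904) (nat_lit 235) (nat_lit 5) (nat_lit 244) (nat_lit 5) (nat_lit 236) (nat_lit 5) (nat_lit 459) (nat_lit 402) (nat_lit 279))))) (XT.nd (nat_lit 234) (nat_lit 1216) (nat_lit 0) (XT.nd (nat_lit 78) (nat_lit 532) (nat_lit 0) (XT.lf (nat_lit 0) (nat_lit 4018206858) (nat_lit 608) (nat_lit 3860299035) (nat_lit 684) (nat_lit 4569337010) (nat_lit 227) (nat_lit 5) (nat_lit 235) (nat_lit 5) (nat_lit 236) (nat_lit 5) (nat_lit 460) (nat_lit 402) (nat_lit 278)) (XT.nd (nat_lit 78) (nat_lit 532) (nat_lit 0) (XT.lf (nat_lit 0) (nat_lit 10242496457) (nat_lit 684) (nat_lit 1748932635) (nat_lit 76) (nat_lit 600164180) (nat_lit 227) (nat_lit 5) (nat_lit 236) (nat_lit 5) (nat_lit 228) (nat_lit 5) (nat_lit 461) (nat_lit 402) (nat_lit 277)) (XT.lf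 (nat_lit 0) (nat_lit 5087777415) (nat_lit 532) (nat_lit 7609291386) (nat_lit 608) (nat_lit 40292336) (nat_lit 220) (nat_lit 5) (nat_lit 227) (nat_lit 5) (nat_lit 228) (nat_lit 5) (nat_lit 462) (nat_lit 402) (nat_lit 276)))) (XT.nd (nat_lit 156) (nat_lit 532) (nat_lit 0) (XT.nd (nat_lit 78) (nat_lit 608) (nat_lit 0) (XT.lf (nat_lit 0) (nat_lit 2280919004) (nat_lit 608) (nat_lit 834843646) (nat_lit 76) (nat_lit 9770057572) (nat_lit 219) (nat_lit 5) (nat_lit 227) (nat_lit 5) (nat_lit 220) (nat_lit 5) (nat_lit 463) (nat_lit 402) (nat_lit 275)) (XT.lf (nat_lit 0) (nat_lit 4682976354) (nat_lit 684) (nat_lit 6868051460) (nat_lit 76) (nat_lit 1485524160) (nat_lit 211) (nat_lit 5) (nat_lit 220) (nat_lit 5) (nat_lit 212) (nat_lit 5) (nat_lit 464) (nat_lit 402) (nat_lit 274))) (XT.nd (nat_lit 78) (nat_lit 0) (nat_lit 0) (XT.lf (nat_lit 0) (nat_lit 94971198) (nat_lit 532) (nat_lit 7050216684) (nat_lit 608) (nat_lit 6044876097)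 (nat_lit 204) (nat_lit 5) (nat_lit 211) (nat_lit 5) (nat_lit 212) (nat_lit 5) (nat_lit 465) (nat_lit 402) (nat_lit 273)) (XT.lf (nat_lit 0) (nat_lit 7271830374) (nat_lit 532) (nat_lit 2416293882) (nat_lit 608) (nat_lit 3657900082) (nat_lit 204) (nat_lit 5) (nat_lit 211) (nat_lit 5) (nat_lit 212) (nat_lit 5) (nat_lit 466) (nat_lit 402) (nat_lit 272)))))) (XT.nd (nat_lit 546) (nat_lit 1444) (nat_lit 0) (XT.nd (nat_lit 234) (nat_lit 1064) (nat_lit 0) (XT.nd (nat_lit 78) (nat_lit 532) (nat_lit 0) (XT.lf (nat_lit 0) (nat_lit 1067697749) (nat_lit 532) (nat_lit 11221807739) (nat_lit 608) (nat_lit 1215454267) (nat_lit 197) (nat_lit 5) (nat_lit 204) (nat_lit 5) (nat_lit 205) (nat_lit 5) (nat_lit 467) (nat_lit 402) (nat_lit 271)) (XT.nd (nat_lit 78) (nat_lit 456) (nat_lit 0) (XT.lf (nat_lit 0) (nat_lit 1301855570) (nat_lit 608) (nat_lit 5274553516) (nat_lit 76) (nat_lit 7089651441) (nat_lit 196) (nat_lit 5) (nat_lit 204)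 (nat_lit 5) (nat_lit 197) (nat_lit 5) (nat_lit 468) (nat_lit 402) (nat_lit 270)) (XT.lf (nat_lit 0) (nat_lit 2031866937) (nat_lit 456) (nat_lit 1820572329) (nat_lit 532) (nat_lit 9977806451) (nat_lit 190) (nat_lit 5) (nat_lit 196) (nat_lit 5) (nat_lit 197) (nat_lit 5) (nat_lit 469) (nat_lit 402) (nat_lit 269)))) (XT.nd (nat_lit 156) (nat_lit 532) (nat_lit 0) (XT.nd (nat_lit 78) (nat_lit 532) (nat_lit 0) (XT.lf (nat_lit 0) (nat_lit 6495464962) (nat_lit 532) (nat_lit 4479281227) (nat_lit 76) (nat_lit 3022146812) (nat_lit 190) (nat_lit 5) (nat_lit 197) (nat_lit 5) (nat_lit 191) (nat_lit 5) (nat_lit 470) (nat_lit 402) (nat_lit 268)) (XT.lf (nat_lit 0) (nat_lit 2995507908) (nat_lit 532) (nat_lit 6213746551) (nat_lit 608) (nat_lit 4957267568) (nat_lit 183) (nat_lit 5) (nat_lit 190) (nat_lit 5) (nat_lit 191) (nat_lit 5) (nat_lit 471) (nat_lit 402) (nat_lit 267))) (XT.nd (nat_lit 78) (nat_lit 532) (nat_lit 0) (XT.lf (nat_lit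 0) (nat_lit 10662708335) (nat_lit 532) (nat_lit 1331218564) (nat_lit 608) (nat_lit 2345291314) (nat_lit 183) (nat_lit 5) (nat_lit 190) (nat_lit 5) (nat_lit 191) (nat_lit 5) (nat_lit 472) (nat_lit 402) (nat_lit 266)) (XT.lf (nat_lit 0) (nat_lit 351284217) (nat_lit 532) (nat_lit 10538281678) (nat_lit 76) (nat_lit 3625036630) (nat_lit 176) (nat_lit 5) (nat_lit 183) (nat_lit 5) (nat_lit 177) (nat_lit 5) (nat_lit 473) (nat_lit 402) (nat_lit 265))))) (XT.nd (nat_lit 234) (nat_lit 988) (nat_lit 0) (XT.nd (nat_lit 78) (nat_lit 456) (nat_lit 0) (XT.lf (nat_lit 0) (nat_lit 3090904800) (nat_lit 532) (nat_lit 2903228738) (nat_lit 76) (nat_lit 8698646934) (nat_lit 176) (nat_lit 5) (nat_lit 183) (nat_lit 5) (nat_lit 177) (nat_lit 5) (nat_lit 474) (nat_lit 402) (nat_lit 264)) (XT.nd (nat_lit 78) (nat_lit 0) (nat_lit 0) (XT.lf (nat_lit 0) (nat_lit 4931794122) (nat_lit 456) (nat_lit 972639169) (nat_lit 532) (nat_lit 8969712591)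 (nat_lit 170) (nat_lit 5) (nat_lit 176) (nat_lit 5) (nat_lit 177) (nat_lit 5) (nat_lit 475) (nat_lit 402) (nat_lit 263)) (XT.lf (nat_lit 0) (nat_lit 8807989788) (nat_lit 532) (nat_lit 2140476308) (nat_lit 76) (nat_lit 4110003446) (nat_lit 170) (nat_lit 5) (nat_lit 177) (nat_lit 5) (nat_lit 171) (nat_lit 5) (nat_lit 476) (nat_lit 402) (nat_lit 262)))) (XT.nd (nat_lit 156) (nat_lit 532) (nat_lit 0) (XT.nd (nat_lit 78) (nat_lit 0) (nat_lit 0) (XT.lf (nat_lit 0) (nat_lit 5870805841) (nat_lit 456) (nat_lit 5930827224) (nat_lit 532) (nat_lit 3444212270) (nat_lit 164) (nat_lit 5) (nat_lit 170) (nat_lit 5) (nat_lit 171) (nat_lit 5) (nat_lit 477) (nat_lit 402) (nat_lit 261)) (XT.lf (nat_lit 0) (nat_lit 14054255255) (nat_lit 456) (nat_lit 802849931) (nat_lit 532) (nat_lit 579830192) (nat_lit 164) (nat_lit 5) (nat_lit 170) (nat_lit 5) (nat_lit 171) (nat_lit 5) (nat_lit 478) (nat_lit 402) (nat_lit 260))) (XT.nd (nat_lit 78)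 (nat_lit 0) (nat_lit 0) (XT.lf (nat_lit 0) (nat_lit 2372311786) (nat_lit 532) (nat_lit 8833067163) (nat_lit 76) (nat_lit 4424946088) (nat_lit 157) (nat_lit 5) (nat_lit 164) (nat_lit 5) (nat_lit 158) (nat_lit 5) (nat_lit 479) (nat_lit 402) (nat_lit 259)) (XT.lf (nat_lit 0) (nat_lit 5378246903) (nat_lit 532) (nat_lit 694091046) (nat_lit 76) (nat_lit 9755123118) (nat_lit 157) (nat_lit 5) (nat_lit 164) (nat_lit 5) (nat_lit 158) (nat_lit 5) (nat_lit 480) (nat_lit 402) (nat_lit 258))))))) (XT.nd (nat_lit 1092) (nat_lit 2128) (nat_lit 0) (XT.nd (nat_lit 546) (nat_lit 1596) (nat_lit 0) (XT.nd (nat_lit 234) (nat_lit 836) (nat_lit 0) (XT.nd (nat_lit 78) (nat_lit 456) (nat_lit 0) (XT.lf (nat_lit 0) (nat_lit 7691865295) (nat_lit 380) (nat_lit 790464473) (nat_lit 456) (nat_lit 7545454877) (nat_lit 152) (nat_lit 5) (nat_lit 157) (nat_lit 5) (nat_lit 158) (nat_lit 5) (nat_lit 481) (nat_lit 402) (nat_lit 257)) (XT.nd (nat_lit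 78) (nat_lit 456) (nat_lit 0) (XT.lf (nat_lit 0) (nat_lit 11671213202) (nat_lit 456) (nat_lit 23729827) (nat_lit 76) (nat_lit 4536722592) (nat_lit 152) (nat_lit 5) (nat_lit 158) (nat_lit 5) (nat_lit 153) (nat_lit 5) (nat_lit 482) (nat_lit 402) (nat_lit 256)) (XT.lf (nat_lit 0) (nat_lit 8545088291) (nat_lit 456) (nat_lit 6427916232) (nat_lit 532) (nat_lit 1465642287) (nat_lit 146) (nat_lit 5) (nat_lit 152) (nat_lit 5) (nat_lit 153) (nat_lit 5) (nat_lit 483) (nat_lit 402) (nat_lit 255)))) (XT.nd (nat_lit 156) (nat_lit 380) (nat_lit 0) (XT.nd (nat_lit 78) (nat_lit 0) (nat_lit 0) (XT.lf (nat_lit 0) (nat_lit 616443302) (nat_lit 380) (nat_lit 1045059862) (nat_lit 456) (nat_lit 14988197510) (nat_lit 140) (nat_lit 5) (nat_lit 145) (nat_lit 5) (nat_lit 146) (nat_lit 5) (nat_lit 484) (nat_lit 402) (nat_lit 254)) (XT.lf (nat_lit 0) (nat_lit 4902311246) (nat_lit 456) (nat_lit 7515785148) (nat_lit 76) (nat_lit 4445275470) (nat_lit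 140) (nat_lit 5) (nat_lit 146) (nat_lit 5) (nat_lit 141) (nat_lit 5) (nat_lit 485) (nat_lit 402) (nat_lit 253))) (XT.nd (nat_lit 78) (nat_lit 0) (nat_lit 0) (XT.lf (nat_lit 0) (nat_lit 1164115051) (nat_lit 380) (nat_lit 7047066987) (nat_lit 456) (nat_lit 8870074312) (nat_lit 135) (nat_lit 5) (nat_lit 140) (nat_lit 5) (nat_lit 141) (nat_lit 5) (nat_lit 486) (nat_lit 402) (nat_lit 252)) (XT.lf (nat_lit 0) (nat_lit 10103330605) (nat_lit 380) (nat_lit 1522217249) (nat_lit 456) (nat_lit 5677169028) (nat_lit 135) (nat_lit 5) (nat_lit 140) (nat_lit 5) (nat_lit 141) (nat_lit 5) (nat_lit 487) (nat_lit 402) (nat_lit 251))))) (XT.nd (nat_lit 234) (nat_lit 760) (nat_lit 0) (XT.nd (nat_lit 78) (nat_lit 456) (nat_lit 0) (XT.lf (nat_lit 0) (nat_lit 1671911390) (nat_lit 380) (nat_lit 13462918533) (nat_lit 456) (nat_lit 2393248739) (nat_lit 130) (nat_lit 5) (nat_lit 135) (nat_lit 5) (nat_lit 136) (nat_lit 5) (nat_lit 488) (nat_lit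 402) (nat_lit 250)) (XT.nd (nat_lit 78) (nat_lit 380) (nat_lit 0) (XT.lf (nat_lit 0) (nat_lit 991623184) (nat_lit 456) (nat_lit 6971445432) (nat_lit 76) (nat_lit 9793802996) (nat_lit 129) (nat_lit 5) (nat_lit 135) (nat_lit 5) (nat_lit 130) (nat_lit 5) (nat_lit 489) (nat_lit 402) (nat_lit 249)) (XT.lf (nat_lit 0) (nat_lit 2086726105) (nat_lit 380) (nat_lit 2328316272) (nat_lit 456) (nat_lit 13574828097) (nat_lit 124) (nat_lit 5) (nat_lit 129) (nat_lit 5) (nat_lit 130) (nat_lit 5) (nat_lit 490) (nat_lit 402) (nat_lit 248)))) (XT.nd (nat_lit 156) (nat_lit 456) (nat_lit 0) (XT.nd (nat_lit 78) (nat_lit 304) (nat_lit 0) (XT.lf (nat_lit 0) (nat_lit 7965612957) (nat_lit 456) (nat_lit 6844384154) (nat_lit 76) (nat_lit 3416362808) (nat_lit 124) (nat_lit 5) (nat_lit 130) (nat_lit 5) (nat_lit 125) (nat_lit 5) (nat_lit 491) (nat_lit 402) (nat_lit 247)) (XT.lf (nat_lit 0) (nat_lit 2396024628) (nat_lit 304) (nat_lit 9211746068)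 (nat_lit 380) (nat_lit 6859401122) (nat_lit 120) (nat_lit 5) (nat_lit 124) (nat_lit 5) (nat_lit 125) (nat_lit 5) (nat_lit 492) (nat_lit 402) (nat_lit 246))) (XT.nd (nat_lit 78) (nat_lit 456) (nat_lit 0) (XT.lf (nat_lit 0) (nat_lit 11898589579) (nat_lit 304) (nat_lit 3459815032) (nat_lit 380) (nat_lit 3353686783) (nat_lit 120) (nat_lit 5) (nat_lit 124) (nat_lit 5) (nat_lit 125) (nat_lit 5) (nat_lit 493) (nat_lit 402) (nat_lit 245)) (XT.lf (nat_lit 0) (nat_lit 241970274) (nat_lit 456) (nat_lit 16330154945) (nat_lit 76) (nat_lit 2389304401) (nat_lit 114) (nat_lit 5) (nat_lit 120) (nat_lit 5) (nat_lit 115) (nat_lit 5) (nat_lit 494) (nat_lit 402) (nat_lit 244)))))) (XT.nd (nat_lit 546) (nat_lit 1140) (nat_lit 0) (XT.nd (nat_lit 234) (nat_lit 684) (nat_lit 0) (XT.nd (nat_lit 78) (nat_lit 304) (nat_lit 0) (XT.lf (nat_lit 0) (nat_lit 3923516655) (nat_lit 456) (nat_lit 6918297512) (nat_lit 76) (nat_lit 8372323306) (nat_lit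 114) (nat_lit 5) (nat_lit 120) (nat_lit 5) (nat_lit 115) (nat_lit 5) (nat_lit 495) (nat_lit 402) (nat_lit 243)) (XT.nd (nat_lit 78) (nat_lit 0) (nat_lit 0) (XT.lf (nat_lit 0) (nat_lit 2702200116) (nat_lit 304) (nat_lit 4984138726) (nat_lit 380) (nat_lit 11785411531) (nat_lit 110) (nat_lit 5) (nat_lit 114) (nat_lit 5) (nat_lit 115) (nat_lit 5) (nat_lit 496) (nat_lit 402) (nat_lit 242)) (XT.lf (nat_lit 0) (nat_lit 11567746746) (nat_lit 380) (nat_lit 7146543941) (nat_lit 76) (nat_lit 1019361972) (nat_lit 110) (nat_lit 5) (nat_lit 115) (nat_lit 5) (nat_lit 111) (nat_lit 5) (nat_lit 497) (nat_lit 402) (nat_lit 241)))) (XT.nd (nat_lit 156) (nat_lit 380) (nat_lit 0) (XT.nd (nat_lit 78) (nat_lit 0) (nat_lit 0) (XT.lf (nat_lit 0) (nat_lit 2655939965) (nat_lit 304) (nat_lit 12911451549) (nat_lit 380) (nat_lit 4432592943) (nat_lit 106) (nat_lit 5) (nat_lit 110) (nat_lit 5) (nat_lit 111) (nat_lit 5) (nat_lit 498) (nat_lit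 402) (nat_lit 240)) (XT.lf (nat_lit 0) (nat_lit 12736636132) (nat_lit 304) (nat_lit 6948800725) (nat_lit 380) (nat_lit 585441448) (nat_lit 106) (nat_lit 5) (nat_lit 110) (nat_lit 5) (nat_lit 111) (nat_lit 5) (nat_lit 499) (nat_lit 402) (nat_lit 239))) (XT.nd (nat_lit 78) (nat_lit 0) (nat_lit 0) (XT.lf (nat_lit 0) (nat_lit 2467895356) (nat_lit 304) (nat_lit 833566295) (nat_lit 380) (nat_lit 17245166363) (nat_lit 101) (nat_lit 5) (nat_lit 105) (nat_lit 5) (nat_lit 106) (nat_lit 5) (nat_lit 500) (nat_lit 402) (nat_lit 238)) (XT.lf (nat_lit 0) (nat_lit 7334880979) (nat_lit 380) (nat_lit 8108587474) (nat_lit 76) (nat_lit 5382817886) (nat_lit 101) (nat_lit 5) (nat_lit 106) (nat_lit 5) (nat_lit 102) (nat_lit 5) (nat_lit 501) (nat_lit 402) (nat_lit 237))))) (XT.nd (nat_lit 312) (nat_lit 532) (nat_lit 0) (XT.nd (nat_lit 156) (nat_lit 304) (nat_lit 0) (XT.nd (nat_lit 78) (nat_lit 0) (nat_lit 0) (XT.lf (nat_lit 0) (nat_lit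 2068240052) (nat_lit 304) (nat_lit 9390491221) (nat_lit 380) (nat_lit 9652614603) (nat_lit 97) (nat_lit 5) (nat_lit 101) (nat_lit 5) (nat_lit 102) (nat_lit 5) (nat_lit 502) (nat_lit 402) (nat_lit 236)) (XT.lf (nat_lit 0) (nat_lit 12544286820) (nat_lit 304) (nat_lit 3166086252) (nat_lit 380) (nat_lit 5690830474) (nat_lit 97) (nat_lit 5) (nat_lit 101) (nat_lit 5) (nat_lit 102) (nat_lit 5) (nat_lit 503) (nat_lit 402) (nat_lit 235))) (XT.nd (nat_lit 78) (nat_lit 76) (nat_lit 0) (XT.lf (nat_lit 0) (nat_lit 1518140751) (nat_lit 228) (nat_lit 18550475961) (nat_lit 304) (nat_lit 1627813446) (nat_lit 94) (nat_lit 5) (nat_lit 97) (nat_lit 5) (nat_lit 98) (nat_lit 5) (nat_lit 504) (nat_lit 402) (nat_lit 234)) (XT.lf (nat_lit 0) (nat_lit 2555325813) (nat_lit 304) (nat_lit 9827445159) (nat_lit 76) (nat_lit 9613029291) (nat_lit 93) (nat_lit 5) (nat_lit 97) (nat_lit 5) (nat_lit 94) (nat_lit 5) (nat_lit 505) (nat_lit 402) (nat_lit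 233)))) (XT.nd (nat_lit 156) (nat_lit 228) (nat_lit 0) (XT.nd (nat_lit 78) (nat_lit 0) (nat_lit 0) (XT.lf (nat_lit 0) (nat_lit 715162150) (nat_lit 304) (nat_lit 6081078193) (nat_lit 380) (nat_lit 15504787036) (nat_lit 89) (nat_lit 5) (nat_lit 93) (nat_lit 5) (nat_lit 94) (nat_lit 5) (nat_lit 506) (nat_lit 402) (nat_lit 232)) (XT.lf (nat_lit 0) (nat_lit 11181902396) (nat_lit 380) (nat_lit 11025797567) (nat_lit 76) (nat_lit 403463418) (nat_lit 89) (nat_lit 5) (nat_lit 94) (nat_lit 5) (nat_lit 90) (nat_lit 5) (nat_lit 507) (nat_lit 402) (nat_lit 231))) (XT.nd (nat_lit 78) (nat_lit 228) (nat_lit 0) (XT.lf (nat_lit 0) (nat_lit 15687014920) (nat_lit 380) (nat_lit 308433217) (nat_lit 76) (nat_lit 6931422093) (nat_lit 89) (nat_lit 5) (nat_lit 94) (nat_lit 5) (nat_lit 90) (nat_lit 5) (nat_lit 508) (nat_lit 402) (nat_lit 230)) (XT.lf (nat_lit 0) (nat_lit 10750913262) (nat_lit 228) (nat_lit 9592751029) (nat_lit 304) (nat_lit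 2904001045) (nat_lit 86) (nat_lit 5) (nat_lit 89) (nat_lit 5) (nat_lit 90) (nat_lit 5) (nat_lit 509) (nat_lit 402) (nat_lit 229))))))))
noncomputable def xc156 : XT := (XT.nd (nat_lit 51948) (nat_lit 0) (nat_lit 19684) (XT.nd (nat_lit 1092) (nat_lit 228) (nat_lit 0) (XT.nd (nat_lit 546) (nat_lit 760) (nat_lit 0) (XT.nd (nat_lit 234) (nat_lit 532) (nat_lit 0) (XT.nd (nat_lit 78) (nat_lit 304) (nat_lit 0) (XT.lf (nat_lit 0) (nat_lit 1492390218) (nat_lit 304) (nat_lit 1562471681) (nat_lit 76) (nat_lit 20519945235) (nat_lit 85) (nat_lit 5) (nat_lit 89) (nat_lit 5) (nat_lit 86) (nat_lit 5) (nat_lit 510) (nat_lit 402) (nat_lit 228)) (XT.nd (nat_lit 78) (nat_lit 0) (nat_lit 0) (XT.lf (nat_lit 0) (nat_lit 6016534779) (nat_lit 380) (nat_lit 14245833949) (nat_lit 76) (nat_lit 3644167580) (nat_lit 81) (nat_lit 5) (nat_lit 86) (nat_lit 5) (nat_lit 82) (nat_lit 5) (nat_lit 511) (nat_lit 402) (nat_lit 227)) (XT.lf (nat_lit 0)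 (nat_lit 10653807748) (nat_lit 380) (nat_lit 3148645882) (nat_lit 76) (nat_lit 10441996126) (nat_lit 81) (nat_lit 5) (nat_lit 86) (nat_lit 5) (nat_lit 82) (nat_lit 5) (nat_lit 512) (nat_lit 402) (nat_lit 226)))) (XT.nd (nat_lit 156) (nat_lit 304) (nat_lit 0) (XT.nd (nat_lit 78) (nat_lit 0) (nat_lit 0) (XT.lf (nat_lit 0) (nat_lit 8265979279) (nat_lit 228) (nat_lit 7163534918) (nat_lit 304) (nat_lit 9158696064) (nat_lit 78) (nat_lit 5) (nat_lit 81) (nat_lit 5) (nat_lit 82) (nat_lit 5) (nat_lit 513) (nat_lit 402) (nat_lit 225)) (XT.lf (nat_lit 0) (nat_lit 19938746173) (nat_lit 228) (nat_lit 375210639) (nat_lit 304) (nat_lit 4624627221) (nat_lit 78) (nat_lit 5) (nat_lit 81) (nat_lit 5) (nat_lit 82) (nat_lit 5) (nat_lit 514) (nat_lit 402) (nat_lit 224))) (XT.nd (nat_lit 78) (nat_lit 0) (nat_lit 0) (XT.lf (nat_lit 0) (nat_lit 78090490) (nat_lit 304) (nat_lit 18714856022) (nat_lit 76) (nat_lit 6501461773) (nat_lit 74)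 (nat_lit 5) (nat_lit 78) (nat_lit 5) (nat_lit 75) (nat_lit 5) (nat_lit 515) (nat_lit 402) (nat_lit 223)) (XT.lf (nat_lit 0) (nat_lit 4841489134) (nat_lit 304) (nat_lit 7244435396) (nat_lit 76) (nat_lit 13570244464) (nat_lit 74) (nat_lit 5) (nat_lit 78) (nat_lit 5) (nat_lit 75) (nat_lit 5) (nat_lit 516) (nat_lit 402) (nat_lit 222))))) (XT.nd (nat_lit 234) (nat_lit 304) (nat_lit 0) (XT.nd (nat_lit 78) (nat_lit 228) (nat_lit 0) (XT.lf (nat_lit 0) (nat_lit 4501959204) (nat_lit 228) (nat_lit 5219812402) (nat_lit 304) (nat_lit 16302963302) (nat_lit 71) (nat_lit 5) (nat_lit 74) (nat_lit 5) (nat_lit 75) (nat_lit 5) (nat_lit 517) (nat_lit 402) (nat_lit 221)) (XT.nd (nat_lit 78) (nat_lit 228) (nat_lit 0) (XT.lf (nat_lit 0) (nat_lit 14752599565) (nat_lit 304) (nat_lit 9842638352) (nat_lit 76) (nat_lit 1804377691) (nat_lit 71) (nat_lit 5) (nat_lit 75) (nat_lit 5) (nat_lit 72) (nat_lit 5) (nat_lit 518) (nat_lit 402) (nat_lit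 220)) (XT.lf (nat_lit 0) (nat_lit 2051162254) (nat_lit 228) (nat_lit 17873339646) (nat_lit 304) (nat_lit 6856685083) (nat_lit 68) (nat_lit 5) (nat_lit 71) (nat_lit 5) (nat_lit 72) (nat_lit 5) (nat_lit 519) (nat_lit 402) (nat_lit 219)))) (XT.nd (nat_lit 156) (nat_lit 228) (nat_lit 0) (XT.nd (nat_lit 78) (nat_lit 76) (nat_lit 0) (XT.lf (nat_lit 0) (nat_lit 14304066605) (nat_lit 228) (nat_lit 10954463468) (nat_lit 304) (nat_lit 1910688132) (nat_lit 68) (nat_lit 5) (nat_lit 71) (nat_lit 5) (nat_lit 72) (nat_lit 5) (nat_lit 520) (nat_lit 402) (nat_lit 218)) (XT.lf (nat_lit 0) (nat_lit 3085855734) (nat_lit 304) (nat_lit 795381931) (nat_lit 76) (nat_lit 23683512828) (nat_lit 67) (nat_lit 5) (nat_lit 71) (nat_lit 5) (nat_lit 68) (nat_lit 5) (nat_lit 521) (nat_lit 402) (nat_lit 217))) (XT.nd (nat_lit 78) (nat_lit 0) (nat_lit 0) (XT.lf (nat_lit 0) (nat_lit 8247443470) (nat_lit 304) (nat_lit 16344741922) (nat_lit 76) (nat_lit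 3373943551) (nat_lit 64) (nat_lit 5) (nat_lit 68) (nat_lit 5) (nat_lit 65) (nat_lit 5) (nat_lit 522) (nat_lit 402) (nat_lit 216)) (XT.lf (nat_lit 0) (nat_lit 13536247869) (nat_lit 304) (nat_lit 4115744421) (nat_lit 76) (nat_lit 10723064981) (nat_lit 64) (nat_lit 5) (nat_lit 68) (nat_lit 5) (nat_lit 65) (nat_lit 5) (nat_lit 523) (nat_lit 402) (nat_lit 215)))))) (XT.nd (nat_lit 50310) (nat_lit 0) (nat_lit 33364) (XT.nd (nat_lit 49998) (nat_lit 0) (nat_lit 34580) (XT.nd (nat_lit 78) (nat_lit 0) (nat_lit 0) (XT.lf (nat_lit 0) (nat_lit 8457131926) (nat_lit 228) (nat_lit 10521653358) (nat_lit 304) (nat_lit 9812421715) (nat_lit 61) (nat_lit 5) (nat_lit 64) (nat_lit 5) (nat_lit 65) (nat_lit 5) (nat_lit 524) (nat_lit 402) (nat_lit 214)) (XT.nd (nat_lit 49842) (nat_lit 0) (nat_lit 35796) (XT.lf (nat_lit 0) (nat_lit 21325714324) (nat_lit 228) (nat_lit 3225186938) (nat_lit 304) (nat_lit 4664365834) (nat_lit 61) (nat_lit 5)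 (nat_lit 64) (nat_lit 5) (nat_lit 65) (nat_lit 5) (nat_lit 525) (nat_lit 402) (nat_lit 213)) (XT.lf (nat_lit 0) (nat_lit 1410126424) (nat_lit 0) (nat_lit 1410126424) (nat_lit 1140) (nat_lit 913734985) (nat_lit 532) (nat_lit 5) (nat_lit 532) (nat_lit 3) (nat_lit 547) (nat_lit 3) (nat_lit 403) (nat_lit 403) (nat_lit 334)))) (XT.nd (nat_lit 156) (nat_lit 0) (nat_lit 0) (XT.nd (nat_lit 78) (nat_lit 1216) (nat_lit 0) (XT.lf (nat_lit 0) (nat_lit 6343402053) (nat_lit 0) (nat_lit 760894907) (nat_lit 1140) (nat_lit 409009257) (nat_lit 532) (nat_lit 5) (nat_lit 532) (nat_lit 3) (nat_lit 547) (nat_lit 3) (nat_lit 404) (nat_lit 403) (nat_lit 333)) (XT.lf (nat_lit 0) (nat_lit 1011452882) (nat_lit 1216) (nat_lit 5185834240) (nat_lit 1292) (nat_lit 1362407520) (nat_lit 516) (nat_lit 5) (nat_lit 532) (nat_lit 5) (nat_lit 533) (nat_lit 5) (nat_lit 405) (nat_lit 403) (nat_lit 332))) (XT.nd (nat_lit 78) (nat_lit 0) (nat_lit 0) (XT.lf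 (nat_lit 0) (nat_lit 2431324529) (nat_lit 1216) (nat_lit 1630030377) (nat_lit 1292) (nat_lit 3546102610) (nat_lit 516) (nat_lit 5) (nat_lit 532) (nat_lit 5) (nat_lit 533) (nat_lit 5) (nat_lit 406) (nat_lit 403) (nat_lit 331)) (XT.lf (nat_lit 76) (nat_lit 2003821537) (nat_lit 0) (nat_lit 1853027384) (nat_lit 1292) (nat_lit 3799811320) (nat_lit 517) (nat_lit 5) (nat_lit 516) (nat_lit 5) (nat_lit 533) (nat_lit 5) (nat_lit 407) (nat_lit 403) (nat_lit 330))))) (XT.nd (nat_lit 234) (nat_lit 0) (nat_lit 0) (XT.nd (nat_lit 78) (nat_lit 1292) (nat_lit 0) (XT.lf (nat_lit 0) (nat_lit 5289413262) (nat_lit 1216) (nat_lit 1996905819) (nat_lit 1292) (nat_lit 420986465) (nat_lit 517) (nat_lit 5) (nat_lit 533) (nat_lit 5) (nat_lit 534) (nat_lit 5) (nat_lit 408) (nat_lit 403) (nat_lit 329)) (XT.nd (nat_lit 78) (nat_lit 1292) (nat_lit 0) (XT.lf (nat_lit 76) (nat_lit 1722804692) (nat_lit 0) (nat_lit 5016894292) (nat_lit 1292) (nat_lit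 1019511914) (nat_lit 518) (nat_lit 5) (nat_lit 517) (nat_lit 5) (nat_lit 534) (nat_lit 5) (nat_lit 409) (nat_lit 403) (nat_lit 328)) (XT.lf (nat_lit 0) (nat_lit 380897871) (nat_lit 1292) (nat_lit 2290653893) (nat_lit 1368) (nat_lit 5140989252) (nat_lit 500) (nat_lit 5) (nat_lit 517) (nat_lit 5) (nat_lit 518) (nat_lit 5) (nat_lit 410) (nat_lit 403) (nat_lit 327)))) (XT.nd (nat_lit 156) (nat_lit 0) (nat_lit 76) (XT.nd (nat_lit 78) (nat_lit 0) (nat_lit 76) (XT.lf (nat_lit 76) (nat_lit 1523621415) (nat_lit 0) (nat_lit 248525259) (nat_lit 1368) (nat_lit 6095153537) (nat_lit 501) (nat_lit 5) (nat_lit 500) (nat_lit 5) (nat_lit 518) (nat_lit 5) (nat_lit 411) (nat_lit 403) (nat_lit 326)) (XT.lf (nat_lit 0) (nat_lit 3188319445) (nat_lit 1292) (nat_lit 2512414305) (nat_lit 1368) (nat_lit 2222505233) (nat_lit 501) (nat_lit 5) (nat_lit 518) (nat_lit 5) (nat_lit 519) (nat_lit 5) (nat_lit 412) (nat_lit 403) (nat_lit 325))) (XT.nd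 (nat_lit 78) (nat_lit 0) (nat_lit 0) (XT.lf (nat_lit 76) (nat_lit 1392221150) (nat_lit 0) (nat_lit 3219115642) (nat_lit 1368) (nat_lit 3369415168) (nat_lit 502) (nat_lit 5) (nat_lit 501) (nat_lit 5) (nat_lit 519) (nat_lit 5) (nat_lit 413) (nat_lit 403) (nat_lit 324)) (XT.lf (nat_lit 76) (nat_lit 5389268765) (nat_lit 0) (nat_lit 658743899) (nat_lit 1368) (nat_lit 1991723915) (nat_lit 502) (nat_lit 5) (nat_lit 501) (nat_lit 5) (nat_lit 519) (nat_lit 5) (nat_lit 414) (nat_lit 403) (nat_lit 323))))))) (XT.nd (nat_lit 1092) (nat_lit 9804) (nat_lit 0) (XT.nd (nat_lit 546) (nat_lit 2660) (nat_lit 0) (XT.nd (nat_lit 234) (nat_lit 0) (nat_lit 76) (XT.nd (nat_lit 78) (nat_lit 1368) (nat_lit 0) (XT.lf (nat_lit 76) (nat_lit 1351328705) (nat_lit 0) (nat_lit 6152581446) (nat_lit 1368) (nat_lit 596205828) (nat_lit 503) (nat_lit 5) (nat_lit 502) (nat_lit 5) (nat_lit 520) (nat_lit 5) (nat_lit 415) (nat_lit 403) (nat_lit 322)) (XT.nd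 (nat_lit 78) (nat_lit 0) (nat_lit 0) (XT.lf (nat_lit 0) (nat_lit 807926830) (nat_lit 1368) (nat_lit 2722481058) (nat_lit 1444) (nat_lit 4631380478) (nat_lit 484) (nat_lit 5) (nat_lit 502) (nat_lit 5) (nat_lit 503) (nat_lit 5) (nat_lit 416) (nat_lit 403) (nat_lit 321)) (XT.lf (nat_lit 76) (nat_lit 1378510204) (nat_lit 0) (nat_lit 832495642) (nat_lit 1444) (nat_lit 6014056015) (nat_lit 485) (nat_lit 5) (nat_lit 484) (nat_lit 5) (nat_lit 503) (nat_lit 5) (nat_lit 417) (nat_lit 403) (nat_lit 320)))) (XT.nd (nat_lit 156) (nat_lit 0) (nat_lit 0) (XT.nd (nat_lit 78) (nat_lit 0) (nat_lit 0) (XT.lf (nat_lit 0) (nat_lit 3643413073) (nat_lit 1368) (nat_lit 2723913378) (nat_lit 1444) (nat_lit 1922272000) (nat_lit 485) (nat_lit 5) (nat_lit 503) (nat_lit 5) (nat_lit 504) (nat_lit 5) (nat_lit 418) (nat_lit 403) (nat_lit 319)) (XT.lf (nat_lit 76) (nat_lit 1474889923) (nat_lit 0) (nat_lit 3615662314) (nat_lit 1444) (nat_lit 3265174366)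 (nat_lit 486) (nat_lit 5) (nat_lit 485) (nat_lit 5) (nat_lit 504) (nat_lit 5) (nat_lit 419) (nat_lit 403) (nat_lit 318))) (XT.nd (nat_lit 78) (nat_lit 0) (nat_lit 76) (XT.lf (nat_lit 76) (nat_lit 5774607036) (nat_lit 0) (nat_lit 781739629) (nat_lit 1444) (nat_lit 1867058471) (nat_lit 486) (nat_lit 5) (nat_lit 485) (nat_lit 5) (nat_lit 504) (nat_lit 5) (nat_lit 420) (nat_lit 403) (nat_lit 317)) (XT.lf (nat_lit 76) (nat_lit 1655673456) (nat_lit 0) (nat_lit 6392273715) (nat_lit 1444) (nat_lit 444581896) (nat_lit 487) (nat_lit 5) (nat_lit 486) (nat_lit 5) (nat_lit 505) (nat_lit 5) (nat_lit 421) (nat_lit 403) (nat_lit 316))))) (XT.nd (nat_lit 234) (nat_lit 1368) (nat_lit 0) (XT.nd (nat_lit 78) (nat_lit 0) (nat_lit 0) (XT.lf (nat_lit 0) (nat_lit 988478096) (nat_lit 1444) (nat_lit 2512855470) (nat_lit 1520) (nat_lit 5061685381) (nat_lit 467) (nat_lit 5) (nat_lit 486) (nat_lit 5) (nat_lit 487) (nat_lit 5) (nat_lit 422)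 (nat_lit 403) (nat_lit 315)) (XT.nd (nat_lit 78) (nat_lit 0) (nat_lit 76) (XT.lf (nat_lit 76) (nat_lit 1899508069) (nat_lit 0) (nat_lit 529883215) (nat_lit 1520) (nat_lit 6205786056) (nat_lit 468) (nat_lit 5) (nat_lit 467) (nat_lit 5) (nat_lit 487) (nat_lit 5) (nat_lit 423) (nat_lit 403) (nat_lit 314)) (XT.lf (nat_lit 0) (nat_lit 3905589684) (nat_lit 1444) (nat_lit 2311162928) (nat_lit 1520) (nat_lit 2491916933) (nat_lit 468) (nat_lit 5) (nat_lit 487) (nat_lit 5) (nat_lit 488) (nat_lit 5) (nat_lit 424) (nat_lit 403) (nat_lit 313)))) (XT.nd (nat_lit 156) (nat_lit 1444) (nat_lit 0) (XT.nd (nat_lit 78) (nat_lit 0) (nat_lit 0) (XT.lf (nat_lit 76) (nat_lit 2207121389) (nat_lit 0) (nat_lit 3195808906) (nat_lit 1520) (nat_lit 3380888529) (nat_lit 469) (nat_lit 5) (nat_lit 468) (nat_lit 5) (nat_lit 488) (nat_lit 5) (nat_lit 425) (nat_lit 403) (nat_lit 312)) (XT.lf (nat_lit 76) (nat_lit 6827082597) (nat_lit 0) (nat_lit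 92807402) (nat_lit 1520) (nat_lit 1940806854) (nat_lit 469) (nat_lit 5) (nat_lit 468) (nat_lit 5) (nat_lit 488) (nat_lit 5) (nat_lit 426) (nat_lit 403) (nat_lit 311))) (XT.nd (nat_lit 78) (nat_lit 76) (nat_lit 0) (XT.lf (nat_lit 0) (nat_lit 2594219927) (nat_lit 1444) (nat_lit 5884466285) (nat_lit 1520) (nat_lit 460215116) (nat_lit 450) (nat_lit 5) (nat_lit 469) (nat_lit 5) (nat_lit 470) (nat_lit 5) (nat_lit 427) (nat_lit 403) (nat_lit 310)) (XT.lf (nat_lit 0) (nat_lit 1025458527) (nat_lit 1520) (nat_lit 1704148411) (nat_lit 76) (nat_lit 6289159896) (nat_lit 449) (nat_lit 5) (nat_lit 469) (nat_lit 5) (nat_lit 450) (nat_lit 5) (nat_lit 428) (nat_lit 403) (nat_lit 309)))))) (XT.nd (nat_lit 546) (nat_lit 3496) (nat_lit 0) (XT.nd (nat_lit 234) (nat_lit 3192) (nat_lit 0) (XT.nd (nat_lit 78) (nat_lit 1596) (nat_lit 0) (XT.lf (nat_lit 0) (nat_lit 2533199775) (nat_lit 1596) (nat_lit 6057543649) (nat_lit 76) (nat_lit 509472802)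 (nat_lit 429) (nat_lit 5) (nat_lit 450) (nat_lit 5) (nat_lit 430) (nat_lit 5) (nat_lit 429) (nat_lit 403) (nat_lit 308)) (XT.nd (nat_lit 78) (nat_lit 1596) (nat_lit 0) (XT.lf (nat_lit 0) (nat_lit 4076447971) (nat_lit 1596) (nat_lit 1314093991) (nat_lit 76) (nat_lit 3792663002) (nat_lit 429) (nat_lit 5) (nat_lit 450) (nat_lit 5) (nat_lit 430) (nat_lit 5) (nat_lit 430) (nat_lit 403) (nat_lit 307)) (XT.lf (nat_lit 0) (nat_lit 3550788336) (nat_lit 1596) (nat_lit 2099065878) (nat_lit 1672) (nat_lit 3618030458) (nat_lit 408) (nat_lit 5) (nat_lit 429) (nat_lit 5) (nat_lit 430) (nat_lit 5) (nat_lit 431) (nat_lit 403) (nat_lit 306)))) (XT.nd (nat_lit 156) (nat_lit 1520) (nat_lit 0) (XT.nd (nat_lit 78) (nat_lit 1672) (nat_lit 0) (XT.lf (nat_lit 0) (nat_lit 7248373499) (nat_lit 1672) (nat_lit 851910328) (nat_lit 76) (nat_lit 1254117972) (nat_lit 408) (nat_lit 5) (nat_lit 430) (nat_lit 5) (nat_lit 409) (nat_lit 5) (nat_lit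 432) (nat_lit 403) (nat_lit 305)) (XT.lf (nat_lit 0) (nat_lit 4130872900) (nat_lit 1672) (nat_lit 4765769505) (nat_lit 1748) (nat_lit 545667673) (nat_lit 386) (nat_lit 5) (nat_lit 408) (nat_lit 5) (nat_lit 409) (nat_lit 5) (nat_lit 433) (nat_lit 403) (nat_lit 304))) (XT.nd (nat_lit 78) (nat_lit 1444) (nat_lit 0) (XT.lf (nat_lit 0) (nat_lit 1015150683) (nat_lit 1748) (nat_lit 334000727) (nat_lit 76) (nat_lit 8183045706) (nat_lit 385) (nat_lit 5) (nat_lit 408) (nat_lit 5) (nat_lit 386) (nat_lit 5) (nat_lit 434) (nat_lit 403) (nat_lit 303)) (XT.lf (nat_lit 0) (nat_lit 2622708833) (nat_lit 1520) (nat_lit 4855446580) (nat_lit 76) (nat_lit 2145213194) (nat_lit 366) (nat_lit 5) (nat_lit 386) (nat_lit 5) (nat_lit 367) (nat_lit 5) (nat_lit 435) (nat_lit 403) (nat_lit 302))))) (XT.nd (nat_lit 312) (nat_lit 1748) (nat_lit 0) (XT.nd (nat_lit 156) (nat_lit 912) (nat_lit 0) (XT.nd (nat_lit 78) (nat_lit 0) (nat_lit 0) (XT.lf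 (nat_lit 0) (nat_lit 234097295) (nat_lit 836) (nat_lit 4019017558) (nat_lit 912) (nat_lit 5463449888) (nat_lit 355) (nat_lit 5) (nat_lit 366) (nat_lit 5) (nat_lit 367) (nat_lit 5) (nat_lit 436) (nat_lit 403) (nat_lit 301)) (XT.lf (nat_lit 0) (nat_lit 5471265928) (nat_lit 836) (nat_lit 455733425) (nat_lit 912) (nat_lit 3884422886) (nat_lit 355) (nat_lit 5) (nat_lit 366) (nat_lit 5) (nat_lit 367) (nat_lit 5) (nat_lit 437) (nat_lit 403) (nat_lit 300))) (XT.nd (nat_lit 78) (nat_lit 0) (nat_lit 0) (XT.lf (nat_lit 0) (nat_lit 875805964) (nat_lit 912) (nat_lit 6763605375) (nat_lit 988) (nat_lit 2268679112) (nat_lit 343) (nat_lit 5) (nat_lit 355) (nat_lit 5) (nat_lit 356) (nat_lit 5) (nat_lit 438) (nat_lit 403) (nat_lit 299)) (XT.lf (nat_lit 0) (nat_lit 6231950644) (nat_lit 912) (nat_lit 3165256288) (nat_lit 988) (nat_lit 609276660) (nat_lit 343) (nat_lit 5) (nat_lit 355) (nat_lit 5) (nat_lit 356) (nat_lit 5) (nat_lit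 439) (nat_lit 403) (nat_lit 298)))) (XT.nd (nat_lit 156) (nat_lit 836) (nat_lit 0) (XT.nd (nat_lit 78) (nat_lit 0) (nat_lit 0) (XT.lf (nat_lit 0) (nat_lit 1062052801) (nat_lit 912) (nat_lit 8528043849) (nat_lit 76) (nat_lit 516762057) (nat_lit 331) (nat_lit 5) (nat_lit 343) (nat_lit 5) (nat_lit 332) (nat_lit 5) (nat_lit 440) (nat_lit 403) (nat_lit 297)) (XT.lf (nat_lit 0) (nat_lit 2784674523) (nat_lit 912) (nat_lit 3163611393) (nat_lit 76) (nat_lit 4260367834) (nat_lit 331) (nat_lit 5) (nat_lit 343) (nat_lit 5) (nat_lit 332) (nat_lit 5) (nat_lit 441) (nat_lit 403) (nat_lit 296))) (XT.nd (nat_lit 78) (nat_lit 0) (nat_lit 0) (XT.lf (nat_lit 0) (nat_lit 2318809142) (nat_lit 836) (nat_lit 2217953070) (nat_lit 912) (nat_lit 5775835396) (nat_lit 320) (nat_lit 5) (nat_lit 331) (nat_lit 5) (nat_lit 332) (nat_lit 5) (nat_lit 442) (nat_lit 403) (nat_lit 295)) (XT.lf (nat_lit 0) (nat_lit 6335790891) (nat_lit 912) (nat_lit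 2494870626) (nat_lit 76) (nat_lit 1587733771) (nat_lit 320) (nat_lit 5) (nat_lit 332) (nat_lit 5) (nat_lit 321) (nat_lit 5) (nat_lit 443) (nat_lit 403) (nat_lit 294))))))))
noncomputable def xc157 : XT := (XT.nd (nat_lit 2184) (nat_lit 6460) (nat_lit 0) (XT.nd (nat_lit 1092) (nat_lit 4028) (nat_lit 0) (XT.nd (nat_lit 546) (nat_lit 2812) (nat_lit 0) (XT.nd (nat_lit 234) (nat_lit 1444) (nat_lit 0) (XT.nd (nat_lit 78) (nat_lit 836) (nat_lit 0) (XT.lf (nat_lit 0) (nat_lit 3120665043) (nat_lit 760) (nat_lit 5065698069) (nat_lit 836) (nat_lit 2339647222) (nat_lit 310) (nat_lit 5) (nat_lit 320) (nat_lit 5) (nat_lit 321) (nat_lit 5) (nat_lit 444) (nat_lit 403) (nat_lit 293)) (XT.nd (nat_lit 78) (nat_lit 836) (nat_lit 0) (XT.lf (nat_lit 0) (nat_lit 8862858823) (nat_lit 760) (nat_lit 1208696678) (nat_lit 836) (nat_lit 564282433) (nat_lit 310) (nat_lit 5) (nat_lit 320) (nat_lit 5) (nat_lit 321) (nat_lit 5) (nat_lit 445) (nat_lit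 403) (nat_lit 292)) (XT.lf (nat_lit 0) (nat_lit 1255215266) (nat_lit 836) (nat_lit 6768479171) (nat_lit 76) (nat_lit 2723518219) (nat_lit 299) (nat_lit 5) (nat_lit 310) (nat_lit 5) (nat_lit 300) (nat_lit 5) (nat_lit 446) (nat_lit 403) (nat_lit 291)))) (XT.nd (nat_lit 156) (nat_lit 760) (nat_lit 0) (XT.nd (nat_lit 78) (nat_lit 684) (nat_lit 0) (XT.lf (nat_lit 0) (nat_lit 3104882920) (nat_lit 836) (nat_lit 1022489863) (nat_lit 76) (nat_lit 6733352488) (nat_lit 299) (nat_lit 5) (nat_lit 310) (nat_lit 5) (nat_lit 300) (nat_lit 5) (nat_lit 447) (nat_lit 403) (nat_lit 290)) (XT.lf (nat_lit 0) (nat_lit 4883242165) (nat_lit 684) (nat_lit 121720392) (nat_lit 760) (nat_lit 5971288686) (nat_lit 290) (nat_lit 5) (nat_lit 299) (nat_lit 5) (nat_lit 300) (nat_lit 5) (nat_lit 448) (nat_lit 403) (nat_lit 289))) (XT.nd (nat_lit 78) (nat_lit 760) (nat_lit 0) (XT.lf (nat_lit 0) (nat_lit 6957629073) (nat_lit 760) (nat_lit 218244932)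 (nat_lit 76) (nat_lit 3917933278) (nat_lit 290) (nat_lit 5) (nat_lit 300) (nat_lit 5) (nat_lit 291) (nat_lit 5) (nat_lit 449) (nat_lit 403) (nat_lit 288)) (XT.lf (nat_lit 0) (nat_lit 5830598604) (nat_lit 760) (nat_lit 3139707810) (nat_lit 836) (nat_lit 2242999913) (nat_lit 280) (nat_lit 5) (nat_lit 290) (nat_lit 5) (nat_lit 291) (nat_lit 5) (nat_lit 450) (nat_lit 403) (nat_lit 287))))) (XT.nd (nat_lit 234) (nat_lit 1368) (nat_lit 0) (XT.nd (nat_lit 78) (nat_lit 760) (nat_lit 0) (XT.lf (nat_lit 0) (nat_lit 651091799) (nat_lit 684) (nat_lit 10366701387) (nat_lit 760) (nat_lit 317521867) (nat_lit 271) (nat_lit 5) (nat_lit 280) (nat_lit 5) (nat_lit 281) (nat_lit 5) (nat_lit 451) (nat_lit 403) (nat_lit 286)) (XT.nd (nat_lit 78) (nat_lit 684) (nat_lit 0) (XT.lf (nat_lit 0) (nat_lit 1664628223) (nat_lit 760) (nat_lit 4631651205) (nat_lit 76) (nat_lit 5162486000) (nat_lit 270) (nat_lit 5) (nat_lit 280) (nat_lit 5) (nat_lit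 271) (nat_lit 5) (nat_lit 452) (nat_lit 403) (nat_lit 285)) (XT.lf (nat_lit 0) (nat_lit 1541042225) (nat_lit 684) (nat_lit 2134081421) (nat_lit 760) (nat_lit 7909670300) (nat_lit 261) (nat_lit 5) (nat_lit 270) (nat_lit 5) (nat_lit 271) (nat_lit 5) (nat_lit 453) (nat_lit 403) (nat_lit 284)))) (XT.nd (nat_lit 156) (nat_lit 760) (nat_lit 0) (XT.nd (nat_lit 78) (nat_lit 608) (nat_lit 0) (XT.lf (nat_lit 0) (nat_lit 5753966681) (nat_lit 760) (nat_lit 3845909326) (nat_lit 76) (nat_lit 2112914269) (nat_lit 261) (nat_lit 5) (nat_lit 271) (nat_lit 5) (nat_lit 262) (nat_lit 5) (nat_lit 454) (nat_lit 403) (nat_lit 283)) (XT.lf (nat_lit 0) (nat_lit 2475352509) (nat_lit 608) (nat_lit 5412711921) (nat_lit 684) (nat_lit 3955018342) (nat_lit 253) (nat_lit 5) (nat_lit 261) (nat_lit 5) (nat_lit 262) (nat_lit 5) (nat_lit 455) (nat_lit 403) (nat_lit 282))) (XT.nd (nat_lit 78) (nat_lit 760) (nat_lit 0) (XT.lf (nat_lit 0) (nat_lit 8956426920)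 (nat_lit 608) (nat_lit 1117900872) (nat_lit 684) (nat_lit 1901473258) (nat_lit 253) (nat_lit 5) (nat_lit 261) (nat_lit 5) (nat_lit 262) (nat_lit 5) (nat_lit 456) (nat_lit 403) (nat_lit 281)) (XT.lf (nat_lit 0) (nat_lit 218422101) (nat_lit 760) (nat_lit 8650596209) (nat_lit 76) (nat_lit 3241583286) (nat_lit 243) (nat_lit 5) (nat_lit 253) (nat_lit 5) (nat_lit 244) (nat_lit 5) (nat_lit 457) (nat_lit 403) (nat_lit 280)))))) (XT.nd (nat_lit 546) (nat_lit 1596) (nat_lit 0) (XT.nd (nat_lit 234) (nat_lit 1824) (nat_lit 0) (XT.nd (nat_lit 78) (nat_lit 608) (nat_lit 0) (XT.lf (nat_lit 0) (nat_lit 2367137426) (nat_lit 760) (nat_lit 2176711489) (nat_lit 76) (nat_lit 7703769261) (nat_lit 243) (nat_lit 5) (nat_lit 253) (nat_lit 5) (nat_lit 244) (nat_lit 5) (nat_lit 458) (nat_lit 403) (nat_lit 279)) (XT.nd (nat_lit 78) (nat_lit 0) (nat_lit 0) (XT.lf (nat_lit 0) (nat_lit 4466812963) (nat_lit 608) (nat_lit 105388051) (nat_lit 684)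 (nat_lit 7814915465) (nat_lit 235) (nat_lit 5) (nat_lit 243) (nat_lit 5) (nat_lit 244) (nat_lit 5) (nat_lit 459) (nat_lit 403) (nat_lit 278)) (XT.lf (nat_lit 0) (nat_lit 6849320507) (nat_lit 684) (nat_lit 1303803833) (nat_lit 76) (nat_lit 4375730018) (nat_lit 235) (nat_lit 5) (nat_lit 244) (nat_lit 5) (nat_lit 236) (nat_lit 5) (nat_lit 460) (nat_lit 403) (nat_lit 277)))) (XT.nd (nat_lit 156) (nat_lit 1216) (nat_lit 0) (XT.nd (nat_lit 78) (nat_lit 0) (nat_lit 0) (XT.lf (nat_lit 0) (nat_lit 5498203765) (nat_lit 608) (nat_lit 3695019136) (nat_lit 684) (nat_lit 3479787810) (nat_lit 227) (nat_lit 5) (nat_lit 235) (nat_lit 5) (nat_lit 236) (nat_lit 5) (nat_lit 461) (nat_lit 403) (nat_lit 276)) (XT.lf (nat_lit 0) (nat_lit 11583347632) (nat_lit 684) (nat_lit 389943208) (nat_lit 76) (nat_lit 846780830) (nat_lit 227) (nat_lit 5) (nat_lit 236) (nat_lit 5) (nat_lit 228) (nat_lit 5) (nat_lit 462) (nat_lit 403) (nat_lit 275)))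 (XT.nd (nat_lit 78) (nat_lit 608) (nat_lit 0) (XT.lf (nat_lit 0) (nat_lit 1090206653) (nat_lit 608) (nat_lit 6401875196) (nat_lit 76) (nat_lit 5476807685) (nat_lit 219) (nat_lit 5) (nat_lit 227) (nat_lit 5) (nat_lit 220) (nat_lit 5) (nat_lit 463) (nat_lit 403) (nat_lit 274)) (XT.lf (nat_lit 0) (nat_lit 528362942) (nat_lit 608) (nat_lit 2910198873) (nat_lit 684) (nat_lit 9682137416) (nat_lit 211) (nat_lit 5) (nat_lit 219) (nat_lit 5) (nat_lit 220) (nat_lit 5) (nat_lit 464) (nat_lit 403) (nat_lit 273))))) (XT.nd (nat_lit 234) (nat_lit 1064) (nat_lit 0) (XT.nd (nat_lit 78) (nat_lit 532) (nat_lit 0) (XT.lf (nat_lit 0) (nat_lit 5874089823) (nat_lit 684) (nat_lit 5620713392) (nat_lit 76) (nat_lit 1779945516) (nat_lit 211) (nat_lit 5) (nat_lit 220) (nat_lit 5) (nat_lit 212) (nat_lit 5) (nat_lit 465) (nat_lit 403) (nat_lit 272)) (XT.nd (nat_lit 78) (nat_lit 0) (nat_lit 0) (XT.lf (nat_lit 0) (nat_lit 1472459857) (nat_lit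 532) (nat_lit 6900498258) (nat_lit 608) (nat_lit 5058636086) (nat_lit 204) (nat_lit 5) (nat_lit 211) (nat_lit 5) (nat_lit 212) (nat_lit 5) (nat_lit 466) (nat_lit 403) (nat_lit 271)) (XT.lf (nat_lit 0) (nat_lit 8765883878) (nat_lit 532) (nat_lit 2179597446) (nat_lit 608) (nat_lit 2645629129) (nat_lit 204) (nat_lit 5) (nat_lit 211) (nat_lit 5) (nat_lit 212) (nat_lit 5) (nat_lit 467) (nat_lit 403) (nat_lit 270)))) (XT.nd (nat_lit 156) (nat_lit 456) (nat_lit 0) (XT.nd (nat_lit 78) (nat_lit 76) (nat_lit 0) (XT.lf (nat_lit 0) (nat_lit 2448648466) (nat_lit 532) (nat_lit 11140028592) (nat_lit 608) (nat_lit 164762812) (nat_lit 197) (nat_lit 5) (nat_lit 204) (nat_lit 5) (nat_lit 205) (nat_lit 5) (nat_lit 468) (nat_lit 403) (nat_lit 269)) (XT.lf (nat_lit 0) (nat_lit 2367992401) (nat_lit 608) (nat_lit 4032754170) (nat_lit 76) (nat_lit 7517303135) (nat_lit 196) (nat_lit 5) (nat_lit 204) (nat_lit 5) (nat_lit 197) (nat_lit 5)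 (nat_lit 469) (nat_lit 403) (nat_lit 268))) (XT.nd (nat_lit 78) (nat_lit 0) (nat_lit 0) (XT.lf (nat_lit 0) (nat_lit 3410930939) (nat_lit 456) (nat_lit 1546952673) (nat_lit 532) (nat_lit 9127879464) (nat_lit 190) (nat_lit 5) (nat_lit 196) (nat_lit 5) (nat_lit 197) (nat_lit 5) (nat_lit 470) (nat_lit 403) (nat_lit 267)) (XT.lf (nat_lit 0) (nat_lit 7635578663) (nat_lit 532) (nat_lit 3237983233) (nat_lit 76) (nat_lit 3382555424) (nat_lit 190) (nat_lit 5) (nat_lit 197) (nat_lit 5) (nat_lit 191) (nat_lit 5) (nat_lit 471) (nat_lit 403) (nat_lit 266))))))) (XT.nd (nat_lit 1092) (nat_lit 2660) (nat_lit 0) (XT.nd (nat_lit 546) (nat_lit 1824) (nat_lit 0) (XT.nd (nat_lit 234) (nat_lit 912) (nat_lit 0) (XT.nd (nat_lit 78) (nat_lit 532) (nat_lit 0) (XT.lf (nat_lit 0) (nat_lit 4377545872) (nat_lit 532) (nat_lit 6014874278) (nat_lit 608) (nat_lit 4036953240) (nat_lit 183) (nat_lit 5) (nat_lit 190) (nat_lit 5) (nat_lit 191) (nat_lit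 5) (nat_lit 472) (nat_lit 403) (nat_lit 265)) (XT.nd (nat_lit 78) (nat_lit 532) (nat_lit 0) (XT.lf (nat_lit 0) (nat_lit 12172166233) (nat_lit 532) (nat_lit 1041031951) (nat_lit 608) (nat_lit 1392726866) (nat_lit 183) (nat_lit 5) (nat_lit 190) (nat_lit 5) (nat_lit 191) (nat_lit 5) (nat_lit 473) (nat_lit 403) (nat_lit 264)) (XT.lf (nat_lit 0) (nat_lit 1335894296) (nat_lit 532) (nat_lit 9430006974) (nat_lit 76) (nat_lit 4018970960) (nat_lit 176) (nat_lit 5) (nat_lit 183) (nat_lit 5) (nat_lit 177) (nat_lit 5) (nat_lit 474) (nat_lit 403) (nat_lit 263)))) (XT.nd (nat_lit 156) (nat_lit 456) (nat_lit 0) (XT.nd (nat_lit 78) (nat_lit 456) (nat_lit 0) (XT.lf (nat_lit 0) (nat_lit 4111138970) (nat_lit 532) (nat_lit 1668116511) (nat_lit 76) (nat_lit 9187750850) (nat_lit 176) (nat_lit 5) (nat_lit 183) (nat_lit 5) (nat_lit 177) (nat_lit 5) (nat_lit 475) (nat_lit 403) (nat_lit 262)) (XT.lf (nat_lit 0) (nat_lit 6315099064) (nat_lit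 456) (nat_lit 655387418) (nat_lit 532) (nat_lit 8181730646) (nat_lit 170) (nat_lit 5) (nat_lit 176) (nat_lit 5) (nat_lit 177) (nat_lit 5) (nat_lit 476) (nat_lit 403) (nat_lit 261))) (XT.nd (nat_lit 78) (nat_lit 456) (nat_lit 0) (XT.lf (nat_lit 0) (nat_lit 9915669813) (nat_lit 532) (nat_lit 906918557) (nat_lit 76) (nat_lit 4517976647) (nat_lit 170) (nat_lit 5) (nat_lit 177) (nat_lit 5) (nat_lit 171) (nat_lit 5) (nat_lit 477) (nat_lit 403) (nat_lit 260)) (XT.lf (nat_lit 0) (nat_lit 7256192082) (nat_lit 456) (nat_lit 5702961275) (nat_lit 532) (nat_lit 2572744317) (nat_lit 164) (nat_lit 5) (nat_lit 170) (nat_lit 5) (nat_lit 171) (nat_lit 5) (nat_lit 478) (nat_lit 403) (nat_lit 259))))) (XT.nd (nat_lit 234) (nat_lit 912) (nat_lit 0) (XT.nd (nat_lit 78) (nat_lit 836) (nat_lit 0) (XT.lf (nat_lit 0) (nat_lit 326152725) (nat_lit 532) (nat_lit 150876829) (nat_lit 76) (nat_lit 15250106943) (nat_lit 163) (nat_lit 5) (nat_lit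 170) (nat_lit 5) (nat_lit 164) (nat_lit 5) (nat_lit 479) (nat_lit 403) (nat_lit 258)) (XT.nd (nat_lit 78) (nat_lit 380) (nat_lit 0) (XT.lf (nat_lit 0) (nat_lit 3322094611) (nat_lit 532) (nat_lit 7746215545) (nat_lit 76) (nat_lit 4856164913) (nat_lit 157) (nat_lit 5) (nat_lit 164) (nat_lit 5) (nat_lit 158) (nat_lit 5) (nat_lit 480) (nat_lit 403) (nat_lit 257)) (XT.lf (nat_lit 0) (nat_lit 537818921) (nat_lit 380) (nat_lit 5836128512) (nat_lit 456) (nat_lit 9751898441) (nat_lit 152) (nat_lit 5) (nat_lit 157) (nat_lit 5) (nat_lit 158) (nat_lit 5) (nat_lit 481) (nat_lit 403) (nat_lit 256)))) (XT.nd (nat_lit 156) (nat_lit 456) (nat_lit 0) (XT.nd (nat_lit 78) (nat_lit 456) (nat_lit 0) (XT.lf (nat_lit 0) (nat_lit 9076291204) (nat_lit 380) (nat_lit 450972717) (nat_lit 456) (nat_lit 6803176841) (nat_lit 152) (nat_lit 5) (nat_lit 157) (nat_lit 5) (nat_lit 158) (nat_lit 5) (nat_lit 482) (nat_lit 403) (nat_lit 255)) (XT.lf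 (nat_lit 0) (nat_lit 1213456679) (nat_lit 456) (nat_lit 11559446026) (nat_lit 532) (nat_lit 3765644820) (nat_lit 146) (nat_lit 5) (nat_lit 152) (nat_lit 5) (nat_lit 153) (nat_lit 5) (nat_lit 483) (nat_lit 403) (nat_lit 254))) (XT.nd (nat_lit 78) (nat_lit 456) (nat_lit 0) (XT.lf (nat_lit 0) (nat_lit 9929698653) (nat_lit 456) (nat_lit 6194162509) (nat_lit 532) (nat_lit 626152121) (nat_lit 146) (nat_lit 5) (nat_lit 152) (nat_lit 5) (nat_lit 153) (nat_lit 5) (nat_lit 484) (nat_lit 403) (nat_lit 253)) (XT.lf (nat_lit 0) (nat_lit 1846184052) (nat_lit 380) (nat_lit 697049994) (nat_lit 456) (nat_lit 14422126792) (nat_lit 140) (nat_lit 5) (nat_lit 145) (nat_lit 5) (nat_lit 146) (nat_lit 5) (nat_lit 485) (nat_lit 403) (nat_lit 252)))))) (XT.nd (nat_lit 546) (nat_lit 1444) (nat_lit 0) (XT.nd (nat_lit 234) (nat_lit 836) (nat_lit 0) (XT.nd (nat_lit 78) (nat_lit 380) (nat_lit 0) (XT.lf (nat_lit 0) (nat_lit 5834569268) (nat_lit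 456) (nat_lit 6457914068) (nat_lit 76) (nat_lit 4891115030) (nat_lit 140) (nat_lit 5) (nat_lit 146) (nat_lit 5) (nat_lit 141) (nat_lit 5) (nat_lit 486) (nat_lit 403) (nat_lit 251)) (XT.nd (nat_lit 78) (nat_lit 0) (nat_lit 0) (XT.lf (nat_lit 0) (nat_lit 2387635537) (nat_lit 380) (nat_lit 6813417587) (nat_lit 456) (nat_lit 8204965698) (nat_lit 135) (nat_lit 5) (nat_lit 140) (nat_lit 5) (nat_lit 141) (nat_lit 5) (nat_lit 487) (nat_lit 403) (nat_lit 250)) (XT.lf (nat_lit 0) (nat_lit 11482101320) (nat_lit 380) (nat_lit 1185415771) (nat_lit 456) (nat_lit 4964722114) (nat_lit 135) (nat_lit 5) (nat_lit 140) (nat_lit 5) (nat_lit 141) (nat_lit 5) (nat_lit 488) (nat_lit 403) (nat_lit 249)))) (XT.nd (nat_lit 156) (nat_lit 380) (nat_lit 0) (XT.nd (nat_lit 78) (nat_lit 76) (nat_lit 0) (XT.lf (nat_lit 0) (nat_lit 2888366781) (nat_lit 380) (nat_lit 13352764872) (nat_lit 456) (nat_lit 1621100353) (nat_lit 130) (nat_lit 5) (nat_lit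 135) (nat_lit 5) (nat_lit 136) (nat_lit 5) (nat_lit 489) (nat_lit 403) (nat_lit 248)) (XT.lf (nat_lit 0) (nat_lit 1804846568) (nat_lit 456) (nat_lit 5940186770) (nat_lit 76) (nat_lit 10350784814) (nat_lit 129) (nat_lit 5) (nat_lit 135) (nat_lit 5) (nat_lit 130) (nat_lit 5) (nat_lit 490) (nat_lit 403) (nat_lit 247))) (XT.nd (nat_lit 78) (nat_lit 0) (nat_lit 0) (XT.lf (nat_lit 0) (nat_lit 3291446305) (nat_lit 380) (nat_lit 1997282029) (nat_lit 456) (nat_lit 13044915109) (nat_lit 124) (nat_lit 5) (nat_lit 129) (nat_lit 5) (nat_lit 130) (nat_lit 5) (nat_lit 491) (nat_lit 403) (nat_lit 246)) (XT.lf (nat_lit 0) (nat_lit 8897314179) (nat_lit 456) (nat_lit 5827783126) (nat_lit 76) (nat_lit 3850031505) (nat_lit 124) (nat_lit 5) (nat_lit 130) (nat_lit 5) (nat_lit 125) (nat_lit 5) (nat_lit 492) (nat_lit 403) (nat_lit 245))))) (XT.nd (nat_lit 312) (nat_lit 684) (nat_lit 0) (XT.nd (nat_lit 156) (nat_lit 456) (nat_lit 0) (XT.nd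 (nat_lit 78) (nat_lit 0) (nat_lit 0) (XT.lf (nat_lit 0) (nat_lit 3589845090) (nat_lit 304) (nat_lit 9014765043) (nat_lit 380) (nat_lit 6216307000) (nat_lit 120) (nat_lit 5) (nat_lit 124) (nat_lit 5) (nat_lit 125) (nat_lit 5) (nat_lit 493) (nat_lit 403) (nat_lit 244)) (XT.lf (nat_lit 0) (nat_lit 13259992714) (nat_lit 304) (nat_lit 3155270210) (nat_lit 380) (nat_lit 2655778025) (nat_lit 120) (nat_lit 5) (nat_lit 124) (nat_lit 5) (nat_lit 125) (nat_lit 5) (nat_lit 494) (nat_lit 403) (nat_lit 243))) (XT.nd (nat_lit 78) (nat_lit 0) (nat_lit 0) (XT.lf (nat_lit 0) (nat_lit 996728702) (nat_lit 456) (nat_lit 15517683730) (nat_lit 76) (nat_lit 2810960519) (nat_lit 114) (nat_lit 5) (nat_lit 120) (nat_lit 5) (nat_lit 115) (nat_lit 5) (nat_lit 495) (nat_lit 403) (nat_lit 242)) (XT.lf (nat_lit 0) (nat_lit 4737201716) (nat_lit 456) (nat_lit 5939923939) (nat_lit 76) (nat_lit 8906309018) (nat_lit 114) (nat_lit 5) (nat_lit 120)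 (nat_lit 5) (nat_lit 115) (nat_lit 5) (nat_lit 496) (nat_lit 403) (nat_lit 241)))) (XT.nd (nat_lit 156) (nat_lit 380) (nat_lit 0) (XT.nd (nat_lit 78) (nat_lit 0) (nat_lit 0) (XT.lf (nat_lit 0) (nat_lit 3865636671) (nat_lit 304) (nat_lit 4702430613) (nat_lit 380) (nat_lit 11278282323) (nat_lit 110) (nat_lit 5) (nat_lit 114) (nat_lit 5) (nat_lit 115) (nat_lit 5) (nat_lit 497) (nat_lit 403) (nat_lit 240)) (XT.lf (nat_lit 0) (nat_lit 12515256492) (nat_lit 380) (nat_lit 6189717875) (nat_lit 76) (nat_lit 1408757915) (nat_lit 110) (nat_lit 5) (nat_lit 115) (nat_lit 5) (nat_lit 111) (nat_lit 5) (nat_lit 498) (nat_lit 403) (nat_lit 239))) (XT.nd (nat_lit 78) (nat_lit 76) (nat_lit 0) (XT.lf (nat_lit 0) (nat_lit 3801580466) (nat_lit 304) (nat_lit 12786364814) (nat_lit 380) (nat_lit 3797589715) (nat_lit 106) (nat_lit 5) (nat_lit 110) (nat_lit 5) (nat_lit 111) (nat_lit 5) (nat_lit 499) (nat_lit 403) (nat_lit 238)) (XT.lf (nat_lit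 0) (nat_lit 110842456) (nat_lit 380) (nat_lit 6600390701) (nat_lit 76) (nat_lit 13950882295) (nat_lit 105) (nat_lit 5) (nat_lit 110) (nat_lit 5) (nat_lit 106) (nat_lit 5) (nat_lit 500) (nat_lit 403) (nat_lit 237))))))))
noncomputable def xc158 : XT := (XT.nd (nat_lit 52026) (nat_lit 0) (nat_lit 23180) (XT.nd (nat_lit 1092) (nat_lit 1292) (nat_lit 0) (XT.nd (nat_lit 546) (nat_lit 836) (nat_lit 0) (XT.nd (nat_lit 234) (nat_lit 608) (nat_lit 0) (XT.nd (nat_lit 78) (nat_lit 304) (nat_lit 0) (XT.lf (nat_lit 0) (nat_lit 3590802883) (nat_lit 304) (nat_lit 470090551) (nat_lit 380) (nat_lit 16882549343) (nat_lit 101) (nat_lit 5) (nat_lit 105) (nat_lit 5) (nat_lit 106) (nat_lit 5) (nat_lit 501) (nat_lit 403) (nat_lit 236)) (XT.nd (nat_lit 78) (nat_lit 304) (nat_lit 0) (XT.lf (nat_lit 0) (nat_lit 8163804792) (nat_lit 380) (nat_lit 7206838389) (nat_lit 76) (nat_lit 5858279512) (nat_lit 101) (nat_lit 5) (nat_lit 106) (nat_lit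 5) (nat_lit 102) (nat_lit 5) (nat_lit 502) (nat_lit 403) (nat_lit 235)) (XT.lf (nat_lit 0) (nat_lit 3166526208) (nat_lit 304) (nat_lit 9197091134) (nat_lit 380) (nat_lit 9156201174) (nat_lit 97) (nat_lit 5) (nat_lit 101) (nat_lit 5) (nat_lit 102) (nat_lit 5) (nat_lit 503) (nat_lit 403) (nat_lit 234)))) (XT.nd (nat_lit 156) (nat_lit 380) (nat_lit 0) (XT.nd (nat_lit 78) (nat_lit 228) (nat_lit 0) (XT.lf (nat_lit 0) (nat_lit 13831369963) (nat_lit 304) (nat_lit 2855672770) (nat_lit 380) (nat_lit 5128700298) (nat_lit 97) (nat_lit 5) (nat_lit 101) (nat_lit 5) (nat_lit 102) (nat_lit 5) (nat_lit 504) (nat_lit 403) (nat_lit 233)) (XT.lf (nat_lit 0) (nat_lit 2588869183) (nat_lit 228) (nat_lit 18539726309) (nat_lit 304) (nat_lit 988360413) (nat_lit 94) (nat_lit 5) (nat_lit 97) (nat_lit 5) (nat_lit 98) (nat_lit 5) (nat_lit 505) (nat_lit 403) (nat_lit 232))) (XT.nd (nat_lit 78) (nat_lit 304) (nat_lit 0) (XT.lf (nat_lit 0) (nat_lit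 3256624269) (nat_lit 304) (nat_lit 8995165294) (nat_lit 76) (nat_lit 10170701098) (nat_lit 93) (nat_lit 5) (nat_lit 97) (nat_lit 5) (nat_lit 94) (nat_lit 5) (nat_lit 506) (nat_lit 403) (nat_lit 231)) (XT.lf (nat_lit 0) (nat_lit 1751525551) (nat_lit 304) (nat_lit 5824718571) (nat_lit 380) (nat_lit 15157704807) (nat_lit 89) (nat_lit 5) (nat_lit 93) (nat_lit 5) (nat_lit 94) (nat_lit 5) (nat_lit 507) (nat_lit 403) (nat_lit 230))))) (XT.nd (nat_lit 234) (nat_lit 608) (nat_lit 0) (XT.nd (nat_lit 78) (nat_lit 228) (nat_lit 0) (XT.lf (nat_lit 0) (nat_lit 12039396401) (nat_lit 380) (nat_lit 10233857586) (nat_lit 76) (nat_lit 777242387) (nat_lit 89) (nat_lit 5) (nat_lit 94) (nat_lit 5) (nat_lit 90) (nat_lit 5) (nat_lit 508) (nat_lit 403) (nat_lit 229)) (XT.nd (nat_lit 78) (nat_lit 0) (nat_lit 0) (XT.lf (nat_lit 0) (nat_lit 687012263) (nat_lit 228) (nat_lit 15939630902) (nat_lit 304) (nat_lit 6746037733) (nat_lit 86) (nat_lit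 5) (nat_lit 89) (nat_lit 5) (nat_lit 90) (nat_lit 5) (nat_lit 509) (nat_lit 403) (nat_lit 228)) (XT.lf (nat_lit 0) (nat_lit 11952005095) (nat_lit 228) (nat_lit 9414177283) (nat_lit 304) (nat_lit 2333918490) (nat_lit 86) (nat_lit 5) (nat_lit 89) (nat_lit 5) (nat_lit 90) (nat_lit 5) (nat_lit 510) (nat_lit 403) (nat_lit 227)))) (XT.nd (nat_lit 156) (nat_lit 228) (nat_lit 0) (XT.nd (nat_lit 78) (nat_lit 304) (nat_lit 0) (XT.lf (nat_lit 0) (nat_lit 2130006758) (nat_lit 304) (nat_lit 618708473) (nat_lit 76) (nat_lit 21285235747) (nat_lit 85) (nat_lit 5) (nat_lit 89) (nat_lit 5) (nat_lit 86) (nat_lit 5) (nat_lit 511) (nat_lit 403) (nat_lit 226)) (XT.lf (nat_lit 0) (nat_lit 6741385244) (nat_lit 380) (nat_lit 13552295957) (nat_lit 76) (nat_lit 4078702376) (nat_lit 81) (nat_lit 5) (nat_lit 86) (nat_lit 5) (nat_lit 82) (nat_lit 5) (nat_lit 512) (nat_lit 403) (nat_lit 225))) (XT.nd (nat_lit 78) (nat_lit 228) (nat_lit 0) (XT.lf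 (nat_lit 0) (nat_lit 11459550343) (nat_lit 380) (nat_lit 2252349515) (nat_lit 76) (nat_lit 11005396288) (nat_lit 81) (nat_lit 5) (nat_lit 86) (nat_lit 5) (nat_lit 82) (nat_lit 5) (nat_lit 513) (nat_lit 403) (nat_lit 224)) (XT.lf (nat_lit 0) (nat_lit 9384257167) (nat_lit 228) (nat_lit 6941080081) (nat_lit 304) (nat_lit 8742706997) (nat_lit 78) (nat_lit 5) (nat_lit 81) (nat_lit 5) (nat_lit 82) (nat_lit 5) (nat_lit 514) (nat_lit 403) (nat_lit 223)))))) (XT.nd (nat_lit 546) (nat_lit 532) (nat_lit 0) (XT.nd (nat_lit 234) (nat_lit 456) (nat_lit 0) (XT.nd (nat_lit 78) (nat_lit 304) (nat_lit 0) (XT.lf (nat_lit 0) (nat_lit 21271793943) (nat_lit 228) (nat_lit 24160405) (nat_lit 304) (nat_lit 4129705071) (nat_lit 78) (nat_lit 5) (nat_lit 81) (nat_lit 5) (nat_lit 82) (nat_lit 5) (nat_lit 515) (nat_lit 403) (nat_lit 222)) (XT.nd (nat_lit 78) (nat_lit 0) (nat_lit 0) (XT.lf (nat_lit 0) (nat_lit 656420255) (nat_lit 304) (nat_lit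 18143880336) (nat_lit 76) (nat_lit 6988285639) (nat_lit 74) (nat_lit 5) (nat_lit 78) (nat_lit 5) (nat_lit 75) (nat_lit 5) (nat_lit 516) (nat_lit 403) (nat_lit 221)) (XT.lf (nat_lit 0) (nat_lit 5503777697) (nat_lit 304) (nat_lit 6462586058) (nat_lit 76) (nat_lit 14191448010) (nat_lit 74) (nat_lit 5) (nat_lit 78) (nat_lit 5) (nat_lit 75) (nat_lit 5) (nat_lit 517) (nat_lit 403) (nat_lit 220)))) (XT.nd (nat_lit 156) (nat_lit 228) (nat_lit 0) (XT.nd (nat_lit 78) (nat_lit 0) (nat_lit 0) (XT.lf (nat_lit 0) (nat_lit 5512639474) (nat_lit 228) (nat_lit 4963916330) (nat_lit 304) (nat_lit 16057298756) (nat_lit 71) (nat_lit 5) (nat_lit 74) (nat_lit 5) (nat_lit 75) (nat_lit 5) (nat_lit 518) (nat_lit 403) (nat_lit 219)) (XT.lf (nat_lit 0) (nat_lit 15599306480) (nat_lit 304) (nat_lit 9128043201) (nat_lit 76) (nat_lit 2189060363) (nat_lit 71) (nat_lit 5) (nat_lit 75) (nat_lit 5) (nat_lit 72) (nat_lit 5) (nat_lit 519) (nat_lit 403)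 (nat_lit 218))) (XT.nd (nat_lit 78) (nat_lit 0) (nat_lit 0) (XT.lf (nat_lit 0) (nat_lit 2997637049) (nat_lit 228) (nat_lit 17872071842) (nat_lit 304) (nat_lit 6436005947) (nat_lit 68) (nat_lit 5) (nat_lit 71) (nat_lit 5) (nat_lit 72) (nat_lit 5) (nat_lit 520) (nat_lit 403) (nat_lit 217)) (XT.lf (nat_lit 0) (nat_lit 15477845535) (nat_lit 228) (nat_lit 10821852152) (nat_lit 304) (nat_lit 1402026564) (nat_lit 68) (nat_lit 5) (nat_lit 71) (nat_lit 5) (nat_lit 72) (nat_lit 5) (nat_lit 521) (nat_lit 403) (nat_lit 216))))) (XT.nd (nat_lit 234) (nat_lit 228) (nat_lit 0) (XT.nd (nat_lit 78) (nat_lit 0) (nat_lit 0) (XT.lf (nat_lit 0) (nat_lit 67065733) (nat_lit 228) (nat_lit 3610063102) (nat_lit 304) (nat_lit 24428173321) (nat_lit 64) (nat_lit 5) (nat_lit 67) (nat_lit 5) (nat_lit 68) (nat_lit 5) (nat_lit 522) (nat_lit 403) (nat_lit 215)) (XT.nd (nat_lit 78) (nat_lit 0) (nat_lit 0) (XT.lf (nat_lit 0) (nat_lit 8939052537)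 (nat_lit 304) (nat_lit 15791551439) (nat_lit 76) (nat_lit 3784165098) (nat_lit 64) (nat_lit 5) (nat_lit 68) (nat_lit 5) (nat_lit 65) (nat_lit 5) (nat_lit 523) (nat_lit 403) (nat_lit 214)) (XT.lf (nat_lit 0) (nat_lit 14323306354) (nat_lit 304) (nat_lit 3335230563) (nat_lit 76) (nat_lit 11273548512) (nat_lit 64) (nat_lit 5) (nat_lit 68) (nat_lit 5) (nat_lit 65) (nat_lit 5) (nat_lit 524) (nat_lit 403) (nat_lit 213)))) (XT.nd (nat_lit 49998) (nat_lit 0) (nat_lit 34504) (XT.nd (nat_lit 49920) (nat_lit 0) (nat_lit 34504) (XT.lf (nat_lit 0) (nat_lit 9483426806) (nat_lit 228) (nat_lit 10386708725) (nat_lit 304) (nat_lit 9486516669) (nat_lit 61) (nat_lit 5) (nat_lit 64) (nat_lit 5) (nat_lit 65) (nat_lit 5) (nat_lit 525) (nat_lit 403) (nat_lit 212)) (XT.lf (nat_lit 0) (nat_lit 488900262) (nat_lit 1292) (nat_lit 1645272173) (nat_lit 1292) (nat_lit 1645272173) (nat_lit 515) (nat_lit 3) (nat_lit 532) (nat_lit 3) (nat_lit 532)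 (nat_lit 5) (nat_lit 404) (nat_lit 404) (nat_lit 332))) (XT.nd (nat_lit 78) (nat_lit 0) (nat_lit 76) (XT.lf (nat_lit 76) (nat_lit 222153813) (nat_lit 0) (nat_lit 2129700967) (nat_lit 1292) (nat_lit 5254205618) (nat_lit 516) (nat_lit 5) (nat_lit 515) (nat_lit 3) (nat_lit 532) (nat_lit 5) (nat_lit 405) (nat_lit 404) (nat_lit 331)) (XT.lf (nat_lit 0) (nat_lit 3740198588) (nat_lit 1216) (nat_lit 3823853760) (nat_lit 1292) (nat_lit 90416185) (nat_lit 516) (nat_lit 5) (nat_lit 532) (nat_lit 5) (nat_lit 533) (nat_lit 5) (nat_lit 406) (nat_lit 404) (nat_lit 330))))))) (XT.nd (nat_lit 1092) (nat_lit 8892) (nat_lit 0) (XT.nd (nat_lit 546) (nat_lit 1216) (nat_lit 0) (XT.nd (nat_lit 234) (nat_lit 0) (nat_lit 76) (XT.nd (nat_lit 78) (nat_lit 1292) (nat_lit 0) (XT.lf (nat_lit 0) (nat_lit 5135359498) (nat_lit 1216) (nat_lit 225672980) (nat_lit 1292) (nat_lit 2343260461) (nat_lit 516) (nat_lit 5) (nat_lit 532) (nat_lit 5) (nat_lit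 533) (nat_lit 5) (nat_lit 407) (nat_lit 404) (nat_lit 329)) (XT.nd (nat_lit 78) (nat_lit 1292) (nat_lit 0) (XT.lf (nat_lit 76) (nat_lit 3471402300) (nat_lit 0) (nat_lit 3075193549) (nat_lit 1292) (nat_lit 1208783086) (nat_lit 517) (nat_lit 5) (nat_lit 516) (nat_lit 5) (nat_lit 533) (nat_lit 5) (nat_lit 408) (nat_lit 404) (nat_lit 328)) (XT.lf (nat_lit 0) (nat_lit 143688645) (nat_lit 1292) (nat_lit 582102603) (nat_lit 1368) (nat_lit 7082350444) (nat_lit 499) (nat_lit 5) (nat_lit 516) (nat_lit 5) (nat_lit 517) (nat_lit 5) (nat_lit 409) (nat_lit 404) (nat_lit 327)))) (XT.nd (nat_lit 156) (nat_lit 0) (nat_lit 0) (XT.nd (nat_lit 78) (nat_lit 0) (nat_lit 0) (XT.lf (nat_lit 0) (nat_lit 1505613989) (nat_lit 1292) (nat_lit 4663900380) (nat_lit 1368) (nat_lit 1692340635) (nat_lit 500) (nat_lit 5) (nat_lit 517) (nat_lit 5) (nat_lit 518) (nat_lit 5) (nat_lit 410) (nat_lit 404) (nat_lit 326)) (XT.lf (nat_lit 0) (nat_lit 2870748808)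 (nat_lit 1292) (nat_lit 879131464) (nat_lit 1368) (nat_lit 4167269263) (nat_lit 500) (nat_lit 5) (nat_lit 517) (nat_lit 5) (nat_lit 518) (nat_lit 5) (nat_lit 411) (nat_lit 404) (nat_lit 325))) (XT.nd (nat_lit 78) (nat_lit 0) (nat_lit 76) (XT.lf (nat_lit 76) (nat_lit 3001841617) (nat_lit 0) (nat_lit 1248709475) (nat_lit 1368) (nat_lit 3723277423) (nat_lit 501) (nat_lit 5) (nat_lit 500) (nat_lit 5) (nat_lit 518) (nat_lit 5) (nat_lit 412) (nat_lit 404) (nat_lit 324)) (XT.lf (nat_lit 0) (nat_lit 5640811222) (nat_lit 1292) (nat_lit 1087145863) (nat_lit 1368) (nat_lit 1304052099) (nat_lit 501) (nat_lit 5) (nat_lit 518) (nat_lit 5) (nat_lit 519) (nat_lit 5) (nat_lit 413) (nat_lit 404) (nat_lit 323))))) (XT.nd (nat_lit 234) (nat_lit 0) (nat_lit 76) (XT.nd (nat_lit 78) (nat_lit 1368) (nat_lit 0) (XT.lf (nat_lit 76) (nat_lit 2885874954) (nat_lit 0) (nat_lit 4169093216) (nat_lit 1368) (nat_lit 1036488314) (nat_lit 502) (nat_lit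 5) (nat_lit 501) (nat_lit 5) (nat_lit 519) (nat_lit 5) (nat_lit 414) (nat_lit 404) (nat_lit 322)) (XT.nd (nat_lit 78) (nat_lit 0) (nat_lit 76) (XT.lf (nat_lit 0) (nat_lit 317472715) (nat_lit 1368) (nat_lit 1220546301) (nat_lit 1444) (nat_lit 6614519037) (nat_lit 483) (nat_lit 5) (nat_lit 501) (nat_lit 5) (nat_lit 502) (nat_lit 5) (nat_lit 415) (nat_lit 404) (nat_lit 321)) (XT.lf (nat_lit 0) (nat_lit 1680810780) (nat_lit 1368) (nat_lit 5366878281) (nat_lit 1444) (nat_lit 1167115057) (nat_lit 484) (nat_lit 5) (nat_lit 502) (nat_lit 5) (nat_lit 503) (nat_lit 5) (nat_lit 416) (nat_lit 404) (nat_lit 320)))) (XT.nd (nat_lit 156) (nat_lit 0) (nat_lit 76) (XT.nd (nat_lit 78) (nat_lit 0) (nat_lit 0) (XT.lf (nat_lit 0) (nat_lit 3060325555) (nat_lit 1368) (nat_lit 1293659741) (nat_lit 1444) (nat_lit 3924574966) (nat_lit 484) (nat_lit 5) (nat_lit 502) (nat_lit 5) (nat_lit 503) (nat_lit 5) (nat_lit 417) (nat_lit 404) (nat_lit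 319)) (XT.lf (nat_lit 76) (nat_lit 2879592984) (nat_lit 0) (nat_lit 1577592341) (nat_lit 1444) (nat_lit 3886633618) (nat_lit 485) (nat_lit 5) (nat_lit 484) (nat_lit 5) (nat_lit 503) (nat_lit 5) (nat_lit 418) (nat_lit 404) (nat_lit 318))) (XT.nd (nat_lit 78) (nat_lit 0) (nat_lit 0) (XT.lf (nat_lit 0) (nat_lit 5870428200) (nat_lit 1368) (nat_lit 1284287439) (nat_lit 1444) (nat_lit 1255920307) (nat_lit 485) (nat_lit 5) (nat_lit 503) (nat_lit 5) (nat_lit 504) (nat_lit 5) (nat_lit 419) (nat_lit 404) (nat_lit 317)) (XT.lf (nat_lit 76) (nat_lit 2988662295) (nat_lit 0) (nat_lit 4325246574) (nat_lit 1444) (nat_lit 1164862593) (nat_lit 486) (nat_lit 5) (nat_lit 485) (nat_lit 5) (nat_lit 504) (nat_lit 5) (nat_lit 420) (nat_lit 404) (nat_lit 316)))))) (XT.nd (nat_lit 546) (nat_lit 7600) (nat_lit 0) (XT.nd (nat_lit 234) (nat_lit 0) (nat_lit 76) (XT.nd (nat_lit 78) (nat_lit 0) (nat_lit 76) (XT.lf (nat_lit 0) (nat_lit 215883596)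 (nat_lit 1444) (nat_lit 1204817636) (nat_lit 1520) (nat_lit 7127938038) (nat_lit 466) (nat_lit 5) (nat_lit 485) (nat_lit 5) (nat_lit 486) (nat_lit 5) (nat_lit 421) (nat_lit 404) (nat_lit 315)) (XT.nd (nat_lit 78) (nat_lit 0) (nat_lit 0) (XT.lf (nat_lit 0) (nat_lit 1612447637) (nat_lit 1444) (nat_lit 5449179522) (nat_lit 1520) (nat_lit 1558067657) (nat_lit 467) (nat_lit 5) (nat_lit 486) (nat_lit 5) (nat_lit 487) (nat_lit 5) (nat_lit 422) (nat_lit 404) (nat_lit 314)) (XT.lf (nat_lit 0) (nat_lit 3027829800) (nat_lit 1444) (nat_lit 1071476354) (nat_lit 1520) (nat_lit 4593067567) (nat_lit 467) (nat_lit 5) (nat_lit 486) (nat_lit 5) (nat_lit 487) (nat_lit 5) (nat_lit 423) (nat_lit 404) (nat_lit 313)))) (XT.nd (nat_lit 156) (nat_lit 0) (nat_lit 76) (XT.nd (nat_lit 78) (nat_lit 0) (nat_lit 76) (XT.lf (nat_lit 76) (nat_lit 3419321060) (nat_lit 0) (nat_lit 1048261518) (nat_lit 1520) (nat_lit 4299021961) (nat_lit 468) (nat_lit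 5) (nat_lit 467) (nat_lit 5) (nat_lit 487) (nat_lit 5) (nat_lit 424) (nat_lit 404) (nat_lit 312)) (XT.lf (nat_lit 0) (nat_lit 5931060910) (nat_lit 1444) (nat_lit 860919496) (nat_lit 1520) (nat_lit 2050460169) (nat_lit 468) (nat_lit 5) (nat_lit 487) (nat_lit 5) (nat_lit 488) (nat_lit 5) (nat_lit 425) (nat_lit 404) (nat_lit 311))) (XT.nd (nat_lit 78) (nat_lit 0) (nat_lit 0) (XT.lf (nat_lit 76) (nat_lit 3737885333) (nat_lit 0) (nat_lit 3691931615) (nat_lit 1520) (nat_lit 1489875051) (nat_lit 469) (nat_lit 5) (nat_lit 468) (nat_lit 5) (nat_lit 488) (nat_lit 5) (nat_lit 426) (nat_lit 404) (nat_lit 310)) (XT.lf (nat_lit 76) (nat_lit 8421096323) (nat_lit 0) (nat_lit 518395443) (nat_lit 1520) (nat_lit 59396277) (nat_lit 469) (nat_lit 5) (nat_lit 468) (nat_lit 5) (nat_lit 488) (nat_lit 5) (nat_lit 427) (nat_lit 404) (nat_lit 309))))) (XT.nd (nat_lit 312) (nat_lit 3192) (nat_lit 0) (XT.nd (nat_lit 156) (nat_lit 3116) (nat_lit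 0) (XT.nd (nat_lit 78) (nat_lit 0) (nat_lit 0) (XT.lf (nat_lit 0) (nat_lit 1401641030) (nat_lit 1520) (nat_lit 4953016791) (nat_lit 76) (nat_lit 2724440055) (nat_lit 449) (nat_lit 5) (nat_lit 469) (nat_lit 5) (nat_lit 450) (nat_lit 5) (nat_lit 428) (nat_lit 404) (nat_lit 308)) (XT.lf (nat_lit 0) (nat_lit 2874304883) (nat_lit 1520) (nat_lit 252436814) (nat_lit 76) (nat_lit 6034515733) (nat_lit 449) (nat_lit 5) (nat_lit 469) (nat_lit 5) (nat_lit 450) (nat_lit 5) (nat_lit 429) (nat_lit 404) (nat_lit 307))) (XT.nd (nat_lit 78) (nat_lit 1596) (nat_lit 0) (XT.lf (nat_lit 0) (nat_lit 4383817565) (nat_lit 1596) (nat_lit 4663224414) (nat_lit 76) (nat_lit 197887343) (nat_lit 429) (nat_lit 5) (nat_lit 450) (nat_lit 5) (nat_lit 430) (nat_lit 5) (nat_lit 430) (nat_lit 404) (nat_lit 306)) (XT.lf (nat_lit 0) (nat_lit 147311149) (nat_lit 1596) (nat_lit 5776282806) (nat_lit 1672) (nat_lit 3406695951) (nat_lit 408) (nat_lit 5) (nat_lit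 429) (nat_lit 5) (nat_lit 430) (nat_lit 5) (nat_lit 431) (nat_lit 404) (nat_lit 305)))) (XT.nd (nat_lit 156) (nat_lit 1520) (nat_lit 0) (XT.nd (nat_lit 78) (nat_lit 1672) (nat_lit 0) (XT.lf (nat_lit 0) (nat_lit 5097784406) (nat_lit 1596) (nat_lit 2404709331) (nat_lit 1672) (nat_lit 1914713802) (nat_lit 408) (nat_lit 5) (nat_lit 429) (nat_lit 5) (nat_lit 430) (nat_lit 5) (nat_lit 432) (nat_lit 404) (nat_lit 304)) (XT.lf (nat_lit 0) (nat_lit 623271864) (nat_lit 1672) (nat_lit 8477969298) (nat_lit 1748) (nat_lit 404873045) (nat_lit 386) (nat_lit 5) (nat_lit 408) (nat_lit 5) (nat_lit 409) (nat_lit 5) (nat_lit 433) (nat_lit 404) (nat_lit 303))) (XT.nd (nat_lit 78) (nat_lit 1444) (nat_lit 0) (XT.lf (nat_lit 0) (nat_lit 1143039291) (nat_lit 1748) (nat_lit 3916109220) (nat_lit 76) (nat_lit 4537063287) (nat_lit 385) (nat_lit 5) (nat_lit 408) (nat_lit 5) (nat_lit 386) (nat_lit 5) (nat_lit 434) (nat_lit 404) (nat_lit 302))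 (XT.lf (nat_lit 0) (nat_lit 1142879911) (nat_lit 1444) (nat_lit 1559132020) (nat_lit 1520) (nat_lit 6986350567) (nat_lit 366) (nat_lit 5) (nat_lit 385) (nat_lit 5) (nat_lit 386) (nat_lit 5) (nat_lit 435) (nat_lit 404) (nat_lit 301))))))))
noncomputable def xc159 : XT := (XT.nd (nat_lit 2184) (nat_lit 7296) (nat_lit 0) (XT.nd (nat_lit 1092) (nat_lit 5320) (nat_lit 0) (XT.nd (nat_lit 546) (nat_lit 3116) (nat_lit 0) (XT.nd (nat_lit 234) (nat_lit 1824) (nat_lit 0) (XT.nd (nat_lit 78) (nat_lit 836) (nat_lit 0) (XT.lf (nat_lit 0) (nat_lit 4310090712) (nat_lit 1520) (nat_lit 3458648840) (nat_lit 76) (nat_lit 2013272976) (nat_lit 366) (nat_lit 5) (nat_lit 386) (nat_lit 5) (nat_lit 367) (nat_lit 5) (nat_lit 436) (nat_lit 404) (nat_lit 300)) (XT.nd (nat_lit 78) (nat_lit 0) (nat_lit 0) (XT.lf (nat_lit 0) (nat_lit 1722857579) (nat_lit 836) (nat_lit 4227825489) (nat_lit 912) (nat_lit 3926860010) (nat_lit 355) (nat_lit 5) (nat_lit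 366) (nat_lit 5) (nat_lit 367) (nat_lit 5) (nat_lit 437) (nat_lit 404) (nat_lit 299)) (XT.lf (nat_lit 0) (nat_lit 7035670010) (nat_lit 836) (nat_lit 590757486) (nat_lit 912) (nat_lit 2348524210) (nat_lit 355) (nat_lit 5) (nat_lit 366) (nat_lit 5) (nat_lit 367) (nat_lit 5) (nat_lit 438) (nat_lit 404) (nat_lit 298)))) (XT.nd (nat_lit 156) (nat_lit 836) (nat_lit 0) (XT.nd (nat_lit 78) (nat_lit 76) (nat_lit 0) (XT.lf (nat_lit 0) (nat_lit 2372024580) (nat_lit 912) (nat_lit 6978864593) (nat_lit 988) (nat_lit 723129280) (nat_lit 343) (nat_lit 5) (nat_lit 355) (nat_lit 5) (nat_lit 356) (nat_lit 5) (nat_lit 439) (nat_lit 404) (nat_lit 297)) (XT.lf (nat_lit 0) (nat_lit 925961108) (nat_lit 988) (nat_lit 2374805354) (nat_lit 76) (nat_lit 6874123193) (nat_lit 342) (nat_lit 5) (nat_lit 355) (nat_lit 5) (nat_lit 343) (nat_lit 5) (nat_lit 440) (nat_lit 404) (nat_lit 296))) (XT.nd (nat_lit 78) (nat_lit 0) (nat_lit 0) (XT.lf (nat_lit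 0) (nat_lit 2601503237) (nat_lit 912) (nat_lit 7205359208) (nat_lit 76) (nat_lit 470770372) (nat_lit 331) (nat_lit 5) (nat_lit 343) (nat_lit 5) (nat_lit 332) (nat_lit 5) (nat_lit 441) (nat_lit 404) (nat_lit 295)) (XT.lf (nat_lit 0) (nat_lit 4328808582) (nat_lit 912) (nat_lit 1762917427) (nat_lit 76) (nat_lit 4290352714) (nat_lit 331) (nat_lit 5) (nat_lit 343) (nat_lit 5) (nat_lit 332) (nat_lit 5) (nat_lit 442) (nat_lit 404) (nat_lit 294))))) (XT.nd (nat_lit 234) (nat_lit 1520) (nat_lit 0) (XT.nd (nat_lit 78) (nat_lit 760) (nat_lit 0) (XT.lf (nat_lit 0) (nat_lit 3819520162) (nat_lit 836) (nat_lit 2276675261) (nat_lit 912) (nat_lit 4392320090) (nat_lit 320) (nat_lit 5) (nat_lit 331) (nat_lit 5) (nat_lit 332) (nat_lit 5) (nat_lit 443) (nat_lit 404) (nat_lit 293)) (XT.nd (nat_lit 78) (nat_lit 760) (nat_lit 0) (XT.lf (nat_lit 0) (nat_lit 7902315249) (nat_lit 912) (nat_lit 1089118882) (nat_lit 76) (nat_lit 1605591629)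 (nat_lit 320) (nat_lit 5) (nat_lit 332) (nat_lit 5) (nat_lit 321) (nat_lit 5) (nat_lit 444) (nat_lit 404) (nat_lit 292)) (XT.lf (nat_lit 0) (nat_lit 4629150861) (nat_lit 760) (nat_lit 5141905376) (nat_lit 836) (nat_lit 936132180) (nat_lit 310) (nat_lit 5) (nat_lit 320) (nat_lit 5) (nat_lit 321) (nat_lit 5) (nat_lit 445) (nat_lit 404) (nat_lit 291)))) (XT.nd (nat_lit 156) (nat_lit 684) (nat_lit 0) (XT.nd (nat_lit 78) (nat_lit 760) (nat_lit 0) (XT.lf (nat_lit 0) (nat_lit 835203083) (nat_lit 836) (nat_lit 367448508) (nat_lit 76) (nat_lit 9617026418) (nat_lit 309) (nat_lit 5) (nat_lit 320) (nat_lit 5) (nat_lit 310) (nat_lit 5) (nat_lit 446) (nat_lit 404) (nat_lit 290)) (XT.lf (nat_lit 0) (nat_lit 2665576111) (nat_lit 836) (nat_lit 5447760010) (nat_lit 76) (nat_lit 2820246077) (nat_lit 299) (nat_lit 5) (nat_lit 310) (nat_lit 5) (nat_lit 300) (nat_lit 5) (nat_lit 447) (nat_lit 404) (nat_lit 289))) (XT.nd (nat_lit 78)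 (nat_lit 0) (nat_lit 0) (XT.lf (nat_lit 0) (nat_lit 389709434) (nat_lit 684) (nat_lit 4137896043) (nat_lit 760) (nat_lit 6522269270) (nat_lit 290) (nat_lit 5) (nat_lit 299) (nat_lit 5) (nat_lit 300) (nat_lit 5) (nat_lit 448) (nat_lit 404) (nat_lit 288)) (XT.lf (nat_lit 0) (nat_lit 6399053296) (nat_lit 684) (nat_lit 46681397) (nat_lit 760) (nat_lit 4722392302) (nat_lit 290) (nat_lit 5) (nat_lit 299) (nat_lit 5) (nat_lit 300) (nat_lit 5) (nat_lit 449) (nat_lit 404) (nat_lit 287)))))) (XT.nd (nat_lit 546) (nat_lit 2508) (nat_lit 0) (XT.nd (nat_lit 234) (nat_lit 1292) (nat_lit 0) (XT.nd (nat_lit 78) (nat_lit 760) (nat_lit 0) (XT.lf (nat_lit 0) (nat_lit 1210215849) (nat_lit 760) (nat_lit 7209301657) (nat_lit 836) (nat_lit 2868891779) (nat_lit 280) (nat_lit 5) (nat_lit 290) (nat_lit 5) (nat_lit 291) (nat_lit 5) (nat_lit 450) (nat_lit 404) (nat_lit 286)) (XT.nd (nat_lit 78) (nat_lit 760) (nat_lit 0) (XT.lf (nat_lit 0)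 (nat_lit 7354841996) (nat_lit 760) (nat_lit 3093106224) (nat_lit 836) (nat_lit 962856162) (nat_lit 280) (nat_lit 5) (nat_lit 290) (nat_lit 5) (nat_lit 291) (nat_lit 5) (nat_lit 451) (nat_lit 404) (nat_lit 285)) (XT.lf (nat_lit 0) (nat_lit 972371114) (nat_lit 760) (nat_lit 9453605761) (nat_lit 76) (nat_lit 1109474456) (nat_lit 270) (nat_lit 5) (nat_lit 280) (nat_lit 5) (nat_lit 271) (nat_lit 5) (nat_lit 452) (nat_lit 404) (nat_lit 284)))) (XT.nd (nat_lit 156) (nat_lit 608) (nat_lit 0) (XT.nd (nat_lit 78) (nat_lit 684) (nat_lit 0) (XT.lf (nat_lit 0) (nat_lit 2964583312) (nat_lit 760) (nat_lit 3310363480) (nat_lit 76) (nat_lit 5386903670) (nat_lit 270) (nat_lit 5) (nat_lit 280) (nat_lit 5) (nat_lit 271) (nat_lit 5) (nat_lit 453) (nat_lit 404) (nat_lit 283)) (XT.lf (nat_lit 0) (nat_lit 2976481709) (nat_lit 684) (nat_lit 2023090131) (nat_lit 760) (nat_lit 6791156892) (nat_lit 261) (nat_lit 5) (nat_lit 270) (nat_lit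 5) (nat_lit 271) (nat_lit 5) (nat_lit 454) (nat_lit 404) (nat_lit 282))) (XT.nd (nat_lit 78) (nat_lit 608) (nat_lit 0) (XT.lf (nat_lit 0) (nat_lit 7096441571) (nat_lit 760) (nat_lit 2521472624) (nat_lit 76) (nat_lit 2303856348) (nat_lit 261) (nat_lit 5) (nat_lit 271) (nat_lit 5) (nat_lit 262) (nat_lit 5) (nat_lit 455) (nat_lit 404) (nat_lit 281)) (XT.lf (nat_lit 0) (nat_lit 3916995007) (nat_lit 608) (nat_lit 5341198355) (nat_lit 684) (nat_lit 2796790353) (nat_lit 253) (nat_lit 5) (nat_lit 261) (nat_lit 5) (nat_lit 262) (nat_lit 5) (nat_lit 456) (nat_lit 404) (nat_lit 280))))) (XT.nd (nat_lit 234) (nat_lit 1748) (nat_lit 0) (XT.nd (nat_lit 78) (nat_lit 760) (nat_lit 0) (XT.lf (nat_lit 0) (nat_lit 10500394133) (nat_lit 608) (nat_lit 964015944) (nat_lit 684) (nat_lit 726435708) (nat_lit 253) (nat_lit 5) (nat_lit 261) (nat_lit 5) (nat_lit 262) (nat_lit 5) (nat_lit 457) (nat_lit 404) (nat_lit 279)) (XT.nd (nat_lit 78)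 (nat_lit 0) (nat_lit 0) (XT.lf (nat_lit 0) (nat_lit 1406616463) (nat_lit 760) (nat_lit 7428170489) (nat_lit 76) (nat_lit 3493677944) (nat_lit 243) (nat_lit 5) (nat_lit 253) (nat_lit 5) (nat_lit 244) (nat_lit 5) (nat_lit 458) (nat_lit 404) (nat_lit 278)) (XT.lf (nat_lit 0) (nat_lit 3575093821) (nat_lit 760) (nat_lit 852169596) (nat_lit 76) (nat_lit 8041435815) (nat_lit 243) (nat_lit 5) (nat_lit 253) (nat_lit 5) (nat_lit 244) (nat_lit 5) (nat_lit 459) (nat_lit 404) (nat_lit 277)))) (XT.nd (nat_lit 156) (nat_lit 532) (nat_lit 0) (XT.nd (nat_lit 78) (nat_lit 608) (nat_lit 0) (XT.lf (nat_lit 0) (nat_lit 5811006648) (nat_lit 684) (nat_lit 6696735318) (nat_lit 76) (nat_lit 103523499) (nat_lit 235) (nat_lit 5) (nat_lit 244) (nat_lit 5) (nat_lit 236) (nat_lit 5) (nat_lit 460) (nat_lit 404) (nat_lit 276)) (XT.lf (nat_lit 0) (nat_lit 24635676) (nat_lit 608) (nat_lit 8087379767) (nat_lit 684) (nat_lit 4644268388) (nat_lit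 227) (nat_lit 5) (nat_lit 235) (nat_lit 5) (nat_lit 236) (nat_lit 5) (nat_lit 461) (nat_lit 404) (nat_lit 275))) (XT.nd (nat_lit 78) (nat_lit 532) (nat_lit 0) (XT.lf (nat_lit 0) (nat_lit 6953451165) (nat_lit 608) (nat_lit 3535849662) (nat_lit 684) (nat_lit 2414304807) (nat_lit 227) (nat_lit 5) (nat_lit 235) (nat_lit 5) (nat_lit 236) (nat_lit 5) (nat_lit 462) (nat_lit 404) (nat_lit 274)) (XT.lf (nat_lit 0) (nat_lit 954616493) (nat_lit 532) (nat_lit 11958485026) (nat_lit 608) (nat_lit 140800999) (nat_lit 220) (nat_lit 5) (nat_lit 227) (nat_lit 5) (nat_lit 228) (nat_lit 5) (nat_lit 463) (nat_lit 404) (nat_lit 273))))))) (XT.nd (nat_lit 1092) (nat_lit 3496) (nat_lit 0) (XT.nd (nat_lit 546) (nat_lit 1976) (nat_lit 0) (XT.nd (nat_lit 234) (nat_lit 1140) (nat_lit 0) (XT.nd (nat_lit 78) (nat_lit 608) (nat_lit 0) (XT.lf (nat_lit 0) (nat_lit 2198867599) (nat_lit 608) (nat_lit 5183859869) (nat_lit 76) (nat_lit 5823217518)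 (nat_lit 219) (nat_lit 5) (nat_lit 227) (nat_lit 5) (nat_lit 220) (nat_lit 5) (nat_lit 464) (nat_lit 404) (nat_lit 272)) (XT.nd (nat_lit 78) (nat_lit 0) (nat_lit 0) (XT.lf (nat_lit 0) (nat_lit 1876127421) (nat_lit 608) (nat_lit 2705433497) (nat_lit 684) (nat_lit 8779494012) (nat_lit 211) (nat_lit 5) (nat_lit 219) (nat_lit 5) (nat_lit 220) (nat_lit 5) (nat_lit 465) (nat_lit 404) (nat_lit 271)) (XT.lf (nat_lit 0) (nat_lit 7046410087) (nat_lit 684) (nat_lit 4402198116) (nat_lit 76) (nat_lit 2069976254) (nat_lit 211) (nat_lit 5) (nat_lit 220) (nat_lit 5) (nat_lit 212) (nat_lit 5) (nat_lit 466) (nat_lit 404) (nat_lit 270)))) (XT.nd (nat_lit 156) (nat_lit 608) (nat_lit 0) (XT.nd (nat_lit 78) (nat_lit 0) (nat_lit 0) (XT.lf (nat_lit 0) (nat_lit 2824082482) (nat_lit 532) (nat_lit 6759074582) (nat_lit 608) (nat_lit 4095662774) (nat_lit 204) (nat_lit 5) (nat_lit 211) (nat_lit 5) (nat_lit 212) (nat_lit 5) (nat_lit 467) (nat_lit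 404) (nat_lit 269)) (XT.lf (nat_lit 0) (nat_lit 10237450015) (nat_lit 532) (nat_lit 1949234845) (nat_lit 608) (nat_lit 1655261287) (nat_lit 204) (nat_lit 5) (nat_lit 211) (nat_lit 5) (nat_lit 212) (nat_lit 5) (nat_lit 468) (nat_lit 404) (nat_lit 268))) (XT.nd (nat_lit 78) (nat_lit 0) (nat_lit 0) (XT.lf (nat_lit 0) (nat_lit 853851650) (nat_lit 608) (nat_lit 10208923131) (nat_lit 76) (nat_lit 2944841953) (nat_lit 196) (nat_lit 5) (nat_lit 204) (nat_lit 5) (nat_lit 197) (nat_lit 5) (nat_lit 469) (nat_lit 404) (nat_lit 267)) (XT.lf (nat_lit 0) (nat_lit 3415063629) (nat_lit 608) (nat_lit 2818435766) (nat_lit 76) (nat_lit 7942407623) (nat_lit 196) (nat_lit 5) (nat_lit 204) (nat_lit 5) (nat_lit 197) (nat_lit 5) (nat_lit 470) (nat_lit 404) (nat_lit 266))))) (XT.nd (nat_lit 234) (nat_lit 988) (nat_lit 0) (XT.nd (nat_lit 78) (nat_lit 532) (nat_lit 0) (XT.lf (nat_lit 0) (nat_lit 4765603483) (nat_lit 456) (nat_lit 1279899510)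 (nat_lit 532) (nat_lit 8301706645) (nat_lit 190) (nat_lit 5) (nat_lit 196) (nat_lit 5) (nat_lit 197) (nat_lit 5) (nat_lit 471) (nat_lit 404) (nat_lit 265)) (XT.nd (nat_lit 78) (nat_lit 532) (nat_lit 0) (XT.lf (nat_lit 0) (nat_lit 8759267168) (nat_lit 532) (nat_lit 2023539111) (nat_lit 76) (nat_lit 3738524175) (nat_lit 190) (nat_lit 5) (nat_lit 197) (nat_lit 5) (nat_lit 191) (nat_lit 5) (nat_lit 472) (nat_lit 404) (nat_lit 264)) (XT.lf (nat_lit 0) (nat_lit 5735884761) (nat_lit 532) (nat_lit 5824572760) (nat_lit 608) (nat_lit 3137819487) (nat_lit 183) (nat_lit 5) (nat_lit 190) (nat_lit 5) (nat_lit 191) (nat_lit 5) (nat_lit 473) (nat_lit 404) (nat_lit 263)))) (XT.nd (nat_lit 156) (nat_lit 456) (nat_lit 0) (XT.nd (nat_lit 78) (nat_lit 532) (nat_lit 0) (XT.lf (nat_lit 0) (nat_lit 13661480118) (nat_lit 532) (nat_lit 757343763) (nat_lit 608) (nat_lit 459921778) (nat_lit 183) (nat_lit 5) (nat_lit 190) (nat_lit 5) (nat_lit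 191) (nat_lit 5) (nat_lit 474) (nat_lit 404) (nat_lit 262)) (XT.lf (nat_lit 0) (nat_lit 2302235784) (nat_lit 532) (nat_lit 8350786719) (nat_lit 76) (nat_lit 4408302318) (nat_lit 176) (nat_lit 5) (nat_lit 183) (nat_lit 5) (nat_lit 177) (nat_lit 5) (nat_lit 475) (nat_lit 404) (nat_lit 261))) (XT.nd (nat_lit 78) (nat_lit 456) (nat_lit 0) (XT.lf (nat_lit 0) (nat_lit 5114561359) (nat_lit 532) (nat_lit 458517670) (nat_lit 76) (nat_lit 9674399925) (nat_lit 176) (nat_lit 5) (nat_lit 183) (nat_lit 5) (nat_lit 177) (nat_lit 5) (nat_lit 476) (nat_lit 404) (nat_lit 260)) (XT.lf (nat_lit 0) (nat_lit 7676184840) (nat_lit 456) (nat_lit 344865279) (nat_lit 532) (nat_lit 7415553458) (nat_lit 170) (nat_lit 5) (nat_lit 176) (nat_lit 5) (nat_lit 177) (nat_lit 5) (nat_lit 477) (nat_lit 404) (nat_lit 259)))))) (XT.nd (nat_lit 546) (nat_lit 1672) (nat_lit 0) (XT.nd (nat_lit 234) (nat_lit 836) (nat_lit 0) (XT.nd (nat_lit 78) (nat_lit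 532) (nat_lit 0) (XT.lf (nat_lit 0) (nat_lit 305757515) (nat_lit 456) (nat_lit 10705559038) (nat_lit 532) (nat_lit 4617686808) (nat_lit 164) (nat_lit 5) (nat_lit 170) (nat_lit 5) (nat_lit 171) (nat_lit 5) (nat_lit 478) (nat_lit 404) (nat_lit 258)) (XT.nd (nat_lit 78) (nat_lit 532) (nat_lit 0) (XT.lf (nat_lit 0) (nat_lit 8620049222) (nat_lit 456) (nat_lit 5483992344) (nat_lit 532) (nat_lit 1720362027) (nat_lit 164) (nat_lit 5) (nat_lit 170) (nat_lit 5) (nat_lit 171) (nat_lit 5) (nat_lit 479) (nat_lit 404) (nat_lit 257)) (XT.lf (nat_lit 0) (nat_lit 1066958815) (nat_lit 456) (nat_lit 147137690) (nat_lit 532) (nat_lit 14809552605) (nat_lit 157) (nat_lit 5) (nat_lit 163) (nat_lit 5) (nat_lit 164) (nat_lit 5) (nat_lit 480) (nat_lit 404) (nat_lit 256)))) (XT.nd (nat_lit 156) (nat_lit 456) (nat_lit 0) (XT.nd (nat_lit 78) (nat_lit 380) (nat_lit 0) (XT.lf (nat_lit 0) (nat_lit 4255834264) (nat_lit 532) (nat_lit 6686690644)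 (nat_lit 76) (nat_lit 5282699883) (nat_lit 157) (nat_lit 5) (nat_lit 164) (nat_lit 5) (nat_lit 158) (nat_lit 5) (nat_lit 481) (nat_lit 404) (nat_lit 255)) (XT.lf (nat_lit 0) (nat_lit 1755034714) (nat_lit 380) (nat_lit 5604516724) (nat_lit 456) (nat_lit 9071262749) (nat_lit 152) (nat_lit 5) (nat_lit 157) (nat_lit 5) (nat_lit 158) (nat_lit 5) (nat_lit 482) (nat_lit 404) (nat_lit 254))) (XT.nd (nat_lit 78) (nat_lit 456) (nat_lit 0) (XT.lf (nat_lit 0) (nat_lit 10440620376) (nat_lit 380) (nat_lit 118487898) (nat_lit 456) (nat_lit 6080736789) (nat_lit 152) (nat_lit 5) (nat_lit 157) (nat_lit 5) (nat_lit 158) (nat_lit 5) (nat_lit 483) (nat_lit 404) (nat_lit 253)) (XT.lf (nat_lit 0) (nat_lit 2427636201) (nat_lit 456) (nat_lit 11435427056) (nat_lit 532) (nat_lit 2989190057) (nat_lit 146) (nat_lit 5) (nat_lit 152) (nat_lit 5) (nat_lit 153) (nat_lit 5) (nat_lit 484) (nat_lit 404) (nat_lit 252))))) (XT.nd (nat_lit 312) (nat_lit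 836) (nat_lit 0) (XT.nd (nat_lit 156) (nat_lit 380) (nat_lit 0) (XT.nd (nat_lit 78) (nat_lit 380) (nat_lit 0) (XT.lf (nat_lit 0) (nat_lit 193815462) (nat_lit 532) (nat_lit 5774686663) (nat_lit 76) (nat_lit 11099755371) (nat_lit 145) (nat_lit 5) (nat_lit 152) (nat_lit 5) (nat_lit 146) (nat_lit 5) (nat_lit 485) (nat_lit 404) (nat_lit 251)) (XT.lf (nat_lit 0) (nat_lit 3053246029) (nat_lit 380) (nat_lit 356405195) (nat_lit 456) (nat_lit 13878356075) (nat_lit 140) (nat_lit 5) (nat_lit 145) (nat_lit 5) (nat_lit 146) (nat_lit 5) (nat_lit 486) (nat_lit 404) (nat_lit 250))) (XT.nd (nat_lit 78) (nat_lit 380) (nat_lit 0) (XT.lf (nat_lit 0) (nat_lit 6753078991) (nat_lit 456) (nat_lit 5425800932) (nat_lit 76) (nat_lit 5332011196) (nat_lit 140) (nat_lit 5) (nat_lit 146) (nat_lit 5) (nat_lit 141) (nat_lit 5) (nat_lit 487) (nat_lit 404) (nat_lit 249)) (XT.lf (nat_lit 0) (nat_lit 3589019722) (nat_lit 380) (nat_lit 6589641014) (nat_lit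 456) (nat_lit 7559270606) (nat_lit 135) (nat_lit 5) (nat_lit 140) (nat_lit 5) (nat_lit 141) (nat_lit 5) (nat_lit 488) (nat_lit 404) (nat_lit 248)))) (XT.nd (nat_lit 156) (nat_lit 456) (nat_lit 0) (XT.nd (nat_lit 78) (nat_lit 380) (nat_lit 0) (XT.lf (nat_lit 0) (nat_lit 12842754596) (nat_lit 380) (nat_lit 856138866) (nat_lit 456) (nat_lit 4270100472) (nat_lit 135) (nat_lit 5) (nat_lit 140) (nat_lit 5) (nat_lit 141) (nat_lit 5) (nat_lit 489) (nat_lit 404) (nat_lit 247)) (XT.lf (nat_lit 0) (nat_lit 4083213282) (nat_lit 380) (nat_lit 13255141170) (nat_lit 456) (nat_lit 865351118) (nat_lit 130) (nat_lit 5) (nat_lit 135) (nat_lit 5) (nat_lit 136) (nat_lit 5) (nat_lit 490) (nat_lit 404) (nat_lit 246))) (XT.nd (nat_lit 78) (nat_lit 380) (nat_lit 0) (XT.lf (nat_lit 0) (nat_lit 2603526082) (nat_lit 456) (nat_lit 4933762161) (nat_lit 76) (nat_lit 10904884092) (nat_lit 129) (nat_lit 5) (nat_lit 135) (nat_lit 5) (nat_lit 130)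 (nat_lit 5) (nat_lit 491) (nat_lit 404) (nat_lit 245)) (XT.lf (nat_lit 0) (nat_lit 4475100758) (nat_lit 380) (nat_lit 1674289791) (nat_lit 456) (nat_lit 12535523570) (nat_lit 124) (nat_lit 5) (nat_lit 129) (nat_lit 5) (nat_lit 130) (nat_lit 5) (nat_lit 492) (nat_lit 404) (nat_lit 244))))))))
noncomputable def xc160 : XT := (XT.nd (nat_lit 2184) (nat_lit 532) (nat_lit 0) (XT.nd (nat_lit 1092) (nat_lit 1748) (nat_lit 0) (XT.nd (nat_lit 546) (nat_lit 1216) (nat_lit 0) (XT.nd (nat_lit 234) (nat_lit 760) (nat_lit 0) (XT.nd (nat_lit 78) (nat_lit 304) (nat_lit 0) (XT.lf (nat_lit 0) (nat_lit 9817656621) (nat_lit 456) (nat_lit 4835641449) (nat_lit 76) (nat_lit 4278186922) (nat_lit 124) (nat_lit 5) (nat_lit 130) (nat_lit 5) (nat_lit 125) (nat_lit 5) (nat_lit 493) (nat_lit 404) (nat_lit 243)) (XT.nd (nat_lit 78) (nat_lit 0) (nat_lit 0) (XT.lf (nat_lit 0) (nat_lit 4763045270) (nat_lit 304) (nat_lit 8828647478) (nat_lit 380)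 (nat_lit 5590650303) (nat_lit 120) (nat_lit 5) (nat_lit 124) (nat_lit 5) (nat_lit 125) (nat_lit 5) (nat_lit 494) (nat_lit 404) (nat_lit 242)) (XT.lf (nat_lit 0) (nat_lit 14604999703) (nat_lit 304) (nat_lit 2859147314) (nat_lit 380) (nat_lit 1973616293) (nat_lit 120) (nat_lit 5) (nat_lit 124) (nat_lit 5) (nat_lit 125) (nat_lit 5) (nat_lit 495) (nat_lit 404) (nat_lit 241)))) (XT.nd (nat_lit 156) (nat_lit 304) (nat_lit 0) (XT.nd (nat_lit 78) (nat_lit 0) (nat_lit 0) (XT.lf (nat_lit 0) (nat_lit 1737462028) (nat_lit 456) (nat_lit 14733194735) (nat_lit 76) (nat_lit 3226531931) (nat_lit 114) (nat_lit 5) (nat_lit 120) (nat_lit 5) (nat_lit 115) (nat_lit 5) (nat_lit 496) (nat_lit 404) (nat_lit 240)) (XT.lf (nat_lit 0) (nat_lit 5538611195) (nat_lit 456) (nat_lit 4985347251) (nat_lit 76) (nat_lit 9436741278) (nat_lit 114) (nat_lit 5) (nat_lit 120) (nat_lit 5) (nat_lit 115) (nat_lit 5) (nat_lit 497) (nat_lit 404) (nat_lit 239)))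 (XT.nd (nat_lit 78) (nat_lit 0) (nat_lit 0) (XT.lf (nat_lit 0) (nat_lit 5009262892) (nat_lit 304) (nat_lit 4429898211) (nat_lit 380) (nat_lit 10789855814) (nat_lit 110) (nat_lit 5) (nat_lit 114) (nat_lit 5) (nat_lit 115) (nat_lit 5) (nat_lit 498) (nat_lit 404) (nat_lit 238)) (XT.lf (nat_lit 0) (nat_lit 13453907269) (nat_lit 380) (nat_lit 5256460191) (nat_lit 76) (nat_lit 1791612719) (nat_lit 110) (nat_lit 5) (nat_lit 115) (nat_lit 5) (nat_lit 111) (nat_lit 5) (nat_lit 499) (nat_lit 404) (nat_lit 237))))) (XT.nd (nat_lit 234) (nat_lit 532) (nat_lit 0) (XT.nd (nat_lit 78) (nat_lit 380) (nat_lit 0) (XT.lf (nat_lit 0) (nat_lit 4927709828) (nat_lit 304) (nat_lit 12673660962) (nat_lit 380) (nat_lit 3177986830) (nat_lit 106) (nat_lit 5) (nat_lit 110) (nat_lit 5) (nat_lit 111) (nat_lit 5) (nat_lit 500) (nat_lit 404) (nat_lit 236)) (XT.nd (nat_lit 78) (nat_lit 304) (nat_lit 0) (XT.lf (nat_lit 0) (nat_lit 786032201) (nat_lit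 380) (nat_lit 5693702610) (nat_lit 76) (nat_lit 14581918643) (nat_lit 105) (nat_lit 5) (nat_lit 110) (nat_lit 5) (nat_lit 106) (nat_lit 5) (nat_lit 501) (nat_lit 404) (nat_lit 235)) (XT.lf (nat_lit 0) (nat_lit 4694481321) (nat_lit 304) (nat_lit 114106866) (nat_lit 380) (nat_lit 16540153859) (nat_lit 101) (nat_lit 5) (nat_lit 105) (nat_lit 5) (nat_lit 106) (nat_lit 5) (nat_lit 502) (nat_lit 404) (nat_lit 234)))) (XT.nd (nat_lit 156) (nat_lit 228) (nat_lit 0) (XT.nd (nat_lit 78) (nat_lit 304) (nat_lit 0) (XT.lf (nat_lit 0) (nat_lit 8982815406) (nat_lit 380) (nat_lit 6328367666) (nat_lit 76) (nat_lit 6328968043) (nat_lit 101) (nat_lit 5) (nat_lit 106) (nat_lit 5) (nat_lit 102) (nat_lit 5) (nat_lit 503) (nat_lit 404) (nat_lit 233)) (XT.lf (nat_lit 0) (nat_lit 4245736543) (nat_lit 304) (nat_lit 9014625890) (nat_lit 380) (nat_lit 8676632271) (nat_lit 97) (nat_lit 5) (nat_lit 101) (nat_lit 5) (nat_lit 102) (nat_lit 5)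 (nat_lit 504) (nat_lit 404) (nat_lit 232))) (XT.nd (nat_lit 78) (nat_lit 228) (nat_lit 0) (XT.lf (nat_lit 0) (nat_lit 15103957961) (nat_lit 304) (nat_lit 2553563612) (nat_lit 380) (nat_lit 4581575357) (nat_lit 97) (nat_lit 5) (nat_lit 101) (nat_lit 5) (nat_lit 102) (nat_lit 5) (nat_lit 505) (nat_lit 404) (nat_lit 231)) (XT.lf (nat_lit 0) (nat_lit 3640613519) (nat_lit 228) (nat_lit 18543585838) (nat_lit 304) (nat_lit 362213260) (nat_lit 94) (nat_lit 5) (nat_lit 97) (nat_lit 5) (nat_lit 98) (nat_lit 5) (nat_lit 506) (nat_lit 404) (nat_lit 230)))))) (XT.nd (nat_lit 546) (nat_lit 760) (nat_lit 0) (XT.nd (nat_lit 234) (nat_lit 608) (nat_lit 0) (XT.nd (nat_lit 78) (nat_lit 304) (nat_lit 0) (XT.lf (nat_lit 0) (nat_lit 3946700950) (nat_lit 304) (nat_lit 8186190507) (nat_lit 76) (nat_lit 10725336977) (nat_lit 93) (nat_lit 5) (nat_lit 97) (nat_lit 5) (nat_lit 94) (nat_lit 5) (nat_lit 507) (nat_lit 404) (nat_lit 229)) (XT.nd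 (nat_lit 78) (nat_lit 0) (nat_lit 0) (XT.lf (nat_lit 0) (nat_lit 2768928377) (nat_lit 304) (nat_lit 5577909226) (nat_lit 380) (nat_lit 14829199954) (nat_lit 89) (nat_lit 5) (nat_lit 93) (nat_lit 5) (nat_lit 94) (nat_lit 5) (nat_lit 508) (nat_lit 404) (nat_lit 228)) (XT.lf (nat_lit 0) (nat_lit 12889426886) (nat_lit 380) (nat_lit 9465393702) (nat_lit 76) (nat_lit 1144295983) (nat_lit 89) (nat_lit 5) (nat_lit 94) (nat_lit 5) (nat_lit 90) (nat_lit 5) (nat_lit 509) (nat_lit 404) (nat_lit 227)))) (XT.nd (nat_lit 156) (nat_lit 380) (nat_lit 0) (XT.nd (nat_lit 78) (nat_lit 0) (nat_lit 0) (XT.lf (nat_lit 0) (nat_lit 1667491300) (nat_lit 228) (nat_lit 15895258063) (nat_lit 304) (nat_lit 6265112825) (nat_lit 86) (nat_lit 5) (nat_lit 89) (nat_lit 5) (nat_lit 90) (nat_lit 5) (nat_lit 510) (nat_lit 404) (nat_lit 226)) (XT.lf (nat_lit 0) (nat_lit 13138828326) (nat_lit 228) (nat_lit 9246416263) (nat_lit 304) (nat_lit 1776826602)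 (nat_lit 86) (nat_lit 5) (nat_lit 89) (nat_lit 5) (nat_lit 90) (nat_lit 5) (nat_lit 511) (nat_lit 404) (nat_lit 225))) (XT.nd (nat_lit 78) (nat_lit 0) (nat_lit 0) (XT.lf (nat_lit 0) (nat_lit 310136566) (nat_lit 304) (nat_lit 2448652274) (nat_lit 380) (nat_lit 21743928241) (nat_lit 81) (nat_lit 5) (nat_lit 85) (nat_lit 5) (nat_lit 86) (nat_lit 5) (nat_lit 512) (nat_lit 404) (nat_lit 224)) (XT.lf (nat_lit 0) (nat_lit 7457258479) (nat_lit 380) (nat_lit 12882881793) (nat_lit 76) (nat_lit 4507884501) (nat_lit 81) (nat_lit 5) (nat_lit 86) (nat_lit 5) (nat_lit 82) (nat_lit 5) (nat_lit 513) (nat_lit 404) (nat_lit 223))))) (XT.nd (nat_lit 234) (nat_lit 532) (nat_lit 0) (XT.nd (nat_lit 78) (nat_lit 228) (nat_lit 0) (XT.lf (nat_lit 0) (nat_lit 12258393830) (nat_lit 380) (nat_lit 1375376815) (nat_lit 76) (nat_lit 11566296447) (nat_lit 81) (nat_lit 5) (nat_lit 86) (nat_lit 5) (nat_lit 82) (nat_lit 5) (nat_lit 514) (nat_lit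 404) (nat_lit 222)) (XT.nd (nat_lit 78) (nat_lit 0) (nat_lit 0) (XT.lf (nat_lit 0) (nat_lit 10487896082) (nat_lit 228) (nat_lit 6728377715) (nat_lit 304) (nat_lit 8341664378) (nat_lit 78) (nat_lit 5) (nat_lit 81) (nat_lit 5) (nat_lit 82) (nat_lit 5) (nat_lit 515) (nat_lit 404) (nat_lit 221)) (XT.lf (nat_lit 0) (nat_lit 22277313561) (nat_lit 304) (nat_lit 3329784353) (nat_lit 76) (nat_lit 315791029) (nat_lit 78) (nat_lit 5) (nat_lit 82) (nat_lit 5) (nat_lit 79) (nat_lit 5) (nat_lit 516) (nat_lit 404) (nat_lit 220)))) (XT.nd (nat_lit 156) (nat_lit 228) (nat_lit 0) (XT.nd (nat_lit 78) (nat_lit 0) (nat_lit 0) (XT.lf (nat_lit 0) (nat_lit 1223920013) (nat_lit 304) (nat_lit 17598191231) (nat_lit 76) (nat_lit 7470991211) (nat_lit 74) (nat_lit 5) (nat_lit 78) (nat_lit 5) (nat_lit 75) (nat_lit 5) (nat_lit 517) (nat_lit 404) (nat_lit 219)) (XT.lf (nat_lit 0) (nat_lit 6157354577) (nat_lit 304) (nat_lit 5701086101) (nat_lit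 76) (nat_lit 14811492519) (nat_lit 74) (nat_lit 5) (nat_lit 78) (nat_lit 5) (nat_lit 75) (nat_lit 5) (nat_lit 518) (nat_lit 404) (nat_lit 218))) (XT.nd (nat_lit 78) (nat_lit 0) (nat_lit 0) (XT.lf (nat_lit 0) (nat_lit 6507783733) (nat_lit 228) (nat_lit 4716892926) (nat_lit 304) (nat_lit 15828921650) (nat_lit 71) (nat_lit 5) (nat_lit 74) (nat_lit 5) (nat_lit 75) (nat_lit 5) (nat_lit 519) (nat_lit 404) (nat_lit 217)) (XT.lf (nat_lit 0) (nat_lit 16441526100) (nat_lit 304) (nat_lit 8434548781) (nat_lit 76) (nat_lit 2567900316) (nat_lit 71) (nat_lit 5) (nat_lit 75) (nat_lit 5) (nat_lit 72) (nat_lit 5) (nat_lit 520) (nat_lit 404) (nat_lit 216))))))) (XT.nd (nat_lit 51012) (nat_lit 0) (nat_lit 29184) (XT.nd (nat_lit 50466) (nat_lit 0) (nat_lit 33060) (XT.nd (nat_lit 234) (nat_lit 0) (nat_lit 0) (XT.nd (nat_lit 78) (nat_lit 304) (nat_lit 0) (XT.lf (nat_lit 0) (nat_lit 3927881553) (nat_lit 228) (nat_lit 17884708783) (nat_lit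 304) (nat_lit 6028573781) (nat_lit 68) (nat_lit 5) (nat_lit 71) (nat_lit 5) (nat_lit 72) (nat_lit 5) (nat_lit 521) (nat_lit 404) (nat_lit 215)) (XT.nd (nat_lit 78) (nat_lit 304) (nat_lit 0) (XT.lf (nat_lit 0) (nat_lit 16640629665) (nat_lit 228) (nat_lit 10700245571) (nat_lit 304) (nat_lit 904427600) (nat_lit 68) (nat_lit 5) (nat_lit 71) (nat_lit 5) (nat_lit 72) (nat_lit 5) (nat_lit 522) (nat_lit 404) (nat_lit 214)) (XT.lf (nat_lit 0) (nat_lit 923017692) (nat_lit 228) (nat_lit 3341776573) (nat_lit 304) (nat_lit 24392185159) (nat_lit 64) (nat_lit 5) (nat_lit 67) (nat_lit 5) (nat_lit 68) (nat_lit 5) (nat_lit 523) (nat_lit 404) (nat_lit 213)))) (XT.nd (nat_lit 50076) (nat_lit 0) (nat_lit 34276) (XT.nd (nat_lit 78) (nat_lit 0) (nat_lit 0) (XT.lf (nat_lit 0) (nat_lit 9624042928) (nat_lit 304) (nat_lit 15261471932) (nat_lit 76) (nat_lit 4189281961) (nat_lit 64) (nat_lit 5) (nat_lit 68) (nat_lit 5) (nat_lit 65) (nat_lit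 5) (nat_lit 524) (nat_lit 404) (nat_lit 212)) (XT.lf (nat_lit 0) (nat_lit 15106056148) (nat_lit 304) (nat_lit 2572611120) (nat_lit 76) (nat_lit 11821993562) (nat_lit 64) (nat_lit 5) (nat_lit 68) (nat_lit 5) (nat_lit 65) (nat_lit 5) (nat_lit 525) (nat_lit 404) (nat_lit 211))) (XT.nd (nat_lit 78) (nat_lit 0) (nat_lit 0) (XT.lf (nat_lit 0) (nat_lit 1852663727) (nat_lit 1292) (nat_lit 987082614) (nat_lit 1292) (nat_lit 987082614) (nat_lit 515) (nat_lit 3) (nat_lit 532) (nat_lit 3) (nat_lit 532) (nat_lit 5) (nat_lit 405) (nat_lit 405) (nat_lit 330)) (XT.lf (nat_lit 76) (nat_lit 1599693538) (nat_lit 0) (nat_lit 3462986844) (nat_lit 1292) (nat_lit 2640019897) (nat_lit 516) (nat_lit 5) (nat_lit 515) (nat_lit 3) (nat_lit 532) (nat_lit 5) (nat_lit 406) (nat_lit 405) (nat_lit 329))))) (XT.nd (nat_lit 234) (nat_lit 0) (nat_lit 0) (XT.nd (nat_lit 78) (nat_lit 1216) (nat_lit 0) (XT.lf (nat_lit 76) (nat_lit 5254019128) (nat_lit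 0) (nat_lit 1171934049) (nat_lit 1292) (nat_lit 1327223402) (nat_lit 516) (nat_lit 5) (nat_lit 515) (nat_lit 3) (nat_lit 532) (nat_lit 5) (nat_lit 407) (nat_lit 405) (nat_lit 328)) (XT.nd (nat_lit 78) (nat_lit 1292) (nat_lit 0) (XT.lf (nat_lit 76) (nat_lit 1166268554) (nat_lit 0) (nat_lit 6631666053) (nat_lit 1292) (nat_lit 7126919) (nat_lit 517) (nat_lit 5) (nat_lit 516) (nat_lit 5) (nat_lit 533) (nat_lit 5) (nat_lit 408) (nat_lit 405) (nat_lit 327)) (XT.lf (nat_lit 0) (nat_lit 1313052131) (nat_lit 1292) (nat_lit 2953920540) (nat_lit 1368) (nat_lit 3591039544) (nat_lit 499) (nat_lit 5) (nat_lit 516) (nat_lit 5) (nat_lit 517) (nat_lit 5) (nat_lit 409) (nat_lit 405) (nat_lit 326)))) (XT.nd (nat_lit 156) (nat_lit 0) (nat_lit 76) (XT.nd (nat_lit 78) (nat_lit 0) (nat_lit 76) (XT.lf (nat_lit 76) (nat_lit 796833847) (nat_lit 0) (nat_lit 1835137833) (nat_lit 1368) (nat_lit 5280627019) (nat_lit 500) (nat_lit 5) (nat_lit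 499) (nat_lit 5) (nat_lit 517) (nat_lit 5) (nat_lit 410) (nat_lit 405) (nat_lit 325)) (XT.lf (nat_lit 0) (nat_lit 3969288014) (nat_lit 1292) (nat_lit 3328418086) (nat_lit 1368) (nat_lit 670756297) (nat_lit 500) (nat_lit 5) (nat_lit 517) (nat_lit 5) (nat_lit 518) (nat_lit 5) (nat_lit 411) (nat_lit 405) (nat_lit 324))) (XT.nd (nat_lit 78) (nat_lit 0) (nat_lit 0) (XT.lf (nat_lit 76) (nat_lit 510729610) (nat_lit 0) (nat_lit 4806595017) (nat_lit 1368) (nat_lit 2708464611) (nat_lit 501) (nat_lit 5) (nat_lit 500) (nat_lit 5) (nat_lit 518) (nat_lit 5) (nat_lit 412) (nat_lit 405) (nat_lit 323)) (XT.lf (nat_lit 76) (nat_lit 4453408412) (nat_lit 0) (nat_lit 2230252013) (nat_lit 1368) (nat_lit 1400800271) (nat_lit 501) (nat_lit 5) (nat_lit 500) (nat_lit 5) (nat_lit 518) (nat_lit 5) (nat_lit 413) (nat_lit 405) (nat_lit 322)))))) (XT.nd (nat_lit 546) (nat_lit 2660) (nat_lit 0) (XT.nd (nat_lit 234) (nat_lit 0) (nat_lit 76) (XT.nd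 (nat_lit 78) (nat_lit 1368) (nat_lit 0) (XT.lf (nat_lit 76) (nat_lit 313442691) (nat_lit 0) (nat_lit 7738188102) (nat_lit 1368) (nat_lit 93212994) (nat_lit 502) (nat_lit 5) (nat_lit 501) (nat_lit 5) (nat_lit 519) (nat_lit 5) (nat_lit 414) (nat_lit 405) (nat_lit 321)) (XT.nd (nat_lit 78) (nat_lit 0) (nat_lit 0) (XT.lf (nat_lit 0) (nat_lit 1233497382) (nat_lit 1368) (nat_lit 3861906798) (nat_lit 1444) (nat_lit 3110707870) (nat_lit 483) (nat_lit 5) (nat_lit 501) (nat_lit 5) (nat_lit 502) (nat_lit 5) (nat_lit 415) (nat_lit 405) (nat_lit 320)) (XT.lf (nat_lit 76) (nat_lit 169940395) (nat_lit 0) (nat_lit 2387190882) (nat_lit 1444) (nat_lit 5712052287) (nat_lit 484) (nat_lit 5) (nat_lit 483) (nat_lit 5) (nat_lit 502) (nat_lit 5) (nat_lit 416) (nat_lit 405) (nat_lit 319)))) (XT.nd (nat_lit 156) (nat_lit 0) (nat_lit 0) (XT.nd (nat_lit 78) (nat_lit 0) (nat_lit 0) (XT.lf (nat_lit 0) (nat_lit 3906819338) (nat_lit 1368) (nat_lit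 4020028653) (nat_lit 1444) (nat_lit 406699395) (nat_lit 484) (nat_lit 5) (nat_lit 502) (nat_lit 5) (nat_lit 503) (nat_lit 5) (nat_lit 417) (nat_lit 405) (nat_lit 318)) (XT.lf (nat_lit 76) (nat_lit 107551337) (nat_lit 0) (nat_lit 5164083280) (nat_lit 1444) (nat_lit 3127823263) (nat_lit 485) (nat_lit 5) (nat_lit 484) (nat_lit 5) (nat_lit 503) (nat_lit 5) (nat_lit 418) (nat_lit 405) (nat_lit 317))) (XT.nd (nat_lit 78) (nat_lit 0) (nat_lit 76) (XT.lf (nat_lit 76) (nat_lit 4353479131) (nat_lit 0) (nat_lit 2309304498) (nat_lit 1444) (nat_lit 1803943839) (nat_lit 485) (nat_lit 5) (nat_lit 484) (nat_lit 5) (nat_lit 503) (nat_lit 5) (nat_lit 419) (nat_lit 405) (nat_lit 316)) (XT.lf (nat_lit 76) (nat_lit 127789108) (nat_lit 0) (nat_lit 7931376065) (nat_lit 1444) (nat_lit 476650294) (nat_lit 486) (nat_lit 5) (nat_lit 485) (nat_lit 5) (nat_lit 504) (nat_lit 5) (nat_lit 420) (nat_lit 405) (nat_lit 315))))) (XT.nd (nat_lit 312)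 (nat_lit 1368) (nat_lit 0) (XT.nd (nat_lit 156) (nat_lit 0) (nat_lit 76) (XT.nd (nat_lit 78) (nat_lit 0) (nat_lit 0) (XT.lf (nat_lit 0) (nat_lit 881645332) (nat_lit 1444) (nat_lit 4136714871) (nat_lit 1520) (nat_lit 3587512288) (nat_lit 466) (nat_lit 5) (nat_lit 485) (nat_lit 5) (nat_lit 486) (nat_lit 5) (nat_lit 421) (nat_lit 405) (nat_lit 314)) (XT.lf (nat_lit 76) (nat_lit 200661007) (nat_lit 0) (nat_lit 2034786465) (nat_lit 1520) (nat_lit 6442345697) (nat_lit 467) (nat_lit 5) (nat_lit 466) (nat_lit 5) (nat_lit 486) (nat_lit 5) (nat_lit 422) (nat_lit 405) (nat_lit 313))) (XT.nd (nat_lit 78) (nat_lit 0) (nat_lit 0) (XT.lf (nat_lit 0) (nat_lit 3624679082) (nat_lit 1444) (nat_lit 4095774655) (nat_lit 1520) (nat_lit 1030551048) (nat_lit 467) (nat_lit 5) (nat_lit 486) (nat_lit 5) (nat_lit 487) (nat_lit 5) (nat_lit 423) (nat_lit 405) (nat_lit 312)) (XT.lf (nat_lit 76) (nat_lit 345337455) (nat_lit 0) (nat_lit 4686450407)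 (nat_lit 1520) (nat_lit 3794110131) (nat_lit 468) (nat_lit 5) (nat_lit 467) (nat_lit 5) (nat_lit 487) (nat_lit 5) (nat_lit 424) (nat_lit 405) (nat_lit 311)))) (XT.nd (nat_lit 156) (nat_lit 1444) (nat_lit 0) (XT.nd (nat_lit 78) (nat_lit 0) (nat_lit 76) (XT.lf (nat_lit 76) (nat_lit 4911989325) (nat_lit 0) (nat_lit 1557289646) (nat_lit 1520) (nat_lit 2432984124) (nat_lit 468) (nat_lit 5) (nat_lit 467) (nat_lit 5) (nat_lit 487) (nat_lit 5) (nat_lit 425) (nat_lit 405) (nat_lit 310)) (XT.lf (nat_lit 76) (nat_lit 567664197) (nat_lit 0) (nat_lit 7357444674) (nat_lit 1520) (nat_lit 1055273312) (nat_lit 469) (nat_lit 5) (nat_lit 468) (nat_lit 5) (nat_lit 488) (nat_lit 5) (nat_lit 426) (nat_lit 405) (nat_lit 309))) (XT.nd (nat_lit 78) (nat_lit 0) (nat_lit 0) (XT.lf (nat_lit 0) (nat_lit 358143122) (nat_lit 1520) (nat_lit 3820647219) (nat_lit 1596) (nat_lit 4880990778) (nat_lit 448) (nat_lit 5) (nat_lit 468) (nat_lit 5) (nat_lit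 469) (nat_lit 5) (nat_lit 427) (nat_lit 405) (nat_lit 308)) (XT.lf (nat_lit 76) (nat_lit 848575863) (nat_lit 0) (nat_lit 918599804) (nat_lit 1596) (nat_lit 7373840702) (nat_lit 449) (nat_lit 5) (nat_lit 448) (nat_lit 5) (nat_lit 469) (nat_lit 5) (nat_lit 428) (nat_lit 405) (nat_lit 307))))))))
noncomputable def xc161 : XT := (XT.nd (nat_lit 2184) (nat_lit 8740) (nat_lit 0) (XT.nd (nat_lit 1092) (nat_lit 5320) (nat_lit 0) (XT.nd (nat_lit 546) (nat_lit 4104) (nat_lit 0) (XT.nd (nat_lit 234) (nat_lit 3344) (nat_lit 0) (XT.nd (nat_lit 78) (nat_lit 1520) (nat_lit 0) (XT.lf (nat_lit 0) (nat_lit 3222161288) (nat_lit 1520) (nat_lit 3595415788) (nat_lit 76) (nat_lit 2405960856) (nat_lit 449) (nat_lit 5) (nat_lit 469) (nat_lit 5) (nat_lit 450) (nat_lit 5) (nat_lit 429) (nat_lit 405) (nat_lit 306)) (XT.nd (nat_lit 78) (nat_lit 0) (nat_lit 0) (XT.lf (nat_lit 0) (nat_lit 1186170641) (nat_lit 1520) (nat_lit 3510662371) (nat_lit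 1596) (nat_lit 4611081911) (nat_lit 429) (nat_lit 5) (nat_lit 449) (nat_lit 5) (nat_lit 450) (nat_lit 5) (nat_lit 430) (nat_lit 405) (nat_lit 305)) (XT.lf (nat_lit 0) (nat_lit 6093397454) (nat_lit 1520) (nat_lit 108862666) (nat_lit 1596) (nat_lit 3191710488) (nat_lit 429) (nat_lit 5) (nat_lit 449) (nat_lit 5) (nat_lit 450) (nat_lit 5) (nat_lit 431) (nat_lit 405) (nat_lit 304)))) (XT.nd (nat_lit 156) (nat_lit 1748) (nat_lit 0) (XT.nd (nat_lit 78) (nat_lit 0) (nat_lit 0) (XT.lf (nat_lit 0) (nat_lit 1597296885) (nat_lit 1596) (nat_lit 6150300752) (nat_lit 1672) (nat_lit 1733969807) (nat_lit 408) (nat_lit 5) (nat_lit 429) (nat_lit 5) (nat_lit 430) (nat_lit 5) (nat_lit 432) (nat_lit 405) (nat_lit 303)) (XT.lf (nat_lit 0) (nat_lit 6618406284) (nat_lit 1596) (nat_lit 2706227330) (nat_lit 1672) (nat_lit 246282527) (nat_lit 408) (nat_lit 5) (nat_lit 429) (nat_lit 5) (nat_lit 430) (nat_lit 5) (nat_lit 433) (nat_lit 405)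 (nat_lit 302))) (XT.nd (nat_lit 78) (nat_lit 0) (nat_lit 0) (XT.lf (nat_lit 0) (nat_lit 1251583576) (nat_lit 1748) (nat_lit 7589246334) (nat_lit 76) (nat_lit 821130054) (nat_lit 385) (nat_lit 5) (nat_lit 408) (nat_lit 5) (nat_lit 386) (nat_lit 5) (nat_lit 434) (nat_lit 405) (nat_lit 301)) (XT.lf (nat_lit 0) (nat_lit 2792505862) (nat_lit 1748) (nat_lit 2554655348) (nat_lit 76) (nat_lit 4407317813) (nat_lit 385) (nat_lit 5) (nat_lit 408) (nat_lit 5) (nat_lit 386) (nat_lit 5) (nat_lit 435) (nat_lit 405) (nat_lit 300))))) (XT.nd (nat_lit 234) (nat_lit 1824) (nat_lit 0) (XT.nd (nat_lit 78) (nat_lit 836) (nat_lit 0) (XT.lf (nat_lit 0) (nat_lit 2596041355) (nat_lit 1444) (nat_lit 1764008849) (nat_lit 1520) (nat_lit 5488896743) (nat_lit 366) (nat_lit 5) (nat_lit 385) (nat_lit 5) (nat_lit 386) (nat_lit 5) (nat_lit 436) (nat_lit 405) (nat_lit 299)) (XT.nd (nat_lit 78) (nat_lit 836) (nat_lit 0) (XT.lf (nat_lit 0) (nat_lit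 5967733995) (nat_lit 1520) (nat_lit 2091925362) (nat_lit 76) (nat_lit 1885483378) (nat_lit 366) (nat_lit 5) (nat_lit 386) (nat_lit 5) (nat_lit 367) (nat_lit 5) (nat_lit 437) (nat_lit 405) (nat_lit 298)) (XT.lf (nat_lit 0) (nat_lit 3183764498) (nat_lit 836) (nat_lit 4435822579) (nat_lit 912) (nat_lit 2423449040) (nat_lit 355) (nat_lit 5) (nat_lit 366) (nat_lit 5) (nat_lit 367) (nat_lit 5) (nat_lit 438) (nat_lit 405) (nat_lit 297)))) (XT.nd (nat_lit 156) (nat_lit 836) (nat_lit 0) (XT.nd (nat_lit 78) (nat_lit 988) (nat_lit 0) (XT.lf (nat_lit 0) (nat_lit 8574863575) (nat_lit 836) (nat_lit 723592812) (nat_lit 912) (nat_lit 844565116) (nat_lit 355) (nat_lit 5) (nat_lit 366) (nat_lit 5) (nat_lit 367) (nat_lit 5) (nat_lit 439) (nat_lit 405) (nat_lit 296)) (XT.lf (nat_lit 0) (nat_lit 781172679) (nat_lit 988) (nat_lit 6408908238) (nat_lit 76) (nat_lit 3054332989) (nat_lit 342) (nat_lit 5) (nat_lit 355) (nat_lit 5) (nat_lit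 343) (nat_lit 5) (nat_lit 440) (nat_lit 405) (nat_lit 295))) (XT.nd (nat_lit 78) (nat_lit 836) (nat_lit 0) (XT.lf (nat_lit 0) (nat_lit 2423981209) (nat_lit 988) (nat_lit 1008245994) (nat_lit 76) (nat_lit 6915590938) (nat_lit 342) (nat_lit 5) (nat_lit 355) (nat_lit 5) (nat_lit 343) (nat_lit 5) (nat_lit 441) (nat_lit 405) (nat_lit 294)) (XT.lf (nat_lit 0) (nat_lit 4112788762) (nat_lit 912) (nat_lit 5914205418) (nat_lit 76) (nat_lit 426046097) (nat_lit 331) (nat_lit 5) (nat_lit 343) (nat_lit 5) (nat_lit 332) (nat_lit 5) (nat_lit 442) (nat_lit 405) (nat_lit 293)))))) (XT.nd (nat_lit 546) (nat_lit 2204) (nat_lit 0) (XT.nd (nat_lit 234) (nat_lit 1520) (nat_lit 0) (XT.nd (nat_lit 78) (nat_lit 1596) (nat_lit 0) (XT.lf (nat_lit 0) (nat_lit 5846027361) (nat_lit 912) (nat_lit 391057173) (nat_lit 76) (nat_lit 4323081648) (nat_lit 331) (nat_lit 5) (nat_lit 343) (nat_lit 5) (nat_lit 332) (nat_lit 5) (nat_lit 443) (nat_lit 405)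 (nat_lit 292)) (XT.nd (nat_lit 78) (nat_lit 760) (nat_lit 0) (XT.lf (nat_lit 0) (nat_lit 5293771808) (nat_lit 836) (nat_lit 2336014157) (nat_lit 912) (nat_lit 3039343718) (nat_lit 320) (nat_lit 5) (nat_lit 331) (nat_lit 5) (nat_lit 332) (nat_lit 5) (nat_lit 444) (nat_lit 405) (nat_lit 291)) (XT.lf (nat_lit 0) (nat_lit 292053601) (nat_lit 760) (nat_lit 9154103178) (nat_lit 836) (nat_lit 1334188878) (nat_lit 310) (nat_lit 5) (nat_lit 320) (nat_lit 5) (nat_lit 321) (nat_lit 5) (nat_lit 445) (nat_lit 405) (nat_lit 290)))) (XT.nd (nat_lit 156) (nat_lit 684) (nat_lit 0) (XT.nd (nat_lit 78) (nat_lit 760) (nat_lit 0) (XT.lf (nat_lit 0) (nat_lit 433376588) (nat_lit 836) (nat_lit 4784326976) (nat_lit 76) (nat_lit 5675368864) (nat_lit 309) (nat_lit 5) (nat_lit 320) (nat_lit 5) (nat_lit 310) (nat_lit 5) (nat_lit 446) (nat_lit 405) (nat_lit 289)) (XT.lf (nat_lit 0) (nat_lit 1020023231) (nat_lit 760) (nat_lit 1187240228) (nat_lit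 836) (nat_lit 8800848453) (nat_lit 299) (nat_lit 5) (nat_lit 309) (nat_lit 5) (nat_lit 310) (nat_lit 5) (nat_lit 447) (nat_lit 405) (nat_lit 288))) (XT.nd (nat_lit 78) (nat_lit 684) (nat_lit 0) (XT.lf (nat_lit 0) (nat_lit 4050352973) (nat_lit 836) (nat_lit 4157168166) (nat_lit 76) (nat_lit 2917267582) (nat_lit 299) (nat_lit 5) (nat_lit 310) (nat_lit 5) (nat_lit 300) (nat_lit 5) (nat_lit 448) (nat_lit 405) (nat_lit 287)) (XT.lf (nat_lit 0) (nat_lit 1787843120) (nat_lit 684) (nat_lit 4144699648) (nat_lit 760) (nat_lit 5311222344) (nat_lit 290) (nat_lit 5) (nat_lit 299) (nat_lit 5) (nat_lit 300) (nat_lit 5) (nat_lit 449) (nat_lit 405) (nat_lit 286))))) (XT.nd (nat_lit 234) (nat_lit 1368) (nat_lit 0) (XT.nd (nat_lit 78) (nat_lit 836) (nat_lit 0) (XT.lf (nat_lit 0) (nat_lit 7863436640) (nat_lit 760) (nat_lit 3474975945) (nat_lit 76) (nat_lit 26497847) (nat_lit 290) (nat_lit 5) (nat_lit 300) (nat_lit 5) (nat_lit 291)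 (nat_lit 5) (nat_lit 450) (nat_lit 405) (nat_lit 285)) (XT.nd (nat_lit 78) (nat_lit 76) (nat_lit 0) (XT.lf (nat_lit 0) (nat_lit 2614450970) (nat_lit 760) (nat_lit 7246236962) (nat_lit 836) (nat_lit 1627246331) (nat_lit 280) (nat_lit 5) (nat_lit 290) (nat_lit 5) (nat_lit 291) (nat_lit 5) (nat_lit 451) (nat_lit 405) (nat_lit 284)) (XT.lf (nat_lit 0) (nat_lit 287616678) (nat_lit 836) (nat_lit 2760273837) (nat_lit 76) (nat_lit 8565363474) (nat_lit 279) (nat_lit 5) (nat_lit 290) (nat_lit 5) (nat_lit 280) (nat_lit 5) (nat_lit 452) (nat_lit 405) (nat_lit 283)))) (XT.nd (nat_lit 156) (nat_lit 684) (nat_lit 0) (XT.nd (nat_lit 78) (nat_lit 0) (nat_lit 0) (XT.lf (nat_lit 0) (nat_lit 2233644541) (nat_lit 760) (nat_lit 8256481064) (nat_lit 76) (nat_lit 1250456053) (nat_lit 270) (nat_lit 5) (nat_lit 280) (nat_lit 5) (nat_lit 271) (nat_lit 5) (nat_lit 453) (nat_lit 405) (nat_lit 282)) (XT.lf (nat_lit 0) (nat_lit 4241351454) (nat_lit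 760) (nat_lit 2017554267) (nat_lit 76) (nat_lit 5611104595) (nat_lit 270) (nat_lit 5) (nat_lit 280) (nat_lit 5) (nat_lit 271) (nat_lit 5) (nat_lit 454) (nat_lit 405) (nat_lit 281))) (XT.nd (nat_lit 78) (nat_lit 0) (nat_lit 0) (XT.lf (nat_lit 0) (nat_lit 4386086928) (nat_lit 684) (nat_lit 1915846323) (nat_lit 760) (nat_lit 5699849296) (nat_lit 261) (nat_lit 5) (nat_lit 270) (nat_lit 5) (nat_lit 271) (nat_lit 5) (nat_lit 455) (nat_lit 405) (nat_lit 280)) (XT.lf (nat_lit 0) (nat_lit 8418104693) (nat_lit 760) (nat_lit 1224963506) (nat_lit 76) (nat_lit 2492843697) (nat_lit 261) (nat_lit 5) (nat_lit 271) (nat_lit 5) (nat_lit 262) (nat_lit 5) (nat_lit 456) (nat_lit 405) (nat_lit 279))))))) (XT.nd (nat_lit 1092) (nat_lit 3800) (nat_lit 0) (XT.nd (nat_lit 546) (nat_lit 2356) (nat_lit 0) (XT.nd (nat_lit 234) (nat_lit 1216) (nat_lit 0) (XT.nd (nat_lit 78) (nat_lit 760) (nat_lit 0) (XT.lf (nat_lit 0) (nat_lit 5333412039) (nat_lit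 608) (nat_lit 5275235120) (nat_lit 684) (nat_lit 1663444772) (nat_lit 253) (nat_lit 5) (nat_lit 261) (nat_lit 5) (nat_lit 262) (nat_lit 5) (nat_lit 457) (nat_lit 405) (nat_lit 278)) (XT.nd (nat_lit 78) (nat_lit 684) (nat_lit 0) (XT.lf (nat_lit 0) (nat_lit 419423801) (nat_lit 684) (nat_lit 391658689) (nat_lit 76) (nat_lit 11600003986) (nat_lit 252) (nat_lit 5) (nat_lit 261) (nat_lit 5) (nat_lit 253) (nat_lit 5) (nat_lit 458) (nat_lit 405) (nat_lit 277)) (XT.lf (nat_lit 0) (nat_lit 2572605308) (nat_lit 760) (nat_lit 6235482798) (nat_lit 76) (nat_lit 3743542845) (nat_lit 243) (nat_lit 5) (nat_lit 253) (nat_lit 5) (nat_lit 244) (nat_lit 5) (nat_lit 459) (nat_lit 405) (nat_lit 276)))) (XT.nd (nat_lit 156) (nat_lit 608) (nat_lit 0) (XT.nd (nat_lit 78) (nat_lit 0) (nat_lit 0) (XT.lf (nat_lit 0) (nat_lit 451662708) (nat_lit 608) (nat_lit 4313411087) (nat_lit 684) (nat_lit 7929996416) (nat_lit 235) (nat_lit 5) (nat_lit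 243) (nat_lit 5) (nat_lit 244) (nat_lit 5) (nat_lit 460) (nat_lit 405) (nat_lit 275)) (XT.lf (nat_lit 0) (nat_lit 7030705776) (nat_lit 684) (nat_lit 5503030334) (nat_lit 76) (nat_lit 307064063) (nat_lit 235) (nat_lit 5) (nat_lit 244) (nat_lit 5) (nat_lit 236) (nat_lit 5) (nat_lit 461) (nat_lit 405) (nat_lit 274))) (XT.nd (nat_lit 78) (nat_lit 0) (nat_lit 0) (XT.lf (nat_lit 0) (nat_lit 1344033609) (nat_lit 608) (nat_lit 8020627502) (nat_lit 684) (nat_lit 3624331444) (nat_lit 227) (nat_lit 5) (nat_lit 235) (nat_lit 5) (nat_lit 236) (nat_lit 5) (nat_lit 462) (nat_lit 405) (nat_lit 273)) (XT.lf (nat_lit 0) (nat_lit 8385564521) (nat_lit 608) (nat_lit 3382547185) (nat_lit 684) (nat_lit 1371588637) (nat_lit 227) (nat_lit 5) (nat_lit 235) (nat_lit 5) (nat_lit 236) (nat_lit 5) (nat_lit 463) (nat_lit 405) (nat_lit 272))))) (XT.nd (nat_lit 234) (nat_lit 1140) (nat_lit 0) (XT.nd (nat_lit 78) (nat_lit 608) (nat_lit 0) (XT.lf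 (nat_lit 0) (nat_lit 923812437) (nat_lit 608) (nat_lit 11020679652) (nat_lit 76) (nat_lit 1348622482) (nat_lit 219) (nat_lit 5) (nat_lit 227) (nat_lit 5) (nat_lit 220) (nat_lit 5) (nat_lit 464) (nat_lit 405) (nat_lit 271)) (XT.nd (nat_lit 78) (nat_lit 608) (nat_lit 0) (XT.lf (nat_lit 0) (nat_lit 3287497789) (nat_lit 608) (nat_lit 3993753108) (nat_lit 76) (nat_lit 6167357453) (nat_lit 219) (nat_lit 5) (nat_lit 227) (nat_lit 5) (nat_lit 220) (nat_lit 5) (nat_lit 465) (nat_lit 405) (nat_lit 270)) (XT.lf (nat_lit 0) (nat_lit 3198922191) (nat_lit 608) (nat_lit 2506784233) (nat_lit 684) (nat_lit 7901367868) (nat_lit 211) (nat_lit 5) (nat_lit 219) (nat_lit 5) (nat_lit 220) (nat_lit 5) (nat_lit 466) (nat_lit 405) (nat_lit 269)))) (XT.nd (nat_lit 156) (nat_lit 608) (nat_lit 0) (XT.nd (nat_lit 78) (nat_lit 532) (nat_lit 0) (XT.lf (nat_lit 0) (nat_lit 8201216093) (nat_lit 684) (nat_lit 3210994151) (nat_lit 76) (nat_lit 2355927708)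 (nat_lit 211) (nat_lit 5) (nat_lit 220) (nat_lit 5) (nat_lit 212) (nat_lit 5) (nat_lit 467) (nat_lit 405) (nat_lit 268)) (XT.lf (nat_lit 0) (nat_lit 4151395954) (nat_lit 532) (nat_lit 6625673182) (nat_lit 608) (nat_lit 3154752083) (nat_lit 204) (nat_lit 5) (nat_lit 211) (nat_lit 5) (nat_lit 212) (nat_lit 5) (nat_lit 468) (nat_lit 405) (nat_lit 267))) (XT.nd (nat_lit 78) (nat_lit 608) (nat_lit 0) (XT.lf (nat_lit 0) (nat_lit 11688112567) (nat_lit 532) (nat_lit 1724902981) (nat_lit 608) (nat_lit 685597938) (nat_lit 204) (nat_lit 5) (nat_lit 211) (nat_lit 5) (nat_lit 212) (nat_lit 5) (nat_lit 469) (nat_lit 405) (nat_lit 266)) (XT.lf (nat_lit 0) (nat_lit 1851037879) (nat_lit 608) (nat_lit 9143519743) (nat_lit 76) (nat_lit 3273109797) (nat_lit 196) (nat_lit 5) (nat_lit 204) (nat_lit 5) (nat_lit 197) (nat_lit 5) (nat_lit 470) (nat_lit 405) (nat_lit 265)))))) (XT.nd (nat_lit 546) (nat_lit 1824) (nat_lit 0) (XT.nd (nat_lit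 234) (nat_lit 1520) (nat_lit 0) (XT.nd (nat_lit 78) (nat_lit 456) (nat_lit 0) (XT.lf (nat_lit 0) (nat_lit 4444256270) (nat_lit 608) (nat_lit 1630116393) (nat_lit 76) (nat_lit 8365344996) (nat_lit 196) (nat_lit 5) (nat_lit 204) (nat_lit 5) (nat_lit 197) (nat_lit 5) (nat_lit 471) (nat_lit 405) (nat_lit 264)) (XT.nd (nat_lit 78) (nat_lit 0) (nat_lit 0) (XT.lf (nat_lit 0) (nat_lit 6097414904) (nat_lit 456) (nat_lit 1019076684) (nat_lit 532) (nat_lit 7498180601) (nat_lit 190) (nat_lit 5) (nat_lit 196) (nat_lit 5) (nat_lit 197) (nat_lit 5) (nat_lit 472) (nat_lit 405) (nat_lit 263)) (XT.lf (nat_lit 0) (nat_lit 9867725227) (nat_lit 532) (nat_lit 834479150) (nat_lit 76) (nat_lit 4090416575) (nat_lit 190) (nat_lit 5) (nat_lit 197) (nat_lit 5) (nat_lit 191) (nat_lit 5) (nat_lit 473) (nat_lit 405) (nat_lit 262)))) (XT.nd (nat_lit 156) (nat_lit 912) (nat_lit 0) (XT.nd (nat_lit 78) (nat_lit 76) (nat_lit 0) (XT.lf (nat_lit 0)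 (nat_lit 7072044182) (nat_lit 532) (nat_lit 5642526149) (nat_lit 608) (nat_lit 2258752714) (nat_lit 183) (nat_lit 5) (nat_lit 190) (nat_lit 5) (nat_lit 191) (nat_lit 5) (nat_lit 474) (nat_lit 405) (nat_lit 261)) (XT.lf (nat_lit 0) (nat_lit 448278442) (nat_lit 608) (nat_lit 28519633) (nat_lit 76) (nat_lit 14680914982) (nat_lit 182) (nat_lit 5) (nat_lit 190) (nat_lit 5) (nat_lit 183) (nat_lit 5) (nat_lit 475) (nat_lit 405) (nat_lit 260))) (XT.nd (nat_lit 78) (nat_lit 456) (nat_lit 0) (XT.lf (nat_lit 0) (nat_lit 3251417372) (nat_lit 532) (nat_lit 7299213070) (nat_lit 76) (nat_lit 4793423323) (nat_lit 176) (nat_lit 5) (nat_lit 183) (nat_lit 5) (nat_lit 177) (nat_lit 5) (nat_lit 476) (nat_lit 405) (nat_lit 259)) (XT.lf (nat_lit 0) (nat_lit 736668995) (nat_lit 456) (nat_lit 5370394840) (nat_lit 532) (nat_lit 9427134184) (nat_lit 170) (nat_lit 5) (nat_lit 176) (nat_lit 5) (nat_lit 177) (nat_lit 5) (nat_lit 477) (nat_lit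 405) (nat_lit 258))))) (XT.nd (nat_lit 312) (nat_lit 836) (nat_lit 0) (XT.nd (nat_lit 156) (nat_lit 532) (nat_lit 0) (XT.nd (nat_lit 78) (nat_lit 456) (nat_lit 0) (XT.lf (nat_lit 0) (nat_lit 9016544172) (nat_lit 456) (nat_lit 40699641) (nat_lit 532) (nat_lit 6670158452) (nat_lit 170) (nat_lit 5) (nat_lit 176) (nat_lit 5) (nat_lit 177) (nat_lit 5) (nat_lit 478) (nat_lit 405) (nat_lit 257)) (XT.lf (nat_lit 0) (nat_lit 1506709233) (nat_lit 456) (nat_lit 10593172027) (nat_lit 532) (nat_lit 3823925666) (nat_lit 164) (nat_lit 5) (nat_lit 170) (nat_lit 5) (nat_lit 171) (nat_lit 5) (nat_lit 479) (nat_lit 405) (nat_lit 256))) (XT.nd (nat_lit 78) (nat_lit 532) (nat_lit 0) (XT.lf (nat_lit 0) (nat_lit 9963858606) (nat_lit 456) (nat_lit 5273575925) (nat_lit 532) (nat_lit 886029191) (nat_lit 164) (nat_lit 5) (nat_lit 170) (nat_lit 5) (nat_lit 171) (nat_lit 5) (nat_lit 480) (nat_lit 405) (nat_lit 255)) (XT.lf (nat_lit 0) (nat_lit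 2087695936) (nat_lit 532) (nat_lit 14064213197) (nat_lit 76) (nat_lit 174840506) (nat_lit 157) (nat_lit 5) (nat_lit 164) (nat_lit 5) (nat_lit 158) (nat_lit 5) (nat_lit 481) (nat_lit 405) (nat_lit 254)))) (XT.nd (nat_lit 156) (nat_lit 456) (nat_lit 0) (XT.nd (nat_lit 78) (nat_lit 380) (nat_lit 0) (XT.lf (nat_lit 0) (nat_lit 5174570480) (nat_lit 532) (nat_lit 5653133788) (nat_lit 76) (nat_lit 5704974095) (nat_lit 157) (nat_lit 5) (nat_lit 164) (nat_lit 5) (nat_lit 158) (nat_lit 5) (nat_lit 482) (nat_lit 405) (nat_lit 253)) (XT.lf (nat_lit 0) (nat_lit 2949746534) (nat_lit 380) (nat_lit 5381798948) (nat_lit 456) (nat_lit 8411017819) (nat_lit 152) (nat_lit 5) (nat_lit 157) (nat_lit 5) (nat_lit 158) (nat_lit 5) (nat_lit 483) (nat_lit 405) (nat_lit 252))) (XT.nd (nat_lit 78) (nat_lit 456) (nat_lit 0) (XT.lf (nat_lit 0) (nat_lit 11580267332) (nat_lit 456) (nat_lit 5171145572) (nat_lit 76) (nat_lit 204665689) (nat_lit 152)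 (nat_lit 5) (nat_lit 158) (nat_lit 5) (nat_lit 153) (nat_lit 5) (nat_lit 484) (nat_lit 405) (nat_lit 251)) (XT.lf (nat_lit 0) (nat_lit 3619893643) (nat_lit 456) (nat_lit 11322720863) (nat_lit 532) (nat_lit 2230281376) (nat_lit 146) (nat_lit 5) (nat_lit 152) (nat_lit 5) (nat_lit 153) (nat_lit 5) (nat_lit 485) (nat_lit 405) (nat_lit 250))))))))
noncomputable def xc162 : XT := (XT.nd (nat_lit 2184) (nat_lit 1292) (nat_lit 0) (XT.nd (nat_lit 1092) (nat_lit 2204) (nat_lit 0) (XT.nd (nat_lit 546) (nat_lit 1444) (nat_lit 0) (XT.nd (nat_lit 234) (nat_lit 836) (nat_lit 0) (XT.nd (nat_lit 78) (nat_lit 380) (nat_lit 0) (XT.lf (nat_lit 0) (nat_lit 989804696) (nat_lit 532) (nat_lit 4758031649) (nat_lit 76) (nat_lit 11645601194) (nat_lit 145) (nat_lit 5) (nat_lit 152) (nat_lit 5) (nat_lit 146) (nat_lit 5) (nat_lit 486) (nat_lit 405) (nat_lit 249)) (XT.nd (nat_lit 78) (nat_lit 0) (nat_lit 0) (XT.lf (nat_lit 0) (nat_lit 4239011350)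 (nat_lit 380) (nat_lit 22716498) (nat_lit 456) (nat_lit 13356025799) (nat_lit 140) (nat_lit 5) (nat_lit 145) (nat_lit 5) (nat_lit 146) (nat_lit 5) (nat_lit 487) (nat_lit 405) (nat_lit 248)) (XT.lf (nat_lit 0) (nat_lit 7658823324) (nat_lit 456) (nat_lit 4418139118) (nat_lit 76) (nat_lit 5768403309) (nat_lit 140) (nat_lit 5) (nat_lit 146) (nat_lit 5) (nat_lit 141) (nat_lit 5) (nat_lit 488) (nat_lit 405) (nat_lit 247)))) (XT.nd (nat_lit 156) (nat_lit 456) (nat_lit 0) (XT.nd (nat_lit 78) (nat_lit 0) (nat_lit 0) (XT.lf (nat_lit 0) (nat_lit 4769634674) (nat_lit 380) (nat_lit 6375369893) (nat_lit 456) (nat_lit 6932106916) (nat_lit 135) (nat_lit 5) (nat_lit 140) (nat_lit 5) (nat_lit 141) (nat_lit 5) (nat_lit 489) (nat_lit 405) (nat_lit 246)) (XT.lf (nat_lit 0) (nat_lit 14186702391) (nat_lit 380) (nat_lit 533983270) (nat_lit 456) (nat_lit 3592415126) (nat_lit 135) (nat_lit 5) (nat_lit 140) (nat_lit 5) (nat_lit 141) (nat_lit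 5) (nat_lit 490) (nat_lit 405) (nat_lit 245))) (XT.nd (nat_lit 78) (nat_lit 76) (nat_lit 0) (XT.lf (nat_lit 0) (nat_lit 5257802543) (nat_lit 380) (nat_lit 13169725923) (nat_lit 456) (nat_lit 125092548) (nat_lit 130) (nat_lit 5) (nat_lit 135) (nat_lit 5) (nat_lit 136) (nat_lit 5) (nat_lit 491) (nat_lit 405) (nat_lit 244)) (XT.lf (nat_lit 0) (nat_lit 3388567176) (nat_lit 456) (nat_lit 3950903048) (nat_lit 76) (nat_lit 11456587677) (nat_lit 129) (nat_lit 5) (nat_lit 135) (nat_lit 5) (nat_lit 130) (nat_lit 5) (nat_lit 492) (nat_lit 405) (nat_lit 243))))) (XT.nd (nat_lit 234) (nat_lit 760) (nat_lit 0) (XT.nd (nat_lit 78) (nat_lit 304) (nat_lit 0) (XT.lf (nat_lit 0) (nat_lit 5639021772) (nat_lit 380) (nat_lit 1358931028) (nat_lit 456) (nat_lit 12045855494) (nat_lit 124) (nat_lit 5) (nat_lit 129) (nat_lit 5) (nat_lit 130) (nat_lit 5) (nat_lit 493) (nat_lit 405) (nat_lit 242)) (XT.nd (nat_lit 78) (nat_lit 304) (nat_lit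 0) (XT.lf (nat_lit 0) (nat_lit 10727577764) (nat_lit 456) (nat_lit 3866709008) (nat_lit 76) (nat_lit 4701269679) (nat_lit 124) (nat_lit 5) (nat_lit 130) (nat_lit 5) (nat_lit 125) (nat_lit 5) (nat_lit 494) (nat_lit 405) (nat_lit 241)) (XT.lf (nat_lit 0) (nat_lit 5916940621) (nat_lit 304) (nat_lit 8653035820) (nat_lit 380) (nat_lit 4981603219) (nat_lit 120) (nat_lit 5) (nat_lit 124) (nat_lit 5) (nat_lit 125) (nat_lit 5) (nat_lit 495) (nat_lit 405) (nat_lit 240)))) (XT.nd (nat_lit 156) (nat_lit 304) (nat_lit 0) (XT.nd (nat_lit 78) (nat_lit 456) (nat_lit 0) (XT.lf (nat_lit 0) (nat_lit 15934976605) (nat_lit 304) (nat_lit 2571051233) (nat_lit 380) (nat_lit 1306363040) (nat_lit 120) (nat_lit 5) (nat_lit 124) (nat_lit 5) (nat_lit 125) (nat_lit 5) (nat_lit 496) (nat_lit 405) (nat_lit 239)) (XT.lf (nat_lit 0) (nat_lit 2465020528) (nat_lit 456) (nat_lit 13975530035) (nat_lit 76) (nat_lit 3636460688) (nat_lit 114) (nat_lit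 5) (nat_lit 120) (nat_lit 5) (nat_lit 115) (nat_lit 5) (nat_lit 497) (nat_lit 405) (nat_lit 238))) (XT.nd (nat_lit 78) (nat_lit 304) (nat_lit 0) (XT.lf (nat_lit 0) (nat_lit 6328608182) (nat_lit 456) (nat_lit 4053359496) (nat_lit 76) (nat_lit 9964101709) (nat_lit 114) (nat_lit 5) (nat_lit 120) (nat_lit 5) (nat_lit 115) (nat_lit 5) (nat_lit 498) (nat_lit 405) (nat_lit 237)) (XT.lf (nat_lit 0) (nat_lit 6134355386) (nat_lit 304) (nat_lit 4166149948) (nat_lit 380) (nat_lit 10319385960) (nat_lit 110) (nat_lit 5) (nat_lit 114) (nat_lit 5) (nat_lit 115) (nat_lit 5) (nat_lit 499) (nat_lit 405) (nat_lit 236)))))) (XT.nd (nat_lit 546) (nat_lit 1216) (nat_lit 0) (XT.nd (nat_lit 234) (nat_lit 608) (nat_lit 0) (XT.nd (nat_lit 78) (nat_lit 380) (nat_lit 0) (XT.lf (nat_lit 0) (nat_lit 14384601762) (nat_lit 380) (nat_lit 4345583971) (nat_lit 76) (nat_lit 2168351976) (nat_lit 110) (nat_lit 5) (nat_lit 115) (nat_lit 5) (nat_lit 111)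 (nat_lit 5) (nat_lit 500) (nat_lit 405) (nat_lit 235)) (XT.nd (nat_lit 78) (nat_lit 76) (nat_lit 0) (XT.lf (nat_lit 0) (nat_lit 6035585202) (nat_lit 304) (nat_lit 12573009665) (nat_lit 380) (nat_lit 2573001124) (nat_lit 106) (nat_lit 5) (nat_lit 110) (nat_lit 5) (nat_lit 111) (nat_lit 5) (nat_lit 501) (nat_lit 405) (nat_lit 234)) (XT.lf (nat_lit 0) (nat_lit 1448593383) (nat_lit 380) (nat_lit 4809214584) (nat_lit 76) (nat_lit 15211906403) (nat_lit 105) (nat_lit 5) (nat_lit 110) (nat_lit 5) (nat_lit 106) (nat_lit 5) (nat_lit 502) (nat_lit 405) (nat_lit 233)))) (XT.nd (nat_lit 156) (nat_lit 304) (nat_lit 0) (XT.nd (nat_lit 78) (nat_lit 0) (nat_lit 0) (XT.lf (nat_lit 0) (nat_lit 5546881255) (nat_lit 380) (nat_lit 15984033901) (nat_lit 76) (nat_lit 231728577) (nat_lit 101) (nat_lit 5) (nat_lit 106) (nat_lit 5) (nat_lit 102) (nat_lit 5) (nat_lit 503) (nat_lit 405) (nat_lit 232)) (XT.lf (nat_lit 0) (nat_lit 9792743262)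 (nat_lit 380) (nat_lit 5472036623) (nat_lit 76) (nat_lit 6795342617) (nat_lit 101) (nat_lit 5) (nat_lit 106) (nat_lit 5) (nat_lit 102) (nat_lit 5) (nat_lit 504) (nat_lit 405) (nat_lit 231))) (XT.nd (nat_lit 78) (nat_lit 0) (nat_lit 0) (XT.lf (nat_lit 0) (nat_lit 5307083233) (nat_lit 304) (nat_lit 8842739375) (nat_lit 380) (nat_lit 8213205164) (nat_lit 97) (nat_lit 5) (nat_lit 101) (nat_lit 5) (nat_lit 102) (nat_lit 5) (nat_lit 505) (nat_lit 405) (nat_lit 230)) (XT.lf (nat_lit 0) (nat_lit 16363323355) (nat_lit 304) (nat_lit 2259361322) (nat_lit 380) (nat_lit 4048736518) (nat_lit 97) (nat_lit 5) (nat_lit 101) (nat_lit 5) (nat_lit 102) (nat_lit 5) (nat_lit 506) (nat_lit 405) (nat_lit 229))))) (XT.nd (nat_lit 234) (nat_lit 608) (nat_lit 0) (XT.nd (nat_lit 78) (nat_lit 304) (nat_lit 0) (XT.lf (nat_lit 0) (nat_lit 248078363) (nat_lit 304) (nat_lit 18312027991) (nat_lit 76) (nat_lit 4424819706) (nat_lit 93) (nat_lit 5)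 (nat_lit 97) (nat_lit 5) (nat_lit 94) (nat_lit 5) (nat_lit 507) (nat_lit 405) (nat_lit 228)) (XT.nd (nat_lit 78) (nat_lit 304) (nat_lit 0) (XT.lf (nat_lit 0) (nat_lit 4626311819) (nat_lit 304) (nat_lit 7399435566) (nat_lit 76) (nat_lit 11277427202) (nat_lit 93) (nat_lit 5) (nat_lit 97) (nat_lit 5) (nat_lit 94) (nat_lit 5) (nat_lit 508) (nat_lit 405) (nat_lit 227)) (XT.lf (nat_lit 0) (nat_lit 3768532547) (nat_lit 304) (nat_lit 5340271221) (nat_lit 380) (nat_lit 14518653092) (nat_lit 89) (nat_lit 5) (nat_lit 93) (nat_lit 5) (nat_lit 94) (nat_lit 5) (nat_lit 509) (nat_lit 405) (nat_lit 226)))) (XT.nd (nat_lit 156) (nat_lit 380) (nat_lit 0) (XT.nd (nat_lit 78) (nat_lit 228) (nat_lit 0) (XT.lf (nat_lit 0) (nat_lit 13732800351) (nat_lit 380) (nat_lit 8719348793) (nat_lit 76) (nat_lit 1505041137) (nat_lit 89) (nat_lit 5) (nat_lit 94) (nat_lit 5) (nat_lit 90) (nat_lit 5) (nat_lit 510) (nat_lit 405) (nat_lit 225)) (XT.lf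 (nat_lit 0) (nat_lit 2630040272) (nat_lit 228) (nat_lit 15864099925) (nat_lit 304) (nat_lit 5798483456) (nat_lit 86) (nat_lit 5) (nat_lit 89) (nat_lit 5) (nat_lit 90) (nat_lit 5) (nat_lit 511) (nat_lit 405) (nat_lit 224))) (XT.nd (nat_lit 78) (nat_lit 380) (nat_lit 0) (XT.lf (nat_lit 0) (nat_lit 14312584448) (nat_lit 228) (nat_lit 9089125666) (nat_lit 304) (nat_lit 1232038011) (nat_lit 86) (nat_lit 5) (nat_lit 89) (nat_lit 5) (nat_lit 90) (nat_lit 5) (nat_lit 512) (nat_lit 405) (nat_lit 223)) (XT.lf (nat_lit 0) (nat_lit 1229070906) (nat_lit 304) (nat_lit 2152304138) (nat_lit 380) (nat_lit 21599866244) (nat_lit 81) (nat_lit 5) (nat_lit 85) (nat_lit 5) (nat_lit 86) (nat_lit 5) (nat_lit 513) (nat_lit 405) (nat_lit 222))))))) (XT.nd (nat_lit 51090) (nat_lit 0) (nat_lit 30476) (XT.nd (nat_lit 546) (nat_lit 532) (nat_lit 0) (XT.nd (nat_lit 234) (nat_lit 532) (nat_lit 0) (XT.nd (nat_lit 78) (nat_lit 228) (nat_lit 0) (XT.lf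 (nat_lit 0) (nat_lit 8164886472) (nat_lit 380) (nat_lit 12236598557) (nat_lit 76) (nat_lit 4932152223) (nat_lit 81) (nat_lit 5) (nat_lit 86) (nat_lit 5) (nat_lit 82) (nat_lit 5) (nat_lit 514) (nat_lit 405) (nat_lit 221)) (XT.nd (nat_lit 78) (nat_lit 228) (nat_lit 0) (XT.lf (nat_lit 0) (nat_lit 13051093887) (nat_lit 380) (nat_lit 516667810) (nat_lit 76) (nat_lit 12125181231) (nat_lit 81) (nat_lit 5) (nat_lit 86) (nat_lit 5) (nat_lit 82) (nat_lit 5) (nat_lit 515) (nat_lit 405) (nat_lit 220)) (XT.lf (nat_lit 0) (nat_lit 11578040173) (nat_lit 228) (nat_lit 6525071406) (nat_lit 304) (nat_lit 7954963680) (nat_lit 78) (nat_lit 5) (nat_lit 81) (nat_lit 5) (nat_lit 82) (nat_lit 5) (nat_lit 516) (nat_lit 405) (nat_lit 219)))) (XT.nd (nat_lit 156) (nat_lit 228) (nat_lit 0) (XT.nd (nat_lit 78) (nat_lit 304) (nat_lit 0) (XT.lf (nat_lit 0) (nat_lit 23256885329) (nat_lit 304) (nat_lit 2524601464) (nat_lit 76) (nat_lit 649011347)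 (nat_lit 78) (nat_lit 5) (nat_lit 82) (nat_lit 5) (nat_lit 79) (nat_lit 5) (nat_lit 517) (nat_lit 405) (nat_lit 218)) (XT.lf (nat_lit 0) (nat_lit 1781242851) (nat_lit 304) (nat_lit 17076869096) (nat_lit 76) (nat_lit 7950034123) (nat_lit 74) (nat_lit 5) (nat_lit 78) (nat_lit 5) (nat_lit 75) (nat_lit 5) (nat_lit 518) (nat_lit 405) (nat_lit 217))) (XT.nd (nat_lit 78) (nat_lit 228) (nat_lit 0) (XT.lf (nat_lit 0) (nat_lit 6802898176) (nat_lit 304) (nat_lit 4958945118) (nat_lit 76) (nat_lit 15430882259) (nat_lit 74) (nat_lit 5) (nat_lit 78) (nat_lit 5) (nat_lit 75) (nat_lit 5) (nat_lit 519) (nat_lit 405) (nat_lit 216)) (XT.lf (nat_lit 0) (nat_lit 7488469463) (nat_lit 228) (nat_lit 4478376373) (nat_lit 304) (nat_lit 15617315654) (nat_lit 71) (nat_lit 5) (nat_lit 74) (nat_lit 5) (nat_lit 75) (nat_lit 5) (nat_lit 520) (nat_lit 405) (nat_lit 215))))) (XT.nd (nat_lit 234) (nat_lit 304) (nat_lit 0) (XT.nd (nat_lit 78) (nat_lit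 228) (nat_lit 0) (XT.lf (nat_lit 0) (nat_lit 17280000500) (nat_lit 304) (nat_lit 7761202767) (nat_lit 76) (nat_lit 2941306329) (nat_lit 71) (nat_lit 5) (nat_lit 75) (nat_lit 5) (nat_lit 72) (nat_lit 5) (nat_lit 521) (nat_lit 405) (nat_lit 214)) (XT.nd (nat_lit 78) (nat_lit 0) (nat_lit 0) (XT.lf (nat_lit 0) (nat_lit 4842936457) (nat_lit 228) (nat_lit 17910987641) (nat_lit 304) (nat_lit 5633812419) (nat_lit 68) (nat_lit 5) (nat_lit 71) (nat_lit 5) (nat_lit 72) (nat_lit 5) (nat_lit 522) (nat_lit 405) (nat_lit 213)) (XT.lf (nat_lit 0) (nat_lit 17793537623) (nat_lit 228) (nat_lit 10589333505) (nat_lit 304) (nat_lit 417287879) (nat_lit 68) (nat_lit 5) (nat_lit 71) (nat_lit 5) (nat_lit 72) (nat_lit 5) (nat_lit 523) (nat_lit 405) (nat_lit 212)))) (XT.nd (nat_lit 50154) (nat_lit 0) (nat_lit 34276) (XT.nd (nat_lit 78) (nat_lit 0) (nat_lit 0) (XT.lf (nat_lit 0) (nat_lit 1762903118) (nat_lit 228) (nat_lit 3081345870) (nat_lit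 304) (nat_lit 24375846212) (nat_lit 64) (nat_lit 5) (nat_lit 67) (nat_lit 5) (nat_lit 68) (nat_lit 5) (nat_lit 524) (nat_lit 405) (nat_lit 211)) (XT.lf (nat_lit 0) (nat_lit 10303076401) (nat_lit 304) (nat_lit 14753638571) (nat_lit 76) (nat_lit 4589708854) (nat_lit 64) (nat_lit 5) (nat_lit 68) (nat_lit 5) (nat_lit 65) (nat_lit 5) (nat_lit 525) (nat_lit 405) (nat_lit 210))) (XT.nd (nat_lit 78) (nat_lit 0) (nat_lit 0) (XT.lf (nat_lit 0) (nat_lit 3191125557) (nat_lit 1292) (nat_lit 342565326) (nat_lit 1292) (nat_lit 342565326) (nat_lit 515) (nat_lit 3) (nat_lit 532) (nat_lit 3) (nat_lit 532) (nat_lit 5) (nat_lit 406) (nat_lit 406) (nat_lit 328)) (XT.lf (nat_lit 76) (nat_lit 2951465041) (nat_lit 0) (nat_lit 4772819301) (nat_lit 1292) (nat_lit 79143023) (nat_lit 516) (nat_lit 5) (nat_lit 515) (nat_lit 3) (nat_lit 532) (nat_lit 5) (nat_lit 407) (nat_lit 406) (nat_lit 327)))))) (XT.nd (nat_lit 546) (nat_lit 1292) (nat_lit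 0) (XT.nd (nat_lit 234) (nat_lit 1216) (nat_lit 0) (XT.nd (nat_lit 78) (nat_lit 0) (nat_lit 76) (XT.lf (nat_lit 0) (nat_lit 1192809023) (nat_lit 1292) (nat_lit 1210807095) (nat_lit 1368) (nat_lit 5452185751) (nat_lit 498) (nat_lit 5) (nat_lit 515) (nat_lit 3) (nat_lit 516) (nat_lit 5) (nat_lit 408) (nat_lit 406) (nat_lit 326)) (XT.nd (nat_lit 78) (nat_lit 0) (nat_lit 0) (XT.lf (nat_lit 0) (nat_lit 2473061571) (nat_lit 1292) (nat_lit 5391393751) (nat_lit 1368) (nat_lit 45106025) (nat_lit 499) (nat_lit 5) (nat_lit 516) (nat_lit 5) (nat_lit 517) (nat_lit 5) (nat_lit 409) (nat_lit 406) (nat_lit 325)) (XT.lf (nat_lit 0) (nat_lit 3770916790) (nat_lit 1292) (nat_lit 1659932398) (nat_lit 1368) (nat_lit 2533732727) (nat_lit 499) (nat_lit 5) (nat_lit 516) (nat_lit 5) (nat_lit 517) (nat_lit 5) (nat_lit 410) (nat_lit 406) (nat_lit 324)))) (XT.nd (nat_lit 156) (nat_lit 1292) (nat_lit 0) (XT.nd (nat_lit 78) (nat_lit 0) (nat_lit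 0) (XT.lf (nat_lit 76) (nat_lit 2156935323) (nat_lit 0) (nat_lit 2920328115) (nat_lit 1368) (nat_lit 2943814118) (nat_lit 500) (nat_lit 5) (nat_lit 499) (nat_lit 5) (nat_lit 517) (nat_lit 5) (nat_lit 411) (nat_lit 406) (nat_lit 323)) (XT.lf (nat_lit 76) (nat_lit 6055244975) (nat_lit 0) (nat_lit 334665243) (nat_lit 1368) (nat_lit 1689214276) (nat_lit 500) (nat_lit 5) (nat_lit 499) (nat_lit 5) (nat_lit 517) (nat_lit 5) (nat_lit 412) (nat_lit 406) (nat_lit 322))) (XT.nd (nat_lit 78) (nat_lit 1368) (nat_lit 0) (XT.lf (nat_lit 76) (nat_lit 1885189264) (nat_lit 0) (nat_lit 5840539024) (nat_lit 1368) (nat_lit 412690080) (nat_lit 501) (nat_lit 5) (nat_lit 500) (nat_lit 5) (nat_lit 518) (nat_lit 5) (nat_lit 413) (nat_lit 406) (nat_lit 321)) (XT.lf (nat_lit 0) (nat_lit 863573775) (nat_lit 1368) (nat_lit 2324911877) (nat_lit 1444) (nat_lit 5010602928) (nat_lit 482) (nat_lit 5) (nat_lit 500) (nat_lit 5) (nat_lit 501) (nat_lit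 5) (nat_lit 414) (nat_lit 406) (nat_lit 320))))) (XT.nd (nat_lit 312) (nat_lit 1292) (nat_lit 0) (XT.nd (nat_lit 156) (nat_lit 0) (nat_lit 76) (XT.nd (nat_lit 78) (nat_lit 0) (nat_lit 76) (XT.lf (nat_lit 76) (nat_lit 1683595368) (nat_lit 0) (nat_lit 457752106) (nat_lit 1444) (nat_lit 6119962914) (nat_lit 483) (nat_lit 5) (nat_lit 482) (nat_lit 5) (nat_lit 501) (nat_lit 5) (nat_lit 415) (nat_lit 406) (nat_lit 319)) (XT.lf (nat_lit 0) (nat_lit 3446604333) (nat_lit 1368) (nat_lit 2554175499) (nat_lit 1444) (nat_lit 2323980752) (nat_lit 483) (nat_lit 5) (nat_lit 501) (nat_lit 5) (nat_lit 502) (nat_lit 5) (nat_lit 416) (nat_lit 406) (nat_lit 318))) (XT.nd (nat_lit 78) (nat_lit 0) (nat_lit 0) (XT.lf (nat_lit 76) (nat_lit 1549196998) (nat_lit 0) (nat_lit 3213536360) (nat_lit 1444) (nat_lit 3627073151) (nat_lit 484) (nat_lit 5) (nat_lit 483) (nat_lit 5) (nat_lit 502) (nat_lit 5) (nat_lit 417) (nat_lit 406) (nat_lit 317))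 (XT.lf (nat_lit 76) (nat_lit 5751453050) (nat_lit 0) (nat_lit 342988659) (nat_lit 1444) (nat_lit 2361948143) (nat_lit 484) (nat_lit 5) (nat_lit 483) (nat_lit 5) (nat_lit 502) (nat_lit 5) (nat_lit 418) (nat_lit 406) (nat_lit 316)))) (XT.nd (nat_lit 156) (nat_lit 0) (nat_lit 0) (XT.nd (nat_lit 78) (nat_lit 1444) (nat_lit 0) (XT.lf (nat_lit 76) (nat_lit 1498226175) (nat_lit 0) (nat_lit 5953796622) (nat_lit 1444) (nat_lit 1072318502) (nat_lit 485) (nat_lit 5) (nat_lit 484) (nat_lit 5) (nat_lit 503) (nat_lit 5) (nat_lit 419) (nat_lit 406) (nat_lit 315)) (XT.lf (nat_lit 0) (nat_lit 233406053) (nat_lit 1444) (nat_lit 2793490489) (nat_lit 1520) (nat_lit 5566874236) (nat_lit 465) (nat_lit 5) (nat_lit 484) (nat_lit 5) (nat_lit 485) (nat_lit 5) (nat_lit 420) (nat_lit 406) (nat_lit 314))) (XT.nd (nat_lit 78) (nat_lit 0) (nat_lit 76) (XT.lf (nat_lit 76) (nat_lit 1518611623) (nat_lit 0) (nat_lit 15626293) (nat_lit 1520) (nat_lit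 7130562133) (nat_lit 466) (nat_lit 5) (nat_lit 465) (nat_lit 5) (nat_lit 485) (nat_lit 5) (nat_lit 421) (nat_lit 406) (nat_lit 313)) (XT.lf (nat_lit 0) (nat_lit 2873732533) (nat_lit 1444) (nat_lit 2820485157) (nat_lit 1520) (nat_lit 3042798887) (nat_lit 466) (nat_lit 5) (nat_lit 485) (nat_lit 5) (nat_lit 486) (nat_lit 5) (nat_lit 422) (nat_lit 406) (nat_lit 312))))))))
noncomputable def xc163 : XT := (XT.nd (nat_lit 2184) (nat_lit 9120) (nat_lit 0) (XT.nd (nat_lit 1092) (nat_lit 7220) (nat_lit 0) (XT.nd (nat_lit 546) (nat_lit 4788) (nat_lit 0) (XT.nd (nat_lit 234) (nat_lit 1368) (nat_lit 0) (XT.nd (nat_lit 78) (nat_lit 0) (nat_lit 76) (XT.lf (nat_lit 76) (nat_lit 1594434528) (nat_lit 0) (nat_lit 2630484643) (nat_lit 1520) (nat_lit 4586079432) (nat_lit 467) (nat_lit 5) (nat_lit 466) (nat_lit 5) (nat_lit 486) (nat_lit 5) (nat_lit 423) (nat_lit 406) (nat_lit 311)) (XT.nd (nat_lit 78) (nat_lit 0) (nat_lit 0) (XT.lf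 (nat_lit 0) (nat_lit 5600270023) (nat_lit 1444) (nat_lit 2772088018) (nat_lit 1520) (nat_lit 514178253) (nat_lit 467) (nat_lit 5) (nat_lit 486) (nat_lit 5) (nat_lit 487) (nat_lit 5) (nat_lit 424) (nat_lit 406) (nat_lit 310)) (XT.lf (nat_lit 76) (nat_lit 1748598952) (nat_lit 0) (nat_lit 5258672453) (nat_lit 1520) (nat_lit 1956248925) (nat_lit 468) (nat_lit 5) (nat_lit 467) (nat_lit 5) (nat_lit 487) (nat_lit 5) (nat_lit 425) (nat_lit 406) (nat_lit 309)))) (XT.nd (nat_lit 156) (nat_lit 0) (nat_lit 0) (XT.nd (nat_lit 78) (nat_lit 1444) (nat_lit 0) (XT.lf (nat_lit 76) (nat_lit 6379204355) (nat_lit 0) (nat_lit 2057546260) (nat_lit 1520) (nat_lit 605424778) (nat_lit 468) (nat_lit 5) (nat_lit 467) (nat_lit 5) (nat_lit 487) (nat_lit 5) (nat_lit 426) (nat_lit 406) (nat_lit 308)) (XT.lf (nat_lit 0) (nat_lit 759193904) (nat_lit 1520) (nat_lit 7147582940) (nat_lit 1596) (nat_lit 1215605644) (nat_lit 448) (nat_lit 5) (nat_lit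 468) (nat_lit 5) (nat_lit 469) (nat_lit 5) (nat_lit 427) (nat_lit 406) (nat_lit 307))) (XT.nd (nat_lit 78) (nat_lit 0) (nat_lit 0) (XT.lf (nat_lit 0) (nat_lit 2151046947) (nat_lit 1520) (nat_lit 2498627966) (nat_lit 1596) (nat_lit 4554294857) (nat_lit 448) (nat_lit 5) (nat_lit 468) (nat_lit 5) (nat_lit 469) (nat_lit 5) (nat_lit 428) (nat_lit 406) (nat_lit 306)) (XT.lf (nat_lit 76) (nat_lit 2254779366) (nat_lit 0) (nat_lit 1307486063) (nat_lit 1596) (nat_lit 5725109526) (nat_lit 449) (nat_lit 5) (nat_lit 448) (nat_lit 5) (nat_lit 469) (nat_lit 5) (nat_lit 429) (nat_lit 406) (nat_lit 305))))) (XT.nd (nat_lit 234) (nat_lit 3344) (nat_lit 0) (XT.nd (nat_lit 78) (nat_lit 1520) (nat_lit 0) (XT.lf (nat_lit 0) (nat_lit 5009487479) (nat_lit 1520) (nat_lit 2267226701) (nat_lit 76) (nat_lit 2095594875) (nat_lit 449) (nat_lit 5) (nat_lit 469) (nat_lit 5) (nat_lit 450) (nat_lit 5) (nat_lit 430) (nat_lit 406) (nat_lit 304))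 (XT.nd (nat_lit 78) (nat_lit 0) (nat_lit 0) (XT.lf (nat_lit 0) (nat_lit 2600780290) (nat_lit 1520) (nat_lit 3888120884) (nat_lit 1596) (nat_lit 2969991792) (nat_lit 429) (nat_lit 5) (nat_lit 449) (nat_lit 5) (nat_lit 450) (nat_lit 5) (nat_lit 431) (nat_lit 406) (nat_lit 303)) (XT.lf (nat_lit 0) (nat_lit 7578879360) (nat_lit 1520) (nat_lit 412260769) (nat_lit 1596) (nat_lit 1556219446) (nat_lit 429) (nat_lit 5) (nat_lit 449) (nat_lit 5) (nat_lit 450) (nat_lit 5) (nat_lit 432) (nat_lit 406) (nat_lit 302)))) (XT.nd (nat_lit 156) (nat_lit 1672) (nat_lit 0) (XT.nd (nat_lit 78) (nat_lit 76) (nat_lit 0) (XT.lf (nat_lit 0) (nat_lit 3020092029) (nat_lit 1596) (nat_lit 6521761485) (nat_lit 1672) (nat_lit 95388858) (nat_lit 408) (nat_lit 5) (nat_lit 429) (nat_lit 5) (nat_lit 430) (nat_lit 5) (nat_lit 433) (nat_lit 406) (nat_lit 301)) (XT.lf (nat_lit 0) (nat_lit 1371022967) (nat_lit 1672) (nat_lit 1623711681) (nat_lit 76)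 (nat_lit 6734128810) (nat_lit 407) (nat_lit 5) (nat_lit 429) (nat_lit 5) (nat_lit 408) (nat_lit 5) (nat_lit 434) (nat_lit 406) (nat_lit 300))) (XT.nd (nat_lit 78) (nat_lit 0) (nat_lit 0) (XT.lf (nat_lit 0) (nat_lit 2871326802) (nat_lit 1748) (nat_lit 6329486107) (nat_lit 76) (nat_lit 621389184) (nat_lit 385) (nat_lit 5) (nat_lit 408) (nat_lit 5) (nat_lit 386) (nat_lit 5) (nat_lit 435) (nat_lit 406) (nat_lit 299)) (XT.lf (nat_lit 0) (nat_lit 4411798679) (nat_lit 1748) (nat_lit 1221880657) (nat_lit 76) (nat_lit 4283539197) (nat_lit 385) (nat_lit 5) (nat_lit 408) (nat_lit 5) (nat_lit 386) (nat_lit 5) (nat_lit 436) (nat_lit 406) (nat_lit 298)))))) (XT.nd (nat_lit 546) (nat_lit 3116) (nat_lit 0) (XT.nd (nat_lit 234) (nat_lit 1824) (nat_lit 0) (XT.nd (nat_lit 78) (nat_lit 836) (nat_lit 0) (XT.lf (nat_lit 0) (nat_lit 4022725587) (nat_lit 1444) (nat_lit 1966238459) (nat_lit 1520) (nat_lit 4025067570) (nat_lit 366) (nat_lit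 5) (nat_lit 385) (nat_lit 5) (nat_lit 386) (nat_lit 5) (nat_lit 437) (nat_lit 406) (nat_lit 297)) (XT.nd (nat_lit 78) (nat_lit 836) (nat_lit 0) (XT.lf (nat_lit 0) (nat_lit 7597509155) (nat_lit 1520) (nat_lit 753625023) (nat_lit 76) (nat_lit 1761663770) (nat_lit 366) (nat_lit 5) (nat_lit 386) (nat_lit 5) (nat_lit 367) (nat_lit 5) (nat_lit 438) (nat_lit 406) (nat_lit 296)) (XT.lf (nat_lit 0) (nat_lit 4618498773) (nat_lit 836) (nat_lit 4643186262) (nat_lit 912) (nat_lit 951398826) (nat_lit 355) (nat_lit 5) (nat_lit 366) (nat_lit 5) (nat_lit 367) (nat_lit 5) (nat_lit 439) (nat_lit 406) (nat_lit 295)))) (XT.nd (nat_lit 156) (nat_lit 836) (nat_lit 0) (XT.nd (nat_lit 78) (nat_lit 912) (nat_lit 0) (XT.lf (nat_lit 0) (nat_lit 620995964) (nat_lit 912) (nat_lit 229222310) (nat_lit 76) (nat_lit 9465373147) (nat_lit 354) (nat_lit 5) (nat_lit 366) (nat_lit 5) (nat_lit 355) (nat_lit 5) (nat_lit 440) (nat_lit 406) (nat_lit 294))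 (XT.lf (nat_lit 0) (nat_lit 2247287190) (nat_lit 988) (nat_lit 5150757513) (nat_lit 76) (nat_lit 3021287572) (nat_lit 342) (nat_lit 5) (nat_lit 355) (nat_lit 5) (nat_lit 343) (nat_lit 5) (nat_lit 441) (nat_lit 406) (nat_lit 293))) (XT.nd (nat_lit 78) (nat_lit 0) (nat_lit 0) (XT.lf (nat_lit 0) (nat_lit 335130350) (nat_lit 836) (nat_lit 3561556427) (nat_lit 912) (nat_lit 6628661945) (nat_lit 331) (nat_lit 5) (nat_lit 342) (nat_lit 5) (nat_lit 343) (nat_lit 5) (nat_lit 442) (nat_lit 406) (nat_lit 292)) (XT.lf (nat_lit 0) (nat_lit 5597635329) (nat_lit 912) (nat_lit 4652961485) (nat_lit 76) (nat_lit 382529645) (nat_lit 331) (nat_lit 5) (nat_lit 343) (nat_lit 5) (nat_lit 332) (nat_lit 5) (nat_lit 443) (nat_lit 406) (nat_lit 291))))) (XT.nd (nat_lit 234) (nat_lit 1444) (nat_lit 0) (XT.nd (nat_lit 78) (nat_lit 836) (nat_lit 0) (XT.lf (nat_lit 0) (nat_lit 966272998) (nat_lit 836) (nat_lit 6378037607) (nat_lit 912) (nat_lit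 3398526935) (nat_lit 320) (nat_lit 5) (nat_lit 331) (nat_lit 5) (nat_lit 332) (nat_lit 5) (nat_lit 444) (nat_lit 406) (nat_lit 290)) (XT.nd (nat_lit 78) (nat_lit 836) (nat_lit 0) (XT.lf (nat_lit 0) (nat_lit 6743227832) (nat_lit 836) (nat_lit 2396003751) (nat_lit 912) (nat_lit 1715256723) (nat_lit 320) (nat_lit 5) (nat_lit 331) (nat_lit 5) (nat_lit 332) (nat_lit 5) (nat_lit 445) (nat_lit 406) (nat_lit 289)) (XT.lf (nat_lit 0) (nat_lit 5709080) (nat_lit 836) (nat_lit 9307779289) (nat_lit 76) (nat_lit 1654813712) (nat_lit 309) (nat_lit 5) (nat_lit 320) (nat_lit 5) (nat_lit 310) (nat_lit 5) (nat_lit 446) (nat_lit 406) (nat_lit 288)))) (XT.nd (nat_lit 156) (nat_lit 684) (nat_lit 0) (XT.nd (nat_lit 78) (nat_lit 760) (nat_lit 0) (XT.lf (nat_lit 0) (nat_lit 1764332009) (nat_lit 836) (nat_lit 3525657710) (nat_lit 76) (nat_lit 5793662585) (nat_lit 309) (nat_lit 5) (nat_lit 320) (nat_lit 5) (nat_lit 310) (nat_lit 5) (nat_lit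 447) (nat_lit 406) (nat_lit 287)) (XT.lf (nat_lit 0) (nat_lit 2385869266) (nat_lit 760) (nat_lit 1170635664) (nat_lit 836) (nat_lit 7644847870) (nat_lit 299) (nat_lit 5) (nat_lit 309) (nat_lit 5) (nat_lit 310) (nat_lit 5) (nat_lit 448) (nat_lit 406) (nat_lit 286))) (XT.nd (nat_lit 78) (nat_lit 684) (nat_lit 0) (XT.lf (nat_lit 0) (nat_lit 5411122950) (nat_lit 836) (nat_lit 2895110602) (nat_lit 76) (nat_lit 3014652326) (nat_lit 299) (nat_lit 5) (nat_lit 310) (nat_lit 5) (nat_lit 300) (nat_lit 5) (nat_lit 449) (nat_lit 406) (nat_lit 285)) (XT.lf (nat_lit 0) (nat_lit 3159950904) (nat_lit 684) (nat_lit 4154588724) (nat_lit 760) (nat_lit 4128046260) (nat_lit 290) (nat_lit 5) (nat_lit 299) (nat_lit 5) (nat_lit 300) (nat_lit 5) (nat_lit 450) (nat_lit 406) (nat_lit 284))))))) (XT.nd (nat_lit 1092) (nat_lit 4332) (nat_lit 0) (XT.nd (nat_lit 546) (nat_lit 1976) (nat_lit 0) (XT.nd (nat_lit 234) (nat_lit 1976) (nat_lit 0) (XT.nd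 (nat_lit 78) (nat_lit 836) (nat_lit 0) (XT.lf (nat_lit 0) (nat_lit 9259744588) (nat_lit 760) (nat_lit 2209248551) (nat_lit 76) (nat_lit 97662553) (nat_lit 290) (nat_lit 5) (nat_lit 300) (nat_lit 5) (nat_lit 291) (nat_lit 5) (nat_lit 451) (nat_lit 406) (nat_lit 283)) (XT.nd (nat_lit 78) (nat_lit 76) (nat_lit 0) (XT.lf (nat_lit 0) (nat_lit 3993182514) (nat_lit 760) (nat_lit 7288075650) (nat_lit 836) (nat_lit 411210631) (nat_lit 280) (nat_lit 5) (nat_lit 290) (nat_lit 5) (nat_lit 291) (nat_lit 5) (nat_lit 452) (nat_lit 406) (nat_lit 282)) (XT.lf (nat_lit 0) (nat_lit 1501413391) (nat_lit 836) (nat_lit 1498263565) (nat_lit 76) (nat_lit 8820953599) (nat_lit 279) (nat_lit 5) (nat_lit 290) (nat_lit 5) (nat_lit 280) (nat_lit 5) (nat_lit 453) (nat_lit 406) (nat_lit 281)))) (XT.nd (nat_lit 156) (nat_lit 1292) (nat_lit 0) (XT.nd (nat_lit 78) (nat_lit 0) (nat_lit 0) (XT.lf (nat_lit 0) (nat_lit 3471921820) (nat_lit 760) (nat_lit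 7089241584) (nat_lit 76) (nat_lit 1389644440) (nat_lit 270) (nat_lit 5) (nat_lit 280) (nat_lit 5) (nat_lit 271) (nat_lit 5) (nat_lit 454) (nat_lit 406) (nat_lit 280)) (XT.lf (nat_lit 0) (nat_lit 5496378863) (nat_lit 760) (nat_lit 751661135) (nat_lit 76) (nat_lit 5835267143) (nat_lit 270) (nat_lit 5) (nat_lit 280) (nat_lit 5) (nat_lit 271) (nat_lit 5) (nat_lit 455) (nat_lit 406) (nat_lit 279))) (XT.nd (nat_lit 78) (nat_lit 608) (nat_lit 0) (XT.lf (nat_lit 0) (nat_lit 5771459171) (nat_lit 684) (nat_lit 1812193227) (nat_lit 760) (nat_lit 4634366531) (nat_lit 261) (nat_lit 5) (nat_lit 270) (nat_lit 5) (nat_lit 271) (nat_lit 5) (nat_lit 456) (nat_lit 406) (nat_lit 278)) (XT.lf (nat_lit 0) (nat_lit 45772846) (nat_lit 608) (nat_lit 9674914899) (nat_lit 684) (nat_lit 2634585755) (nat_lit 253) (nat_lit 5) (nat_lit 261) (nat_lit 5) (nat_lit 262) (nat_lit 5) (nat_lit 457) (nat_lit 406) (nat_lit 277))))) (XT.nd (nat_lit 234)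 (nat_lit 1216) (nat_lit 0) (XT.nd (nat_lit 78) (nat_lit 760) (nat_lit 0) (XT.lf (nat_lit 0) (nat_lit 6726198247) (nat_lit 608) (nat_lit 5214662158) (nat_lit 684) (nat_lit 553613526) (nat_lit 253) (nat_lit 5) (nat_lit 261) (nat_lit 5) (nat_lit 262) (nat_lit 5) (nat_lit 458) (nat_lit 406) (nat_lit 276)) (XT.nd (nat_lit 78) (nat_lit 0) (nat_lit 0) (XT.lf (nat_lit 0) (nat_lit 888390957) (nat_lit 684) (nat_lit 651177753) (nat_lit 760) (nat_lit 11096870924) (nat_lit 243) (nat_lit 5) (nat_lit 252) (nat_lit 5) (nat_lit 253) (nat_lit 5) (nat_lit 459) (nat_lit 406) (nat_lit 275)) (XT.lf (nat_lit 0) (nat_lit 3717729575) (nat_lit 760) (nat_lit 5071023768) (nat_lit 76) (nat_lit 3991415761) (nat_lit 243) (nat_lit 5) (nat_lit 253) (nat_lit 5) (nat_lit 244) (nat_lit 5) (nat_lit 460) (nat_lit 406) (nat_lit 274)))) (XT.nd (nat_lit 156) (nat_lit 608) (nat_lit 0) (XT.nd (nat_lit 78) (nat_lit 0) (nat_lit 0) (XT.lf (nat_lit 0) (nat_lit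 1741383275) (nat_lit 608) (nat_lit 4199534676) (nat_lit 684) (nat_lit 6985833965) (nat_lit 235) (nat_lit 5) (nat_lit 243) (nat_lit 5) (nat_lit 244) (nat_lit 5) (nat_lit 461) (nat_lit 406) (nat_lit 273)) (XT.lf (nat_lit 0) (nat_lit 8231949452) (nat_lit 684) (nat_lit 4337005117) (nat_lit 76) (nat_lit 506852108) (nat_lit 235) (nat_lit 5) (nat_lit 244) (nat_lit 5) (nat_lit 236) (nat_lit 5) (nat_lit 462) (nat_lit 406) (nat_lit 272))) (XT.nd (nat_lit 78) (nat_lit 0) (nat_lit 0) (XT.lf (nat_lit 0) (nat_lit 2638604803) (nat_lit 608) (nat_lit 7961413121) (nat_lit 684) (nat_lit 2627208007) (nat_lit 227) (nat_lit 5) (nat_lit 235) (nat_lit 5) (nat_lit 236) (nat_lit 5) (nat_lit 463) (nat_lit 406) (nat_lit 271)) (XT.lf (nat_lit 0) (nat_lit 9796109657) (nat_lit 608) (nat_lit 3234877607) (nat_lit 684) (nat_lit 350383090) (nat_lit 227) (nat_lit 5) (nat_lit 235) (nat_lit 5) (nat_lit 236) (nat_lit 5) (nat_lit 464) (nat_lit 406) (nat_lit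 270)))))) (XT.nd (nat_lit 546) (nat_lit 1976) (nat_lit 0) (XT.nd (nat_lit 234) (nat_lit 1140) (nat_lit 0) (XT.nd (nat_lit 78) (nat_lit 608) (nat_lit 0) (XT.lf (nat_lit 0) (nat_lit 1966458135) (nat_lit 608) (nat_lit 9972677599) (nat_lit 76) (nat_lit 1598806290) (nat_lit 219) (nat_lit 5) (nat_lit 227) (nat_lit 5) (nat_lit 220) (nat_lit 5) (nat_lit 465) (nat_lit 406) (nat_lit 269)) (XT.nd (nat_lit 78) (nat_lit 608) (nat_lit 0) (XT.lf (nat_lit 0) (nat_lit 4357335439) (nat_lit 608) (nat_lit 2830083420) (nat_lit 76) (nat_lit 6509539266) (nat_lit 219) (nat_lit 5) (nat_lit 227) (nat_lit 5) (nat_lit 220) (nat_lit 5) (nat_lit 466) (nat_lit 406) (nat_lit 268)) (XT.lf (nat_lit 0) (nat_lit 4498264170) (nat_lit 608) (nat_lit 2313976883) (nat_lit 684) (nat_lit 7046596278) (nat_lit 211) (nat_lit 5) (nat_lit 219) (nat_lit 5) (nat_lit 220) (nat_lit 5) (nat_lit 467) (nat_lit 406) (nat_lit 267)))) (XT.nd (nat_lit 156) (nat_lit 608)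 (nat_lit 0) (XT.nd (nat_lit 78) (nat_lit 532) (nat_lit 0) (XT.lf (nat_lit 0) (nat_lit 9339748109) (nat_lit 684) (nat_lit 2045640863) (nat_lit 76) (nat_lit 2638101942) (nat_lit 211) (nat_lit 5) (nat_lit 220) (nat_lit 5) (nat_lit 212) (nat_lit 5) (nat_lit 468) (nat_lit 406) (nat_lit 266)) (XT.lf (nat_lit 0) (nat_lit 5455907747) (nat_lit 532) (nat_lit 6500033155) (nat_lit 608) (nat_lit 2234740679) (nat_lit 204) (nat_lit 5) (nat_lit 211) (nat_lit 5) (nat_lit 212) (nat_lit 5) (nat_lit 469) (nat_lit 406) (nat_lit 265))) (XT.nd (nat_lit 78) (nat_lit 532) (nat_lit 0) (XT.lf (nat_lit 0) (nat_lit 261050724) (nat_lit 608) (nat_lit 1243506870) (nat_lit 76) (nat_lit 12856605515) (nat_lit 203) (nat_lit 5) (nat_lit 211) (nat_lit 5) (nat_lit 204) (nat_lit 5) (nat_lit 470) (nat_lit 406) (nat_lit 264)) (XT.lf (nat_lit 0) (nat_lit 2830108998) (nat_lit 608) (nat_lit 8106107698) (nat_lit 76) (nat_lit 3597482994) (nat_lit 196) (nat_lit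 5) (nat_lit 204) (nat_lit 5) (nat_lit 197) (nat_lit 5) (nat_lit 471) (nat_lit 406) (nat_lit 263))))) (XT.nd (nat_lit 312) (nat_lit 988) (nat_lit 0) (XT.nd (nat_lit 156) (nat_lit 532) (nat_lit 0) (XT.nd (nat_lit 78) (nat_lit 456) (nat_lit 0) (XT.lf (nat_lit 0) (nat_lit 5456720181) (nat_lit 608) (nat_lit 466363387) (nat_lit 76) (nat_lit 8786486211) (nat_lit 196) (nat_lit 5) (nat_lit 204) (nat_lit 5) (nat_lit 197) (nat_lit 5) (nat_lit 472) (nat_lit 406) (nat_lit 262)) (XT.lf (nat_lit 0) (nat_lit 7407847777) (nat_lit 456) (nat_lit 764159471) (nat_lit 532) (nat_lit 6716233240) (nat_lit 190) (nat_lit 5) (nat_lit 196) (nat_lit 5) (nat_lit 197) (nat_lit 5) (nat_lit 473) (nat_lit 406) (nat_lit 261))) (XT.nd (nat_lit 78) (nat_lit 0) (nat_lit 0) (XT.lf (nat_lit 0) (nat_lit 335011570) (nat_lit 532) (nat_lit 10629275876) (nat_lit 608) (nat_lit 4105749389) (nat_lit 183) (nat_lit 5) (nat_lit 190) (nat_lit 5) (nat_lit 191) (nat_lit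 5) (nat_lit 474) (nat_lit 406) (nat_lit 260)) (XT.lf (nat_lit 0) (nat_lit 8387496721) (nat_lit 532) (nat_lit 5468431203) (nat_lit 608) (nat_lit 1398676748) (nat_lit 183) (nat_lit 5) (nat_lit 190) (nat_lit 5) (nat_lit 191) (nat_lit 5) (nat_lit 475) (nat_lit 406) (nat_lit 259)))) (XT.nd (nat_lit 156) (nat_lit 456) (nat_lit 0) (XT.nd (nat_lit 78) (nat_lit 0) (nat_lit 0) (XT.lf (nat_lit 0) (nat_lit 1149037651) (nat_lit 456) (nat_lit 191527939) (nat_lit 532) (nat_lit 14102209007) (nat_lit 176) (nat_lit 5) (nat_lit 182) (nat_lit 5) (nat_lit 183) (nat_lit 5) (nat_lit 476) (nat_lit 406) (nat_lit 258)) (XT.lf (nat_lit 0) (nat_lit 4184512686) (nat_lit 532) (nat_lit 6273927260) (nat_lit 76) (nat_lit 5174715625) (nat_lit 176) (nat_lit 5) (nat_lit 183) (nat_lit 5) (nat_lit 177) (nat_lit 5) (nat_lit 477) (nat_lit 406) (nat_lit 257))) (XT.nd (nat_lit 78) (nat_lit 0) (nat_lit 0) (XT.lf (nat_lit 0) (nat_lit 1914966723) (nat_lit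 456) (nat_lit 5172839066) (nat_lit 532) (nat_lit 8739494441) (nat_lit 170) (nat_lit 5) (nat_lit 176) (nat_lit 5) (nat_lit 177) (nat_lit 5) (nat_lit 478) (nat_lit 406) (nat_lit 256)) (XT.lf (nat_lit 0) (nat_lit 10081825728) (nat_lit 532) (nat_lit 5688760553) (nat_lit 76) (nat_lit 254093586) (nat_lit 170) (nat_lit 5) (nat_lit 177) (nat_lit 5) (nat_lit 171) (nat_lit 5) (nat_lit 479) (nat_lit 406) (nat_lit 255))))))))
noncomputable def xc164 : XT := (XT.nd (nat_lit 2184) (nat_lit 2280) (nat_lit 0) (XT.nd (nat_lit 1092) (nat_lit 2432) (nat_lit 0) (XT.nd (nat_lit 546) (nat_lit 1292) (nat_lit 0) (XT.nd (nat_lit 234) (nat_lit 836) (nat_lit 0) (XT.nd (nat_lit 78) (nat_lit 532) (nat_lit 0) (XT.lf (nat_lit 0) (nat_lit 2685283025) (nat_lit 456) (nat_lit 10491215598) (nat_lit 532) (nat_lit 3048698221) (nat_lit 164) (nat_lit 5) (nat_lit 170) (nat_lit 5) (nat_lit 171) (nat_lit 5) (nat_lit 480) (nat_lit 406) (nat_lit 254)) (XT.nd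 (nat_lit 78) (nat_lit 532) (nat_lit 0) (XT.lf (nat_lit 0) (nat_lit 11289056962) (nat_lit 456) (nat_lit 5071380905) (nat_lit 532) (nat_lit 68743934) (nat_lit 164) (nat_lit 5) (nat_lit 170) (nat_lit 5) (nat_lit 171) (nat_lit 5) (nat_lit 481) (nat_lit 406) (nat_lit 253)) (XT.lf (nat_lit 0) (nat_lit 2946723905) (nat_lit 532) (nat_lit 13201094844) (nat_lit 76) (nat_lit 488749292) (nat_lit 157) (nat_lit 5) (nat_lit 164) (nat_lit 5) (nat_lit 158) (nat_lit 5) (nat_lit 482) (nat_lit 406) (nat_lit 252)))) (XT.nd (nat_lit 156) (nat_lit 456) (nat_lit 0) (XT.nd (nat_lit 78) (nat_lit 380) (nat_lit 0) (XT.lf (nat_lit 0) (nat_lit 6079310959) (nat_lit 532) (nat_lit 4644233113) (nat_lit 76) (nat_lit 6123399044) (nat_lit 157) (nat_lit 5) (nat_lit 164) (nat_lit 5) (nat_lit 158) (nat_lit 5) (nat_lit 483) (nat_lit 406) (nat_lit 251)) (XT.lf (nat_lit 0) (nat_lit 4123323477) (nat_lit 380) (nat_lit 5167627823) (nat_lit 456) (nat_lit 7770251069)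 (nat_lit 152) (nat_lit 5) (nat_lit 157) (nat_lit 5) (nat_lit 158) (nat_lit 5) (nat_lit 484) (nat_lit 406) (nat_lit 250))) (XT.nd (nat_lit 78) (nat_lit 456) (nat_lit 0) (XT.lf (nat_lit 0) (nat_lit 12591151398) (nat_lit 456) (nat_lit 4167995126) (nat_lit 76) (nat_lit 520118362) (nat_lit 152) (nat_lit 5) (nat_lit 158) (nat_lit 5) (nat_lit 153) (nat_lit 5) (nat_lit 485) (nat_lit 406) (nat_lit 249)) (XT.lf (nat_lit 0) (nat_lit 4791584786) (nat_lit 456) (nat_lit 11221018096) (nat_lit 532) (nat_lit 1487985348) (nat_lit 146) (nat_lit 5) (nat_lit 152) (nat_lit 5) (nat_lit 153) (nat_lit 5) (nat_lit 486) (nat_lit 406) (nat_lit 248))))) (XT.nd (nat_lit 234) (nat_lit 836) (nat_lit 0) (XT.nd (nat_lit 78) (nat_lit 380) (nat_lit 0) (XT.lf (nat_lit 0) (nat_lit 1770955005) (nat_lit 532) (nat_lit 3765006250) (nat_lit 76) (nat_lit 12189788416) (nat_lit 145) (nat_lit 5) (nat_lit 152) (nat_lit 5) (nat_lit 146) (nat_lit 5) (nat_lit 487)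 (nat_lit 406) (nat_lit 247)) (XT.nd (nat_lit 78) (nat_lit 0) (nat_lit 0) (XT.lf (nat_lit 0) (nat_lit 5102383293) (nat_lit 456) (nat_lit 12551874710) (nat_lit 76) (nat_lit 300419226) (nat_lit 140) (nat_lit 5) (nat_lit 146) (nat_lit 5) (nat_lit 141) (nat_lit 5) (nat_lit 488) (nat_lit 406) (nat_lit 246)) (XT.lf (nat_lit 0) (nat_lit 8552755993) (nat_lit 456) (nat_lit 3433666612) (nat_lit 76) (nat_lit 6200718596) (nat_lit 140) (nat_lit 5) (nat_lit 146) (nat_lit 5) (nat_lit 141) (nat_lit 5) (nat_lit 489) (nat_lit 406) (nat_lit 245)))) (XT.nd (nat_lit 156) (nat_lit 456) (nat_lit 0) (XT.nd (nat_lit 78) (nat_lit 0) (nat_lit 0) (XT.lf (nat_lit 0) (nat_lit 5930804528) (nat_lit 380) (nat_lit 6170251434) (nat_lit 456) (nat_lit 6322624196) (nat_lit 135) (nat_lit 5) (nat_lit 140) (nat_lit 5) (nat_lit 141) (nat_lit 5) (nat_lit 490) (nat_lit 406) (nat_lit 244)) (XT.lf (nat_lit 0) (nat_lit 15515316008) (nat_lit 380) (nat_lit 218559154)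 (nat_lit 456) (nat_lit 2930807685) (nat_lit 135) (nat_lit 5) (nat_lit 140) (nat_lit 5) (nat_lit 141) (nat_lit 5) (nat_lit 491) (nat_lit 406) (nat_lit 243))) (XT.nd (nat_lit 78) (nat_lit 0) (nat_lit 0) (XT.lf (nat_lit 0) (nat_lit 592677623) (nat_lit 456) (nat_lit 12499558613) (nat_lit 76) (nat_lit 5816789177) (nat_lit 129) (nat_lit 5) (nat_lit 135) (nat_lit 5) (nat_lit 130) (nat_lit 5) (nat_lit 492) (nat_lit 406) (nat_lit 242)) (XT.lf (nat_lit 0) (nat_lit 4160846951) (nat_lit 456) (nat_lit 2990384049) (nat_lit 76) (nat_lit 12006371009) (nat_lit 129) (nat_lit 5) (nat_lit 135) (nat_lit 5) (nat_lit 130) (nat_lit 5) (nat_lit 493) (nat_lit 406) (nat_lit 241)))))) (XT.nd (nat_lit 546) (nat_lit 988) (nat_lit 0) (XT.nd (nat_lit 234) (nat_lit 760) (nat_lit 0) (XT.nd (nat_lit 78) (nat_lit 304) (nat_lit 0) (XT.lf (nat_lit 0) (nat_lit 6784500208) (nat_lit 380) (nat_lit 1050811150) (nat_lit 456) (nat_lit 11575143858) (nat_lit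 124) (nat_lit 5) (nat_lit 129) (nat_lit 5) (nat_lit 130) (nat_lit 5) (nat_lit 494) (nat_lit 406) (nat_lit 240)) (XT.nd (nat_lit 78) (nat_lit 304) (nat_lit 0) (XT.lf (nat_lit 0) (nat_lit 11627988615) (nat_lit 456) (nat_lit 2919778222) (nat_lit 76) (nat_lit 5119707817) (nat_lit 124) (nat_lit 5) (nat_lit 130) (nat_lit 5) (nat_lit 125) (nat_lit 5) (nat_lit 495) (nat_lit 406) (nat_lit 239)) (XT.lf (nat_lit 0) (nat_lit 7052805814) (nat_lit 304) (nat_lit 8487587686) (nat_lit 380) (nat_lit 4388367069) (nat_lit 120) (nat_lit 5) (nat_lit 124) (nat_lit 5) (nat_lit 125) (nat_lit 5) (nat_lit 496) (nat_lit 406) (nat_lit 238)))) (XT.nd (nat_lit 156) (nat_lit 304) (nat_lit 0) (XT.nd (nat_lit 78) (nat_lit 456) (nat_lit 0) (XT.lf (nat_lit 0) (nat_lit 17251251020) (nat_lit 304) (nat_lit 2290600836) (nat_lit 380) (nat_lit 653207738) (nat_lit 120) (nat_lit 5) (nat_lit 124) (nat_lit 5) (nat_lit 125) (nat_lit 5) (nat_lit 497) (nat_lit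 406) (nat_lit 237)) (XT.lf (nat_lit 0) (nat_lit 3180227569) (nat_lit 456) (nat_lit 13243575243) (nat_lit 76) (nat_lit 4041175789) (nat_lit 114) (nat_lit 5) (nat_lit 120) (nat_lit 5) (nat_lit 115) (nat_lit 5) (nat_lit 498) (nat_lit 406) (nat_lit 236))) (XT.nd (nat_lit 78) (nat_lit 304) (nat_lit 0) (XT.lf (nat_lit 0) (nat_lit 7108029984) (nat_lit 456) (nat_lit 3142793948) (nat_lit 76) (nat_lit 10488860104) (nat_lit 114) (nat_lit 5) (nat_lit 120) (nat_lit 5) (nat_lit 115) (nat_lit 5) (nat_lit 499) (nat_lit 406) (nat_lit 235)) (XT.lf (nat_lit 0) (nat_lit 7242151332) (nat_lit 304) (nat_lit 3910808754) (nat_lit 380) (nat_lit 9866155292) (nat_lit 110) (nat_lit 5) (nat_lit 114) (nat_lit 5) (nat_lit 115) (nat_lit 5) (nat_lit 500) (nat_lit 406) (nat_lit 234))))) (XT.nd (nat_lit 234) (nat_lit 608) (nat_lit 0) (XT.nd (nat_lit 78) (nat_lit 380) (nat_lit 0) (XT.lf (nat_lit 0) (nat_lit 15308218775) (nat_lit 380) (nat_lit 3455942956)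 (nat_lit 76) (nat_lit 2539388184) (nat_lit 110) (nat_lit 5) (nat_lit 115) (nat_lit 5) (nat_lit 111) (nat_lit 5) (nat_lit 501) (nat_lit 406) (nat_lit 233)) (XT.nd (nat_lit 78) (nat_lit 76) (nat_lit 0) (XT.lf (nat_lit 0) (nat_lit 7126424911) (nat_lit 304) (nat_lit 12484096428) (nat_lit 380) (nat_lit 1981876138) (nat_lit 106) (nat_lit 5) (nat_lit 110) (nat_lit 5) (nat_lit 111) (nat_lit 5) (nat_lit 502) (nat_lit 406) (nat_lit 232)) (XT.lf (nat_lit 0) (nat_lit 2099288183) (nat_lit 380) (nat_lit 3945804415) (nat_lit 76) (nat_lit 15841355399) (nat_lit 105) (nat_lit 5) (nat_lit 110) (nat_lit 5) (nat_lit 106) (nat_lit 5) (nat_lit 503) (nat_lit 406) (nat_lit 231)))) (XT.nd (nat_lit 156) (nat_lit 304) (nat_lit 0) (XT.nd (nat_lit 78) (nat_lit 0) (nat_lit 0) (XT.lf (nat_lit 0) (nat_lit 6275732163) (nat_lit 380) (nat_lit 15340088701) (nat_lit 76) (nat_lit 569495711) (nat_lit 101) (nat_lit 5) (nat_lit 106) (nat_lit 5) (nat_lit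 102) (nat_lit 5) (nat_lit 504) (nat_lit 406) (nat_lit 230)) (XT.lf (nat_lit 0) (nat_lit 10594395463) (nat_lit 380) (nat_lit 4636746102) (nat_lit 76) (nat_lit 7257850022) (nat_lit 101) (nat_lit 5) (nat_lit 106) (nat_lit 5) (nat_lit 102) (nat_lit 5) (nat_lit 505) (nat_lit 406) (nat_lit 229))) (XT.nd (nat_lit 78) (nat_lit 0) (nat_lit 0) (XT.lf (nat_lit 0) (nat_lit 6351740814) (nat_lit 304) (nat_lit 8681090671) (nat_lit 380) (nat_lit 7765243438) (nat_lit 97) (nat_lit 5) (nat_lit 101) (nat_lit 5) (nat_lit 102) (nat_lit 5) (nat_lit 506) (nat_lit 406) (nat_lit 228)) (XT.lf (nat_lit 0) (nat_lit 17610703466) (nat_lit 304) (nat_lit 1972682380) (nat_lit 380) (nat_lit 3529489847) (nat_lit 97) (nat_lit 5) (nat_lit 101) (nat_lit 5) (nat_lit 102) (nat_lit 5) (nat_lit 507) (nat_lit 406) (nat_lit 227))))))) (XT.nd (nat_lit 1092) (nat_lit 304) (nat_lit 0) (XT.nd (nat_lit 546) (nat_lit 760) (nat_lit 0) (XT.nd (nat_lit 234) (nat_lit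 608) (nat_lit 0) (XT.nd (nat_lit 78) (nat_lit 304) (nat_lit 0) (XT.lf (nat_lit 0) (nat_lit 841938803) (nat_lit 304) (nat_lit 17746426638) (nat_lit 76) (nat_lit 4844280301) (nat_lit 93) (nat_lit 5) (nat_lit 97) (nat_lit 5) (nat_lit 94) (nat_lit 5) (nat_lit 508) (nat_lit 406) (nat_lit 226)) (XT.nd (nat_lit 78) (nat_lit 304) (nat_lit 0) (XT.lf (nat_lit 0) (nat_lit 5296189891) (nat_lit 304) (nat_lit 6633853775) (nat_lit 76) (nat_lit 11827450453) (nat_lit 93) (nat_lit 5) (nat_lit 97) (nat_lit 5) (nat_lit 94) (nat_lit 5) (nat_lit 509) (nat_lit 406) (nat_lit 225)) (XT.lf (nat_lit 0) (nat_lit 4751463368) (nat_lit 304) (nat_lit 5111440169) (nat_lit 380) (nat_lit 14225470923) (nat_lit 89) (nat_lit 5) (nat_lit 93) (nat_lit 5) (nat_lit 94) (nat_lit 5) (nat_lit 510) (nat_lit 406) (nat_lit 224)))) (XT.nd (nat_lit 156) (nat_lit 380) (nat_lit 0) (XT.nd (nat_lit 78) (nat_lit 228) (nat_lit 0) (XT.lf (nat_lit 0) (nat_lit 14570302308)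 (nat_lit 380) (nat_lit 7994703875) (nat_lit 76) (nat_lit 1859881708) (nat_lit 89) (nat_lit 5) (nat_lit 94) (nat_lit 5) (nat_lit 90) (nat_lit 5) (nat_lit 511) (nat_lit 406) (nat_lit 223)) (XT.lf (nat_lit 0) (nat_lit 3575758288) (nat_lit 228) (nat_lit 15845873176) (nat_lit 304) (nat_lit 5345506926) (nat_lit 86) (nat_lit 5) (nat_lit 89) (nat_lit 5) (nat_lit 90) (nat_lit 5) (nat_lit 512) (nat_lit 406) (nat_lit 222))) (XT.nd (nat_lit 78) (nat_lit 380) (nat_lit 0) (XT.lf (nat_lit 0) (nat_lit 15474441245) (nat_lit 228) (nat_lit 8941978036) (nat_lit 304) (nat_lit 698888380) (nat_lit 86) (nat_lit 5) (nat_lit 89) (nat_lit 5) (nat_lit 90) (nat_lit 5) (nat_lit 513) (nat_lit 406) (nat_lit 221)) (XT.lf (nat_lit 0) (nat_lit 2130941452) (nat_lit 304) (nat_lit 1863438280) (nat_lit 380) (nat_lit 21475403975) (nat_lit 81) (nat_lit 5) (nat_lit 85) (nat_lit 5) (nat_lit 86) (nat_lit 5) (nat_lit 514) (nat_lit 406) (nat_lit 220))))) (XT.nd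 (nat_lit 234) (nat_lit 532) (nat_lit 0) (XT.nd (nat_lit 78) (nat_lit 228) (nat_lit 0) (XT.lf (nat_lit 0) (nat_lit 8864980457) (nat_lit 380) (nat_lit 11612490781) (nat_lit 76) (nat_lit 5351931400) (nat_lit 81) (nat_lit 5) (nat_lit 86) (nat_lit 5) (nat_lit 82) (nat_lit 5) (nat_lit 515) (nat_lit 406) (nat_lit 219)) (XT.nd (nat_lit 78) (nat_lit 0) (nat_lit 0) (XT.lf (nat_lit 0) (nat_lit 329118960) (nat_lit 228) (nat_lit 13511404501) (nat_lit 304) (nat_lit 12355542099) (nat_lit 78) (nat_lit 5) (nat_lit 81) (nat_lit 5) (nat_lit 82) (nat_lit 5) (nat_lit 516) (nat_lit 406) (nat_lit 218)) (XT.lf (nat_lit 0) (nat_lit 12655800678) (nat_lit 228) (nat_lit 6330819025) (nat_lit 304) (nat_lit 7582023367) (nat_lit 78) (nat_lit 5) (nat_lit 81) (nat_lit 5) (nat_lit 82) (nat_lit 5) (nat_lit 517) (nat_lit 406) (nat_lit 217)))) (XT.nd (nat_lit 156) (nat_lit 228) (nat_lit 0) (XT.nd (nat_lit 78) (nat_lit 304) (nat_lit 0) (XT.lf (nat_lit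 0) (nat_lit 24235311672) (nat_lit 304) (nat_lit 1737167141) (nat_lit 76) (nat_lit 976201971) (nat_lit 78) (nat_lit 5) (nat_lit 82) (nat_lit 5) (nat_lit 79) (nat_lit 5) (nat_lit 518) (nat_lit 406) (nat_lit 216)) (XT.lf (nat_lit 0) (nat_lit 2329021146) (nat_lit 304) (nat_lit 16579031277) (nat_lit 76) (nat_lit 8425858226) (nat_lit 74) (nat_lit 5) (nat_lit 78) (nat_lit 5) (nat_lit 75) (nat_lit 5) (nat_lit 519) (nat_lit 406) (nat_lit 215))) (XT.nd (nat_lit 78) (nat_lit 228) (nat_lit 0) (XT.lf (nat_lit 0) (nat_lit 7441067353) (nat_lit 304) (nat_lit 4235207157) (nat_lit 76) (nat_lit 16050111101) (nat_lit 74) (nat_lit 5) (nat_lit 78) (nat_lit 5) (nat_lit 75) (nat_lit 5) (nat_lit 520) (nat_lit 406) (nat_lit 214)) (XT.lf (nat_lit 0) (nat_lit 8455741790) (nat_lit 228) (nat_lit 4248014631) (nat_lit 304) (nat_lit 15421987583) (nat_lit 71) (nat_lit 5) (nat_lit 74) (nat_lit 5) (nat_lit 75) (nat_lit 5) (nat_lit 521) (nat_lit 406)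 (nat_lit 213)))))) (XT.nd (nat_lit 50700) (nat_lit 0) (nat_lit 31464) (XT.nd (nat_lit 50388) (nat_lit 0) (nat_lit 32756) (XT.nd (nat_lit 78) (nat_lit 304) (nat_lit 0) (XT.lf (nat_lit 0) (nat_lit 18115454295) (nat_lit 304) (nat_lit 7107087155) (nat_lit 76) (nat_lit 3309674945) (nat_lit 71) (nat_lit 5) (nat_lit 75) (nat_lit 5) (nat_lit 72) (nat_lit 5) (nat_lit 522) (nat_lit 406) (nat_lit 212)) (XT.nd (nat_lit 78) (nat_lit 76) (nat_lit 0) (XT.lf (nat_lit 0) (nat_lit 5743810250) (nat_lit 228) (nat_lit 17950661337) (nat_lit 304) (nat_lit 5251166831) (nat_lit 68) (nat_lit 5) (nat_lit 71) (nat_lit 5) (nat_lit 72) (nat_lit 5) (nat_lit 523) (nat_lit 406) (nat_lit 211)) (XT.lf (nat_lit 0) (nat_lit 59189409) (nat_lit 304) (nat_lit 10429233518) (nat_lit 76) (nat_lit 18878071837) (nat_lit 67) (nat_lit 5) (nat_lit 71) (nat_lit 5) (nat_lit 68) (nat_lit 5) (nat_lit 524) (nat_lit 406) (nat_lit 210)))) (XT.nd (nat_lit 156) (nat_lit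 0) (nat_lit 0) (XT.nd (nat_lit 78) (nat_lit 0) (nat_lit 0) (XT.lf (nat_lit 0) (nat_lit 287146689) (nat_lit 0) (nat_lit 287146689) (nat_lit 1292) (nat_lit 3353280676) (nat_lit 498) (nat_lit 5) (nat_lit 498) (nat_lit 3) (nat_lit 515) (nat_lit 3) (nat_lit 407) (nat_lit 407) (nat_lit 326)) (XT.lf (nat_lit 0) (nat_lit 2399570090) (nat_lit 1292) (nat_lit 3645002986) (nat_lit 1368) (nat_lit 1863350931) (nat_lit 498) (nat_lit 5) (nat_lit 515) (nat_lit 3) (nat_lit 516) (nat_lit 5) (nat_lit 408) (nat_lit 407) (nat_lit 325))) (XT.nd (nat_lit 78) (nat_lit 0) (nat_lit 0) (XT.lf (nat_lit 76) (nat_lit 43462922) (nat_lit 0) (nat_lit 3604109216) (nat_lit 1368) (nat_lit 4314769157) (nat_lit 499) (nat_lit 5) (nat_lit 498) (nat_lit 5) (nat_lit 516) (nat_lit 5) (nat_lit 409) (nat_lit 407) (nat_lit 324)) (XT.lf (nat_lit 76) (nat_lit 3838348480) (nat_lit 0) (nat_lit 1075079567) (nat_lit 1368) (nat_lit 3104586352) (nat_lit 499) (nat_lit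 5) (nat_lit 498) (nat_lit 5) (nat_lit 516) (nat_lit 5) (nat_lit 410) (nat_lit 407) (nat_lit 323))))) (XT.nd (nat_lit 312) (nat_lit 0) (nat_lit 76) (XT.nd (nat_lit 156) (nat_lit 1368) (nat_lit 0) (XT.nd (nat_lit 78) (nat_lit 0) (nat_lit 0) (XT.lf (nat_lit 0) (nat_lit 6183516611) (nat_lit 1292) (nat_lit 392605716) (nat_lit 1368) (nat_lit 1499125174) (nat_lit 499) (nat_lit 5) (nat_lit 516) (nat_lit 5) (nat_lit 517) (nat_lit 5) (nat_lit 411) (nat_lit 407) (nat_lit 322)) (XT.lf (nat_lit 76) (nat_lit 3492043272) (nat_lit 0) (nat_lit 3986508154) (nat_lit 1368) (nat_lit 655107315) (nat_lit 500) (nat_lit 5) (nat_lit 499) (nat_lit 5) (nat_lit 517) (nat_lit 5) (nat_lit 412) (nat_lit 407) (nat_lit 321))) (XT.nd (nat_lit 78) (nat_lit 0) (nat_lit 76) (XT.lf (nat_lit 0) (nat_lit 570965648) (nat_lit 1368) (nat_lit 754574631) (nat_lit 1444) (nat_lit 6868189258) (nat_lit 481) (nat_lit 5) (nat_lit 499) (nat_lit 5) (nat_lit 500) (nat_lit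 5) (nat_lit 413) (nat_lit 407) (nat_lit 320)) (XT.lf (nat_lit 0) (nat_lit 1813646353) (nat_lit 1368) (nat_lit 5032928649) (nat_lit 1444) (nat_lit 1408345937) (nat_lit 482) (nat_lit 5) (nat_lit 500) (nat_lit 5) (nat_lit 501) (nat_lit 5) (nat_lit 414) (nat_lit 407) (nat_lit 319)))) (XT.nd (nat_lit 156) (nat_lit 0) (nat_lit 76) (XT.nd (nat_lit 78) (nat_lit 0) (nat_lit 0) (XT.lf (nat_lit 0) (nat_lit 3066207487) (nat_lit 1368) (nat_lit 1055104241) (nat_lit 1444) (nat_lit 4196346411) (nat_lit 482) (nat_lit 5) (nat_lit 500) (nat_lit 5) (nat_lit 501) (nat_lit 5) (nat_lit 415) (nat_lit 407) (nat_lit 318)) (XT.lf (nat_lit 76) (nat_lit 3024913241) (nat_lit 0) (nat_lit 1310263283) (nat_lit 1444) (nat_lit 4046668492) (nat_lit 483) (nat_lit 5) (nat_lit 482) (nat_lit 5) (nat_lit 501) (nat_lit 5) (nat_lit 416) (nat_lit 407) (nat_lit 317))) (XT.nd (nat_lit 78) (nat_lit 0) (nat_lit 0) (XT.lf (nat_lit 0) (nat_lit 5618993747) (nat_lit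 1368) (nat_lit 1274069624) (nat_lit 1444) (nat_lit 1554484516) (nat_lit 483) (nat_lit 5) (nat_lit 501) (nat_lit 5) (nat_lit 502) (nat_lit 5) (nat_lit 417) (nat_lit 407) (nat_lit 316)) (XT.lf (nat_lit 76) (nat_lit 2902612498) (nat_lit 0) (nat_lit 4026174696) (nat_lit 1444) (nat_lit 1585792833) (nat_lit 484) (nat_lit 5) (nat_lit 483) (nat_lit 5) (nat_lit 502) (nat_lit 5) (nat_lit 418) (nat_lit 407) (nat_lit 315))))))))
noncomputable def xc165 : XT := (XT.nd (nat_lit 2184) (nat_lit 10412) (nat_lit 0) (XT.nd (nat_lit 1092) (nat_lit 8284) (nat_lit 0) (XT.nd (nat_lit 546) (nat_lit 2736) (nat_lit 0) (XT.nd (nat_lit 234) (nat_lit 0) (nat_lit 0) (XT.nd (nat_lit 78) (nat_lit 1368) (nat_lit 0) (XT.lf (nat_lit 76) (nat_lit 7162983640) (nat_lit 0) (nat_lit 1083542167) (nat_lit 1444) (nat_lit 336812810) (nat_lit 484) (nat_lit 5) (nat_lit 483) (nat_lit 5) (nat_lit 502) (nat_lit 5) (nat_lit 419) (nat_lit 407) (nat_lit 314)) (XT.nd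 (nat_lit 78) (nat_lit 0) (nat_lit 0) (XT.lf (nat_lit 0) (nat_lit 929694307) (nat_lit 1444) (nat_lit 5796716207) (nat_lit 1520) (nat_lit 1926863392) (nat_lit 465) (nat_lit 5) (nat_lit 484) (nat_lit 5) (nat_lit 485) (nat_lit 5) (nat_lit 420) (nat_lit 407) (nat_lit 313)) (XT.lf (nat_lit 0) (nat_lit 2207794033) (nat_lit 1444) (nat_lit 1513262482) (nat_lit 1520) (nat_lit 5003711004) (nat_lit 465) (nat_lit 5) (nat_lit 484) (nat_lit 5) (nat_lit 485) (nat_lit 5) (nat_lit 421) (nat_lit 407) (nat_lit 312)))) (XT.nd (nat_lit 156) (nat_lit 0) (nat_lit 76) (XT.nd (nat_lit 78) (nat_lit 0) (nat_lit 76) (XT.lf (nat_lit 76) (nat_lit 2876291555) (nat_lit 0) (nat_lit 628346783) (nat_lit 1520) (nat_lit 5293208226) (nat_lit 466) (nat_lit 5) (nat_lit 465) (nat_lit 5) (nat_lit 485) (nat_lit 5) (nat_lit 422) (nat_lit 407) (nat_lit 311)) (XT.lf (nat_lit 0) (nat_lit 4828991012) (nat_lit 1444) (nat_lit 1532254326) (nat_lit 1520) (nat_lit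 2511129254) (nat_lit 466) (nat_lit 5) (nat_lit 485) (nat_lit 5) (nat_lit 486) (nat_lit 5) (nat_lit 423) (nat_lit 407) (nat_lit 310))) (XT.nd (nat_lit 78) (nat_lit 0) (nat_lit 76) (XT.lf (nat_lit 76) (nat_lit 2962117434) (nat_lit 0) (nat_lit 3216545364) (nat_lit 1520) (nat_lit 2769772206) (nat_lit 467) (nat_lit 5) (nat_lit 466) (nat_lit 5) (nat_lit 486) (nat_lit 5) (nat_lit 424) (nat_lit 407) (nat_lit 309)) (XT.lf (nat_lit 0) (nat_lit 7541473192) (nat_lit 1444) (nat_lit 1476508891) (nat_lit 1520) (nat_lit 8329738) (nat_lit 467) (nat_lit 5) (nat_lit 486) (nat_lit 5) (nat_lit 487) (nat_lit 5) (nat_lit 425) (nat_lit 407) (nat_lit 308))))) (XT.nd (nat_lit 234) (nat_lit 1368) (nat_lit 0) (XT.nd (nat_lit 78) (nat_lit 1520) (nat_lit 0) (XT.lf (nat_lit 76) (nat_lit 3125703523) (nat_lit 0) (nat_lit 5823758471) (nat_lit 1520) (nat_lit 155943484) (nat_lit 468) (nat_lit 5) (nat_lit 467) (nat_lit 5) (nat_lit 487) (nat_lit 5)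 (nat_lit 426) (nat_lit 407) (nat_lit 307)) (XT.nd (nat_lit 78) (nat_lit 0) (nat_lit 76) (XT.lf (nat_lit 0) (nat_lit 1170277510) (nat_lit 1520) (nat_lit 1371461173) (nat_lit 1596) (nat_lit 6644474020) (nat_lit 447) (nat_lit 5) (nat_lit 467) (nat_lit 5) (nat_lit 468) (nat_lit 5) (nat_lit 427) (nat_lit 407) (nat_lit 306)) (XT.lf (nat_lit 0) (nat_lit 2525104215) (nat_lit 1520) (nat_lit 5919522640) (nat_lit 1596) (nat_lit 823921936) (nat_lit 448) (nat_lit 5) (nat_lit 468) (nat_lit 5) (nat_lit 469) (nat_lit 5) (nat_lit 428) (nat_lit 407) (nat_lit 305)))) (XT.nd (nat_lit 156) (nat_lit 1444) (nat_lit 0) (XT.nd (nat_lit 78) (nat_lit 0) (nat_lit 0) (XT.lf (nat_lit 0) (nat_lit 3910466350) (nat_lit 1520) (nat_lit 1204471155) (nat_lit 1596) (nat_lit 4237541715) (nat_lit 448) (nat_lit 5) (nat_lit 468) (nat_lit 5) (nat_lit 469) (nat_lit 5) (nat_lit 429) (nat_lit 407) (nat_lit 304)) (XT.lf (nat_lit 76) (nat_lit 3635161368) (nat_lit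 0) (nat_lit 1689762527) (nat_lit 1596) (nat_lit 4113152672) (nat_lit 449) (nat_lit 5) (nat_lit 448) (nat_lit 5) (nat_lit 469) (nat_lit 5) (nat_lit 430) (nat_lit 407) (nat_lit 303))) (XT.nd (nat_lit 78) (nat_lit 1520) (nat_lit 0) (XT.lf (nat_lit 0) (nat_lit 6765658549) (nat_lit 1520) (nat_lit 966841321) (nat_lit 76) (nat_lit 1792941991) (nat_lit 449) (nat_lit 5) (nat_lit 469) (nat_lit 5) (nat_lit 450) (nat_lit 5) (nat_lit 431) (nat_lit 407) (nat_lit 302)) (XT.lf (nat_lit 0) (nat_lit 3989672324) (nat_lit 1520) (nat_lit 4261197860) (nat_lit 1596) (nat_lit 1363386479) (nat_lit 429) (nat_lit 5) (nat_lit 449) (nat_lit 5) (nat_lit 450) (nat_lit 5) (nat_lit 432) (nat_lit 407) (nat_lit 301)))))) (XT.nd (nat_lit 546) (nat_lit 2660) (nat_lit 0) (XT.nd (nat_lit 234) (nat_lit 3952) (nat_lit 0) (XT.nd (nat_lit 78) (nat_lit 1596) (nat_lit 0) (XT.lf (nat_lit 0) (nat_lit 45391318) (nat_lit 1596) (nat_lit 664334143) (nat_lit 76)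 (nat_lit 8995424194) (nat_lit 428) (nat_lit 5) (nat_lit 449) (nat_lit 5) (nat_lit 429) (nat_lit 5) (nat_lit 433) (nat_lit 407) (nat_lit 300)) (XT.nd (nat_lit 78) (nat_lit 0) (nat_lit 0) (XT.lf (nat_lit 0) (nat_lit 1491172078) (nat_lit 1672) (nat_lit 5389825006) (nat_lit 76) (nat_lit 2916156078) (nat_lit 407) (nat_lit 5) (nat_lit 429) (nat_lit 5) (nat_lit 408) (nat_lit 5) (nat_lit 434) (nat_lit 407) (nat_lit 299)) (XT.lf (nat_lit 0) (nat_lit 2954514653) (nat_lit 1672) (nat_lit 323797061) (nat_lit 76) (nat_lit 6612926373) (nat_lit 407) (nat_lit 5) (nat_lit 429) (nat_lit 5) (nat_lit 408) (nat_lit 5) (nat_lit 435) (nat_lit 407) (nat_lit 298)))) (XT.nd (nat_lit 156) (nat_lit 836) (nat_lit 0) (XT.nd (nat_lit 78) (nat_lit 1444) (nat_lit 0) (XT.lf (nat_lit 0) (nat_lit 4461540299) (nat_lit 1748) (nat_lit 5099342694) (nat_lit 76) (nat_lit 426047388) (nat_lit 385) (nat_lit 5) (nat_lit 408) (nat_lit 5) (nat_lit 386) (nat_lit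 5) (nat_lit 436) (nat_lit 407) (nat_lit 297)) (XT.lf (nat_lit 0) (nat_lit 84926074) (nat_lit 1444) (nat_lit 5918392289) (nat_lit 1520) (nat_lit 4081139636) (nat_lit 366) (nat_lit 5) (nat_lit 385) (nat_lit 5) (nat_lit 386) (nat_lit 5) (nat_lit 437) (nat_lit 407) (nat_lit 296))) (XT.nd (nat_lit 78) (nat_lit 836) (nat_lit 0) (XT.lf (nat_lit 0) (nat_lit 5424559764) (nat_lit 1444) (nat_lit 2166029810) (nat_lit 1520) (nat_lit 2593066894) (nat_lit 366) (nat_lit 5) (nat_lit 385) (nat_lit 5) (nat_lit 386) (nat_lit 5) (nat_lit 438) (nat_lit 407) (nat_lit 295)) (XT.lf (nat_lit 0) (nat_lit 565262365) (nat_lit 836) (nat_lit 8639636043) (nat_lit 912) (nat_lit 1080047842) (nat_lit 355) (nat_lit 5) (nat_lit 366) (nat_lit 5) (nat_lit 367) (nat_lit 5) (nat_lit 439) (nat_lit 407) (nat_lit 294))))) (XT.nd (nat_lit 234) (nat_lit 1672) (nat_lit 0) (XT.nd (nat_lit 78) (nat_lit 912) (nat_lit 0) (XT.lf (nat_lit 0) (nat_lit 484608585) (nat_lit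 912) (nat_lit 4362229439) (nat_lit 76) (nat_lit 5540827278) (nat_lit 354) (nat_lit 5) (nat_lit 366) (nat_lit 5) (nat_lit 355) (nat_lit 5) (nat_lit 440) (nat_lit 407) (nat_lit 293)) (XT.nd (nat_lit 78) (nat_lit 0) (nat_lit 0) (XT.lf (nat_lit 0) (nat_lit 1092230490) (nat_lit 912) (nat_lit 962304393) (nat_lit 988) (nat_lit 8438004722) (nat_lit 342) (nat_lit 5) (nat_lit 354) (nat_lit 5) (nat_lit 355) (nat_lit 5) (nat_lit 441) (nat_lit 407) (nat_lit 292)) (XT.lf (nat_lit 0) (nat_lit 3686399655) (nat_lit 988) (nat_lit 3921276614) (nat_lit 76) (nat_lit 2991236510) (nat_lit 342) (nat_lit 5) (nat_lit 355) (nat_lit 5) (nat_lit 343) (nat_lit 5) (nat_lit 442) (nat_lit 407) (nat_lit 291)))) (XT.nd (nat_lit 156) (nat_lit 836) (nat_lit 0) (XT.nd (nat_lit 78) (nat_lit 0) (nat_lit 0) (XT.lf (nat_lit 0) (nat_lit 1665562585) (nat_lit 836) (nat_lit 3684482577) (nat_lit 912) (nat_lit 5357397328) (nat_lit 331) (nat_lit 5) (nat_lit 342)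 (nat_lit 5) (nat_lit 343) (nat_lit 5) (nat_lit 443) (nat_lit 407) (nat_lit 290)) (XT.lf (nat_lit 0) (nat_lit 7057714517) (nat_lit 912) (nat_lit 3420061429) (nat_lit 76) (nat_lit 340163540) (nat_lit 331) (nat_lit 5) (nat_lit 343) (nat_lit 5) (nat_lit 332) (nat_lit 5) (nat_lit 444) (nat_lit 407) (nat_lit 289))) (XT.nd (nat_lit 78) (nat_lit 0) (nat_lit 0) (XT.lf (nat_lit 0) (nat_lit 2302834328) (nat_lit 836) (nat_lit 6518607487) (nat_lit 912) (nat_lit 2108777993) (nat_lit 320) (nat_lit 5) (nat_lit 331) (nat_lit 5) (nat_lit 332) (nat_lit 5) (nat_lit 445) (nat_lit 407) (nat_lit 288)) (XT.lf (nat_lit 0) (nat_lit 8169500104) (nat_lit 836) (nat_lit 2456677874) (nat_lit 912) (nat_lit 418464328) (nat_lit 320) (nat_lit 5) (nat_lit 331) (nat_lit 5) (nat_lit 332) (nat_lit 5) (nat_lit 446) (nat_lit 407) (nat_lit 287))))))) (XT.nd (nat_lit 1092) (nat_lit 4560) (nat_lit 0) (XT.nd (nat_lit 546) (nat_lit 2736) (nat_lit 0) (XT.nd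 (nat_lit 234) (nat_lit 1520) (nat_lit 0) (XT.nd (nat_lit 78) (nat_lit 760) (nat_lit 0) (XT.lf (nat_lit 0) (nat_lit 1302183938) (nat_lit 836) (nat_lit 8166135065) (nat_lit 76) (nat_lit 1692602480) (nat_lit 309) (nat_lit 5) (nat_lit 320) (nat_lit 5) (nat_lit 310) (nat_lit 5) (nat_lit 447) (nat_lit 407) (nat_lit 286)) (XT.nd (nat_lit 78) (nat_lit 760) (nat_lit 0) (XT.lf (nat_lit 0) (nat_lit 3070560489) (nat_lit 836) (nat_lit 2294406345) (nat_lit 76) (nat_lit 5914136321) (nat_lit 309) (nat_lit 5) (nat_lit 320) (nat_lit 5) (nat_lit 310) (nat_lit 5) (nat_lit 448) (nat_lit 407) (nat_lit 285)) (XT.lf (nat_lit 0) (nat_lit 3726786930) (nat_lit 760) (nat_lit 1155265823) (nat_lit 836) (nat_lit 6517451141) (nat_lit 299) (nat_lit 5) (nat_lit 309) (nat_lit 5) (nat_lit 310) (nat_lit 5) (nat_lit 449) (nat_lit 407) (nat_lit 284)))) (XT.nd (nat_lit 156) (nat_lit 836) (nat_lit 0) (XT.nd (nat_lit 78) (nat_lit 684) (nat_lit 0) (XT.lf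 (nat_lit 0) (nat_lit 6749413572) (nat_lit 836) (nat_lit 1660047679) (nat_lit 76) (nat_lit 3112468817) (nat_lit 299) (nat_lit 5) (nat_lit 310) (nat_lit 5) (nat_lit 300) (nat_lit 5) (nat_lit 450) (nat_lit 407) (nat_lit 283)) (XT.lf (nat_lit 0) (nat_lit 4507608707) (nat_lit 684) (nat_lit 4167510451) (nat_lit 760) (nat_lit 2971275649) (nat_lit 290) (nat_lit 5) (nat_lit 299) (nat_lit 5) (nat_lit 300) (nat_lit 5) (nat_lit 451) (nat_lit 407) (nat_lit 282))) (XT.nd (nat_lit 78) (nat_lit 836) (nat_lit 0) (XT.lf (nat_lit 0) (nat_lit 10635865293) (nat_lit 760) (nat_lit 970055097) (nat_lit 76) (nat_lit 167507721) (nat_lit 290) (nat_lit 5) (nat_lit 300) (nat_lit 5) (nat_lit 291) (nat_lit 5) (nat_lit 452) (nat_lit 407) (nat_lit 281)) (XT.lf (nat_lit 0) (nat_lit 770423353) (nat_lit 836) (nat_lit 6559160769) (nat_lit 76) (nat_lit 4572388011) (nat_lit 279) (nat_lit 5) (nat_lit 290) (nat_lit 5) (nat_lit 280) (nat_lit 5) (nat_lit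 453) (nat_lit 407) (nat_lit 280))))) (XT.nd (nat_lit 234) (nat_lit 1368) (nat_lit 0) (XT.nd (nat_lit 78) (nat_lit 1368) (nat_lit 0) (XT.lf (nat_lit 0) (nat_lit 2692576203) (nat_lit 836) (nat_lit 262162179) (nat_lit 76) (nat_lit 9078382721) (nat_lit 279) (nat_lit 5) (nat_lit 290) (nat_lit 5) (nat_lit 280) (nat_lit 5) (nat_lit 454) (nat_lit 407) (nat_lit 279)) (XT.nd (nat_lit 78) (nat_lit 684) (nat_lit 0) (XT.lf (nat_lit 0) (nat_lit 4688615531) (nat_lit 760) (nat_lit 5950394831) (nat_lit 76) (nat_lit 1527182874) (nat_lit 270) (nat_lit 5) (nat_lit 280) (nat_lit 5) (nat_lit 271) (nat_lit 5) (nat_lit 455) (nat_lit 407) (nat_lit 278)) (XT.lf (nat_lit 0) (nat_lit 495323053) (nat_lit 684) (nat_lit 6238959425) (nat_lit 760) (nat_lit 5567459070) (nat_lit 261) (nat_lit 5) (nat_lit 270) (nat_lit 5) (nat_lit 271) (nat_lit 5) (nat_lit 456) (nat_lit 407) (nat_lit 277)))) (XT.nd (nat_lit 156) (nat_lit 760) (nat_lit 0) (XT.nd (nat_lit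 78) (nat_lit 608) (nat_lit 0) (XT.lf (nat_lit 0) (nat_lit 7134149509) (nat_lit 684) (nat_lit 1711979938) (nat_lit 760) (nat_lit 3593374747) (nat_lit 261) (nat_lit 5) (nat_lit 270) (nat_lit 5) (nat_lit 271) (nat_lit 5) (nat_lit 457) (nat_lit 407) (nat_lit 276)) (XT.lf (nat_lit 0) (nat_lit 1307588270) (nat_lit 608) (nat_lit 9705591958) (nat_lit 684) (nat_lit 1566591056) (nat_lit 253) (nat_lit 5) (nat_lit 261) (nat_lit 5) (nat_lit 262) (nat_lit 5) (nat_lit 458) (nat_lit 407) (nat_lit 275))) (XT.nd (nat_lit 78) (nat_lit 684) (nat_lit 0) (XT.lf (nat_lit 0) (nat_lit 527022521) (nat_lit 684) (nat_lit 4628767614) (nat_lit 76) (nat_lit 7566339530) (nat_lit 252) (nat_lit 5) (nat_lit 261) (nat_lit 5) (nat_lit 253) (nat_lit 5) (nat_lit 459) (nat_lit 407) (nat_lit 274)) (XT.lf (nat_lit 0) (nat_lit 2149134418) (nat_lit 684) (nat_lit 492337420) (nat_lit 760) (nat_lit 10225665508) (nat_lit 243) (nat_lit 5) (nat_lit 252) (nat_lit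 5) (nat_lit 253) (nat_lit 5) (nat_lit 460) (nat_lit 407) (nat_lit 273)))))) (XT.nd (nat_lit 546) (nat_lit 2736) (nat_lit 0) (XT.nd (nat_lit 234) (nat_lit 1216) (nat_lit 0) (XT.nd (nat_lit 78) (nat_lit 608) (nat_lit 0) (XT.lf (nat_lit 0) (nat_lit 4843287705) (nat_lit 760) (nat_lit 3933335549) (nat_lit 76) (nat_lit 4237528254) (nat_lit 243) (nat_lit 5) (nat_lit 253) (nat_lit 5) (nat_lit 244) (nat_lit 5) (nat_lit 461) (nat_lit 407) (nat_lit 272)) (XT.nd (nat_lit 78) (nat_lit 0) (nat_lit 0) (XT.lf (nat_lit 0) (nat_lit 3007167604) (nat_lit 608) (nat_lit 4091152597) (nat_lit 684) (nat_lit 6065609872) (nat_lit 235) (nat_lit 5) (nat_lit 243) (nat_lit 5) (nat_lit 244) (nat_lit 5) (nat_lit 462) (nat_lit 407) (nat_lit 271)) (XT.lf (nat_lit 0) (nat_lit 9416032463) (nat_lit 684) (nat_lit 3197211363) (nat_lit 76) (nat_lit 703116375) (nat_lit 235) (nat_lit 5) (nat_lit 244) (nat_lit 5) (nat_lit 236) (nat_lit 5) (nat_lit 463) (nat_lit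 407) (nat_lit 270)))) (XT.nd (nat_lit 156) (nat_lit 532) (nat_lit 0) (XT.nd (nat_lit 78) (nat_lit 76) (nat_lit 0) (XT.lf (nat_lit 0) (nat_lit 3909841454) (nat_lit 608) (nat_lit 7909542833) (nat_lit 684) (nat_lit 1651676364) (nat_lit 227) (nat_lit 5) (nat_lit 235) (nat_lit 5) (nat_lit 236) (nat_lit 5) (nat_lit 464) (nat_lit 407) (nat_lit 269)) (XT.lf (nat_lit 0) (nat_lit 641994927) (nat_lit 684) (nat_lit 2446312745) (nat_lit 76) (nat_lit 10540301891) (nat_lit 226) (nat_lit 5) (nat_lit 235) (nat_lit 5) (nat_lit 227) (nat_lit 5) (nat_lit 465) (nat_lit 407) (nat_lit 268))) (XT.nd (nat_lit 78) (nat_lit 0) (nat_lit 0) (XT.lf (nat_lit 0) (nat_lit 2990186998) (nat_lit 608) (nat_lit 8952969631) (nat_lit 76) (nat_lit 1845326204) (nat_lit 219) (nat_lit 5) (nat_lit 227) (nat_lit 5) (nat_lit 220) (nat_lit 5) (nat_lit 466) (nat_lit 407) (nat_lit 267)) (XT.lf (nat_lit 0) (nat_lit 5409579894) (nat_lit 608) (nat_lit 1691428696)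 (nat_lit 76) (nat_lit 6850067099) (nat_lit 219) (nat_lit 5) (nat_lit 227) (nat_lit 5) (nat_lit 220) (nat_lit 5) (nat_lit 467) (nat_lit 407) (nat_lit 266))))) (XT.nd (nat_lit 312) (nat_lit 1520) (nat_lit 0) (XT.nd (nat_lit 156) (nat_lit 608) (nat_lit 0) (XT.nd (nat_lit 78) (nat_lit 0) (nat_lit 0) (XT.lf (nat_lit 0) (nat_lit 5775622317) (nat_lit 608) (nat_lit 2126747160) (nat_lit 684) (nat_lit 6214057474) (nat_lit 211) (nat_lit 5) (nat_lit 219) (nat_lit 5) (nat_lit 220) (nat_lit 5) (nat_lit 468) (nat_lit 407) (nat_lit 265)) (XT.lf (nat_lit 0) (nat_lit 10463209443) (nat_lit 684) (nat_lit 904726333) (nat_lit 76) (nat_lit 2916792162) (nat_lit 211) (nat_lit 5) (nat_lit 220) (nat_lit 5) (nat_lit 212) (nat_lit 5) (nat_lit 469) (nat_lit 407) (nat_lit 264))) (XT.nd (nat_lit 78) (nat_lit 76) (nat_lit 0) (XT.lf (nat_lit 0) (nat_lit 6739078069) (nat_lit 532) (nat_lit 6381904742) (nat_lit 608) (nat_lit 1334504268) (nat_lit 204)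 (nat_lit 5) (nat_lit 211) (nat_lit 5) (nat_lit 212) (nat_lit 5) (nat_lit 470) (nat_lit 407) (nat_lit 263)) (XT.lf (nat_lit 0) (nat_lit 1180524956) (nat_lit 608) (nat_lit 104724870) (nat_lit 76) (nat_lit 13344380824) (nat_lit 203) (nat_lit 5) (nat_lit 211) (nat_lit 5) (nat_lit 204) (nat_lit 5) (nat_lit 471) (nat_lit 407) (nat_lit 262)))) (XT.nd (nat_lit 156) (nat_lit 532) (nat_lit 0) (XT.nd (nat_lit 78) (nat_lit 456) (nat_lit 0) (XT.lf (nat_lit 0) (nat_lit 3792180576) (nat_lit 608) (nat_lit 7095332466) (nat_lit 76) (nat_lit 3918289825) (nat_lit 196) (nat_lit 5) (nat_lit 204) (nat_lit 5) (nat_lit 197) (nat_lit 5) (nat_lit 472) (nat_lit 407) (nat_lit 261)) (XT.lf (nat_lit 0) (nat_lit 683168621) (nat_lit 456) (nat_lit 5774836643) (nat_lit 532) (nat_lit 8527460516) (nat_lit 190) (nat_lit 5) (nat_lit 196) (nat_lit 5) (nat_lit 197) (nat_lit 5) (nat_lit 473) (nat_lit 407) (nat_lit 260))) (XT.nd (nat_lit 78) (nat_lit 532)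 (nat_lit 0) (XT.lf (nat_lit 0) (nat_lit 8698339002) (nat_lit 456) (nat_lit 514834100) (nat_lit 532) (nat_lit 5954834170) (nat_lit 190) (nat_lit 5) (nat_lit 196) (nat_lit 5) (nat_lit 197) (nat_lit 5) (nat_lit 474) (nat_lit 407) (nat_lit 259)) (XT.lf (nat_lit 0) (nat_lit 1492703620) (nat_lit 532) (nat_lit 10560542307) (nat_lit 608) (nat_lit 3300363376) (nat_lit 183) (nat_lit 5) (nat_lit 190) (nat_lit 5) (nat_lit 191) (nat_lit 5) (nat_lit 475) (nat_lit 407) (nat_lit 258))))))))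
noncomputable def xc166 : XT := (XT.nd (nat_lit 2184) (nat_lit 2888) (nat_lit 0) (XT.nd (nat_lit 1092) (nat_lit 2584) (nat_lit 0) (XT.nd (nat_lit 546) (nat_lit 1748) (nat_lit 0) (XT.nd (nat_lit 234) (nat_lit 988) (nat_lit 0) (XT.nd (nat_lit 78) (nat_lit 532) (nat_lit 0) (XT.lf (nat_lit 0) (nat_lit 9683670007) (nat_lit 532) (nat_lit 5301996800) (nat_lit 608) (nat_lit 556551262) (nat_lit 183) (nat_lit 5) (nat_lit 190) (nat_lit 5) (nat_lit 191) (nat_lit 5) (nat_lit 476) (nat_lit 407) (nat_lit 257)) (XT.nd (nat_lit 78) (nat_lit 0) (nat_lit 0) (XT.lf (nat_lit 0) (nat_lit 2217154551) (nat_lit 532) (nat_lit 13430039296) (nat_lit 76) (nat_lit 87030953) (nat_lit 176) (nat_lit 5) (nat_lit 183) (nat_lit 5) (nat_lit 177) (nat_lit 5) (nat_lit 477) (nat_lit 407) (nat_lit 256)) (XT.lf (nat_lit 0) (nat_lit 5102561808) (nat_lit 532) (nat_lit 5273617577) (nat_lit 76) (nat_lit 5552550418) (nat_lit 176) (nat_lit 5) (nat_lit 183) (nat_lit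 5) (nat_lit 177) (nat_lit 5) (nat_lit 478) (nat_lit 407) (nat_lit 255)))) (XT.nd (nat_lit 156) (nat_lit 532) (nat_lit 0) (XT.nd (nat_lit 78) (nat_lit 0) (nat_lit 0) (XT.lf (nat_lit 0) (nat_lit 3071647784) (nat_lit 456) (nat_lit 4983174288) (nat_lit 532) (nat_lit 8072125135) (nat_lit 170) (nat_lit 5) (nat_lit 176) (nat_lit 5) (nat_lit 177) (nat_lit 5) (nat_lit 479) (nat_lit 407) (nat_lit 254)) (XT.lf (nat_lit 0) (nat_lit 11094406660) (nat_lit 532) (nat_lit 4691381240) (nat_lit 76) (nat_lit 542780574) (nat_lit 170) (nat_lit 5) (nat_lit 177) (nat_lit 5) (nat_lit 171) (nat_lit 5) (nat_lit 480) (nat_lit 407) (nat_lit 253))) (XT.nd (nat_lit 78) (nat_lit 76) (nat_lit 0) (XT.lf (nat_lit 0) (nat_lit 3842832983) (nat_lit 456) (nat_lit 10399406049) (nat_lit 532) (nat_lit 2291039008) (nat_lit 164) (nat_lit 5) (nat_lit 170) (nat_lit 5) (nat_lit 171) (nat_lit 5) (nat_lit 481) (nat_lit 407) (nat_lit 252)) (XT.lf (nat_lit 0) (nat_lit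 722856353) (nat_lit 532) (nat_lit 4149381951) (nat_lit 76) (nat_lit 11869331293) (nat_lit 163) (nat_lit 5) (nat_lit 170) (nat_lit 5) (nat_lit 164) (nat_lit 5) (nat_lit 482) (nat_lit 407) (nat_lit 251))))) (XT.nd (nat_lit 234) (nat_lit 912) (nat_lit 0) (XT.nd (nat_lit 78) (nat_lit 380) (nat_lit 0) (XT.lf (nat_lit 0) (nat_lit 3791196686) (nat_lit 532) (nat_lit 12365152672) (nat_lit 76) (nat_lit 796882578) (nat_lit 157) (nat_lit 5) (nat_lit 164) (nat_lit 5) (nat_lit 158) (nat_lit 5) (nat_lit 483) (nat_lit 407) (nat_lit 250)) (XT.nd (nat_lit 78) (nat_lit 380) (nat_lit 0) (XT.lf (nat_lit 0) (nat_lit 6971032769) (nat_lit 532) (nat_lit 3658721630) (nat_lit 76) (nat_lit 6538375162) (nat_lit 157) (nat_lit 5) (nat_lit 164) (nat_lit 5) (nat_lit 158) (nat_lit 5) (nat_lit 484) (nat_lit 407) (nat_lit 249)) (XT.lf (nat_lit 0) (nat_lit 5277091380) (nat_lit 380) (nat_lit 4961669438) (nat_lit 456) (nat_lit 7148082940) (nat_lit 152)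 (nat_lit 5) (nat_lit 157) (nat_lit 5) (nat_lit 158) (nat_lit 5) (nat_lit 485) (nat_lit 407) (nat_lit 248)))) (XT.nd (nat_lit 156) (nat_lit 456) (nat_lit 0) (XT.nd (nat_lit 78) (nat_lit 456) (nat_lit 0) (XT.lf (nat_lit 0) (nat_lit 13591992803) (nat_lit 456) (nat_lit 3187751263) (nat_lit 76) (nat_lit 829789624) (nat_lit 152) (nat_lit 5) (nat_lit 158) (nat_lit 5) (nat_lit 153) (nat_lit 5) (nat_lit 486) (nat_lit 407) (nat_lit 247)) (XT.lf (nat_lit 0) (nat_lit 5944022854) (nat_lit 456) (nat_lit 11130024017) (nat_lit 532) (nat_lit 761399750) (nat_lit 146) (nat_lit 5) (nat_lit 152) (nat_lit 5) (nat_lit 153) (nat_lit 5) (nat_lit 487) (nat_lit 407) (nat_lit 246))) (XT.nd (nat_lit 78) (nat_lit 380) (nat_lit 0) (XT.lf (nat_lit 0) (nat_lit 2538164008) (nat_lit 532) (nat_lit 2794375933) (nat_lit 76) (nat_lit 12732772187) (nat_lit 145) (nat_lit 5) (nat_lit 152) (nat_lit 5) (nat_lit 146) (nat_lit 5) (nat_lit 488) (nat_lit 407)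 (nat_lit 245)) (XT.lf (nat_lit 0) (nat_lit 5930662530) (nat_lit 456) (nat_lit 11751112903) (nat_lit 76) (nat_lit 617160181) (nat_lit 140) (nat_lit 5) (nat_lit 146) (nat_lit 5) (nat_lit 141) (nat_lit 5) (nat_lit 489) (nat_lit 407) (nat_lit 244)))))) (XT.nd (nat_lit 546) (nat_lit 1368) (nat_lit 0) (XT.nd (nat_lit 234) (nat_lit 836) (nat_lit 0) (XT.nd (nat_lit 78) (nat_lit 380) (nat_lit 0) (XT.lf (nat_lit 0) (nat_lit 9435802850) (nat_lit 456) (nat_lit 2471164159) (nat_lit 76) (nat_lit 6629372743) (nat_lit 140) (nat_lit 5) (nat_lit 146) (nat_lit 5) (nat_lit 141) (nat_lit 5) (nat_lit 490) (nat_lit 407) (nat_lit 243)) (XT.nd (nat_lit 78) (nat_lit 0) (nat_lit 0) (XT.lf (nat_lit 0) (nat_lit 7073812353) (nat_lit 380) (nat_lit 5973946874) (nat_lit 456) (nat_lit 5730002421) (nat_lit 135) (nat_lit 5) (nat_lit 140) (nat_lit 5) (nat_lit 141) (nat_lit 5) (nat_lit 491) (nat_lit 407) (nat_lit 242)) (XT.lf (nat_lit 0) (nat_lit 16740005168)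 (nat_lit 456) (nat_lit 2194526293) (nat_lit 76) (nat_lit 89323375) (nat_lit 135) (nat_lit 5) (nat_lit 141) (nat_lit 5) (nat_lit 136) (nat_lit 5) (nat_lit 492) (nat_lit 407) (nat_lit 241)))) (XT.nd (nat_lit 156) (nat_lit 380) (nat_lit 0) (XT.nd (nat_lit 78) (nat_lit 0) (nat_lit 0) (XT.lf (nat_lit 0) (nat_lit 1295225716) (nat_lit 456) (nat_lit 11730395806) (nat_lit 76) (nat_lit 6247489254) (nat_lit 129) (nat_lit 5) (nat_lit 135) (nat_lit 5) (nat_lit 130) (nat_lit 5) (nat_lit 493) (nat_lit 407) (nat_lit 240)) (XT.lf (nat_lit 0) (nat_lit 4921215400) (nat_lit 456) (nat_lit 2051021161) (nat_lit 76) (nat_lit 12554698717) (nat_lit 129) (nat_lit 5) (nat_lit 135) (nat_lit 5) (nat_lit 130) (nat_lit 5) (nat_lit 494) (nat_lit 407) (nat_lit 239))) (XT.nd (nat_lit 78) (nat_lit 0) (nat_lit 0) (XT.lf (nat_lit 0) (nat_lit 7912787290) (nat_lit 380) (nat_lit 749548923) (nat_lit 456) (nat_lit 11122651400) (nat_lit 124) (nat_lit 5)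 (nat_lit 129) (nat_lit 5) (nat_lit 130) (nat_lit 5) (nat_lit 495) (nat_lit 407) (nat_lit 238)) (XT.lf (nat_lit 0) (nat_lit 12519774930) (nat_lit 456) (nat_lit 1993682278) (nat_lit 76) (nat_lit 5533917375) (nat_lit 124) (nat_lit 5) (nat_lit 130) (nat_lit 5) (nat_lit 125) (nat_lit 5) (nat_lit 496) (nat_lit 407) (nat_lit 237))))) (XT.nd (nat_lit 234) (nat_lit 608) (nat_lit 0) (XT.nd (nat_lit 78) (nat_lit 456) (nat_lit 0) (XT.lf (nat_lit 0) (nat_lit 8171876521) (nat_lit 304) (nat_lit 8331975301) (nat_lit 380) (nat_lit 3810171113) (nat_lit 120) (nat_lit 5) (nat_lit 124) (nat_lit 5) (nat_lit 125) (nat_lit 5) (nat_lit 497) (nat_lit 407) (nat_lit 236)) (XT.nd (nat_lit 78) (nat_lit 456) (nat_lit 0) (XT.lf (nat_lit 0) (nat_lit 18555113874) (nat_lit 304) (nat_lit 2017428402) (nat_lit 380) (nat_lit 13366700) (nat_lit 120) (nat_lit 5) (nat_lit 124) (nat_lit 5) (nat_lit 125) (nat_lit 5) (nat_lit 498) (nat_lit 407) (nat_lit 235))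 (XT.lf (nat_lit 0) (nat_lit 3883880785) (nat_lit 456) (nat_lit 12536257789) (nat_lit 76) (nat_lit 4441093776) (nat_lit 114) (nat_lit 5) (nat_lit 120) (nat_lit 5) (nat_lit 115) (nat_lit 5) (nat_lit 499) (nat_lit 407) (nat_lit 234)))) (XT.nd (nat_lit 156) (nat_lit 304) (nat_lit 0) (XT.nd (nat_lit 78) (nat_lit 304) (nat_lit 0) (XT.lf (nat_lit 0) (nat_lit 7877689274) (nat_lit 456) (nat_lit 2252523397) (nat_lit 76) (nat_lit 11011475023) (nat_lit 114) (nat_lit 5) (nat_lit 120) (nat_lit 5) (nat_lit 115) (nat_lit 5) (nat_lit 500) (nat_lit 407) (nat_lit 233)) (XT.lf (nat_lit 0) (nat_lit 8333850220) (nat_lit 304) (nat_lit 3663511479) (nat_lit 380) (nat_lit 9429473797) (nat_lit 110) (nat_lit 5) (nat_lit 114) (nat_lit 5) (nat_lit 115) (nat_lit 5) (nat_lit 501) (nat_lit 407) (nat_lit 232))) (XT.nd (nat_lit 78) (nat_lit 304) (nat_lit 0) (XT.lf (nat_lit 0) (nat_lit 16225614386) (nat_lit 380) (nat_lit 2586429853) (nat_lit 76)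 (nat_lit 2905121323) (nat_lit 110) (nat_lit 5) (nat_lit 115) (nat_lit 5) (nat_lit 111) (nat_lit 5) (nat_lit 502) (nat_lit 407) (nat_lit 231)) (XT.lf (nat_lit 0) (nat_lit 8201410162) (nat_lit 304) (nat_lit 12406622041) (nat_lit 380) (nat_lit 1403881012) (nat_lit 106) (nat_lit 5) (nat_lit 110) (nat_lit 5) (nat_lit 111) (nat_lit 5) (nat_lit 503) (nat_lit 407) (nat_lit 230))))))) (XT.nd (nat_lit 1092) (nat_lit 760) (nat_lit 0) (XT.nd (nat_lit 546) (nat_lit 1140) (nat_lit 0) (XT.nd (nat_lit 234) (nat_lit 608) (nat_lit 0) (XT.nd (nat_lit 78) (nat_lit 304) (nat_lit 0) (XT.lf (nat_lit 0) (nat_lit 2738854619) (nat_lit 380) (nat_lit 3102388264) (nat_lit 76) (nat_lit 16470765040) (nat_lit 105) (nat_lit 5) (nat_lit 110) (nat_lit 5) (nat_lit 106) (nat_lit 5) (nat_lit 504) (nat_lit 407) (nat_lit 229)) (XT.nd (nat_lit 78) (nat_lit 0) (nat_lit 0) (XT.lf (nat_lit 0) (nat_lit 6995165763) (nat_lit 380) (nat_lit 14720683364) (nat_lit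 76) (nat_lit 901082245) (nat_lit 101) (nat_lit 5) (nat_lit 106) (nat_lit 5) (nat_lit 102) (nat_lit 5) (nat_lit 505) (nat_lit 407) (nat_lit 228)) (XT.lf (nat_lit 0) (nat_lit 11388556859) (nat_lit 380) (nat_lit 3821434836) (nat_lit 76) (nat_lit 7716925276) (nat_lit 101) (nat_lit 5) (nat_lit 106) (nat_lit 5) (nat_lit 102) (nat_lit 5) (nat_lit 506) (nat_lit 407) (nat_lit 227)))) (XT.nd (nat_lit 156) (nat_lit 304) (nat_lit 0) (XT.nd (nat_lit 78) (nat_lit 0) (nat_lit 0) (XT.lf (nat_lit 0) (nat_lit 7380847830) (nat_lit 304) (nat_lit 8529353495) (nat_lit 380) (nat_lit 7332095953) (nat_lit 97) (nat_lit 5) (nat_lit 101) (nat_lit 5) (nat_lit 102) (nat_lit 5) (nat_lit 507) (nat_lit 407) (nat_lit 226)) (XT.lf (nat_lit 0) (nat_lit 18847302044) (nat_lit 304) (nat_lit 1693156627) (nat_lit 380) (nat_lit 3023165572) (nat_lit 97) (nat_lit 5) (nat_lit 101) (nat_lit 5) (nat_lit 102) (nat_lit 5) (nat_lit 508) (nat_lit 407) (nat_lit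 225))) (XT.nd (nat_lit 78) (nat_lit 0) (nat_lit 0) (XT.lf (nat_lit 0) (nat_lit 1424808791) (nat_lit 304) (nat_lit 17205697814) (nat_lit 76) (nat_lit 5259278365) (nat_lit 93) (nat_lit 5) (nat_lit 97) (nat_lit 5) (nat_lit 94) (nat_lit 5) (nat_lit 509) (nat_lit 407) (nat_lit 224)) (XT.lf (nat_lit 0) (nat_lit 5957046250) (nat_lit 304) (nat_lit 5888435403) (nat_lit 76) (nat_lit 12375874420) (nat_lit 93) (nat_lit 5) (nat_lit 97) (nat_lit 5) (nat_lit 94) (nat_lit 5) (nat_lit 510) (nat_lit 407) (nat_lit 223))))) (XT.nd (nat_lit 234) (nat_lit 608) (nat_lit 0) (XT.nd (nat_lit 78) (nat_lit 228) (nat_lit 0) (XT.lf (nat_lit 0) (nat_lit 5718811139) (nat_lit 304) (nat_lit 4891065669) (nat_lit 380) (nat_lit 13949085272) (nat_lit 89) (nat_lit 5) (nat_lit 93) (nat_lit 5) (nat_lit 94) (nat_lit 5) (nat_lit 511) (nat_lit 407) (nat_lit 222)) (XT.nd (nat_lit 78) (nat_lit 228) (nat_lit 0) (XT.lf (nat_lit 0) (nat_lit 15402698310) (nat_lit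 380) (nat_lit 7290476562) (nat_lit 76) (nat_lit 2209209051) (nat_lit 89) (nat_lit 5) (nat_lit 94) (nat_lit 5) (nat_lit 90) (nat_lit 5) (nat_lit 512) (nat_lit 407) (nat_lit 221)) (XT.lf (nat_lit 0) (nat_lit 4505709835) (nat_lit 228) (nat_lit 15840310107) (nat_lit 304) (nat_lit 4905563740) (nat_lit 86) (nat_lit 5) (nat_lit 89) (nat_lit 5) (nat_lit 90) (nat_lit 5) (nat_lit 513) (nat_lit 407) (nat_lit 220)))) (XT.nd (nat_lit 156) (nat_lit 228) (nat_lit 0) (XT.nd (nat_lit 78) (nat_lit 380) (nat_lit 0) (XT.lf (nat_lit 0) (nat_lit 16625534365) (nat_lit 228) (nat_lit 8804660211) (nat_lit 304) (nat_lit 176735437) (nat_lit 86) (nat_lit 5) (nat_lit 89) (nat_lit 5) (nat_lit 90) (nat_lit 5) (nat_lit 514) (nat_lit 407) (nat_lit 219)) (XT.lf (nat_lit 0) (nat_lit 3016783203) (nat_lit 304) (nat_lit 1581683651) (nat_lit 380) (nat_lit 21370060465) (nat_lit 81) (nat_lit 5) (nat_lit 85) (nat_lit 5) (nat_lit 86) (nat_lit 5) (nat_lit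 515) (nat_lit 407) (nat_lit 218))) (XT.nd (nat_lit 78) (nat_lit 228) (nat_lit 0) (XT.lf (nat_lit 0) (nat_lit 9558231868) (nat_lit 380) (nat_lit 11009638957) (nat_lit 76) (nat_lit 5767636053) (nat_lit 81) (nat_lit 5) (nat_lit 86) (nat_lit 5) (nat_lit 82) (nat_lit 5) (nat_lit 516) (nat_lit 407) (nat_lit 217)) (XT.lf (nat_lit 0) (nat_lit 1165308890) (nat_lit 228) (nat_lit 13463246504) (nat_lit 304) (nat_lit 12081045503) (nat_lit 78) (nat_lit 5) (nat_lit 81) (nat_lit 5) (nat_lit 82) (nat_lit 5) (nat_lit 517) (nat_lit 407) (nat_lit 216)))))) (XT.nd (nat_lit 50778) (nat_lit 0) (nat_lit 31388) (XT.nd (nat_lit 234) (nat_lit 456) (nat_lit 0) (XT.nd (nat_lit 78) (nat_lit 304) (nat_lit 0) (XT.lf (nat_lit 0) (nat_lit 13722257427) (nat_lit 228) (nat_lit 6145292182) (nat_lit 304) (nat_lit 7222283993) (nat_lit 78) (nat_lit 5) (nat_lit 81) (nat_lit 5) (nat_lit 82) (nat_lit 5) (nat_lit 518) (nat_lit 407) (nat_lit 215)) (XT.nd (nat_lit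 78) (nat_lit 304) (nat_lit 0) (XT.lf (nat_lit 0) (nat_lit 25213374919) (nat_lit 304) (nat_lit 966521834) (nat_lit 76) (nat_lit 1297735235) (nat_lit 78) (nat_lit 5) (nat_lit 82) (nat_lit 5) (nat_lit 79) (nat_lit 5) (nat_lit 519) (nat_lit 407) (nat_lit 214)) (XT.lf (nat_lit 0) (nat_lit 2867867466) (nat_lit 304) (nat_lit 16103830664) (nat_lit 76) (nat_lit 8898896172) (nat_lit 74) (nat_lit 5) (nat_lit 78) (nat_lit 5) (nat_lit 75) (nat_lit 5) (nat_lit 520) (nat_lit 407) (nat_lit 213)))) (XT.nd (nat_lit 156) (nat_lit 228) (nat_lit 0) (XT.nd (nat_lit 78) (nat_lit 228) (nat_lit 0) (XT.lf (nat_lit 0) (nat_lit 8072502324) (nat_lit 304) (nat_lit 3528949301) (nat_lit 76) (nat_lit 16669663109) (nat_lit 74) (nat_lit 5) (nat_lit 78) (nat_lit 5) (nat_lit 75) (nat_lit 5) (nat_lit 521) (nat_lit 407) (nat_lit 212)) (XT.lf (nat_lit 0) (nat_lit 9410614927) (nat_lit 228) (nat_lit 4025468898) (nat_lit 304) (nat_lit 15242466565) (nat_lit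 71) (nat_lit 5) (nat_lit 74) (nat_lit 5) (nat_lit 75) (nat_lit 5) (nat_lit 522) (nat_lit 407) (nat_lit 211))) (XT.nd (nat_lit 78) (nat_lit 228) (nat_lit 0) (XT.lf (nat_lit 0) (nat_lit 18948595546) (nat_lit 304) (nat_lit 6471316876) (nat_lit 76) (nat_lit 3673391022) (nat_lit 71) (nat_lit 5) (nat_lit 75) (nat_lit 5) (nat_lit 72) (nat_lit 5) (nat_lit 523) (nat_lit 407) (nat_lit 210)) (XT.lf (nat_lit 0) (nat_lit 6631480634) (nat_lit 228) (nat_lit 18003498039) (nat_lit 304) (nat_lit 4880102282) (nat_lit 68) (nat_lit 5) (nat_lit 71) (nat_lit 5) (nat_lit 72) (nat_lit 5) (nat_lit 524) (nat_lit 407) (nat_lit 209))))) (XT.nd (nat_lit 312) (nat_lit 1292) (nat_lit 0) (XT.nd (nat_lit 156) (nat_lit 0) (nat_lit 0) (XT.nd (nat_lit 78) (nat_lit 0) (nat_lit 0) (XT.lf (nat_lit 0) (nat_lit 902524888) (nat_lit 0) (nat_lit 902524888) (nat_lit 1292) (nat_lit 2175711114) (nat_lit 498) (nat_lit 5) (nat_lit 498) (nat_lit 3) (nat_lit 515)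 (nat_lit 3) (nat_lit 408) (nat_lit 408) (nat_lit 324)) (XT.lf (nat_lit 0) (nat_lit 4830526928) (nat_lit 1292) (nat_lit 2465044090) (nat_lit 1368) (nat_lit 720932090) (nat_lit 498) (nat_lit 5) (nat_lit 515) (nat_lit 3) (nat_lit 516) (nat_lit 5) (nat_lit 409) (nat_lit 408) (nat_lit 323))) (XT.nd (nat_lit 78) (nat_lit 0) (nat_lit 0) (XT.lf (nat_lit 76) (nat_lit 1288948643) (nat_lit 0) (nat_lit 4775896437) (nat_lit 1368) (nat_lit 2007974188) (nat_lit 499) (nat_lit 5) (nat_lit 498) (nat_lit 5) (nat_lit 516) (nat_lit 5) (nat_lit 410) (nat_lit 408) (nat_lit 322)) (XT.lf (nat_lit 76) (nat_lit 5135327668) (nat_lit 0) (nat_lit 2174723351) (nat_lit 1368) (nat_lit 820511067) (nat_lit 499) (nat_lit 5) (nat_lit 498) (nat_lit 5) (nat_lit 516) (nat_lit 5) (nat_lit 411) (nat_lit 408) (nat_lit 321)))) (XT.nd (nat_lit 156) (nat_lit 0) (nat_lit 0) (XT.nd (nat_lit 78) (nat_lit 0) (nat_lit 0) (XT.lf (nat_lit 0) (nat_lit 364455825) (nat_lit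 1368) (nat_lit 7331443753) (nat_lit 1444) (nat_lit 493955290) (nat_lit 481) (nat_lit 5) (nat_lit 499) (nat_lit 5) (nat_lit 500) (nat_lit 5) (nat_lit 412) (nat_lit 408) (nat_lit 320)) (XT.lf (nat_lit 0) (nat_lit 1567384396) (nat_lit 1368) (nat_lit 3456976350) (nat_lit 1444) (nat_lit 3225782268) (nat_lit 481) (nat_lit 5) (nat_lit 499) (nat_lit 5) (nat_lit 500) (nat_lit 5) (nat_lit 413) (nat_lit 408) (nat_lit 319))) (XT.nd (nat_lit 78) (nat_lit 0) (nat_lit 76) (XT.lf (nat_lit 76) (nat_lit 484862512) (nat_lit 0) (nat_lit 2283837332) (nat_lit 1444) (nat_lit 5543473018) (nat_lit 482) (nat_lit 5) (nat_lit 481) (nat_lit 5) (nat_lit 500) (nat_lit 5) (nat_lit 414) (nat_lit 408) (nat_lit 318)) (XT.lf (nat_lit 0) (nat_lit 3992431276) (nat_lit 1368) (nat_lit 3843091268) (nat_lit 1444) (nat_lit 539975036) (nat_lit 482) (nat_lit 5) (nat_lit 500) (nat_lit 5) (nat_lit 501) (nat_lit 5) (nat_lit 415) (nat_lit 408) (nat_lit 317))))))))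
noncomputable def xc167 : XT := (XT.nd (nat_lit 2184) (nat_lit 11096) (nat_lit 0) (XT.nd (nat_lit 1092) (nat_lit 7904) (nat_lit 0) (XT.nd (nat_lit 546) (nat_lit 1368) (nat_lit 0) (XT.nd (nat_lit 234) (nat_lit 1368) (nat_lit 0) (XT.nd (nat_lit 78) (nat_lit 0) (nat_lit 0) (XT.lf (nat_lit 76) (nat_lit 191497306) (nat_lit 0) (nat_lit 5037779615) (nat_lit 1444) (nat_lit 3211060714) (nat_lit 483) (nat_lit 5) (nat_lit 482) (nat_lit 5) (nat_lit 501) (nat_lit 5) (nat_lit 416) (nat_lit 408) (nat_lit 316)) (XT.nd (nat_lit 78) (nat_lit 0) (nat_lit 76) (XT.lf (nat_lit 76) (nat_lit 4342279985) (nat_lit 0) (nat_lit 2147076137) (nat_lit 1444) (nat_lit 2017169644) (nat_lit 483) (nat_lit 5) (nat_lit 482) (nat_lit 5) (nat_lit 501) (nat_lit 5) (nat_lit 417) (nat_lit 408) (nat_lit 315)) (XT.lf (nat_lit 0) (nat_lit 7753151137) (nat_lit 1368) (nat_lit 20053338) (nat_lit 1444) (nat_lit 801283693) (nat_lit 483) (nat_lit 5) (nat_lit 501)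 (nat_lit 5) (nat_lit 502) (nat_lit 5) (nat_lit 418) (nat_lit 408) (nat_lit 314)))) (XT.nd (nat_lit 156) (nat_lit 0) (nat_lit 76) (XT.nd (nat_lit 78) (nat_lit 0) (nat_lit 0) (XT.lf (nat_lit 0) (nat_lit 408798103) (nat_lit 1444) (nat_lit 4414464419) (nat_lit 1520) (nat_lit 3820203325) (nat_lit 464) (nat_lit 5) (nat_lit 483) (nat_lit 5) (nat_lit 484) (nat_lit 5) (nat_lit 419) (nat_lit 408) (nat_lit 313)) (XT.lf (nat_lit 0) (nat_lit 1626733970) (nat_lit 1444) (nat_lit 172766311) (nat_lit 1520) (nat_lit 6914749896) (nat_lit 464) (nat_lit 5) (nat_lit 483) (nat_lit 5) (nat_lit 484) (nat_lit 5) (nat_lit 420) (nat_lit 408) (nat_lit 312))) (XT.nd (nat_lit 78) (nat_lit 0) (nat_lit 0) (XT.lf (nat_lit 0) (nat_lit 2879386094) (nat_lit 1444) (nat_lit 4602750711) (nat_lit 1520) (nat_lit 1304125447) (nat_lit 465) (nat_lit 5) (nat_lit 484) (nat_lit 5) (nat_lit 485) (nat_lit 5) (nat_lit 421) (nat_lit 408) (nat_lit 311)) (XT.lf (nat_lit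 0) (nat_lit 4145183151) (nat_lit 1444) (nat_lit 259312222) (nat_lit 1520) (nat_lit 4455476192) (nat_lit 465) (nat_lit 5) (nat_lit 484) (nat_lit 5) (nat_lit 485) (nat_lit 5) (nat_lit 422) (nat_lit 408) (nat_lit 310))))) (XT.nd (nat_lit 234) (nat_lit 1444) (nat_lit 0) (XT.nd (nat_lit 78) (nat_lit 0) (nat_lit 76) (XT.lf (nat_lit 76) (nat_lit 4209584109) (nat_lit 0) (nat_lit 1229541135) (nat_lit 1520) (nat_lit 3495991700) (nat_lit 466) (nat_lit 5) (nat_lit 465) (nat_lit 5) (nat_lit 485) (nat_lit 5) (nat_lit 423) (nat_lit 408) (nat_lit 309)) (XT.nd (nat_lit 78) (nat_lit 0) (nat_lit 0) (XT.lf (nat_lit 0) (nat_lit 6749661401) (nat_lit 1444) (nat_lit 270472910) (nat_lit 1520) (nat_lit 1991834719) (nat_lit 466) (nat_lit 5) (nat_lit 485) (nat_lit 5) (nat_lit 486) (nat_lit 5) (nat_lit 424) (nat_lit 408) (nat_lit 308)) (XT.lf (nat_lit 76) (nat_lit 4305283480) (nat_lit 0) (nat_lit 3793612745) (nat_lit 1520) (nat_lit 991229920)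 (nat_lit 467) (nat_lit 5) (nat_lit 466) (nat_lit 5) (nat_lit 486) (nat_lit 5) (nat_lit 425) (nat_lit 408) (nat_lit 307)))) (XT.nd (nat_lit 156) (nat_lit 0) (nat_lit 76) (XT.nd (nat_lit 78) (nat_lit 0) (nat_lit 76) (XT.lf (nat_lit 0) (nat_lit 279669094) (nat_lit 1520) (nat_lit 212527751) (nat_lit 1596) (nat_lit 8678058906) (nat_lit 446) (nat_lit 5) (nat_lit 466) (nat_lit 5) (nat_lit 467) (nat_lit 5) (nat_lit 426) (nat_lit 408) (nat_lit 306)) (XT.lf (nat_lit 0) (nat_lit 1587839193) (nat_lit 1520) (nat_lit 4783792814) (nat_lit 1596) (nat_lit 2879739110) (nat_lit 447) (nat_lit 5) (nat_lit 467) (nat_lit 5) (nat_lit 468) (nat_lit 5) (nat_lit 427) (nat_lit 408) (nat_lit 305))) (XT.nd (nat_lit 78) (nat_lit 0) (nat_lit 76) (XT.lf (nat_lit 0) (nat_lit 2904286410) (nat_lit 1520) (nat_lit 110193884) (nat_lit 1596) (nat_lit 6320002619) (nat_lit 447) (nat_lit 5) (nat_lit 467) (nat_lit 5) (nat_lit 468) (nat_lit 5) (nat_lit 428)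 (nat_lit 408) (nat_lit 304)) (XT.lf (nat_lit 0) (nat_lit 4258349892) (nat_lit 1520) (nat_lit 4720139200) (nat_lit 1596) (nat_lit 440558180) (nat_lit 448) (nat_lit 5) (nat_lit 468) (nat_lit 5) (nat_lit 469) (nat_lit 5) (nat_lit 429) (nat_lit 408) (nat_lit 303)))))) (XT.nd (nat_lit 546) (nat_lit 3268) (nat_lit 0) (XT.nd (nat_lit 234) (nat_lit 3344) (nat_lit 0) (XT.nd (nat_lit 78) (nat_lit 1444) (nat_lit 0) (XT.lf (nat_lit 76) (nat_lit 64216826) (nat_lit 0) (nat_lit 5574624409) (nat_lit 1596) (nat_lit 3866490509) (nat_lit 449) (nat_lit 5) (nat_lit 448) (nat_lit 5) (nat_lit 469) (nat_lit 5) (nat_lit 430) (nat_lit 408) (nat_lit 302)) (XT.nd (nat_lit 78) (nat_lit 1444) (nat_lit 0) (XT.lf (nat_lit 76) (nat_lit 4991300211) (nat_lit 0) (nat_lit 2065855686) (nat_lit 1596) (nat_lit 2535997189) (nat_lit 449) (nat_lit 5) (nat_lit 448) (nat_lit 5) (nat_lit 469) (nat_lit 5) (nat_lit 431) (nat_lit 408) (nat_lit 301)) (XT.lf (nat_lit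 0) (nat_lit 311379228) (nat_lit 1520) (nat_lit 8183291719) (nat_lit 1596) (nat_lit 1188258372) (nat_lit 429) (nat_lit 5) (nat_lit 449) (nat_lit 5) (nat_lit 450) (nat_lit 5) (nat_lit 432) (nat_lit 408) (nat_lit 300)))) (XT.nd (nat_lit 156) (nat_lit 1672) (nat_lit 0) (XT.nd (nat_lit 78) (nat_lit 1596) (nat_lit 0) (XT.lf (nat_lit 0) (nat_lit 207895112) (nat_lit 1596) (nat_lit 4420978754) (nat_lit 76) (nat_lit 5145139460) (nat_lit 428) (nat_lit 5) (nat_lit 449) (nat_lit 5) (nat_lit 429) (nat_lit 5) (nat_lit 433) (nat_lit 408) (nat_lit 299)) (XT.lf (nat_lit 0) (nat_lit 611843040) (nat_lit 1596) (nat_lit 987752754) (nat_lit 1672) (nat_lit 8267509706) (nat_lit 407) (nat_lit 5) (nat_lit 428) (nat_lit 5) (nat_lit 429) (nat_lit 5) (nat_lit 434) (nat_lit 408) (nat_lit 298))) (XT.nd (nat_lit 78) (nat_lit 1672) (nat_lit 0) (XT.lf (nat_lit 0) (nat_lit 3046555546) (nat_lit 1672) (nat_lit 4191357924) (nat_lit 76) (nat_lit 2723611539)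 (nat_lit 407) (nat_lit 5) (nat_lit 429) (nat_lit 5) (nat_lit 408) (nat_lit 5) (nat_lit 435) (nat_lit 408) (nat_lit 297)) (XT.lf (nat_lit 0) (nat_lit 963007585) (nat_lit 1672) (nat_lit 3552496930) (nat_lit 1748) (nat_lit 5542481112) (nat_lit 385) (nat_lit 5) (nat_lit 407) (nat_lit 5) (nat_lit 408) (nat_lit 5) (nat_lit 436) (nat_lit 408) (nat_lit 296))))) (XT.nd (nat_lit 234) (nat_lit 1824) (nat_lit 0) (XT.nd (nat_lit 78) (nat_lit 1444) (nat_lit 0) (XT.lf (nat_lit 0) (nat_lit 6024038079) (nat_lit 1748) (nat_lit 3897280014) (nat_lit 76) (nat_lit 234866701) (nat_lit 385) (nat_lit 5) (nat_lit 408) (nat_lit 5) (nat_lit 386) (nat_lit 5) (nat_lit 437) (nat_lit 408) (nat_lit 295)) (XT.nd (nat_lit 78) (nat_lit 0) (nat_lit 0) (XT.lf (nat_lit 0) (nat_lit 1382094856) (nat_lit 1444) (nat_lit 6194080313) (nat_lit 1520) (nat_lit 2679917305) (nat_lit 366) (nat_lit 5) (nat_lit 385) (nat_lit 5) (nat_lit 386) (nat_lit 5) (nat_lit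 438) (nat_lit 408) (nat_lit 294)) (XT.lf (nat_lit 0) (nat_lit 6803119843) (nat_lit 1444) (nat_lit 2363585876) (nat_lit 1520) (nat_lit 1191158503) (nat_lit 366) (nat_lit 5) (nat_lit 385) (nat_lit 5) (nat_lit 386) (nat_lit 5) (nat_lit 439) (nat_lit 408) (nat_lit 293)))) (XT.nd (nat_lit 156) (nat_lit 912) (nat_lit 0) (XT.nd (nat_lit 78) (nat_lit 0) (nat_lit 0) (XT.lf (nat_lit 0) (nat_lit 326827038) (nat_lit 912) (nat_lit 8595212481) (nat_lit 76) (nat_lit 1539526896) (nat_lit 354) (nat_lit 5) (nat_lit 366) (nat_lit 5) (nat_lit 355) (nat_lit 5) (nat_lit 440) (nat_lit 408) (nat_lit 292)) (XT.lf (nat_lit 0) (nat_lit 1880602243) (nat_lit 912) (nat_lit 3163481432) (nat_lit 76) (nat_lit 5522686097) (nat_lit 354) (nat_lit 5) (nat_lit 366) (nat_lit 5) (nat_lit 355) (nat_lit 5) (nat_lit 441) (nat_lit 408) (nat_lit 291))) (XT.nd (nat_lit 78) (nat_lit 0) (nat_lit 0) (XT.lf (nat_lit 0) (nat_lit 2391607219) (nat_lit 912) (nat_lit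 1071432053) (nat_lit 988) (nat_lit 7211098141) (nat_lit 342) (nat_lit 5) (nat_lit 354) (nat_lit 5) (nat_lit 355) (nat_lit 5) (nat_lit 442) (nat_lit 408) (nat_lit 290)) (XT.lf (nat_lit 0) (nat_lit 5100157177) (nat_lit 988) (nat_lit 2718948543) (nat_lit 76) (nat_lit 2964097751) (nat_lit 342) (nat_lit 5) (nat_lit 355) (nat_lit 5) (nat_lit 343) (nat_lit 5) (nat_lit 443) (nat_lit 408) (nat_lit 289))))))) (XT.nd (nat_lit 1092) (nat_lit 4940) (nat_lit 0) (XT.nd (nat_lit 546) (nat_lit 2888) (nat_lit 0) (XT.nd (nat_lit 234) (nat_lit 1596) (nat_lit 0) (XT.nd (nat_lit 78) (nat_lit 836) (nat_lit 0) (XT.lf (nat_lit 0) (nat_lit 2971201430) (nat_lit 836) (nat_lit 3807859870) (nat_lit 912) (nat_lit 4115220154) (nat_lit 331) (nat_lit 5) (nat_lit 342) (nat_lit 5) (nat_lit 343) (nat_lit 5) (nat_lit 444) (nat_lit 408) (nat_lit 288)) (XT.nd (nat_lit 78) (nat_lit 836) (nat_lit 0) (XT.lf (nat_lit 0) (nat_lit 8494645895) (nat_lit 912)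 (nat_lit 2213991986) (nat_lit 76) (nat_lit 298892321) (nat_lit 331) (nat_lit 5) (nat_lit 343) (nat_lit 5) (nat_lit 332) (nat_lit 5) (nat_lit 445) (nat_lit 408) (nat_lit 287)) (XT.lf (nat_lit 0) (nat_lit 3614977010) (nat_lit 836) (nat_lit 6661483605) (nat_lit 912) (nat_lit 845955976) (nat_lit 320) (nat_lit 5) (nat_lit 331) (nat_lit 5) (nat_lit 332) (nat_lit 5) (nat_lit 446) (nat_lit 408) (nat_lit 286)))) (XT.nd (nat_lit 156) (nat_lit 760) (nat_lit 0) (XT.nd (nat_lit 78) (nat_lit 760) (nat_lit 0) (XT.lf (nat_lit 0) (nat_lit 841394089) (nat_lit 912) (nat_lit 1671029937) (nat_lit 76) (nat_lit 8727110599) (nat_lit 319) (nat_lit 5) (nat_lit 331) (nat_lit 5) (nat_lit 320) (nat_lit 5) (nat_lit 447) (nat_lit 408) (nat_lit 285)) (XT.lf (nat_lit 0) (nat_lit 2574249028) (nat_lit 836) (nat_lit 7053218042) (nat_lit 76) (nat_lit 1730964808) (nat_lit 309) (nat_lit 5) (nat_lit 320) (nat_lit 5) (nat_lit 310) (nat_lit 5) (nat_lit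 448) (nat_lit 408) (nat_lit 284))) (XT.nd (nat_lit 78) (nat_lit 760) (nat_lit 0) (XT.lf (nat_lit 0) (nat_lit 4353561317) (nat_lit 836) (nat_lit 1089079056) (nat_lit 76) (nat_lit 6036840889) (nat_lit 309) (nat_lit 5) (nat_lit 320) (nat_lit 5) (nat_lit 310) (nat_lit 5) (nat_lit 449) (nat_lit 408) (nat_lit 283)) (XT.lf (nat_lit 0) (nat_lit 5044306405) (nat_lit 760) (nat_lit 1141094560) (nat_lit 836) (nat_lit 5417221842) (nat_lit 299) (nat_lit 5) (nat_lit 309) (nat_lit 5) (nat_lit 310) (nat_lit 5) (nat_lit 450) (nat_lit 408) (nat_lit 282))))) (XT.nd (nat_lit 234) (nat_lit 1368) (nat_lit 0) (XT.nd (nat_lit 78) (nat_lit 1520) (nat_lit 0) (XT.lf (nat_lit 0) (nat_lit 8066704962) (nat_lit 836) (nat_lit 450490909) (nat_lit 76) (nat_lit 3210784557) (nat_lit 299) (nat_lit 5) (nat_lit 310) (nat_lit 5) (nat_lit 300) (nat_lit 5) (nat_lit 451) (nat_lit 408) (nat_lit 281)) (XT.nd (nat_lit 78) (nat_lit 836) (nat_lit 0) (XT.lf (nat_lit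 0) (nat_lit 5832342567) (nat_lit 684) (nat_lit 4183415401) (nat_lit 760) (nat_lit 1839494379) (nat_lit 290) (nat_lit 5) (nat_lit 299) (nat_lit 5) (nat_lit 300) (nat_lit 5) (nat_lit 452) (nat_lit 408) (nat_lit 280)) (XT.lf (nat_lit 0) (nat_lit 9485506) (nat_lit 836) (nat_lit 11737989122) (nat_lit 76) (nat_lit 237781706) (nat_lit 279) (nat_lit 5) (nat_lit 290) (nat_lit 5) (nat_lit 280) (nat_lit 5) (nat_lit 453) (nat_lit 408) (nat_lit 279)))) (XT.nd (nat_lit 156) (nat_lit 684) (nat_lit 0) (XT.nd (nat_lit 78) (nat_lit 684) (nat_lit 0) (XT.lf (nat_lit 0) (nat_lit 1924199020) (nat_lit 836) (nat_lit 5449102164) (nat_lit 76) (nat_lit 4743257388) (nat_lit 279) (nat_lit 5) (nat_lit 290) (nat_lit 5) (nat_lit 280) (nat_lit 5) (nat_lit 454) (nat_lit 408) (nat_lit 278)) (XT.lf (nat_lit 0) (nat_lit 962116654) (nat_lit 684) (nat_lit 2906604046) (nat_lit 760) (nat_lit 8381944751) (nat_lit 270) (nat_lit 5) (nat_lit 279) (nat_lit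 5) (nat_lit 280) (nat_lit 5) (nat_lit 455) (nat_lit 408) (nat_lit 277))) (XT.nd (nat_lit 78) (nat_lit 684) (nat_lit 0) (XT.lf (nat_lit 0) (nat_lit 5885093795) (nat_lit 760) (nat_lit 4838499628) (nat_lit 76) (nat_lit 1663210524) (nat_lit 270) (nat_lit 5) (nat_lit 280) (nat_lit 5) (nat_lit 271) (nat_lit 5) (nat_lit 456) (nat_lit 408) (nat_lit 276)) (XT.lf (nat_lit 0) (nat_lit 1728034568) (nat_lit 684) (nat_lit 6229957090) (nat_lit 760) (nat_lit 4567358139) (nat_lit 261) (nat_lit 5) (nat_lit 270) (nat_lit 5) (nat_lit 271) (nat_lit 5) (nat_lit 457) (nat_lit 408) (nat_lit 275)))))) (XT.nd (nat_lit 546) (nat_lit 2964) (nat_lit 0) (XT.nd (nat_lit 234) (nat_lit 1292) (nat_lit 0) (XT.nd (nat_lit 78) (nat_lit 684) (nat_lit 0) (XT.lf (nat_lit 0) (nat_lit 8475660982) (nat_lit 684) (nat_lit 1615061181) (nat_lit 760) (nat_lit 2575585269) (nat_lit 261) (nat_lit 5) (nat_lit 270) (nat_lit 5) (nat_lit 271) (nat_lit 5) (nat_lit 458)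 (nat_lit 408) (nat_lit 274)) (XT.nd (nat_lit 78) (nat_lit 76) (nat_lit 0) (XT.lf (nat_lit 0) (nat_lit 2545677720) (nat_lit 608) (nat_lit 9743205104) (nat_lit 684) (nat_lit 520754083) (nat_lit 253) (nat_lit 5) (nat_lit 261) (nat_lit 5) (nat_lit 262) (nat_lit 5) (nat_lit 459) (nat_lit 408) (nat_lit 273)) (XT.lf (nat_lit 0) (nat_lit 1579760552) (nat_lit 684) (nat_lit 3518721601) (nat_lit 76) (nat_lit 7856649246) (nat_lit 252) (nat_lit 5) (nat_lit 261) (nat_lit 5) (nat_lit 253) (nat_lit 5) (nat_lit 460) (nat_lit 408) (nat_lit 272)))) (XT.nd (nat_lit 156) (nat_lit 608) (nat_lit 0) (XT.nd (nat_lit 78) (nat_lit 0) (nat_lit 0) (XT.lf (nat_lit 0) (nat_lit 3386826489) (nat_lit 684) (nat_lit 336993966) (nat_lit 760) (nat_lit 9379484051) (nat_lit 243) (nat_lit 5) (nat_lit 252) (nat_lit 5) (nat_lit 253) (nat_lit 5) (nat_lit 461) (nat_lit 408) (nat_lit 271)) (XT.lf (nat_lit 0) (nat_lit 5950537483) (nat_lit 760) (nat_lit 2821009667)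 (nat_lit 76) (nat_lit 4482105980) (nat_lit 243) (nat_lit 5) (nat_lit 253) (nat_lit 5) (nat_lit 244) (nat_lit 5) (nat_lit 462) (nat_lit 408) (nat_lit 270))) (XT.nd (nat_lit 78) (nat_lit 0) (nat_lit 0) (XT.lf (nat_lit 0) (nat_lit 4250468072) (nat_lit 608) (nat_lit 3988072946) (nat_lit 684) (nat_lit 5168140089) (nat_lit 235) (nat_lit 5) (nat_lit 243) (nat_lit 5) (nat_lit 244) (nat_lit 5) (nat_lit 463) (nat_lit 408) (nat_lit 269)) (XT.lf (nat_lit 0) (nat_lit 10584210881) (nat_lit 684) (nat_lit 2082249539) (nat_lit 76) (nat_lit 896078380) (nat_lit 235) (nat_lit 5) (nat_lit 244) (nat_lit 5) (nat_lit 236) (nat_lit 5) (nat_lit 464) (nat_lit 408) (nat_lit 268))))) (XT.nd (nat_lit 312) (nat_lit 1748) (nat_lit 0) (XT.nd (nat_lit 156) (nat_lit 532) (nat_lit 0) (XT.nd (nat_lit 78) (nat_lit 76) (nat_lit 0) (XT.lf (nat_lit 0) (nat_lit 5159188373) (nat_lit 608) (nat_lit 7864832353) (nat_lit 684) (nat_lit 696555524) (nat_lit 227)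 (nat_lit 5) (nat_lit 235) (nat_lit 5) (nat_lit 236) (nat_lit 5) (nat_lit 465) (nat_lit 408) (nat_lit 267)) (XT.lf (nat_lit 0) (nat_lit 1610907908) (nat_lit 684) (nat_lit 1333827284) (nat_lit 76) (nat_lit 10936805456) (nat_lit 226) (nat_lit 5) (nat_lit 235) (nat_lit 5) (nat_lit 227) (nat_lit 5) (nat_lit 466) (nat_lit 408) (nat_lit 266))) (XT.nd (nat_lit 78) (nat_lit 0) (nat_lit 0) (XT.lf (nat_lit 0) (nat_lit 3996164999) (nat_lit 608) (nat_lit 7960209031) (nat_lit 76) (nat_lit 2088445520) (nat_lit 219) (nat_lit 5) (nat_lit 227) (nat_lit 5) (nat_lit 220) (nat_lit 5) (nat_lit 467) (nat_lit 408) (nat_lit 265)) (XT.lf (nat_lit 0) (nat_lit 6445393316) (nat_lit 608) (nat_lit 576414140) (nat_lit 76) (nat_lit 7189237845) (nat_lit 219) (nat_lit 5) (nat_lit 227) (nat_lit 5) (nat_lit 220) (nat_lit 5) (nat_lit 468) (nat_lit 408) (nat_lit 264)))) (XT.nd (nat_lit 156) (nat_lit 608) (nat_lit 0) (XT.nd (nat_lit 78) (nat_lit 532)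 (nat_lit 0) (XT.lf (nat_lit 0) (nat_lit 7032419715) (nat_lit 608) (nat_lit 1944840291) (nat_lit 684) (nat_lit 5402668949) (nat_lit 211) (nat_lit 5) (nat_lit 219) (nat_lit 5) (nat_lit 220) (nat_lit 5) (nat_lit 469) (nat_lit 408) (nat_lit 263)) (XT.lf (nat_lit 0) (nat_lit 215946871) (nat_lit 532) (nat_lit 11358223306) (nat_lit 608) (nat_lit 2977738319) (nat_lit 204) (nat_lit 5) (nat_lit 211) (nat_lit 5) (nat_lit 212) (nat_lit 5) (nat_lit 470) (nat_lit 408) (nat_lit 262))) (XT.nd (nat_lit 78) (nat_lit 608) (nat_lit 0) (XT.lf (nat_lit 0) (nat_lit 8002321920) (nat_lit 532) (nat_lit 6271048915) (nat_lit 608) (nat_lit 452955961) (nat_lit 204) (nat_lit 5) (nat_lit 211) (nat_lit 5) (nat_lit 212) (nat_lit 5) (nat_lit 471) (nat_lit 408) (nat_lit 261)) (XT.lf (nat_lit 0) (nat_lit 1025090991) (nat_lit 532) (nat_lit 1064451685) (nat_lit 608) (nat_lit 12814520062) (nat_lit 196) (nat_lit 5) (nat_lit 203) (nat_lit 5) (nat_lit 204)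 (nat_lit 5) (nat_lit 472) (nat_lit 408) (nat_lit 260))))))))
noncomputable def xc168 : XT := (XT.nd (nat_lit 2184) (nat_lit 3268) (nat_lit 0) (XT.nd (nat_lit 1092) (nat_lit 2888) (nat_lit 0) (XT.nd (nat_lit 546) (nat_lit 1824) (nat_lit 0) (XT.nd (nat_lit 234) (nat_lit 1064) (nat_lit 0) (XT.nd (nat_lit 78) (nat_lit 456) (nat_lit 0) (XT.lf (nat_lit 0) (nat_lit 4738333105) (nat_lit 608) (nat_lit 6109886765) (nat_lit 76) (nat_lit 4235849365) (nat_lit 196) (nat_lit 5) (nat_lit 204) (nat_lit 5) (nat_lit 197) (nat_lit 5) (nat_lit 473) (nat_lit 408) (nat_lit 259)) (XT.nd (nat_lit 78) (nat_lit 0) (nat_lit 0) (XT.lf (nat_lit 0) (nat_lit 1816767552) (nat_lit 456) (nat_lit 5630913218) (nat_lit 532) (nat_lit 7819849202) (nat_lit 190) (nat_lit 5) (nat_lit 196) (nat_lit 5) (nat_lit 197) (nat_lit 5) (nat_lit 474) (nat_lit 408) (nat_lit 258)) (XT.lf (nat_lit 0) (nat_lit 9970281821) (nat_lit 456) (nat_lit 270797294) (nat_lit 532)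 (nat_lit 5212989163) (nat_lit 190) (nat_lit 5) (nat_lit 196) (nat_lit 5) (nat_lit 197) (nat_lit 5) (nat_lit 475) (nat_lit 408) (nat_lit 257)))) (XT.nd (nat_lit 156) (nat_lit 456) (nat_lit 0) (XT.nd (nat_lit 78) (nat_lit 76) (nat_lit 0) (XT.lf (nat_lit 0) (nat_lit 2628855096) (nat_lit 532) (nat_lit 10501358029) (nat_lit 608) (nat_lit 2513332388) (nat_lit 183) (nat_lit 5) (nat_lit 190) (nat_lit 5) (nat_lit 191) (nat_lit 5) (nat_lit 476) (nat_lit 408) (nat_lit 256)) (XT.lf (nat_lit 0) (nat_lit 265106599) (nat_lit 608) (nat_lit 4876057873) (nat_lit 76) (nat_lit 10695063100) (nat_lit 182) (nat_lit 5) (nat_lit 190) (nat_lit 5) (nat_lit 183) (nat_lit 5) (nat_lit 477) (nat_lit 408) (nat_lit 255))) (XT.nd (nat_lit 78) (nat_lit 0) (nat_lit 0) (XT.lf (nat_lit 0) (nat_lit 3079496533) (nat_lit 532) (nat_lit 12594926134) (nat_lit 76) (nat_lit 357732827) (nat_lit 176) (nat_lit 5) (nat_lit 183) (nat_lit 5) (nat_lit 177) (nat_lit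 5) (nat_lit 478) (nat_lit 408) (nat_lit 254)) (XT.lf (nat_lit 0) (nat_lit 6006572741) (nat_lit 532) (nat_lit 4297017430) (nat_lit 76) (nat_lit 5927288931) (nat_lit 176) (nat_lit 5) (nat_lit 183) (nat_lit 5) (nat_lit 177) (nat_lit 5) (nat_lit 479) (nat_lit 408) (nat_lit 253))))) (XT.nd (nat_lit 234) (nat_lit 912) (nat_lit 0) (XT.nd (nat_lit 78) (nat_lit 456) (nat_lit 0) (XT.lf (nat_lit 0) (nat_lit 4208034340) (nat_lit 456) (nat_lit 4801098482) (nat_lit 532) (nat_lit 7424110510) (nat_lit 170) (nat_lit 5) (nat_lit 176) (nat_lit 5) (nat_lit 177) (nat_lit 5) (nat_lit 480) (nat_lit 408) (nat_lit 252)) (XT.nd (nat_lit 78) (nat_lit 456) (nat_lit 0) (XT.lf (nat_lit 0) (nat_lit 12095749251) (nat_lit 532) (nat_lit 3717201824) (nat_lit 76) (nat_lit 826228568) (nat_lit 170) (nat_lit 5) (nat_lit 177) (nat_lit 5) (nat_lit 171) (nat_lit 5) (nat_lit 481) (nat_lit 408) (nat_lit 251)) (XT.lf (nat_lit 0) (nat_lit 4980670321) (nat_lit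 456) (nat_lit 10317473119) (nat_lit 532) (nat_lit 1550015135) (nat_lit 164) (nat_lit 5) (nat_lit 170) (nat_lit 5) (nat_lit 171) (nat_lit 5) (nat_lit 482) (nat_lit 408) (nat_lit 250)))) (XT.nd (nat_lit 156) (nat_lit 380) (nat_lit 0) (XT.nd (nat_lit 78) (nat_lit 456) (nat_lit 0) (XT.lf (nat_lit 0) (nat_lit 1498612543) (nat_lit 532) (nat_lit 3181725485) (nat_lit 76) (nat_lit 12380487274) (nat_lit 163) (nat_lit 5) (nat_lit 170) (nat_lit 5) (nat_lit 164) (nat_lit 5) (nat_lit 483) (nat_lit 408) (nat_lit 249)) (XT.lf (nat_lit 0) (nat_lit 4622055513) (nat_lit 532) (nat_lit 11555204603) (nat_lit 76) (nat_lit 1099592913) (nat_lit 157) (nat_lit 5) (nat_lit 164) (nat_lit 5) (nat_lit 158) (nat_lit 5) (nat_lit 484) (nat_lit 408) (nat_lit 248))) (XT.nd (nat_lit 78) (nat_lit 380) (nat_lit 0) (XT.lf (nat_lit 0) (nat_lit 7850683712) (nat_lit 532) (nat_lit 2695375353) (nat_lit 76) (nat_lit 6950292355) (nat_lit 157) (nat_lit 5) (nat_lit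 164) (nat_lit 5) (nat_lit 158) (nat_lit 5) (nat_lit 485) (nat_lit 408) (nat_lit 247)) (XT.lf (nat_lit 0) (nat_lit 6412334702) (nat_lit 380) (nat_lit 4763602806) (nat_lit 456) (nat_lit 6543665561) (nat_lit 152) (nat_lit 5) (nat_lit 157) (nat_lit 5) (nat_lit 158) (nat_lit 5) (nat_lit 486) (nat_lit 408) (nat_lit 246)))))) (XT.nd (nat_lit 546) (nat_lit 1596) (nat_lit 0) (XT.nd (nat_lit 234) (nat_lit 760) (nat_lit 0) (XT.nd (nat_lit 78) (nat_lit 532) (nat_lit 0) (XT.lf (nat_lit 0) (nat_lit 14583765739) (nat_lit 456) (nat_lit 2229203553) (nat_lit 76) (nat_lit 1134033336) (nat_lit 152) (nat_lit 5) (nat_lit 158) (nat_lit 5) (nat_lit 153) (nat_lit 5) (nat_lit 487) (nat_lit 408) (nat_lit 245)) (XT.nd (nat_lit 78) (nat_lit 76) (nat_lit 0) (XT.lf (nat_lit 0) (nat_lit 7078480370) (nat_lit 456) (nat_lit 11049457984) (nat_lit 532) (nat_lit 49652249) (nat_lit 146) (nat_lit 5) (nat_lit 152) (nat_lit 5) (nat_lit 153) (nat_lit 5)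 (nat_lit 488) (nat_lit 408) (nat_lit 244)) (XT.lf (nat_lit 0) (nat_lit 3292300896) (nat_lit 532) (nat_lit 1844947764) (nat_lit 76) (nat_lit 13274997798) (nat_lit 145) (nat_lit 5) (nat_lit 152) (nat_lit 5) (nat_lit 146) (nat_lit 5) (nat_lit 489) (nat_lit 408) (nat_lit 243)))) (XT.nd (nat_lit 156) (nat_lit 380) (nat_lit 0) (XT.nd (nat_lit 78) (nat_lit 0) (nat_lit 0) (XT.lf (nat_lit 0) (nat_lit 6747306895) (nat_lit 456) (nat_lit 10975178508) (nat_lit 76) (nat_lit 928169830) (nat_lit 140) (nat_lit 5) (nat_lit 146) (nat_lit 5) (nat_lit 141) (nat_lit 5) (nat_lit 490) (nat_lit 408) (nat_lit 242)) (XT.lf (nat_lit 0) (nat_lit 10308863137) (nat_lit 456) (nat_lit 1529453469) (nat_lit 76) (nat_lit 7054770438) (nat_lit 140) (nat_lit 5) (nat_lit 146) (nat_lit 5) (nat_lit 141) (nat_lit 5) (nat_lit 491) (nat_lit 408) (nat_lit 241))) (XT.nd (nat_lit 78) (nat_lit 0) (nat_lit 0) (XT.lf (nat_lit 0) (nat_lit 8199901955) (nat_lit 380)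 (nat_lit 5786130935) (nat_lit 456) (nat_lit 5153450741) (nat_lit 135) (nat_lit 5) (nat_lit 140) (nat_lit 5) (nat_lit 141) (nat_lit 5) (nat_lit 492) (nat_lit 408) (nat_lit 240)) (XT.lf (nat_lit 0) (nat_lit 17740799037) (nat_lit 456) (nat_lit 1261503640) (nat_lit 76) (nat_lit 388428126) (nat_lit 135) (nat_lit 5) (nat_lit 141) (nat_lit 5) (nat_lit 136) (nat_lit 5) (nat_lit 493) (nat_lit 408) (nat_lit 239))))) (XT.nd (nat_lit 234) (nat_lit 760) (nat_lit 0) (XT.nd (nat_lit 78) (nat_lit 380) (nat_lit 0) (XT.lf (nat_lit 0) (nat_lit 1985004260) (nat_lit 456) (nat_lit 10985424733) (nat_lit 76) (nat_lit 6674596184) (nat_lit 129) (nat_lit 5) (nat_lit 135) (nat_lit 5) (nat_lit 130) (nat_lit 5) (nat_lit 494) (nat_lit 408) (nat_lit 238)) (XT.nd (nat_lit 78) (nat_lit 380) (nat_lit 0) (XT.lf (nat_lit 0) (nat_lit 5670496600) (nat_lit 456) (nat_lit 1131670027) (nat_lit 76) (nat_lit 13102025186) (nat_lit 129) (nat_lit 5) (nat_lit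 135) (nat_lit 5) (nat_lit 130) (nat_lit 5) (nat_lit 495) (nat_lit 408) (nat_lit 237)) (XT.lf (nat_lit 0) (nat_lit 9025096359) (nat_lit 380) (nat_lit 454775917) (nat_lit 456) (nat_lit 10687669466) (nat_lit 124) (nat_lit 5) (nat_lit 129) (nat_lit 5) (nat_lit 130) (nat_lit 5) (nat_lit 496) (nat_lit 408) (nat_lit 236)))) (XT.nd (nat_lit 156) (nat_lit 456) (nat_lit 0) (XT.nd (nat_lit 78) (nat_lit 304) (nat_lit 0) (XT.lf (nat_lit 0) (nat_lit 13403798402) (nat_lit 456) (nat_lit 1087293420) (nat_lit 76) (nat_lit 5944302952) (nat_lit 124) (nat_lit 5) (nat_lit 130) (nat_lit 5) (nat_lit 125) (nat_lit 5) (nat_lit 497) (nat_lit 408) (nat_lit 235)) (XT.lf (nat_lit 0) (nat_lit 9275351144) (nat_lit 304) (nat_lit 8185884954) (nat_lit 380) (nat_lit 3246271405) (nat_lit 120) (nat_lit 5) (nat_lit 124) (nat_lit 5) (nat_lit 125) (nat_lit 5) (nat_lit 498) (nat_lit 408) (nat_lit 234))) (XT.nd (nat_lit 78) (nat_lit 380) (nat_lit 0) (XT.lf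 (nat_lit 0) (nat_lit 605866408) (nat_lit 380) (nat_lit 1141246984) (nat_lit 76) (nat_lit 19237889053) (nat_lit 119) (nat_lit 5) (nat_lit 124) (nat_lit 5) (nat_lit 120) (nat_lit 5) (nat_lit 499) (nat_lit 408) (nat_lit 233)) (XT.lf (nat_lit 0) (nat_lit 4576753196) (nat_lit 456) (nat_lit 11852545269) (nat_lit 76) (nat_lit 4836619295) (nat_lit 114) (nat_lit 5) (nat_lit 120) (nat_lit 5) (nat_lit 115) (nat_lit 5) (nat_lit 500) (nat_lit 408) (nat_lit 232))))))) (XT.nd (nat_lit 1092) (nat_lit 1140) (nat_lit 0) (XT.nd (nat_lit 546) (nat_lit 1140) (nat_lit 0) (XT.nd (nat_lit 234) (nat_lit 684) (nat_lit 0) (XT.nd (nat_lit 78) (nat_lit 304) (nat_lit 0) (XT.lf (nat_lit 0) (nat_lit 8638375212) (nat_lit 456) (nat_lit 1381458495) (nat_lit 76) (nat_lit 11532394370) (nat_lit 114) (nat_lit 5) (nat_lit 120) (nat_lit 5) (nat_lit 115) (nat_lit 5) (nat_lit 501) (nat_lit 408) (nat_lit 231)) (XT.nd (nat_lit 78) (nat_lit 0) (nat_lit 0)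 (XT.lf (nat_lit 0) (nat_lit 9410615519) (nat_lit 304) (nat_lit 3423908342) (nat_lit 380) (nat_lit 9008677843) (nat_lit 110) (nat_lit 5) (nat_lit 114) (nat_lit 5) (nat_lit 115) (nat_lit 5) (nat_lit 502) (nat_lit 408) (nat_lit 230)) (XT.lf (nat_lit 0) (nat_lit 17137623056) (nat_lit 380) (nat_lit 1735974710) (nat_lit 76) (nat_lit 3265939412) (nat_lit 110) (nat_lit 5) (nat_lit 115) (nat_lit 5) (nat_lit 111) (nat_lit 5) (nat_lit 503) (nat_lit 408) (nat_lit 229)))) (XT.nd (nat_lit 156) (nat_lit 304) (nat_lit 0) (XT.nd (nat_lit 78) (nat_lit 76) (nat_lit 0) (XT.lf (nat_lit 0) (nat_lit 9261686686) (nat_lit 304) (nat_lit 12340302045) (nat_lit 380) (nat_lit 838309411) (nat_lit 106) (nat_lit 5) (nat_lit 110) (nat_lit 5) (nat_lit 111) (nat_lit 5) (nat_lit 504) (nat_lit 408) (nat_lit 228)) (XT.lf (nat_lit 0) (nat_lit 3368007598) (nat_lit 380) (nat_lit 2277919075) (nat_lit 76) (nat_lit 17100624914) (nat_lit 105) (nat_lit 5) (nat_lit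 110) (nat_lit 5) (nat_lit 106) (nat_lit 5) (nat_lit 505) (nat_lit 408) (nat_lit 227))) (XT.nd (nat_lit 78) (nat_lit 0) (nat_lit 0) (XT.lf (nat_lit 0) (nat_lit 7705925437) (nat_lit 380) (nat_lit 14124855670) (nat_lit 76) (nat_lit 1226866884) (nat_lit 101) (nat_lit 5) (nat_lit 106) (nat_lit 5) (nat_lit 102) (nat_lit 5) (nat_lit 506) (nat_lit 408) (nat_lit 226)) (XT.lf (nat_lit 0) (nat_lit 12175991094) (nat_lit 380) (nat_lit 3025077885) (nat_lit 76) (nat_lit 8172992208) (nat_lit 101) (nat_lit 5) (nat_lit 106) (nat_lit 5) (nat_lit 102) (nat_lit 5) (nat_lit 507) (nat_lit 408) (nat_lit 225))))) (XT.nd (nat_lit 234) (nat_lit 532) (nat_lit 0) (XT.nd (nat_lit 78) (nat_lit 304) (nat_lit 0) (XT.lf (nat_lit 0) (nat_lit 8395508423) (nat_lit 304) (nat_lit 8387215663) (nat_lit 380) (nat_lit 6913135840) (nat_lit 97) (nat_lit 5) (nat_lit 101) (nat_lit 5) (nat_lit 102) (nat_lit 5) (nat_lit 508) (nat_lit 408) (nat_lit 224)) (XT.nd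 (nat_lit 78) (nat_lit 304) (nat_lit 0) (XT.lf (nat_lit 0) (nat_lit 20074290866) (nat_lit 304) (nat_lit 1420426717) (nat_lit 380) (nat_lit 2529117087) (nat_lit 97) (nat_lit 5) (nat_lit 101) (nat_lit 5) (nat_lit 102) (nat_lit 5) (nat_lit 509) (nat_lit 408) (nat_lit 223)) (XT.lf (nat_lit 0) (nat_lit 1997356497) (nat_lit 304) (nat_lit 16688933882) (nat_lit 76) (nat_lit 5670223695) (nat_lit 93) (nat_lit 5) (nat_lit 97) (nat_lit 5) (nat_lit 94) (nat_lit 5) (nat_lit 510) (nat_lit 408) (nat_lit 222)))) (XT.nd (nat_lit 156) (nat_lit 228) (nat_lit 0) (XT.nd (nat_lit 78) (nat_lit 304) (nat_lit 0) (XT.lf (nat_lit 0) (nat_lit 6609571027) (nat_lit 304) (nat_lit 5162206181) (nat_lit 76) (nat_lit 12923156382) (nat_lit 93) (nat_lit 5) (nat_lit 97) (nat_lit 5) (nat_lit 94) (nat_lit 5) (nat_lit 511) (nat_lit 408) (nat_lit 221)) (XT.lf (nat_lit 0) (nat_lit 6671632674) (nat_lit 304) (nat_lit 4678810759) (nat_lit 380) (nat_lit 13688952147)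 (nat_lit 89) (nat_lit 5) (nat_lit 93) (nat_lit 5) (nat_lit 94) (nat_lit 5) (nat_lit 512) (nat_lit 408) (nat_lit 220))) (XT.nd (nat_lit 78) (nat_lit 228) (nat_lit 0) (XT.lf (nat_lit 0) (nat_lit 16230734932) (nat_lit 380) (nat_lit 6605719590) (nat_lit 76) (nat_lit 2553402563) (nat_lit 89) (nat_lit 5) (nat_lit 94) (nat_lit 5) (nat_lit 90) (nat_lit 5) (nat_lit 513) (nat_lit 408) (nat_lit 219)) (XT.lf (nat_lit 0) (nat_lit 5420926282) (nat_lit 228) (nat_lit 15847158088) (nat_lit 304) (nat_lit 4478056671) (nat_lit 86) (nat_lit 5) (nat_lit 89) (nat_lit 5) (nat_lit 90) (nat_lit 5) (nat_lit 514) (nat_lit 408) (nat_lit 218)))))) (XT.nd (nat_lit 546) (nat_lit 228) (nat_lit 0) (XT.nd (nat_lit 234) (nat_lit 532) (nat_lit 0) (XT.nd (nat_lit 78) (nat_lit 304) (nat_lit 0) (XT.lf (nat_lit 0) (nat_lit 330647819) (nat_lit 304) (nat_lit 8344006167) (nat_lit 76) (nat_lit 17434102187) (nat_lit 85) (nat_lit 5) (nat_lit 89) (nat_lit 5)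 (nat_lit 86) (nat_lit 5) (nat_lit 515) (nat_lit 408) (nat_lit 217)) (XT.nd (nat_lit 78) (nat_lit 0) (nat_lit 0) (XT.lf (nat_lit 0) (nat_lit 3887598415) (nat_lit 304) (nat_lit 1306681997) (nat_lit 380) (nat_lit 21283379024) (nat_lit 81) (nat_lit 5) (nat_lit 85) (nat_lit 5) (nat_lit 86) (nat_lit 5) (nat_lit 516) (nat_lit 408) (nat_lit 216)) (XT.lf (nat_lit 0) (nat_lit 10245313271) (nat_lit 380) (nat_lit 10427158110) (nat_lit 76) (nat_lit 6179668921) (nat_lit 81) (nat_lit 5) (nat_lit 86) (nat_lit 5) (nat_lit 82) (nat_lit 5) (nat_lit 517) (nat_lit 408) (nat_lit 215)))) (XT.nd (nat_lit 156) (nat_lit 304) (nat_lit 0) (XT.nd (nat_lit 78) (nat_lit 0) (nat_lit 0) (XT.lf (nat_lit 0) (nat_lit 1986007946) (nat_lit 228) (nat_lit 13426488666) (nat_lit 304) (nat_lit 11821313628) (nat_lit 78) (nat_lit 5) (nat_lit 81) (nat_lit 5) (nat_lit 82) (nat_lit 5) (nat_lit 518) (nat_lit 408) (nat_lit 214)) (XT.lf (nat_lit 0) (nat_lit 14778460299)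 (nat_lit 228) (nat_lit 5968175704) (nat_lit 304) (nat_lit 6875207334) (nat_lit 78) (nat_lit 5) (nat_lit 81) (nat_lit 5) (nat_lit 82) (nat_lit 5) (nat_lit 519) (nat_lit 408) (nat_lit 213))) (XT.nd (nat_lit 78) (nat_lit 304) (nat_lit 0) (XT.lf (nat_lit 0) (nat_lit 26191841776) (nat_lit 304) (nat_lit 211737843) (nat_lit 76) (nat_lit 1613971777) (nat_lit 78) (nat_lit 5) (nat_lit 82) (nat_lit 5) (nat_lit 79) (nat_lit 5) (nat_lit 520) (nat_lit 408) (nat_lit 212)) (XT.lf (nat_lit 0) (nat_lit 3398375426) (nat_lit 304) (nat_lit 15650454337) (nat_lit 76) (nat_lit 9369569964) (nat_lit 74) (nat_lit 5) (nat_lit 78) (nat_lit 5) (nat_lit 75) (nat_lit 5) (nat_lit 521) (nat_lit 408) (nat_lit 211))))) (XT.nd (nat_lit 50622) (nat_lit 0) (nat_lit 31084) (XT.nd (nat_lit 156) (nat_lit 0) (nat_lit 0) (XT.nd (nat_lit 78) (nat_lit 228) (nat_lit 0) (XT.lf (nat_lit 0) (nat_lit 8697825519) (nat_lit 304) (nat_lit 2839280306) (nat_lit 76) (nat_lit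 17290013105) (nat_lit 74) (nat_lit 5) (nat_lit 78) (nat_lit 5) (nat_lit 75) (nat_lit 5) (nat_lit 522) (nat_lit 408) (nat_lit 210)) (XT.lf (nat_lit 0) (nat_lit 10354073575) (nat_lit 228) (nat_lit 3810413083) (nat_lit 304) (nat_lit 15078303239) (nat_lit 71) (nat_lit 5) (nat_lit 74) (nat_lit 5) (nat_lit 75) (nat_lit 5) (nat_lit 523) (nat_lit 408) (nat_lit 209))) (XT.nd (nat_lit 50388) (nat_lit 0) (nat_lit 32452) (XT.lf (nat_lit 0) (nat_lit 19780116636) (nat_lit 304) (nat_lit 5853038464) (nat_lit 76) (nat_lit 4032828256) (nat_lit 71) (nat_lit 5) (nat_lit 75) (nat_lit 5) (nat_lit 72) (nat_lit 5) (nat_lit 524) (nat_lit 408) (nat_lit 208)) (XT.lf (nat_lit 0) (nat_lit 1506537770) (nat_lit 0) (nat_lit 1506537770) (nat_lit 1292) (nat_lit 1022920862) (nat_lit 498) (nat_lit 5) (nat_lit 498) (nat_lit 3) (nat_lit 515) (nat_lit 3) (nat_lit 409) (nat_lit 409) (nat_lit 322)))) (XT.nd (nat_lit 156) (nat_lit 0) (nat_lit 0) (XT.nd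 (nat_lit 78) (nat_lit 1368) (nat_lit 0) (XT.lf (nat_lit 0) (nat_lit 6816368642) (nat_lit 0) (nat_lit 403822694) (nat_lit 1292) (nat_lit 908935246) (nat_lit 498) (nat_lit 5) (nat_lit 498) (nat_lit 3) (nat_lit 515) (nat_lit 3) (nat_lit 410) (nat_lit 409) (nat_lit 321)) (XT.lf (nat_lit 0) (nat_lit 248724644) (nat_lit 1368) (nat_lit 5678022798) (nat_lit 1444) (nat_lit 2260620387) (nat_lit 480) (nat_lit 5) (nat_lit 498) (nat_lit 5) (nat_lit 499) (nat_lit 5) (nat_lit 411) (nat_lit 409) (nat_lit 320))) (XT.nd (nat_lit 78) (nat_lit 0) (nat_lit 0) (XT.lf (nat_lit 0) (nat_lit 1399542021) (nat_lit 1368) (nat_lit 1845560750) (nat_lit 1444) (nat_lit 5001930427) (nat_lit 480) (nat_lit 5) (nat_lit 498) (nat_lit 5) (nat_lit 499) (nat_lit 5) (nat_lit 412) (nat_lit 409) (nat_lit 319)) (XT.lf (nat_lit 76) (nat_lit 2075182837) (nat_lit 0) (nat_lit 482864012) (nat_lit 1444) (nat_lit 5750174111) (nat_lit 481) (nat_lit 5) (nat_lit 480)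 (nat_lit 5) (nat_lit 499) (nat_lit 5) (nat_lit 413) (nat_lit 409) (nat_lit 318))))))))
noncomputable def xc169 : XT := (XT.nd (nat_lit 2184) (nat_lit 10868) (nat_lit 0) (XT.nd (nat_lit 1092) (nat_lit 6992) (nat_lit 0) (XT.nd (nat_lit 546) (nat_lit 1368) (nat_lit 0) (XT.nd (nat_lit 234) (nat_lit 1292) (nat_lit 0) (XT.nd (nat_lit 78) (nat_lit 0) (nat_lit 0) (XT.lf (nat_lit 0) (nat_lit 3739091726) (nat_lit 1368) (nat_lit 2302420212) (nat_lit 1444) (nat_lit 2329155207) (nat_lit 481) (nat_lit 5) (nat_lit 499) (nat_lit 5) (nat_lit 500) (nat_lit 5) (nat_lit 414) (nat_lit 409) (nat_lit 317)) (XT.nd (nat_lit 78) (nat_lit 0) (nat_lit 0) (XT.lf (nat_lit 76) (nat_lit 1710204798) (nat_lit 0) (nat_lit 3220153623) (nat_lit 1444) (nat_lit 3504293445) (nat_lit 482) (nat_lit 5) (nat_lit 481) (nat_lit 5) (nat_lit 500) (nat_lit 5) (nat_lit 415) (nat_lit 409) (nat_lit 316)) (XT.lf (nat_lit 76) (nat_lit 5818559285) (nat_lit 0) (nat_lit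 315081982) (nat_lit 1444) (nat_lit 2366532409) (nat_lit 482) (nat_lit 5) (nat_lit 481) (nat_lit 5) (nat_lit 500) (nat_lit 5) (nat_lit 416) (nat_lit 409) (nat_lit 315)))) (XT.nd (nat_lit 156) (nat_lit 1368) (nat_lit 0) (XT.nd (nat_lit 78) (nat_lit 0) (nat_lit 0) (XT.lf (nat_lit 76) (nat_lit 1427551252) (nat_lit 0) (nat_lit 5933248529) (nat_lit 1444) (nat_lit 1206230734) (nat_lit 483) (nat_lit 5) (nat_lit 482) (nat_lit 5) (nat_lit 501) (nat_lit 5) (nat_lit 417) (nat_lit 409) (nat_lit 314)) (XT.lf (nat_lit 76) (nat_lit 5637188329) (nat_lit 0) (nat_lit 2969148368) (nat_lit 1444) (nat_lit 29031473) (nat_lit 483) (nat_lit 5) (nat_lit 482) (nat_lit 5) (nat_lit 501) (nat_lit 5) (nat_lit 418) (nat_lit 409) (nat_lit 313))) (XT.nd (nat_lit 78) (nat_lit 0) (nat_lit 0) (XT.lf (nat_lit 0) (nat_lit 1138865520) (nat_lit 1444) (nat_lit 7487501430) (nat_lit 1520) (nat_lit 78922654) (nat_lit 464) (nat_lit 5) (nat_lit 483) (nat_lit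 5) (nat_lit 484) (nat_lit 5) (nat_lit 419) (nat_lit 409) (nat_lit 312)) (XT.lf (nat_lit 0) (nat_lit 2344206741) (nat_lit 1444) (nat_lit 3253964278) (nat_lit 1520) (nat_lit 3178164317) (nat_lit 464) (nat_lit 5) (nat_lit 483) (nat_lit 5) (nat_lit 484) (nat_lit 5) (nat_lit 420) (nat_lit 409) (nat_lit 311))))) (XT.nd (nat_lit 234) (nat_lit 1368) (nat_lit 0) (XT.nd (nat_lit 78) (nat_lit 0) (nat_lit 76) (XT.lf (nat_lit 76) (nat_lit 1062010178) (nat_lit 0) (nat_lit 2493597545) (nat_lit 1520) (nat_lit 5293574035) (nat_lit 465) (nat_lit 5) (nat_lit 464) (nat_lit 5) (nat_lit 484) (nat_lit 5) (nat_lit 421) (nat_lit 409) (nat_lit 310)) (XT.nd (nat_lit 78) (nat_lit 0) (nat_lit 0) (XT.lf (nat_lit 0) (nat_lit 4793084832) (nat_lit 1444) (nat_lit 3435770912) (nat_lit 1520) (nat_lit 694610865) (nat_lit 465) (nat_lit 5) (nat_lit 484) (nat_lit 5) (nat_lit 485) (nat_lit 5) (nat_lit 422) (nat_lit 409) (nat_lit 309)) (XT.lf (nat_lit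 76) (nat_lit 982738176) (nat_lit 0) (nat_lit 5071445907) (nat_lit 1520) (nat_lit 2945093724) (nat_lit 466) (nat_lit 5) (nat_lit 465) (nat_lit 5) (nat_lit 485) (nat_lit 5) (nat_lit 423) (nat_lit 409) (nat_lit 308)))) (XT.nd (nat_lit 156) (nat_lit 1444) (nat_lit 0) (XT.nd (nat_lit 78) (nat_lit 0) (nat_lit 76) (XT.lf (nat_lit 76) (nat_lit 5520002938) (nat_lit 0) (nat_lit 1819902255) (nat_lit 1520) (nat_lit 1736729786) (nat_lit 466) (nat_lit 5) (nat_lit 465) (nat_lit 5) (nat_lit 485) (nat_lit 5) (nat_lit 424) (nat_lit 409) (nat_lit 307)) (XT.lf (nat_lit 76) (nat_lit 979200023) (nat_lit 0) (nat_lit 7665071131) (nat_lit 1520) (nat_lit 511426931) (nat_lit 467) (nat_lit 5) (nat_lit 466) (nat_lit 5) (nat_lit 486) (nat_lit 5) (nat_lit 425) (nat_lit 409) (nat_lit 306))) (XT.nd (nat_lit 78) (nat_lit 0) (nat_lit 0) (XT.lf (nat_lit 0) (nat_lit 741810898) (nat_lit 1520) (nat_lit 3615522453) (nat_lit 1596) (nat_lit 4878667685)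 (nat_lit 446) (nat_lit 5) (nat_lit 466) (nat_lit 5) (nat_lit 467) (nat_lit 5) (nat_lit 426) (nat_lit 409) (nat_lit 305)) (XT.lf (nat_lit 76) (nat_lit 1030514159) (nat_lit 0) (nat_lit 966934445) (nat_lit 1596) (nat_lit 7320726562) (nat_lit 447) (nat_lit 5) (nat_lit 446) (nat_lit 5) (nat_lit 467) (nat_lit 5) (nat_lit 427) (nat_lit 409) (nat_lit 304)))))) (XT.nd (nat_lit 546) (nat_lit 5624) (nat_lit 0) (XT.nd (nat_lit 234) (nat_lit 1444) (nat_lit 0) (XT.nd (nat_lit 78) (nat_lit 0) (nat_lit 0) (XT.lf (nat_lit 0) (nat_lit 3296658084) (nat_lit 1520) (nat_lit 3616040718) (nat_lit 1596) (nat_lit 2488940872) (nat_lit 447) (nat_lit 5) (nat_lit 467) (nat_lit 5) (nat_lit 468) (nat_lit 5) (nat_lit 428) (nat_lit 409) (nat_lit 303)) (XT.nd (nat_lit 78) (nat_lit 0) (nat_lit 76) (XT.lf (nat_lit 76) (nat_lit 1141224457) (nat_lit 0) (nat_lit 3472735803) (nat_lit 1596) (nat_lit 4872986800) (nat_lit 448) (nat_lit 5) (nat_lit 447) (nat_lit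 5) (nat_lit 468) (nat_lit 5) (nat_lit 429) (nat_lit 409) (nat_lit 302)) (XT.lf (nat_lit 0) (nat_lit 5960917498) (nat_lit 1520) (nat_lit 3547938857) (nat_lit 1596) (nat_lit 65053508) (nat_lit 448) (nat_lit 5) (nat_lit 468) (nat_lit 5) (nat_lit 469) (nat_lit 5) (nat_lit 430) (nat_lit 409) (nat_lit 301)))) (XT.nd (nat_lit 156) (nat_lit 1520) (nat_lit 0) (XT.nd (nat_lit 78) (nat_lit 0) (nat_lit 0) (XT.lf (nat_lit 76) (nat_lit 1323771373) (nat_lit 0) (nat_lit 6021703082) (nat_lit 1596) (nat_lit 2316939402) (nat_lit 449) (nat_lit 5) (nat_lit 448) (nat_lit 5) (nat_lit 469) (nat_lit 5) (nat_lit 431) (nat_lit 409) (nat_lit 300)) (XT.lf (nat_lit 76) (nat_lit 6324724462) (nat_lit 0) (nat_lit 2436178862) (nat_lit 1596) (nat_lit 991735841) (nat_lit 449) (nat_lit 5) (nat_lit 448) (nat_lit 5) (nat_lit 469) (nat_lit 5) (nat_lit 432) (nat_lit 409) (nat_lit 299))) (XT.nd (nat_lit 78) (nat_lit 0) (nat_lit 0) (XT.lf (nat_lit 0) (nat_lit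 353196525) (nat_lit 1596) (nat_lit 8269672397) (nat_lit 76) (nat_lit 1221808670) (nat_lit 428) (nat_lit 5) (nat_lit 449) (nat_lit 5) (nat_lit 429) (nat_lit 5) (nat_lit 433) (nat_lit 409) (nat_lit 298)) (XT.lf (nat_lit 0) (nat_lit 1730998267) (nat_lit 1596) (nat_lit 3253085158) (nat_lit 76) (nat_lit 4953971247) (nat_lit 428) (nat_lit 5) (nat_lit 449) (nat_lit 5) (nat_lit 429) (nat_lit 5) (nat_lit 434) (nat_lit 409) (nat_lit 297))))) (XT.nd (nat_lit 234) (nat_lit 2356) (nat_lit 0) (XT.nd (nat_lit 78) (nat_lit 1672) (nat_lit 0) (XT.lf (nat_lit 0) (nat_lit 1872127854) (nat_lit 1596) (nat_lit 1256725024) (nat_lit 1672) (nat_lit 6904610198) (nat_lit 407) (nat_lit 5) (nat_lit 428) (nat_lit 5) (nat_lit 429) (nat_lit 5) (nat_lit 435) (nat_lit 409) (nat_lit 296)) (XT.nd (nat_lit 78) (nat_lit 1672) (nat_lit 0) (XT.lf (nat_lit 0) (nat_lit 4573807328) (nat_lit 1672) (nat_lit 3019645307) (nat_lit 76) (nat_lit 2536957607) (nat_lit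 407) (nat_lit 5) (nat_lit 429) (nat_lit 5) (nat_lit 408) (nat_lit 5) (nat_lit 436) (nat_lit 409) (nat_lit 295)) (XT.lf (nat_lit 0) (nat_lit 2229547381) (nat_lit 1672) (nat_lit 3821934676) (nat_lit 1748) (nat_lit 4177751057) (nat_lit 385) (nat_lit 5) (nat_lit 407) (nat_lit 5) (nat_lit 408) (nat_lit 5) (nat_lit 437) (nat_lit 409) (nat_lit 294)))) (XT.nd (nat_lit 156) (nat_lit 912) (nat_lit 0) (XT.nd (nat_lit 78) (nat_lit 1444) (nat_lit 0) (XT.lf (nat_lit 0) (nat_lit 7560577064) (nat_lit 1748) (nat_lit 2721813913) (nat_lit 76) (nat_lit 47617059) (nat_lit 385) (nat_lit 5) (nat_lit 408) (nat_lit 5) (nat_lit 386) (nat_lit 5) (nat_lit 438) (nat_lit 409) (nat_lit 293)) (XT.lf (nat_lit 0) (nat_lit 2654902325) (nat_lit 1444) (nat_lit 6469173164) (nat_lit 1520) (nat_lit 1308251211) (nat_lit 366) (nat_lit 5) (nat_lit 385) (nat_lit 5) (nat_lit 386) (nat_lit 5) (nat_lit 439) (nat_lit 409) (nat_lit 292))) (XT.nd (nat_lit 78)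 (nat_lit 836) (nat_lit 0) (XT.lf (nat_lit 0) (nat_lit 179945030) (nat_lit 1520) (nat_lit 2377951355) (nat_lit 76) (nat_lit 7978780243) (nat_lit 365) (nat_lit 5) (nat_lit 385) (nat_lit 5) (nat_lit 366) (nat_lit 5) (nat_lit 440) (nat_lit 409) (nat_lit 291)) (XT.lf (nat_lit 0) (nat_lit 1692482683) (nat_lit 912) (nat_lit 7506339676) (nat_lit 76) (nat_lit 1443888290) (nat_lit 354) (nat_lit 5) (nat_lit 366) (nat_lit 5) (nat_lit 355) (nat_lit 5) (nat_lit 441) (nat_lit 409) (nat_lit 290))))))) (XT.nd (nat_lit 1092) (nat_lit 5168) (nat_lit 0) (XT.nd (nat_lit 546) (nat_lit 3040) (nat_lit 0) (XT.nd (nat_lit 234) (nat_lit 1748) (nat_lit 0) (XT.nd (nat_lit 78) (nat_lit 912) (nat_lit 0) (XT.lf (nat_lit 0) (nat_lit 3250683997) (nat_lit 912) (nat_lit 1990695124) (nat_lit 76) (nat_lit 5509189678) (nat_lit 354) (nat_lit 5) (nat_lit 366) (nat_lit 5) (nat_lit 355) (nat_lit 5) (nat_lit 442) (nat_lit 409) (nat_lit 289)) (XT.nd (nat_lit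 78) (nat_lit 0) (nat_lit 0) (XT.lf (nat_lit 0) (nat_lit 3667363352) (nat_lit 912) (nat_lit 1179252054) (nat_lit 988) (nat_lit 6013848865) (nat_lit 342) (nat_lit 5) (nat_lit 354) (nat_lit 5) (nat_lit 355) (nat_lit 5) (nat_lit 443) (nat_lit 409) (nat_lit 288)) (XT.lf (nat_lit 0) (nat_lit 6490154869) (nat_lit 988) (nat_lit 1542307134) (nat_lit 76) (nat_lit 2939793116) (nat_lit 342) (nat_lit 5) (nat_lit 355) (nat_lit 5) (nat_lit 343) (nat_lit 5) (nat_lit 444) (nat_lit 409) (nat_lit 287)))) (XT.nd (nat_lit 156) (nat_lit 912) (nat_lit 0) (XT.nd (nat_lit 78) (nat_lit 0) (nat_lit 0) (XT.lf (nat_lit 0) (nat_lit 4253547020) (nat_lit 836) (nat_lit 3931775278) (nat_lit 912) (nat_lit 2900595375) (nat_lit 331) (nat_lit 5) (nat_lit 342) (nat_lit 5) (nat_lit 343) (nat_lit 5) (nat_lit 445) (nat_lit 409) (nat_lit 286)) (XT.lf (nat_lit 0) (nat_lit 9909999297) (nat_lit 912) (nat_lit 1033290404) (nat_lit 76) (nat_lit 258662469) (nat_lit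 331) (nat_lit 5) (nat_lit 343) (nat_lit 5) (nat_lit 332) (nat_lit 5) (nat_lit 446) (nat_lit 409) (nat_lit 285))) (XT.nd (nat_lit 78) (nat_lit 0) (nat_lit 0) (XT.lf (nat_lit 0) (nat_lit 386313926) (nat_lit 912) (nat_lit 6417825405) (nat_lit 76) (nat_lit 4515292587) (nat_lit 319) (nat_lit 5) (nat_lit 331) (nat_lit 5) (nat_lit 320) (nat_lit 5) (nat_lit 447) (nat_lit 409) (nat_lit 284)) (XT.lf (nat_lit 0) (nat_lit 2071822227) (nat_lit 912) (nat_lit 494489152) (nat_lit 76) (nat_lit 8872969770) (nat_lit 319) (nat_lit 5) (nat_lit 331) (nat_lit 5) (nat_lit 320) (nat_lit 5) (nat_lit 448) (nat_lit 409) (nat_lit 283))))) (XT.nd (nat_lit 234) (nat_lit 1520) (nat_lit 0) (XT.nd (nat_lit 78) (nat_lit 760) (nat_lit 0) (XT.lf (nat_lit 0) (nat_lit 3823370889) (nat_lit 836) (nat_lit 5967600622) (nat_lit 76) (nat_lit 1769919243) (nat_lit 309) (nat_lit 5) (nat_lit 320) (nat_lit 5) (nat_lit 310) (nat_lit 5) (nat_lit 449) (nat_lit 409)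 (nat_lit 282)) (XT.nd (nat_lit 78) (nat_lit 0) (nat_lit 0) (XT.lf (nat_lit 0) (nat_lit 92988115) (nat_lit 760) (nat_lit 5522401974) (nat_lit 836) (nat_lit 6069443468) (nat_lit 299) (nat_lit 5) (nat_lit 309) (nat_lit 5) (nat_lit 310) (nat_lit 5) (nat_lit 450) (nat_lit 409) (nat_lit 281)) (XT.lf (nat_lit 0) (nat_lit 6339909695) (nat_lit 760) (nat_lit 1128087366) (nat_lit 836) (nat_lit 4342772813) (nat_lit 299) (nat_lit 5) (nat_lit 309) (nat_lit 5) (nat_lit 310) (nat_lit 5) (nat_lit 451) (nat_lit 409) (nat_lit 280)))) (XT.nd (nat_lit 156) (nat_lit 836) (nat_lit 0) (XT.nd (nat_lit 78) (nat_lit 0) (nat_lit 0) (XT.lf (nat_lit 0) (nat_lit 744766951) (nat_lit 684) (nat_lit 8624500478) (nat_lit 760) (nat_lit 2569734681) (nat_lit 290) (nat_lit 5) (nat_lit 299) (nat_lit 5) (nat_lit 300) (nat_lit 5) (nat_lit 452) (nat_lit 409) (nat_lit 279)) (XT.lf (nat_lit 0) (nat_lit 7135630793) (nat_lit 684) (nat_lit 4202257432) (nat_lit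 760) (nat_lit 731333496) (nat_lit 290) (nat_lit 5) (nat_lit 299) (nat_lit 5) (nat_lit 300) (nat_lit 5) (nat_lit 453) (nat_lit 409) (nat_lit 278))) (XT.nd (nat_lit 78) (nat_lit 0) (nat_lit 0) (XT.lf (nat_lit 0) (nat_lit 1125721490) (nat_lit 836) (nat_lit 10755845159) (nat_lit 76) (nat_lit 320401671) (nat_lit 279) (nat_lit 5) (nat_lit 290) (nat_lit 5) (nat_lit 280) (nat_lit 5) (nat_lit 454) (nat_lit 409) (nat_lit 277)) (XT.lf (nat_lit 0) (nat_lit 3056846014) (nat_lit 836) (nat_lit 4365041320) (nat_lit 76) (nat_lit 4914460115) (nat_lit 279) (nat_lit 5) (nat_lit 290) (nat_lit 5) (nat_lit 280) (nat_lit 5) (nat_lit 455) (nat_lit 409) (nat_lit 276)))))) (XT.nd (nat_lit 546) (nat_lit 2432) (nat_lit 0) (XT.nd (nat_lit 234) (nat_lit 1368) (nat_lit 0) (XT.nd (nat_lit 78) (nat_lit 684) (nat_lit 0) (XT.lf (nat_lit 0) (nat_lit 2166552908) (nat_lit 684) (nat_lit 2859946108) (nat_lit 760) (nat_lit 7446925553) (nat_lit 270) (nat_lit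 5) (nat_lit 279) (nat_lit 5) (nat_lit 280) (nat_lit 5) (nat_lit 456) (nat_lit 409) (nat_lit 275)) (XT.nd (nat_lit 78) (nat_lit 684) (nat_lit 0) (XT.lf (nat_lit 0) (nat_lit 7062682209) (nat_lit 760) (nat_lit 3752163988) (nat_lit 76) (nat_lit 1797862655) (nat_lit 270) (nat_lit 5) (nat_lit 280) (nat_lit 5) (nat_lit 271) (nat_lit 5) (nat_lit 457) (nat_lit 409) (nat_lit 274)) (XT.lf (nat_lit 0) (nat_lit 2937917301) (nat_lit 684) (nat_lit 6225969609) (nat_lit 760) (nat_lit 3590414152) (nat_lit 261) (nat_lit 5) (nat_lit 270) (nat_lit 5) (nat_lit 271) (nat_lit 5) (nat_lit 458) (nat_lit 409) (nat_lit 273)))) (XT.nd (nat_lit 156) (nat_lit 684) (nat_lit 0) (XT.nd (nat_lit 78) (nat_lit 684) (nat_lit 0) (XT.lf (nat_lit 0) (nat_lit 9797450714) (nat_lit 684) (nat_lit 1521297088) (nat_lit 760) (nat_lit 1579752709) (nat_lit 261) (nat_lit 5) (nat_lit 270) (nat_lit 5) (nat_lit 271) (nat_lit 5) (nat_lit 459) (nat_lit 409) (nat_lit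 272)) (XT.lf (nat_lit 0) (nat_lit 497559547) (nat_lit 684) (nat_lit 9286749115) (nat_lit 76) (nat_lit 3260569507) (nat_lit 252) (nat_lit 5) (nat_lit 261) (nat_lit 5) (nat_lit 253) (nat_lit 5) (nat_lit 460) (nat_lit 409) (nat_lit 271))) (XT.nd (nat_lit 78) (nat_lit 684) (nat_lit 0) (XT.lf (nat_lit 0) (nat_lit 2613083542) (nat_lit 684) (nat_lit 2433173921) (nat_lit 76) (nat_lit 8147368280) (nat_lit 252) (nat_lit 5) (nat_lit 261) (nat_lit 5) (nat_lit 253) (nat_lit 5) (nat_lit 461) (nat_lit 409) (nat_lit 270)) (XT.lf (nat_lit 0) (nat_lit 4602880380) (nat_lit 684) (nat_lit 184958179) (nat_lit 760) (nat_lit 8557178724) (nat_lit 243) (nat_lit 5) (nat_lit 252) (nat_lit 5) (nat_lit 253) (nat_lit 5) (nat_lit 462) (nat_lit 409) (nat_lit 269))))) (XT.nd (nat_lit 312) (nat_lit 1140) (nat_lit 0) (XT.nd (nat_lit 156) (nat_lit 684) (nat_lit 0) (XT.nd (nat_lit 78) (nat_lit 608) (nat_lit 0) (XT.lf (nat_lit 0) (nat_lit 7040697813)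 (nat_lit 760) (nat_lit 1732684960) (nat_lit 76) (nat_lit 4725368977) (nat_lit 243) (nat_lit 5) (nat_lit 253) (nat_lit 5) (nat_lit 244) (nat_lit 5) (nat_lit 463) (nat_lit 409) (nat_lit 268)) (XT.lf (nat_lit 0) (nat_lit 5472691116) (nat_lit 608) (nat_lit 3890111699) (nat_lit 684) (nat_lit 4292281456) (nat_lit 235) (nat_lit 5) (nat_lit 243) (nat_lit 5) (nat_lit 244) (nat_lit 5) (nat_lit 464) (nat_lit 409) (nat_lit 267))) (XT.nd (nat_lit 78) (nat_lit 684) (nat_lit 0) (XT.lf (nat_lit 0) (nat_lit 11737703796) (nat_lit 684) (nat_lit 990766837) (nat_lit 76) (nat_lit 1085952732) (nat_lit 235) (nat_lit 5) (nat_lit 244) (nat_lit 5) (nat_lit 236) (nat_lit 5) (nat_lit 465) (nat_lit 409) (nat_lit 266)) (XT.lf (nat_lit 0) (nat_lit 236158076) (nat_lit 684) (nat_lit 7589363748) (nat_lit 76) (nat_lit 6150302224) (nat_lit 226) (nat_lit 5) (nat_lit 235) (nat_lit 5) (nat_lit 227) (nat_lit 5) (nat_lit 466) (nat_lit 409) (nat_lit 265))))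 (XT.nd (nat_lit 156) (nat_lit 608) (nat_lit 0) (XT.nd (nat_lit 78) (nat_lit 532) (nat_lit 0) (XT.lf (nat_lit 0) (nat_lit 2562073666) (nat_lit 684) (nat_lit 244191147) (nat_lit 76) (nat_lit 11334028230) (nat_lit 226) (nat_lit 5) (nat_lit 235) (nat_lit 5) (nat_lit 227) (nat_lit 5) (nat_lit 467) (nat_lit 409) (nat_lit 264)) (XT.lf (nat_lit 0) (nat_lit 4985521460) (nat_lit 608) (nat_lit 6993096417) (nat_lit 76) (nat_lit 2328419728) (nat_lit 219) (nat_lit 5) (nat_lit 227) (nat_lit 5) (nat_lit 220) (nat_lit 5) (nat_lit 468) (nat_lit 409) (nat_lit 263))) (XT.nd (nat_lit 78) (nat_lit 0) (nat_lit 0) (XT.lf (nat_lit 0) (nat_lit 523150946) (nat_lit 608) (nat_lit 6946148017) (nat_lit 684) (nat_lit 7007587218) (nat_lit 211) (nat_lit 5) (nat_lit 219) (nat_lit 5) (nat_lit 220) (nat_lit 5) (nat_lit 469) (nat_lit 409) (nat_lit 262)) (XT.lf (nat_lit 0) (nat_lit 8270035575) (nat_lit 608) (nat_lit 1768010634) (nat_lit 684) (nat_lit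 4611385847) (nat_lit 211) (nat_lit 5) (nat_lit 219) (nat_lit 5) (nat_lit 220) (nat_lit 5) (nat_lit 470) (nat_lit 409) (nat_lit 261))))))))
noncomputable def xc170 : XT := (XT.nd (nat_lit 2184) (nat_lit 4028) (nat_lit 0) (XT.nd (nat_lit 1092) (nat_lit 2964) (nat_lit 0) (XT.nd (nat_lit 546) (nat_lit 1520) (nat_lit 0) (XT.nd (nat_lit 234) (nat_lit 988) (nat_lit 0) (XT.nd (nat_lit 78) (nat_lit 608) (nat_lit 0) (XT.lf (nat_lit 0) (nat_lit 1326601387) (nat_lit 532) (nat_lit 11351570202) (nat_lit 608) (nat_lit 2146863288) (nat_lit 204) (nat_lit 5) (nat_lit 211) (nat_lit 5) (nat_lit 212) (nat_lit 5) (nat_lit 471) (nat_lit 409) (nat_lit 260)) (XT.nd (nat_lit 78) (nat_lit 532) (nat_lit 0) (XT.lf (nat_lit 0) (nat_lit 405565556) (nat_lit 608) (nat_lit 5758949867) (nat_lit 76) (nat_lit 8838723968) (nat_lit 203) (nat_lit 5) (nat_lit 211) (nat_lit 5) (nat_lit 204) (nat_lit 5) (nat_lit 472) (nat_lit 409) (nat_lit 259)) (XT.lf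 (nat_lit 0) (nat_lit 2134914161) (nat_lit 532) (nat_lit 848120618) (nat_lit 608) (nat_lit 12201640374) (nat_lit 196) (nat_lit 5) (nat_lit 203) (nat_lit 5) (nat_lit 204) (nat_lit 5) (nat_lit 473) (nat_lit 409) (nat_lit 258)))) (XT.nd (nat_lit 156) (nat_lit 532) (nat_lit 0) (XT.nd (nat_lit 78) (nat_lit 456) (nat_lit 0) (XT.lf (nat_lit 0) (nat_lit 5669613528) (nat_lit 608) (nat_lit 5148508616) (nat_lit 76) (nat_lit 4550471911) (nat_lit 196) (nat_lit 5) (nat_lit 204) (nat_lit 5) (nat_lit 197) (nat_lit 5) (nat_lit 474) (nat_lit 409) (nat_lit 257)) (XT.lf (nat_lit 0) (nat_lit 2929550000) (nat_lit 456) (nat_lit 5494184926) (nat_lit 532) (nat_lit 7132185705) (nat_lit 190) (nat_lit 5) (nat_lit 196) (nat_lit 5) (nat_lit 197) (nat_lit 5) (nat_lit 475) (nat_lit 409) (nat_lit 256))) (XT.nd (nat_lit 78) (nat_lit 532) (nat_lit 0) (XT.lf (nat_lit 0) (nat_lit 11225027747) (nat_lit 456) (nat_lit 31755832) (nat_lit 532) (nat_lit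 4489738671) (nat_lit 190) (nat_lit 5) (nat_lit 196) (nat_lit 5) (nat_lit 197) (nat_lit 5) (nat_lit 476) (nat_lit 409) (nat_lit 255)) (XT.lf (nat_lit 0) (nat_lit 3744770725) (nat_lit 532) (nat_lit 10451489837) (nat_lit 608) (nat_lit 1743685296) (nat_lit 183) (nat_lit 5) (nat_lit 190) (nat_lit 5) (nat_lit 191) (nat_lit 5) (nat_lit 477) (nat_lit 409) (nat_lit 254))))) (XT.nd (nat_lit 234) (nat_lit 988) (nat_lit 0) (XT.nd (nat_lit 78) (nat_lit 456) (nat_lit 0) (XT.lf (nat_lit 0) (nat_lit 1063703265) (nat_lit 608) (nat_lit 3920161708) (nat_lit 76) (nat_lit 11152835157) (nat_lit 182) (nat_lit 5) (nat_lit 190) (nat_lit 5) (nat_lit 183) (nat_lit 5) (nat_lit 478) (nat_lit 409) (nat_lit 253)) (XT.nd (nat_lit 78) (nat_lit 0) (nat_lit 0) (XT.lf (nat_lit 0) (nat_lit 3927321460) (nat_lit 532) (nat_lit 11785969265) (nat_lit 76) (nat_lit 623404646) (nat_lit 176) (nat_lit 5) (nat_lit 183) (nat_lit 5) (nat_lit 177) (nat_lit 5) (nat_lit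 479) (nat_lit 409) (nat_lit 252)) (XT.lf (nat_lit 0) (nat_lit 6897522820) (nat_lit 532) (nat_lit 3342903473) (nat_lit 76) (nat_lit 6299282908) (nat_lit 176) (nat_lit 5) (nat_lit 183) (nat_lit 5) (nat_lit 177) (nat_lit 5) (nat_lit 480) (nat_lit 409) (nat_lit 251)))) (XT.nd (nat_lit 156) (nat_lit 532) (nat_lit 0) (XT.nd (nat_lit 78) (nat_lit 0) (nat_lit 0) (XT.lf (nat_lit 0) (nat_lit 5325406870) (nat_lit 456) (nat_lit 4626321439) (nat_lit 532) (nat_lit 6794567800) (nat_lit 170) (nat_lit 5) (nat_lit 176) (nat_lit 5) (nat_lit 177) (nat_lit 5) (nat_lit 481) (nat_lit 409) (nat_lit 250)) (XT.lf (nat_lit 0) (nat_lit 13086851527) (nat_lit 532) (nat_lit 2765010836) (nat_lit 76) (nat_lit 1104760428) (nat_lit 170) (nat_lit 5) (nat_lit 177) (nat_lit 5) (nat_lit 171) (nat_lit 5) (nat_lit 482) (nat_lit 409) (nat_lit 249))) (XT.nd (nat_lit 78) (nat_lit 76) (nat_lit 0) (XT.lf (nat_lit 0) (nat_lit 6100065233) (nat_lit 456) (nat_lit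 10245159519) (nat_lit 532) (nat_lit 824724921) (nat_lit 164) (nat_lit 5) (nat_lit 170) (nat_lit 5) (nat_lit 171) (nat_lit 5) (nat_lit 483) (nat_lit 409) (nat_lit 248)) (XT.lf (nat_lit 0) (nat_lit 2260321686) (nat_lit 532) (nat_lit 2235513681) (nat_lit 76) (nat_lit 12891235577) (nat_lit 163) (nat_lit 5) (nat_lit 170) (nat_lit 5) (nat_lit 164) (nat_lit 5) (nat_lit 484) (nat_lit 409) (nat_lit 247)))))) (XT.nd (nat_lit 546) (nat_lit 1216) (nat_lit 0) (XT.nd (nat_lit 234) (nat_lit 912) (nat_lit 0) (XT.nd (nat_lit 78) (nat_lit 380) (nat_lit 0) (XT.lf (nat_lit 0) (nat_lit 5440212591) (nat_lit 532) (nat_lit 10770111921) (nat_lit 76) (nat_lit 1397221723) (nat_lit 157) (nat_lit 5) (nat_lit 164) (nat_lit 5) (nat_lit 158) (nat_lit 5) (nat_lit 485) (nat_lit 409) (nat_lit 246)) (XT.nd (nat_lit 78) (nat_lit 380) (nat_lit 0) (XT.lf (nat_lit 0) (nat_lit 8719183629) (nat_lit 532) (nat_lit 1753011514) (nat_lit 76) (nat_lit 7359530507)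 (nat_lit 157) (nat_lit 5) (nat_lit 164) (nat_lit 5) (nat_lit 158) (nat_lit 5) (nat_lit 486) (nat_lit 409) (nat_lit 245)) (XT.lf (nat_lit 0) (nat_lit 7530298326) (nat_lit 380) (nat_lit 4573119363) (nat_lit 456) (nat_lit 5956181473) (nat_lit 152) (nat_lit 5) (nat_lit 157) (nat_lit 5) (nat_lit 158) (nat_lit 5) (nat_lit 487) (nat_lit 409) (nat_lit 244)))) (XT.nd (nat_lit 156) (nat_lit 380) (nat_lit 0) (XT.nd (nat_lit 78) (nat_lit 532) (nat_lit 0) (XT.lf (nat_lit 0) (nat_lit 15567418255) (nat_lit 456) (nat_lit 1291182150) (nat_lit 76) (nat_lit 1433192202) (nat_lit 152) (nat_lit 5) (nat_lit 158) (nat_lit 5) (nat_lit 153) (nat_lit 5) (nat_lit 488) (nat_lit 409) (nat_lit 243)) (XT.lf (nat_lit 0) (nat_lit 639600896) (nat_lit 532) (nat_lit 10335159999) (nat_lit 76) (nat_lit 7552297986) (nat_lit 145) (nat_lit 5) (nat_lit 152) (nat_lit 5) (nat_lit 146) (nat_lit 5) (nat_lit 489) (nat_lit 409) (nat_lit 242))) (XT.nd (nat_lit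 78) (nat_lit 380) (nat_lit 0) (XT.lf (nat_lit 0) (nat_lit 4034207669) (nat_lit 532) (nat_lit 915568664) (nat_lit 76) (nat_lit 13816901221) (nat_lit 145) (nat_lit 5) (nat_lit 152) (nat_lit 5) (nat_lit 146) (nat_lit 5) (nat_lit 490) (nat_lit 409) (nat_lit 241)) (XT.lf (nat_lit 0) (nat_lit 7553178749) (nat_lit 456) (nat_lit 10222982104) (nat_lit 76) (nat_lit 1233802090) (nat_lit 140) (nat_lit 5) (nat_lit 146) (nat_lit 5) (nat_lit 141) (nat_lit 5) (nat_lit 491) (nat_lit 409) (nat_lit 240))))) (XT.nd (nat_lit 234) (nat_lit 836) (nat_lit 0) (XT.nd (nat_lit 78) (nat_lit 380) (nat_lit 0) (XT.lf (nat_lit 0) (nat_lit 11172810709) (nat_lit 456) (nat_lit 607395505) (nat_lit 76) (nat_lit 7477305909) (nat_lit 140) (nat_lit 5) (nat_lit 146) (nat_lit 5) (nat_lit 141) (nat_lit 5) (nat_lit 492) (nat_lit 409) (nat_lit 239)) (XT.nd (nat_lit 78) (nat_lit 0) (nat_lit 0) (XT.lf (nat_lit 0) (nat_lit 9310279613) (nat_lit 380) (nat_lit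 5606491312) (nat_lit 456) (nat_lit 4592206292) (nat_lit 135) (nat_lit 5) (nat_lit 140) (nat_lit 5) (nat_lit 141) (nat_lit 5) (nat_lit 493) (nat_lit 409) (nat_lit 238)) (XT.lf (nat_lit 0) (nat_lit 18735747433) (nat_lit 456) (nat_lit 347755263) (nat_lit 76) (nat_lit 681969740) (nat_lit 135) (nat_lit 5) (nat_lit 141) (nat_lit 5) (nat_lit 136) (nat_lit 5) (nat_lit 494) (nat_lit 409) (nat_lit 237)))) (XT.nd (nat_lit 156) (nat_lit 380) (nat_lit 0) (XT.nd (nat_lit 78) (nat_lit 0) (nat_lit 0) (XT.lf (nat_lit 0) (nat_lit 2662799338) (nat_lit 456) (nat_lit 10263592485) (nat_lit 76) (nat_lit 7098512122) (nat_lit 129) (nat_lit 5) (nat_lit 135) (nat_lit 5) (nat_lit 130) (nat_lit 5) (nat_lit 495) (nat_lit 409) (nat_lit 236)) (XT.lf (nat_lit 0) (nat_lit 6409489857) (nat_lit 456) (nat_lit 231224268) (nat_lit 76) (nat_lit 13648795116) (nat_lit 129) (nat_lit 5) (nat_lit 135) (nat_lit 5) (nat_lit 130) (nat_lit 5) (nat_lit 496) (nat_lit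 409) (nat_lit 235))) (XT.nd (nat_lit 78) (nat_lit 0) (nat_lit 0) (XT.lf (nat_lit 0) (nat_lit 10122604557) (nat_lit 380) (nat_lit 166135964) (nat_lit 456) (nat_lit 10269516894) (nat_lit 124) (nat_lit 5) (nat_lit 129) (nat_lit 5) (nat_lit 130) (nat_lit 5) (nat_lit 497) (nat_lit 409) (nat_lit 234)) (XT.lf (nat_lit 0) (nat_lit 14280897796) (nat_lit 456) (nat_lit 199521311) (nat_lit 76) (nat_lit 6351258244) (nat_lit 124) (nat_lit 5) (nat_lit 130) (nat_lit 5) (nat_lit 125) (nat_lit 5) (nat_lit 498) (nat_lit 409) (nat_lit 233))))))) (XT.nd (nat_lit 1092) (nat_lit 1672) (nat_lit 0) (XT.nd (nat_lit 546) (nat_lit 988) (nat_lit 0) (XT.nd (nat_lit 234) (nat_lit 608) (nat_lit 0) (XT.nd (nat_lit 78) (nat_lit 456) (nat_lit 0) (XT.lf (nat_lit 0) (nat_lit 10364392473) (nat_lit 304) (nat_lit 8049016481) (nat_lit 380) (nat_lit 2695949687) (nat_lit 120) (nat_lit 5) (nat_lit 124) (nat_lit 5) (nat_lit 125) (nat_lit 5) (nat_lit 499)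 (nat_lit 409) (nat_lit 232)) (XT.nd (nat_lit 78) (nat_lit 380) (nat_lit 0) (XT.lf (nat_lit 0) (nat_lit 1213256353) (nat_lit 380) (nat_lit 270112389) (nat_lit 76) (nat_lit 19909197572) (nat_lit 119) (nat_lit 5) (nat_lit 124) (nat_lit 5) (nat_lit 120) (nat_lit 5) (nat_lit 500) (nat_lit 409) (nat_lit 231)) (XT.lf (nat_lit 0) (nat_lit 5259594291) (nat_lit 456) (nat_lit 11191443851) (nat_lit 76) (nat_lit 5228145649) (nat_lit 114) (nat_lit 5) (nat_lit 120) (nat_lit 5) (nat_lit 115) (nat_lit 5) (nat_lit 501) (nat_lit 409) (nat_lit 230)))) (XT.nd (nat_lit 156) (nat_lit 304) (nat_lit 0) (XT.nd (nat_lit 78) (nat_lit 304) (nat_lit 0) (XT.lf (nat_lit 0) (nat_lit 9390854512) (nat_lit 456) (nat_lit 528546172) (nat_lit 76) (nat_lit 12052055951) (nat_lit 114) (nat_lit 5) (nat_lit 120) (nat_lit 5) (nat_lit 115) (nat_lit 5) (nat_lit 502) (nat_lit 409) (nat_lit 229)) (XT.lf (nat_lit 0) (nat_lit 10473576286) (nat_lit 304) (nat_lit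 3191662397) (nat_lit 380) (nat_lit 8603129149) (nat_lit 110) (nat_lit 5) (nat_lit 114) (nat_lit 5) (nat_lit 115) (nat_lit 5) (nat_lit 503) (nat_lit 409) (nat_lit 228))) (XT.nd (nat_lit 78) (nat_lit 304) (nat_lit 0) (XT.lf (nat_lit 0) (nat_lit 18045058698) (nat_lit 380) (nat_lit 903543358) (nat_lit 76) (nat_lit 3622219045) (nat_lit 110) (nat_lit 5) (nat_lit 115) (nat_lit 5) (nat_lit 111) (nat_lit 5) (nat_lit 504) (nat_lit 409) (nat_lit 227)) (XT.lf (nat_lit 0) (nat_lit 10308366326) (nat_lit 304) (nat_lit 12284866220) (nat_lit 380) (nat_lit 284478501) (nat_lit 106) (nat_lit 5) (nat_lit 110) (nat_lit 5) (nat_lit 111) (nat_lit 5) (nat_lit 505) (nat_lit 409) (nat_lit 226))))) (XT.nd (nat_lit 234) (nat_lit 608) (nat_lit 0) (XT.nd (nat_lit 78) (nat_lit 304) (nat_lit 0) (XT.lf (nat_lit 0) (nat_lit 3987439921) (nat_lit 380) (nat_lit 1471385036) (nat_lit 76) (nat_lit 17731415356) (nat_lit 105) (nat_lit 5) (nat_lit 110) (nat_lit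 5) (nat_lit 106) (nat_lit 5) (nat_lit 506) (nat_lit 409) (nat_lit 225)) (XT.nd (nat_lit 78) (nat_lit 0) (nat_lit 0) (XT.lf (nat_lit 0) (nat_lit 8408733258) (nat_lit 380) (nat_lit 13551680581) (nat_lit 76) (nat_lit 1547216404) (nat_lit 101) (nat_lit 5) (nat_lit 106) (nat_lit 5) (nat_lit 102) (nat_lit 5) (nat_lit 507) (nat_lit 409) (nat_lit 224)) (XT.lf (nat_lit 0) (nat_lit 12957441613) (nat_lit 380) (nat_lit 2246685126) (nat_lit 76) (nat_lit 8626463995) (nat_lit 101) (nat_lit 5) (nat_lit 106) (nat_lit 5) (nat_lit 102) (nat_lit 5) (nat_lit 508) (nat_lit 409) (nat_lit 223)))) (XT.nd (nat_lit 156) (nat_lit 304) (nat_lit 0) (XT.nd (nat_lit 78) (nat_lit 0) (nat_lit 0) (XT.lf (nat_lit 0) (nat_lit 9396793867) (nat_lit 304) (nat_lit 8254378562) (nat_lit 380) (nat_lit 6507759541) (nat_lit 97) (nat_lit 5) (nat_lit 101) (nat_lit 5) (nat_lit 102) (nat_lit 5) (nat_lit 509) (nat_lit 409) (nat_lit 222)) (XT.lf (nat_lit 0) (nat_lit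 21292811267) (nat_lit 304) (nat_lit 1154147591) (nat_lit 380) (nat_lit 2046720002) (nat_lit 97) (nat_lit 5) (nat_lit 101) (nat_lit 5) (nat_lit 102) (nat_lit 5) (nat_lit 510) (nat_lit 409) (nat_lit 221))) (XT.nd (nat_lit 78) (nat_lit 0) (nat_lit 0) (XT.lf (nat_lit 0) (nat_lit 2560228973) (nat_lit 304) (nat_lit 16195263608) (nat_lit 76) (nat_lit 6077514908) (nat_lit 93) (nat_lit 5) (nat_lit 97) (nat_lit 5) (nat_lit 94) (nat_lit 5) (nat_lit 511) (nat_lit 409) (nat_lit 220)) (XT.lf (nat_lit 0) (nat_lit 7254434356) (nat_lit 304) (nat_lit 4454225842) (nat_lit 76) (nat_lit 13469743764) (nat_lit 93) (nat_lit 5) (nat_lit 97) (nat_lit 5) (nat_lit 94) (nat_lit 5) (nat_lit 512) (nat_lit 409) (nat_lit 219)))))) (XT.nd (nat_lit 546) (nat_lit 532) (nat_lit 0) (XT.nd (nat_lit 234) (nat_lit 608) (nat_lit 0) (XT.nd (nat_lit 78) (nat_lit 228) (nat_lit 0) (XT.lf (nat_lit 0) (nat_lit 7610952787) (nat_lit 304) (nat_lit 4474351389) (nat_lit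 380) (nat_lit 13444550845) (nat_lit 89) (nat_lit 5) (nat_lit 93) (nat_lit 5) (nat_lit 94) (nat_lit 5) (nat_lit 513) (nat_lit 409) (nat_lit 218)) (XT.nd (nat_lit 78) (nat_lit 228) (nat_lit 0) (XT.lf (nat_lit 0) (nat_lit 17055140727) (nat_lit 380) (nat_lit 5939519388) (nat_lit 76) (nat_lit 2892830218) (nat_lit 89) (nat_lit 5) (nat_lit 94) (nat_lit 5) (nat_lit 90) (nat_lit 5) (nat_lit 514) (nat_lit 409) (nat_lit 217)) (XT.lf (nat_lit 0) (nat_lit 6322407332) (nat_lit 228) (nat_lit 15866179085) (nat_lit 304) (nat_lit 4062409862) (nat_lit 86) (nat_lit 5) (nat_lit 89) (nat_lit 5) (nat_lit 90) (nat_lit 5) (nat_lit 515) (nat_lit 409) (nat_lit 216)))) (XT.nd (nat_lit 156) (nat_lit 228) (nat_lit 0) (XT.nd (nat_lit 78) (nat_lit 304) (nat_lit 0) (XT.lf (nat_lit 0) (nat_lit 826066706) (nat_lit 304) (nat_lit 7726719660) (nat_lit 76) (nat_lit 18068210433) (nat_lit 85) (nat_lit 5) (nat_lit 89) (nat_lit 5) (nat_lit 86) (nat_lit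 5) (nat_lit 516) (nat_lit 409) (nat_lit 215)) (XT.lf (nat_lit 0) (nat_lit 4744358023) (nat_lit 304) (nat_lit 1038087332) (nat_lit 380) (nat_lit 21214926410) (nat_lit 81) (nat_lit 5) (nat_lit 85) (nat_lit 5) (nat_lit 86) (nat_lit 5) (nat_lit 517) (nat_lit 409) (nat_lit 214))) (XT.nd (nat_lit 78) (nat_lit 228) (nat_lit 0) (XT.lf (nat_lit 0) (nat_lit 10926879249) (nat_lit 380) (nat_lit 9864196442) (nat_lit 76) (nat_lit 6588421995) (nat_lit 81) (nat_lit 5) (nat_lit 86) (nat_lit 5) (nat_lit 82) (nat_lit 5) (nat_lit 518) (nat_lit 409) (nat_lit 213)) (XT.lf (nat_lit 0) (nat_lit 2792157246) (nat_lit 228) (nat_lit 13400878908) (nat_lit 304) (nat_lit 11575855255) (nat_lit 78) (nat_lit 5) (nat_lit 81) (nat_lit 5) (nat_lit 82) (nat_lit 5) (nat_lit 519) (nat_lit 409) (nat_lit 212))))) (XT.nd (nat_lit 312) (nat_lit 228) (nat_lit 0) (XT.nd (nat_lit 156) (nat_lit 76) (nat_lit 0) (XT.nd (nat_lit 78) (nat_lit 228) (nat_lit 0) (XT.lf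 (nat_lit 0) (nat_lit 15825430624) (nat_lit 228) (nat_lit 5799167129) (nat_lit 304) (nat_lit 6540275554) (nat_lit 78) (nat_lit 5) (nat_lit 81) (nat_lit 5) (nat_lit 82) (nat_lit 5) (nat_lit 520) (nat_lit 409) (nat_lit 211)) (XT.lf (nat_lit 0) (nat_lit 535099953) (nat_lit 228) (nat_lit 26639838503) (nat_lit 304) (nat_lit 1393635324) (nat_lit 75) (nat_lit 5) (nat_lit 78) (nat_lit 5) (nat_lit 79) (nat_lit 5) (nat_lit 521) (nat_lit 409) (nat_lit 210))) (XT.nd (nat_lit 78) (nat_lit 0) (nat_lit 0) (XT.lf (nat_lit 0) (nat_lit 3921120532) (nat_lit 304) (nat_lit 15218122266) (nat_lit 76) (nat_lit 9838291494) (nat_lit 74) (nat_lit 5) (nat_lit 78) (nat_lit 5) (nat_lit 75) (nat_lit 5) (nat_lit 522) (nat_lit 409) (nat_lit 209)) (XT.lf (nat_lit 0) (nat_lit 9317642418) (nat_lit 304) (nat_lit 2165339288) (nat_lit 76) (nat_lit 17911627221) (nat_lit 74) (nat_lit 5) (nat_lit 78) (nat_lit 5) (nat_lit 75) (nat_lit 5) (nat_lit 523) (nat_lit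 409) (nat_lit 208)))) (XT.nd (nat_lit 50544) (nat_lit 0) (nat_lit 31008) (XT.nd (nat_lit 50466) (nat_lit 0) (nat_lit 31008) (XT.lf (nat_lit 0) (nat_lit 11287074259) (nat_lit 228) (nat_lit 3602533310) (nat_lit 304) (nat_lit 14929068979) (nat_lit 71) (nat_lit 5) (nat_lit 74) (nat_lit 5) (nat_lit 75) (nat_lit 5) (nat_lit 524) (nat_lit 409) (nat_lit 207)) (XT.lf (nat_lit 0) (nat_lit 105074845) (nat_lit 1444) (nat_lit 1994097323) (nat_lit 1444) (nat_lit 1994097323) (nat_lit 479) (nat_lit 3) (nat_lit 498) (nat_lit 3) (nat_lit 498) (nat_lit 5) (nat_lit 410) (nat_lit 410) (nat_lit 320))) (XT.nd (nat_lit 78) (nat_lit 0) (nat_lit 76) (XT.lf (nat_lit 0) (nat_lit 1310084565) (nat_lit 1444) (nat_lit 197354109) (nat_lit 1444) (nat_lit 6738150976) (nat_lit 479) (nat_lit 3) (nat_lit 498) (nat_lit 3) (nat_lit 498) (nat_lit 5) (nat_lit 411) (nat_lit 410) (nat_lit 319)) (XT.lf (nat_lit 0) (nat_lit 2435549075) (nat_lit 1368) (nat_lit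 4611049422) (nat_lit 1444) (nat_lit 1259174722) (nat_lit 480) (nat_lit 5) (nat_lit 498) (nat_lit 5) (nat_lit 499) (nat_lit 5) (nat_lit 412) (nat_lit 410) (nat_lit 318))))))))
noncomputable def xc171 : XT := (XT.nd (nat_lit 2184) (nat_lit 11096) (nat_lit 0) (XT.nd (nat_lit 1092) (nat_lit 6156) (nat_lit 0) (XT.nd (nat_lit 546) (nat_lit 1292) (nat_lit 0) (XT.nd (nat_lit 234) (nat_lit 1292) (nat_lit 0) (XT.nd (nat_lit 78) (nat_lit 0) (nat_lit 0) (XT.lf (nat_lit 0) (nat_lit 3566601428) (nat_lit 1368) (nat_lit 725085856) (nat_lit 1444) (nat_lit 4075833670) (nat_lit 480) (nat_lit 5) (nat_lit 498) (nat_lit 5) (nat_lit 499) (nat_lit 5) (nat_lit 413) (nat_lit 410) (nat_lit 317)) (XT.nd (nat_lit 78) (nat_lit 0) (nat_lit 76) (XT.lf (nat_lit 76) (nat_lit 3266458221) (nat_lit 0) (nat_lit 1447340692) (nat_lit 1444) (nat_lit 3716855882) (nat_lit 481) (nat_lit 5) (nat_lit 480) (nat_lit 5) (nat_lit 499) (nat_lit 5) (nat_lit 414)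 (nat_lit 410) (nat_lit 316)) (XT.lf (nat_lit 0) (nat_lit 5871120429) (nat_lit 1368) (nat_lit 1172290545) (nat_lit 1444) (nat_lit 1451917947) (nat_lit 481) (nat_lit 5) (nat_lit 499) (nat_lit 5) (nat_lit 500) (nat_lit 5) (nat_lit 415) (nat_lit 410) (nat_lit 315)))) (XT.nd (nat_lit 156) (nat_lit 1368) (nat_lit 0) (XT.nd (nat_lit 78) (nat_lit 0) (nat_lit 0) (XT.lf (nat_lit 76) (nat_lit 2912848951) (nat_lit 0) (nat_lit 4140611621) (nat_lit 1444) (nat_lit 1507819306) (nat_lit 482) (nat_lit 5) (nat_lit 481) (nat_lit 5) (nat_lit 500) (nat_lit 5) (nat_lit 416) (nat_lit 410) (nat_lit 314)) (XT.lf (nat_lit 76) (nat_lit 7080459939) (nat_lit 0) (nat_lit 1160653156) (nat_lit 1444) (nat_lit 387823833) (nat_lit 482) (nat_lit 5) (nat_lit 481) (nat_lit 5) (nat_lit 500) (nat_lit 5) (nat_lit 417) (nat_lit 410) (nat_lit 313))) (XT.nd (nat_lit 78) (nat_lit 0) (nat_lit 0) (XT.lf (nat_lit 0) (nat_lit 748406142) (nat_lit 1444) (nat_lit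 6062338793) (nat_lit 1520) (nat_lit 1887049175) (nat_lit 463) (nat_lit 5) (nat_lit 482) (nat_lit 5) (nat_lit 483) (nat_lit 5) (nat_lit 418) (nat_lit 410) (nat_lit 312)) (XT.lf (nat_lit 0) (nat_lit 1894918578) (nat_lit 1444) (nat_lit 1869772969) (nat_lit 1520) (nat_lit 5003449812) (nat_lit 463) (nat_lit 5) (nat_lit 482) (nat_lit 5) (nat_lit 483) (nat_lit 5) (nat_lit 419) (nat_lit 410) (nat_lit 311))))) (XT.nd (nat_lit 234) (nat_lit 1292) (nat_lit 0) (XT.nd (nat_lit 78) (nat_lit 0) (nat_lit 76) (XT.lf (nat_lit 76) (nat_lit 2423045388) (nat_lit 0) (nat_lit 632145550) (nat_lit 1520) (nat_lit 5784906854) (nat_lit 464) (nat_lit 5) (nat_lit 463) (nat_lit 5) (nat_lit 483) (nat_lit 5) (nat_lit 420) (nat_lit 410) (nat_lit 310)) (XT.nd (nat_lit 78) (nat_lit 0) (nat_lit 0) (XT.lf (nat_lit 0) (nat_lit 4243486758) (nat_lit 1444) (nat_lit 2118746150) (nat_lit 1520) (nat_lit 2551182550) (nat_lit 464) (nat_lit 5) (nat_lit 483)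 (nat_lit 5) (nat_lit 484) (nat_lit 5) (nat_lit 421) (nat_lit 410) (nat_lit 309)) (XT.lf (nat_lit 76) (nat_lit 2275651102) (nat_lit 0) (nat_lit 3174885027) (nat_lit 1520) (nat_lit 3537781697) (nat_lit 465) (nat_lit 5) (nat_lit 464) (nat_lit 5) (nat_lit 484) (nat_lit 5) (nat_lit 422) (nat_lit 410) (nat_lit 308)))) (XT.nd (nat_lit 156) (nat_lit 1444) (nat_lit 0) (XT.nd (nat_lit 78) (nat_lit 0) (nat_lit 0) (XT.lf (nat_lit 0) (nat_lit 6672982492) (nat_lit 1444) (nat_lit 2294341373) (nat_lit 1520) (nat_lit 97587002) (nat_lit 465) (nat_lit 5) (nat_lit 484) (nat_lit 5) (nat_lit 485) (nat_lit 5) (nat_lit 423) (nat_lit 410) (nat_lit 307)) (XT.lf (nat_lit 76) (nat_lit 2204576417) (nat_lit 0) (nat_lit 5727551587) (nat_lit 1520) (nat_lit 1210680160) (nat_lit 466) (nat_lit 5) (nat_lit 465) (nat_lit 5) (nat_lit 485) (nat_lit 5) (nat_lit 424) (nat_lit 410) (nat_lit 306))) (XT.nd (nat_lit 78) (nat_lit 1444) (nat_lit 0) (XT.lf (nat_lit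 76) (nat_lit 6809014249) (nat_lit 0) (nat_lit 2400101046) (nat_lit 1520) (nat_lit 13311991) (nat_lit 466) (nat_lit 5) (nat_lit 465) (nat_lit 5) (nat_lit 485) (nat_lit 5) (nat_lit 425) (nat_lit 410) (nat_lit 305)) (XT.lf (nat_lit 0) (nat_lit 1190681483) (nat_lit 1520) (nat_lit 7102864002) (nat_lit 1596) (nat_lit 1009982416) (nat_lit 446) (nat_lit 5) (nat_lit 466) (nat_lit 5) (nat_lit 467) (nat_lit 5) (nat_lit 426) (nat_lit 410) (nat_lit 304)))))) (XT.nd (nat_lit 546) (nat_lit 4712) (nat_lit 0) (XT.nd (nat_lit 234) (nat_lit 1444) (nat_lit 0) (XT.nd (nat_lit 78) (nat_lit 0) (nat_lit 0) (XT.lf (nat_lit 0) (nat_lit 2428701378) (nat_lit 1520) (nat_lit 2478247521) (nat_lit 1596) (nat_lit 4479113447) (nat_lit 446) (nat_lit 5) (nat_lit 466) (nat_lit 5) (nat_lit 467) (nat_lit 5) (nat_lit 427) (nat_lit 410) (nat_lit 303)) (XT.nd (nat_lit 78) (nat_lit 0) (nat_lit 76) (XT.lf (nat_lit 76) (nat_lit 2252752024) (nat_lit 0) (nat_lit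 1431716201) (nat_lit 1596) (nat_lit 5785935283) (nat_lit 447) (nat_lit 5) (nat_lit 446) (nat_lit 5) (nat_lit 467) (nat_lit 5) (nat_lit 428) (nat_lit 410) (nat_lit 302)) (XT.lf (nat_lit 0) (nat_lit 4974530988) (nat_lit 1520) (nat_lit 2473994026) (nat_lit 1596) (nat_lit 2107738317) (nat_lit 447) (nat_lit 5) (nat_lit 467) (nat_lit 5) (nat_lit 468) (nat_lit 5) (nat_lit 429) (nat_lit 410) (nat_lit 301)))) (XT.nd (nat_lit 156) (nat_lit 1520) (nat_lit 0) (XT.nd (nat_lit 78) (nat_lit 0) (nat_lit 0) (XT.lf (nat_lit 76) (nat_lit 2370427192) (nat_lit 0) (nat_lit 3923977961) (nat_lit 1596) (nat_lit 3349370140) (nat_lit 448) (nat_lit 5) (nat_lit 447) (nat_lit 5) (nat_lit 468) (nat_lit 5) (nat_lit 430) (nat_lit 410) (nat_lit 300)) (XT.lf (nat_lit 76) (nat_lit 7329659470) (nat_lit 0) (nat_lit 307065017) (nat_lit 1596) (nat_lit 2096406903) (nat_lit 448) (nat_lit 5) (nat_lit 447) (nat_lit 5) (nat_lit 468) (nat_lit 5) (nat_lit 431)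 (nat_lit 410) (nat_lit 299))) (XT.nd (nat_lit 78) (nat_lit 1596) (nat_lit 0) (XT.lf (nat_lit 76) (nat_lit 2559656846) (nat_lit 0) (nat_lit 6464692107) (nat_lit 1596) (nat_lit 799571041) (nat_lit 449) (nat_lit 5) (nat_lit 448) (nat_lit 5) (nat_lit 469) (nat_lit 5) (nat_lit 432) (nat_lit 410) (nat_lit 298)) (XT.lf (nat_lit 0) (nat_lit 514636418) (nat_lit 1596) (nat_lit 2283042896) (nat_lit 1672) (nat_lit 7118825174) (nat_lit 427) (nat_lit 5) (nat_lit 448) (nat_lit 5) (nat_lit 449) (nat_lit 5) (nat_lit 433) (nat_lit 410) (nat_lit 297))))) (XT.nd (nat_lit 234) (nat_lit 3192) (nat_lit 0) (XT.nd (nat_lit 78) (nat_lit 1596) (nat_lit 0) (XT.lf (nat_lit 0) (nat_lit 1849422468) (nat_lit 1596) (nat_lit 7203386265) (nat_lit 76) (nat_lit 957939939) (nat_lit 428) (nat_lit 5) (nat_lit 449) (nat_lit 5) (nat_lit 429) (nat_lit 5) (nat_lit 434) (nat_lit 410) (nat_lit 296)) (XT.nd (nat_lit 78) (nat_lit 1596) (nat_lit 0) (XT.lf (nat_lit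 0) (nat_lit 3225580990) (nat_lit 1596) (nat_lit 2110617861) (nat_lit 76) (nat_lit 4770398806) (nat_lit 428) (nat_lit 5) (nat_lit 449) (nat_lit 5) (nat_lit 429) (nat_lit 5) (nat_lit 435) (nat_lit 410) (nat_lit 295)) (XT.lf (nat_lit 0) (nat_lit 3109155141) (nat_lit 1596) (nat_lit 1521399331) (nat_lit 1672) (nat_lit 5573796498) (nat_lit 407) (nat_lit 5) (nat_lit 428) (nat_lit 5) (nat_lit 429) (nat_lit 5) (nat_lit 436) (nat_lit 410) (nat_lit 294)))) (XT.nd (nat_lit 156) (nat_lit 1520) (nat_lit 0) (XT.nd (nat_lit 78) (nat_lit 1672) (nat_lit 0) (XT.lf (nat_lit 0) (nat_lit 6074665127) (nat_lit 1672) (nat_lit 1873252578) (nat_lit 76) (nat_lit 2355933819) (nat_lit 407) (nat_lit 5) (nat_lit 429) (nat_lit 5) (nat_lit 408) (nat_lit 5) (nat_lit 437) (nat_lit 410) (nat_lit 293)) (XT.lf (nat_lit 0) (nat_lit 3472984585) (nat_lit 1672) (nat_lit 4089057536) (nat_lit 1748) (nat_lit 2843024958) (nat_lit 385) (nat_lit 5) (nat_lit 407)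 (nat_lit 5) (nat_lit 408) (nat_lit 5) (nat_lit 438) (nat_lit 410) (nat_lit 292))) (XT.nd (nat_lit 78) (nat_lit 1520) (nat_lit 0) (XT.lf (nat_lit 0) (nat_lit 8936023399) (nat_lit 1672) (nat_lit 137730398) (nat_lit 1748) (nat_lit 1434673832) (nat_lit 385) (nat_lit 5) (nat_lit 407) (nat_lit 5) (nat_lit 408) (nat_lit 5) (nat_lit 439) (nat_lit 410) (nat_lit 291)) (XT.lf (nat_lit 0) (nat_lit 35037815) (nat_lit 1520) (nat_lit 6708623217) (nat_lit 76) (nat_lit 3869541708) (nat_lit 365) (nat_lit 5) (nat_lit 385) (nat_lit 5) (nat_lit 366) (nat_lit 5) (nat_lit 440) (nat_lit 410) (nat_lit 290))))))) (XT.nd (nat_lit 1092) (nat_lit 5320) (nat_lit 0) (XT.nd (nat_lit 546) (nat_lit 2356) (nat_lit 0) (XT.nd (nat_lit 234) (nat_lit 2584) (nat_lit 0) (XT.nd (nat_lit 78) (nat_lit 836) (nat_lit 0) (XT.lf (nat_lit 0) (nat_lit 1508987992) (nat_lit 1520) (nat_lit 1233661626) (nat_lit 76) (nat_lit 7977364688) (nat_lit 365) (nat_lit 5) (nat_lit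 385) (nat_lit 5) (nat_lit 366) (nat_lit 5) (nat_lit 441) (nat_lit 410) (nat_lit 289)) (XT.nd (nat_lit 78) (nat_lit 0) (nat_lit 0) (XT.lf (nat_lit 0) (nat_lit 3032675189) (nat_lit 912) (nat_lit 6444646924) (nat_lit 76) (nat_lit 1351246309) (nat_lit 354) (nat_lit 5) (nat_lit 366) (nat_lit 5) (nat_lit 355) (nat_lit 5) (nat_lit 442) (nat_lit 410) (nat_lit 288)) (XT.lf (nat_lit 0) (nat_lit 4596425964) (nat_lit 912) (nat_lit 842450649) (nat_lit 76) (nat_lit 5500236465) (nat_lit 354) (nat_lit 5) (nat_lit 366) (nat_lit 5) (nat_lit 355) (nat_lit 5) (nat_lit 443) (nat_lit 410) (nat_lit 287)))) (XT.nd (nat_lit 156) (nat_lit 1672) (nat_lit 0) (XT.nd (nat_lit 78) (nat_lit 0) (nat_lit 0) (XT.lf (nat_lit 0) (nat_lit 4920952823) (nat_lit 912) (nat_lit 1285873774) (nat_lit 988) (nat_lit 4844745567) (nat_lit 342) (nat_lit 5) (nat_lit 354) (nat_lit 5) (nat_lit 355) (nat_lit 5) (nat_lit 444) (nat_lit 410) (nat_lit 286)) (XT.lf (nat_lit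 0) (nat_lit 7857938117) (nat_lit 988) (nat_lit 389934918) (nat_lit 76) (nat_lit 2918248157) (nat_lit 342) (nat_lit 5) (nat_lit 355) (nat_lit 5) (nat_lit 343) (nat_lit 5) (nat_lit 445) (nat_lit 410) (nat_lit 285))) (XT.nd (nat_lit 78) (nat_lit 836) (nat_lit 0) (XT.lf (nat_lit 0) (nat_lit 5514051988) (nat_lit 836) (nat_lit 4056314483) (nat_lit 912) (nat_lit 1712039442) (nat_lit 331) (nat_lit 5) (nat_lit 342) (nat_lit 5) (nat_lit 343) (nat_lit 5) (nat_lit 446) (nat_lit 410) (nat_lit 284)) (XT.lf (nat_lit 0) (nat_lit 125098374) (nat_lit 836) (nat_lit 11181010865) (nat_lit 912) (nat_lit 95136169) (nat_lit 320) (nat_lit 5) (nat_lit 331) (nat_lit 5) (nat_lit 332) (nat_lit 5) (nat_lit 447) (nat_lit 410) (nat_lit 283))))) (XT.nd (nat_lit 234) (nat_lit 1520) (nat_lit 0) (XT.nd (nat_lit 78) (nat_lit 760) (nat_lit 0) (XT.lf (nat_lit 0) (nat_lit 1583844377) (nat_lit 912) (nat_lit 5359945262) (nat_lit 76) (nat_lit 4577477810)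 (nat_lit 319) (nat_lit 5) (nat_lit 331) (nat_lit 5) (nat_lit 320) (nat_lit 5) (nat_lit 448) (nat_lit 410) (nat_lit 282)) (XT.nd (nat_lit 78) (nat_lit 0) (nat_lit 0) (XT.lf (nat_lit 0) (nat_lit 667350595) (nat_lit 760) (nat_lit 2616715637) (nat_lit 836) (nat_lit 8359842210) (nat_lit 309) (nat_lit 5) (nat_lit 319) (nat_lit 5) (nat_lit 320) (nat_lit 5) (nat_lit 449) (nat_lit 410) (nat_lit 281)) (XT.lf (nat_lit 0) (nat_lit 5050969488) (nat_lit 836) (nat_lit 4907904402) (nat_lit 76) (nat_lit 1809484428) (nat_lit 309) (nat_lit 5) (nat_lit 320) (nat_lit 5) (nat_lit 310) (nat_lit 5) (nat_lit 450) (nat_lit 410) (nat_lit 280)))) (XT.nd (nat_lit 156) (nat_lit 760) (nat_lit 0) (XT.nd (nat_lit 78) (nat_lit 0) (nat_lit 0) (XT.lf (nat_lit 0) (nat_lit 1266139213) (nat_lit 760) (nat_lit 5597723460) (nat_lit 836) (nat_lit 5031230900) (nat_lit 299) (nat_lit 5) (nat_lit 309) (nat_lit 5) (nat_lit 310) (nat_lit 5) (nat_lit 451) (nat_lit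 410) (nat_lit 279)) (XT.lf (nat_lit 0) (nat_lit 7615032728) (nat_lit 760) (nat_lit 1116211315) (nat_lit 836) (nat_lit 3292764115) (nat_lit 299) (nat_lit 5) (nat_lit 309) (nat_lit 5) (nat_lit 310) (nat_lit 5) (nat_lit 452) (nat_lit 410) (nat_lit 278))) (XT.nd (nat_lit 78) (nat_lit 76) (nat_lit 0) (XT.lf (nat_lit 0) (nat_lit 1923036186) (nat_lit 684) (nat_lit 8733435314) (nat_lit 760) (nat_lit 1498628618) (nat_lit 290) (nat_lit 5) (nat_lit 299) (nat_lit 5) (nat_lit 300) (nat_lit 5) (nat_lit 453) (nat_lit 410) (nat_lit 277)) (XT.lf (nat_lit 0) (nat_lit 349881036) (nat_lit 760) (nat_lit 3871764665) (nat_lit 76) (nat_lit 8066677130) (nat_lit 289) (nat_lit 5) (nat_lit 299) (nat_lit 5) (nat_lit 290) (nat_lit 5) (nat_lit 454) (nat_lit 410) (nat_lit 276)))))) (XT.nd (nat_lit 546) (nat_lit 2508) (nat_lit 0) (XT.nd (nat_lit 234) (nat_lit 1368) (nat_lit 0) (XT.nd (nat_lit 78) (nat_lit 684) (nat_lit 0) (XT.lf (nat_lit 0) (nat_lit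 2220944758) (nat_lit 836) (nat_lit 9801312172) (nat_lit 76) (nat_lit 401650468) (nat_lit 279) (nat_lit 5) (nat_lit 290) (nat_lit 5) (nat_lit 280) (nat_lit 5) (nat_lit 455) (nat_lit 410) (nat_lit 275)) (XT.nd (nat_lit 78) (nat_lit 684) (nat_lit 0) (XT.lf (nat_lit 0) (nat_lit 4169658265) (nat_lit 836) (nat_lit 3305626568) (nat_lit 76) (nat_lit 5086122615) (nat_lit 279) (nat_lit 5) (nat_lit 290) (nat_lit 5) (nat_lit 280) (nat_lit 5) (nat_lit 456) (nat_lit 410) (nat_lit 274)) (XT.lf (nat_lit 0) (nat_lit 3349055363) (nat_lit 684) (nat_lit 2816424135) (nat_lit 760) (nat_lit 6536023530) (nat_lit 270) (nat_lit 5) (nat_lit 279) (nat_lit 5) (nat_lit 280) (nat_lit 5) (nat_lit 457) (nat_lit 410) (nat_lit 273)))) (XT.nd (nat_lit 156) (nat_lit 684) (nat_lit 0) (XT.nd (nat_lit 78) (nat_lit 684) (nat_lit 0) (XT.lf (nat_lit 0) (nat_lit 8222665705) (nat_lit 760) (nat_lit 2690043069) (nat_lit 76) (nat_lit 1931270812) (nat_lit 270)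 (nat_lit 5) (nat_lit 280) (nat_lit 5) (nat_lit 271) (nat_lit 5) (nat_lit 458) (nat_lit 410) (nat_lit 272)) (XT.lf (nat_lit 0) (nat_lit 4126358503) (nat_lit 684) (nat_lit 6226895553) (nat_lit 760) (nat_lit 2635414332) (nat_lit 261) (nat_lit 5) (nat_lit 270) (nat_lit 5) (nat_lit 271) (nat_lit 5) (nat_lit 459) (nat_lit 410) (nat_lit 271))) (XT.nd (nat_lit 78) (nat_lit 684) (nat_lit 0) (XT.lf (nat_lit 0) (nat_lit 11100931939) (nat_lit 684) (nat_lit 1430552982) (nat_lit 760) (nat_lit 604673153) (nat_lit 261) (nat_lit 5) (nat_lit 270) (nat_lit 5) (nat_lit 271) (nat_lit 5) (nat_lit 460) (nat_lit 410) (nat_lit 270)) (XT.lf (nat_lit 0) (nat_lit 1489596796) (nat_lit 684) (nat_lit 8339227124) (nat_lit 76) (nat_lit 3456747612) (nat_lit 252) (nat_lit 5) (nat_lit 261) (nat_lit 5) (nat_lit 253) (nat_lit 5) (nat_lit 461) (nat_lit 410) (nat_lit 269))))) (XT.nd (nat_lit 312) (nat_lit 1216) (nat_lit 0) (XT.nd (nat_lit 156) (nat_lit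 608) (nat_lit 0) (XT.nd (nat_lit 78) (nat_lit 684) (nat_lit 0) (XT.lf (nat_lit 0) (nat_lit 3628174680) (nat_lit 684) (nat_lit 1370801152) (nat_lit 76) (nat_lit 8438714386) (nat_lit 252) (nat_lit 5) (nat_lit 261) (nat_lit 5) (nat_lit 253) (nat_lit 5) (nat_lit 462) (nat_lit 410) (nat_lit 268)) (XT.lf (nat_lit 0) (nat_lit 5798664786) (nat_lit 684) (nat_lit 36047129) (nat_lit 760) (nat_lit 7757642744) (nat_lit 243) (nat_lit 5) (nat_lit 252) (nat_lit 5) (nat_lit 253) (nat_lit 5) (nat_lit 463) (nat_lit 410) (nat_lit 267))) (XT.nd (nat_lit 78) (nat_lit 608) (nat_lit 0) (XT.lf (nat_lit 0) (nat_lit 8114950428) (nat_lit 760) (nat_lit 667045600) (nat_lit 76) (nat_lit 4967531948) (nat_lit 243) (nat_lit 5) (nat_lit 253) (nat_lit 5) (nat_lit 244) (nat_lit 5) (nat_lit 464) (nat_lit 410) (nat_lit 266)) (XT.lf (nat_lit 0) (nat_lit 6675199229) (nat_lit 608) (nat_lit 3797092417) (nat_lit 684) (nat_lit 3436930013) (nat_lit 235) (nat_lit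 5) (nat_lit 243) (nat_lit 5) (nat_lit 244) (nat_lit 5) (nat_lit 465) (nat_lit 410) (nat_lit 265)))) (XT.nd (nat_lit 156) (nat_lit 532) (nat_lit 0) (XT.nd (nat_lit 78) (nat_lit 76) (nat_lit 0) (XT.lf (nat_lit 0) (nat_lit 79588608) (nat_lit 608) (nat_lit 12798623123) (nat_lit 684) (nat_lit 1193875569) (nat_lit 227) (nat_lit 5) (nat_lit 235) (nat_lit 5) (nat_lit 236) (nat_lit 5) (nat_lit 466) (nat_lit 410) (nat_lit 264)) (XT.lf (nat_lit 0) (nat_lit 1141810257) (nat_lit 684) (nat_lit 6646726824) (nat_lit 76) (nat_lit 6448295196) (nat_lit 226) (nat_lit 5) (nat_lit 235) (nat_lit 5) (nat_lit 227) (nat_lit 5) (nat_lit 467) (nat_lit 410) (nat_lit 263))) (XT.nd (nat_lit 78) (nat_lit 0) (nat_lit 0) (XT.lf (nat_lit 0) (nat_lit 834838994) (nat_lit 532) (nat_lit 2667160219) (nat_lit 608) (nat_lit 10902845940) (nat_lit 219) (nat_lit 5) (nat_lit 226) (nat_lit 5) (nat_lit 227) (nat_lit 5) (nat_lit 468) (nat_lit 410) (nat_lit 262))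 (XT.lf (nat_lit 0) (nat_lit 5959350652) (nat_lit 608) (nat_lit 6050377805) (nat_lit 76) (nat_lit 2565496867) (nat_lit 219) (nat_lit 5) (nat_lit 227) (nat_lit 5) (nat_lit 220) (nat_lit 5) (nat_lit 469) (nat_lit 410) (nat_lit 261))))))))
noncomputable def xc172 : XT := (XT.nd (nat_lit 2184) (nat_lit 3800) (nat_lit 0) (XT.nd (nat_lit 1092) (nat_lit 3496) (nat_lit 0) (XT.nd (nat_lit 546) (nat_lit 1520) (nat_lit 0) (XT.nd (nat_lit 234) (nat_lit 1064) (nat_lit 0) (XT.nd (nat_lit 78) (nat_lit 532) (nat_lit 0) (XT.lf (nat_lit 0) (nat_lit 1609072265) (nat_lit 608) (nat_lit 6873574445) (nat_lit 684) (nat_lit 6266036530) (nat_lit 211) (nat_lit 5) (nat_lit 219) (nat_lit 5) (nat_lit 220) (nat_lit 5) (nat_lit 470) (nat_lit 410) (nat_lit 260)) (XT.nd (nat_lit 78) (nat_lit 532) (nat_lit 0) (XT.lf (nat_lit 0) (nat_lit 9489807169) (nat_lit 608) (nat_lit 1596021306) (nat_lit 684) (nat_lit 3839199415) (nat_lit 211) (nat_lit 5) (nat_lit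 219) (nat_lit 5) (nat_lit 220) (nat_lit 5) (nat_lit 471) (nat_lit 410) (nat_lit 259)) (XT.lf (nat_lit 0) (nat_lit 2416508634) (nat_lit 532) (nat_lit 11353863457) (nat_lit 608) (nat_lit 1333947230) (nat_lit 204) (nat_lit 5) (nat_lit 211) (nat_lit 5) (nat_lit 212) (nat_lit 5) (nat_lit 472) (nat_lit 410) (nat_lit 258)))) (XT.nd (nat_lit 156) (nat_lit 456) (nat_lit 0) (XT.nd (nat_lit 78) (nat_lit 532) (nat_lit 0) (XT.lf (nat_lit 0) (nat_lit 1241744174) (nat_lit 608) (nat_lit 4820173271) (nat_lit 76) (nat_lit 9224399099) (nat_lit 203) (nat_lit 5) (nat_lit 211) (nat_lit 5) (nat_lit 204) (nat_lit 5) (nat_lit 473) (nat_lit 410) (nat_lit 257)) (XT.lf (nat_lit 0) (nat_lit 3224634118) (nat_lit 532) (nat_lit 636690008) (nat_lit 608) (nat_lit 11610254026) (nat_lit 196) (nat_lit 5) (nat_lit 203) (nat_lit 5) (nat_lit 204) (nat_lit 5) (nat_lit 474) (nat_lit 410) (nat_lit 256))) (XT.nd (nat_lit 78) (nat_lit 456) (nat_lit 0) (XT.lf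 (nat_lit 0) (nat_lit 6587036712) (nat_lit 608) (nat_lit 4209979475) (nat_lit 76) (nat_lit 4862459395) (nat_lit 196) (nat_lit 5) (nat_lit 204) (nat_lit 5) (nat_lit 197) (nat_lit 5) (nat_lit 475) (nat_lit 410) (nat_lit 255)) (XT.lf (nat_lit 0) (nat_lit 4022788343) (nat_lit 456) (nat_lit 5364404499) (nat_lit 532) (nat_lit 6463544836) (nat_lit 190) (nat_lit 5) (nat_lit 196) (nat_lit 5) (nat_lit 197) (nat_lit 5) (nat_lit 476) (nat_lit 410) (nat_lit 254))))) (XT.nd (nat_lit 234) (nat_lit 912) (nat_lit 0) (XT.nd (nat_lit 78) (nat_lit 608) (nat_lit 0) (XT.lf (nat_lit 0) (nat_lit 12262629807) (nat_lit 532) (nat_lit 3582897766) (nat_lit 76) (nat_lit 199917087) (nat_lit 190) (nat_lit 5) (nat_lit 197) (nat_lit 5) (nat_lit 191) (nat_lit 5) (nat_lit 477) (nat_lit 410) (nat_lit 253)) (XT.nd (nat_lit 78) (nat_lit 76) (nat_lit 0) (XT.lf (nat_lit 0) (nat_lit 4841713936) (nat_lit 532) (nat_lit 10410716335) (nat_lit 608) (nat_lit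 990483512) (nat_lit 183) (nat_lit 5) (nat_lit 190) (nat_lit 5) (nat_lit 191) (nat_lit 5) (nat_lit 478) (nat_lit 410) (nat_lit 252)) (XT.lf (nat_lit 0) (nat_lit 1847467270) (nat_lit 608) (nat_lit 2986053099) (nat_lit 76) (nat_lit 11610292854) (nat_lit 182) (nat_lit 5) (nat_lit 190) (nat_lit 5) (nat_lit 183) (nat_lit 5) (nat_lit 479) (nat_lit 410) (nat_lit 251)))) (XT.nd (nat_lit 156) (nat_lit 456) (nat_lit 0) (XT.nd (nat_lit 78) (nat_lit 0) (nat_lit 0) (XT.lf (nat_lit 0) (nat_lit 4761572423) (nat_lit 532) (nat_lit 11002027567) (nat_lit 76) (nat_lit 884351364) (nat_lit 176) (nat_lit 5) (nat_lit 183) (nat_lit 5) (nat_lit 177) (nat_lit 5) (nat_lit 480) (nat_lit 410) (nat_lit 250)) (XT.lf (nat_lit 0) (nat_lit 7776360074) (nat_lit 532) (nat_lit 2410093814) (nat_lit 76) (nat_lit 6668875062) (nat_lit 176) (nat_lit 5) (nat_lit 183) (nat_lit 5) (nat_lit 177) (nat_lit 5) (nat_lit 481) (nat_lit 410) (nat_lit 249))) (XT.nd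 (nat_lit 78) (nat_lit 0) (nat_lit 0) (XT.lf (nat_lit 0) (nat_lit 6425005974) (nat_lit 456) (nat_lit 4458564311) (nat_lit 532) (nat_lit 6182645892) (nat_lit 170) (nat_lit 5) (nat_lit 176) (nat_lit 5) (nat_lit 177) (nat_lit 5) (nat_lit 482) (nat_lit 410) (nat_lit 248)) (XT.lf (nat_lit 0) (nat_lit 14068683993) (nat_lit 532) (nat_lit 1833637633) (nat_lit 76) (nat_lit 1378688863) (nat_lit 170) (nat_lit 5) (nat_lit 177) (nat_lit 5) (nat_lit 171) (nat_lit 5) (nat_lit 483) (nat_lit 410) (nat_lit 247)))))) (XT.nd (nat_lit 546) (nat_lit 1596) (nat_lit 0) (XT.nd (nat_lit 234) (nat_lit 912) (nat_lit 0) (XT.nd (nat_lit 78) (nat_lit 532) (nat_lit 0) (XT.lf (nat_lit 0) (nat_lit 7202248684) (nat_lit 456) (nat_lit 10182220472) (nat_lit 532) (nat_lit 114296585) (nat_lit 164) (nat_lit 5) (nat_lit 170) (nat_lit 5) (nat_lit 171) (nat_lit 5) (nat_lit 484) (nat_lit 410) (nat_lit 246)) (XT.nd (nat_lit 78) (nat_lit 456) (nat_lit 0) (XT.lf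 (nat_lit 0) (nat_lit 3008850777) (nat_lit 532) (nat_lit 1309591204) (nat_lit 76) (nat_lit 13401980855) (nat_lit 163) (nat_lit 5) (nat_lit 170) (nat_lit 5) (nat_lit 164) (nat_lit 5) (nat_lit 485) (nat_lit 410) (nat_lit 245)) (XT.lf (nat_lit 0) (nat_lit 6246552376) (nat_lit 532) (nat_lit 10008777545) (nat_lit 76) (nat_lit 1690099789) (nat_lit 157) (nat_lit 5) (nat_lit 164) (nat_lit 5) (nat_lit 158) (nat_lit 5) (nat_lit 486) (nat_lit 410) (nat_lit 244)))) (XT.nd (nat_lit 156) (nat_lit 532) (nat_lit 0) (XT.nd (nat_lit 78) (nat_lit 380) (nat_lit 0) (XT.lf (nat_lit 0) (nat_lit 9577425667) (nat_lit 532) (nat_lit 830486828) (nat_lit 76) (nat_lit 7766459972) (nat_lit 157) (nat_lit 5) (nat_lit 164) (nat_lit 5) (nat_lit 158) (nat_lit 5) (nat_lit 487) (nat_lit 410) (nat_lit 243)) (XT.lf (nat_lit 0) (nat_lit 8632189308) (nat_lit 380) (nat_lit 4389922486) (nat_lit 456) (nat_lit 5384842397) (nat_lit 152) (nat_lit 5) (nat_lit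 157) (nat_lit 5) (nat_lit 158) (nat_lit 5) (nat_lit 488) (nat_lit 410) (nat_lit 242))) (XT.nd (nat_lit 78) (nat_lit 532) (nat_lit 0) (XT.lf (nat_lit 0) (nat_lit 16543873504) (nat_lit 456) (nat_lit 372556088) (nat_lit 76) (nat_lit 1727598261) (nat_lit 152) (nat_lit 5) (nat_lit 158) (nat_lit 5) (nat_lit 153) (nat_lit 5) (nat_lit 489) (nat_lit 410) (nat_lit 241)) (XT.lf (nat_lit 0) (nat_lit 1315197575) (nat_lit 532) (nat_lit 9594531773) (nat_lit 76) (nat_lit 7974327738) (nat_lit 145) (nat_lit 5) (nat_lit 152) (nat_lit 5) (nat_lit 146) (nat_lit 5) (nat_lit 490) (nat_lit 410) (nat_lit 240))))) (XT.nd (nat_lit 234) (nat_lit 836) (nat_lit 0) (XT.nd (nat_lit 78) (nat_lit 760) (nat_lit 0) (XT.lf (nat_lit 0) (nat_lit 4764700313) (nat_lit 532) (nat_lit 5123737) (nat_lit 76) (nat_lit 14358909630) (nat_lit 145) (nat_lit 5) (nat_lit 152) (nat_lit 5) (nat_lit 146) (nat_lit 5) (nat_lit 491) (nat_lit 410) (nat_lit 239)) (XT.nd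 (nat_lit 78) (nat_lit 380) (nat_lit 0) (XT.lf (nat_lit 0) (nat_lit 8349115176) (nat_lit 456) (nat_lit 9493474067) (nat_lit 76) (nat_lit 1534399762) (nat_lit 140) (nat_lit 5) (nat_lit 146) (nat_lit 5) (nat_lit 141) (nat_lit 5) (nat_lit 492) (nat_lit 410) (nat_lit 238)) (XT.lf (nat_lit 0) (nat_lit 300046333) (nat_lit 380) (nat_lit 11730396976) (nat_lit 456) (nat_lit 7599265196) (nat_lit 135) (nat_lit 5) (nat_lit 140) (nat_lit 5) (nat_lit 141) (nat_lit 5) (nat_lit 493) (nat_lit 410) (nat_lit 237)))) (XT.nd (nat_lit 156) (nat_lit 456) (nat_lit 0) (XT.nd (nat_lit 78) (nat_lit 380) (nat_lit 0) (XT.lf (nat_lit 0) (nat_lit 10406115749) (nat_lit 380) (nat_lit 5434728172) (nat_lit 456) (nat_lit 4045533054) (nat_lit 135) (nat_lit 5) (nat_lit 140) (nat_lit 5) (nat_lit 141) (nat_lit 5) (nat_lit 494) (nat_lit 410) (nat_lit 236)) (XT.lf (nat_lit 0) (nat_lit 555086461) (nat_lit 380) (nat_lit 19174255204) (nat_lit 456) (nat_lit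 418802798) (nat_lit 130) (nat_lit 5) (nat_lit 135) (nat_lit 5) (nat_lit 136) (nat_lit 5) (nat_lit 495) (nat_lit 410) (nat_lit 235))) (XT.nd (nat_lit 78) (nat_lit 380) (nat_lit 0) (XT.lf (nat_lit 0) (nat_lit 3329372310) (nat_lit 456) (nat_lit 9563884766) (nat_lit 76) (nat_lit 7519628861) (nat_lit 129) (nat_lit 5) (nat_lit 135) (nat_lit 5) (nat_lit 130) (nat_lit 5) (nat_lit 496) (nat_lit 410) (nat_lit 234)) (XT.lf (nat_lit 0) (nat_lit 660042695) (nat_lit 380) (nat_lit 6483213556) (nat_lit 456) (nat_lit 13539686793) (nat_lit 124) (nat_lit 5) (nat_lit 129) (nat_lit 5) (nat_lit 130) (nat_lit 5) (nat_lit 497) (nat_lit 410) (nat_lit 233))))))) (XT.nd (nat_lit 1092) (nat_lit 1748) (nat_lit 0) (XT.nd (nat_lit 546) (nat_lit 988) (nat_lit 0) (XT.nd (nat_lit 234) (nat_lit 760) (nat_lit 0) (XT.nd (nat_lit 78) (nat_lit 304) (nat_lit 0) (XT.lf (nat_lit 0) (nat_lit 11090496884) (nat_lit 456) (nat_lit 9751581386) (nat_lit 76) (nat_lit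 115184614) (nat_lit 124) (nat_lit 5) (nat_lit 130) (nat_lit 5) (nat_lit 125) (nat_lit 5) (nat_lit 498) (nat_lit 410) (nat_lit 232)) (XT.nd (nat_lit 78) (nat_lit 0) (nat_lit 0) (XT.lf (nat_lit 0) (nat_lit 679601645) (nat_lit 304) (nat_lit 14476700836) (nat_lit 380) (nat_lit 6079977342) (nat_lit 120) (nat_lit 5) (nat_lit 124) (nat_lit 5) (nat_lit 125) (nat_lit 5) (nat_lit 499) (nat_lit 410) (nat_lit 231)) (XT.lf (nat_lit 0) (nat_lit 11440129291) (nat_lit 304) (nat_lit 7921082766) (nat_lit 380) (nat_lit 2158512331) (nat_lit 120) (nat_lit 5) (nat_lit 124) (nat_lit 5) (nat_lit 125) (nat_lit 5) (nat_lit 500) (nat_lit 410) (nat_lit 230)))) (XT.nd (nat_lit 156) (nat_lit 304) (nat_lit 0) (XT.nd (nat_lit 78) (nat_lit 0) (nat_lit 0) (XT.lf (nat_lit 0) (nat_lit 591488841) (nat_lit 380) (nat_lit 1222030432) (nat_lit 456) (nat_lit 19995156644) (nat_lit 114) (nat_lit 5) (nat_lit 119) (nat_lit 5) (nat_lit 120) (nat_lit 5) (nat_lit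 501) (nat_lit 410) (nat_lit 229)) (XT.lf (nat_lit 0) (nat_lit 5933131075) (nat_lit 456) (nat_lit 10551996755) (nat_lit 76) (nat_lit 5616055320) (nat_lit 114) (nat_lit 5) (nat_lit 120) (nat_lit 5) (nat_lit 115) (nat_lit 5) (nat_lit 502) (nat_lit 410) (nat_lit 228))) (XT.nd (nat_lit 78) (nat_lit 0) (nat_lit 0) (XT.lf (nat_lit 0) (nat_lit 311314847) (nat_lit 304) (nat_lit 9826578897) (nat_lit 380) (nat_lit 12261594425) (nat_lit 110) (nat_lit 5) (nat_lit 114) (nat_lit 5) (nat_lit 115) (nat_lit 5) (nat_lit 503) (nat_lit 410) (nat_lit 227)) (XT.lf (nat_lit 0) (nat_lit 11523828719) (nat_lit 304) (nat_lit 2966449016) (nat_lit 380) (nat_lit 8212213789) (nat_lit 110) (nat_lit 5) (nat_lit 114) (nat_lit 5) (nat_lit 115) (nat_lit 5) (nat_lit 504) (nat_lit 410) (nat_lit 226))))) (XT.nd (nat_lit 234) (nat_lit 608) (nat_lit 0) (XT.nd (nat_lit 78) (nat_lit 380) (nat_lit 0) (XT.lf (nat_lit 0) (nat_lit 18948715718) (nat_lit 380)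 (nat_lit 88135904) (nat_lit 76) (nat_lit 3974325906) (nat_lit 110) (nat_lit 5) (nat_lit 115) (nat_lit 5) (nat_lit 111) (nat_lit 5) (nat_lit 505) (nat_lit 410) (nat_lit 225)) (XT.nd (nat_lit 78) (nat_lit 0) (nat_lit 0) (XT.lf (nat_lit 0) (nat_lit 254884760) (nat_lit 380) (nat_lit 11983462927) (nat_lit 76) (nat_lit 11085933392) (nat_lit 105) (nat_lit 5) (nat_lit 110) (nat_lit 5) (nat_lit 106) (nat_lit 5) (nat_lit 506) (nat_lit 410) (nat_lit 224)) (XT.lf (nat_lit 0) (nat_lit 4597823255) (nat_lit 380) (nat_lit 681808104) (nat_lit 76) (nat_lit 18363608007) (nat_lit 105) (nat_lit 5) (nat_lit 110) (nat_lit 5) (nat_lit 106) (nat_lit 5) (nat_lit 507) (nat_lit 410) (nat_lit 223)))) (XT.nd (nat_lit 156) (nat_lit 304) (nat_lit 0) (XT.nd (nat_lit 78) (nat_lit 0) (nat_lit 0) (XT.lf (nat_lit 0) (nat_lit 9104290960) (nat_lit 380) (nat_lit 13000268783) (nat_lit 76) (nat_lit 1862486167) (nat_lit 101) (nat_lit 5) (nat_lit 106) (nat_lit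 5) (nat_lit 102) (nat_lit 5) (nat_lit 508) (nat_lit 410) (nat_lit 222)) (XT.lf (nat_lit 0) (nat_lit 13733632639) (nat_lit 380) (nat_lit 1485299800) (nat_lit 76) (nat_lit 9077743701) (nat_lit 101) (nat_lit 5) (nat_lit 106) (nat_lit 5) (nat_lit 102) (nat_lit 5) (nat_lit 509) (nat_lit 410) (nat_lit 221))) (XT.nd (nat_lit 78) (nat_lit 0) (nat_lit 0) (XT.lf (nat_lit 0) (nat_lit 10385744043) (nat_lit 304) (nat_lit 8130556662) (nat_lit 380) (nat_lit 6115385881) (nat_lit 97) (nat_lit 5) (nat_lit 101) (nat_lit 5) (nat_lit 102) (nat_lit 5) (nat_lit 510) (nat_lit 410) (nat_lit 220)) (XT.lf (nat_lit 0) (nat_lit 22503975628) (nat_lit 304) (nat_lit 893985964) (nat_lit 380) (nat_lit 1575371215) (nat_lit 97) (nat_lit 5) (nat_lit 101) (nat_lit 5) (nat_lit 102) (nat_lit 5) (nat_lit 511) (nat_lit 410) (nat_lit 219)))))) (XT.nd (nat_lit 546) (nat_lit 532) (nat_lit 0) (XT.nd (nat_lit 234) (nat_lit 608) (nat_lit 0) (XT.nd (nat_lit 78)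 (nat_lit 304) (nat_lit 0) (XT.lf (nat_lit 0) (nat_lit 3114053070) (nat_lit 304) (nat_lit 15723850780) (nat_lit 76) (nat_lit 6481539965) (nat_lit 93) (nat_lit 5) (nat_lit 97) (nat_lit 5) (nat_lit 94) (nat_lit 5) (nat_lit 512) (nat_lit 410) (nat_lit 218)) (XT.nd (nat_lit 78) (nat_lit 304) (nat_lit 0) (XT.lf (nat_lit 0) (nat_lit 7892287276) (nat_lit 304) (nat_lit 3763586731) (nat_lit 76) (nat_lit 14016074677) (nat_lit 93) (nat_lit 5) (nat_lit 97) (nat_lit 5) (nat_lit 94) (nat_lit 5) (nat_lit 513) (nat_lit 410) (nat_lit 217)) (XT.lf (nat_lit 0) (nat_lit 8537765709) (nat_lit 304) (nat_lit 4277375916) (nat_lit 380) (nat_lit 13215383092) (nat_lit 89) (nat_lit 5) (nat_lit 93) (nat_lit 5) (nat_lit 94) (nat_lit 5) (nat_lit 514) (nat_lit 410) (nat_lit 216)))) (XT.nd (nat_lit 156) (nat_lit 380) (nat_lit 0) (XT.nd (nat_lit 78) (nat_lit 228) (nat_lit 0) (XT.lf (nat_lit 0) (nat_lit 17876627140) (nat_lit 380) (nat_lit 5290994711)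 (nat_lit 76) (nat_lit 3227849071) (nat_lit 89) (nat_lit 5) (nat_lit 94) (nat_lit 5) (nat_lit 90) (nat_lit 5) (nat_lit 515) (nat_lit 410) (nat_lit 215)) (XT.lf (nat_lit 0) (nat_lit 7211122418) (nat_lit 228) (nat_lit 15897149182) (nat_lit 304) (nat_lit 3658067957) (nat_lit 86) (nat_lit 5) (nat_lit 89) (nat_lit 5) (nat_lit 90) (nat_lit 5) (nat_lit 516) (nat_lit 410) (nat_lit 214))) (XT.nd (nat_lit 78) (nat_lit 304) (nat_lit 0) (XT.lf (nat_lit 0) (nat_lit 1312413041) (nat_lit 304) (nat_lit 7127537569) (nat_lit 76) (nat_lit 18703917397) (nat_lit 85) (nat_lit 5) (nat_lit 89) (nat_lit 5) (nat_lit 86) (nat_lit 5) (nat_lit 517) (nat_lit 410) (nat_lit 213)) (XT.lf (nat_lit 0) (nat_lit 5588003006) (nat_lit 304) (nat_lit 775565434) (nat_lit 380) (nat_lit 21164292033) (nat_lit 81) (nat_lit 5) (nat_lit 85) (nat_lit 5) (nat_lit 86) (nat_lit 5) (nat_lit 518) (nat_lit 410) (nat_lit 212))))) (XT.nd (nat_lit 312) (nat_lit 76) (nat_lit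 0) (XT.nd (nat_lit 156) (nat_lit 228) (nat_lit 0) (XT.nd (nat_lit 78) (nat_lit 228) (nat_lit 0) (XT.lf (nat_lit 0) (nat_lit 11603567269) (nat_lit 380) (nat_lit 9319934013) (nat_lit 76) (nat_lit 6994277032) (nat_lit 81) (nat_lit 5) (nat_lit 86) (nat_lit 5) (nat_lit 82) (nat_lit 5) (nat_lit 519) (nat_lit 410) (nat_lit 211)) (XT.lf (nat_lit 0) (nat_lit 3584668154) (nat_lit 228) (nat_lit 13386178752) (nat_lit 304) (nat_lit 11344199882) (nat_lit 78) (nat_lit 5) (nat_lit 81) (nat_lit 5) (nat_lit 82) (nat_lit 5) (nat_lit 520) (nat_lit 410) (nat_lit 210))) (XT.nd (nat_lit 78) (nat_lit 228) (nat_lit 0) (XT.lf (nat_lit 0) (nat_lit 16864162534) (nat_lit 228) (nat_lit 5637976222) (nat_lit 304) (nat_lit 6216990401) (nat_lit 78) (nat_lit 5) (nat_lit 81) (nat_lit 5) (nat_lit 82) (nat_lit 5) (nat_lit 521) (nat_lit 410) (nat_lit 209)) (XT.lf (nat_lit 0) (nat_lit 1270468152) (nat_lit 228) (nat_lit 26890760994) (nat_lit 304) (nat_lit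 969722392) (nat_lit 75) (nat_lit 5) (nat_lit 78) (nat_lit 5) (nat_lit 79) (nat_lit 5) (nat_lit 522) (nat_lit 410) (nat_lit 208)))) (XT.nd (nat_lit 50622) (nat_lit 0) (nat_lit 30780) (XT.nd (nat_lit 78) (nat_lit 0) (nat_lit 0) (XT.lf (nat_lit 0) (nat_lit 4436660971) (nat_lit 304) (nat_lit 14806086059) (nat_lit 76) (nat_lit 10305463063) (nat_lit 74) (nat_lit 5) (nat_lit 78) (nat_lit 5) (nat_lit 75) (nat_lit 5) (nat_lit 523) (nat_lit 410) (nat_lit 207)) (XT.lf (nat_lit 0) (nat_lit 9932542353) (nat_lit 304) (nat_lit 1506294454) (nat_lit 76) (nat_lit 18534963431) (nat_lit 74) (nat_lit 5) (nat_lit 78) (nat_lit 5) (nat_lit 75) (nat_lit 5) (nat_lit 524) (nat_lit 410) (nat_lit 206))) (XT.nd (nat_lit 78) (nat_lit 0) (nat_lit 0) (XT.lf (nat_lit 0) (nat_lit 1197881857) (nat_lit 1444) (nat_lit 1477293215) (nat_lit 1444) (nat_lit 1477293215) (nat_lit 479) (nat_lit 3) (nat_lit 498) (nat_lit 3) (nat_lit 498) (nat_lit 5) (nat_lit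 411) (nat_lit 411) (nat_lit 318)) (XT.lf (nat_lit 76) (nat_lit 902070913) (nat_lit 0) (nat_lit 2578710450) (nat_lit 1444) (nat_lit 4885158641) (nat_lit 480) (nat_lit 5) (nat_lit 479) (nat_lit 3) (nat_lit 498) (nat_lit 5) (nat_lit 412) (nat_lit 411) (nat_lit 317))))))))
noncomputable def xc173 : XT := (XT.nd (nat_lit 2184) (nat_lit 12616) (nat_lit 0) (XT.nd (nat_lit 1092) (nat_lit 4560) (nat_lit 0) (XT.nd (nat_lit 546) (nat_lit 1292) (nat_lit 0) (XT.nd (nat_lit 234) (nat_lit 1368) (nat_lit 0) (XT.nd (nat_lit 78) (nat_lit 0) (nat_lit 0) (XT.lf (nat_lit 0) (nat_lit 4581386103) (nat_lit 1368) (nat_lit 3568578146) (nat_lit 1444) (nat_lit 278343152) (nat_lit 480) (nat_lit 5) (nat_lit 498) (nat_lit 5) (nat_lit 499) (nat_lit 5) (nat_lit 413) (nat_lit 411) (nat_lit 316)) (XT.nd (nat_lit 78) (nat_lit 0) (nat_lit 0) (XT.lf (nat_lit 76) (nat_lit 377810880) (nat_lit 0) (nat_lit 5318581502) (nat_lit 1444) (nat_lit 2795703183)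 (nat_lit 481) (nat_lit 5) (nat_lit 480) (nat_lit 5) (nat_lit 499) (nat_lit 5) (nat_lit 414) (nat_lit 411) (nat_lit 315)) (XT.lf (nat_lit 76) (nat_lit 4436912075) (nat_lit 0) (nat_lit 2394030104) (nat_lit 1444) (nat_lit 1726293239) (nat_lit 481) (nat_lit 5) (nat_lit 480) (nat_lit 5) (nat_lit 499) (nat_lit 5) (nat_lit 415) (nat_lit 411) (nat_lit 314)))) (XT.nd (nat_lit 156) (nat_lit 0) (nat_lit 0) (XT.nd (nat_lit 78) (nat_lit 1444) (nat_lit 0) (XT.lf (nat_lit 0) (nat_lit 7965904303) (nat_lit 1368) (nat_lit 65230713) (nat_lit 1444) (nat_lit 593009012) (nat_lit 481) (nat_lit 5) (nat_lit 499) (nat_lit 5) (nat_lit 500) (nat_lit 5) (nat_lit 416) (nat_lit 411) (nat_lit 313)) (XT.lf (nat_lit 0) (nat_lit 442457248) (nat_lit 1444) (nat_lit 4600810752) (nat_lit 1520) (nat_lit 3648747667) (nat_lit 462) (nat_lit 5) (nat_lit 481) (nat_lit 5) (nat_lit 482) (nat_lit 5) (nat_lit 417) (nat_lit 411) (nat_lit 312))) (XT.nd (nat_lit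 78) (nat_lit 0) (nat_lit 76) (XT.lf (nat_lit 0) (nat_lit 1531433397) (nat_lit 1444) (nat_lit 448835773) (nat_lit 1520) (nat_lit 6781406178) (nat_lit 462) (nat_lit 5) (nat_lit 481) (nat_lit 5) (nat_lit 482) (nat_lit 5) (nat_lit 418) (nat_lit 411) (nat_lit 311)) (XT.lf (nat_lit 0) (nat_lit 2649788298) (nat_lit 1444) (nat_lit 5018704973) (nat_lit 1520) (nat_lit 1164101800) (nat_lit 463) (nat_lit 5) (nat_lit 482) (nat_lit 5) (nat_lit 483) (nat_lit 5) (nat_lit 419) (nat_lit 411) (nat_lit 310))))) (XT.nd (nat_lit 234) (nat_lit 1368) (nat_lit 0) (XT.nd (nat_lit 78) (nat_lit 0) (nat_lit 0) (XT.lf (nat_lit 0) (nat_lit 3782242472) (nat_lit 1444) (nat_lit 765128628) (nat_lit 1520) (nat_lit 4357745909) (nat_lit 463) (nat_lit 5) (nat_lit 482) (nat_lit 5) (nat_lit 483) (nat_lit 5) (nat_lit 420) (nat_lit 411) (nat_lit 309)) (XT.nd (nat_lit 78) (nat_lit 0) (nat_lit 76) (XT.lf (nat_lit 76) (nat_lit 3606032676) (nat_lit 0) (nat_lit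 1330790455) (nat_lit 1520) (nat_lit 4042294807) (nat_lit 464) (nat_lit 5) (nat_lit 463) (nat_lit 5) (nat_lit 483) (nat_lit 5) (nat_lit 421) (nat_lit 411) (nat_lit 308)) (XT.lf (nat_lit 0) (nat_lit 6108821586) (nat_lit 1444) (nat_lit 1007432670) (nat_lit 1520) (nat_lit 1938475853) (nat_lit 464) (nat_lit 5) (nat_lit 483) (nat_lit 5) (nat_lit 484) (nat_lit 5) (nat_lit 422) (nat_lit 411) (nat_lit 307)))) (XT.nd (nat_lit 156) (nat_lit 1444) (nat_lit 0) (XT.nd (nat_lit 78) (nat_lit 0) (nat_lit 0) (XT.lf (nat_lit 76) (nat_lit 3467262471) (nat_lit 0) (nat_lit 3845279623) (nat_lit 1520) (nat_lit 1819164187) (nat_lit 465) (nat_lit 5) (nat_lit 464) (nat_lit 5) (nat_lit 484) (nat_lit 5) (nat_lit 423) (nat_lit 411) (nat_lit 306)) (XT.lf (nat_lit 76) (nat_lit 8030274672) (nat_lit 0) (nat_lit 494135397) (nat_lit 1520) (nat_lit 686147505) (nat_lit 465) (nat_lit 5) (nat_lit 464) (nat_lit 5) (nat_lit 484) (nat_lit 5) (nat_lit 424)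 (nat_lit 411) (nat_lit 305))) (XT.nd (nat_lit 78) (nat_lit 0) (nat_lit 0) (XT.lf (nat_lit 0) (nat_lit 482374547) (nat_lit 1520) (nat_lit 5889629071) (nat_lit 1596) (nat_lit 2918557639) (nat_lit 445) (nat_lit 5) (nat_lit 465) (nat_lit 5) (nat_lit 466) (nat_lit 5) (nat_lit 425) (nat_lit 411) (nat_lit 304)) (XT.lf (nat_lit 0) (nat_lit 1654317944) (nat_lit 1520) (nat_lit 1305368079) (nat_lit 1596) (nat_lit 6412619586) (nat_lit 445) (nat_lit 5) (nat_lit 465) (nat_lit 5) (nat_lit 466) (nat_lit 5) (nat_lit 426) (nat_lit 411) (nat_lit 303)))))) (XT.nd (nat_lit 546) (nat_lit 3192) (nat_lit 0) (XT.nd (nat_lit 234) (nat_lit 1444) (nat_lit 0) (XT.nd (nat_lit 78) (nat_lit 0) (nat_lit 0) (XT.lf (nat_lit 0) (nat_lit 2853763997) (nat_lit 1520) (nat_lit 6059053263) (nat_lit 1596) (nat_lit 542802073) (nat_lit 446) (nat_lit 5) (nat_lit 466) (nat_lit 5) (nat_lit 467) (nat_lit 5) (nat_lit 427) (nat_lit 411) (nat_lit 302)) (XT.nd (nat_lit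 78) (nat_lit 0) (nat_lit 0) (XT.lf (nat_lit 0) (nat_lit 4084401764) (nat_lit 1520) (nat_lit 1365196766) (nat_lit 1596) (nat_lit 4090872194) (nat_lit 446) (nat_lit 5) (nat_lit 466) (nat_lit 5) (nat_lit 467) (nat_lit 5) (nat_lit 428) (nat_lit 411) (nat_lit 301)) (XT.lf (nat_lit 76) (nat_lit 3452773983) (nat_lit 0) (nat_lit 1888496494) (nat_lit 1596) (nat_lit 4285731448) (nat_lit 447) (nat_lit 5) (nat_lit 446) (nat_lit 5) (nat_lit 467) (nat_lit 5) (nat_lit 429) (nat_lit 411) (nat_lit 300)))) (XT.nd (nat_lit 156) (nat_lit 1520) (nat_lit 0) (XT.nd (nat_lit 78) (nat_lit 0) (nat_lit 0) (XT.lf (nat_lit 0) (nat_lit 6623367764) (nat_lit 1520) (nat_lit 1356261771) (nat_lit 1596) (nat_lit 1735647242) (nat_lit 447) (nat_lit 5) (nat_lit 467) (nat_lit 5) (nat_lit 468) (nat_lit 5) (nat_lit 430) (nat_lit 411) (nat_lit 299)) (XT.lf (nat_lit 76) (nat_lit 3577368844) (nat_lit 0) (nat_lit 4369419691) (nat_lit 1596) (nat_lit 1858229519)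 (nat_lit 448) (nat_lit 5) (nat_lit 447) (nat_lit 5) (nat_lit 468) (nat_lit 5) (nat_lit 431) (nat_lit 411) (nat_lit 298))) (XT.nd (nat_lit 78) (nat_lit 1520) (nat_lit 0) (XT.lf (nat_lit 76) (nat_lit 8613049825) (nat_lit 0) (nat_lit 672973151) (nat_lit 1596) (nat_lit 610758547) (nat_lit 448) (nat_lit 5) (nat_lit 447) (nat_lit 5) (nat_lit 468) (nat_lit 5) (nat_lit 432) (nat_lit 411) (nat_lit 297)) (XT.lf (nat_lit 0) (nat_lit 678408342) (nat_lit 1596) (nat_lit 6221054890) (nat_lit 1672) (nat_lit 3090336344) (nat_lit 427) (nat_lit 5) (nat_lit 448) (nat_lit 5) (nat_lit 449) (nat_lit 5) (nat_lit 433) (nat_lit 411) (nat_lit 296))))) (XT.nd (nat_lit 234) (nat_lit 3192) (nat_lit 0) (XT.nd (nat_lit 78) (nat_lit 0) (nat_lit 76) (XT.lf (nat_lit 0) (nat_lit 1979119888) (nat_lit 1596) (nat_lit 1168705373) (nat_lit 1672) (nat_lit 6936906649) (nat_lit 427) (nat_lit 5) (nat_lit 448) (nat_lit 5) (nat_lit 449) (nat_lit 5) (nat_lit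 434) (nat_lit 411) (nat_lit 295)) (XT.nd (nat_lit 78) (nat_lit 0) (nat_lit 0) (XT.lf (nat_lit 0) (nat_lit 3317746955) (nat_lit 1596) (nat_lit 6163602030) (nat_lit 76) (nat_lit 699989065) (nat_lit 428) (nat_lit 5) (nat_lit 449) (nat_lit 5) (nat_lit 429) (nat_lit 5) (nat_lit 435) (nat_lit 411) (nat_lit 294)) (XT.lf (nat_lit 0) (nat_lit 4693363235) (nat_lit 1596) (nat_lit 992191041) (nat_lit 76) (nat_lit 4594130631) (nat_lit 428) (nat_lit 5) (nat_lit 449) (nat_lit 5) (nat_lit 429) (nat_lit 5) (nat_lit 436) (nat_lit 411) (nat_lit 293)))) (XT.nd (nat_lit 156) (nat_lit 1672) (nat_lit 0) (XT.nd (nat_lit 78) (nat_lit 0) (nat_lit 0) (XT.lf (nat_lit 0) (nat_lit 4324341637) (nat_lit 1596) (nat_lit 1782065502) (nat_lit 1672) (nat_lit 4273405931) (nat_lit 407) (nat_lit 5) (nat_lit 428) (nat_lit 5) (nat_lit 429) (nat_lit 5) (nat_lit 437) (nat_lit 411) (nat_lit 292)) (XT.lf (nat_lit 0) (nat_lit 7550812075) (nat_lit 1672) (nat_lit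 750792951) (nat_lit 76) (nat_lit 2180289192) (nat_lit 407) (nat_lit 5) (nat_lit 429) (nat_lit 5) (nat_lit 408) (nat_lit 5) (nat_lit 438) (nat_lit 411) (nat_lit 291))) (XT.nd (nat_lit 78) (nat_lit 0) (nat_lit 0) (XT.lf (nat_lit 0) (nat_lit 4694737872) (nat_lit 1672) (nat_lit 4354118355) (nat_lit 1748) (nat_lit 1536677922) (nat_lit 385) (nat_lit 5) (nat_lit 407) (nat_lit 5) (nat_lit 408) (nat_lit 5) (nat_lit 439) (nat_lit 411) (nat_lit 290)) (XT.lf (nat_lit 0) (nat_lit 10244443470) (nat_lit 1672) (nat_lit 320170956) (nat_lit 1748) (nat_lit 126889333) (nat_lit 385) (nat_lit 5) (nat_lit 407) (nat_lit 5) (nat_lit 408) (nat_lit 5) (nat_lit 440) (nat_lit 411) (nat_lit 289))))))) (XT.nd (nat_lit 1092) (nat_lit 5396) (nat_lit 0) (XT.nd (nat_lit 546) (nat_lit 3116) (nat_lit 0) (XT.nd (nat_lit 234) (nat_lit 1748) (nat_lit 0) (XT.nd (nat_lit 78) (nat_lit 836) (nat_lit 0) (XT.lf (nat_lit 0) (nat_lit 1335193534) (nat_lit 1520)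 (nat_lit 5674316509) (nat_lit 76) (nat_lit 3789098072) (nat_lit 365) (nat_lit 5) (nat_lit 385) (nat_lit 5) (nat_lit 366) (nat_lit 5) (nat_lit 441) (nat_lit 411) (nat_lit 288)) (XT.nd (nat_lit 78) (nat_lit 836) (nat_lit 0) (XT.lf (nat_lit 0) (nat_lit 2813143205) (nat_lit 1520) (nat_lit 112767043) (nat_lit 76) (nat_lit 7982172305) (nat_lit 365) (nat_lit 5) (nat_lit 385) (nat_lit 5) (nat_lit 366) (nat_lit 5) (nat_lit 442) (nat_lit 411) (nat_lit 287)) (XT.lf (nat_lit 0) (nat_lit 4348944661) (nat_lit 912) (nat_lit 5408776747) (nat_lit 76) (nat_lit 1261470249) (nat_lit 354) (nat_lit 5) (nat_lit 366) (nat_lit 5) (nat_lit 355) (nat_lit 5) (nat_lit 443) (nat_lit 411) (nat_lit 286)))) (XT.nd (nat_lit 156) (nat_lit 836) (nat_lit 0) (XT.nd (nat_lit 78) (nat_lit 0) (nat_lit 0) (XT.lf (nat_lit 0) (nat_lit 286380897) (nat_lit 912) (nat_lit 5634829008) (nat_lit 988) (nat_lit 5211208901) (nat_lit 342) (nat_lit 5) (nat_lit 354)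 (nat_lit 5) (nat_lit 355) (nat_lit 5) (nat_lit 444) (nat_lit 411) (nat_lit 285)) (XT.lf (nat_lit 0) (nat_lit 6153783841) (nat_lit 912) (nat_lit 1391403513) (nat_lit 988) (nat_lit 3702328411) (nat_lit 342) (nat_lit 5) (nat_lit 354) (nat_lit 5) (nat_lit 355) (nat_lit 5) (nat_lit 445) (nat_lit 411) (nat_lit 284))) (XT.nd (nat_lit 78) (nat_lit 0) (nat_lit 0) (XT.lf (nat_lit 0) (nat_lit 749367014) (nat_lit 836) (nat_lit 8460503126) (nat_lit 912) (nat_lit 2154890404) (nat_lit 331) (nat_lit 5) (nat_lit 342) (nat_lit 5) (nat_lit 343) (nat_lit 5) (nat_lit 446) (nat_lit 411) (nat_lit 283)) (XT.lf (nat_lit 0) (nat_lit 6754123519) (nat_lit 836) (nat_lit 4181561977) (nat_lit 912) (nat_lit 548118138) (nat_lit 331) (nat_lit 5) (nat_lit 342) (nat_lit 5) (nat_lit 343) (nat_lit 5) (nat_lit 447) (nat_lit 411) (nat_lit 282))))) (XT.nd (nat_lit 234) (nat_lit 1444) (nat_lit 0) (XT.nd (nat_lit 78) (nat_lit 760) (nat_lit 0) (XT.lf (nat_lit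 0) (nat_lit 1070708468) (nat_lit 912) (nat_lit 10338062826) (nat_lit 76) (nat_lit 196439950) (nat_lit 319) (nat_lit 5) (nat_lit 331) (nat_lit 5) (nat_lit 320) (nat_lit 5) (nat_lit 448) (nat_lit 411) (nat_lit 281)) (XT.nd (nat_lit 78) (nat_lit 760) (nat_lit 0) (XT.lf (nat_lit 0) (nat_lit 2759123890) (nat_lit 912) (nat_lit 4326970532) (nat_lit 76) (nat_lit 4641998697) (nat_lit 319) (nat_lit 5) (nat_lit 331) (nat_lit 5) (nat_lit 320) (nat_lit 5) (nat_lit 449) (nat_lit 411) (nat_lit 280)) (XT.lf (nat_lit 0) (nat_lit 1813370100) (nat_lit 760) (nat_lit 2664910562) (nat_lit 836) (nat_lit 7375221926) (nat_lit 309) (nat_lit 5) (nat_lit 319) (nat_lit 5) (nat_lit 320) (nat_lit 5) (nat_lit 450) (nat_lit 411) (nat_lit 279)))) (XT.nd (nat_lit 156) (nat_lit 684) (nat_lit 0) (XT.nd (nat_lit 78) (nat_lit 760) (nat_lit 0) (XT.lf (nat_lit 0) (nat_lit 6258420233) (nat_lit 836) (nat_lit 3872798138) (nat_lit 76) (nat_lit 1849679115)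 (nat_lit 309) (nat_lit 5) (nat_lit 320) (nat_lit 5) (nat_lit 310) (nat_lit 5) (nat_lit 451) (nat_lit 411) (nat_lit 278)) (XT.lf (nat_lit 0) (nat_lit 2417270663) (nat_lit 760) (nat_lit 5675915382) (nat_lit 836) (nat_lit 4017282818) (nat_lit 299) (nat_lit 5) (nat_lit 309) (nat_lit 5) (nat_lit 310) (nat_lit 5) (nat_lit 452) (nat_lit 411) (nat_lit 277))) (XT.nd (nat_lit 78) (nat_lit 684) (nat_lit 0) (XT.lf (nat_lit 0) (nat_lit 8871067369) (nat_lit 760) (nat_lit 1105435005) (nat_lit 836) (nat_lit 2265901064) (nat_lit 299) (nat_lit 5) (nat_lit 309) (nat_lit 5) (nat_lit 310) (nat_lit 5) (nat_lit 453) (nat_lit 411) (nat_lit 276)) (XT.lf (nat_lit 0) (nat_lit 3079695580) (nat_lit 684) (nat_lit 8847016771) (nat_lit 760) (nat_lit 449688507) (nat_lit 290) (nat_lit 5) (nat_lit 299) (nat_lit 5) (nat_lit 300) (nat_lit 5) (nat_lit 454) (nat_lit 411) (nat_lit 275)))))) (XT.nd (nat_lit 546) (nat_lit 3116) (nat_lit 0) (XT.nd (nat_lit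 234) (nat_lit 1444) (nat_lit 0) (XT.nd (nat_lit 78) (nat_lit 760) (nat_lit 0) (XT.lf (nat_lit 0) (nat_lit 1400763510) (nat_lit 760) (nat_lit 2838420629) (nat_lit 76) (nat_lit 8273394009) (nat_lit 289) (nat_lit 5) (nat_lit 299) (nat_lit 5) (nat_lit 290) (nat_lit 5) (nat_lit 455) (nat_lit 411) (nat_lit 274)) (XT.nd (nat_lit 78) (nat_lit 0) (nat_lit 0) (XT.lf (nat_lit 0) (nat_lit 3296417898) (nat_lit 836) (nat_lit 8873107457) (nat_lit 76) (nat_lit 481618083) (nat_lit 279) (nat_lit 5) (nat_lit 290) (nat_lit 5) (nat_lit 280) (nat_lit 5) (nat_lit 456) (nat_lit 411) (nat_lit 273)) (XT.lf (nat_lit 0) (nat_lit 5263888926) (nat_lit 836) (nat_lit 2269551884) (nat_lit 76) (nat_lit 5258369191) (nat_lit 279) (nat_lit 5) (nat_lit 290) (nat_lit 5) (nat_lit 280) (nat_lit 5) (nat_lit 457) (nat_lit 411) (nat_lit 272)))) (XT.nd (nat_lit 156) (nat_lit 760) (nat_lit 0) (XT.nd (nat_lit 78) (nat_lit 0) (nat_lit 0) (XT.lf (nat_lit 0) (nat_lit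 4510972454) (nat_lit 684) (nat_lit 2775942838) (nat_lit 760) (nat_lit 5648058365) (nat_lit 270) (nat_lit 5) (nat_lit 279) (nat_lit 5) (nat_lit 280) (nat_lit 5) (nat_lit 458) (nat_lit 411) (nat_lit 271)) (XT.lf (nat_lit 0) (nat_lit 9366290349) (nat_lit 760) (nat_lit 1650837204) (nat_lit 76) (nat_lit 2063562995) (nat_lit 270) (nat_lit 5) (nat_lit 280) (nat_lit 5) (nat_lit 271) (nat_lit 5) (nat_lit 459) (nat_lit 411) (nat_lit 270))) (XT.nd (nat_lit 78) (nat_lit 76) (nat_lit 0) (XT.lf (nat_lit 0) (nat_lit 5294701566) (nat_lit 684) (nat_lit 6232639300) (nat_lit 760) (nat_lit 1701186726) (nat_lit 261) (nat_lit 5) (nat_lit 270) (nat_lit 5) (nat_lit 271) (nat_lit 5) (nat_lit 460) (nat_lit 411) (nat_lit 269)) (XT.lf (nat_lit 0) (nat_lit 346216556) (nat_lit 760) (nat_lit 994159324) (nat_lit 76) (nat_lit 12038936112) (nat_lit 260) (nat_lit 5) (nat_lit 270) (nat_lit 5) (nat_lit 261) (nat_lit 5) (nat_lit 461) (nat_lit 411)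 (nat_lit 268))))) (XT.nd (nat_lit 312) (nat_lit 1216) (nat_lit 0) (XT.nd (nat_lit 156) (nat_lit 1292) (nat_lit 0) (XT.nd (nat_lit 78) (nat_lit 0) (nat_lit 0) (XT.lf (nat_lit 0) (nat_lit 2463339190) (nat_lit 684) (nat_lit 7416760444) (nat_lit 76) (nat_lit 3651763682) (nat_lit 252) (nat_lit 5) (nat_lit 261) (nat_lit 5) (nat_lit 253) (nat_lit 5) (nat_lit 462) (nat_lit 411) (nat_lit 267)) (XT.lf (nat_lit 0) (nat_lit 4626179800) (nat_lit 684) (nat_lit 330323819) (nat_lit 76) (nat_lit 8730901534) (nat_lit 252) (nat_lit 5) (nat_lit 261) (nat_lit 5) (nat_lit 253) (nat_lit 5) (nat_lit 463) (nat_lit 411) (nat_lit 266))) (XT.nd (nat_lit 78) (nat_lit 608) (nat_lit 0) (XT.lf (nat_lit 0) (nat_lit 6866303371) (nat_lit 760) (nat_lit 6870606262) (nat_lit 76) (nat_lit 108474531) (nat_lit 243) (nat_lit 5) (nat_lit 253) (nat_lit 5) (nat_lit 244) (nat_lit 5) (nat_lit 464) (nat_lit 411) (nat_lit 265)) (XT.lf (nat_lit 0) (nat_lit 382193362)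 (nat_lit 608) (nat_lit 8794729625) (nat_lit 684) (nat_lit 4829092622) (nat_lit 235) (nat_lit 5) (nat_lit 243) (nat_lit 5) (nat_lit 244) (nat_lit 5) (nat_lit 465) (nat_lit 411) (nat_lit 264)))) (XT.nd (nat_lit 156) (nat_lit 608) (nat_lit 0) (XT.nd (nat_lit 78) (nat_lit 608) (nat_lit 0) (XT.lf (nat_lit 0) (nat_lit 7859312873) (nat_lit 608) (nat_lit 3708845956) (nat_lit 684) (nat_lit 2601019370) (nat_lit 235) (nat_lit 5) (nat_lit 243) (nat_lit 5) (nat_lit 244) (nat_lit 5) (nat_lit 466) (nat_lit 411) (nat_lit 263)) (XT.lf (nat_lit 0) (nat_lit 1141927100) (nat_lit 608) (nat_lit 12870821593) (nat_lit 684) (nat_lit 322751226) (nat_lit 227) (nat_lit 5) (nat_lit 235) (nat_lit 5) (nat_lit 236) (nat_lit 5) (nat_lit 467) (nat_lit 411) (nat_lit 262))) (XT.nd (nat_lit 78) (nat_lit 532) (nat_lit 0) (XT.lf (nat_lit 0) (nat_lit 2030591310) (nat_lit 684) (nat_lit 5727734987) (nat_lit 76) (nat_lit 6745453071) (nat_lit 226) (nat_lit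 5) (nat_lit 235) (nat_lit 5) (nat_lit 227) (nat_lit 5) (nat_lit 468) (nat_lit 411) (nat_lit 261)) (XT.lf (nat_lit 0) (nat_lit 1896541579) (nat_lit 532) (nat_lit 2531248026) (nat_lit 608) (nat_lit 10247576014) (nat_lit 219) (nat_lit 5) (nat_lit 226) (nat_lit 5) (nat_lit 227) (nat_lit 5) (nat_lit 469) (nat_lit 411) (nat_lit 260))))))))
noncomputable def xc174 : XT := (XT.nd (nat_lit 2184) (nat_lit 4104) (nat_lit 0) (XT.nd (nat_lit 1092) (nat_lit 3116) (nat_lit 0) (XT.nd (nat_lit 546) (nat_lit 1976) (nat_lit 0) (XT.nd (nat_lit 234) (nat_lit 1140) (nat_lit 0) (XT.nd (nat_lit 78) (nat_lit 608) (nat_lit 0) (XT.lf (nat_lit 0) (nat_lit 6918713331) (nat_lit 608) (nat_lit 5130842743) (nat_lit 76) (nat_lit 2799917862) (nat_lit 219) (nat_lit 5) (nat_lit 227) (nat_lit 5) (nat_lit 220) (nat_lit 5) (nat_lit 470) (nat_lit 411) (nat_lit 259)) (XT.nd (nat_lit 78) (nat_lit 0) (nat_lit 0) (XT.lf (nat_lit 0) (nat_lit 2674950654) (nat_lit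 608) (nat_lit 6807762070) (nat_lit 684) (nat_lit 5543892408) (nat_lit 211) (nat_lit 5) (nat_lit 219) (nat_lit 5) (nat_lit 220) (nat_lit 5) (nat_lit 471) (nat_lit 411) (nat_lit 258)) (XT.lf (nat_lit 0) (nat_lit 10693031688) (nat_lit 608) (nat_lit 1428643827) (nat_lit 684) (nat_lit 3085135508) (nat_lit 211) (nat_lit 5) (nat_lit 219) (nat_lit 5) (nat_lit 220) (nat_lit 5) (nat_lit 472) (nat_lit 411) (nat_lit 257)))) (XT.nd (nat_lit 156) (nat_lit 532) (nat_lit 0) (XT.nd (nat_lit 78) (nat_lit 76) (nat_lit 0) (XT.lf (nat_lit 0) (nat_lit 3486921871) (nat_lit 532) (nat_lit 11364929433) (nat_lit 608) (nat_lit 538006680) (nat_lit 204) (nat_lit 5) (nat_lit 211) (nat_lit 5) (nat_lit 212) (nat_lit 5) (nat_lit 473) (nat_lit 411) (nat_lit 256)) (XT.lf (nat_lit 0) (nat_lit 2062491501) (nat_lit 608) (nat_lit 3903547524) (nat_lit 76) (nat_lit 9609675865) (nat_lit 203) (nat_lit 5) (nat_lit 211) (nat_lit 5) (nat_lit 204) (nat_lit 5)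 (nat_lit 474) (nat_lit 411) (nat_lit 255))) (XT.nd (nat_lit 78) (nat_lit 0) (nat_lit 0) (XT.lf (nat_lit 0) (nat_lit 4295491347) (nat_lit 532) (nat_lit 429899565) (nat_lit 608) (nat_lit 11039480295) (nat_lit 196) (nat_lit 5) (nat_lit 203) (nat_lit 5) (nat_lit 204) (nat_lit 5) (nat_lit 475) (nat_lit 411) (nat_lit 254)) (XT.lf (nat_lit 0) (nat_lit 7491586858) (nat_lit 608) (nat_lit 3293122440) (nat_lit 76) (nat_lit 5172105782) (nat_lit 196) (nat_lit 5) (nat_lit 204) (nat_lit 5) (nat_lit 197) (nat_lit 5) (nat_lit 476) (nat_lit 411) (nat_lit 253))))) (XT.nd (nat_lit 234) (nat_lit 988) (nat_lit 0) (XT.nd (nat_lit 78) (nat_lit 532) (nat_lit 0) (XT.lf (nat_lit 0) (nat_lit 5097714836) (nat_lit 456) (nat_lit 5241334913) (nat_lit 532) (nat_lit 5813034318) (nat_lit 190) (nat_lit 5) (nat_lit 196) (nat_lit 5) (nat_lit 197) (nat_lit 5) (nat_lit 477) (nat_lit 411) (nat_lit 252)) (XT.nd (nat_lit 78) (nat_lit 532) (nat_lit 0) (XT.lf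 (nat_lit 0) (nat_lit 13258479153) (nat_lit 532) (nat_lit 2665689588) (nat_lit 76) (nat_lit 426794344) (nat_lit 190) (nat_lit 5) (nat_lit 197) (nat_lit 5) (nat_lit 191) (nat_lit 5) (nat_lit 478) (nat_lit 411) (nat_lit 251)) (XT.lf (nat_lit 0) (nat_lit 5920908649) (nat_lit 532) (nat_lit 10378827530) (nat_lit 608) (nat_lit 252819623) (nat_lit 183) (nat_lit 5) (nat_lit 190) (nat_lit 5) (nat_lit 191) (nat_lit 5) (nat_lit 479) (nat_lit 411) (nat_lit 250)))) (XT.nd (nat_lit 156) (nat_lit 456) (nat_lit 0) (XT.nd (nat_lit 78) (nat_lit 456) (nat_lit 0) (XT.lf (nat_lit 0) (nat_lit 2617298141) (nat_lit 608) (nat_lit 2072579386) (nat_lit 76) (nat_lit 12067797630) (nat_lit 182) (nat_lit 5) (nat_lit 190) (nat_lit 5) (nat_lit 183) (nat_lit 5) (nat_lit 480) (nat_lit 411) (nat_lit 249)) (XT.lf (nat_lit 0) (nat_lit 5583163477) (nat_lit 532) (nat_lit 10242001718) (nat_lit 76) (nat_lit 1140868289) (nat_lit 176) (nat_lit 5) (nat_lit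 183) (nat_lit 5) (nat_lit 177) (nat_lit 5) (nat_lit 481) (nat_lit 411) (nat_lit 248))) (XT.nd (nat_lit 78) (nat_lit 456) (nat_lit 0) (XT.lf (nat_lit 0) (nat_lit 8644004536) (nat_lit 532) (nat_lit 1497446278) (nat_lit 76) (nat_lit 7036399521) (nat_lit 176) (nat_lit 5) (nat_lit 183) (nat_lit 5) (nat_lit 177) (nat_lit 5) (nat_lit 482) (nat_lit 411) (nat_lit 247)) (XT.lf (nat_lit 0) (nat_lit 7508034128) (nat_lit 456) (nat_lit 4297559169) (nat_lit 532) (nat_lit 5587524046) (nat_lit 170) (nat_lit 5) (nat_lit 176) (nat_lit 5) (nat_lit 177) (nat_lit 5) (nat_lit 483) (nat_lit 411) (nat_lit 246)))))) (XT.nd (nat_lit 546) (nat_lit 1292) (nat_lit 0) (XT.nd (nat_lit 234) (nat_lit 1292) (nat_lit 0) (XT.nd (nat_lit 78) (nat_lit 532) (nat_lit 0) (XT.lf (nat_lit 0) (nat_lit 15042190925) (nat_lit 532) (nat_lit 921950698) (nat_lit 76) (nat_lit 1648316876) (nat_lit 170) (nat_lit 5) (nat_lit 177) (nat_lit 5) (nat_lit 171) (nat_lit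 5) (nat_lit 484) (nat_lit 411) (nat_lit 245)) (XT.nd (nat_lit 78) (nat_lit 0) (nat_lit 0) (XT.lf (nat_lit 0) (nat_lit 574478499) (nat_lit 532) (nat_lit 9550089732) (nat_lit 76) (nat_lit 7710080584) (nat_lit 163) (nat_lit 5) (nat_lit 170) (nat_lit 5) (nat_lit 164) (nat_lit 5) (nat_lit 485) (nat_lit 411) (nat_lit 244)) (XT.lf (nat_lit 0) (nat_lit 3745039574) (nat_lit 532) (nat_lit 402841131) (nat_lit 76) (nat_lit 13913119825) (nat_lit 163) (nat_lit 5) (nat_lit 170) (nat_lit 5) (nat_lit 164) (nat_lit 5) (nat_lit 486) (nat_lit 411) (nat_lit 243)))) (XT.nd (nat_lit 156) (nat_lit 456) (nat_lit 0) (XT.nd (nat_lit 78) (nat_lit 380) (nat_lit 0) (XT.lf (nat_lit 0) (nat_lit 7041932801) (nat_lit 532) (nat_lit 9270144355) (nat_lit 76) (nat_lit 1978547722) (nat_lit 157) (nat_lit 5) (nat_lit 164) (nat_lit 5) (nat_lit 158) (nat_lit 5) (nat_lit 487) (nat_lit 411) (nat_lit 242)) (XT.lf (nat_lit 0) (nat_lit 74278335) (nat_lit 380)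 (nat_lit 10352481420) (nat_lit 456) (nat_lit 8097645980) (nat_lit 152) (nat_lit 5) (nat_lit 157) (nat_lit 5) (nat_lit 158) (nat_lit 5) (nat_lit 488) (nat_lit 411) (nat_lit 241))) (XT.nd (nat_lit 78) (nat_lit 456) (nat_lit 0) (XT.lf (nat_lit 0) (nat_lit 9719178553) (nat_lit 380) (nat_lit 4213727026) (nat_lit 456) (nat_lit 4828888048) (nat_lit 152) (nat_lit 5) (nat_lit 157) (nat_lit 5) (nat_lit 158) (nat_lit 5) (nat_lit 489) (nat_lit 411) (nat_lit 240)) (XT.lf (nat_lit 0) (nat_lit 534782126) (nat_lit 456) (nat_lit 16982720980) (nat_lit 532) (nat_lit 1486263380) (nat_lit 146) (nat_lit 5) (nat_lit 152) (nat_lit 5) (nat_lit 153) (nat_lit 5) (nat_lit 490) (nat_lit 411) (nat_lit 239))))) (XT.nd (nat_lit 234) (nat_lit 836) (nat_lit 0) (XT.nd (nat_lit 78) (nat_lit 380) (nat_lit 0) (XT.lf (nat_lit 0) (nat_lit 1978568675) (nat_lit 532) (nat_lit 8875877016) (nat_lit 76) (nat_lit 8394275453) (nat_lit 145) (nat_lit 5) (nat_lit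 152) (nat_lit 5) (nat_lit 146) (nat_lit 5) (nat_lit 491) (nat_lit 411) (nat_lit 238)) (XT.nd (nat_lit 78) (nat_lit 0) (nat_lit 0) (XT.lf (nat_lit 0) (nat_lit 899259296) (nat_lit 380) (nat_lit 4591149247) (nat_lit 456) (nat_lit 14008021193) (nat_lit 140) (nat_lit 5) (nat_lit 145) (nat_lit 5) (nat_lit 146) (nat_lit 5) (nat_lit 492) (nat_lit 411) (nat_lit 237)) (XT.lf (nat_lit 0) (nat_lit 9135929133) (nat_lit 456) (nat_lit 8785642972) (nat_lit 76) (nat_lit 1830295014) (nat_lit 140) (nat_lit 5) (nat_lit 146) (nat_lit 5) (nat_lit 141) (nat_lit 5) (nat_lit 493) (nat_lit 411) (nat_lit 236)))) (XT.nd (nat_lit 156) (nat_lit 456) (nat_lit 0) (XT.nd (nat_lit 78) (nat_lit 0) (nat_lit 0) (XT.lf (nat_lit 0) (nat_lit 1197841911) (nat_lit 380) (nat_lit 11686678479) (nat_lit 456) (nat_lit 7125253085) (nat_lit 135) (nat_lit 5) (nat_lit 140) (nat_lit 5) (nat_lit 141) (nat_lit 5) (nat_lit 494) (nat_lit 411) (nat_lit 235)) (XT.lf (nat_lit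 0) (nat_lit 11488546546) (nat_lit 380) (nat_lit 5270553679) (nat_lit 456) (nat_lit 3512720760) (nat_lit 135) (nat_lit 5) (nat_lit 140) (nat_lit 5) (nat_lit 141) (nat_lit 5) (nat_lit 495) (nat_lit 411) (nat_lit 234))) (XT.nd (nat_lit 78) (nat_lit 0) (nat_lit 0) (XT.lf (nat_lit 0) (nat_lit 179714835) (nat_lit 456) (nat_lit 19094910763) (nat_lit 76) (nat_lit 1264266553) (nat_lit 129) (nat_lit 5) (nat_lit 135) (nat_lit 5) (nat_lit 130) (nat_lit 5) (nat_lit 496) (nat_lit 411) (nat_lit 233)) (XT.lf (nat_lit 0) (nat_lit 3985460896) (nat_lit 456) (nat_lit 8885324353) (nat_lit 76) (nat_lit 7938328335) (nat_lit 129) (nat_lit 5) (nat_lit 135) (nat_lit 5) (nat_lit 130) (nat_lit 5) (nat_lit 497) (nat_lit 411) (nat_lit 232))))))) (XT.nd (nat_lit 1092) (nat_lit 1672) (nat_lit 0) (XT.nd (nat_lit 546) (nat_lit 988) (nat_lit 0) (XT.nd (nat_lit 234) (nat_lit 760) (nat_lit 0) (XT.nd (nat_lit 78) (nat_lit 304) (nat_lit 0) (XT.lf (nat_lit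 0) (nat_lit 1537359039) (nat_lit 380) (nat_lit 6332315043) (nat_lit 456) (nat_lit 13215021428) (nat_lit 124) (nat_lit 5) (nat_lit 129) (nat_lit 5) (nat_lit 130) (nat_lit 5) (nat_lit 498) (nat_lit 411) (nat_lit 231)) (XT.nd (nat_lit 78) (nat_lit 304) (nat_lit 0) (XT.lf (nat_lit 0) (nat_lit 11886203199) (nat_lit 456) (nat_lit 9089553910) (nat_lit 76) (nat_lit 388942378) (nat_lit 124) (nat_lit 5) (nat_lit 130) (nat_lit 5) (nat_lit 125) (nat_lit 5) (nat_lit 499) (nat_lit 411) (nat_lit 230)) (XT.lf (nat_lit 0) (nat_lit 1544614235) (nat_lit 304) (nat_lit 14482985789) (nat_lit 380) (nat_lit 5621815762) (nat_lit 120) (nat_lit 5) (nat_lit 124) (nat_lit 5) (nat_lit 125) (nat_lit 5) (nat_lit 500) (nat_lit 411) (nat_lit 229)))) (XT.nd (nat_lit 156) (nat_lit 304) (nat_lit 0) (XT.nd (nat_lit 78) (nat_lit 456) (nat_lit 0) (XT.lf (nat_lit 0) (nat_lit 12503657913) (nat_lit 304) (nat_lit 7801809262) (nat_lit 380) (nat_lit 1633289316)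 (nat_lit 120) (nat_lit 5) (nat_lit 124) (nat_lit 5) (nat_lit 125) (nat_lit 5) (nat_lit 501) (nat_lit 411) (nat_lit 228)) (XT.lf (nat_lit 0) (nat_lit 1440174561) (nat_lit 380) (nat_lit 964988406) (nat_lit 456) (nat_lit 19828365846) (nat_lit 114) (nat_lit 5) (nat_lit 119) (nat_lit 5) (nat_lit 120) (nat_lit 5) (nat_lit 502) (nat_lit 411) (nat_lit 227))) (XT.nd (nat_lit 78) (nat_lit 304) (nat_lit 0) (XT.lf (nat_lit 0) (nat_lit 6598069069) (nat_lit 456) (nat_lit 9933282775) (nat_lit 76) (nat_lit 6000720485) (nat_lit 114) (nat_lit 5) (nat_lit 120) (nat_lit 5) (nat_lit 115) (nat_lit 5) (nat_lit 503) (nat_lit 411) (nat_lit 226)) (XT.lf (nat_lit 0) (nat_lit 1141836152) (nat_lit 304) (nat_lit 9739731428) (nat_lit 380) (nat_lit 11954887154) (nat_lit 110) (nat_lit 5) (nat_lit 114) (nat_lit 5) (nat_lit 115) (nat_lit 5) (nat_lit 504) (nat_lit 411) (nat_lit 225))))) (XT.nd (nat_lit 234) (nat_lit 608) (nat_lit 0) (XT.nd (nat_lit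 78) (nat_lit 380) (nat_lit 0) (XT.lf (nat_lit 0) (nat_lit 12562437655) (nat_lit 304) (nat_lit 2747955401) (nat_lit 380) (nat_lit 7835341243) (nat_lit 110) (nat_lit 5) (nat_lit 114) (nat_lit 5) (nat_lit 115) (nat_lit 5) (nat_lit 505) (nat_lit 411) (nat_lit 224)) (XT.nd (nat_lit 78) (nat_lit 76) (nat_lit 0) (XT.lf (nat_lit 0) (nat_lit 720666389) (nat_lit 304) (nat_lit 19133382661) (nat_lit 380) (nat_lit 3606627924) (nat_lit 106) (nat_lit 5) (nat_lit 110) (nat_lit 5) (nat_lit 111) (nat_lit 5) (nat_lit 506) (nat_lit 411) (nat_lit 223)) (XT.lf (nat_lit 0) (nat_lit 780212393) (nat_lit 380) (nat_lit 11420186467) (nat_lit 76) (nat_lit 11579773966) (nat_lit 105) (nat_lit 5) (nat_lit 110) (nat_lit 5) (nat_lit 106) (nat_lit 5) (nat_lit 507) (nat_lit 411) (nat_lit 222)))) (XT.nd (nat_lit 156) (nat_lit 304) (nat_lit 0) (XT.nd (nat_lit 78) (nat_lit 0) (nat_lit 0) (XT.lf (nat_lit 0) (nat_lit 92976826) (nat_lit 304) (nat_lit 5107435911)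 (nat_lit 380) (nat_lit 18905293191) (nat_lit 101) (nat_lit 5) (nat_lit 105) (nat_lit 5) (nat_lit 106) (nat_lit 5) (nat_lit 508) (nat_lit 411) (nat_lit 221)) (XT.lf (nat_lit 0) (nat_lit 9793280889) (nat_lit 380) (nat_lit 12469765308) (nat_lit 76) (nat_lit 2173020622) (nat_lit 101) (nat_lit 5) (nat_lit 106) (nat_lit 5) (nat_lit 102) (nat_lit 5) (nat_lit 509) (nat_lit 411) (nat_lit 220))) (XT.nd (nat_lit 78) (nat_lit 304) (nat_lit 0) (XT.lf (nat_lit 0) (nat_lit 14505270106) (nat_lit 380) (nat_lit 739997119) (nat_lit 76) (nat_lit 9527224783) (nat_lit 101) (nat_lit 5) (nat_lit 106) (nat_lit 5) (nat_lit 102) (nat_lit 5) (nat_lit 510) (nat_lit 411) (nat_lit 219)) (XT.lf (nat_lit 0) (nat_lit 11363368860) (nat_lit 304) (nat_lit 8015477031) (nat_lit 380) (nat_lit 5735455181) (nat_lit 97) (nat_lit 5) (nat_lit 101) (nat_lit 5) (nat_lit 102) (nat_lit 5) (nat_lit 511) (nat_lit 411) (nat_lit 218)))))) (XT.nd (nat_lit 546) (nat_lit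 760) (nat_lit 0) (XT.nd (nat_lit 234) (nat_lit 608) (nat_lit 0) (XT.nd (nat_lit 78) (nat_lit 304) (nat_lit 0) (XT.lf (nat_lit 0) (nat_lit 23708868804) (nat_lit 304) (nat_lit 639619836) (nat_lit 380) (nat_lit 1114488033) (nat_lit 97) (nat_lit 5) (nat_lit 101) (nat_lit 5) (nat_lit 102) (nat_lit 5) (nat_lit 512) (nat_lit 411) (nat_lit 217)) (XT.nd (nat_lit 78) (nat_lit 0) (nat_lit 0) (XT.lf (nat_lit 0) (nat_lit 3659436320) (nat_lit 304) (nat_lit 15273892866) (nat_lit 76) (nat_lit 6882676684) (nat_lit 93) (nat_lit 5) (nat_lit 97) (nat_lit 5) (nat_lit 94) (nat_lit 5) (nat_lit 513) (nat_lit 411) (nat_lit 216)) (XT.lf (nat_lit 0) (nat_lit 8523762618) (nat_lit 304) (nat_lit 3089412457) (nat_lit 76) (nat_lit 14562578445) (nat_lit 93) (nat_lit 5) (nat_lit 97) (nat_lit 5) (nat_lit 94) (nat_lit 5) (nat_lit 514) (nat_lit 411) (nat_lit 215)))) (XT.nd (nat_lit 156) (nat_lit 304) (nat_lit 0) (XT.nd (nat_lit 78) (nat_lit 0) (nat_lit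 0) (XT.lf (nat_lit 0) (nat_lit 9453036467) (nat_lit 304) (nat_lit 4087584621) (nat_lit 380) (nat_lit 13000972213) (nat_lit 89) (nat_lit 5) (nat_lit 93) (nat_lit 5) (nat_lit 94) (nat_lit 5) (nat_lit 515) (nat_lit 411) (nat_lit 214)) (XT.lf (nat_lit 0) (nat_lit 18695889401) (nat_lit 380) (nat_lit 4659295319) (nat_lit 76) (nat_lit 3558805753) (nat_lit 89) (nat_lit 5) (nat_lit 94) (nat_lit 5) (nat_lit 90) (nat_lit 5) (nat_lit 516) (nat_lit 411) (nat_lit 213))) (XT.nd (nat_lit 78) (nat_lit 76) (nat_lit 0) (XT.lf (nat_lit 0) (nat_lit 8088012052) (nat_lit 228) (nat_lit 15939858136) (nat_lit 304) (nat_lit 3264495269) (nat_lit 86) (nat_lit 5) (nat_lit 89) (nat_lit 5) (nat_lit 90) (nat_lit 5) (nat_lit 517) (nat_lit 411) (nat_lit 212)) (XT.lf (nat_lit 0) (nat_lit 1790242426) (nat_lit 304) (nat_lit 6545639565) (nat_lit 76) (nat_lit 19341685437) (nat_lit 85) (nat_lit 5) (nat_lit 89) (nat_lit 5) (nat_lit 86) (nat_lit 5) (nat_lit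 518) (nat_lit 411) (nat_lit 211))))) (XT.nd (nat_lit 312) (nat_lit 228) (nat_lit 0) (XT.nd (nat_lit 156) (nat_lit 228) (nat_lit 0) (XT.nd (nat_lit 78) (nat_lit 0) (nat_lit 0) (XT.lf (nat_lit 0) (nat_lit 6419445711) (nat_lit 304) (nat_lit 518793347) (nat_lit 380) (nat_lit 21131087191) (nat_lit 81) (nat_lit 5) (nat_lit 85) (nat_lit 5) (nat_lit 86) (nat_lit 5) (nat_lit 519) (nat_lit 411) (nat_lit 210)) (XT.lf (nat_lit 0) (nat_lit 12275998510) (nat_lit 380) (nat_lit 8793581484) (nat_lit 76) (nat_lit 7397606053) (nat_lit 81) (nat_lit 5) (nat_lit 86) (nat_lit 5) (nat_lit 82) (nat_lit 5) (nat_lit 520) (nat_lit 411) (nat_lit 209))) (XT.nd (nat_lit 78) (nat_lit 0) (nat_lit 0) (XT.lf (nat_lit 0) (nat_lit 4364423573) (nat_lit 228) (nat_lit 13382162867) (nat_lit 304) (nat_lit 11125896954) (nat_lit 78) (nat_lit 5) (nat_lit 81) (nat_lit 5) (nat_lit 82) (nat_lit 5) (nat_lit 521) (nat_lit 411) (nat_lit 208)) (XT.lf (nat_lit 0)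 (nat_lit 17895624271) (nat_lit 228) (nat_lit 5484324511) (nat_lit 304) (nat_lit 5904872438) (nat_lit 78) (nat_lit 5) (nat_lit 81) (nat_lit 5) (nat_lit 82) (nat_lit 5) (nat_lit 522) (nat_lit 411) (nat_lit 207)))) (XT.nd (nat_lit 50778) (nat_lit 0) (nat_lit 30704) (XT.nd (nat_lit 50700) (nat_lit 0) (nat_lit 30704) (XT.lf (nat_lit 0) (nat_lit 1992404044) (nat_lit 228) (nat_lit 27157647458) (nat_lit 304) (nat_lit 554874588) (nat_lit 75) (nat_lit 5) (nat_lit 78) (nat_lit 5) (nat_lit 79) (nat_lit 5) (nat_lit 523) (nat_lit 411) (nat_lit 206)) (XT.lf (nat_lit 0) (nat_lit 2270191585) (nat_lit 1444) (nat_lit 971769822) (nat_lit 1444) (nat_lit 971769822) (nat_lit 479) (nat_lit 3) (nat_lit 498) (nat_lit 3) (nat_lit 498) (nat_lit 5) (nat_lit 412) (nat_lit 412) (nat_lit 316))) (XT.nd (nat_lit 78) (nat_lit 0) (nat_lit 0) (XT.lf (nat_lit 76) (nat_lit 1983210460) (nat_lit 0) (nat_lit 3629681203) (nat_lit 1444) (nat_lit 2877510618)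 (nat_lit 480) (nat_lit 5) (nat_lit 479) (nat_lit 3) (nat_lit 498) (nat_lit 5) (nat_lit 413) (nat_lit 412) (nat_lit 315)) (XT.lf (nat_lit 76) (nat_lit 6001082093) (nat_lit 0) (nat_lit 692117503) (nat_lit 1444) (nat_lit 1861695111) (nat_lit 480) (nat_lit 5) (nat_lit 479) (nat_lit 3) (nat_lit 498) (nat_lit 5) (nat_lit 414) (nat_lit 412) (nat_lit 314))))))))
noncomputable def xc175 : XT := (XT.nd (nat_lit 2184) (nat_lit 11096) (nat_lit 0) (XT.nd (nat_lit 1092) (nat_lit 6004) (nat_lit 0) (XT.nd (nat_lit 546) (nat_lit 1292) (nat_lit 0) (XT.nd (nat_lit 234) (nat_lit 0) (nat_lit 76) (XT.nd (nat_lit 78) (nat_lit 1444) (nat_lit 0) (XT.lf (nat_lit 76) (nat_lit 1468822676) (nat_lit 0) (nat_lit 6324700778) (nat_lit 1444) (nat_lit 827205717) (nat_lit 481) (nat_lit 5) (nat_lit 480) (nat_lit 5) (nat_lit 499) (nat_lit 5) (nat_lit 415) (nat_lit 412) (nat_lit 313)) (XT.nd (nat_lit 78) (nat_lit 0) (nat_lit 0) (XT.lf (nat_lit 0) (nat_lit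 220961617) (nat_lit 1444) (nat_lit 3101571854) (nat_lit 1520) (nat_lit 5365417281) (nat_lit 461) (nat_lit 5) (nat_lit 480) (nat_lit 5) (nat_lit 481) (nat_lit 5) (nat_lit 416) (nat_lit 412) (nat_lit 312)) (XT.lf (nat_lit 76) (nat_lit 1023612882) (nat_lit 0) (nat_lit 236710036) (nat_lit 1520) (nat_lit 7496477565) (nat_lit 462) (nat_lit 5) (nat_lit 461) (nat_lit 5) (nat_lit 481) (nat_lit 5) (nat_lit 417) (nat_lit 412) (nat_lit 311)))) (XT.nd (nat_lit 156) (nat_lit 0) (nat_lit 76) (XT.nd (nat_lit 78) (nat_lit 0) (nat_lit 0) (XT.lf (nat_lit 0) (nat_lit 2335449139) (nat_lit 1444) (nat_lit 3586903059) (nat_lit 1520) (nat_lit 2904394287) (nat_lit 462) (nat_lit 5) (nat_lit 481) (nat_lit 5) (nat_lit 482) (nat_lit 5) (nat_lit 418) (nat_lit 412) (nat_lit 310)) (XT.lf (nat_lit 76) (nat_lit 634751517) (nat_lit 0) (nat_lit 2778630546) (nat_lit 1520) (nat_lit 5485101725) (nat_lit 463) (nat_lit 5) (nat_lit 462) (nat_lit 5) (nat_lit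 482) (nat_lit 5) (nat_lit 419) (nat_lit 412) (nat_lit 309))) (XT.nd (nat_lit 78) (nat_lit 0) (nat_lit 0) (XT.lf (nat_lit 0) (nat_lit 4515946340) (nat_lit 1444) (nat_lit 3999432210) (nat_lit 1520) (nat_lit 456233934) (nat_lit 463) (nat_lit 5) (nat_lit 482) (nat_lit 5) (nat_lit 483) (nat_lit 5) (nat_lit 420) (nat_lit 412) (nat_lit 308)) (XT.lf (nat_lit 76) (nat_lit 321478043) (nat_lit 0) (nat_lit 5316106601) (nat_lit 1520) (nat_lit 3408696402) (nat_lit 464) (nat_lit 5) (nat_lit 463) (nat_lit 5) (nat_lit 483) (nat_lit 5) (nat_lit 421) (nat_lit 412) (nat_lit 307))))) (XT.nd (nat_lit 234) (nat_lit 1444) (nat_lit 0) (XT.nd (nat_lit 78) (nat_lit 0) (nat_lit 76) (XT.lf (nat_lit 76) (nat_lit 4768624668) (nat_lit 0) (nat_lit 2016769965) (nat_lit 1520) (nat_lit 2336990968) (nat_lit 464) (nat_lit 5) (nat_lit 463) (nat_lit 5) (nat_lit 483) (nat_lit 5) (nat_lit 422) (nat_lit 412) (nat_lit 306)) (XT.nd (nat_lit 78) (nat_lit 0)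 (nat_lit 0) (XT.lf (nat_lit 76) (nat_lit 82388491) (nat_lit 0) (nat_lit 7860471911) (nat_lit 1520) (nat_lit 1257434910) (nat_lit 465) (nat_lit 5) (nat_lit 464) (nat_lit 5) (nat_lit 484) (nat_lit 5) (nat_lit 423) (nat_lit 412) (nat_lit 305)) (XT.lf (nat_lit 76) (nat_lit 4638201672) (nat_lit 0) (nat_lit 4505515566) (nat_lit 1520) (nat_lit 135657867) (nat_lit 465) (nat_lit 5) (nat_lit 464) (nat_lit 5) (nat_lit 484) (nat_lit 5) (nat_lit 424) (nat_lit 412) (nat_lit 304)))) (XT.nd (nat_lit 156) (nat_lit 0) (nat_lit 76) (XT.nd (nat_lit 78) (nat_lit 0) (nat_lit 76) (XT.lf (nat_lit 0) (nat_lit 973360375) (nat_lit 1520) (nat_lit 96018469) (nat_lit 1596) (nat_lit 8290982100) (nat_lit 444) (nat_lit 5) (nat_lit 464) (nat_lit 5) (nat_lit 465) (nat_lit 5) (nat_lit 425) (nat_lit 412) (nat_lit 303)) (XT.lf (nat_lit 0) (nat_lit 2127039778) (nat_lit 1520) (nat_lit 4873867671) (nat_lit 1596) (nat_lit 2441570928) (nat_lit 445) (nat_lit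 5) (nat_lit 465) (nat_lit 5) (nat_lit 466) (nat_lit 5) (nat_lit 426) (nat_lit 412) (nat_lit 302))) (XT.nd (nat_lit 78) (nat_lit 0) (nat_lit 76) (XT.lf (nat_lit 0) (nat_lit 3290362872) (nat_lit 1520) (nat_lit 220148008) (nat_lit 1596) (nat_lit 6016011328) (nat_lit 445) (nat_lit 5) (nat_lit 465) (nat_lit 5) (nat_lit 466) (nat_lit 5) (nat_lit 427) (nat_lit 412) (nat_lit 301)) (XT.lf (nat_lit 0) (nat_lit 4486453354) (nat_lit 1520) (nat_lit 5040415008) (nat_lit 1596) (nat_lit 85203681) (nat_lit 446) (nat_lit 5) (nat_lit 466) (nat_lit 5) (nat_lit 467) (nat_lit 5) (nat_lit 428) (nat_lit 412) (nat_lit 300)))))) (XT.nd (nat_lit 546) (nat_lit 4636) (nat_lit 0) (XT.nd (nat_lit 234) (nat_lit 1520) (nat_lit 0) (XT.nd (nat_lit 78) (nat_lit 0) (nat_lit 0) (XT.lf (nat_lit 0) (nat_lit 5710809481) (nat_lit 1520) (nat_lit 275030780) (nat_lit 1596) (nat_lit 3713420586) (nat_lit 446) (nat_lit 5) (nat_lit 466) (nat_lit 5) (nat_lit 467)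 (nat_lit 5) (nat_lit 429) (nat_lit 412) (nat_lit 299)) (XT.nd (nat_lit 78) (nat_lit 0) (nat_lit 76) (XT.lf (nat_lit 76) (nat_lit 4631947608) (nat_lit 0) (nat_lit 2337786963) (nat_lit 1596) (nat_lit 2818271779) (nat_lit 447) (nat_lit 5) (nat_lit 446) (nat_lit 5) (nat_lit 467) (nat_lit 5) (nat_lit 430) (nat_lit 412) (nat_lit 298)) (XT.lf (nat_lit 0) (nat_lit 8245018277) (nat_lit 1520) (nat_lit 261499141) (nat_lit 1596) (nat_lit 1372200016) (nat_lit 447) (nat_lit 5) (nat_lit 467) (nat_lit 5) (nat_lit 468) (nat_lit 5) (nat_lit 431) (nat_lit 412) (nat_lit 297)))) (XT.nd (nat_lit 156) (nat_lit 0) (nat_lit 76) (XT.nd (nat_lit 78) (nat_lit 1596) (nat_lit 0) (XT.lf (nat_lit 76) (nat_lit 4763423245) (nat_lit 0) (nat_lit 4809520666) (nat_lit 1596) (nat_lit 397770096) (nat_lit 448) (nat_lit 5) (nat_lit 447) (nat_lit 5) (nat_lit 468) (nat_lit 5) (nat_lit 432) (nat_lit 412) (nat_lit 296)) (XT.lf (nat_lit 0) (nat_lit 834199051)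 (nat_lit 1596) (nat_lit 192432297) (nat_lit 1672) (nat_lit 9038167800) (nat_lit 426) (nat_lit 5) (nat_lit 447) (nat_lit 5) (nat_lit 448) (nat_lit 5) (nat_lit 433) (nat_lit 412) (nat_lit 295))) (XT.nd (nat_lit 78) (nat_lit 0) (nat_lit 0) (XT.lf (nat_lit 0) (nat_lit 2117653706) (nat_lit 1596) (nat_lit 5208222674) (nat_lit 1672) (nat_lit 2834206768) (nat_lit 427) (nat_lit 5) (nat_lit 448) (nat_lit 5) (nat_lit 449) (nat_lit 5) (nat_lit 434) (nat_lit 412) (nat_lit 294)) (XT.lf (nat_lit 0) (nat_lit 3416425028) (nat_lit 1596) (nat_lit 77125251) (nat_lit 1672) (nat_lit 6763942524) (nat_lit 427) (nat_lit 5) (nat_lit 448) (nat_lit 5) (nat_lit 449) (nat_lit 5) (nat_lit 435) (nat_lit 412) (nat_lit 293))))) (XT.nd (nat_lit 234) (nat_lit 3192) (nat_lit 0) (XT.nd (nat_lit 78) (nat_lit 1596) (nat_lit 0) (XT.lf (nat_lit 0) (nat_lit 4759857408) (nat_lit 1596) (nat_lit 5148992524) (nat_lit 76) (nat_lit 447639680) (nat_lit 428) (nat_lit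 5) (nat_lit 449) (nat_lit 5) (nat_lit 429) (nat_lit 5) (nat_lit 436) (nat_lit 412) (nat_lit 292)) (XT.nd (nat_lit 78) (nat_lit 0) (nat_lit 0) (XT.lf (nat_lit 0) (nat_lit 104911210) (nat_lit 1596) (nat_lit 6031780359) (nat_lit 1672) (nat_lit 4320656553) (nat_lit 407) (nat_lit 5) (nat_lit 428) (nat_lit 5) (nat_lit 429) (nat_lit 5) (nat_lit 437) (nat_lit 412) (nat_lit 291)) (XT.lf (nat_lit 0) (nat_lit 5519059336) (nat_lit 1596) (nat_lit 2039004567) (nat_lit 1672) (nat_lit 3001832050) (nat_lit 407) (nat_lit 5) (nat_lit 428) (nat_lit 5) (nat_lit 429) (nat_lit 5) (nat_lit 438) (nat_lit 412) (nat_lit 290)))) (XT.nd (nat_lit 156) (nat_lit 1520) (nat_lit 0) (XT.nd (nat_lit 78) (nat_lit 0) (nat_lit 0) (XT.lf (nat_lit 0) (nat_lit 353713595) (nat_lit 1672) (nat_lit 8652462057) (nat_lit 1748) (nat_lit 1658364791) (nat_lit 385) (nat_lit 5) (nat_lit 407) (nat_lit 5) (nat_lit 408) (nat_lit 5) (nat_lit 439) (nat_lit 412) (nat_lit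 289)) (XT.lf (nat_lit 0) (nat_lit 5896181260) (nat_lit 1672) (nat_lit 4617363418) (nat_lit 1748) (nat_lit 257138955) (nat_lit 385) (nat_lit 5) (nat_lit 407) (nat_lit 5) (nat_lit 408) (nat_lit 5) (nat_lit 440) (nat_lit 412) (nat_lit 288))) (XT.nd (nat_lit 78) (nat_lit 0) (nat_lit 0) (XT.lf (nat_lit 0) (nat_lit 656987369) (nat_lit 1444) (nat_lit 487281965) (nat_lit 1520) (nat_lit 9734788795) (nat_lit 365) (nat_lit 5) (nat_lit 384) (nat_lit 5) (nat_lit 385) (nat_lit 5) (nat_lit 441) (nat_lit 412) (nat_lit 287)) (XT.lf (nat_lit 0) (nat_lit 2610892946) (nat_lit 1520) (nat_lit 4664697138) (nat_lit 76) (nat_lit 3713174467) (nat_lit 365) (nat_lit 5) (nat_lit 385) (nat_lit 5) (nat_lit 366) (nat_lit 5) (nat_lit 442) (nat_lit 412) (nat_lit 286))))))) (XT.nd (nat_lit 1092) (nat_lit 5320) (nat_lit 0) (XT.nd (nat_lit 546) (nat_lit 2280) (nat_lit 0) (XT.nd (nat_lit 234) (nat_lit 1748) (nat_lit 0) (XT.nd (nat_lit 78) (nat_lit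 912) (nat_lit 0) (XT.lf (nat_lit 0) (nat_lit 999165876) (nat_lit 836) (nat_lit 3101232873) (nat_lit 912) (nat_lit 7000406175) (nat_lit 354) (nat_lit 5) (nat_lit 365) (nat_lit 5) (nat_lit 366) (nat_lit 5) (nat_lit 443) (nat_lit 412) (nat_lit 285)) (XT.nd (nat_lit 78) (nat_lit 912) (nat_lit 0) (XT.lf (nat_lit 0) (nat_lit 5642782423) (nat_lit 912) (nat_lit 4397418338) (nat_lit 76) (nat_lit 1174434193) (nat_lit 354) (nat_lit 5) (nat_lit 366) (nat_lit 5) (nat_lit 355) (nat_lit 5) (nat_lit 444) (nat_lit 412) (nat_lit 284)) (XT.lf (nat_lit 0) (nat_lit 1404277104) (nat_lit 912) (nat_lit 5825772905) (nat_lit 988) (nat_lit 4100421248) (nat_lit 342) (nat_lit 5) (nat_lit 354) (nat_lit 5) (nat_lit 355) (nat_lit 5) (nat_lit 445) (nat_lit 412) (nat_lit 283)))) (XT.nd (nat_lit 156) (nat_lit 912) (nat_lit 0) (XT.nd (nat_lit 78) (nat_lit 836) (nat_lit 0) (XT.lf (nat_lit 0) (nat_lit 7367220880) (nat_lit 912) (nat_lit 1495944639)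 (nat_lit 988) (nat_lit 2585186909) (nat_lit 342) (nat_lit 5) (nat_lit 354) (nat_lit 5) (nat_lit 355) (nat_lit 5) (nat_lit 446) (nat_lit 412) (nat_lit 282)) (XT.lf (nat_lit 0) (nat_lit 1871992090) (nat_lit 836) (nat_lit 8672969271) (nat_lit 912) (nat_lit 1023319494) (nat_lit 331) (nat_lit 5) (nat_lit 342) (nat_lit 5) (nat_lit 343) (nat_lit 5) (nat_lit 447) (nat_lit 412) (nat_lit 281))) (XT.nd (nat_lit 78) (nat_lit 836) (nat_lit 0) (XT.lf (nat_lit 0) (nat_lit 584784024) (nat_lit 912) (nat_lit 3718892906) (nat_lit 76) (nat_lit 7386417106) (nat_lit 330) (nat_lit 5) (nat_lit 342) (nat_lit 5) (nat_lit 331) (nat_lit 5) (nat_lit 448) (nat_lit 412) (nat_lit 280)) (XT.lf (nat_lit 0) (nat_lit 2213301682) (nat_lit 912) (nat_lit 9427006793) (nat_lit 76) (nat_lit 173870053) (nat_lit 319) (nat_lit 5) (nat_lit 331) (nat_lit 5) (nat_lit 320) (nat_lit 5) (nat_lit 449) (nat_lit 412) (nat_lit 279))))) (XT.nd (nat_lit 234) (nat_lit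 1520) (nat_lit 0) (XT.nd (nat_lit 78) (nat_lit 760) (nat_lit 0) (XT.lf (nat_lit 0) (nat_lit 3913501510) (nat_lit 912) (nat_lit 3317610639) (nat_lit 76) (nat_lit 4708859557) (nat_lit 319) (nat_lit 5) (nat_lit 331) (nat_lit 5) (nat_lit 320) (nat_lit 5) (nat_lit 450) (nat_lit 412) (nat_lit 278)) (XT.nd (nat_lit 78) (nat_lit 0) (nat_lit 0) (XT.lf (nat_lit 0) (nat_lit 2938326942) (nat_lit 760) (nat_lit 2714230124) (nat_lit 836) (nat_lit 6415635699) (nat_lit 309) (nat_lit 5) (nat_lit 319) (nat_lit 5) (nat_lit 320) (nat_lit 5) (nat_lit 451) (nat_lit 412) (nat_lit 277)) (XT.lf (nat_lit 0) (nat_lit 7447055914) (nat_lit 836) (nat_lit 2860995784) (nat_lit 76) (nat_lit 1890522176) (nat_lit 309) (nat_lit 5) (nat_lit 320) (nat_lit 5) (nat_lit 310) (nat_lit 5) (nat_lit 452) (nat_lit 412) (nat_lit 276)))) (XT.nd (nat_lit 156) (nat_lit 760) (nat_lit 0) (XT.nd (nat_lit 78) (nat_lit 0) (nat_lit 0) (XT.lf (nat_lit 0) (nat_lit 3547708219)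 (nat_lit 760) (nat_lit 5756982183) (nat_lit 836) (nat_lit 3026335991) (nat_lit 299) (nat_lit 5) (nat_lit 309) (nat_lit 5) (nat_lit 310) (nat_lit 5) (nat_lit 453) (nat_lit 412) (nat_lit 275)) (XT.lf (nat_lit 0) (nat_lit 10109363366) (nat_lit 760) (nat_lit 1095728503) (nat_lit 836) (nat_lit 1260932336) (nat_lit 299) (nat_lit 5) (nat_lit 309) (nat_lit 5) (nat_lit 310) (nat_lit 5) (nat_lit 454) (nat_lit 412) (nat_lit 274))) (XT.nd (nat_lit 78) (nat_lit 0) (nat_lit 0) (XT.lf (nat_lit 0) (nat_lit 570749945) (nat_lit 760) (nat_lit 8390661972) (nat_lit 76) (nat_lit 3641487166) (nat_lit 289) (nat_lit 5) (nat_lit 299) (nat_lit 5) (nat_lit 290) (nat_lit 5) (nat_lit 455) (nat_lit 412) (nat_lit 273)) (XT.lf (nat_lit 0) (nat_lit 2432128312) (nat_lit 760) (nat_lit 1827542627) (nat_lit 76) (nat_lit 8482482935) (nat_lit 289) (nat_lit 5) (nat_lit 299) (nat_lit 5) (nat_lit 290) (nat_lit 5) (nat_lit 456) (nat_lit 412) (nat_lit 272))))))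 (XT.nd (nat_lit 546) (nat_lit 2508) (nat_lit 0) (XT.nd (nat_lit 234) (nat_lit 1368) (nat_lit 0) (XT.nd (nat_lit 78) (nat_lit 684) (nat_lit 0) (XT.lf (nat_lit 0) (nat_lit 4353363409) (nat_lit 836) (nat_lit 7969993905) (nat_lit 76) (nat_lit 560391742) (nat_lit 279) (nat_lit 5) (nat_lit 290) (nat_lit 5) (nat_lit 280) (nat_lit 5) (nat_lit 457) (nat_lit 412) (nat_lit 271)) (XT.nd (nat_lit 78) (nat_lit 684) (nat_lit 0) (XT.lf (nat_lit 0) (nat_lit 6340752149) (nat_lit 836) (nat_lit 1255554980) (nat_lit 76) (nat_lit 5431322160) (nat_lit 279) (nat_lit 5) (nat_lit 290) (nat_lit 5) (nat_lit 280) (nat_lit 5) (nat_lit 458) (nat_lit 412) (nat_lit 270)) (XT.lf (nat_lit 0) (nat_lit 5653610187) (nat_lit 684) (nat_lit 2738411157) (nat_lit 760) (nat_lit 4781890702) (nat_lit 270) (nat_lit 5) (nat_lit 279) (nat_lit 5) (nat_lit 280) (nat_lit 5) (nat_lit 459) (nat_lit 412) (nat_lit 269)))) (XT.nd (nat_lit 156) (nat_lit 684) (nat_lit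 0) (XT.nd (nat_lit 78) (nat_lit 684) (nat_lit 0) (XT.lf (nat_lit 0) (nat_lit 10494765070) (nat_lit 760) (nat_lit 633290005) (nat_lit 76) (nat_lit 2194863827) (nat_lit 270) (nat_lit 5) (nat_lit 280) (nat_lit 5) (nat_lit 271) (nat_lit 5) (nat_lit 460) (nat_lit 412) (nat_lit 268)) (XT.lf (nat_lit 0) (nat_lit 6444247936) (nat_lit 684) (nat_lit 6243110845) (nat_lit 760) (nat_lit 786598491) (nat_lit 261) (nat_lit 5) (nat_lit 270) (nat_lit 5) (nat_lit 271) (nat_lit 5) (nat_lit 461) (nat_lit 412) (nat_lit 267))) (XT.nd (nat_lit 78) (nat_lit 0) (nat_lit 0) (XT.lf (nat_lit 0) (nat_lit 22164049) (nat_lit 608) (nat_lit 1248935204) (nat_lit 684) (nat_lit 12356909774) (nat_lit 252) (nat_lit 5) (nat_lit 260) (nat_lit 5) (nat_lit 261) (nat_lit 5) (nat_lit 462) (nat_lit 412) (nat_lit 266)) (XT.lf (nat_lit 0) (nat_lit 3419901686) (nat_lit 684) (nat_lit 6518141382) (nat_lit 76) (nat_lit 3845791956) (nat_lit 252) (nat_lit 5) (nat_lit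 261) (nat_lit 5) (nat_lit 253) (nat_lit 5) (nat_lit 463) (nat_lit 412) (nat_lit 265))))) (XT.nd (nat_lit 312) (nat_lit 1216) (nat_lit 0) (XT.nd (nat_lit 156) (nat_lit 608) (nat_lit 0) (XT.nd (nat_lit 78) (nat_lit 0) (nat_lit 0) (XT.lf (nat_lit 0) (nat_lit 698658491) (nat_lit 684) (nat_lit 4914086658) (nat_lit 760) (nat_lit 8330017817) (nat_lit 243) (nat_lit 5) (nat_lit 252) (nat_lit 5) (nat_lit 253) (nat_lit 5) (nat_lit 464) (nat_lit 412) (nat_lit 264)) (XT.lf (nat_lit 0) (nat_lit 7883229534) (nat_lit 760) (nat_lit 5971187662) (nat_lit 76) (nat_lit 249783184) (nat_lit 243) (nat_lit 5) (nat_lit 253) (nat_lit 5) (nat_lit 244) (nat_lit 5) (nat_lit 465) (nat_lit 412) (nat_lit 263))) (XT.nd (nat_lit 78) (nat_lit 0) (nat_lit 0) (XT.lf (nat_lit 0) (nat_lit 1419846699) (nat_lit 608) (nat_lit 8809655287) (nat_lit 684) (nat_lit 4038763452) (nat_lit 235) (nat_lit 5) (nat_lit 243) (nat_lit 5) (nat_lit 244) (nat_lit 5) (nat_lit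 466) (nat_lit 412) (nat_lit 262)) (XT.lf (nat_lit 0) (nat_lit 9026312336) (nat_lit 608) (nat_lit 3625210198) (nat_lit 684) (nat_lit 1783519147) (nat_lit 235) (nat_lit 5) (nat_lit 243) (nat_lit 5) (nat_lit 244) (nat_lit 5) (nat_lit 467) (nat_lit 412) (nat_lit 261)))) (XT.nd (nat_lit 156) (nat_lit 532) (nat_lit 0) (XT.nd (nat_lit 78) (nat_lit 0) (nat_lit 0) (XT.lf (nat_lit 0) (nat_lit 524076885) (nat_lit 684) (nat_lit 12424006484) (nat_lit 76) (nat_lit 1656728557) (nat_lit 226) (nat_lit 5) (nat_lit 235) (nat_lit 5) (nat_lit 227) (nat_lit 5) (nat_lit 468) (nat_lit 412) (nat_lit 260)) (XT.lf (nat_lit 0) (nat_lit 2903522290) (nat_lit 684) (nat_lit 4831210896) (nat_lit 76) (nat_lit 7042023005) (nat_lit 226) (nat_lit 5) (nat_lit 235) (nat_lit 5) (nat_lit 227) (nat_lit 5) (nat_lit 469) (nat_lit 412) (nat_lit 259))) (XT.nd (nat_lit 78) (nat_lit 0) (nat_lit 0) (XT.lf (nat_lit 0) (nat_lit 2938899367) (nat_lit 532) (nat_lit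 2399966606) (nat_lit 608) (nat_lit 9613113035) (nat_lit 219) (nat_lit 5) (nat_lit 226) (nat_lit 5) (nat_lit 227) (nat_lit 5) (nat_lit 470) (nat_lit 412) (nat_lit 258)) (XT.lf (nat_lit 0) (nat_lit 7864638219) (nat_lit 608) (nat_lit 4233322517) (nat_lit 76) (nat_lit 3031916852) (nat_lit 219) (nat_lit 5) (nat_lit 227) (nat_lit 5) (nat_lit 220) (nat_lit 5) (nat_lit 471) (nat_lit 412) (nat_lit 257))))))))
noncomputable def xc176 : XT := (XT.nd (nat_lit 2184) (nat_lit 3496) (nat_lit 0) (XT.nd (nat_lit 1092) (nat_lit 3496) (nat_lit 0) (XT.nd (nat_lit 546) (nat_lit 1520) (nat_lit 0) (XT.nd (nat_lit 234) (nat_lit 988) (nat_lit 0) (XT.nd (nat_lit 78) (nat_lit 608) (nat_lit 0) (XT.lf (nat_lit 0) (nat_lit 3722006898) (nat_lit 608) (nat_lit 6748527208) (nat_lit 684) (nat_lit 4840213497) (nat_lit 211) (nat_lit 5) (nat_lit 219) (nat_lit 5) (nat_lit 220) (nat_lit 5) (nat_lit 472) (nat_lit 412) (nat_lit 256)) (XT.nd (nat_lit 78)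 (nat_lit 608) (nat_lit 0) (XT.lf (nat_lit 0) (nat_lit 11880968038) (nat_lit 608) (nat_lit 1265657778) (nat_lit 684) (nat_lit 2348253161) (nat_lit 211) (nat_lit 5) (nat_lit 219) (nat_lit 5) (nat_lit 220) (nat_lit 5) (nat_lit 473) (nat_lit 412) (nat_lit 255)) (XT.lf (nat_lit 0) (nat_lit 238736679) (nat_lit 608) (nat_lit 11144265983) (nat_lit 76) (nat_lit 4298715913) (nat_lit 203) (nat_lit 5) (nat_lit 211) (nat_lit 5) (nat_lit 204) (nat_lit 5) (nat_lit 474) (nat_lit 412) (nat_lit 254)))) (XT.nd (nat_lit 156) (nat_lit 456) (nat_lit 0) (XT.nd (nat_lit 78) (nat_lit 532) (nat_lit 0) (XT.lf (nat_lit 0) (nat_lit 2868747525) (nat_lit 608) (nat_lit 3007926421) (nat_lit 76) (nat_lit 9994861293) (nat_lit 203) (nat_lit 5) (nat_lit 211) (nat_lit 5) (nat_lit 204) (nat_lit 5) (nat_lit 475) (nat_lit 412) (nat_lit 253)) (XT.lf (nat_lit 0) (nat_lit 5348687359) (nat_lit 532) (nat_lit 227497707) (nat_lit 608) (nat_lit 10488471736) (nat_lit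 196) (nat_lit 5) (nat_lit 203) (nat_lit 5) (nat_lit 204) (nat_lit 5) (nat_lit 476) (nat_lit 412) (nat_lit 252))) (XT.nd (nat_lit 78) (nat_lit 456) (nat_lit 0) (XT.lf (nat_lit 0) (nat_lit 8384218877) (nat_lit 608) (nat_lit 2396800512) (nat_lit 76) (nat_lit 5479697455) (nat_lit 196) (nat_lit 5) (nat_lit 204) (nat_lit 5) (nat_lit 197) (nat_lit 5) (nat_lit 477) (nat_lit 412) (nat_lit 251)) (XT.lf (nat_lit 0) (nat_lit 6155523349) (nat_lit 456) (nat_lit 5124749004) (nat_lit 532) (nat_lit 5179793453) (nat_lit 190) (nat_lit 5) (nat_lit 196) (nat_lit 5) (nat_lit 197) (nat_lit 5) (nat_lit 478) (nat_lit 412) (nat_lit 250))))) (XT.nd (nat_lit 234) (nat_lit 912) (nat_lit 0) (XT.nd (nat_lit 78) (nat_lit 608) (nat_lit 0) (XT.lf (nat_lit 0) (nat_lit 14245098899) (nat_lit 532) (nat_lit 1768536124) (nat_lit 76) (nat_lit 649554486) (nat_lit 190) (nat_lit 5) (nat_lit 197) (nat_lit 5) (nat_lit 191) (nat_lit 5) (nat_lit 479) (nat_lit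 412) (nat_lit 249)) (XT.nd (nat_lit 78) (nat_lit 0) (nat_lit 0) (XT.lf (nat_lit 0) (nat_lit 464017374) (nat_lit 608) (nat_lit 9888493270) (nat_lit 76) (nat_lit 6516409828) (nat_lit 182) (nat_lit 5) (nat_lit 190) (nat_lit 5) (nat_lit 183) (nat_lit 5) (nat_lit 480) (nat_lit 412) (nat_lit 248)) (XT.lf (nat_lit 0) (nat_lit 3374066947) (nat_lit 608) (nat_lit 1178626539) (nat_lit 76) (nat_lit 12525703869) (nat_lit 182) (nat_lit 5) (nat_lit 190) (nat_lit 5) (nat_lit 183) (nat_lit 5) (nat_lit 481) (nat_lit 412) (nat_lit 247)))) (XT.nd (nat_lit 156) (nat_lit 456) (nat_lit 0) (XT.nd (nat_lit 78) (nat_lit 0) (nat_lit 0) (XT.lf (nat_lit 0) (nat_lit 6392980924) (nat_lit 532) (nat_lit 9504832525) (nat_lit 76) (nat_lit 1393241496) (nat_lit 176) (nat_lit 5) (nat_lit 183) (nat_lit 5) (nat_lit 177) (nat_lit 5) (nat_lit 482) (nat_lit 412) (nat_lit 246)) (XT.lf (nat_lit 0) (nat_lit 9501349506) (nat_lit 532) (nat_lit 603856745) (nat_lit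 76) (nat_lit 7402182258) (nat_lit 176) (nat_lit 5) (nat_lit 183) (nat_lit 5) (nat_lit 177) (nat_lit 5) (nat_lit 483) (nat_lit 412) (nat_lit 245))) (XT.nd (nat_lit 78) (nat_lit 0) (nat_lit 0) (XT.lf (nat_lit 0) (nat_lit 8575657359) (nat_lit 456) (nat_lit 4143048579) (nat_lit 532) (nat_lit 5008410663) (nat_lit 170) (nat_lit 5) (nat_lit 176) (nat_lit 5) (nat_lit 177) (nat_lit 5) (nat_lit 484) (nat_lit 412) (nat_lit 244)) (XT.lf (nat_lit 0) (nat_lit 16008291618) (nat_lit 532) (nat_lit 28855987) (nat_lit 76) (nat_lit 1913938187) (nat_lit 170) (nat_lit 5) (nat_lit 177) (nat_lit 5) (nat_lit 171) (nat_lit 5) (nat_lit 485) (nat_lit 412) (nat_lit 243)))))) (XT.nd (nat_lit 546) (nat_lit 1596) (nat_lit 0) (XT.nd (nat_lit 234) (nat_lit 912) (nat_lit 0) (XT.nd (nat_lit 78) (nat_lit 456) (nat_lit 0) (XT.lf (nat_lit 0) (nat_lit 1248724718) (nat_lit 532) (nat_lit 8826442608) (nat_lit 76) (nat_lit 8102614894) (nat_lit 163) (nat_lit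 5) (nat_lit 170) (nat_lit 5) (nat_lit 164) (nat_lit 5) (nat_lit 486) (nat_lit 412) (nat_lit 242)) (XT.nd (nat_lit 78) (nat_lit 0) (nat_lit 0) (XT.lf (nat_lit 0) (nat_lit 492272921) (nat_lit 456) (nat_lit 3980625026) (nat_lit 532) (nat_lit 13935964971) (nat_lit 157) (nat_lit 5) (nat_lit 163) (nat_lit 5) (nat_lit 164) (nat_lit 5) (nat_lit 487) (nat_lit 412) (nat_lit 241)) (XT.lf (nat_lit 0) (nat_lit 7827186468) (nat_lit 532) (nat_lit 8553193588) (nat_lit 76) (nat_lit 2262876400) (nat_lit 157) (nat_lit 5) (nat_lit 164) (nat_lit 5) (nat_lit 158) (nat_lit 5) (nat_lit 488) (nat_lit 412) (nat_lit 240)))) (XT.nd (nat_lit 156) (nat_lit 532) (nat_lit 0) (XT.nd (nat_lit 78) (nat_lit 0) (nat_lit 0) (XT.lf (nat_lit 0) (nat_lit 972181018) (nat_lit 380) (nat_lit 10300713490) (nat_lit 456) (nat_lit 7608960471) (nat_lit 152) (nat_lit 5) (nat_lit 157) (nat_lit 5) (nat_lit 158) (nat_lit 5) (nat_lit 489) (nat_lit 412) (nat_lit 239))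 (XT.lf (nat_lit 0) (nat_lit 10792402434) (nat_lit 380) (nat_lit 4044258861) (nat_lit 456) (nat_lit 4287584996) (nat_lit 152) (nat_lit 5) (nat_lit 157) (nat_lit 5) (nat_lit 158) (nat_lit 5) (nat_lit 490) (nat_lit 412) (nat_lit 238))) (XT.nd (nat_lit 78) (nat_lit 76) (nat_lit 0) (XT.lf (nat_lit 0) (nat_lit 1429598714) (nat_lit 456) (nat_lit 17058450705) (nat_lit 532) (nat_lit 883112731) (nat_lit 146) (nat_lit 5) (nat_lit 152) (nat_lit 5) (nat_lit 153) (nat_lit 5) (nat_lit 491) (nat_lit 412) (nat_lit 237)) (XT.lf (nat_lit 0) (nat_lit 2630469103) (nat_lit 532) (nat_lit 8178206752) (nat_lit 76) (nat_lit 8812508099) (nat_lit 145) (nat_lit 5) (nat_lit 152) (nat_lit 5) (nat_lit 146) (nat_lit 5) (nat_lit 492) (nat_lit 412) (nat_lit 236))))) (XT.nd (nat_lit 234) (nat_lit 836) (nat_lit 0) (XT.nd (nat_lit 78) (nat_lit 380) (nat_lit 0) (XT.lf (nat_lit 0) (nat_lit 1786674472) (nat_lit 380) (nat_lit 4419509760) (nat_lit 456)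 (nat_lit 13669834912) (nat_lit 140) (nat_lit 5) (nat_lit 145) (nat_lit 5) (nat_lit 146) (nat_lit 5) (nat_lit 493) (nat_lit 412) (nat_lit 235)) (XT.nd (nat_lit 78) (nat_lit 380) (nat_lit 0) (XT.lf (nat_lit 0) (nat_lit 9914410551) (nat_lit 456) (nat_lit 8098514063) (nat_lit 76) (nat_lit 2121809849) (nat_lit 140) (nat_lit 5) (nat_lit 146) (nat_lit 5) (nat_lit 141) (nat_lit 5) (nat_lit 494) (nat_lit 412) (nat_lit 234)) (XT.lf (nat_lit 0) (nat_lit 2078963927) (nat_lit 380) (nat_lit 11652893366) (nat_lit 456) (nat_lit 6666068975) (nat_lit 135) (nat_lit 5) (nat_lit 140) (nat_lit 5) (nat_lit 141) (nat_lit 5) (nat_lit 495) (nat_lit 412) (nat_lit 233)))) (XT.nd (nat_lit 156) (nat_lit 380) (nat_lit 0) (XT.nd (nat_lit 78) (nat_lit 456) (nat_lit 0) (XT.lf (nat_lit 0) (nat_lit 12558675495) (nat_lit 380) (nat_lit 5113691535) (nat_lit 456) (nat_lit 2993083830) (nat_lit 135) (nat_lit 5) (nat_lit 140) (nat_lit 5) (nat_lit 141) (nat_lit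 5) (nat_lit 496) (nat_lit 412) (nat_lit 232)) (XT.lf (nat_lit 0) (nat_lit 761251425) (nat_lit 456) (nat_lit 18624026519) (nat_lit 76) (nat_lit 1552597862) (nat_lit 129) (nat_lit 5) (nat_lit 135) (nat_lit 5) (nat_lit 130) (nat_lit 5) (nat_lit 497) (nat_lit 412) (nat_lit 231))) (XT.nd (nat_lit 78) (nat_lit 380) (nat_lit 0) (XT.lf (nat_lit 0) (nat_lit 4631780206) (nat_lit 456) (nat_lit 8226969605) (nat_lit 76) (nat_lit 8354983116) (nat_lit 129) (nat_lit 5) (nat_lit 135) (nat_lit 5) (nat_lit 130) (nat_lit 5) (nat_lit 498) (nat_lit 412) (nat_lit 230)) (XT.lf (nat_lit 0) (nat_lit 2398667051) (nat_lit 380) (nat_lit 6189293154) (nat_lit 456) (nat_lit 12906985159) (nat_lit 124) (nat_lit 5) (nat_lit 129) (nat_lit 5) (nat_lit 130) (nat_lit 5) (nat_lit 499) (nat_lit 412) (nat_lit 229))))))) (XT.nd (nat_lit 1092) (nat_lit 1444) (nat_lit 0) (XT.nd (nat_lit 546) (nat_lit 988) (nat_lit 0) (XT.nd (nat_lit 234) (nat_lit 760) (nat_lit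 0) (XT.nd (nat_lit 78) (nat_lit 304) (nat_lit 0) (XT.lf (nat_lit 0) (nat_lit 12675538544) (nat_lit 456) (nat_lit 8447566534) (nat_lit 76) (nat_lit 657634405) (nat_lit 124) (nat_lit 5) (nat_lit 130) (nat_lit 5) (nat_lit 125) (nat_lit 5) (nat_lit 500) (nat_lit 412) (nat_lit 228)) (XT.nd (nat_lit 78) (nat_lit 0) (nat_lit 0) (XT.lf (nat_lit 0) (nat_lit 2393865378) (nat_lit 304) (nat_lit 14500395349) (nat_lit 380) (nat_lit 5177003781) (nat_lit 120) (nat_lit 5) (nat_lit 124) (nat_lit 5) (nat_lit 125) (nat_lit 5) (nat_lit 501) (nat_lit 412) (nat_lit 227)) (XT.lf (nat_lit 0) (nat_lit 13556043678) (nat_lit 304) (nat_lit 7690933529) (nat_lit 380) (nat_lit 1119633244) (nat_lit 120) (nat_lit 5) (nat_lit 124) (nat_lit 5) (nat_lit 125) (nat_lit 5) (nat_lit 502) (nat_lit 412) (nat_lit 226)))) (XT.nd (nat_lit 156) (nat_lit 304) (nat_lit 0) (XT.nd (nat_lit 78) (nat_lit 0) (nat_lit 0) (XT.lf (nat_lit 0) (nat_lit 2273337859) (nat_lit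 380) (nat_lit 713735853) (nat_lit 456) (nat_lit 19680244649) (nat_lit 114) (nat_lit 5) (nat_lit 119) (nat_lit 5) (nat_lit 120) (nat_lit 5) (nat_lit 503) (nat_lit 412) (nat_lit 225)) (XT.lf (nat_lit 0) (nat_lit 7255093284) (nat_lit 456) (nat_lit 9334414871) (nat_lit 76) (nat_lit 6382503502) (nat_lit 114) (nat_lit 5) (nat_lit 120) (nat_lit 5) (nat_lit 115) (nat_lit 5) (nat_lit 504) (nat_lit 412) (nat_lit 224))) (XT.nd (nat_lit 78) (nat_lit 0) (nat_lit 0) (XT.lf (nat_lit 0) (nat_lit 1956959503) (nat_lit 304) (nat_lit 9662150963) (nat_lit 380) (nat_lit 11663478209) (nat_lit 110) (nat_lit 5) (nat_lit 114) (nat_lit 5) (nat_lit 115) (nat_lit 5) (nat_lit 505) (nat_lit 412) (nat_lit 223)) (XT.lf (nat_lit 0) (nat_lit 13590438004) (nat_lit 304) (nat_lit 2535880104) (nat_lit 380) (nat_lit 7471943471) (nat_lit 110) (nat_lit 5) (nat_lit 114) (nat_lit 5) (nat_lit 115) (nat_lit 5) (nat_lit 506) (nat_lit 412) (nat_lit 222)))))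 (XT.nd (nat_lit 234) (nat_lit 304) (nat_lit 0) (XT.nd (nat_lit 78) (nat_lit 380) (nat_lit 0) (XT.lf (nat_lit 0) (nat_lit 1515317815) (nat_lit 304) (nat_lit 19242300545) (nat_lit 380) (nat_lit 3161953111) (nat_lit 106) (nat_lit 5) (nat_lit 110) (nat_lit 5) (nat_lit 111) (nat_lit 5) (nat_lit 507) (nat_lit 412) (nat_lit 221)) (XT.nd (nat_lit 78) (nat_lit 304) (nat_lit 0) (XT.lf (nat_lit 0) (nat_lit 1295845415) (nat_lit 380) (nat_lit 10876823838) (nat_lit 76) (nat_lit 12072924526) (nat_lit 105) (nat_lit 5) (nat_lit 110) (nat_lit 5) (nat_lit 106) (nat_lit 5) (nat_lit 508) (nat_lit 412) (nat_lit 220)) (XT.lf (nat_lit 0) (nat_lit 861525310) (nat_lit 304) (nat_lit 4938097824) (nat_lit 380) (nat_lit 18778114510) (nat_lit 101) (nat_lit 5) (nat_lit 105) (nat_lit 5) (nat_lit 106) (nat_lit 5) (nat_lit 509) (nat_lit 412) (nat_lit 219)))) (XT.nd (nat_lit 156) (nat_lit 304) (nat_lit 0) (XT.nd (nat_lit 78) (nat_lit 0) (nat_lit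 0) (XT.lf (nat_lit 0) (nat_lit 10476366914) (nat_lit 380) (nat_lit 11959348185) (nat_lit 76) (nat_lit 2479153786) (nat_lit 101) (nat_lit 5) (nat_lit 106) (nat_lit 5) (nat_lit 102) (nat_lit 5) (nat_lit 510) (nat_lit 412) (nat_lit 218)) (XT.lf (nat_lit 0) (nat_lit 15273042573) (nat_lit 380) (nat_lit 9882915) (nat_lit 76) (nat_lit 9975291585) (nat_lit 101) (nat_lit 5) (nat_lit 106) (nat_lit 5) (nat_lit 102) (nat_lit 5) (nat_lit 511) (nat_lit 412) (nat_lit 217))) (XT.nd (nat_lit 78) (nat_lit 0) (nat_lit 0) (XT.lf (nat_lit 0) (nat_lit 12330649632) (nat_lit 304) (nat_lit 7908878879) (nat_lit 380) (nat_lit 5367428396) (nat_lit 97) (nat_lit 5) (nat_lit 101) (nat_lit 5) (nat_lit 102) (nat_lit 5) (nat_lit 512) (nat_lit 412) (nat_lit 216)) (XT.lf (nat_lit 0) (nat_lit 24908549508) (nat_lit 304) (nat_lit 390738023) (nat_lit 380) (nat_lit 663507316) (nat_lit 97) (nat_lit 5) (nat_lit 101) (nat_lit 5) (nat_lit 102) (nat_lit 5)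 (nat_lit 513) (nat_lit 412) (nat_lit 215)))))) (XT.nd (nat_lit 546) (nat_lit 228) (nat_lit 0) (XT.nd (nat_lit 234) (nat_lit 608) (nat_lit 0) (XT.nd (nat_lit 78) (nat_lit 304) (nat_lit 0) (XT.lf (nat_lit 0) (nat_lit 4196967789) (nat_lit 304) (nat_lit 14844619734) (nat_lit 76) (nat_lit 7281293231) (nat_lit 93) (nat_lit 5) (nat_lit 97) (nat_lit 5) (nat_lit 94) (nat_lit 5) (nat_lit 514) (nat_lit 412) (nat_lit 214)) (XT.nd (nat_lit 78) (nat_lit 304) (nat_lit 0) (XT.lf (nat_lit 0) (nat_lit 9149475853) (nat_lit 304) (nat_lit 2430856599) (nat_lit 76) (nat_lit 15109676106) (nat_lit 93) (nat_lit 5) (nat_lit 97) (nat_lit 5) (nat_lit 94) (nat_lit 5) (nat_lit 515) (nat_lit 412) (nat_lit 213)) (XT.lf (nat_lit 0) (nat_lit 10357702197) (nat_lit 304) (nat_lit 3904689243) (nat_lit 380) (nat_lit 12800862340) (nat_lit 89) (nat_lit 5) (nat_lit 93) (nat_lit 5) (nat_lit 94) (nat_lit 5) (nat_lit 516) (nat_lit 412) (nat_lit 212)))) (XT.nd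 (nat_lit 156) (nat_lit 380) (nat_lit 0) (XT.nd (nat_lit 78) (nat_lit 228) (nat_lit 0) (XT.lf (nat_lit 0) (nat_lit 19513607380) (nat_lit 380) (nat_lit 4043600712) (nat_lit 76) (nat_lit 3886036944) (nat_lit 89) (nat_lit 5) (nat_lit 94) (nat_lit 5) (nat_lit 90) (nat_lit 5) (nat_lit 517) (nat_lit 412) (nat_lit 211)) (XT.lf (nat_lit 0) (nat_lit 8953989119) (nat_lit 228) (nat_lit 15994108941) (nat_lit 304) (nat_lit 2881174979) (nat_lit 86) (nat_lit 5) (nat_lit 89) (nat_lit 5) (nat_lit 90) (nat_lit 5) (nat_lit 518) (nat_lit 412) (nat_lit 210))) (XT.nd (nat_lit 78) (nat_lit 304) (nat_lit 0) (XT.lf (nat_lit 0) (nat_lit 2260092952) (nat_lit 304) (nat_lit 5980234830) (nat_lit 76) (nat_lit 19981969445) (nat_lit 85) (nat_lit 5) (nat_lit 89) (nat_lit 5) (nat_lit 86) (nat_lit 5) (nat_lit 519) (nat_lit 412) (nat_lit 209)) (XT.lf (nat_lit 0) (nat_lit 7239571115) (nat_lit 304) (nat_lit 267458915) (nat_lit 380) (nat_lit 21114944343)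 (nat_lit 81) (nat_lit 5) (nat_lit 85) (nat_lit 5) (nat_lit 86) (nat_lit 5) (nat_lit 520) (nat_lit 412) (nat_lit 208))))) (XT.nd (nat_lit 51012) (nat_lit 0) (nat_lit 29032) (XT.nd (nat_lit 156) (nat_lit 0) (nat_lit 0) (XT.nd (nat_lit 78) (nat_lit 228) (nat_lit 0) (XT.lf (nat_lit 0) (nat_lit 12944778664) (nat_lit 380) (nat_lit 8284378903) (nat_lit 76) (nat_lit 7798771823) (nat_lit 81) (nat_lit 5) (nat_lit 86) (nat_lit 5) (nat_lit 82) (nat_lit 5) (nat_lit 521) (nat_lit 412) (nat_lit 207)) (XT.lf (nat_lit 0) (nat_lit 5132279188) (nat_lit 228) (nat_lit 13388618639) (nat_lit 304) (nat_lit 10920515119) (nat_lit 78) (nat_lit 5) (nat_lit 81) (nat_lit 5) (nat_lit 82) (nat_lit 5) (nat_lit 522) (nat_lit 412) (nat_lit 206))) (XT.nd (nat_lit 50778) (nat_lit 0) (nat_lit 30476) (XT.lf (nat_lit 0) (nat_lit 18920759446) (nat_lit 228) (nat_lit 5337944839) (nat_lit 304) (nat_lit 5603460304) (nat_lit 78) (nat_lit 5) (nat_lit 81) (nat_lit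 5) (nat_lit 82) (nat_lit 5) (nat_lit 523) (nat_lit 412) (nat_lit 205)) (XT.lf (nat_lit 0) (nat_lit 3323238718) (nat_lit 1444) (nat_lit 476913353) (nat_lit 1444) (nat_lit 476913353) (nat_lit 479) (nat_lit 3) (nat_lit 498) (nat_lit 3) (nat_lit 498) (nat_lit 5) (nat_lit 413) (nat_lit 413) (nat_lit 314)))) (XT.nd (nat_lit 156) (nat_lit 0) (nat_lit 76) (XT.nd (nat_lit 78) (nat_lit 1444) (nat_lit 0) (XT.lf (nat_lit 76) (nat_lit 3044691402) (nat_lit 0) (nat_lit 4662863586) (nat_lit 1444) (nat_lit 911462988) (nat_lit 480) (nat_lit 5) (nat_lit 479) (nat_lit 3) (nat_lit 498) (nat_lit 5) (nat_lit 414) (nat_lit 413) (nat_lit 313)) (XT.lf (nat_lit 0) (nat_lit 83875775) (nat_lit 1444) (nat_lit 1563274912) (nat_lit 1520) (nat_lit 7038446219) (nat_lit 460) (nat_lit 5) (nat_lit 479) (nat_lit 3) (nat_lit 480) (nat_lit 5) (nat_lit 415) (nat_lit 413) (nat_lit 312))) (XT.nd (nat_lit 78) (nat_lit 0) (nat_lit 0) (XT.lf (nat_lit 0) (nat_lit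 1087597730) (nat_lit 1444) (nat_lit 6221108058) (nat_lit 1520) (nat_lit 1444686724) (nat_lit 461) (nat_lit 5) (nat_lit 480) (nat_lit 5) (nat_lit 481) (nat_lit 5) (nat_lit 416) (nat_lit 413) (nat_lit 311)) (XT.lf (nat_lit 0) (nat_lit 2108009900) (nat_lit 1444) (nat_lit 2116193112) (nat_lit 1520) (nat_lit 4598427535) (nat_lit 461) (nat_lit 5) (nat_lit 480) (nat_lit 5) (nat_lit 481) (nat_lit 5) (nat_lit 417) (nat_lit 413) (nat_lit 310))))))))
noncomputable def xc177 : XT := (XT.nd (nat_lit 2184) (nat_lit 10868) (nat_lit 0) (XT.nd (nat_lit 1092) (nat_lit 6840) (nat_lit 0) (XT.nd (nat_lit 546) (nat_lit 0) (nat_lit 0) (XT.nd (nat_lit 234) (nat_lit 1292) (nat_lit 0) (XT.nd (nat_lit 78) (nat_lit 0) (nat_lit 76) (XT.lf (nat_lit 76) (nat_lit 2084604463) (nat_lit 0) (nat_lit 1053395410) (nat_lit 1520) (nat_lit 5755488542) (nat_lit 462) (nat_lit 5) (nat_lit 461) (nat_lit 5) (nat_lit 481) (nat_lit 5) (nat_lit 418) (nat_lit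 413) (nat_lit 309)) (XT.nd (nat_lit 78) (nat_lit 0) (nat_lit 0) (XT.lf (nat_lit 0) (nat_lit 4193137309) (nat_lit 1444) (nat_lit 2595661584) (nat_lit 1520) (nat_lit 2176891695) (nat_lit 462) (nat_lit 5) (nat_lit 481) (nat_lit 5) (nat_lit 482) (nat_lit 5) (nat_lit 419) (nat_lit 413) (nat_lit 308)) (XT.lf (nat_lit 76) (nat_lit 1703432797) (nat_lit 0) (nat_lit 3560542862) (nat_lit 1520) (nat_lit 3775486930) (nat_lit 463) (nat_lit 5) (nat_lit 462) (nat_lit 5) (nat_lit 482) (nat_lit 5) (nat_lit 420) (nat_lit 413) (nat_lit 307)))) (XT.nd (nat_lit 156) (nat_lit 1368) (nat_lit 0) (XT.nd (nat_lit 78) (nat_lit 0) (nat_lit 76) (XT.lf (nat_lit 76) (nat_lit 6110027318) (nat_lit 0) (nat_lit 240554765) (nat_lit 1520) (nat_lit 2764258319) (nat_lit 463) (nat_lit 5) (nat_lit 462) (nat_lit 5) (nat_lit 482) (nat_lit 5) (nat_lit 421) (nat_lit 413) (nat_lit 306)) (XT.lf (nat_lit 76) (nat_lit 1396997152) (nat_lit 0) (nat_lit 6068863734)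 (nat_lit 1520) (nat_lit 1725743139) (nat_lit 464) (nat_lit 5) (nat_lit 463) (nat_lit 5) (nat_lit 483) (nat_lit 5) (nat_lit 422) (nat_lit 413) (nat_lit 305))) (XT.nd (nat_lit 78) (nat_lit 1444) (nat_lit 0) (XT.lf (nat_lit 76) (nat_lit 5912124169) (nat_lit 0) (nat_lit 2690865169) (nat_lit 1520) (nat_lit 666939423) (nat_lit 464) (nat_lit 5) (nat_lit 463) (nat_lit 5) (nat_lit 483) (nat_lit 5) (nat_lit 423) (nat_lit 413) (nat_lit 304)) (XT.lf (nat_lit 0) (nat_lit 398289609) (nat_lit 1520) (nat_lit 8188611506) (nat_lit 1596) (nat_lit 763067988) (nat_lit 444) (nat_lit 5) (nat_lit 464) (nat_lit 5) (nat_lit 465) (nat_lit 5) (nat_lit 424) (nat_lit 413) (nat_lit 303))))) (XT.nd (nat_lit 234) (nat_lit 0) (nat_lit 76) (XT.nd (nat_lit 78) (nat_lit 0) (nat_lit 0) (XT.lf (nat_lit 0) (nat_lit 1494867171) (nat_lit 1520) (nat_lit 3651406282) (nat_lit 1596) (nat_lit 4284884905) (nat_lit 444) (nat_lit 5) (nat_lit 464) (nat_lit 5) (nat_lit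 465) (nat_lit 5) (nat_lit 425) (nat_lit 413) (nat_lit 302)) (XT.nd (nat_lit 78) (nat_lit 0) (nat_lit 76) (XT.lf (nat_lit 76) (nat_lit 975335433) (nat_lit 0) (nat_lit 1623259414) (nat_lit 1596) (nat_lit 6915687627) (nat_lit 445) (nat_lit 5) (nat_lit 444) (nat_lit 5) (nat_lit 465) (nat_lit 5) (nat_lit 426) (nat_lit 413) (nat_lit 301)) (XT.lf (nat_lit 0) (nat_lit 3741108582) (nat_lit 1520) (nat_lit 3881808326) (nat_lit 1596) (nat_lit 1975833082) (nat_lit 445) (nat_lit 5) (nat_lit 465) (nat_lit 5) (nat_lit 466) (nat_lit 5) (nat_lit 427) (nat_lit 413) (nat_lit 300)))) (XT.nd (nat_lit 156) (nat_lit 0) (nat_lit 76) (XT.nd (nat_lit 78) (nat_lit 0) (nat_lit 0) (XT.lf (nat_lit 76) (nat_lit 854833560) (nat_lit 0) (nat_lit 4047600449) (nat_lit 1596) (nat_lit 4782568469) (nat_lit 446) (nat_lit 5) (nat_lit 445) (nat_lit 5) (nat_lit 466) (nat_lit 5) (nat_lit 428) (nat_lit 413) (nat_lit 299)) (XT.lf (nat_lit 76) (nat_lit 5724819151)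 (nat_lit 0) (nat_lit 368184831) (nat_lit 1596) (nat_lit 3679870231) (nat_lit 446) (nat_lit 5) (nat_lit 445) (nat_lit 5) (nat_lit 466) (nat_lit 5) (nat_lit 429) (nat_lit 413) (nat_lit 298))) (XT.nd (nat_lit 78) (nat_lit 0) (nat_lit 0) (XT.lf (nat_lit 76) (nat_lit 804091611) (nat_lit 0) (nat_lit 6510891090) (nat_lit 1596) (nat_lit 2547383008) (nat_lit 447) (nat_lit 5) (nat_lit 446) (nat_lit 5) (nat_lit 467) (nat_lit 5) (nat_lit 430) (nat_lit 413) (nat_lit 297)) (XT.lf (nat_lit 76) (nat_lit 5791597465) (nat_lit 0) (nat_lit 2780083398) (nat_lit 1596) (nat_lit 1381774568) (nat_lit 447) (nat_lit 5) (nat_lit 446) (nat_lit 5) (nat_lit 467) (nat_lit 5) (nat_lit 431) (nat_lit 413) (nat_lit 296)))))) (XT.nd (nat_lit 546) (nat_lit 4028) (nat_lit 0) (XT.nd (nat_lit 234) (nat_lit 1444) (nat_lit 0) (XT.nd (nat_lit 78) (nat_lit 1596) (nat_lit 0) (XT.lf (nat_lit 76) (nat_lit 822380131) (nat_lit 0) (nat_lit 9024234309) (nat_lit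 1596) (nat_lit 199904197) (nat_lit 448) (nat_lit 5) (nat_lit 447) (nat_lit 5) (nat_lit 468) (nat_lit 5) (nat_lit 432) (nat_lit 413) (nat_lit 295)) (XT.nd (nat_lit 78) (nat_lit 0) (nat_lit 0) (XT.lf (nat_lit 0) (nat_lit 1020186211) (nat_lit 1596) (nat_lit 4217695204) (nat_lit 1672) (nat_lit 4902888870) (nat_lit 426) (nat_lit 5) (nat_lit 447) (nat_lit 5) (nat_lit 448) (nat_lit 5) (nat_lit 433) (nat_lit 413) (nat_lit 294)) (XT.lf (nat_lit 76) (nat_lit 885039384) (nat_lit 0) (nat_lit 1364325741) (nat_lit 1672) (nat_lit 7987781074) (nat_lit 427) (nat_lit 5) (nat_lit 426) (nat_lit 5) (nat_lit 448) (nat_lit 5) (nat_lit 434) (nat_lit 413) (nat_lit 293)))) (XT.nd (nat_lit 156) (nat_lit 1520) (nat_lit 0) (XT.nd (nat_lit 78) (nat_lit 0) (nat_lit 0) (XT.lf (nat_lit 0) (nat_lit 3530323194) (nat_lit 1596) (nat_lit 4219294745) (nat_lit 1672) (nat_lit 2585300454) (nat_lit 427) (nat_lit 5) (nat_lit 448) (nat_lit 5) (nat_lit 449)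 (nat_lit 5) (nat_lit 435) (nat_lit 413) (nat_lit 292)) (XT.lf (nat_lit 76) (nat_lit 1006187775) (nat_lit 0) (nat_lit 3828546057) (nat_lit 1672) (nat_lit 5599967958) (nat_lit 428) (nat_lit 5) (nat_lit 427) (nat_lit 5) (nat_lit 449) (nat_lit 5) (nat_lit 436) (nat_lit 413) (nat_lit 291))) (XT.nd (nat_lit 78) (nat_lit 1596) (nat_lit 0) (XT.lf (nat_lit 0) (nat_lit 6177387808) (nat_lit 1596) (nat_lit 4158276156) (nat_lit 76) (nat_lit 200585969) (nat_lit 428) (nat_lit 5) (nat_lit 449) (nat_lit 5) (nat_lit 429) (nat_lit 5) (nat_lit 437) (nat_lit 413) (nat_lit 290)) (XT.lf (nat_lit 0) (nat_lit 1193510283) (nat_lit 1596) (nat_lit 6369374549) (nat_lit 1672) (nat_lit 3076636350) (nat_lit 407) (nat_lit 5) (nat_lit 428) (nat_lit 5) (nat_lit 429) (nat_lit 5) (nat_lit 438) (nat_lit 413) (nat_lit 289))))) (XT.nd (nat_lit 234) (nat_lit 2280) (nat_lit 0) (XT.nd (nat_lit 78) (nat_lit 1748) (nat_lit 0) (XT.lf (nat_lit 0) (nat_lit 6694637434)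 (nat_lit 1596) (nat_lit 2292489151) (nat_lit 1672) (nat_lit 1757522285) (nat_lit 407) (nat_lit 5) (nat_lit 428) (nat_lit 5) (nat_lit 429) (nat_lit 5) (nat_lit 439) (nat_lit 413) (nat_lit 288)) (XT.nd (nat_lit 78) (nat_lit 76) (nat_lit 0) (XT.lf (nat_lit 0) (nat_lit 1446619858) (nat_lit 1672) (nat_lit 8998219823) (nat_lit 1748) (nat_lit 406951179) (nat_lit 385) (nat_lit 5) (nat_lit 407) (nat_lit 5) (nat_lit 408) (nat_lit 5) (nat_lit 440) (nat_lit 413) (nat_lit 287)) (XT.lf (nat_lit 0) (nat_lit 984034017) (nat_lit 1748) (nat_lit 3888395366) (nat_lit 76) (nat_lit 6088008648) (nat_lit 384) (nat_lit 5) (nat_lit 407) (nat_lit 5) (nat_lit 385) (nat_lit 5) (nat_lit 441) (nat_lit 413) (nat_lit 286)))) (XT.nd (nat_lit 156) (nat_lit 836) (nat_lit 0) (XT.nd (nat_lit 78) (nat_lit 0) (nat_lit 0) (XT.lf (nat_lit 0) (nat_lit 1744903540) (nat_lit 1444) (nat_lit 647735108) (nat_lit 1520) (nat_lit 8678671540) (nat_lit 365) (nat_lit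 5) (nat_lit 384) (nat_lit 5) (nat_lit 385) (nat_lit 5) (nat_lit 442) (nat_lit 413) (nat_lit 285)) (XT.lf (nat_lit 0) (nat_lit 3863606328) (nat_lit 1520) (nat_lit 3678496942) (nat_lit 76) (nat_lit 3641623303) (nat_lit 365) (nat_lit 5) (nat_lit 385) (nat_lit 5) (nat_lit 366) (nat_lit 5) (nat_lit 443) (nat_lit 413) (nat_lit 284))) (XT.nd (nat_lit 78) (nat_lit 0) (nat_lit 0) (XT.lf (nat_lit 0) (nat_lit 2091541397) (nat_lit 836) (nat_lit 3274784403) (nat_lit 912) (nat_lit 5932029233) (nat_lit 354) (nat_lit 5) (nat_lit 365) (nat_lit 5) (nat_lit 366) (nat_lit 5) (nat_lit 444) (nat_lit 413) (nat_lit 283)) (XT.lf (nat_lit 0) (nat_lit 6915633140) (nat_lit 912) (nat_lit 3409305628) (nat_lit 76) (nat_lit 1090016820) (nat_lit 354) (nat_lit 5) (nat_lit 366) (nat_lit 5) (nat_lit 355) (nat_lit 5) (nat_lit 445) (nat_lit 413) (nat_lit 282))))))) (XT.nd (nat_lit 1092) (nat_lit 5168) (nat_lit 0) (XT.nd (nat_lit 546) (nat_lit 2280)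 (nat_lit 0) (XT.nd (nat_lit 234) (nat_lit 1596) (nat_lit 0) (XT.nd (nat_lit 78) (nat_lit 912) (nat_lit 0) (XT.lf (nat_lit 0) (nat_lit 2501344374) (nat_lit 912) (nat_lit 6017497241) (nat_lit 988) (nat_lit 3014598232) (nat_lit 342) (nat_lit 5) (nat_lit 354) (nat_lit 5) (nat_lit 355) (nat_lit 5) (nat_lit 446) (nat_lit 413) (nat_lit 281)) (XT.nd (nat_lit 78) (nat_lit 912) (nat_lit 0) (XT.lf (nat_lit 0) (nat_lit 8562586599) (nat_lit 912) (nat_lit 1599597726) (nat_lit 988) (nat_lit 1491957862) (nat_lit 342) (nat_lit 5) (nat_lit 354) (nat_lit 5) (nat_lit 355) (nat_lit 5) (nat_lit 447) (nat_lit 413) (nat_lit 280)) (XT.lf (nat_lit 0) (nat_lit 84150696) (nat_lit 912) (nat_lit 8803289659) (nat_lit 76) (nat_lit 2889343353) (nat_lit 330) (nat_lit 5) (nat_lit 342) (nat_lit 5) (nat_lit 331) (nat_lit 5) (nat_lit 448) (nat_lit 413) (nat_lit 279)))) (XT.nd (nat_lit 156) (nat_lit 760) (nat_lit 0) (XT.nd (nat_lit 78) (nat_lit 836)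 (nat_lit 0) (XT.lf (nat_lit 0) (nat_lit 1688878864) (nat_lit 912) (nat_lit 2734302204) (nat_lit 76) (nat_lit 7478167493) (nat_lit 330) (nat_lit 5) (nat_lit 342) (nat_lit 5) (nat_lit 331) (nat_lit 5) (nat_lit 449) (nat_lit 413) (nat_lit 278)) (XT.lf (nat_lit 0) (nat_lit 3335210012) (nat_lit 912) (nat_lit 8541135847) (nat_lit 76) (nat_lit 151877735) (nat_lit 319) (nat_lit 5) (nat_lit 331) (nat_lit 5) (nat_lit 320) (nat_lit 5) (nat_lit 450) (nat_lit 413) (nat_lit 277))) (XT.nd (nat_lit 78) (nat_lit 760) (nat_lit 0) (XT.lf (nat_lit 0) (nat_lit 5048283595) (nat_lit 912) (nat_lit 2330618654) (nat_lit 76) (nat_lit 4778066435) (nat_lit 319) (nat_lit 5) (nat_lit 331) (nat_lit 5) (nat_lit 320) (nat_lit 5) (nat_lit 451) (nat_lit 413) (nat_lit 276)) (XT.lf (nat_lit 0) (nat_lit 4043507782) (nat_lit 760) (nat_lit 2764690573) (nat_lit 836) (nat_lit 5479847428) (nat_lit 309) (nat_lit 5) (nat_lit 319) (nat_lit 5) (nat_lit 320)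 (nat_lit 5) (nat_lit 452) (nat_lit 413) (nat_lit 275))))) (XT.nd (nat_lit 234) (nat_lit 1520) (nat_lit 0) (XT.nd (nat_lit 78) (nat_lit 760) (nat_lit 0) (XT.lf (nat_lit 0) (nat_lit 8618168578) (nat_lit 836) (nat_lit 1871254612) (nat_lit 76) (nat_lit 1932032619) (nat_lit 309) (nat_lit 5) (nat_lit 320) (nat_lit 5) (nat_lit 310) (nat_lit 5) (nat_lit 453) (nat_lit 413) (nat_lit 274)) (XT.nd (nat_lit 78) (nat_lit 0) (nat_lit 0) (XT.lf (nat_lit 0) (nat_lit 4658735570) (nat_lit 760) (nat_lit 5840930452) (nat_lit 836) (nat_lit 2057169819) (nat_lit 299) (nat_lit 5) (nat_lit 309) (nat_lit 5) (nat_lit 310) (nat_lit 5) (nat_lit 454) (nat_lit 413) (nat_lit 273)) (XT.lf (nat_lit 0) (nat_lit 11331230228) (nat_lit 760) (nat_lit 1087063294) (nat_lit 836) (nat_lit 276648148) (nat_lit 299) (nat_lit 5) (nat_lit 309) (nat_lit 5) (nat_lit 310) (nat_lit 5) (nat_lit 455) (nat_lit 413) (nat_lit 272)))) (XT.nd (nat_lit 156) (nat_lit 760)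 (nat_lit 0) (XT.nd (nat_lit 78) (nat_lit 0) (nat_lit 0) (XT.lf (nat_lit 0) (nat_lit 1565840955) (nat_lit 760) (nat_lit 7511763041) (nat_lit 76) (nat_lit 3757082641) (nat_lit 289) (nat_lit 5) (nat_lit 299) (nat_lit 5) (nat_lit 290) (nat_lit 5) (nat_lit 456) (nat_lit 413) (nat_lit 271)) (XT.lf (nat_lit 0) (nat_lit 3445159124) (nat_lit 760) (nat_lit 837905077) (nat_lit 76) (nat_lit 8694059781) (nat_lit 289) (nat_lit 5) (nat_lit 299) (nat_lit 5) (nat_lit 290) (nat_lit 5) (nat_lit 457) (nat_lit 413) (nat_lit 270))) (XT.nd (nat_lit 78) (nat_lit 0) (nat_lit 0) (XT.lf (nat_lit 0) (nat_lit 5392965426) (nat_lit 836) (nat_lit 7090778154) (nat_lit 76) (nat_lit 638056033) (nat_lit 279) (nat_lit 5) (nat_lit 290) (nat_lit 5) (nat_lit 280) (nat_lit 5) (nat_lit 458) (nat_lit 413) (nat_lit 269)) (XT.lf (nat_lit 0) (nat_lit 7401424789) (nat_lit 836) (nat_lit 262415463) (nat_lit 76) (nat_lit 5605101992) (nat_lit 279) (nat_lit 5) (nat_lit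 290) (nat_lit 5) (nat_lit 280) (nat_lit 5) (nat_lit 459) (nat_lit 413) (nat_lit 268)))))) (XT.nd (nat_lit 546) (nat_lit 2432) (nat_lit 0) (XT.nd (nat_lit 234) (nat_lit 1292) (nat_lit 0) (XT.nd (nat_lit 78) (nat_lit 760) (nat_lit 0) (XT.lf (nat_lit 0) (nat_lit 6778233991) (nat_lit 684) (nat_lit 2703742108) (nat_lit 760) (nat_lit 3936420452) (nat_lit 270) (nat_lit 5) (nat_lit 279) (nat_lit 5) (nat_lit 280) (nat_lit 5) (nat_lit 460) (nat_lit 413) (nat_lit 267)) (XT.nd (nat_lit 78) (nat_lit 76) (nat_lit 0) (XT.lf (nat_lit 0) (nat_lit 368648349) (nat_lit 684) (nat_lit 11243008486) (nat_lit 760) (nat_lit 1959039878) (nat_lit 261) (nat_lit 5) (nat_lit 270) (nat_lit 5) (nat_lit 271) (nat_lit 5) (nat_lit 461) (nat_lit 413) (nat_lit 266)) (XT.lf (nat_lit 0) (nat_lit 108010348) (nat_lit 760) (nat_lit 6149490462) (nat_lit 76) (nat_lit 7467523786) (nat_lit 260) (nat_lit 5) (nat_lit 270) (nat_lit 5) (nat_lit 261) (nat_lit 5)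 (nat_lit 462) (nat_lit 413) (nat_lit 265)))) (XT.nd (nat_lit 156) (nat_lit 684) (nat_lit 0) (XT.nd (nat_lit 78) (nat_lit 0) (nat_lit 0) (XT.lf (nat_lit 0) (nat_lit 1031529526) (nat_lit 608) (nat_lit 1153716914) (nat_lit 684) (nat_lit 11697038809) (nat_lit 252) (nat_lit 5) (nat_lit 260) (nat_lit 5) (nat_lit 261) (nat_lit 5) (nat_lit 463) (nat_lit 413) (nat_lit 264)) (XT.lf (nat_lit 0) (nat_lit 4360364033) (nat_lit 684) (nat_lit 5642204449) (nat_lit 76) (nat_lit 4039002491) (nat_lit 252) (nat_lit 5) (nat_lit 261) (nat_lit 5) (nat_lit 253) (nat_lit 5) (nat_lit 464) (nat_lit 413) (nat_lit 263))) (XT.nd (nat_lit 78) (nat_lit 0) (nat_lit 0) (XT.lf (nat_lit 0) (nat_lit 1712311028) (nat_lit 684) (nat_lit 4874144619) (nat_lit 760) (nat_lit 7617443794) (nat_lit 243) (nat_lit 5) (nat_lit 252) (nat_lit 5) (nat_lit 253) (nat_lit 5) (nat_lit 465) (nat_lit 413) (nat_lit 262)) (XT.lf (nat_lit 0) (nat_lit 8886338277) (nat_lit 760)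 (nat_lit 5094042091) (nat_lit 76) (nat_lit 388515066) (nat_lit 243) (nat_lit 5) (nat_lit 253) (nat_lit 5) (nat_lit 244) (nat_lit 5) (nat_lit 466) (nat_lit 413) (nat_lit 261))))) (XT.nd (nat_lit 312) (nat_lit 1140) (nat_lit 0) (XT.nd (nat_lit 156) (nat_lit 684) (nat_lit 0) (XT.nd (nat_lit 78) (nat_lit 0) (nat_lit 0) (XT.lf (nat_lit 0) (nat_lit 2438256580) (nat_lit 608) (nat_lit 8831130082) (nat_lit 684) (nat_lit 3267067534) (nat_lit 235) (nat_lit 5) (nat_lit 243) (nat_lit 5) (nat_lit 244) (nat_lit 5) (nat_lit 467) (nat_lit 413) (nat_lit 260)) (XT.lf (nat_lit 0) (nat_lit 10177439512) (nat_lit 608) (nat_lit 3546029784) (nat_lit 684) (nat_lit 983433464) (nat_lit 235) (nat_lit 5) (nat_lit 243) (nat_lit 5) (nat_lit 244) (nat_lit 5) (nat_lit 468) (nat_lit 413) (nat_lit 259))) (XT.nd (nat_lit 78) (nat_lit 0) (nat_lit 0) (XT.lf (nat_lit 0) (nat_lit 1350557593) (nat_lit 684) (nat_lit 11681232898) (nat_lit 76) (nat_lit 1848354179)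 (nat_lit 226) (nat_lit 5) (nat_lit 235) (nat_lit 5) (nat_lit 227) (nat_lit 5) (nat_lit 469) (nat_lit 413) (nat_lit 258)) (XT.lf (nat_lit 0) (nat_lit 3761591923) (nat_lit 684) (nat_lit 3956017745) (nat_lit 76) (nat_lit 7338246848) (nat_lit 226) (nat_lit 5) (nat_lit 235) (nat_lit 5) (nat_lit 227) (nat_lit 5) (nat_lit 470) (nat_lit 413) (nat_lit 257)))) (XT.nd (nat_lit 156) (nat_lit 608) (nat_lit 0) (XT.nd (nat_lit 78) (nat_lit 0) (nat_lit 0) (XT.lf (nat_lit 0) (nat_lit 3963101187) (nat_lit 532) (nat_lit 2273123205) (nat_lit 608) (nat_lit 8998556285) (nat_lit 219) (nat_lit 5) (nat_lit 226) (nat_lit 5) (nat_lit 227) (nat_lit 5) (nat_lit 471) (nat_lit 413) (nat_lit 256)) (XT.lf (nat_lit 0) (nat_lit 8798123429) (nat_lit 608) (nat_lit 3356688429) (nat_lit 76) (nat_lit 3261721502) (nat_lit 219) (nat_lit 5) (nat_lit 227) (nat_lit 5) (nat_lit 220) (nat_lit 5) (nat_lit 472) (nat_lit 413) (nat_lit 255))) (XT.nd (nat_lit 78)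 (nat_lit 0) (nat_lit 0) (XT.lf (nat_lit 0) (nat_lit 4751423229) (nat_lit 608) (nat_lit 6695694884) (nat_lit 684) (nat_lit 4154091239) (nat_lit 211) (nat_lit 5) (nat_lit 219) (nat_lit 5) (nat_lit 220) (nat_lit 5) (nat_lit 473) (nat_lit 413) (nat_lit 254)) (XT.lf (nat_lit 0) (nat_lit 13054838569) (nat_lit 608) (nat_lit 1106850475) (nat_lit 684) (nat_lit 1627643197) (nat_lit 211) (nat_lit 5) (nat_lit 219) (nat_lit 5) (nat_lit 220) (nat_lit 5) (nat_lit 474) (nat_lit 413) (nat_lit 253))))))))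
noncomputable def xc178 : XT := (XT.nd (nat_lit 2184) (nat_lit 3192) (nat_lit 0) (XT.nd (nat_lit 1092) (nat_lit 2812) (nat_lit 0) (XT.nd (nat_lit 546) (nat_lit 1900) (nat_lit 0) (XT.nd (nat_lit 234) (nat_lit 1064) (nat_lit 0) (XT.nd (nat_lit 78) (nat_lit 532) (nat_lit 0) (XT.lf (nat_lit 0) (nat_lit 993517484) (nat_lit 608) (nat_lit 10412551250) (nat_lit 76) (nat_lit 4573897987) (nat_lit 203) (nat_lit 5) (nat_lit 211) (nat_lit 5) (nat_lit 204) (nat_lit 5) (nat_lit 475) (nat_lit 413) (nat_lit 252)) (XT.nd (nat_lit 78) (nat_lit 532) (nat_lit 0) (XT.lf (nat_lit 0) (nat_lit 3661422546) (nat_lit 608) (nat_lit 2132202545) (nat_lit 76) (nat_lit 10380256319) (nat_lit 203) (nat_lit 5) (nat_lit 211) (nat_lit 5) (nat_lit 204) (nat_lit 5) (nat_lit 476) (nat_lit 413) (nat_lit 251)) (XT.lf (nat_lit 0) (nat_lit 6385386390) (nat_lit 532) (nat_lit 29241193) (nat_lit 608) (nat_lit 9956412868) (nat_lit 196) (nat_lit 5) (nat_lit 203)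 (nat_lit 5) (nat_lit 204) (nat_lit 5) (nat_lit 477) (nat_lit 413) (nat_lit 250)))) (XT.nd (nat_lit 156) (nat_lit 608) (nat_lit 0) (XT.nd (nat_lit 78) (nat_lit 456) (nat_lit 0) (XT.lf (nat_lit 0) (nat_lit 9265859695) (nat_lit 608) (nat_lit 1519914938) (nat_lit 76) (nat_lit 5785513585) (nat_lit 196) (nat_lit 5) (nat_lit 204) (nat_lit 5) (nat_lit 197) (nat_lit 5) (nat_lit 478) (nat_lit 413) (nat_lit 249)) (XT.lf (nat_lit 0) (nat_lit 7197371047) (nat_lit 456) (nat_lit 5014429099) (nat_lit 532) (nat_lit 4562991829) (nat_lit 190) (nat_lit 5) (nat_lit 196) (nat_lit 5) (nat_lit 197) (nat_lit 5) (nat_lit 479) (nat_lit 413) (nat_lit 248))) (XT.nd (nat_lit 78) (nat_lit 608) (nat_lit 0) (XT.lf (nat_lit 0) (nat_lit 15223436252) (nat_lit 532) (nat_lit 890347393) (nat_lit 76) (nat_lit 868451242) (nat_lit 190) (nat_lit 5) (nat_lit 197) (nat_lit 5) (nat_lit 191) (nat_lit 5) (nat_lit 480) (nat_lit 413) (nat_lit 247)) (XT.lf (nat_lit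 0) (nat_lit 1163908352) (nat_lit 608) (nat_lit 9169199964) (nat_lit 76) (nat_lit 6859042228) (nat_lit 182) (nat_lit 5) (nat_lit 190) (nat_lit 5) (nat_lit 183) (nat_lit 5) (nat_lit 481) (nat_lit 413) (nat_lit 246))))) (XT.nd (nat_lit 234) (nat_lit 988) (nat_lit 0) (XT.nd (nat_lit 78) (nat_lit 912) (nat_lit 0) (XT.lf (nat_lit 0) (nat_lit 4118617532) (nat_lit 608) (nat_lit 303117528) (nat_lit 76) (nat_lit 12984359322) (nat_lit 182) (nat_lit 5) (nat_lit 190) (nat_lit 5) (nat_lit 183) (nat_lit 5) (nat_lit 482) (nat_lit 413) (nat_lit 245)) (XT.nd (nat_lit 78) (nat_lit 456) (nat_lit 0) (XT.lf (nat_lit 0) (nat_lit 7191884541) (nat_lit 532) (nat_lit 8789499314) (nat_lit 76) (nat_lit 1641748235) (nat_lit 176) (nat_lit 5) (nat_lit 183) (nat_lit 5) (nat_lit 177) (nat_lit 5) (nat_lit 483) (nat_lit 413) (nat_lit 244)) (XT.lf (nat_lit 0) (nat_lit 275353768) (nat_lit 456) (nat_lit 10075696780) (nat_lit 532) (nat_lit 7492975511)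 (nat_lit 170) (nat_lit 5) (nat_lit 176) (nat_lit 5) (nat_lit 177) (nat_lit 5) (nat_lit 484) (nat_lit 413) (nat_lit 243)))) (XT.nd (nat_lit 156) (nat_lit 532) (nat_lit 0) (XT.nd (nat_lit 78) (nat_lit 456) (nat_lit 0) (XT.lf (nat_lit 0) (nat_lit 9629006865) (nat_lit 456) (nat_lit 3994785201) (nat_lit 532) (nat_lit 4444542098) (nat_lit 170) (nat_lit 5) (nat_lit 176) (nat_lit 5) (nat_lit 177) (nat_lit 5) (nat_lit 485) (nat_lit 413) (nat_lit 242)) (XT.lf (nat_lit 0) (nat_lit 857956911) (nat_lit 456) (nat_lit 16115495103) (nat_lit 532) (nat_lit 1323451163) (nat_lit 164) (nat_lit 5) (nat_lit 170) (nat_lit 5) (nat_lit 171) (nat_lit 5) (nat_lit 486) (nat_lit 413) (nat_lit 241))) (XT.nd (nat_lit 78) (nat_lit 456) (nat_lit 0) (XT.lf (nat_lit 0) (nat_lit 1910720212) (nat_lit 532) (nat_lit 8123839472) (nat_lit 76) (nat_lit 8493745141) (nat_lit 163) (nat_lit 5) (nat_lit 170) (nat_lit 5) (nat_lit 164) (nat_lit 5) (nat_lit 487)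 (nat_lit 413) (nat_lit 240)) (XT.lf (nat_lit 0) (nat_lit 1375466603) (nat_lit 456) (nat_lit 3817090051) (nat_lit 532) (nat_lit 13571592627) (nat_lit 157) (nat_lit 5) (nat_lit 163) (nat_lit 5) (nat_lit 164) (nat_lit 5) (nat_lit 488) (nat_lit 413) (nat_lit 239)))))) (XT.nd (nat_lit 546) (nat_lit 1520) (nat_lit 0) (XT.nd (nat_lit 234) (nat_lit 912) (nat_lit 0) (XT.nd (nat_lit 78) (nat_lit 380) (nat_lit 0) (XT.lf (nat_lit 0) (nat_lit 8603121788) (nat_lit 532) (nat_lit 7856943299) (nat_lit 76) (nat_lit 2543387412) (nat_lit 157) (nat_lit 5) (nat_lit 164) (nat_lit 5) (nat_lit 158) (nat_lit 5) (nat_lit 489) (nat_lit 413) (nat_lit 238)) (XT.nd (nat_lit 78) (nat_lit 0) (nat_lit 0) (XT.lf (nat_lit 0) (nat_lit 1853232785) (nat_lit 380) (nat_lit 10257960401) (nat_lit 456) (nat_lit 7135766335) (nat_lit 152) (nat_lit 5) (nat_lit 157) (nat_lit 5) (nat_lit 158) (nat_lit 5) (nat_lit 490) (nat_lit 413) (nat_lit 237)) (XT.lf (nat_lit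 0) (nat_lit 11852964352) (nat_lit 380) (nat_lit 3881254472) (nat_lit 456) (nat_lit 3760225573) (nat_lit 152) (nat_lit 5) (nat_lit 157) (nat_lit 5) (nat_lit 158) (nat_lit 5) (nat_lit 491) (nat_lit 413) (nat_lit 236)))) (XT.nd (nat_lit 156) (nat_lit 380) (nat_lit 0) (XT.nd (nat_lit 78) (nat_lit 76) (nat_lit 0) (XT.lf (nat_lit 0) (nat_lit 2307980141) (nat_lit 456) (nat_lit 17145943543) (nat_lit 532) (nat_lit 292474412) (nat_lit 146) (nat_lit 5) (nat_lit 152) (nat_lit 5) (nat_lit 153) (nat_lit 5) (nat_lit 492) (nat_lit 413) (nat_lit 235)) (XT.lf (nat_lit 0) (nat_lit 3271630056) (nat_lit 532) (nat_lit 7500567691) (nat_lit 76) (nat_lit 9229384113) (nat_lit 145) (nat_lit 5) (nat_lit 152) (nat_lit 5) (nat_lit 146) (nat_lit 5) (nat_lit 493) (nat_lit 413) (nat_lit 234))) (XT.nd (nat_lit 78) (nat_lit 0) (nat_lit 0) (XT.lf (nat_lit 0) (nat_lit 2658076926) (nat_lit 380) (nat_lit 4254668052) (nat_lit 456) (nat_lit 13348896061)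 (nat_lit 140) (nat_lit 5) (nat_lit 145) (nat_lit 5) (nat_lit 146) (nat_lit 5) (nat_lit 494) (nat_lit 413) (nat_lit 233)) (XT.lf (nat_lit 0) (nat_lit 10685327400) (nat_lit 456) (nat_lit 7431147773) (nat_lit 76) (nat_lit 2409256557) (nat_lit 140) (nat_lit 5) (nat_lit 146) (nat_lit 5) (nat_lit 141) (nat_lit 5) (nat_lit 495) (nat_lit 413) (nat_lit 232))))) (XT.nd (nat_lit 234) (nat_lit 684) (nat_lit 0) (XT.nd (nat_lit 78) (nat_lit 456) (nat_lit 0) (XT.lf (nat_lit 0) (nat_lit 2944423615) (nat_lit 380) (nat_lit 11628820627) (nat_lit 456) (nat_lit 6221065506) (nat_lit 135) (nat_lit 5) (nat_lit 140) (nat_lit 5) (nat_lit 141) (nat_lit 5) (nat_lit 496) (nat_lit 413) (nat_lit 231)) (XT.nd (nat_lit 78) (nat_lit 456) (nat_lit 0) (XT.lf (nat_lit 0) (nat_lit 13617574896) (nat_lit 380) (nat_lit 4963876536) (nat_lit 456) (nat_lit 2485960361) (nat_lit 135) (nat_lit 5) (nat_lit 140) (nat_lit 5) (nat_lit 141) (nat_lit 5) (nat_lit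 497) (nat_lit 413) (nat_lit 230)) (XT.lf (nat_lit 0) (nat_lit 1331976544) (nat_lit 456) (nat_lit 18176839172) (nat_lit 76) (nat_lit 1836481401) (nat_lit 129) (nat_lit 5) (nat_lit 135) (nat_lit 5) (nat_lit 130) (nat_lit 5) (nat_lit 498) (nat_lit 413) (nat_lit 229)))) (XT.nd (nat_lit 156) (nat_lit 304) (nat_lit 0) (XT.nd (nat_lit 78) (nat_lit 380) (nat_lit 0) (XT.lf (nat_lit 0) (nat_lit 5269023742) (nat_lit 456) (nat_lit 7587913039) (nat_lit 76) (nat_lit 8769956878) (nat_lit 129) (nat_lit 5) (nat_lit 135) (nat_lit 5) (nat_lit 130) (nat_lit 5) (nat_lit 499) (nat_lit 413) (nat_lit 228)) (XT.lf (nat_lit 0) (nat_lit 3244949535) (nat_lit 380) (nat_lit 6053882371) (nat_lit 456) (nat_lit 12615012696) (nat_lit 124) (nat_lit 5) (nat_lit 129) (nat_lit 5) (nat_lit 130) (nat_lit 5) (nat_lit 500) (nat_lit 413) (nat_lit 227))) (XT.nd (nat_lit 78) (nat_lit 304) (nat_lit 0) (XT.lf (nat_lit 0) (nat_lit 13459240858) (nat_lit 456)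 (nat_lit 7824727732) (nat_lit 76) (nat_lit 921568696) (nat_lit 124) (nat_lit 5) (nat_lit 130) (nat_lit 5) (nat_lit 125) (nat_lit 5) (nat_lit 501) (nat_lit 413) (nat_lit 226)) (XT.lf (nat_lit 0) (nat_lit 3228323673) (nat_lit 304) (nat_lit 14528724904) (nat_lit 380) (nat_lit 4744934191) (nat_lit 120) (nat_lit 5) (nat_lit 124) (nat_lit 5) (nat_lit 125) (nat_lit 5) (nat_lit 502) (nat_lit 413) (nat_lit 225))))))) (XT.nd (nat_lit 1092) (nat_lit 1140) (nat_lit 0) (XT.nd (nat_lit 546) (nat_lit 912) (nat_lit 0) (XT.nd (nat_lit 234) (nat_lit 684) (nat_lit 0) (XT.nd (nat_lit 78) (nat_lit 456) (nat_lit 0) (XT.lf (nat_lit 0) (nat_lit 14598322382) (nat_lit 304) (nat_lit 7588204796) (nat_lit 380) (nat_lit 616918394) (nat_lit 120) (nat_lit 5) (nat_lit 124) (nat_lit 5) (nat_lit 125) (nat_lit 5) (nat_lit 503) (nat_lit 413) (nat_lit 224)) (XT.nd (nat_lit 78) (nat_lit 0) (nat_lit 0) (XT.lf (nat_lit 0) (nat_lit 3091930151) (nat_lit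 380) (nat_lit 467964125) (nat_lit 456) (nat_lit 19550311946) (nat_lit 114) (nat_lit 5) (nat_lit 119) (nat_lit 5) (nat_lit 120) (nat_lit 5) (nat_lit 504) (nat_lit 413) (nat_lit 223)) (XT.lf (nat_lit 0) (nat_lit 7904869154) (nat_lit 456) (nat_lit 8754538809) (nat_lit 76) (nat_lit 6761757385) (nat_lit 114) (nat_lit 5) (nat_lit 120) (nat_lit 5) (nat_lit 115) (nat_lit 5) (nat_lit 505) (nat_lit 413) (nat_lit 222)))) (XT.nd (nat_lit 156) (nat_lit 380) (nat_lit 0) (XT.nd (nat_lit 78) (nat_lit 0) (nat_lit 0) (XT.lf (nat_lit 0) (nat_lit 2757619866) (nat_lit 304) (nat_lit 9593595545) (nat_lit 380) (nat_lit 11386841305) (nat_lit 110) (nat_lit 5) (nat_lit 114) (nat_lit 5) (nat_lit 115) (nat_lit 5) (nat_lit 506) (nat_lit 413) (nat_lit 221)) (XT.lf (nat_lit 0) (nat_lit 14608836149) (nat_lit 304) (nat_lit 2329932572) (nat_lit 380) (nat_lit 7121474039) (nat_lit 110) (nat_lit 5) (nat_lit 114) (nat_lit 5) (nat_lit 115) (nat_lit 5)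 (nat_lit 507) (nat_lit 413) (nat_lit 220))) (XT.nd (nat_lit 78) (nat_lit 76) (nat_lit 0) (XT.lf (nat_lit 0) (nat_lit 2295564673) (nat_lit 304) (nat_lit 19364026824) (nat_lit 380) (nat_lit 2728453061) (nat_lit 106) (nat_lit 5) (nat_lit 110) (nat_lit 5) (nat_lit 111) (nat_lit 5) (nat_lit 508) (nat_lit 413) (nat_lit 219)) (XT.lf (nat_lit 0) (nat_lit 1802374371) (nat_lit 380) (nat_lit 10352562586) (nat_lit 76) (nat_lit 12565781595) (nat_lit 105) (nat_lit 5) (nat_lit 110) (nat_lit 5) (nat_lit 106) (nat_lit 5) (nat_lit 509) (nat_lit 413) (nat_lit 218))))) (XT.nd (nat_lit 234) (nat_lit 304) (nat_lit 0) (XT.nd (nat_lit 78) (nat_lit 304) (nat_lit 0) (XT.lf (nat_lit 0) (nat_lit 1615673298) (nat_lit 304) (nat_lit 4775915138) (nat_lit 380) (nat_lit 18668013071) (nat_lit 101) (nat_lit 5) (nat_lit 105) (nat_lit 5) (nat_lit 106) (nat_lit 5) (nat_lit 510) (nat_lit 413) (nat_lit 217)) (XT.nd (nat_lit 78) (nat_lit 304) (nat_lit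 0) (XT.lf (nat_lit 0) (nat_lit 11154195296) (nat_lit 380) (nat_lit 11468227162) (nat_lit 76) (nat_lit 2781209711) (nat_lit 101) (nat_lit 5) (nat_lit 106) (nat_lit 5) (nat_lit 102) (nat_lit 5) (nat_lit 511) (nat_lit 413) (nat_lit 216)) (XT.lf (nat_lit 0) (nat_lit 715288789) (nat_lit 304) (nat_lit 15326977435) (nat_lit 380) (nat_lit 9711675157) (nat_lit 97) (nat_lit 5) (nat_lit 101) (nat_lit 5) (nat_lit 102) (nat_lit 5) (nat_lit 512) (nat_lit 413) (nat_lit 215)))) (XT.nd (nat_lit 156) (nat_lit 304) (nat_lit 0) (XT.nd (nat_lit 78) (nat_lit 0) (nat_lit 0) (XT.lf (nat_lit 0) (nat_lit 13288540398) (nat_lit 304) (nat_lit 7810513114) (nat_lit 380) (nat_lit 5010786299) (nat_lit 97) (nat_lit 5) (nat_lit 101) (nat_lit 5) (nat_lit 102) (nat_lit 5) (nat_lit 513) (nat_lit 413) (nat_lit 214)) (XT.lf (nat_lit 0) (nat_lit 26104051649) (nat_lit 304) (nat_lit 147039703) (nat_lit 380) (nat_lit 221884653) (nat_lit 97) (nat_lit 5) (nat_lit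 101) (nat_lit 5) (nat_lit 102) (nat_lit 5) (nat_lit 514) (nat_lit 413) (nat_lit 213))) (XT.nd (nat_lit 78) (nat_lit 0) (nat_lit 0) (XT.lf (nat_lit 0) (nat_lit 4727218892) (nat_lit 304) (nat_lit 14435292416) (nat_lit 76) (nat_lit 7677748598) (nat_lit 93) (nat_lit 5) (nat_lit 97) (nat_lit 5) (nat_lit 94) (nat_lit 5) (nat_lit 515) (nat_lit 413) (nat_lit 212)) (XT.lf (nat_lit 0) (nat_lit 9770025907) (nat_lit 304) (nat_lit 1787101464) (nat_lit 76) (nat_lit 15657780904) (nat_lit 93) (nat_lit 5) (nat_lit 97) (nat_lit 5) (nat_lit 94) (nat_lit 5) (nat_lit 516) (nat_lit 413) (nat_lit 211)))))) (XT.nd (nat_lit 51324) (nat_lit 0) (nat_lit 29032) (XT.nd (nat_lit 234) (nat_lit 608) (nat_lit 0) (XT.nd (nat_lit 78) (nat_lit 228) (nat_lit 0) (XT.lf (nat_lit 0) (nat_lit 11252673428) (nat_lit 304) (nat_lit 3728412525) (nat_lit 380) (nat_lit 12614617652) (nat_lit 89) (nat_lit 5) (nat_lit 93) (nat_lit 5) (nat_lit 94) (nat_lit 5) (nat_lit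 517) (nat_lit 413) (nat_lit 210)) (XT.nd (nat_lit 78) (nat_lit 228) (nat_lit 0) (XT.lf (nat_lit 0) (nat_lit 20330446416) (nat_lit 380) (nat_lit 3443118907) (nat_lit 76) (nat_lit 4209869827) (nat_lit 89) (nat_lit 5) (nat_lit 94) (nat_lit 5) (nat_lit 90) (nat_lit 5) (nat_lit 518) (nat_lit 413) (nat_lit 209)) (XT.lf (nat_lit 0) (nat_lit 9809940129) (nat_lit 228) (nat_lit 16059717421) (nat_lit 304) (nat_lit 2507608365) (nat_lit 86) (nat_lit 5) (nat_lit 89) (nat_lit 5) (nat_lit 90) (nat_lit 5) (nat_lit 519) (nat_lit 413) (nat_lit 208)))) (XT.nd (nat_lit 156) (nat_lit 228) (nat_lit 0) (XT.nd (nat_lit 78) (nat_lit 304) (nat_lit 0) (XT.lf (nat_lit 0) (nat_lit 2722485967) (nat_lit 304) (nat_lit 5430560858) (nat_lit 76) (nat_lit 20625217349) (nat_lit 85) (nat_lit 5) (nat_lit 89) (nat_lit 5) (nat_lit 86) (nat_lit 5) (nat_lit 520) (nat_lit 413) (nat_lit 207)) (XT.lf (nat_lit 0) (nat_lit 8049238057) (nat_lit 304) (nat_lit 21260323)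 (nat_lit 380) (nat_lit 21115516401) (nat_lit 81) (nat_lit 5) (nat_lit 85) (nat_lit 5) (nat_lit 86) (nat_lit 5) (nat_lit 521) (nat_lit 413) (nat_lit 206))) (XT.nd (nat_lit 78) (nat_lit 228) (nat_lit 0) (XT.lf (nat_lit 0) (nat_lit 13610498712) (nat_lit 380) (nat_lit 7791594537) (nat_lit 76) (nat_lit 8198128314) (nat_lit 81) (nat_lit 5) (nat_lit 86) (nat_lit 5) (nat_lit 82) (nat_lit 5) (nat_lit 522) (nat_lit 413) (nat_lit 205)) (XT.lf (nat_lit 0) (nat_lit 5889064664) (nat_lit 228) (nat_lit 13405345754) (nat_lit 304) (nat_lit 10727641516) (nat_lit 78) (nat_lit 5) (nat_lit 81) (nat_lit 5) (nat_lit 82) (nat_lit 5) (nat_lit 523) (nat_lit 413) (nat_lit 204))))) (XT.nd (nat_lit 312) (nat_lit 0) (nat_lit 76) (XT.nd (nat_lit 156) (nat_lit 0) (nat_lit 0) (XT.nd (nat_lit 78) (nat_lit 0) (nat_lit 0) (XT.lf (nat_lit 0) (nat_lit 7817890) (nat_lit 0) (nat_lit 7817890) (nat_lit 1444) (nat_lit 4326839565) (nat_lit 460) (nat_lit 5)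 (nat_lit 460) (nat_lit 3) (nat_lit 479) (nat_lit 3) (nat_lit 414) (nat_lit 414) (nat_lit 312)) (XT.lf (nat_lit 0) (nat_lit 1002010629) (nat_lit 1444) (nat_lit 4670674135) (nat_lit 1520) (nat_lit 3078988924) (nat_lit 460) (nat_lit 5) (nat_lit 479) (nat_lit 3) (nat_lit 480) (nat_lit 5) (nat_lit 415) (nat_lit 414) (nat_lit 311))) (XT.nd (nat_lit 78) (nat_lit 0) (nat_lit 76) (XT.lf (nat_lit 0) (nat_lit 1967425640) (nat_lit 1444) (nat_lit 605223948) (nat_lit 1520) (nat_lit 6247595168) (nat_lit 460) (nat_lit 5) (nat_lit 479) (nat_lit 3) (nat_lit 480) (nat_lit 5) (nat_lit 416) (nat_lit 414) (nat_lit 310)) (XT.lf (nat_lit 0) (nat_lit 2955064439) (nat_lit 1444) (nat_lit 5318657494) (nat_lit 1520) (nat_lit 616425466) (nat_lit 461) (nat_lit 5) (nat_lit 480) (nat_lit 5) (nat_lit 481) (nat_lit 5) (nat_lit 417) (nat_lit 414) (nat_lit 309)))) (XT.nd (nat_lit 156) (nat_lit 0) (nat_lit 76) (XT.nd (nat_lit 78) (nat_lit 0) (nat_lit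 0) (XT.lf (nat_lit 0) (nat_lit 3959694367) (nat_lit 1444) (nat_lit 1151779008) (nat_lit 1520) (nat_lit 3850048054) (nat_lit 461) (nat_lit 5) (nat_lit 480) (nat_lit 5) (nat_lit 481) (nat_lit 5) (nat_lit 418) (nat_lit 414) (nat_lit 308)) (XT.lf (nat_lit 76) (nat_lit 3126411242) (nat_lit 0) (nat_lit 1854885437) (nat_lit 1520) (nat_lit 4053106412) (nat_lit 462) (nat_lit 5) (nat_lit 461) (nat_lit 5) (nat_lit 481) (nat_lit 5) (nat_lit 419) (nat_lit 414) (nat_lit 307))) (XT.nd (nat_lit 78) (nat_lit 0) (nat_lit 0) (XT.lf (nat_lit 0) (nat_lit 6017656714) (nat_lit 1444) (nat_lit 1625872071) (nat_lit 1520) (nat_lit 1465344486) (nat_lit 462) (nat_lit 5) (nat_lit 481) (nat_lit 5) (nat_lit 482) (nat_lit 5) (nat_lit 420) (nat_lit 414) (nat_lit 306)) (XT.lf (nat_lit 76) (nat_lit 2752482469) (nat_lit 0) (nat_lit 4329888768) (nat_lit 1520) (nat_lit 2102326130) (nat_lit 463) (nat_lit 5) (nat_lit 462) (nat_lit 5) (nat_lit 482) (nat_lit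 5) (nat_lit 421) (nat_lit 414) (nat_lit 305))))))))
noncomputable def xc179 : XT := (XT.nd (nat_lit 2184) (nat_lit 10184) (nat_lit 0) (XT.nd (nat_lit 1092) (nat_lit 7220) (nat_lit 0) (XT.nd (nat_lit 546) (nat_lit 1368) (nat_lit 0) (XT.nd (nat_lit 234) (nat_lit 0) (nat_lit 76) (XT.nd (nat_lit 78) (nat_lit 1444) (nat_lit 0) (XT.lf (nat_lit 76) (nat_lit 7227307292) (nat_lit 0) (nat_lit 929811988) (nat_lit 1520) (nat_lit 1105160604) (nat_lit 463) (nat_lit 5) (nat_lit 462) (nat_lit 5) (nat_lit 482) (nat_lit 5) (nat_lit 422) (nat_lit 414) (nat_lit 304)) (XT.nd (nat_lit 78) (nat_lit 1520) (nat_lit 0) (XT.lf (nat_lit 76) (nat_lit 2452512592) (nat_lit 0) (nat_lit 6811574150) (nat_lit 1520) (nat_lit 77129213) (nat_lit 464) (nat_lit 5) (nat_lit 463) (nat_lit 5) (nat_lit 483) (nat_lit 5) (nat_lit 423) (nat_lit 414) (nat_lit 303)) (XT.lf (nat_lit 0) (nat_lit 957128319) (nat_lit 1520) (nat_lit 2390281457) (nat_lit 1596) (nat_lit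 6074242456) (nat_lit 443) (nat_lit 5) (nat_lit 463) (nat_lit 5) (nat_lit 464) (nat_lit 5) (nat_lit 424) (nat_lit 414) (nat_lit 302)))) (XT.nd (nat_lit 156) (nat_lit 0) (nat_lit 0) (XT.nd (nat_lit 78) (nat_lit 0) (nat_lit 0) (XT.lf (nat_lit 0) (nat_lit 2005690142) (nat_lit 1520) (nat_lit 7291901164) (nat_lit 1596) (nat_lit 206218142) (nat_lit 444) (nat_lit 5) (nat_lit 464) (nat_lit 5) (nat_lit 465) (nat_lit 5) (nat_lit 425) (nat_lit 414) (nat_lit 301)) (XT.lf (nat_lit 0) (nat_lit 3092837789) (nat_lit 1520) (nat_lit 2684745611) (nat_lit 1596) (nat_lit 3809689264) (nat_lit 444) (nat_lit 5) (nat_lit 464) (nat_lit 5) (nat_lit 465) (nat_lit 5) (nat_lit 426) (nat_lit 414) (nat_lit 300))) (XT.nd (nat_lit 78) (nat_lit 0) (nat_lit 76) (XT.lf (nat_lit 76) (nat_lit 2027690880) (nat_lit 0) (nat_lit 2166908543) (nat_lit 1596) (nat_lit 5477963151) (nat_lit 445) (nat_lit 5) (nat_lit 444) (nat_lit 5) (nat_lit 465) (nat_lit 5) (nat_lit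 427) (nat_lit 414) (nat_lit 299)) (XT.lf (nat_lit 0) (nat_lit 5326434415) (nat_lit 1520) (nat_lit 2912215832) (nat_lit 1596) (nat_lit 1520761830) (nat_lit 445) (nat_lit 5) (nat_lit 465) (nat_lit 5) (nat_lit 466) (nat_lit 5) (nat_lit 428) (nat_lit 414) (nat_lit 298))))) (XT.nd (nat_lit 234) (nat_lit 1520) (nat_lit 0) (XT.nd (nat_lit 78) (nat_lit 0) (nat_lit 0) (XT.lf (nat_lit 76) (nat_lit 1912269230) (nat_lit 0) (nat_lit 4575853973) (nat_lit 1596) (nat_lit 3359745300) (nat_lit 446) (nat_lit 5) (nat_lit 445) (nat_lit 5) (nat_lit 466) (nat_lit 5) (nat_lit 429) (nat_lit 414) (nat_lit 297)) (XT.nd (nat_lit 78) (nat_lit 0) (nat_lit 76) (XT.lf (nat_lit 76) (nat_lit 6859255729) (nat_lit 0) (nat_lit 814079424) (nat_lit 1596) (nat_lit 2264767108) (nat_lit 446) (nat_lit 5) (nat_lit 445) (nat_lit 5) (nat_lit 466) (nat_lit 5) (nat_lit 430) (nat_lit 414) (nat_lit 296)) (XT.lf (nat_lit 76) (nat_lit 1866262566) (nat_lit 0) (nat_lit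 7028893907) (nat_lit 1596) (nat_lit 1134739837) (nat_lit 447) (nat_lit 5) (nat_lit 446) (nat_lit 5) (nat_lit 467) (nat_lit 5) (nat_lit 431) (nat_lit 414) (nat_lit 295)))) (XT.nd (nat_lit 156) (nat_lit 0) (nat_lit 76) (XT.nd (nat_lit 78) (nat_lit 0) (nat_lit 76) (XT.lf (nat_lit 0) (nat_lit 25148698) (nat_lit 1596) (nat_lit 3190548974) (nat_lit 1672) (nat_lit 6907689526) (nat_lit 425) (nat_lit 5) (nat_lit 446) (nat_lit 5) (nat_lit 447) (nat_lit 5) (nat_lit 432) (nat_lit 414) (nat_lit 294)) (XT.lf (nat_lit 0) (nat_lit 1191507764) (nat_lit 1596) (nat_lit 8337584530) (nat_lit 1672) (nat_lit 689549186) (nat_lit 426) (nat_lit 5) (nat_lit 447) (nat_lit 5) (nat_lit 448) (nat_lit 5) (nat_lit 433) (nat_lit 414) (nat_lit 293))) (XT.nd (nat_lit 78) (nat_lit 0) (nat_lit 0) (XT.lf (nat_lit 0) (nat_lit 2406017220) (nat_lit 1596) (nat_lit 3253310993) (nat_lit 1672) (nat_lit 4655988844) (nat_lit 426) (nat_lit 5) (nat_lit 447) (nat_lit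 5) (nat_lit 448) (nat_lit 5) (nat_lit 434) (nat_lit 414) (nat_lit 292)) (XT.lf (nat_lit 76) (nat_lit 1944578694) (nat_lit 0) (nat_lit 1695192241) (nat_lit 1672) (nat_lit 6774268555) (nat_lit 427) (nat_lit 5) (nat_lit 426) (nat_lit 5) (nat_lit 448) (nat_lit 5) (nat_lit 435) (nat_lit 414) (nat_lit 291)))))) (XT.nd (nat_lit 546) (nat_lit 4104) (nat_lit 0) (XT.nd (nat_lit 234) (nat_lit 3268) (nat_lit 0) (XT.nd (nat_lit 78) (nat_lit 0) (nat_lit 0) (XT.lf (nat_lit 0) (nat_lit 4918035016) (nat_lit 1596) (nat_lit 3253034368) (nat_lit 1672) (nat_lit 2343282464) (nat_lit 427) (nat_lit 5) (nat_lit 448) (nat_lit 5) (nat_lit 449) (nat_lit 5) (nat_lit 436) (nat_lit 414) (nat_lit 290)) (XT.nd (nat_lit 78) (nat_lit 0) (nat_lit 0) (XT.lf (nat_lit 76) (nat_lit 2070045656) (nat_lit 0) (nat_lit 4159439229) (nat_lit 1672) (nat_lit 4387045100) (nat_lit 428) (nat_lit 5) (nat_lit 427) (nat_lit 5) (nat_lit 449) (nat_lit 5) (nat_lit 437)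 (nat_lit 414) (nat_lit 289)) (XT.lf (nat_lit 76) (nat_lit 7530174962) (nat_lit 0) (nat_lit 42018855) (nat_lit 1672) (nat_lit 3148468976) (nat_lit 428) (nat_lit 5) (nat_lit 427) (nat_lit 5) (nat_lit 449) (nat_lit 5) (nat_lit 438) (nat_lit 414) (nat_lit 288)))) (XT.nd (nat_lit 156) (nat_lit 1748) (nat_lit 0) (XT.nd (nat_lit 78) (nat_lit 0) (nat_lit 0) (XT.lf (nat_lit 0) (nat_lit 2261691186) (nat_lit 1596) (nat_lit 6705295857) (nat_lit 1672) (nat_lit 1859398092) (nat_lit 407) (nat_lit 5) (nat_lit 428) (nat_lit 5) (nat_lit 429) (nat_lit 5) (nat_lit 439) (nat_lit 414) (nat_lit 287)) (XT.lf (nat_lit 0) (nat_lit 7852364199) (nat_lit 1596) (nat_lit 2542783853) (nat_lit 1672) (nat_lit 538975686) (nat_lit 407) (nat_lit 5) (nat_lit 428) (nat_lit 5) (nat_lit 429) (nat_lit 5) (nat_lit 440) (nat_lit 414) (nat_lit 286))) (XT.nd (nat_lit 78) (nat_lit 0) (nat_lit 0) (XT.lf (nat_lit 0) (nat_lit 808859544) (nat_lit 1748) (nat_lit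 8529898845) (nat_lit 76) (nat_lit 1704932649) (nat_lit 384) (nat_lit 5) (nat_lit 407) (nat_lit 5) (nat_lit 385) (nat_lit 5) (nat_lit 441) (nat_lit 414) (nat_lit 285)) (XT.lf (nat_lit 0) (nat_lit 2198328193) (nat_lit 1748) (nat_lit 2926280393) (nat_lit 76) (nat_lit 6030342577) (nat_lit 384) (nat_lit 5) (nat_lit 407) (nat_lit 5) (nat_lit 385) (nat_lit 5) (nat_lit 442) (nat_lit 414) (nat_lit 284))))) (XT.nd (nat_lit 234) (nat_lit 1824) (nat_lit 0) (XT.nd (nat_lit 78) (nat_lit 836) (nat_lit 0) (XT.lf (nat_lit 0) (nat_lit 2812843156) (nat_lit 1444) (nat_lit 805545157) (nat_lit 1520) (nat_lit 7650002534) (nat_lit 365) (nat_lit 5) (nat_lit 384) (nat_lit 5) (nat_lit 385) (nat_lit 5) (nat_lit 443) (nat_lit 414) (nat_lit 283)) (XT.nd (nat_lit 78) (nat_lit 836) (nat_lit 0) (XT.lf (nat_lit 0) (nat_lit 5094757273) (nat_lit 1520) (nat_lit 2714490815) (nat_lit 76) (nat_lit 3574303276) (nat_lit 365) (nat_lit 5) (nat_lit 385) (nat_lit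 5) (nat_lit 366) (nat_lit 5) (nat_lit 444) (nat_lit 414) (nat_lit 282)) (XT.lf (nat_lit 0) (nat_lit 3164122132) (nat_lit 836) (nat_lit 3447476240) (nat_lit 912) (nat_lit 4889207818) (nat_lit 354) (nat_lit 5) (nat_lit 365) (nat_lit 5) (nat_lit 366) (nat_lit 5) (nat_lit 445) (nat_lit 414) (nat_lit 281)))) (XT.nd (nat_lit 156) (nat_lit 912) (nat_lit 0) (XT.nd (nat_lit 78) (nat_lit 912) (nat_lit 0) (XT.lf (nat_lit 0) (nat_lit 8168896849) (nat_lit 912) (nat_lit 2443215427) (nat_lit 76) (nat_lit 1008101223) (nat_lit 354) (nat_lit 5) (nat_lit 366) (nat_lit 5) (nat_lit 355) (nat_lit 5) (nat_lit 446) (nat_lit 414) (nat_lit 280)) (XT.lf (nat_lit 0) (nat_lit 3578843125) (nat_lit 912) (nat_lit 6210135612) (nat_lit 988) (nat_lit 1952407074) (nat_lit 342) (nat_lit 5) (nat_lit 354) (nat_lit 5) (nat_lit 355) (nat_lit 5) (nat_lit 447) (nat_lit 414) (nat_lit 279))) (XT.nd (nat_lit 78) (nat_lit 912) (nat_lit 0) (XT.lf (nat_lit 0)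 (nat_lit 9741163688) (nat_lit 912) (nat_lit 1702460687) (nat_lit 988) (nat_lit 421323370) (nat_lit 342) (nat_lit 5) (nat_lit 354) (nat_lit 5) (nat_lit 355) (nat_lit 5) (nat_lit 448) (nat_lit 414) (nat_lit 278)) (XT.lf (nat_lit 0) (nat_lit 1156813278) (nat_lit 912) (nat_lit 7941150982) (nat_lit 76) (nat_lit 2892249873) (nat_lit 330) (nat_lit 5) (nat_lit 342) (nat_lit 5) (nat_lit 331) (nat_lit 5) (nat_lit 449) (nat_lit 414) (nat_lit 277))))))) (XT.nd (nat_lit 1092) (nat_lit 4864) (nat_lit 0) (XT.nd (nat_lit 546) (nat_lit 2888) (nat_lit 0) (XT.nd (nat_lit 234) (nat_lit 1596) (nat_lit 0) (XT.nd (nat_lit 78) (nat_lit 836) (nat_lit 0) (XT.lf (nat_lit 0) (nat_lit 2772636409) (nat_lit 912) (nat_lit 1771140728) (nat_lit 76) (nat_lit 7573926581) (nat_lit 330) (nat_lit 5) (nat_lit 342) (nat_lit 5) (nat_lit 331) (nat_lit 5) (nat_lit 450) (nat_lit 414) (nat_lit 276)) (XT.nd (nat_lit 78) (nat_lit 0) (nat_lit 0) (XT.lf (nat_lit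 0) (nat_lit 4437710345) (nat_lit 912) (nat_lit 7679268174) (nat_lit 76) (nat_lit 130434591) (nat_lit 319) (nat_lit 5) (nat_lit 331) (nat_lit 5) (nat_lit 320) (nat_lit 5) (nat_lit 451) (nat_lit 414) (nat_lit 275)) (XT.lf (nat_lit 0) (nat_lit 6164735672) (nat_lit 912) (nat_lit 1364789468) (nat_lit 76) (nat_lit 4849627078) (nat_lit 319) (nat_lit 5) (nat_lit 331) (nat_lit 5) (nat_lit 320) (nat_lit 5) (nat_lit 452) (nat_lit 414) (nat_lit 274)))) (XT.nd (nat_lit 156) (nat_lit 836) (nat_lit 0) (XT.nd (nat_lit 78) (nat_lit 0) (nat_lit 0) (XT.lf (nat_lit 0) (nat_lit 5130158697) (nat_lit 760) (nat_lit 2816308727) (nat_lit 836) (nat_lit 4566663729) (nat_lit 309) (nat_lit 5) (nat_lit 319) (nat_lit 5) (nat_lit 320) (nat_lit 5) (nat_lit 453) (nat_lit 414) (nat_lit 273)) (XT.lf (nat_lit 0) (nat_lit 9773011329) (nat_lit 836) (nat_lit 902373391) (nat_lit 76) (nat_lit 1974229596) (nat_lit 309) (nat_lit 5) (nat_lit 320) (nat_lit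 5) (nat_lit 310) (nat_lit 5) (nat_lit 454) (nat_lit 414) (nat_lit 272))) (XT.nd (nat_lit 78) (nat_lit 76) (nat_lit 0) (XT.lf (nat_lit 0) (nat_lit 5751596159) (nat_lit 760) (nat_lit 5927768886) (nat_lit 836) (nat_lit 1108604555) (nat_lit 299) (nat_lit 5) (nat_lit 309) (nat_lit 5) (nat_lit 310) (nat_lit 5) (nat_lit 455) (nat_lit 414) (nat_lit 271)) (XT.lf (nat_lit 0) (nat_lit 679096660) (nat_lit 836) (nat_lit 395758475) (nat_lit 76) (nat_lit 11854285270) (nat_lit 298) (nat_lit 5) (nat_lit 309) (nat_lit 5) (nat_lit 299) (nat_lit 5) (nat_lit 456) (nat_lit 414) (nat_lit 270))))) (XT.nd (nat_lit 234) (nat_lit 1444) (nat_lit 0) (XT.nd (nat_lit 78) (nat_lit 760) (nat_lit 0) (XT.lf (nat_lit 0) (nat_lit 2542636448) (nat_lit 760) (nat_lit 6655931240) (nat_lit 76) (nat_lit 3873329380) (nat_lit 289) (nat_lit 5) (nat_lit 299) (nat_lit 5) (nat_lit 290) (nat_lit 5) (nat_lit 457) (nat_lit 414) (nat_lit 269)) (XT.nd (nat_lit 78)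 (nat_lit 0) (nat_lit 0) (XT.lf (nat_lit 0) (nat_lit 133426996) (nat_lit 760) (nat_lit 4308441483) (nat_lit 836) (nat_lit 8775679381) (nat_lit 279) (nat_lit 5) (nat_lit 289) (nat_lit 5) (nat_lit 290) (nat_lit 5) (nat_lit 458) (nat_lit 414) (nat_lit 268)) (XT.lf (nat_lit 0) (nat_lit 6416371398) (nat_lit 836) (nat_lit 6234308798) (nat_lit 76) (nat_lit 714693025) (nat_lit 279) (nat_lit 5) (nat_lit 290) (nat_lit 5) (nat_lit 280) (nat_lit 5) (nat_lit 459) (nat_lit 414) (nat_lit 267)))) (XT.nd (nat_lit 156) (nat_lit 760) (nat_lit 0) (XT.nd (nat_lit 78) (nat_lit 0) (nat_lit 0) (XT.lf (nat_lit 0) (nat_lit 720496371) (nat_lit 684) (nat_lit 7731229622) (nat_lit 760) (nat_lit 5064009005) (nat_lit 270) (nat_lit 5) (nat_lit 279) (nat_lit 5) (nat_lit 280) (nat_lit 5) (nat_lit 460) (nat_lit 414) (nat_lit 266)) (XT.lf (nat_lit 0) (nat_lit 7886070489) (nat_lit 684) (nat_lit 2671852637) (nat_lit 760) (nat_lit 3110585170) (nat_lit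 270) (nat_lit 5) (nat_lit 279) (nat_lit 5) (nat_lit 280) (nat_lit 5) (nat_lit 461) (nat_lit 414) (nat_lit 265))) (XT.nd (nat_lit 78) (nat_lit 76) (nat_lit 0) (XT.lf (nat_lit 0) (nat_lit 1359478224) (nat_lit 684) (nat_lit 11360273122) (nat_lit 760) (nat_lit 1104322430) (nat_lit 261) (nat_lit 5) (nat_lit 270) (nat_lit 5) (nat_lit 271) (nat_lit 5) (nat_lit 462) (nat_lit 414) (nat_lit 264)) (XT.lf (nat_lit 0) (nat_lit 975047622) (nat_lit 760) (nat_lit 5296313606) (nat_lit 76) (nat_lit 7710366853) (nat_lit 260) (nat_lit 5) (nat_lit 270) (nat_lit 5) (nat_lit 261) (nat_lit 5) (nat_lit 463) (nat_lit 414) (nat_lit 263)))))) (XT.nd (nat_lit 546) (nat_lit 2280) (nat_lit 0) (XT.nd (nat_lit 234) (nat_lit 1292) (nat_lit 0) (XT.nd (nat_lit 78) (nat_lit 684) (nat_lit 0) (XT.lf (nat_lit 0) (nat_lit 2021904633) (nat_lit 608) (nat_lit 1061261654) (nat_lit 684) (nat_lit 11059190696) (nat_lit 252) (nat_lit 5) (nat_lit 260) (nat_lit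 5) (nat_lit 261) (nat_lit 5) (nat_lit 464) (nat_lit 414) (nat_lit 262)) (XT.nd (nat_lit 78) (nat_lit 684) (nat_lit 0) (XT.lf (nat_lit 0) (nat_lit 5285772307) (nat_lit 684) (nat_lit 4787824624) (nat_lit 76) (nat_lit 4231561371) (nat_lit 252) (nat_lit 5) (nat_lit 261) (nat_lit 5) (nat_lit 253) (nat_lit 5) (nat_lit 465) (nat_lit 414) (nat_lit 261)) (XT.lf (nat_lit 0) (nat_lit 2707417848) (nat_lit 684) (nat_lit 4838771137) (nat_lit 760) (nat_lit 6924757704) (nat_lit 243) (nat_lit 5) (nat_lit 252) (nat_lit 5) (nat_lit 253) (nat_lit 5) (nat_lit 466) (nat_lit 414) (nat_lit 260)))) (XT.nd (nat_lit 156) (nat_lit 684) (nat_lit 0) (XT.nd (nat_lit 78) (nat_lit 608) (nat_lit 0) (XT.lf (nat_lit 0) (nat_lit 9876679568) (nat_lit 760) (nat_lit 4238051610) (nat_lit 76) (nat_lit 524828445) (nat_lit 243) (nat_lit 5) (nat_lit 253) (nat_lit 5) (nat_lit 244) (nat_lit 5) (nat_lit 467) (nat_lit 414) (nat_lit 259)) (XT.lf (nat_lit 0) (nat_lit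 3438591250) (nat_lit 608) (nat_lit 8859042274) (nat_lit 684) (nat_lit 2513040193) (nat_lit 235) (nat_lit 5) (nat_lit 243) (nat_lit 5) (nat_lit 244) (nat_lit 5) (nat_lit 468) (nat_lit 414) (nat_lit 258))) (XT.nd (nat_lit 78) (nat_lit 684) (nat_lit 0) (XT.lf (nat_lit 0) (nat_lit 11313899614) (nat_lit 608) (nat_lit 3471155860) (nat_lit 684) (nat_lit 199799494) (nat_lit 235) (nat_lit 5) (nat_lit 243) (nat_lit 5) (nat_lit 244) (nat_lit 5) (nat_lit 469) (nat_lit 414) (nat_lit 257)) (XT.lf (nat_lit 0) (nat_lit 2161881673) (nat_lit 684) (nat_lit 10962095430) (nat_lit 76) (nat_lit 2037657913) (nat_lit 226) (nat_lit 5) (nat_lit 235) (nat_lit 5) (nat_lit 227) (nat_lit 5) (nat_lit 470) (nat_lit 414) (nat_lit 256))))) (XT.nd (nat_lit 312) (nat_lit 1140) (nat_lit 0) (XT.nd (nat_lit 156) (nat_lit 608) (nat_lit 0) (XT.nd (nat_lit 78) (nat_lit 532) (nat_lit 0) (XT.lf (nat_lit 0) (nat_lit 4605758005) (nat_lit 684) (nat_lit 3101057584)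 (nat_lit 76) (nat_lit 7634361442) (nat_lit 226) (nat_lit 5) (nat_lit 235) (nat_lit 5) (nat_lit 227) (nat_lit 5) (nat_lit 471) (nat_lit 414) (nat_lit 255)) (XT.lf (nat_lit 0) (nat_lit 4970298460) (nat_lit 532) (nat_lit 2150532292) (nat_lit 608) (nat_lit 8403038165) (nat_lit 219) (nat_lit 5) (nat_lit 226) (nat_lit 5) (nat_lit 227) (nat_lit 5) (nat_lit 472) (nat_lit 414) (nat_lit 254))) (XT.nd (nat_lit 78) (nat_lit 608) (nat_lit 0) (XT.lf (nat_lit 0) (nat_lit 9720137845) (nat_lit 608) (nat_lit 2499850131) (nat_lit 76) (nat_lit 3489553311) (nat_lit 219) (nat_lit 5) (nat_lit 227) (nat_lit 5) (nat_lit 220) (nat_lit 5) (nat_lit 473) (nat_lit 414) (nat_lit 253)) (XT.lf (nat_lit 0) (nat_lit 5764344997) (nat_lit 608) (nat_lit 6649098529) (nat_lit 684) (nat_lit 3484648528) (nat_lit 211) (nat_lit 5) (nat_lit 219) (nat_lit 5) (nat_lit 220) (nat_lit 5) (nat_lit 474) (nat_lit 414) (nat_lit 252)))) (XT.nd (nat_lit 156) (nat_lit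 532) (nat_lit 0) (XT.nd (nat_lit 78) (nat_lit 608) (nat_lit 0) (XT.lf (nat_lit 0) (nat_lit 14215830736) (nat_lit 608) (nat_lit 952016648) (nat_lit 684) (nat_lit 922426908) (nat_lit 211) (nat_lit 5) (nat_lit 219) (nat_lit 5) (nat_lit 220) (nat_lit 5) (nat_lit 475) (nat_lit 414) (nat_lit 251)) (XT.lf (nat_lit 0) (nat_lit 1734270257) (nat_lit 608) (nat_lit 9703270506) (nat_lit 76) (nat_lit 4847236535) (nat_lit 203) (nat_lit 5) (nat_lit 211) (nat_lit 5) (nat_lit 204) (nat_lit 5) (nat_lit 476) (nat_lit 414) (nat_lit 250))) (XT.nd (nat_lit 78) (nat_lit 532) (nat_lit 0) (XT.lf (nat_lit 0) (nat_lit 4441398470) (nat_lit 608) (nat_lit 1275305645) (nat_lit 76) (nat_lit 10766156139) (nat_lit 203) (nat_lit 5) (nat_lit 211) (nat_lit 5) (nat_lit 204) (nat_lit 5) (nat_lit 477) (nat_lit 414) (nat_lit 249)) (XT.lf (nat_lit 0) (nat_lit 7242683780) (nat_lit 608) (nat_lit 9278485666) (nat_lit 76) (nat_lit 162939843) (nat_lit 196) (nat_lit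 5) (nat_lit 204) (nat_lit 5) (nat_lit 197) (nat_lit 5) (nat_lit 478) (nat_lit 414) (nat_lit 248))))))))
noncomputable def xc180 : XT := (XT.nd (nat_lit 2184) (nat_lit 2508) (nat_lit 0) (XT.nd (nat_lit 1092) (nat_lit 2888) (nat_lit 0) (XT.nd (nat_lit 546) (nat_lit 1368) (nat_lit 0) (XT.nd (nat_lit 234) (nat_lit 1520) (nat_lit 0) (XT.nd (nat_lit 78) (nat_lit 456) (nat_lit 0) (XT.lf (nat_lit 0) (nat_lit 10137409531) (nat_lit 608) (nat_lit 661403602) (nat_lit 76) (nat_lit 6089826491) (nat_lit 196) (nat_lit 5) (nat_lit 204) (nat_lit 5) (nat_lit 197) (nat_lit 5) (nat_lit 479) (nat_lit 414) (nat_lit 247)) (XT.nd (nat_lit 78) (nat_lit 0) (nat_lit 0) (XT.lf (nat_lit 0) (nat_lit 8224380013) (nat_lit 456) (nat_lit 4910166658) (nat_lit 532) (nat_lit 3961828085) (nat_lit 190) (nat_lit 5) (nat_lit 196) (nat_lit 5) (nat_lit 197) (nat_lit 5) (nat_lit 480) (nat_lit 414) (nat_lit 246)) (XT.lf (nat_lit 0) (nat_lit 16194413410) (nat_lit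 532) (nat_lit 30069514) (nat_lit 76) (nat_lit 1083730366) (nat_lit 190) (nat_lit 5) (nat_lit 197) (nat_lit 5) (nat_lit 191) (nat_lit 5) (nat_lit 481) (nat_lit 414) (nat_lit 245)))) (XT.nd (nat_lit 156) (nat_lit 456) (nat_lit 0) (XT.nd (nat_lit 78) (nat_lit 456) (nat_lit 0) (XT.lf (nat_lit 0) (nat_lit 1850979897) (nat_lit 608) (nat_lit 8471131472) (nat_lit 76) (nat_lit 7200283244) (nat_lit 182) (nat_lit 5) (nat_lit 190) (nat_lit 5) (nat_lit 183) (nat_lit 5) (nat_lit 482) (nat_lit 414) (nat_lit 244)) (XT.lf (nat_lit 0) (nat_lit 562364744) (nat_lit 456) (nat_lit 4293054205) (nat_lit 532) (nat_lit 12885392000) (nat_lit 176) (nat_lit 5) (nat_lit 182) (nat_lit 5) (nat_lit 183) (nat_lit 5) (nat_lit 483) (nat_lit 414) (nat_lit 243))) (XT.nd (nat_lit 78) (nat_lit 456) (nat_lit 0) (XT.lf (nat_lit 0) (nat_lit 7980708775) (nat_lit 532) (nat_lit 8095018384) (nat_lit 76) (nat_lit 1886657314) (nat_lit 176) (nat_lit 5) (nat_lit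 183) (nat_lit 5) (nat_lit 177) (nat_lit 5) (nat_lit 484) (nat_lit 414) (nat_lit 242)) (XT.lf (nat_lit 0) (nat_lit 1145406293) (nat_lit 456) (nat_lit 10050618217) (nat_lit 532) (nat_lit 6991818572) (nat_lit 170) (nat_lit 5) (nat_lit 176) (nat_lit 5) (nat_lit 177) (nat_lit 5) (nat_lit 485) (nat_lit 414) (nat_lit 241))))) (XT.nd (nat_lit 234) (nat_lit 836) (nat_lit 0) (XT.nd (nat_lit 78) (nat_lit 532) (nat_lit 0) (XT.lf (nat_lit 0) (nat_lit 10669180580) (nat_lit 456) (nat_lit 3852531396) (nat_lit 532) (nat_lit 3895181519) (nat_lit 170) (nat_lit 5) (nat_lit 176) (nat_lit 5) (nat_lit 177) (nat_lit 5) (nat_lit 486) (nat_lit 414) (nat_lit 240)) (XT.nd (nat_lit 78) (nat_lit 76) (nat_lit 0) (XT.lf (nat_lit 0) (nat_lit 1728423594) (nat_lit 456) (nat_lit 16204632220) (nat_lit 532) (nat_lit 717090114) (nat_lit 164) (nat_lit 5) (nat_lit 170) (nat_lit 5) (nat_lit 171) (nat_lit 5) (nat_lit 487) (nat_lit 414) (nat_lit 239)) (XT.lf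 (nat_lit 0) (nat_lit 2561219314) (nat_lit 532) (nat_lit 7441322041) (nat_lit 76) (nat_lit 8883802618) (nat_lit 163) (nat_lit 5) (nat_lit 170) (nat_lit 5) (nat_lit 164) (nat_lit 5) (nat_lit 488) (nat_lit 414) (nat_lit 238)))) (XT.nd (nat_lit 156) (nat_lit 380) (nat_lit 0) (XT.nd (nat_lit 78) (nat_lit 0) (nat_lit 0) (XT.lf (nat_lit 0) (nat_lit 2242410983) (nat_lit 456) (nat_lit 3659726089) (nat_lit 532) (nat_lit 13224904868) (nat_lit 157) (nat_lit 5) (nat_lit 163) (nat_lit 5) (nat_lit 164) (nat_lit 5) (nat_lit 489) (nat_lit 414) (nat_lit 237)) (XT.lf (nat_lit 0) (nat_lit 9370524084) (nat_lit 532) (nat_lit 7180446869) (nat_lit 76) (nat_lit 2820373464) (nat_lit 157) (nat_lit 5) (nat_lit 164) (nat_lit 5) (nat_lit 158) (nat_lit 5) (nat_lit 490) (nat_lit 414) (nat_lit 236))) (XT.nd (nat_lit 78) (nat_lit 0) (nat_lit 0) (XT.lf (nat_lit 0) (nat_lit 2718448294) (nat_lit 380) (nat_lit 10224012191) (nat_lit 456) (nat_lit 6677392325)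 (nat_lit 152) (nat_lit 5) (nat_lit 157) (nat_lit 5) (nat_lit 158) (nat_lit 5) (nat_lit 491) (nat_lit 414) (nat_lit 235)) (XT.lf (nat_lit 0) (nat_lit 12901936240) (nat_lit 380) (nat_lit 3724460524) (nat_lit 456) (nat_lit 3246126814) (nat_lit 152) (nat_lit 5) (nat_lit 157) (nat_lit 5) (nat_lit 158) (nat_lit 5) (nat_lit 492) (nat_lit 414) (nat_lit 234)))))) (XT.nd (nat_lit 546) (nat_lit 1140) (nat_lit 0) (XT.nd (nat_lit 234) (nat_lit 836) (nat_lit 0) (XT.nd (nat_lit 78) (nat_lit 380) (nat_lit 0) (XT.lf (nat_lit 0) (nat_lit 282600015) (nat_lit 532) (nat_lit 16960540382) (nat_lit 76) (nat_lit 2886434425) (nat_lit 145) (nat_lit 5) (nat_lit 152) (nat_lit 5) (nat_lit 146) (nat_lit 5) (nat_lit 493) (nat_lit 414) (nat_lit 233)) (XT.nd (nat_lit 78) (nat_lit 380) (nat_lit 0) (XT.lf (nat_lit 0) (nat_lit 3902760053) (nat_lit 532) (nat_lit 6842040794) (nat_lit 76) (nat_lit 9645253852) (nat_lit 145) (nat_lit 5) (nat_lit 152) (nat_lit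 5) (nat_lit 146) (nat_lit 5) (nat_lit 494) (nat_lit 414) (nat_lit 232)) (XT.lf (nat_lit 0) (nat_lit 3514457384) (nat_lit 380) (nat_lit 4096362813) (nat_lit 456) (nat_lit 13044617207) (nat_lit 140) (nat_lit 5) (nat_lit 145) (nat_lit 5) (nat_lit 146) (nat_lit 5) (nat_lit 495) (nat_lit 414) (nat_lit 231)))) (XT.nd (nat_lit 156) (nat_lit 456) (nat_lit 0) (XT.nd (nat_lit 78) (nat_lit 380) (nat_lit 0) (XT.lf (nat_lit 0) (nat_lit 11449426718) (nat_lit 456) (nat_lit 6782638307) (nat_lit 76) (nat_lit 2692938142) (nat_lit 140) (nat_lit 5) (nat_lit 146) (nat_lit 5) (nat_lit 141) (nat_lit 5) (nat_lit 496) (nat_lit 414) (nat_lit 230)) (XT.lf (nat_lit 0) (nat_lit 3795200217) (nat_lit 380) (nat_lit 11614251129) (nat_lit 456) (nat_lit 5789619026) (nat_lit 135) (nat_lit 5) (nat_lit 140) (nat_lit 5) (nat_lit 141) (nat_lit 5) (nat_lit 497) (nat_lit 414) (nat_lit 229))) (XT.nd (nat_lit 78) (nat_lit 456) (nat_lit 0) (XT.lf (nat_lit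 0) (nat_lit 14666287305) (nat_lit 380) (nat_lit 4820854154) (nat_lit 456) (nat_lit 1990711147) (nat_lit 135) (nat_lit 5) (nat_lit 140) (nat_lit 5) (nat_lit 141) (nat_lit 5) (nat_lit 498) (nat_lit 414) (nat_lit 228)) (XT.lf (nat_lit 0) (nat_lit 1892545420) (nat_lit 456) (nat_lit 17752536781) (nat_lit 76) (nat_lit 2116224852) (nat_lit 129) (nat_lit 5) (nat_lit 135) (nat_lit 5) (nat_lit 130) (nat_lit 5) (nat_lit 499) (nat_lit 414) (nat_lit 227))))) (XT.nd (nat_lit 234) (nat_lit 760) (nat_lit 0) (XT.nd (nat_lit 78) (nat_lit 380) (nat_lit 0) (XT.lf (nat_lit 0) (nat_lit 5897864359) (nat_lit 456) (nat_lit 6967279952) (nat_lit 76) (nat_lit 9183604862) (nat_lit 129) (nat_lit 5) (nat_lit 135) (nat_lit 5) (nat_lit 130) (nat_lit 5) (nat_lit 500) (nat_lit 414) (nat_lit 226)) (XT.nd (nat_lit 78) (nat_lit 0) (nat_lit 0) (XT.lf (nat_lit 0) (nat_lit 4077158351) (nat_lit 380) (nat_lit 5925828295) (nat_lit 456) (nat_lit 12338562309)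 (nat_lit 124) (nat_lit 5) (nat_lit 129) (nat_lit 5) (nat_lit 130) (nat_lit 5) (nat_lit 501) (nat_lit 414) (nat_lit 225)) (XT.lf (nat_lit 0) (nat_lit 14238029234) (nat_lit 456) (nat_lit 7220178330) (nat_lit 76) (nat_lit 1181043517) (nat_lit 124) (nat_lit 5) (nat_lit 130) (nat_lit 5) (nat_lit 125) (nat_lit 5) (nat_lit 502) (nat_lit 414) (nat_lit 224)))) (XT.nd (nat_lit 156) (nat_lit 456) (nat_lit 0) (XT.nd (nat_lit 78) (nat_lit 0) (nat_lit 0) (XT.lf (nat_lit 0) (nat_lit 4048927235) (nat_lit 304) (nat_lit 14567782340) (nat_lit 380) (nat_lit 4325021586) (nat_lit 120) (nat_lit 5) (nat_lit 124) (nat_lit 5) (nat_lit 125) (nat_lit 5) (nat_lit 503) (nat_lit 414) (nat_lit 223)) (XT.lf (nat_lit 0) (nat_lit 15631501662) (nat_lit 304) (nat_lit 7493383537) (nat_lit 380) (nat_lit 124539812) (nat_lit 120) (nat_lit 5) (nat_lit 124) (nat_lit 5) (nat_lit 125) (nat_lit 5) (nat_lit 504) (nat_lit 414) (nat_lit 222))) (XT.nd (nat_lit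 78) (nat_lit 0) (nat_lit 0) (XT.lf (nat_lit 0) (nat_lit 3896872883) (nat_lit 380) (nat_lit 227374883) (nat_lit 456) (nat_lit 19438110192) (nat_lit 114) (nat_lit 5) (nat_lit 119) (nat_lit 5) (nat_lit 120) (nat_lit 5) (nat_lit 505) (nat_lit 414) (nat_lit 221)) (XT.lf (nat_lit 0) (nat_lit 8548043435) (nat_lit 456) (nat_lit 8192831854) (nat_lit 76) (nat_lit 7138826263) (nat_lit 114) (nat_lit 5) (nat_lit 120) (nat_lit 5) (nat_lit 115) (nat_lit 5) (nat_lit 506) (nat_lit 414) (nat_lit 220))))))) (XT.nd (nat_lit 1092) (nat_lit 380) (nat_lit 0) (XT.nd (nat_lit 546) (nat_lit 836) (nat_lit 0) (XT.nd (nat_lit 234) (nat_lit 684) (nat_lit 0) (XT.nd (nat_lit 78) (nat_lit 304) (nat_lit 0) (XT.lf (nat_lit 0) (nat_lit 3544722641) (nat_lit 304) (nat_lit 9533834972) (nat_lit 380) (nat_lit 11124471954) (nat_lit 110) (nat_lit 5) (nat_lit 114) (nat_lit 5) (nat_lit 115) (nat_lit 5) (nat_lit 507) (nat_lit 414) (nat_lit 219)) (XT.nd (nat_lit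 78) (nat_lit 304) (nat_lit 0) (XT.lf (nat_lit 0) (nat_lit 15618611281) (nat_lit 304) (nat_lit 2129832710) (nat_lit 380) (nat_lit 6783407267) (nat_lit 110) (nat_lit 5) (nat_lit 114) (nat_lit 5) (nat_lit 115) (nat_lit 5) (nat_lit 508) (nat_lit 414) (nat_lit 218)) (XT.lf (nat_lit 0) (nat_lit 3062295364) (nat_lit 304) (nat_lit 19498404887) (nat_lit 380) (nat_lit 2305571996) (nat_lit 106) (nat_lit 5) (nat_lit 110) (nat_lit 5) (nat_lit 111) (nat_lit 5) (nat_lit 509) (nat_lit 414) (nat_lit 217)))) (XT.nd (nat_lit 156) (nat_lit 304) (nat_lit 0) (XT.nd (nat_lit 78) (nat_lit 304) (nat_lit 0) (XT.lf (nat_lit 0) (nat_lit 2300371155) (nat_lit 380) (nat_lit 9846621018) (nat_lit 76) (nat_lit 13058733692) (nat_lit 105) (nat_lit 5) (nat_lit 110) (nat_lit 5) (nat_lit 106) (nat_lit 5) (nat_lit 510) (nat_lit 414) (nat_lit 216)) (XT.lf (nat_lit 0) (nat_lit 2356288841) (nat_lit 304) (nat_lit 4620621598) (nat_lit 380) (nat_lit 18574568517)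 (nat_lit 101) (nat_lit 5) (nat_lit 105) (nat_lit 5) (nat_lit 106) (nat_lit 5) (nat_lit 511) (nat_lit 414) (nat_lit 215))) (XT.nd (nat_lit 78) (nat_lit 304) (nat_lit 0) (XT.lf (nat_lit 0) (nat_lit 11827395546) (nat_lit 380) (nat_lit 10995642468) (nat_lit 76) (nat_lit 3079502926) (nat_lit 101) (nat_lit 5) (nat_lit 106) (nat_lit 5) (nat_lit 102) (nat_lit 5) (nat_lit 512) (nat_lit 414) (nat_lit 214)) (XT.lf (nat_lit 0) (nat_lit 1426925715) (nat_lit 304) (nat_lit 15382003903) (nat_lit 380) (nat_lit 9451015851) (nat_lit 97) (nat_lit 5) (nat_lit 101) (nat_lit 5) (nat_lit 102) (nat_lit 5) (nat_lit 513) (nat_lit 414) (nat_lit 213))))) (XT.nd (nat_lit 234) (nat_lit 532) (nat_lit 0) (XT.nd (nat_lit 78) (nat_lit 304) (nat_lit 0) (XT.lf (nat_lit 0) (nat_lit 14237969196) (nat_lit 304) (nat_lit 7720141925) (nat_lit 380) (nat_lit 4665028683) (nat_lit 97) (nat_lit 5) (nat_lit 101) (nat_lit 5) (nat_lit 102) (nat_lit 5) (nat_lit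 514) (nat_lit 414) (nat_lit 212)) (XT.nd (nat_lit 78) (nat_lit 0) (nat_lit 0) (XT.lf (nat_lit 0) (nat_lit 210740604) (nat_lit 304) (nat_lit 26688956879) (nat_lit 76) (nat_lit 93936293) (nat_lit 93) (nat_lit 5) (nat_lit 97) (nat_lit 5) (nat_lit 94) (nat_lit 5) (nat_lit 515) (nat_lit 414) (nat_lit 211)) (XT.lf (nat_lit 0) (nat_lit 5250744189) (nat_lit 304) (nat_lit 14045201924) (nat_lit 76) (nat_lit 8072393057) (nat_lit 93) (nat_lit 5) (nat_lit 97) (nat_lit 5) (nat_lit 94) (nat_lit 5) (nat_lit 516) (nat_lit 414) (nat_lit 210)))) (XT.nd (nat_lit 156) (nat_lit 228) (nat_lit 0) (XT.nd (nat_lit 78) (nat_lit 304) (nat_lit 0) (XT.lf (nat_lit 0) (nat_lit 10385995953) (nat_lit 304) (nat_lit 1157356885) (nat_lit 76) (nat_lit 16207298764) (nat_lit 93) (nat_lit 5) (nat_lit 97) (nat_lit 5) (nat_lit 94) (nat_lit 5) (nat_lit 517) (nat_lit 414) (nat_lit 209)) (XT.lf (nat_lit 0) (nat_lit 12138835303) (nat_lit 304) (nat_lit 3558487789)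 (nat_lit 380) (nat_lit 12441821641) (nat_lit 89) (nat_lit 5) (nat_lit 93) (nat_lit 5) (nat_lit 94) (nat_lit 5) (nat_lit 518) (nat_lit 414) (nat_lit 208))) (XT.nd (nat_lit 78) (nat_lit 228) (nat_lit 0) (XT.lf (nat_lit 0) (nat_lit 21147058120) (nat_lit 380) (nat_lit 2857085266) (nat_lit 76) (nat_lit 4530622534) (nat_lit 89) (nat_lit 5) (nat_lit 94) (nat_lit 5) (nat_lit 90) (nat_lit 5) (nat_lit 519) (nat_lit 414) (nat_lit 207)) (XT.lf (nat_lit 0) (nat_lit 10656726425) (nat_lit 228) (nat_lit 16136511827) (nat_lit 304) (nat_lit 2143314055) (nat_lit 86) (nat_lit 5) (nat_lit 89) (nat_lit 5) (nat_lit 90) (nat_lit 5) (nat_lit 520) (nat_lit 414) (nat_lit 206)))))) (XT.nd (nat_lit 51402) (nat_lit 0) (nat_lit 27436) (XT.nd (nat_lit 51090) (nat_lit 0) (nat_lit 28804) (XT.nd (nat_lit 78) (nat_lit 304) (nat_lit 0) (XT.lf (nat_lit 0) (nat_lit 3177926800) (nat_lit 304) (nat_lit 4895882313) (nat_lit 76) (nat_lit 21271870596) (nat_lit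 85) (nat_lit 5) (nat_lit 89) (nat_lit 5) (nat_lit 86) (nat_lit 5) (nat_lit 521) (nat_lit 414) (nat_lit 205)) (XT.nd (nat_lit 78) (nat_lit 0) (nat_lit 0) (XT.lf (nat_lit 0) (nat_lit 8630615076) (nat_lit 380) (nat_lit 20913810733) (nat_lit 76) (nat_lit 217207756) (nat_lit 81) (nat_lit 5) (nat_lit 86) (nat_lit 5) (nat_lit 82) (nat_lit 5) (nat_lit 522) (nat_lit 414) (nat_lit 204)) (XT.lf (nat_lit 0) (nat_lit 14273735671) (nat_lit 380) (nat_lit 7314523751) (nat_lit 76) (nat_lit 8596021152) (nat_lit 81) (nat_lit 5) (nat_lit 86) (nat_lit 5) (nat_lit 82) (nat_lit 5) (nat_lit 523) (nat_lit 414) (nat_lit 203)))) (XT.nd (nat_lit 156) (nat_lit 0) (nat_lit 0) (XT.nd (nat_lit 78) (nat_lit 0) (nat_lit 0) (XT.lf (nat_lit 0) (nat_lit 479974605) (nat_lit 0) (nat_lit 479974605) (nat_lit 1444) (nat_lit 3449782308) (nat_lit 460) (nat_lit 5) (nat_lit 460) (nat_lit 3) (nat_lit 479) (nat_lit 3) (nat_lit 415) (nat_lit 415) (nat_lit 310))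 (XT.lf (nat_lit 0) (nat_lit 2867023734) (nat_lit 1444) (nat_lit 3794169517) (nat_lit 1520) (nat_lit 2227215786) (nat_lit 460) (nat_lit 5) (nat_lit 479) (nat_lit 3) (nat_lit 480) (nat_lit 5) (nat_lit 416) (nat_lit 415) (nat_lit 309))) (XT.nd (nat_lit 78) (nat_lit 0) (nat_lit 0) (XT.lf (nat_lit 76) (nat_lit 338004662) (nat_lit 0) (nat_lit 3479760994) (nat_lit 1520) (nat_lit 5141292923) (nat_lit 461) (nat_lit 5) (nat_lit 460) (nat_lit 5) (nat_lit 480) (nat_lit 5) (nat_lit 417) (nat_lit 415) (nat_lit 308)) (XT.lf (nat_lit 76) (nat_lit 4591783150) (nat_lit 0) (nat_lit 197709640) (nat_lit 1520) (nat_lit 4241606660) (nat_lit 461) (nat_lit 5) (nat_lit 460) (nat_lit 5) (nat_lit 480) (nat_lit 5) (nat_lit 418) (nat_lit 415) (nat_lit 307))))) (XT.nd (nat_lit 312) (nat_lit 1444) (nat_lit 0) (XT.nd (nat_lit 156) (nat_lit 0) (nat_lit 76) (XT.nd (nat_lit 78) (nat_lit 0) (nat_lit 0) (XT.lf (nat_lit 0) (nat_lit 5778146491) (nat_lit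 1444) (nat_lit 207169484) (nat_lit 1520) (nat_lit 3119332722) (nat_lit 461) (nat_lit 5) (nat_lit 480) (nat_lit 5) (nat_lit 481) (nat_lit 5) (nat_lit 419) (nat_lit 415) (nat_lit 306)) (XT.lf (nat_lit 76) (nat_lit 4150218484) (nat_lit 0) (nat_lit 2642100523) (nat_lit 1520) (nat_lit 2387252065) (nat_lit 462) (nat_lit 5) (nat_lit 461) (nat_lit 5) (nat_lit 481) (nat_lit 5) (nat_lit 420) (nat_lit 415) (nat_lit 305))) (XT.nd (nat_lit 78) (nat_lit 0) (nat_lit 0) (XT.lf (nat_lit 0) (nat_lit 7811074686) (nat_lit 1444) (nat_lit 676360731) (nat_lit 1520) (nat_lit 768887206) (nat_lit 462) (nat_lit 5) (nat_lit 481) (nat_lit 5) (nat_lit 482) (nat_lit 5) (nat_lit 421) (nat_lit 415) (nat_lit 304)) (XT.lf (nat_lit 76) (nat_lit 3783100184) (nat_lit 0) (nat_lit 5087512158) (nat_lit 1520) (nat_lit 463605121) (nat_lit 463) (nat_lit 5) (nat_lit 462) (nat_lit 5) (nat_lit 482) (nat_lit 5) (nat_lit 422) (nat_lit 415) (nat_lit 303)))) (XT.nd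 (nat_lit 156) (nat_lit 0) (nat_lit 76) (XT.nd (nat_lit 78) (nat_lit 0) (nat_lit 76) (XT.lf (nat_lit 0) (nat_lit 513720414) (nat_lit 1520) (nat_lit 1089108728) (nat_lit 1596) (nat_lit 7811124969) (nat_lit 442) (nat_lit 5) (nat_lit 462) (nat_lit 5) (nat_lit 463) (nat_lit 5) (nat_lit 423) (nat_lit 415) (nat_lit 302)) (XT.lf (nat_lit 0) (nat_lit 1518913487) (nat_lit 1520) (nat_lit 6015905455) (nat_lit 1596) (nat_lit 1960130136) (nat_lit 443) (nat_lit 5) (nat_lit 463) (nat_lit 5) (nat_lit 464) (nat_lit 5) (nat_lit 424) (nat_lit 415) (nat_lit 301))) (XT.nd (nat_lit 78) (nat_lit 0) (nat_lit 0) (XT.lf (nat_lit 0) (nat_lit 2541519406) (nat_lit 1520) (nat_lit 1447831021) (nat_lit 1596) (nat_lit 5588282485) (nat_lit 443) (nat_lit 5) (nat_lit 463) (nat_lit 5) (nat_lit 464) (nat_lit 5) (nat_lit 425) (nat_lit 415) (nat_lit 300)) (XT.lf (nat_lit 76) (nat_lit 3241299182) (nat_lit 0) (nat_lit 344065403) (nat_lit 1596) (nat_lit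 6076604943) (nat_lit 444) (nat_lit 5) (nat_lit 443) (nat_lit 5) (nat_lit 464) (nat_lit 5) (nat_lit 426) (nat_lit 415) (nat_lit 299))))))))
noncomputable def xc181 : XT := (XT.nd (nat_lit 2184) (nat_lit 9652) (nat_lit 0) (XT.nd (nat_lit 1092) (nat_lit 7448) (nat_lit 0) (XT.nd (nat_lit 546) (nat_lit 1368) (nat_lit 0) (XT.nd (nat_lit 234) (nat_lit 1444) (nat_lit 0) (XT.nd (nat_lit 78) (nat_lit 0) (nat_lit 0) (XT.lf (nat_lit 0) (nat_lit 4661877623) (nat_lit 1520) (nat_lit 1739124110) (nat_lit 1596) (nat_lit 3346769883) (nat_lit 444) (nat_lit 5) (nat_lit 464) (nat_lit 5) (nat_lit 465) (nat_lit 5) (nat_lit 427) (nat_lit 415) (nat_lit 298)) (XT.nd (nat_lit 78) (nat_lit 0) (nat_lit 76) (XT.lf (nat_lit 76) (nat_lit 3060986661) (nat_lit 0) (nat_lit 2701580760) (nat_lit 1596) (nat_lit 4072683670) (nat_lit 445) (nat_lit 5) (nat_lit 444) (nat_lit 5) (nat_lit 465) (nat_lit 5) (nat_lit 428) (nat_lit 415) (nat_lit 297)) (XT.lf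 (nat_lit 0) (nat_lit 6884812066) (nat_lit 1520) (nat_lit 1963896654) (nat_lit 1596) (nat_lit 1075794605) (nat_lit 445) (nat_lit 5) (nat_lit 465) (nat_lit 5) (nat_lit 466) (nat_lit 5) (nat_lit 429) (nat_lit 415) (nat_lit 296)))) (XT.nd (nat_lit 156) (nat_lit 1520) (nat_lit 0) (XT.nd (nat_lit 78) (nat_lit 0) (nat_lit 0) (XT.lf (nat_lit 76) (nat_lit 2950455981) (nat_lit 0) (nat_lit 5097303304) (nat_lit 1596) (nat_lit 1967429884) (nat_lit 446) (nat_lit 5) (nat_lit 445) (nat_lit 5) (nat_lit 466) (nat_lit 5) (nat_lit 430) (nat_lit 415) (nat_lit 295)) (XT.lf (nat_lit 76) (nat_lit 7976775517) (nat_lit 0) (nat_lit 1251863220) (nat_lit 1596) (nat_lit 879169978) (nat_lit 446) (nat_lit 5) (nat_lit 445) (nat_lit 5) (nat_lit 466) (nat_lit 5) (nat_lit 431) (nat_lit 415) (nat_lit 294))) (XT.nd (nat_lit 78) (nat_lit 0) (nat_lit 0) (XT.lf (nat_lit 0) (nat_lit 246053261) (nat_lit 1596) (nat_lit 7294494208) (nat_lit 1672) (nat_lit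 2661351615) (nat_lit 425) (nat_lit 5) (nat_lit 446) (nat_lit 5) (nat_lit 447) (nat_lit 5) (nat_lit 432) (nat_lit 415) (nat_lit 293)) (XT.lf (nat_lit 0) (nat_lit 1386737881) (nat_lit 1596) (nat_lit 2249558602) (nat_lit 1672) (nat_lit 6661376646) (nat_lit 425) (nat_lit 5) (nat_lit 446) (nat_lit 5) (nat_lit 447) (nat_lit 5) (nat_lit 433) (nat_lit 415) (nat_lit 292))))) (XT.nd (nat_lit 234) (nat_lit 1444) (nat_lit 0) (XT.nd (nat_lit 78) (nat_lit 0) (nat_lit 0) (XT.lf (nat_lit 0) (nat_lit 2553992120) (nat_lit 1596) (nat_lit 7476161598) (nat_lit 1672) (nat_lit 365146245) (nat_lit 426) (nat_lit 5) (nat_lit 447) (nat_lit 5) (nat_lit 448) (nat_lit 5) (nat_lit 434) (nat_lit 415) (nat_lit 291)) (XT.nd (nat_lit 78) (nat_lit 0) (nat_lit 0) (XT.lf (nat_lit 0) (nat_lit 3766543644) (nat_lit 1596) (nat_lit 2310362877) (nat_lit 1672) (nat_lit 4417545949) (nat_lit 426) (nat_lit 5) (nat_lit 447) (nat_lit 5) (nat_lit 448) (nat_lit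 5) (nat_lit 435) (nat_lit 415) (nat_lit 290)) (XT.lf (nat_lit 76) (nat_lit 2984852931) (nat_lit 0) (nat_lit 2020887691) (nat_lit 1672) (nat_lit 5589811460) (nat_lit 427) (nat_lit 5) (nat_lit 426) (nat_lit 5) (nat_lit 448) (nat_lit 5) (nat_lit 436) (nat_lit 415) (nat_lit 289)))) (XT.nd (nat_lit 156) (nat_lit 1520) (nat_lit 0) (XT.nd (nat_lit 78) (nat_lit 0) (nat_lit 0) (XT.lf (nat_lit 0) (nat_lit 6282356268) (nat_lit 1596) (nat_lit 2308246658) (nat_lit 1672) (nat_lit 2107829775) (nat_lit 427) (nat_lit 5) (nat_lit 448) (nat_lit 5) (nat_lit 449) (nat_lit 5) (nat_lit 437) (nat_lit 415) (nat_lit 288)) (XT.lf (nat_lit 76) (nat_lit 3114651228) (nat_lit 0) (nat_lit 4487074621) (nat_lit 1672) (nat_lit 3201312130) (nat_lit 428) (nat_lit 5) (nat_lit 427) (nat_lit 5) (nat_lit 449) (nat_lit 5) (nat_lit 438) (nat_lit 415) (nat_lit 287))) (XT.nd (nat_lit 78) (nat_lit 1520) (nat_lit 0) (XT.lf (nat_lit 76) (nat_lit 8664312440)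 (nat_lit 0) (nat_lit 282512769) (nat_lit 1672) (nat_lit 1962934559) (nat_lit 428) (nat_lit 5) (nat_lit 427) (nat_lit 5) (nat_lit 449) (nat_lit 5) (nat_lit 439) (nat_lit 415) (nat_lit 286)) (XT.lf (nat_lit 0) (nat_lit 3310683849) (nat_lit 1596) (nat_lit 7039837969) (nat_lit 1672) (nat_lit 667471304) (nat_lit 407) (nat_lit 5) (nat_lit 428) (nat_lit 5) (nat_lit 429) (nat_lit 5) (nat_lit 440) (nat_lit 415) (nat_lit 285)))))) (XT.nd (nat_lit 546) (nat_lit 3420) (nat_lit 0) (XT.nd (nat_lit 234) (nat_lit 2280) (nat_lit 0) (XT.nd (nat_lit 78) (nat_lit 1672) (nat_lit 0) (XT.lf (nat_lit 0) (nat_lit 646665417) (nat_lit 1672) (nat_lit 2139140721) (nat_lit 76) (nat_lit 8342483894) (nat_lit 406) (nat_lit 5) (nat_lit 428) (nat_lit 5) (nat_lit 407) (nat_lit 5) (nat_lit 441) (nat_lit 415) (nat_lit 284)) (XT.nd (nat_lit 78) (nat_lit 0) (nat_lit 0) (XT.lf (nat_lit 0) (nat_lit 1996226436) (nat_lit 1748) (nat_lit 7681003802) (nat_lit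 76) (nat_lit 1563123219) (nat_lit 384) (nat_lit 5) (nat_lit 407) (nat_lit 5) (nat_lit 385) (nat_lit 5) (nat_lit 442) (nat_lit 415) (nat_lit 283)) (XT.lf (nat_lit 0) (nat_lit 3390519954) (nat_lit 1748) (nat_lit 1985303041) (nat_lit 76) (nat_lit 5978490524) (nat_lit 384) (nat_lit 5) (nat_lit 407) (nat_lit 5) (nat_lit 385) (nat_lit 5) (nat_lit 443) (nat_lit 415) (nat_lit 282)))) (XT.nd (nat_lit 156) (nat_lit 836) (nat_lit 0) (XT.nd (nat_lit 78) (nat_lit 0) (nat_lit 0) (XT.lf (nat_lit 0) (nat_lit 3862027302) (nat_lit 1444) (nat_lit 960886497) (nat_lit 1520) (nat_lit 6647444687) (nat_lit 365) (nat_lit 5) (nat_lit 384) (nat_lit 5) (nat_lit 385) (nat_lit 5) (nat_lit 444) (nat_lit 415) (nat_lit 281)) (XT.lf (nat_lit 0) (nat_lit 6305724716) (nat_lit 1520) (nat_lit 1771494909) (nat_lit 76) (nat_lit 3511079140) (nat_lit 365) (nat_lit 5) (nat_lit 385) (nat_lit 5) (nat_lit 366) (nat_lit 5) (nat_lit 445) (nat_lit 415) (nat_lit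 280))) (XT.nd (nat_lit 78) (nat_lit 0) (nat_lit 0) (XT.lf (nat_lit 0) (nat_lit 4218129207) (nat_lit 836) (nat_lit 3619459357) (nat_lit 912) (nat_lit 3870630959) (nat_lit 354) (nat_lit 5) (nat_lit 365) (nat_lit 5) (nat_lit 366) (nat_lit 5) (nat_lit 446) (nat_lit 415) (nat_lit 279)) (XT.lf (nat_lit 0) (nat_lit 9403930925) (nat_lit 912) (nat_lit 1497965632) (nat_lit 76) (nat_lit 928574730) (nat_lit 354) (nat_lit 5) (nat_lit 366) (nat_lit 5) (nat_lit 355) (nat_lit 5) (nat_lit 447) (nat_lit 415) (nat_lit 278))))) (XT.nd (nat_lit 234) (nat_lit 1596) (nat_lit 0) (XT.nd (nat_lit 78) (nat_lit 912) (nat_lit 0) (XT.lf (nat_lit 0) (nat_lit 4637993867) (nat_lit 912) (nat_lit 6403819702) (nat_lit 988) (nat_lit 912559480) (nat_lit 342) (nat_lit 5) (nat_lit 354) (nat_lit 5) (nat_lit 355) (nat_lit 5) (nat_lit 448) (nat_lit 415) (nat_lit 277)) (XT.nd (nat_lit 78) (nat_lit 836) (nat_lit 0) (XT.lf (nat_lit 0) (nat_lit 619754863) (nat_lit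 988) (nat_lit 1180715154) (nat_lit 76) (nat_lit 10280282903) (nat_lit 341) (nat_lit 5) (nat_lit 354) (nat_lit 5) (nat_lit 342) (nat_lit 5) (nat_lit 449) (nat_lit 415) (nat_lit 276)) (XT.lf (nat_lit 0) (nat_lit 2209341669) (nat_lit 912) (nat_lit 7102084276) (nat_lit 76) (nat_lit 2897345594) (nat_lit 330) (nat_lit 5) (nat_lit 342) (nat_lit 5) (nat_lit 331) (nat_lit 5) (nat_lit 450) (nat_lit 415) (nat_lit 275)))) (XT.nd (nat_lit 156) (nat_lit 760) (nat_lit 0) (XT.nd (nat_lit 78) (nat_lit 836) (nat_lit 0) (XT.lf (nat_lit 0) (nat_lit 3837297104) (nat_lit 912) (nat_lit 828240282) (nat_lit 76) (nat_lit 7673690136) (nat_lit 330) (nat_lit 5) (nat_lit 342) (nat_lit 5) (nat_lit 331) (nat_lit 5) (nat_lit 451) (nat_lit 415) (nat_lit 274)) (XT.lf (nat_lit 0) (nat_lit 5522039458) (nat_lit 912) (nat_lit 6840263774) (nat_lit 76) (nat_lit 109513199) (nat_lit 319) (nat_lit 5) (nat_lit 331) (nat_lit 5) (nat_lit 320) (nat_lit 5) (nat_lit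 452) (nat_lit 415) (nat_lit 273))) (XT.nd (nat_lit 78) (nat_lit 760) (nat_lit 0) (XT.lf (nat_lit 0) (nat_lit 7264084215) (nat_lit 912) (nat_lit 418958038) (nat_lit 76) (nat_lit 4923550911) (nat_lit 319) (nat_lit 5) (nat_lit 331) (nat_lit 5) (nat_lit 320) (nat_lit 5) (nat_lit 453) (nat_lit 415) (nat_lit 272)) (XT.lf (nat_lit 0) (nat_lit 6199486938) (nat_lit 760) (nat_lit 2869101975) (nat_lit 836) (nat_lit 3674932176) (nat_lit 309) (nat_lit 5) (nat_lit 319) (nat_lit 5) (nat_lit 320) (nat_lit 5) (nat_lit 454) (nat_lit 415) (nat_lit 271))))))) (XT.nd (nat_lit 1092) (nat_lit 4636) (nat_lit 0) (XT.nd (nat_lit 546) (nat_lit 2052) (nat_lit 0) (XT.nd (nat_lit 234) (nat_lit 1444) (nat_lit 0) (XT.nd (nat_lit 78) (nat_lit 760) (nat_lit 0) (XT.lf (nat_lit 0) (nat_lit 47431425) (nat_lit 760) (nat_lit 10865676594) (nat_lit 836) (nat_lit 1970008946) (nat_lit 299) (nat_lit 5) (nat_lit 309) (nat_lit 5) (nat_lit 310) (nat_lit 5)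 (nat_lit 455) (nat_lit 415) (nat_lit 270)) (XT.nd (nat_lit 78) (nat_lit 760) (nat_lit 0) (XT.lf (nat_lit 0) (nat_lit 6827494938) (nat_lit 760) (nat_lit 6017508255) (nat_lit 836) (nat_lit 179499578) (nat_lit 299) (nat_lit 5) (nat_lit 309) (nat_lit 5) (nat_lit 310) (nat_lit 5) (nat_lit 456) (nat_lit 415) (nat_lit 269)) (XT.lf (nat_lit 0) (nat_lit 558471152) (nat_lit 684) (nat_lit 1058226443) (nat_lit 760) (nat_lit 11551982759) (nat_lit 289) (nat_lit 5) (nat_lit 298) (nat_lit 5) (nat_lit 299) (nat_lit 5) (nat_lit 457) (nat_lit 415) (nat_lit 268)))) (XT.nd (nat_lit 156) (nat_lit 684) (nat_lit 0) (XT.nd (nat_lit 78) (nat_lit 760) (nat_lit 0) (XT.lf (nat_lit 0) (nat_lit 3502253761) (nat_lit 760) (nat_lit 5822049613) (nat_lit 76) (nat_lit 3990304893) (nat_lit 289) (nat_lit 5) (nat_lit 299) (nat_lit 5) (nat_lit 290) (nat_lit 5) (nat_lit 458) (nat_lit 415) (nat_lit 267)) (XT.lf (nat_lit 0) (nat_lit 1096733943) (nat_lit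 760) (nat_lit 4331154677) (nat_lit 836) (nat_lit 8035525903) (nat_lit 279) (nat_lit 5) (nat_lit 289) (nat_lit 5) (nat_lit 290) (nat_lit 5) (nat_lit 459) (nat_lit 415) (nat_lit 266))) (XT.nd (nat_lit 78) (nat_lit 684) (nat_lit 0) (XT.lf (nat_lit 0) (nat_lit 7424693697) (nat_lit 836) (nat_lit 5399474676) (nat_lit 76) (nat_lit 790382379) (nat_lit 279) (nat_lit 5) (nat_lit 290) (nat_lit 5) (nat_lit 280) (nat_lit 5) (nat_lit 460) (nat_lit 415) (nat_lit 265)) (XT.lf (nat_lit 0) (nat_lit 1688113963) (nat_lit 684) (nat_lit 7801575475) (nat_lit 760) (nat_lit 4278462036) (nat_lit 270) (nat_lit 5) (nat_lit 279) (nat_lit 5) (nat_lit 280) (nat_lit 5) (nat_lit 461) (nat_lit 415) (nat_lit 264))))) (XT.nd (nat_lit 234) (nat_lit 1292) (nat_lit 0) (XT.nd (nat_lit 78) (nat_lit 760) (nat_lit 0) (XT.lf (nat_lit 0) (nat_lit 8978309217) (nat_lit 684) (nat_lit 2642663475) (nat_lit 760) (nat_lit 2303358492) (nat_lit 270) (nat_lit 5) (nat_lit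 279) (nat_lit 5) (nat_lit 280) (nat_lit 5) (nat_lit 462) (nat_lit 415) (nat_lit 263)) (XT.nd (nat_lit 78) (nat_lit 76) (nat_lit 0) (XT.lf (nat_lit 0) (nat_lit 2331935866) (nat_lit 684) (nat_lit 11484061116) (nat_lit 760) (nat_lit 267221792) (nat_lit 261) (nat_lit 5) (nat_lit 270) (nat_lit 5) (nat_lit 271) (nat_lit 5) (nat_lit 463) (nat_lit 415) (nat_lit 262)) (XT.lf (nat_lit 0) (nat_lit 1825841412) (nat_lit 760) (nat_lit 4463978953) (nat_lit 76) (nat_lit 7954436350) (nat_lit 260) (nat_lit 5) (nat_lit 270) (nat_lit 5) (nat_lit 261) (nat_lit 5) (nat_lit 464) (nat_lit 415) (nat_lit 261)))) (XT.nd (nat_lit 156) (nat_lit 684) (nat_lit 0) (XT.nd (nat_lit 78) (nat_lit 0) (nat_lit 0) (XT.lf (nat_lit 0) (nat_lit 2994430881) (nat_lit 608) (nat_lit 971443444) (nat_lit 684) (nat_lit 10442438246) (nat_lit 252) (nat_lit 5) (nat_lit 260) (nat_lit 5) (nat_lit 261) (nat_lit 5) (nat_lit 465) (nat_lit 415) (nat_lit 260)) (XT.lf (nat_lit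 0) (nat_lit 6197140381) (nat_lit 684) (nat_lit 3953915686) (nat_lit 76) (nat_lit 4423630920) (nat_lit 252) (nat_lit 5) (nat_lit 261) (nat_lit 5) (nat_lit 253) (nat_lit 5) (nat_lit 466) (nat_lit 415) (nat_lit 259))) (XT.nd (nat_lit 78) (nat_lit 0) (nat_lit 0) (XT.lf (nat_lit 0) (nat_lit 3685115415) (nat_lit 684) (nat_lit 4807849160) (nat_lit 760) (nat_lit 6251031629) (nat_lit 243) (nat_lit 5) (nat_lit 252) (nat_lit 5) (nat_lit 253) (nat_lit 5) (nat_lit 467) (nat_lit 415) (nat_lit 258)) (XT.lf (nat_lit 0) (nat_lit 10855272872) (nat_lit 760) (nat_lit 3402136630) (nat_lit 76) (nat_lit 658876607) (nat_lit 243) (nat_lit 5) (nat_lit 253) (nat_lit 5) (nat_lit 244) (nat_lit 5) (nat_lit 468) (nat_lit 415) (nat_lit 257)))))) (XT.nd (nat_lit 546) (nat_lit 2204) (nat_lit 0) (XT.nd (nat_lit 234) (nat_lit 1140) (nat_lit 0) (XT.nd (nat_lit 78) (nat_lit 684) (nat_lit 0) (XT.lf (nat_lit 0) (nat_lit 4421982008) (nat_lit 608) (nat_lit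 8893287316) (nat_lit 684) (nat_lit 1775749390) (nat_lit 235) (nat_lit 5) (nat_lit 243) (nat_lit 5) (nat_lit 244) (nat_lit 5) (nat_lit 469) (nat_lit 415) (nat_lit 256)) (XT.nd (nat_lit 78) (nat_lit 608) (nat_lit 0) (XT.lf (nat_lit 0) (nat_lit 560860394) (nat_lit 684) (nat_lit 2835821774) (nat_lit 76) (nat_lit 11872238772) (nat_lit 234) (nat_lit 5) (nat_lit 243) (nat_lit 5) (nat_lit 235) (nat_lit 5) (nat_lit 470) (nat_lit 415) (nat_lit 255)) (XT.lf (nat_lit 0) (nat_lit 2958976408) (nat_lit 684) (nat_lit 10265572127) (nat_lit 76) (nat_lit 2224832304) (nat_lit 226) (nat_lit 5) (nat_lit 235) (nat_lit 5) (nat_lit 227) (nat_lit 5) (nat_lit 471) (nat_lit 415) (nat_lit 254)))) (XT.nd (nat_lit 156) (nat_lit 608) (nat_lit 0) (XT.nd (nat_lit 78) (nat_lit 532) (nat_lit 0) (XT.lf (nat_lit 0) (nat_lit 5436948754) (nat_lit 684) (nat_lit 2265269705) (nat_lit 76) (nat_lit 7930598899) (nat_lit 226) (nat_lit 5) (nat_lit 235) (nat_lit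 5) (nat_lit 227) (nat_lit 5) (nat_lit 472) (nat_lit 415) (nat_lit 253)) (XT.lf (nat_lit 0) (nat_lit 5961606822) (nat_lit 532) (nat_lit 2032015279) (nat_lit 608) (nat_lit 7825722875) (nat_lit 219) (nat_lit 5) (nat_lit 226) (nat_lit 5) (nat_lit 227) (nat_lit 5) (nat_lit 473) (nat_lit 415) (nat_lit 252))) (XT.nd (nat_lit 78) (nat_lit 608) (nat_lit 0) (XT.lf (nat_lit 0) (nat_lit 10631622443) (nat_lit 608) (nat_lit 1661754028) (nat_lit 76) (nat_lit 3715627902) (nat_lit 219) (nat_lit 5) (nat_lit 227) (nat_lit 5) (nat_lit 220) (nat_lit 5) (nat_lit 474) (nat_lit 415) (nat_lit 251)) (XT.lf (nat_lit 0) (nat_lit 6761882285) (nat_lit 608) (nat_lit 6608579679) (nat_lit 684) (nat_lit 2831038407) (nat_lit 211) (nat_lit 5) (nat_lit 219) (nat_lit 5) (nat_lit 220) (nat_lit 5) (nat_lit 475) (nat_lit 415) (nat_lit 250))))) (XT.nd (nat_lit 312) (nat_lit 1064) (nat_lit 0) (XT.nd (nat_lit 156) (nat_lit 532) (nat_lit 0) (XT.nd (nat_lit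 78) (nat_lit 608) (nat_lit 0) (XT.lf (nat_lit 0) (nat_lit 15365098711) (nat_lit 608) (nat_lit 800958137) (nat_lit 684) (nat_lit 231754768) (nat_lit 211) (nat_lit 5) (nat_lit 219) (nat_lit 5) (nat_lit 220) (nat_lit 5) (nat_lit 476) (nat_lit 415) (nat_lit 249)) (XT.lf (nat_lit 0) (nat_lit 2461845341) (nat_lit 608) (nat_lit 9015433024) (nat_lit 76) (nat_lit 5118979986) (nat_lit 203) (nat_lit 5) (nat_lit 211) (nat_lit 5) (nat_lit 204) (nat_lit 5) (nat_lit 477) (nat_lit 415) (nat_lit 248))) (XT.nd (nat_lit 78) (nat_lit 532) (nat_lit 0) (XT.lf (nat_lit 0) (nat_lit 5209530046) (nat_lit 608) (nat_lit 436201080) (nat_lit 76) (nat_lit 11152850556) (nat_lit 203) (nat_lit 5) (nat_lit 211) (nat_lit 5) (nat_lit 204) (nat_lit 5) (nat_lit 478) (nat_lit 415) (nat_lit 247)) (XT.lf (nat_lit 0) (nat_lit 8060314556) (nat_lit 608) (nat_lit 8592575345) (nat_lit 76) (nat_lit 351103183) (nat_lit 196) (nat_lit 5) (nat_lit 204) (nat_lit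 5) (nat_lit 197) (nat_lit 5) (nat_lit 479) (nat_lit 415) (nat_lit 246)))) (XT.nd (nat_lit 156) (nat_lit 608) (nat_lit 0) (XT.nd (nat_lit 78) (nat_lit 0) (nat_lit 0) (XT.lf (nat_lit 0) (nat_lit 182149438) (nat_lit 456) (nat_lit 10818776311) (nat_lit 532) (nat_lit 6211935182) (nat_lit 190) (nat_lit 5) (nat_lit 196) (nat_lit 5) (nat_lit 197) (nat_lit 5) (nat_lit 480) (nat_lit 415) (nat_lit 245)) (XT.lf (nat_lit 0) (nat_lit 9237638803) (nat_lit 456) (nat_lit 4811761932) (nat_lit 532) (nat_lit 3375528718) (nat_lit 190) (nat_lit 5) (nat_lit 196) (nat_lit 5) (nat_lit 197) (nat_lit 5) (nat_lit 481) (nat_lit 415) (nat_lit 244))) (XT.nd (nat_lit 78) (nat_lit 76) (nat_lit 0) (XT.lf (nat_lit 0) (nat_lit 824125370) (nat_lit 532) (nat_lit 16340154176) (nat_lit 608) (nat_lit 476855379) (nat_lit 183) (nat_lit 5) (nat_lit 190) (nat_lit 5) (nat_lit 191) (nat_lit 5) (nat_lit 482) (nat_lit 415) (nat_lit 243)) (XT.lf (nat_lit 0) (nat_lit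 2526016967) (nat_lit 608) (nat_lit 7793329484) (nat_lit 76) (nat_lit 7540425175) (nat_lit 182) (nat_lit 5) (nat_lit 190) (nat_lit 5) (nat_lit 183) (nat_lit 5) (nat_lit 483) (nat_lit 415) (nat_lit 242))))))))
noncomputable def xc182 : XT := (XT.nd (nat_lit 2184) (nat_lit 1824) (nat_lit 0) (XT.nd (nat_lit 1092) (nat_lit 2660) (nat_lit 0) (XT.nd (nat_lit 546) (nat_lit 1292) (nat_lit 0) (XT.nd (nat_lit 234) (nat_lit 988) (nat_lit 0) (XT.nd (nat_lit 78) (nat_lit 456) (nat_lit 0) (XT.lf (nat_lit 0) (nat_lit 1415262810) (nat_lit 456) (nat_lit 4168236399) (nat_lit 532) (nat_lit 12499204082) (nat_lit 176) (nat_lit 5) (nat_lit 182) (nat_lit 5) (nat_lit 183) (nat_lit 5) (nat_lit 484) (nat_lit 415) (nat_lit 241)) (XT.nd (nat_lit 78) (nat_lit 456) (nat_lit 0) (XT.lf (nat_lit 0) (nat_lit 8760263880) (nat_lit 532) (nat_lit 7420441515) (nat_lit 76) (nat_lit 2128229478) (nat_lit 176) (nat_lit 5) (nat_lit 183) (nat_lit 5) (nat_lit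 177) (nat_lit 5) (nat_lit 485) (nat_lit 415) (nat_lit 240)) (XT.lf (nat_lit 0) (nat_lit 1999288515) (nat_lit 456) (nat_lit 10033836945) (nat_lit 532) (nat_lit 6505918256) (nat_lit 170) (nat_lit 5) (nat_lit 176) (nat_lit 5) (nat_lit 177) (nat_lit 5) (nat_lit 486) (nat_lit 415) (nat_lit 239)))) (XT.nd (nat_lit 156) (nat_lit 532) (nat_lit 0) (XT.nd (nat_lit 78) (nat_lit 456) (nat_lit 0) (XT.lf (nat_lit 0) (nat_lit 11697244679) (nat_lit 456) (nat_lit 3716058851) (nat_lit 532) (nat_lit 3359617809) (nat_lit 170) (nat_lit 5) (nat_lit 176) (nat_lit 5) (nat_lit 177) (nat_lit 5) (nat_lit 487) (nat_lit 415) (nat_lit 238)) (XT.lf (nat_lit 0) (nat_lit 2583164639) (nat_lit 456) (nat_lit 16304606462) (nat_lit 532) (nat_lit 123175407) (nat_lit 164) (nat_lit 5) (nat_lit 170) (nat_lit 5) (nat_lit 171) (nat_lit 5) (nat_lit 488) (nat_lit 415) (nat_lit 237))) (XT.nd (nat_lit 78) (nat_lit 456) (nat_lit 0) (XT.lf (nat_lit 0) (nat_lit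 3200952638) (nat_lit 532) (nat_lit 6777966417) (nat_lit 76) (nat_lit 9273111286) (nat_lit 163) (nat_lit 5) (nat_lit 170) (nat_lit 5) (nat_lit 164) (nat_lit 5) (nat_lit 489) (nat_lit 415) (nat_lit 236)) (XT.lf (nat_lit 0) (nat_lit 3094097965) (nat_lit 456) (nat_lit 3508289927) (nat_lit 532) (nat_lit 12895285693) (nat_lit 157) (nat_lit 5) (nat_lit 163) (nat_lit 5) (nat_lit 164) (nat_lit 5) (nat_lit 490) (nat_lit 415) (nat_lit 235))))) (XT.nd (nat_lit 234) (nat_lit 912) (nat_lit 0) (XT.nd (nat_lit 78) (nat_lit 380) (nat_lit 0) (XT.lf (nat_lit 0) (nat_lit 10130156654) (nat_lit 532) (nat_lit 6522791585) (nat_lit 76) (nat_lit 3094118788) (nat_lit 157) (nat_lit 5) (nat_lit 164) (nat_lit 5) (nat_lit 158) (nat_lit 5) (nat_lit 491) (nat_lit 415) (nat_lit 234)) (XT.nd (nat_lit 78) (nat_lit 0) (nat_lit 0) (XT.lf (nat_lit 0) (nat_lit 3568810006) (nat_lit 380) (nat_lit 10198669849) (nat_lit 456) (nat_lit 6233191867) (nat_lit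 152) (nat_lit 5) (nat_lit 157) (nat_lit 5) (nat_lit 158) (nat_lit 5) (nat_lit 492) (nat_lit 415) (nat_lit 233)) (XT.lf (nat_lit 0) (nat_lit 13940360010) (nat_lit 380) (nat_lit 3573633473) (nat_lit 456) (nat_lit 2744629444) (nat_lit 152) (nat_lit 5) (nat_lit 157) (nat_lit 5) (nat_lit 158) (nat_lit 5) (nat_lit 493) (nat_lit 415) (nat_lit 232)))) (XT.nd (nat_lit 156) (nat_lit 380) (nat_lit 0) (XT.nd (nat_lit 78) (nat_lit 0) (nat_lit 0) (XT.lf (nat_lit 0) (nat_lit 842857306) (nat_lit 532) (nat_lit 16507066630) (nat_lit 76) (nat_lit 3170910228) (nat_lit 145) (nat_lit 5) (nat_lit 152) (nat_lit 5) (nat_lit 146) (nat_lit 5) (nat_lit 494) (nat_lit 415) (nat_lit 231)) (XT.lf (nat_lit 0) (nat_lit 4524545931) (nat_lit 532) (nat_lit 6201739885) (nat_lit 76) (nat_lit 10060460022) (nat_lit 145) (nat_lit 5) (nat_lit 152) (nat_lit 5) (nat_lit 146) (nat_lit 5) (nat_lit 495) (nat_lit 415) (nat_lit 230))) (XT.nd (nat_lit 78) (nat_lit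 0) (nat_lit 0) (XT.lf (nat_lit 0) (nat_lit 4356775482) (nat_lit 380) (nat_lit 3944342934) (nat_lit 456) (nat_lit 12756435372) (nat_lit 140) (nat_lit 5) (nat_lit 145) (nat_lit 5) (nat_lit 146) (nat_lit 5) (nat_lit 496) (nat_lit 415) (nat_lit 229)) (XT.lf (nat_lit 0) (nat_lit 12207435600) (nat_lit 456) (nat_lit 6152112275) (nat_lit 76) (nat_lit 2973148745) (nat_lit 140) (nat_lit 5) (nat_lit 146) (nat_lit 5) (nat_lit 141) (nat_lit 5) (nat_lit 497) (nat_lit 415) (nat_lit 228)))))) (XT.nd (nat_lit 546) (nat_lit 1140) (nat_lit 0) (XT.nd (nat_lit 234) (nat_lit 684) (nat_lit 0) (XT.nd (nat_lit 78) (nat_lit 456) (nat_lit 0) (XT.lf (nat_lit 0) (nat_lit 4632242369) (nat_lit 380) (nat_lit 11608987217) (nat_lit 456) (nat_lit 5371128641) (nat_lit 135) (nat_lit 5) (nat_lit 140) (nat_lit 5) (nat_lit 141) (nat_lit 5) (nat_lit 498) (nat_lit 415) (nat_lit 227)) (XT.nd (nat_lit 78) (nat_lit 456) (nat_lit 0) (XT.lf (nat_lit 0) (nat_lit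 15705826922) (nat_lit 380) (nat_lit 4684380125) (nat_lit 456) (nat_lit 1506718737) (nat_lit 135) (nat_lit 5) (nat_lit 140) (nat_lit 5) (nat_lit 141) (nat_lit 5) (nat_lit 499) (nat_lit 415) (nat_lit 226)) (XT.lf (nat_lit 0) (nat_lit 2443592546) (nat_lit 456) (nat_lit 17350341097) (nat_lit 76) (nat_lit 2392126650) (nat_lit 129) (nat_lit 5) (nat_lit 135) (nat_lit 5) (nat_lit 130) (nat_lit 5) (nat_lit 500) (nat_lit 415) (nat_lit 225)))) (XT.nd (nat_lit 156) (nat_lit 304) (nat_lit 0) (XT.nd (nat_lit 78) (nat_lit 380) (nat_lit 0) (XT.lf (nat_lit 0) (nat_lit 6518955193) (nat_lit 456) (nat_lit 6364227101) (nat_lit 76) (nat_lit 9596274313) (nat_lit 129) (nat_lit 5) (nat_lit 135) (nat_lit 5) (nat_lit 130) (nat_lit 5) (nat_lit 501) (nat_lit 415) (nat_lit 224)) (XT.lf (nat_lit 0) (nat_lit 4896215768) (nat_lit 380) (nat_lit 5804887226) (nat_lit 456) (nat_lit 12077114946) (nat_lit 124) (nat_lit 5) (nat_lit 129) (nat_lit 5) (nat_lit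 130) (nat_lit 5) (nat_lit 502) (nat_lit 415) (nat_lit 223))) (XT.nd (nat_lit 78) (nat_lit 304) (nat_lit 0) (XT.lf (nat_lit 0) (nat_lit 15012604850) (nat_lit 456) (nat_lit 6633090204) (nat_lit 76) (nat_lit 1436347824) (nat_lit 124) (nat_lit 5) (nat_lit 130) (nat_lit 5) (nat_lit 125) (nat_lit 5) (nat_lit 503) (nat_lit 415) (nat_lit 222)) (XT.lf (nat_lit 0) (nat_lit 4856585027) (nat_lit 304) (nat_lit 14617387639) (nat_lit 380) (nat_lit 3916701478) (nat_lit 120) (nat_lit 5) (nat_lit 124) (nat_lit 5) (nat_lit 125) (nat_lit 5) (nat_lit 504) (nat_lit 415) (nat_lit 221))))) (XT.nd (nat_lit 234) (nat_lit 684) (nat_lit 0) (XT.nd (nat_lit 78) (nat_lit 380) (nat_lit 0) (XT.lf (nat_lit 0) (nat_lit 353391184) (nat_lit 380) (nat_lit 7050478437) (nat_lit 76) (nat_lit 16300799704) (nat_lit 119) (nat_lit 5) (nat_lit 124) (nat_lit 5) (nat_lit 120) (nat_lit 5) (nat_lit 505) (nat_lit 415) (nat_lit 220)) (XT.nd (nat_lit 78) (nat_lit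 0) (nat_lit 0) (XT.lf (nat_lit 0) (nat_lit 4680792513) (nat_lit 456) (nat_lit 19334938267) (nat_lit 76) (nat_lit 8211215) (nat_lit 114) (nat_lit 5) (nat_lit 120) (nat_lit 5) (nat_lit 115) (nat_lit 5) (nat_lit 506) (nat_lit 415) (nat_lit 219)) (XT.lf (nat_lit 0) (nat_lit 9185245074) (nat_lit 456) (nat_lit 7648501514) (nat_lit 76) (nat_lit 7514045819) (nat_lit 114) (nat_lit 5) (nat_lit 120) (nat_lit 5) (nat_lit 115) (nat_lit 5) (nat_lit 507) (nat_lit 415) (nat_lit 218)))) (XT.nd (nat_lit 156) (nat_lit 380) (nat_lit 0) (XT.nd (nat_lit 78) (nat_lit 0) (nat_lit 0) (XT.lf (nat_lit 0) (nat_lit 4319144946) (nat_lit 304) (nat_lit 9482650383) (nat_lit 380) (nat_lit 10875886635) (nat_lit 110) (nat_lit 5) (nat_lit 114) (nat_lit 5) (nat_lit 115) (nat_lit 5) (nat_lit 508) (nat_lit 415) (nat_lit 217)) (XT.lf (nat_lit 0) (nat_lit 16620716695) (nat_lit 304) (nat_lit 1935310454) (nat_lit 380) (nat_lit 6457237414) (nat_lit 110) (nat_lit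 5) (nat_lit 114) (nat_lit 5) (nat_lit 115) (nat_lit 5) (nat_lit 509) (nat_lit 415) (nat_lit 216))) (XT.nd (nat_lit 78) (nat_lit 76) (nat_lit 0) (XT.lf (nat_lit 0) (nat_lit 3816370374) (nat_lit 304) (nat_lit 19645291024) (nat_lit 380) (nat_lit 1892773280) (nat_lit 106) (nat_lit 5) (nat_lit 110) (nat_lit 5) (nat_lit 111) (nat_lit 5) (nat_lit 510) (nat_lit 415) (nat_lit 215)) (XT.lf (nat_lit 0) (nat_lit 2790389820) (nat_lit 380) (nat_lit 9358246999) (nat_lit 76) (nat_lit 13552161793) (nat_lit 105) (nat_lit 5) (nat_lit 110) (nat_lit 5) (nat_lit 106) (nat_lit 5) (nat_lit 511) (nat_lit 415) (nat_lit 214))))))) (XT.nd (nat_lit 52026) (nat_lit 0) (nat_lit 26068) (XT.nd (nat_lit 546) (nat_lit 912) (nat_lit 0) (XT.nd (nat_lit 234) (nat_lit 304) (nat_lit 0) (XT.nd (nat_lit 78) (nat_lit 304) (nat_lit 0) (XT.lf (nat_lit 0) (nat_lit 3084212462) (nat_lit 304) (nat_lit 4471961515) (nat_lit 380) (nat_lit 18497381672) (nat_lit 101)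 (nat_lit 5) (nat_lit 105) (nat_lit 5) (nat_lit 106) (nat_lit 5) (nat_lit 512) (nat_lit 415) (nat_lit 213)) (XT.nd (nat_lit 78) (nat_lit 304) (nat_lit 0) (XT.lf (nat_lit 0) (nat_lit 12496581234) (nat_lit 380) (nat_lit 10540863624) (nat_lit 76) (nat_lit 3374338872) (nat_lit 101) (nat_lit 5) (nat_lit 106) (nat_lit 5) (nat_lit 102) (nat_lit 5) (nat_lit 513) (nat_lit 415) (nat_lit 212)) (XT.lf (nat_lit 0) (nat_lit 2125717161) (nat_lit 304) (nat_lit 15447897460) (nat_lit 380) (nat_lit 9202807402) (nat_lit 97) (nat_lit 5) (nat_lit 101) (nat_lit 5) (nat_lit 102) (nat_lit 5) (nat_lit 514) (nat_lit 415) (nat_lit 211)))) (XT.nd (nat_lit 156) (nat_lit 0) (nat_lit 0) (XT.nd (nat_lit 78) (nat_lit 304) (nat_lit 0) (XT.lf (nat_lit 0) (nat_lit 15179839298) (nat_lit 304) (nat_lit 7637538370) (nat_lit 380) (nat_lit 4329673602) (nat_lit 97) (nat_lit 5) (nat_lit 101) (nat_lit 5) (nat_lit 102) (nat_lit 5) (nat_lit 515) (nat_lit 415)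 (nat_lit 210)) (XT.lf (nat_lit 0) (nat_lit 635524944) (nat_lit 304) (nat_lit 26557249409) (nat_lit 76) (nat_lit 332177261) (nat_lit 93) (nat_lit 5) (nat_lit 97) (nat_lit 5) (nat_lit 94) (nat_lit 5) (nat_lit 516) (nat_lit 415) (nat_lit 209))) (XT.nd (nat_lit 78) (nat_lit 0) (nat_lit 0) (XT.lf (nat_lit 0) (nat_lit 5768082139) (nat_lit 304) (nat_lit 13673668111) (nat_lit 76) (nat_lit 8465568606) (nat_lit 93) (nat_lit 5) (nat_lit 97) (nat_lit 5) (nat_lit 94) (nat_lit 5) (nat_lit 517) (nat_lit 415) (nat_lit 208)) (XT.lf (nat_lit 0) (nat_lit 10997954173) (nat_lit 304) (nat_lit 540859070) (nat_lit 76) (nat_lit 16758628747) (nat_lit 93) (nat_lit 5) (nat_lit 97) (nat_lit 5) (nat_lit 94) (nat_lit 5) (nat_lit 518) (nat_lit 415) (nat_lit 207))))) (XT.nd (nat_lit 234) (nat_lit 380) (nat_lit 0) (XT.nd (nat_lit 78) (nat_lit 228) (nat_lit 0) (XT.lf (nat_lit 0) (nat_lit 13017048771) (nat_lit 304) (nat_lit 3394658520) (nat_lit 380)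 (nat_lit 12282076408) (nat_lit 89) (nat_lit 5) (nat_lit 93) (nat_lit 5) (nat_lit 94) (nat_lit 5) (nat_lit 519) (nat_lit 415) (nat_lit 206)) (XT.nd (nat_lit 78) (nat_lit 228) (nat_lit 0) (XT.lf (nat_lit 0) (nat_lit 21964081151) (nat_lit 380) (nat_lit 2284761362) (nat_lit 76) (nat_lit 4848604565) (nat_lit 89) (nat_lit 5) (nat_lit 94) (nat_lit 5) (nat_lit 90) (nat_lit 5) (nat_lit 520) (nat_lit 415) (nat_lit 205)) (XT.lf (nat_lit 0) (nat_lit 11495185342) (nat_lit 228) (nat_lit 16224332469) (nat_lit 304) (nat_lit 1787827321) (nat_lit 86) (nat_lit 5) (nat_lit 89) (nat_lit 5) (nat_lit 90) (nat_lit 5) (nat_lit 521) (nat_lit 415) (nat_lit 204)))) (XT.nd (nat_lit 51090) (nat_lit 0) (nat_lit 28804) (XT.nd (nat_lit 78) (nat_lit 304) (nat_lit 0) (XT.lf (nat_lit 0) (nat_lit 3626905477) (nat_lit 304) (nat_lit 4375489923) (nat_lit 76) (nat_lit 21922364621) (nat_lit 85) (nat_lit 5) (nat_lit 89) (nat_lit 5) (nat_lit 86) (nat_lit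 5) (nat_lit 522) (nat_lit 415) (nat_lit 203)) (XT.lf (nat_lit 0) (nat_lit 9186587167) (nat_lit 380) (nat_lit 20711594128) (nat_lit 76) (nat_lit 450895314) (nat_lit 81) (nat_lit 5) (nat_lit 86) (nat_lit 5) (nat_lit 82) (nat_lit 5) (nat_lit 523) (nat_lit 415) (nat_lit 202))) (XT.nd (nat_lit 78) (nat_lit 0) (nat_lit 0) (XT.lf (nat_lit 0) (nat_lit 943246105) (nat_lit 0) (nat_lit 943246105) (nat_lit 1444) (nat_lit 2592601436) (nat_lit 460) (nat_lit 5) (nat_lit 460) (nat_lit 3) (nat_lit 479) (nat_lit 3) (nat_lit 416) (nat_lit 416) (nat_lit 308)) (XT.lf (nat_lit 0) (nat_lit 4697694555) (nat_lit 1444) (nat_lit 2937797909) (nat_lit 1520) (nat_lit 1393873792) (nat_lit 460) (nat_lit 5) (nat_lit 479) (nat_lit 3) (nat_lit 480) (nat_lit 5) (nat_lit 417) (nat_lit 416) (nat_lit 307)))))) (XT.nd (nat_lit 546) (nat_lit 1368) (nat_lit 0) (XT.nd (nat_lit 234) (nat_lit 1368) (nat_lit 0) (XT.nd (nat_lit 78) (nat_lit 0) (nat_lit 0) (XT.lf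 (nat_lit 76) (nat_lit 1270886498) (nat_lit 0) (nat_lit 4367806631) (nat_lit 1520) (nat_lit 3463337183) (nat_lit 461) (nat_lit 5) (nat_lit 460) (nat_lit 5) (nat_lit 480) (nat_lit 5) (nat_lit 418) (nat_lit 416) (nat_lit 306)) (XT.nd (nat_lit 78) (nat_lit 0) (nat_lit 76) (XT.lf (nat_lit 76) (nat_lit 5591581306) (nat_lit 0) (nat_lit 1004066203) (nat_lit 1520) (nat_lit 2580574481) (nat_lit 461) (nat_lit 5) (nat_lit 460) (nat_lit 5) (nat_lit 480) (nat_lit 5) (nat_lit 419) (nat_lit 416) (nat_lit 305)) (XT.lf (nat_lit 76) (nat_lit 728309297) (nat_lit 0) (nat_lit 6841849510) (nat_lit 1520) (nat_lit 1681787061) (nat_lit 462) (nat_lit 5) (nat_lit 461) (nat_lit 5) (nat_lit 481) (nat_lit 5) (nat_lit 420) (nat_lit 416) (nat_lit 304)))) (XT.nd (nat_lit 156) (nat_lit 0) (nat_lit 0) (XT.nd (nat_lit 78) (nat_lit 1444) (nat_lit 0) (XT.lf (nat_lit 76) (nat_lit 5157174236) (nat_lit 0) (nat_lit 3415931939) (nat_lit 1520) (nat_lit 755915527)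 (nat_lit 462) (nat_lit 5) (nat_lit 461) (nat_lit 5) (nat_lit 481) (nat_lit 5) (nat_lit 421) (nat_lit 416) (nat_lit 303)) (XT.lf (nat_lit 0) (nat_lit 166812051) (nat_lit 1520) (nat_lit 9151750438) (nat_lit 1596) (nat_lit 89451638) (nat_lit 442) (nat_lit 5) (nat_lit 462) (nat_lit 5) (nat_lit 463) (nat_lit 5) (nat_lit 422) (nat_lit 416) (nat_lit 302))) (XT.nd (nat_lit 78) (nat_lit 0) (nat_lit 0) (XT.lf (nat_lit 0) (nat_lit 1127638335) (nat_lit 1520) (nat_lit 4699025892) (nat_lit 1596) (nat_lit 3661242376) (nat_lit 442) (nat_lit 5) (nat_lit 462) (nat_lit 5) (nat_lit 463) (nat_lit 5) (nat_lit 423) (nat_lit 416) (nat_lit 301)) (XT.lf (nat_lit 0) (nat_lit 2087047459) (nat_lit 1520) (nat_lit 169671783) (nat_lit 1596) (nat_lit 7313105504) (nat_lit 442) (nat_lit 5) (nat_lit 462) (nat_lit 5) (nat_lit 463) (nat_lit 5) (nat_lit 424) (nat_lit 416) (nat_lit 300))))) (XT.nd (nat_lit 312) (nat_lit 1444) (nat_lit 0) (XT.nd (nat_lit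 156) (nat_lit 0) (nat_lit 0) (XT.nd (nat_lit 78) (nat_lit 0) (nat_lit 0) (XT.lf (nat_lit 0) (nat_lit 3083849130) (nat_lit 1520) (nat_lit 5165384285) (nat_lit 1596) (nat_lit 1403798601) (nat_lit 443) (nat_lit 5) (nat_lit 463) (nat_lit 5) (nat_lit 464) (nat_lit 5) (nat_lit 425) (nat_lit 416) (nat_lit 299)) (XT.lf (nat_lit 0) (nat_lit 4096817806) (nat_lit 1520) (nat_lit 524984426) (nat_lit 1596) (nat_lit 5116191137) (nat_lit 443) (nat_lit 5) (nat_lit 463) (nat_lit 5) (nat_lit 464) (nat_lit 5) (nat_lit 426) (nat_lit 416) (nat_lit 298))) (XT.nd (nat_lit 78) (nat_lit 0) (nat_lit 76) (XT.lf (nat_lit 76) (nat_lit 4251666517) (nat_lit 0) (nat_lit 886513081) (nat_lit 1596) (nat_lit 4686325951) (nat_lit 444) (nat_lit 5) (nat_lit 443) (nat_lit 5) (nat_lit 464) (nat_lit 5) (nat_lit 427) (nat_lit 416) (nat_lit 297)) (XT.lf (nat_lit 0) (nat_lit 6203772499) (nat_lit 1520) (nat_lit 813394854) (nat_lit 1596) (nat_lit 2895526535)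 (nat_lit 444) (nat_lit 5) (nat_lit 464) (nat_lit 5) (nat_lit 465) (nat_lit 5) (nat_lit 428) (nat_lit 416) (nat_lit 296)))) (XT.nd (nat_lit 156) (nat_lit 1520) (nat_lit 0) (XT.nd (nat_lit 78) (nat_lit 0) (nat_lit 76) (XT.lf (nat_lit 76) (nat_lit 4076398977) (nat_lit 0) (nat_lit 3227867320) (nat_lit 1596) (nat_lit 2698121633) (nat_lit 445) (nat_lit 5) (nat_lit 444) (nat_lit 5) (nat_lit 465) (nat_lit 5) (nat_lit 429) (nat_lit 416) (nat_lit 295)) (XT.lf (nat_lit 0) (nat_lit 8417980205) (nat_lit 1520) (nat_lit 1035697179) (nat_lit 1596) (nat_lit 640387716) (nat_lit 445) (nat_lit 5) (nat_lit 465) (nat_lit 5) (nat_lit 466) (nat_lit 5) (nat_lit 430) (nat_lit 416) (nat_lit 294))) (XT.nd (nat_lit 78) (nat_lit 1596) (nat_lit 0) (XT.lf (nat_lit 76) (nat_lit 3970577526) (nat_lit 0) (nat_lit 5612486828) (nat_lit 1596) (nat_lit 603942725) (nat_lit 446) (nat_lit 5) (nat_lit 445) (nat_lit 5) (nat_lit 466) (nat_lit 5) (nat_lit 431)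 (nat_lit 416) (nat_lit 293)) (XT.lf (nat_lit 0) (nat_lit 472299187) (nat_lit 1596) (nat_lit 1206566684) (nat_lit 1672) (nat_lit 8603109547) (nat_lit 424) (nat_lit 5) (nat_lit 445) (nat_lit 5) (nat_lit 446) (nat_lit 5) (nat_lit 432) (nat_lit 416) (nat_lit 292))))))))
noncomputable def xc183 : XT := (XT.nd (nat_lit 2184) (nat_lit 8816) (nat_lit 0) (XT.nd (nat_lit 1092) (nat_lit 6536) (nat_lit 0) (XT.nd (nat_lit 546) (nat_lit 4560) (nat_lit 0) (XT.nd (nat_lit 234) (nat_lit 0) (nat_lit 76) (XT.nd (nat_lit 78) (nat_lit 0) (nat_lit 0) (XT.lf (nat_lit 0) (nat_lit 1585372571) (nat_lit 1596) (nat_lit 6455284728) (nat_lit 1672) (nat_lit 2337650540) (nat_lit 425) (nat_lit 5) (nat_lit 446) (nat_lit 5) (nat_lit 447) (nat_lit 5) (nat_lit 433) (nat_lit 416) (nat_lit 291)) (XT.nd (nat_lit 78) (nat_lit 0) (nat_lit 76) (XT.lf (nat_lit 0) (nat_lit 2722706211) (nat_lit 1596) (nat_lit 1328766084) (nat_lit 1672) (nat_lit 6425066819)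 (nat_lit 425) (nat_lit 5) (nat_lit 446) (nat_lit 5) (nat_lit 447) (nat_lit 5) (nat_lit 434) (nat_lit 416) (nat_lit 290)) (XT.lf (nat_lit 0) (nat_lit 3891744589) (nat_lit 1596) (nat_lit 6637435481) (nat_lit 1672) (nat_lit 47387726) (nat_lit 426) (nat_lit 5) (nat_lit 447) (nat_lit 5) (nat_lit 448) (nat_lit 5) (nat_lit 435) (nat_lit 416) (nat_lit 289)))) (XT.nd (nat_lit 156) (nat_lit 0) (nat_lit 76) (XT.nd (nat_lit 78) (nat_lit 0) (nat_lit 0) (XT.lf (nat_lit 0) (nat_lit 5103318269) (nat_lit 1596) (nat_lit 1387698224) (nat_lit 1672) (nat_lit 4187209178) (nat_lit 426) (nat_lit 5) (nat_lit 447) (nat_lit 5) (nat_lit 448) (nat_lit 5) (nat_lit 436) (nat_lit 416) (nat_lit 288)) (XT.lf (nat_lit 76) (nat_lit 4007047743) (nat_lit 0) (nat_lit 2341766425) (nat_lit 1672) (nat_lit 4432920199) (nat_lit 427) (nat_lit 5) (nat_lit 426) (nat_lit 5) (nat_lit 448) (nat_lit 5) (nat_lit 437) (nat_lit 416) (nat_lit 287))) (XT.nd (nat_lit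 78) (nat_lit 0) (nat_lit 0) (XT.lf (nat_lit 0) (nat_lit 7624805154) (nat_lit 1596) (nat_lit 1383776838) (nat_lit 1672) (nat_lit 1878630797) (nat_lit 427) (nat_lit 5) (nat_lit 448) (nat_lit 5) (nat_lit 449) (nat_lit 5) (nat_lit 438) (nat_lit 416) (nat_lit 286)) (XT.lf (nat_lit 76) (nat_lit 4141193250) (nat_lit 0) (nat_lit 4811770561) (nat_lit 1672) (nat_lit 2041315042) (nat_lit 428) (nat_lit 5) (nat_lit 427) (nat_lit 5) (nat_lit 449) (nat_lit 5) (nat_lit 439) (nat_lit 416) (nat_lit 285))))) (XT.nd (nat_lit 234) (nat_lit 3116) (nat_lit 0) (XT.nd (nat_lit 78) (nat_lit 1596) (nat_lit 0) (XT.lf (nat_lit 76) (nat_lit 9782940844) (nat_lit 0) (nat_lit 518510522) (nat_lit 1672) (nat_lit 802170378) (nat_lit 428) (nat_lit 5) (nat_lit 427) (nat_lit 5) (nat_lit 449) (nat_lit 5) (nat_lit 440) (nat_lit 416) (nat_lit 284)) (XT.nd (nat_lit 78) (nat_lit 0) (nat_lit 0) (XT.lf (nat_lit 0) (nat_lit 494000982) (nat_lit 1672) (nat_lit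 6875971752) (nat_lit 76) (nat_lit 3844363197) (nat_lit 406) (nat_lit 5) (nat_lit 428) (nat_lit 5) (nat_lit 407) (nat_lit 5) (nat_lit 441) (nat_lit 416) (nat_lit 283)) (XT.lf (nat_lit 0) (nat_lit 1802630712) (nat_lit 1672) (nat_lit 1220096705) (nat_lit 76) (nat_lit 8304495612) (nat_lit 406) (nat_lit 5) (nat_lit 428) (nat_lit 5) (nat_lit 407) (nat_lit 5) (nat_lit 442) (nat_lit 416) (nat_lit 282)))) (XT.nd (nat_lit 156) (nat_lit 1444) (nat_lit 0) (XT.nd (nat_lit 78) (nat_lit 0) (nat_lit 0) (XT.lf (nat_lit 0) (nat_lit 3161861942) (nat_lit 1748) (nat_lit 6854719016) (nat_lit 76) (nat_lit 1425308326) (nat_lit 384) (nat_lit 5) (nat_lit 407) (nat_lit 5) (nat_lit 385) (nat_lit 5) (nat_lit 443) (nat_lit 416) (nat_lit 281)) (XT.lf (nat_lit 0) (nat_lit 4561968566) (nat_lit 1748) (nat_lit 1064318060) (nat_lit 76) (nat_lit 5932298220) (nat_lit 384) (nat_lit 5) (nat_lit 407) (nat_lit 5) (nat_lit 385) (nat_lit 5) (nat_lit 444)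 (nat_lit 416) (nat_lit 280))) (XT.nd (nat_lit 78) (nat_lit 0) (nat_lit 0) (XT.lf (nat_lit 0) (nat_lit 4893638555) (nat_lit 1444) (nat_lit 1113928176) (nat_lit 1520) (nat_lit 5669707405) (nat_lit 365) (nat_lit 5) (nat_lit 384) (nat_lit 5) (nat_lit 385) (nat_lit 5) (nat_lit 445) (nat_lit 416) (nat_lit 279)) (XT.lf (nat_lit 0) (nat_lit 7497844879) (nat_lit 1520) (nat_lit 848364905) (nat_lit 76) (nat_lit 3451821484) (nat_lit 365) (nat_lit 5) (nat_lit 385) (nat_lit 5) (nat_lit 366) (nat_lit 5) (nat_lit 446) (nat_lit 416) (nat_lit 278)))))) (XT.nd (nat_lit 546) (nat_lit 3040) (nat_lit 0) (XT.nd (nat_lit 234) (nat_lit 1672) (nat_lit 0) (XT.nd (nat_lit 78) (nat_lit 988) (nat_lit 0) (XT.lf (nat_lit 0) (nat_lit 5254745378) (nat_lit 836) (nat_lit 3790881215) (nat_lit 912) (nat_lit 2875032222) (nat_lit 354) (nat_lit 5) (nat_lit 365) (nat_lit 5) (nat_lit 366) (nat_lit 5) (nat_lit 447) (nat_lit 416) (nat_lit 277)) (XT.nd (nat_lit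 78) (nat_lit 988) (nat_lit 0) (XT.lf (nat_lit 0) (nat_lit 10622051968) (nat_lit 912) (nat_lit 572413503) (nat_lit 76) (nat_lit 851328734) (nat_lit 354) (nat_lit 5) (nat_lit 366) (nat_lit 5) (nat_lit 355) (nat_lit 5) (nat_lit 448) (nat_lit 416) (nat_lit 276)) (XT.lf (nat_lit 0) (nat_lit 104797524) (nat_lit 988) (nat_lit 6493178657) (nat_lit 76) (nat_lit 5574478156) (nat_lit 341) (nat_lit 5) (nat_lit 354) (nat_lit 5) (nat_lit 342) (nat_lit 5) (nat_lit 449) (nat_lit 416) (nat_lit 275)))) (XT.nd (nat_lit 156) (nat_lit 836) (nat_lit 0) (XT.nd (nat_lit 78) (nat_lit 836) (nat_lit 0) (XT.lf (nat_lit 0) (nat_lit 1635483730) (nat_lit 988) (nat_lit 259736644) (nat_lit 76) (nat_lit 10406434816) (nat_lit 341) (nat_lit 5) (nat_lit 354) (nat_lit 5) (nat_lit 342) (nat_lit 5) (nat_lit 450) (nat_lit 416) (nat_lit 274)) (XT.lf (nat_lit 0) (nat_lit 3242948077) (nat_lit 912) (nat_lit 6284985510) (nat_lit 76) (nat_lit 2904591548) (nat_lit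 330) (nat_lit 5) (nat_lit 342) (nat_lit 5) (nat_lit 331) (nat_lit 5) (nat_lit 451) (nat_lit 416) (nat_lit 273))) (XT.nd (nat_lit 78) (nat_lit 0) (nat_lit 0) (XT.lf (nat_lit 0) (nat_lit 96798213) (nat_lit 836) (nat_lit 4787892501) (nat_lit 912) (nat_lit 7681287381) (nat_lit 319) (nat_lit 5) (nat_lit 330) (nat_lit 5) (nat_lit 331) (nat_lit 5) (nat_lit 452) (nat_lit 416) (nat_lit 272)) (XT.lf (nat_lit 0) (nat_lit 6589395766) (nat_lit 912) (nat_lit 6023022756) (nat_lit 76) (nat_lit 89087081) (nat_lit 319) (nat_lit 5) (nat_lit 331) (nat_lit 5) (nat_lit 320) (nat_lit 5) (nat_lit 453) (nat_lit 416) (nat_lit 271))))) (XT.nd (nat_lit 234) (nat_lit 1520) (nat_lit 0) (XT.nd (nat_lit 78) (nat_lit 760) (nat_lit 0) (XT.lf (nat_lit 0) (nat_lit 514753386) (nat_lit 760) (nat_lit 7836107102) (nat_lit 836) (nat_lit 4488437739) (nat_lit 309) (nat_lit 5) (nat_lit 319) (nat_lit 5) (nat_lit 320) (nat_lit 5) (nat_lit 454) (nat_lit 416)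 (nat_lit 270)) (XT.nd (nat_lit 78) (nat_lit 760) (nat_lit 0) (XT.lf (nat_lit 0) (nat_lit 7252662631) (nat_lit 760) (nat_lit 2923088275) (nat_lit 836) (nat_lit 2803539597) (nat_lit 309) (nat_lit 5) (nat_lit 319) (nat_lit 5) (nat_lit 320) (nat_lit 5) (nat_lit 455) (nat_lit 416) (nat_lit 269)) (XT.lf (nat_lit 0) (nat_lit 990406383) (nat_lit 760) (nat_lit 11054739137) (nat_lit 836) (nat_lit 1076784549) (nat_lit 299) (nat_lit 5) (nat_lit 309) (nat_lit 5) (nat_lit 310) (nat_lit 5) (nat_lit 456) (nat_lit 416) (nat_lit 268)))) (XT.nd (nat_lit 156) (nat_lit 760) (nat_lit 0) (XT.nd (nat_lit 78) (nat_lit 684) (nat_lit 0) (XT.lf (nat_lit 0) (nat_lit 721657797) (nat_lit 836) (nat_lit 5383660871) (nat_lit 76) (nat_lit 7161099560) (nat_lit 298) (nat_lit 5) (nat_lit 309) (nat_lit 5) (nat_lit 299) (nat_lit 5) (nat_lit 457) (nat_lit 416) (nat_lit 267)) (XT.lf (nat_lit 0) (nat_lit 1499580413) (nat_lit 684) (nat_lit 1040141974) (nat_lit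 760) (nat_lit 10873977120) (nat_lit 289) (nat_lit 5) (nat_lit 298) (nat_lit 5) (nat_lit 299) (nat_lit 5) (nat_lit 458) (nat_lit 416) (nat_lit 266))) (XT.nd (nat_lit 78) (nat_lit 760) (nat_lit 0) (XT.lf (nat_lit 0) (nat_lit 4445774983) (nat_lit 760) (nat_lit 5009040153) (nat_lit 76) (nat_lit 4108085736) (nat_lit 289) (nat_lit 5) (nat_lit 299) (nat_lit 5) (nat_lit 290) (nat_lit 5) (nat_lit 459) (nat_lit 416) (nat_lit 265)) (XT.lf (nat_lit 0) (nat_lit 2042004270) (nat_lit 760) (nat_lit 4356786195) (nat_lit 836) (nat_lit 7316125824) (nat_lit 279) (nat_lit 5) (nat_lit 289) (nat_lit 5) (nat_lit 290) (nat_lit 5) (nat_lit 460) (nat_lit 416) (nat_lit 264))))))) (XT.nd (nat_lit 1092) (nat_lit 4256) (nat_lit 0) (XT.nd (nat_lit 546) (nat_lit 2508) (nat_lit 0) (XT.nd (nat_lit 234) (nat_lit 1368) (nat_lit 0) (XT.nd (nat_lit 78) (nat_lit 684) (nat_lit 0) (XT.lf (nat_lit 0) (nat_lit 8419011169) (nat_lit 836) (nat_lit 4585203214)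 (nat_lit 76) (nat_lit 865201458) (nat_lit 279) (nat_lit 5) (nat_lit 290) (nat_lit 5) (nat_lit 280) (nat_lit 5) (nat_lit 461) (nat_lit 416) (nat_lit 263)) (XT.nd (nat_lit 78) (nat_lit 0) (nat_lit 0) (XT.lf (nat_lit 0) (nat_lit 2638069692) (nat_lit 684) (nat_lit 7876600892) (nat_lit 760) (nat_lit 3511640708) (nat_lit 270) (nat_lit 5) (nat_lit 279) (nat_lit 5) (nat_lit 280) (nat_lit 5) (nat_lit 462) (nat_lit 416) (nat_lit 262)) (XT.lf (nat_lit 0) (nat_lit 10056104273) (nat_lit 684) (nat_lit 2616099006) (nat_lit 760) (nat_lit 1513748633) (nat_lit 270) (nat_lit 5) (nat_lit 279) (nat_lit 5) (nat_lit 280) (nat_lit 5) (nat_lit 463) (nat_lit 416) (nat_lit 261)))) (XT.nd (nat_lit 156) (nat_lit 608) (nat_lit 0) (XT.nd (nat_lit 78) (nat_lit 0) (nat_lit 0) (XT.lf (nat_lit 0) (nat_lit 546001504) (nat_lit 760) (nat_lit 11064675234) (nat_lit 76) (nat_lit 2737471288) (nat_lit 260) (nat_lit 5) (nat_lit 270) (nat_lit 5) (nat_lit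 261) (nat_lit 5) (nat_lit 464) (nat_lit 416) (nat_lit 260)) (XT.lf (nat_lit 0) (nat_lit 2661370963) (nat_lit 760) (nat_lit 3651431423) (nat_lit 76) (nat_lit 8199897780) (nat_lit 260) (nat_lit 5) (nat_lit 270) (nat_lit 5) (nat_lit 261) (nat_lit 5) (nat_lit 465) (nat_lit 416) (nat_lit 259))) (XT.nd (nat_lit 78) (nat_lit 0) (nat_lit 0) (XT.lf (nat_lit 0) (nat_lit 3950213535) (nat_lit 608) (nat_lit 884140822) (nat_lit 684) (nat_lit 9845888834) (nat_lit 252) (nat_lit 5) (nat_lit 260) (nat_lit 5) (nat_lit 261) (nat_lit 5) (nat_lit 466) (nat_lit 416) (nat_lit 258)) (XT.lf (nat_lit 0) (nat_lit 7095451342) (nat_lit 684) (nat_lit 3139428610) (nat_lit 76) (nat_lit 4615369899) (nat_lit 252) (nat_lit 5) (nat_lit 261) (nat_lit 5) (nat_lit 253) (nat_lit 5) (nat_lit 467) (nat_lit 416) (nat_lit 257))))) (XT.nd (nat_lit 234) (nat_lit 1216) (nat_lit 0) (XT.nd (nat_lit 78) (nat_lit 608) (nat_lit 0) (XT.lf (nat_lit 0) (nat_lit 4646504393)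 (nat_lit 684) (nat_lit 4781267389) (nat_lit 760) (nat_lit 5595370574) (nat_lit 243) (nat_lit 5) (nat_lit 252) (nat_lit 5) (nat_lit 253) (nat_lit 5) (nat_lit 468) (nat_lit 416) (nat_lit 256)) (XT.nd (nat_lit 78) (nat_lit 608) (nat_lit 0) (XT.lf (nat_lit 0) (nat_lit 11823108542) (nat_lit 760) (nat_lit 2585254322) (nat_lit 76) (nat_lit 790808074) (nat_lit 243) (nat_lit 5) (nat_lit 253) (nat_lit 5) (nat_lit 244) (nat_lit 5) (nat_lit 469) (nat_lit 416) (nat_lit 255)) (XT.lf (nat_lit 0) (nat_lit 5389524813) (nat_lit 608) (nat_lit 8933767630) (nat_lit 684) (nat_lit 1054294360) (nat_lit 235) (nat_lit 5) (nat_lit 243) (nat_lit 5) (nat_lit 244) (nat_lit 5) (nat_lit 470) (nat_lit 416) (nat_lit 254)))) (XT.nd (nat_lit 156) (nat_lit 532) (nat_lit 0) (XT.nd (nat_lit 78) (nat_lit 608) (nat_lit 0) (XT.lf (nat_lit 0) (nat_lit 1304471935) (nat_lit 684) (nat_lit 2020537525) (nat_lit 76) (nat_lit 12234240310) (nat_lit 234) (nat_lit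 5) (nat_lit 243) (nat_lit 5) (nat_lit 235) (nat_lit 5) (nat_lit 471) (nat_lit 416) (nat_lit 253)) (XT.lf (nat_lit 0) (nat_lit 3742739848) (nat_lit 684) (nat_lit 9590678637) (nat_lit 76) (nat_lit 2410064468) (nat_lit 226) (nat_lit 5) (nat_lit 235) (nat_lit 5) (nat_lit 227) (nat_lit 5) (nat_lit 472) (nat_lit 416) (nat_lit 252))) (XT.nd (nat_lit 78) (nat_lit 532) (nat_lit 0) (XT.lf (nat_lit 0) (nat_lit 6256064113) (nat_lit 684) (nat_lit 1447629087) (nat_lit 76) (nat_lit 8227186875) (nat_lit 226) (nat_lit 5) (nat_lit 235) (nat_lit 5) (nat_lit 227) (nat_lit 5) (nat_lit 473) (nat_lit 416) (nat_lit 251)) (XT.lf (nat_lit 0) (nat_lit 6938107695) (nat_lit 532) (nat_lit 1917400241) (nat_lit 608) (nat_lit 7265805140) (nat_lit 219) (nat_lit 5) (nat_lit 226) (nat_lit 5) (nat_lit 227) (nat_lit 5) (nat_lit 474) (nat_lit 416) (nat_lit 250)))))) (XT.nd (nat_lit 546) (nat_lit 2052) (nat_lit 0) (XT.nd (nat_lit 234) (nat_lit 1520)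 (nat_lit 0) (XT.nd (nat_lit 78) (nat_lit 684) (nat_lit 0) (XT.lf (nat_lit 0) (nat_lit 11533491571) (nat_lit 608) (nat_lit 841381740) (nat_lit 76) (nat_lit 3940155305) (nat_lit 219) (nat_lit 5) (nat_lit 227) (nat_lit 5) (nat_lit 220) (nat_lit 5) (nat_lit 475) (nat_lit 416) (nat_lit 249)) (XT.nd (nat_lit 78) (nat_lit 76) (nat_lit 0) (XT.lf (nat_lit 0) (nat_lit 7745111461) (nat_lit 608) (nat_lit 6573987700) (nat_lit 684) (nat_lit 2192442825) (nat_lit 211) (nat_lit 5) (nat_lit 219) (nat_lit 5) (nat_lit 220) (nat_lit 5) (nat_lit 476) (nat_lit 416) (nat_lit 248)) (XT.lf (nat_lit 0) (nat_lit 439355983) (nat_lit 684) (nat_lit 211179308) (nat_lit 76) (nat_lit 16061460637) (nat_lit 210) (nat_lit 5) (nat_lit 219) (nat_lit 5) (nat_lit 211) (nat_lit 5) (nat_lit 477) (nat_lit 416) (nat_lit 247)))) (XT.nd (nat_lit 156) (nat_lit 456) (nat_lit 0) (XT.nd (nat_lit 78) (nat_lit 532) (nat_lit 0) (XT.lf (nat_lit 0) (nat_lit 3177066176)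 (nat_lit 608) (nat_lit 8348084156) (nat_lit 76) (nat_lit 5389370658) (nat_lit 203) (nat_lit 5) (nat_lit 211) (nat_lit 5) (nat_lit 204) (nat_lit 5) (nat_lit 478) (nat_lit 416) (nat_lit 246)) (XT.lf (nat_lit 0) (nat_lit 391242911) (nat_lit 532) (nat_lit 5577943364) (nat_lit 608) (nat_lit 11151921602) (nat_lit 196) (nat_lit 5) (nat_lit 203) (nat_lit 5) (nat_lit 204) (nat_lit 5) (nat_lit 479) (nat_lit 416) (nat_lit 245))) (XT.nd (nat_lit 78) (nat_lit 456) (nat_lit 0) (XT.lf (nat_lit 0) (nat_lit 8868173192) (nat_lit 608) (nat_lit 7926787449) (nat_lit 76) (nat_lit 535849722) (nat_lit 196) (nat_lit 5) (nat_lit 204) (nat_lit 5) (nat_lit 197) (nat_lit 5) (nat_lit 480) (nat_lit 416) (nat_lit 244)) (XT.lf (nat_lit 0) (nat_lit 1017921043) (nat_lit 456) (nat_lit 10842398839) (nat_lit 532) (nat_lit 5683687681) (nat_lit 190) (nat_lit 5) (nat_lit 196) (nat_lit 5) (nat_lit 197) (nat_lit 5) (nat_lit 481) (nat_lit 416) (nat_lit 243)))))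 (XT.nd (nat_lit 312) (nat_lit 988) (nat_lit 0) (XT.nd (nat_lit 156) (nat_lit 456) (nat_lit 0) (XT.nd (nat_lit 78) (nat_lit 608) (nat_lit 0) (XT.lf (nat_lit 0) (nat_lit 10238203948) (nat_lit 456) (nat_lit 4719023643) (nat_lit 532) (nat_lit 2803346935) (nat_lit 190) (nat_lit 5) (nat_lit 196) (nat_lit 5) (nat_lit 197) (nat_lit 5) (nat_lit 482) (nat_lit 416) (nat_lit 242)) (XT.lf (nat_lit 0) (nat_lit 145493963) (nat_lit 608) (nat_lit 16319579395) (nat_lit 76) (nat_lit 1516132839) (nat_lit 182) (nat_lit 5) (nat_lit 190) (nat_lit 5) (nat_lit 183) (nat_lit 5) (nat_lit 483) (nat_lit 416) (nat_lit 241))) (XT.nd (nat_lit 78) (nat_lit 456) (nat_lit 0) (XT.lf (nat_lit 0) (nat_lit 3189779783) (nat_lit 608) (nat_lit 7134870222) (nat_lit 76) (nat_lit 7879753735) (nat_lit 182) (nat_lit 5) (nat_lit 190) (nat_lit 5) (nat_lit 183) (nat_lit 5) (nat_lit 484) (nat_lit 416) (nat_lit 240)) (XT.lf (nat_lit 0) (nat_lit 2252536511) (nat_lit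 456) (nat_lit 4049103155) (nat_lit 532) (nat_lit 12130295663) (nat_lit 176) (nat_lit 5) (nat_lit 182) (nat_lit 5) (nat_lit 183) (nat_lit 5) (nat_lit 485) (nat_lit 416) (nat_lit 239)))) (XT.nd (nat_lit 156) (nat_lit 532) (nat_lit 0) (XT.nd (nat_lit 78) (nat_lit 456) (nat_lit 0) (XT.lf (nat_lit 0) (nat_lit 9531337025) (nat_lit 532) (nat_lit 6764854540) (nat_lit 76) (nat_lit 2366717768) (nat_lit 176) (nat_lit 5) (nat_lit 183) (nat_lit 5) (nat_lit 177) (nat_lit 5) (nat_lit 486) (nat_lit 416) (nat_lit 238)) (XT.lf (nat_lit 0) (nat_lit 2837980645) (nat_lit 456) (nat_lit 10025177239) (nat_lit 532) (nat_lit 6034598053) (nat_lit 170) (nat_lit 5) (nat_lit 176) (nat_lit 5) (nat_lit 177) (nat_lit 5) (nat_lit 487) (nat_lit 416) (nat_lit 237))) (XT.nd (nat_lit 78) (nat_lit 532) (nat_lit 0) (XT.lf (nat_lit 0) (nat_lit 12714235023) (nat_lit 456) (nat_lit 3585148220) (nat_lit 532) (nat_lit 2837164510) (nat_lit 170) (nat_lit 5)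 (nat_lit 176) (nat_lit 5) (nat_lit 177) (nat_lit 5) (nat_lit 488) (nat_lit 416) (nat_lit 236)) (XT.lf (nat_lit 0) (nat_lit 452978407) (nat_lit 532) (nat_lit 15959264849) (nat_lit 76) (nat_lit 2967134072) (nat_lit 163) (nat_lit 5) (nat_lit 170) (nat_lit 5) (nat_lit 164) (nat_lit 5) (nat_lit 489) (nat_lit 416) (nat_lit 235))))))))
noncomputable def xc184 : XT := (XT.nd (nat_lit 2184) (nat_lit 532) (nat_lit 0) (XT.nd (nat_lit 1092) (nat_lit 2356) (nat_lit 0) (XT.nd (nat_lit 546) (nat_lit 1596) (nat_lit 0) (XT.nd (nat_lit 234) (nat_lit 912) (nat_lit 0) (XT.nd (nat_lit 78) (nat_lit 456) (nat_lit 0) (XT.lf (nat_lit 0) (nat_lit 3830628108) (nat_lit 532) (nat_lit 6132881699) (nat_lit 76) (nat_lit 9661988175) (nat_lit 163) (nat_lit 5) (nat_lit 170) (nat_lit 5) (nat_lit 164) (nat_lit 5) (nat_lit 490) (nat_lit 416) (nat_lit 234)) (XT.nd (nat_lit 78) (nat_lit 0) (nat_lit 0) (XT.lf (nat_lit 0) (nat_lit 3931488154) (nat_lit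 456) (nat_lit 3362547725) (nat_lit 532) (nat_lit 12582144431) (nat_lit 157) (nat_lit 5) (nat_lit 163) (nat_lit 5) (nat_lit 164) (nat_lit 5) (nat_lit 491) (nat_lit 416) (nat_lit 233)) (XT.lf (nat_lit 0) (nat_lit 10882761794) (nat_lit 532) (nat_lit 5883097262) (nat_lit 76) (nat_lit 3364899525) (nat_lit 157) (nat_lit 5) (nat_lit 164) (nat_lit 5) (nat_lit 158) (nat_lit 5) (nat_lit 492) (nat_lit 416) (nat_lit 232)))) (XT.nd (nat_lit 156) (nat_lit 532) (nat_lit 0) (XT.nd (nat_lit 78) (nat_lit 0) (nat_lit 0) (XT.lf (nat_lit 0) (nat_lit 4405269583) (nat_lit 380) (nat_lit 10181744951) (nat_lit 456) (nat_lit 5802542070) (nat_lit 152) (nat_lit 5) (nat_lit 157) (nat_lit 5) (nat_lit 158) (nat_lit 5) (nat_lit 493) (nat_lit 416) (nat_lit 231)) (XT.lf (nat_lit 0) (nat_lit 14969248953) (nat_lit 380) (nat_lit 3428539187) (nat_lit 456) (nat_lit 2255096901) (nat_lit 152) (nat_lit 5) (nat_lit 157) (nat_lit 5) (nat_lit 158) (nat_lit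 5) (nat_lit 494) (nat_lit 416) (nat_lit 230))) (XT.nd (nat_lit 78) (nat_lit 0) (nat_lit 0) (XT.lf (nat_lit 0) (nat_lit 1392783743) (nat_lit 532) (nat_lit 16075304311) (nat_lit 76) (nat_lit 3452270681) (nat_lit 145) (nat_lit 5) (nat_lit 152) (nat_lit 5) (nat_lit 146) (nat_lit 5) (nat_lit 495) (nat_lit 416) (nat_lit 229)) (XT.lf (nat_lit 0) (nat_lit 5137653802) (nat_lit 532) (nat_lit 5578810318) (nat_lit 76) (nat_lit 10475338092) (nat_lit 145) (nat_lit 5) (nat_lit 152) (nat_lit 5) (nat_lit 146) (nat_lit 5) (nat_lit 496) (nat_lit 416) (nat_lit 228))))) (XT.nd (nat_lit 234) (nat_lit 836) (nat_lit 0) (XT.nd (nat_lit 78) (nat_lit 380) (nat_lit 0) (XT.lf (nat_lit 0) (nat_lit 5185961117) (nat_lit 380) (nat_lit 3798367110) (nat_lit 456) (nat_lit 12483811121) (nat_lit 140) (nat_lit 5) (nat_lit 145) (nat_lit 5) (nat_lit 146) (nat_lit 5) (nat_lit 497) (nat_lit 416) (nat_lit 227)) (XT.nd (nat_lit 78) (nat_lit 380) (nat_lit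 0) (XT.lf (nat_lit 0) (nat_lit 12960062156) (nat_lit 456) (nat_lit 5538727379) (nat_lit 76) (nat_lit 3250174042) (nat_lit 140) (nat_lit 5) (nat_lit 146) (nat_lit 5) (nat_lit 141) (nat_lit 5) (nat_lit 498) (nat_lit 416) (nat_lit 226)) (XT.lf (nat_lit 0) (nat_lit 5456469443) (nat_lit 380) (nat_lit 11612842342) (nat_lit 456) (nat_lit 4965015299) (nat_lit 135) (nat_lit 5) (nat_lit 140) (nat_lit 5) (nat_lit 141) (nat_lit 5) (nat_lit 499) (nat_lit 416) (nat_lit 225)))) (XT.nd (nat_lit 156) (nat_lit 380) (nat_lit 0) (XT.nd (nat_lit 78) (nat_lit 456) (nat_lit 0) (XT.lf (nat_lit 0) (nat_lit 16737180937) (nat_lit 380) (nat_lit 4554220061) (nat_lit 456) (nat_lit 1033386529) (nat_lit 135) (nat_lit 5) (nat_lit 140) (nat_lit 5) (nat_lit 141) (nat_lit 5) (nat_lit 500) (nat_lit 416) (nat_lit 224)) (XT.lf (nat_lit 0) (nat_lit 2985732579) (nat_lit 456) (nat_lit 16969506302) (nat_lit 76) (nat_lit 2664476392) (nat_lit 129) (nat_lit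 5) (nat_lit 135) (nat_lit 5) (nat_lit 130) (nat_lit 5) (nat_lit 501) (nat_lit 416) (nat_lit 223))) (XT.nd (nat_lit 78) (nat_lit 380) (nat_lit 0) (XT.lf (nat_lit 0) (nat_lit 7132930554) (nat_lit 456) (nat_lit 5777941430) (nat_lit 76) (nat_lit 10008304906) (nat_lit 129) (nat_lit 5) (nat_lit 135) (nat_lit 5) (nat_lit 130) (nat_lit 5) (nat_lit 502) (nat_lit 416) (nat_lit 222)) (XT.lf (nat_lit 0) (nat_lit 5703015756) (nat_lit 380) (nat_lit 5690825767) (nat_lit 456) (nat_lit 11830173384) (nat_lit 124) (nat_lit 5) (nat_lit 129) (nat_lit 5) (nat_lit 130) (nat_lit 5) (nat_lit 503) (nat_lit 416) (nat_lit 221)))))) (XT.nd (nat_lit 546) (nat_lit 1292) (nat_lit 0) (XT.nd (nat_lit 234) (nat_lit 684) (nat_lit 0) (XT.nd (nat_lit 78) (nat_lit 380) (nat_lit 0) (XT.lf (nat_lit 0) (nat_lit 15783651865) (nat_lit 456) (nat_lit 6062665029) (nat_lit 76) (nat_lit 1687761667) (nat_lit 124) (nat_lit 5) (nat_lit 130) (nat_lit 5) (nat_lit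 125) (nat_lit 5) (nat_lit 504) (nat_lit 416) (nat_lit 220)) (XT.nd (nat_lit 78) (nat_lit 76) (nat_lit 0) (XT.lf (nat_lit 0) (nat_lit 5652178134) (nat_lit 304) (nat_lit 14677372505) (nat_lit 380) (nat_lit 3519429453) (nat_lit 120) (nat_lit 5) (nat_lit 124) (nat_lit 5) (nat_lit 125) (nat_lit 5) (nat_lit 505) (nat_lit 416) (nat_lit 219)) (XT.lf (nat_lit 0) (nat_lit 820624102) (nat_lit 380) (nat_lit 6500428210) (nat_lit 76) (nat_lit 16848328739) (nat_lit 119) (nat_lit 5) (nat_lit 124) (nat_lit 5) (nat_lit 120) (nat_lit 5) (nat_lit 506) (nat_lit 416) (nat_lit 218)))) (XT.nd (nat_lit 156) (nat_lit 304) (nat_lit 0) (XT.nd (nat_lit 78) (nat_lit 0) (nat_lit 0) (XT.lf (nat_lit 0) (nat_lit 5231507158) (nat_lit 456) (nat_lit 19027336074) (nat_lit 76) (nat_lit 236260764) (nat_lit 114) (nat_lit 5) (nat_lit 120) (nat_lit 5) (nat_lit 115) (nat_lit 5) (nat_lit 507) (nat_lit 416) (nat_lit 217)) (XT.lf (nat_lit 0) (nat_lit 9817086049)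 (nat_lit 456) (nat_lit 7120784331) (nat_lit 76) (nat_lit 7887743721) (nat_lit 114) (nat_lit 5) (nat_lit 120) (nat_lit 5) (nat_lit 115) (nat_lit 5) (nat_lit 508) (nat_lit 416) (nat_lit 216))) (XT.nd (nat_lit 78) (nat_lit 0) (nat_lit 0) (XT.lf (nat_lit 0) (nat_lit 5081736853) (nat_lit 304) (nat_lit 9439833871) (nat_lit 380) (nat_lit 10640622017) (nat_lit 110) (nat_lit 5) (nat_lit 114) (nat_lit 5) (nat_lit 115) (nat_lit 5) (nat_lit 509) (nat_lit 416) (nat_lit 215)) (XT.lf (nat_lit 0) (nat_lit 17616081038) (nat_lit 304) (nat_lit 1746105369) (nat_lit 380) (nat_lit 6142477897) (nat_lit 110) (nat_lit 5) (nat_lit 114) (nat_lit 5) (nat_lit 115) (nat_lit 5) (nat_lit 510) (nat_lit 416) (nat_lit 214))))) (XT.nd (nat_lit 234) (nat_lit 608) (nat_lit 0) (XT.nd (nat_lit 78) (nat_lit 380) (nat_lit 0) (XT.lf (nat_lit 0) (nat_lit 4558623485) (nat_lit 304) (nat_lit 19804554052) (nat_lit 380) (nat_lit 1489538630) (nat_lit 106) (nat_lit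 5) (nat_lit 110) (nat_lit 5) (nat_lit 111) (nat_lit 5) (nat_lit 511) (nat_lit 416) (nat_lit 213)) (XT.nd (nat_lit 78) (nat_lit 304) (nat_lit 0) (XT.lf (nat_lit 0) (nat_lit 3272967361) (nat_lit 380) (nat_lit 8886716783) (nat_lit 76) (nat_lit 14046439772) (nat_lit 105) (nat_lit 5) (nat_lit 110) (nat_lit 5) (nat_lit 106) (nat_lit 5) (nat_lit 512) (nat_lit 416) (nat_lit 212)) (XT.lf (nat_lit 0) (nat_lit 3800258346) (nat_lit 304) (nat_lit 4329689371) (nat_lit 380) (nat_lit 18436073812) (nat_lit 101) (nat_lit 5) (nat_lit 105) (nat_lit 5) (nat_lit 106) (nat_lit 5) (nat_lit 513) (nat_lit 416) (nat_lit 211)))) (XT.nd (nat_lit 156) (nat_lit 304) (nat_lit 0) (XT.nd (nat_lit 78) (nat_lit 304) (nat_lit 0) (XT.lf (nat_lit 0) (nat_lit 13162350784) (nat_lit 380) (nat_lit 10103188305) (nat_lit 76) (nat_lit 3666014314) (nat_lit 101) (nat_lit 5) (nat_lit 106) (nat_lit 5) (nat_lit 102) (nat_lit 5) (nat_lit 514) (nat_lit 416) (nat_lit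 210)) (XT.lf (nat_lit 0) (nat_lit 2812457698) (nat_lit 304) (nat_lit 15524496200) (nat_lit 380) (nat_lit 8966612908) (nat_lit 97) (nat_lit 5) (nat_lit 101) (nat_lit 5) (nat_lit 102) (nat_lit 5) (nat_lit 515) (nat_lit 416) (nat_lit 209))) (XT.nd (nat_lit 78) (nat_lit 304) (nat_lit 0) (XT.lf (nat_lit 0) (nat_lit 16115030391) (nat_lit 304) (nat_lit 7562485991) (nat_lit 380) (nat_lit 4004256642) (nat_lit 97) (nat_lit 5) (nat_lit 101) (nat_lit 5) (nat_lit 102) (nat_lit 5) (nat_lit 516) (nat_lit 416) (nat_lit 208)) (XT.lf (nat_lit 0) (nat_lit 1052473743) (nat_lit 304) (nat_lit 26448749444) (nat_lit 76) (nat_lit 566004814) (nat_lit 93) (nat_lit 5) (nat_lit 97) (nat_lit 5) (nat_lit 94) (nat_lit 5) (nat_lit 517) (nat_lit 416) (nat_lit 207))))))) (XT.nd (nat_lit 52182) (nat_lit 0) (nat_lit 25688) (XT.nd (nat_lit 51636) (nat_lit 0) (nat_lit 26980) (XT.nd (nat_lit 234) (nat_lit 228) (nat_lit 0) (XT.nd (nat_lit 78) (nat_lit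 304) (nat_lit 0) (XT.lf (nat_lit 0) (nat_lit 6279755841) (nat_lit 304) (nat_lit 13320038579) (nat_lit 76) (nat_lit 8857609397) (nat_lit 93) (nat_lit 5) (nat_lit 97) (nat_lit 5) (nat_lit 94) (nat_lit 5) (nat_lit 518) (nat_lit 416) (nat_lit 206)) (XT.nd (nat_lit 78) (nat_lit 0) (nat_lit 0) (XT.lf (nat_lit 0) (nat_lit 63969478) (nat_lit 304) (nat_lit 11542900345) (nat_lit 380) (nat_lit 17248609352) (nat_lit 89) (nat_lit 5) (nat_lit 93) (nat_lit 5) (nat_lit 94) (nat_lit 5) (nat_lit 519) (nat_lit 416) (nat_lit 205)) (XT.lf (nat_lit 0) (nat_lit 13888151725) (nat_lit 304) (nat_lit 3236677963) (nat_lit 380) (nat_lit 12135001995) (nat_lit 89) (nat_lit 5) (nat_lit 93) (nat_lit 5) (nat_lit 94) (nat_lit 5) (nat_lit 520) (nat_lit 416) (nat_lit 204)))) (XT.nd (nat_lit 51246) (nat_lit 0) (nat_lit 28424) (XT.nd (nat_lit 78) (nat_lit 228) (nat_lit 0) (XT.lf (nat_lit 0) (nat_lit 22782141963) (nat_lit 380) (nat_lit 1725433897) (nat_lit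 76) (nat_lit 5164117197) (nat_lit 89) (nat_lit 5) (nat_lit 94) (nat_lit 5) (nat_lit 90) (nat_lit 5) (nat_lit 521) (nat_lit 416) (nat_lit 203)) (XT.lf (nat_lit 0) (nat_lit 12326131328) (nat_lit 228) (nat_lit 16323031350) (nat_lit 304) (nat_lit 1440699386) (nat_lit 86) (nat_lit 5) (nat_lit 89) (nat_lit 5) (nat_lit 90) (nat_lit 5) (nat_lit 522) (nat_lit 416) (nat_lit 202))) (XT.nd (nat_lit 78) (nat_lit 0) (nat_lit 0) (XT.lf (nat_lit 0) (nat_lit 1398166398) (nat_lit 0) (nat_lit 1398166398) (nat_lit 1444) (nat_lit 1754241510) (nat_lit 460) (nat_lit 5) (nat_lit 460) (nat_lit 3) (nat_lit 479) (nat_lit 3) (nat_lit 417) (nat_lit 417) (nat_lit 306)) (XT.lf (nat_lit 0) (nat_lit 6496118214) (nat_lit 1444) (nat_lit 2100499467) (nat_lit 1520) (nat_lit 577954353) (nat_lit 460) (nat_lit 5) (nat_lit 479) (nat_lit 3) (nat_lit 480) (nat_lit 5) (nat_lit 418) (nat_lit 417) (nat_lit 305))))) (XT.nd (nat_lit 234) (nat_lit 1444) (nat_lit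 0) (XT.nd (nat_lit 78) (nat_lit 0) (nat_lit 0) (XT.lf (nat_lit 76) (nat_lit 2186463534) (nat_lit 0) (nat_lit 5241831754) (nat_lit 1520) (nat_lit 1820972248) (nat_lit 461) (nat_lit 5) (nat_lit 460) (nat_lit 5) (nat_lit 480) (nat_lit 5) (nat_lit 419) (nat_lit 417) (nat_lit 304)) (XT.nd (nat_lit 78) (nat_lit 0) (nat_lit 76) (XT.lf (nat_lit 76) (nat_lit 6576118134) (nat_lit 0) (nat_lit 1795391635) (nat_lit 1520) (nat_lit 954115698) (nat_lit 461) (nat_lit 5) (nat_lit 460) (nat_lit 5) (nat_lit 480) (nat_lit 5) (nat_lit 420) (nat_lit 417) (nat_lit 303)) (XT.lf (nat_lit 76) (nat_lit 1648710171) (nat_lit 0) (nat_lit 7685538858) (nat_lit 1520) (nat_lit 69264391) (nat_lit 462) (nat_lit 5) (nat_lit 461) (nat_lit 5) (nat_lit 481) (nat_lit 5) (nat_lit 421) (nat_lit 417) (nat_lit 302)))) (XT.nd (nat_lit 156) (nat_lit 0) (nat_lit 76) (XT.nd (nat_lit 78) (nat_lit 0) (nat_lit 0) (XT.lf (nat_lit 0) (nat_lit 831792868) (nat_lit 1520)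 (nat_lit 3339868450) (nat_lit 1596) (nat_lit 5311016308) (nat_lit 441) (nat_lit 5) (nat_lit 461) (nat_lit 5) (nat_lit 462) (nat_lit 5) (nat_lit 422) (nat_lit 417) (nat_lit 301)) (XT.lf (nat_lit 76) (nat_lit 1166421600) (nat_lit 0) (nat_lit 570483284) (nat_lit 1596) (nat_lit 7826786999) (nat_lit 442) (nat_lit 5) (nat_lit 441) (nat_lit 5) (nat_lit 462) (nat_lit 5) (nat_lit 423) (nat_lit 417) (nat_lit 300))) (XT.nd (nat_lit 78) (nat_lit 0) (nat_lit 0) (XT.lf (nat_lit 0) (nat_lit 2682595647) (nat_lit 1520) (nat_lit 3870242568) (nat_lit 1596) (nat_lit 3093053532) (nat_lit 442) (nat_lit 5) (nat_lit 462) (nat_lit 5) (nat_lit 463) (nat_lit 5) (nat_lit 424) (nat_lit 417) (nat_lit 299)) (XT.lf (nat_lit 76) (nat_lit 741327862) (nat_lit 0) (nat_lit 2894631136) (nat_lit 1596) (nat_lit 6094015992) (nat_lit 443) (nat_lit 5) (nat_lit 442) (nat_lit 5) (nat_lit 463) (nat_lit 5) (nat_lit 425) (nat_lit 417) (nat_lit 298)))))) (XT.nd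 (nat_lit 546) (nat_lit 0) (nat_lit 0) (XT.nd (nat_lit 234) (nat_lit 1444) (nat_lit 0) (XT.nd (nat_lit 78) (nat_lit 0) (nat_lit 0) (XT.lf (nat_lit 0) (nat_lit 4620494752) (nat_lit 1520) (nat_lit 4335551564) (nat_lit 1596) (nat_lit 859465752) (nat_lit 443) (nat_lit 5) (nat_lit 463) (nat_lit 5) (nat_lit 464) (nat_lit 5) (nat_lit 426) (nat_lit 417) (nat_lit 297)) (XT.nd (nat_lit 78) (nat_lit 0) (nat_lit 0) (XT.lf (nat_lit 76) (nat_lit 384400908) (nat_lit 0) (nat_lit 5242896726) (nat_lit 1596) (nat_lit 4275424719) (nat_lit 444) (nat_lit 5) (nat_lit 443) (nat_lit 5) (nat_lit 464) (nat_lit 5) (nat_lit 427) (nat_lit 417) (nat_lit 296)) (XT.lf (nat_lit 76) (nat_lit 5245524676) (nat_lit 0) (nat_lit 1419013017) (nat_lit 1596) (nat_lit 3326946846) (nat_lit 444) (nat_lit 5) (nat_lit 443) (nat_lit 5) (nat_lit 464) (nat_lit 5) (nat_lit 428) (nat_lit 417) (nat_lit 295)))) (XT.nd (nat_lit 156) (nat_lit 1520) (nat_lit 0) (XT.nd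 (nat_lit 78) (nat_lit 0) (nat_lit 0) (XT.lf (nat_lit 76) (nat_lit 94794391) (nat_lit 0) (nat_lit 7626073218) (nat_lit 1596) (nat_lit 2361200909) (nat_lit 445) (nat_lit 5) (nat_lit 444) (nat_lit 5) (nat_lit 465) (nat_lit 5) (nat_lit 429) (nat_lit 417) (nat_lit 294)) (XT.lf (nat_lit 76) (nat_lit 5075067078) (nat_lit 0) (nat_lit 3746341377) (nat_lit 1596) (nat_lit 1352607221) (nat_lit 445) (nat_lit 5) (nat_lit 444) (nat_lit 5) (nat_lit 465) (nat_lit 5) (nat_lit 430) (nat_lit 417) (nat_lit 293))) (XT.nd (nat_lit 78) (nat_lit 1596) (nat_lit 0) (XT.lf (nat_lit 0) (nat_lit 9927623833) (nat_lit 1520) (nat_lit 126502041) (nat_lit 1596) (nat_lit 214015557) (nat_lit 445) (nat_lit 5) (nat_lit 465) (nat_lit 5) (nat_lit 466) (nat_lit 5) (nat_lit 431) (nat_lit 417) (nat_lit 292)) (XT.lf (nat_lit 0) (nat_lit 722735579) (nat_lit 1596) (nat_lit 5394341994) (nat_lit 1672) (nat_lit 4246194819) (nat_lit 424) (nat_lit 5) (nat_lit 445)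 (nat_lit 5) (nat_lit 446) (nat_lit 5) (nat_lit 432) (nat_lit 417) (nat_lit 291))))) (XT.nd (nat_lit 312) (nat_lit 0) (nat_lit 152) (XT.nd (nat_lit 156) (nat_lit 0) (nat_lit 76) (XT.nd (nat_lit 78) (nat_lit 0) (nat_lit 76) (XT.lf (nat_lit 0) (nat_lit 1786331372) (nat_lit 1596) (nat_lit 306760242) (nat_lit 1672) (nat_lit 8367508781) (nat_lit 424) (nat_lit 5) (nat_lit 445) (nat_lit 5) (nat_lit 446) (nat_lit 5) (nat_lit 433) (nat_lit 417) (nat_lit 290)) (XT.lf (nat_lit 0) (nat_lit 2899661956) (nat_lit 1596) (nat_lit 5637543668) (nat_lit 1672) (nat_lit 2022112020) (nat_lit 425) (nat_lit 5) (nat_lit 446) (nat_lit 5) (nat_lit 447) (nat_lit 5) (nat_lit 434) (nat_lit 417) (nat_lit 289))) (XT.nd (nat_lit 78) (nat_lit 0) (nat_lit 0) (XT.lf (nat_lit 0) (nat_lit 4034593604) (nat_lit 1596) (nat_lit 427060273) (nat_lit 1672) (nat_lit 6198380380) (nat_lit 425) (nat_lit 5) (nat_lit 446) (nat_lit 5) (nat_lit 447) (nat_lit 5) (nat_lit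 435) (nat_lit 417) (nat_lit 288)) (XT.lf (nat_lit 76) (nat_lit 4940413339) (nat_lit 0) (nat_lit 267613225) (nat_lit 1672) (nat_lit 5554434066) (nat_lit 426) (nat_lit 5) (nat_lit 425) (nat_lit 5) (nat_lit 447) (nat_lit 5) (nat_lit 436) (nat_lit 417) (nat_lit 287)))) (XT.nd (nat_lit 156) (nat_lit 0) (nat_lit 76) (XT.nd (nat_lit 78) (nat_lit 0) (nat_lit 0) (XT.lf (nat_lit 0) (nat_lit 6417844988) (nat_lit 1596) (nat_lit 484202755) (nat_lit 1672) (nat_lit 3964640704) (nat_lit 426) (nat_lit 5) (nat_lit 447) (nat_lit 5) (nat_lit 448) (nat_lit 5) (nat_lit 437) (nat_lit 417) (nat_lit 286)) (XT.lf (nat_lit 76) (nat_lit 5012311490) (nat_lit 0) (nat_lit 2658172093) (nat_lit 1672) (nat_lit 3302155794) (nat_lit 427) (nat_lit 5) (nat_lit 426) (nat_lit 5) (nat_lit 448) (nat_lit 5) (nat_lit 438) (nat_lit 417) (nat_lit 285))) (XT.nd (nat_lit 78) (nat_lit 0) (nat_lit 0) (XT.lf (nat_lit 0) (nat_lit 8946853122) (nat_lit 1596) (nat_lit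 478508551) (nat_lit 1672) (nat_lit 1655384907) (nat_lit 427) (nat_lit 5) (nat_lit 448) (nat_lit 5) (nat_lit 449) (nat_lit 5) (nat_lit 439) (nat_lit 417) (nat_lit 284)) (XT.lf (nat_lit 76) (nat_lit 5150823150) (nat_lit 0) (nat_lit 5133836853) (nat_lit 1672) (nat_lit 905648331) (nat_lit 428) (nat_lit 5) (nat_lit 427) (nat_lit 5) (nat_lit 449) (nat_lit 5) (nat_lit 440) (nat_lit 417) (nat_lit 283))))))))
noncomputable def xc185 : XT := (XT.nd (nat_lit 2184) (nat_lit 8132) (nat_lit 0) (XT.nd (nat_lit 1092) (nat_lit 5092) (nat_lit 0) (XT.nd (nat_lit 546) (nat_lit 2660) (nat_lit 0) (XT.nd (nat_lit 234) (nat_lit 3876) (nat_lit 0) (XT.nd (nat_lit 78) (nat_lit 0) (nat_lit 76) (XT.lf (nat_lit 0) (nat_lit 330814386) (nat_lit 1672) (nat_lit 417249231) (nat_lit 1748) (nat_lit 10554198702) (nat_lit 405) (nat_lit 5) (nat_lit 427) (nat_lit 5) (nat_lit 428) (nat_lit 5) (nat_lit 441) (nat_lit 417) (nat_lit 282)) (XT.nd (nat_lit 78)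 (nat_lit 0) (nat_lit 0) (XT.lf (nat_lit 0) (nat_lit 1624500597) (nat_lit 1672) (nat_lit 6070523706) (nat_lit 76) (nat_lit 3720428932) (nat_lit 406) (nat_lit 5) (nat_lit 428) (nat_lit 5) (nat_lit 407) (nat_lit 5) (nat_lit 442) (nat_lit 417) (nat_lit 281)) (XT.lf (nat_lit 0) (nat_lit 2937329988) (nat_lit 1672) (nat_lit 320020716) (nat_lit 76) (nat_lit 8273701672) (nat_lit 406) (nat_lit 5) (nat_lit 428) (nat_lit 5) (nat_lit 407) (nat_lit 5) (nat_lit 443) (nat_lit 417) (nat_lit 280)))) (XT.nd (nat_lit 156) (nat_lit 2280) (nat_lit 0) (XT.nd (nat_lit 78) (nat_lit 0) (nat_lit 0) (XT.lf (nat_lit 0) (nat_lit 4307097429) (nat_lit 1748) (nat_lit 6049959433) (nat_lit 76) (nat_lit 1291302615) (nat_lit 384) (nat_lit 5) (nat_lit 407) (nat_lit 5) (nat_lit 385) (nat_lit 5) (nat_lit 444) (nat_lit 417) (nat_lit 279)) (XT.lf (nat_lit 0) (nat_lit 5713990534) (nat_lit 1748) (nat_lit 162218183) (nat_lit 76) (nat_lit 5891618814) (nat_lit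 384) (nat_lit 5) (nat_lit 407) (nat_lit 5) (nat_lit 385) (nat_lit 5) (nat_lit 445) (nat_lit 417) (nat_lit 278))) (XT.nd (nat_lit 78) (nat_lit 836) (nat_lit 0) (XT.lf (nat_lit 0) (nat_lit 5908822654) (nat_lit 1444) (nat_lit 1264834143) (nat_lit 1520) (nat_lit 4715544675) (nat_lit 365) (nat_lit 5) (nat_lit 384) (nat_lit 5) (nat_lit 385) (nat_lit 5) (nat_lit 446) (nat_lit 417) (nat_lit 277)) (XT.lf (nat_lit 0) (nat_lit 56749934) (nat_lit 836) (nat_lit 8616031670) (nat_lit 912) (nat_lit 3340025034) (nat_lit 354) (nat_lit 5) (nat_lit 365) (nat_lit 5) (nat_lit 366) (nat_lit 5) (nat_lit 447) (nat_lit 417) (nat_lit 276))))) (XT.nd (nat_lit 234) (nat_lit 1672) (nat_lit 0) (XT.nd (nat_lit 78) (nat_lit 988) (nat_lit 0) (XT.lf (nat_lit 0) (nat_lit 6275116705) (nat_lit 836) (nat_lit 3961885952) (nat_lit 912) (nat_lit 1901187849) (nat_lit 354) (nat_lit 5) (nat_lit 365) (nat_lit 5) (nat_lit 366) (nat_lit 5) (nat_lit 448) (nat_lit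 417) (nat_lit 275)) (XT.nd (nat_lit 78) (nat_lit 76) (nat_lit 0) (XT.lf (nat_lit 0) (nat_lit 338991934) (nat_lit 912) (nat_lit 11487746655) (nat_lit 988) (nat_lit 439467555) (nat_lit 342) (nat_lit 5) (nat_lit 354) (nat_lit 5) (nat_lit 355) (nat_lit 5) (nat_lit 449) (nat_lit 417) (nat_lit 274)) (XT.lf (nat_lit 0) (nat_lit 1090554033) (nat_lit 988) (nat_lit 5696970845) (nat_lit 76) (nat_lit 5608071891) (nat_lit 341) (nat_lit 5) (nat_lit 354) (nat_lit 5) (nat_lit 342) (nat_lit 5) (nat_lit 450) (nat_lit 417) (nat_lit 273)))) (XT.nd (nat_lit 156) (nat_lit 836) (nat_lit 0) (XT.nd (nat_lit 78) (nat_lit 0) (nat_lit 0) (XT.lf (nat_lit 0) (nat_lit 651526634) (nat_lit 836) (nat_lit 1985270010) (nat_lit 912) (nat_lit 9890898563) (nat_lit 330) (nat_lit 5) (nat_lit 341) (nat_lit 5) (nat_lit 342) (nat_lit 5) (nat_lit 451) (nat_lit 417) (nat_lit 272)) (XT.lf (nat_lit 0) (nat_lit 4258806246) (nat_lit 912) (nat_lit 5488789361) (nat_lit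 76) (nat_lit 2913951201) (nat_lit 330) (nat_lit 5) (nat_lit 342) (nat_lit 5) (nat_lit 331) (nat_lit 5) (nat_lit 452) (nat_lit 417) (nat_lit 271))) (XT.nd (nat_lit 78) (nat_lit 0) (nat_lit 0) (XT.lf (nat_lit 0) (nat_lit 1014564932) (nat_lit 836) (nat_lit 4906117941) (nat_lit 912) (nat_lit 6877251910) (nat_lit 319) (nat_lit 5) (nat_lit 330) (nat_lit 5) (nat_lit 331) (nat_lit 5) (nat_lit 453) (nat_lit 417) (nat_lit 270)) (XT.lf (nat_lit 0) (nat_lit 7640941005) (nat_lit 912) (nat_lit 5226483698) (nat_lit 76) (nat_lit 69130662) (nat_lit 319) (nat_lit 5) (nat_lit 331) (nat_lit 5) (nat_lit 320) (nat_lit 5) (nat_lit 454) (nat_lit 417) (nat_lit 269)))))) (XT.nd (nat_lit 546) (nat_lit 2052) (nat_lit 0) (XT.nd (nat_lit 234) (nat_lit 1520) (nat_lit 0) (XT.nd (nat_lit 78) (nat_lit 760) (nat_lit 0) (XT.lf (nat_lit 0) (nat_lit 1436015076) (nat_lit 760) (nat_lit 7989500088) (nat_lit 836) (nat_lit 3651842550) (nat_lit 309) (nat_lit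 5) (nat_lit 319) (nat_lit 5) (nat_lit 320) (nat_lit 5) (nat_lit 455) (nat_lit 417) (nat_lit 268)) (XT.nd (nat_lit 78) (nat_lit 760) (nat_lit 0) (XT.lf (nat_lit 0) (nat_lit 8290820414) (nat_lit 760) (nat_lit 2978286162) (nat_lit 836) (nat_lit 1951410444) (nat_lit 309) (nat_lit 5) (nat_lit 319) (nat_lit 5) (nat_lit 320) (nat_lit 5) (nat_lit 456) (nat_lit 417) (nat_lit 267)) (XT.lf (nat_lit 0) (nat_lit 1915660810) (nat_lit 760) (nat_lit 11248679951) (nat_lit 836) (nat_lit 201910612) (nat_lit 299) (nat_lit 5) (nat_lit 309) (nat_lit 5) (nat_lit 310) (nat_lit 5) (nat_lit 457) (nat_lit 417) (nat_lit 266)))) (XT.nd (nat_lit 156) (nat_lit 760) (nat_lit 0) (XT.nd (nat_lit 78) (nat_lit 684) (nat_lit 0) (XT.lf (nat_lit 0) (nat_lit 1603397868) (nat_lit 836) (nat_lit 4591585549) (nat_lit 76) (nat_lit 7318887000) (nat_lit 298) (nat_lit 5) (nat_lit 309) (nat_lit 5) (nat_lit 299) (nat_lit 5) (nat_lit 458) (nat_lit 417) (nat_lit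 265)) (XT.lf (nat_lit 0) (nat_lit 2423401162) (nat_lit 684) (nat_lit 1023219901) (nat_lit 760) (nat_lit 10217710704) (nat_lit 289) (nat_lit 5) (nat_lit 298) (nat_lit 5) (nat_lit 299) (nat_lit 5) (nat_lit 459) (nat_lit 417) (nat_lit 264))) (XT.nd (nat_lit 78) (nat_lit 760) (nat_lit 0) (XT.lf (nat_lit 0) (nat_lit 5374248487) (nat_lit 760) (nat_lit 4215862197) (nat_lit 76) (nat_lit 4226747591) (nat_lit 289) (nat_lit 5) (nat_lit 299) (nat_lit 5) (nat_lit 290) (nat_lit 5) (nat_lit 460) (nat_lit 417) (nat_lit 263)) (XT.lf (nat_lit 0) (nat_lit 2970325754) (nat_lit 760) (nat_lit 4385298720) (nat_lit 836) (nat_lit 6616513511) (nat_lit 279) (nat_lit 5) (nat_lit 289) (nat_lit 5) (nat_lit 290) (nat_lit 5) (nat_lit 461) (nat_lit 417) (nat_lit 262))))) (XT.nd (nat_lit 234) (nat_lit 1368) (nat_lit 0) (XT.nd (nat_lit 78) (nat_lit 684) (nat_lit 0) (XT.lf (nat_lit 0) (nat_lit 9400370629) (nat_lit 836) (nat_lit 3790458839) (nat_lit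 76) (nat_lit 939225433) (nat_lit 279) (nat_lit 5) (nat_lit 290) (nat_lit 5) (nat_lit 280) (nat_lit 5) (nat_lit 462) (nat_lit 417) (nat_lit 261)) (XT.nd (nat_lit 78) (nat_lit 0) (nat_lit 0) (XT.lf (nat_lit 0) (nat_lit 3571447627) (nat_lit 684) (nat_lit 7956272382) (nat_lit 760) (nat_lit 2762582317) (nat_lit 270) (nat_lit 5) (nat_lit 279) (nat_lit 5) (nat_lit 280) (nat_lit 5) (nat_lit 463) (nat_lit 417) (nat_lit 260)) (XT.lf (nat_lit 0) (nat_lit 11120575909) (nat_lit 684) (nat_lit 2592087136) (nat_lit 760) (nat_lit 740796935) (nat_lit 270) (nat_lit 5) (nat_lit 279) (nat_lit 5) (nat_lit 280) (nat_lit 5) (nat_lit 464) (nat_lit 417) (nat_lit 259)))) (XT.nd (nat_lit 156) (nat_lit 608) (nat_lit 0) (XT.nd (nat_lit 78) (nat_lit 0) (nat_lit 0) (XT.lf (nat_lit 0) (nat_lit 1340267341) (nat_lit 760) (nat_lit 10401824514) (nat_lit 76) (nat_lit 2876899834) (nat_lit 260) (nat_lit 5) (nat_lit 270) (nat_lit 5) (nat_lit 261) (nat_lit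 5) (nat_lit 465) (nat_lit 417) (nat_lit 258)) (XT.lf (nat_lit 0) (nat_lit 3482584468) (nat_lit 760) (nat_lit 2857651988) (nat_lit 76) (nat_lit 8446914481) (nat_lit 260) (nat_lit 5) (nat_lit 270) (nat_lit 5) (nat_lit 261) (nat_lit 5) (nat_lit 466) (nat_lit 417) (nat_lit 257))) (XT.nd (nat_lit 78) (nat_lit 0) (nat_lit 0) (XT.lf (nat_lit 0) (nat_lit 4890323185) (nat_lit 608) (nat_lit 799236661) (nat_lit 684) (nat_lit 9268683026) (nat_lit 252) (nat_lit 5) (nat_lit 260) (nat_lit 5) (nat_lit 261) (nat_lit 5) (nat_lit 467) (nat_lit 417) (nat_lit 256)) (XT.lf (nat_lit 0) (nat_lit 7981658864) (nat_lit 684) (nat_lit 2343350027) (nat_lit 76) (nat_lit 4806933700) (nat_lit 252) (nat_lit 5) (nat_lit 261) (nat_lit 5) (nat_lit 253) (nat_lit 5) (nat_lit 468) (nat_lit 417) (nat_lit 255))))))) (XT.nd (nat_lit 1092) (nat_lit 3420) (nat_lit 0) (XT.nd (nat_lit 546) (nat_lit 2204) (nat_lit 0) (XT.nd (nat_lit 234) (nat_lit 1216) (nat_lit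 0) (XT.nd (nat_lit 78) (nat_lit 608) (nat_lit 0) (XT.lf (nat_lit 0) (nat_lit 5592651195) (nat_lit 684) (nat_lit 4758920078) (nat_lit 760) (nat_lit 4956911118) (nat_lit 243) (nat_lit 5) (nat_lit 252) (nat_lit 5) (nat_lit 253) (nat_lit 5) (nat_lit 469) (nat_lit 417) (nat_lit 254)) (XT.nd (nat_lit 78) (nat_lit 608) (nat_lit 0) (XT.lf (nat_lit 0) (nat_lit 12781149156) (nat_lit 760) (nat_lit 1786397086) (nat_lit 76) (nat_lit 920766810) (nat_lit 243) (nat_lit 5) (nat_lit 253) (nat_lit 5) (nat_lit 244) (nat_lit 5) (nat_lit 470) (nat_lit 417) (nat_lit 253)) (XT.lf (nat_lit 0) (nat_lit 6342281827) (nat_lit 608) (nat_lit 8980392394) (nat_lit 684) (nat_lit 347804297) (nat_lit 235) (nat_lit 5) (nat_lit 243) (nat_lit 5) (nat_lit 244) (nat_lit 5) (nat_lit 471) (nat_lit 417) (nat_lit 252)))) (XT.nd (nat_lit 156) (nat_lit 532) (nat_lit 0) (XT.nd (nat_lit 78) (nat_lit 608) (nat_lit 0) (XT.lf (nat_lit 0) (nat_lit 2034515943) (nat_lit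 684) (nat_lit 1222808440) (nat_lit 76) (nat_lit 12598645189) (nat_lit 234) (nat_lit 5) (nat_lit 243) (nat_lit 5) (nat_lit 235) (nat_lit 5) (nat_lit 472) (nat_lit 417) (nat_lit 251)) (XT.lf (nat_lit 0) (nat_lit 4514042079) (nat_lit 684) (nat_lit 8936466707) (nat_lit 76) (nat_lit 2593536343) (nat_lit 226) (nat_lit 5) (nat_lit 235) (nat_lit 5) (nat_lit 227) (nat_lit 5) (nat_lit 473) (nat_lit 417) (nat_lit 250))) (XT.nd (nat_lit 78) (nat_lit 532) (nat_lit 0) (XT.lf (nat_lit 0) (nat_lit 7063976998) (nat_lit 684) (nat_lit 647144902) (nat_lit 76) (nat_lit 8524348834) (nat_lit 226) (nat_lit 5) (nat_lit 235) (nat_lit 5) (nat_lit 227) (nat_lit 5) (nat_lit 474) (nat_lit 417) (nat_lit 249)) (XT.lf (nat_lit 0) (nat_lit 7900849794) (nat_lit 532) (nat_lit 1806521656) (nat_lit 608) (nat_lit 6722508986) (nat_lit 219) (nat_lit 5) (nat_lit 226) (nat_lit 5) (nat_lit 227) (nat_lit 5) (nat_lit 475) (nat_lit 417) (nat_lit 248))))) (XT.nd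 (nat_lit 234) (nat_lit 988) (nat_lit 0) (XT.nd (nat_lit 78) (nat_lit 1216) (nat_lit 0) (XT.lf (nat_lit 0) (nat_lit 12426634182) (nat_lit 608) (nat_lit 37748621) (nat_lit 76) (nat_lit 4163340231) (nat_lit 219) (nat_lit 5) (nat_lit 227) (nat_lit 5) (nat_lit 220) (nat_lit 5) (nat_lit 476) (nat_lit 417) (nat_lit 247)) (XT.nd (nat_lit 78) (nat_lit 608) (nat_lit 0) (XT.lf (nat_lit 0) (nat_lit 8715076675) (nat_lit 608) (nat_lit 6545179515) (nat_lit 684) (nat_lit 1568071429) (nat_lit 211) (nat_lit 5) (nat_lit 219) (nat_lit 5) (nat_lit 220) (nat_lit 5) (nat_lit 477) (nat_lit 417) (nat_lit 246)) (XT.lf (nat_lit 0) (nat_lit 600482007) (nat_lit 532) (nat_lit 498085728) (nat_lit 608) (nat_lit 15934323493) (nat_lit 203) (nat_lit 5) (nat_lit 210) (nat_lit 5) (nat_lit 211) (nat_lit 5) (nat_lit 478) (nat_lit 417) (nat_lit 245)))) (XT.nd (nat_lit 156) (nat_lit 456) (nat_lit 0) (XT.nd (nat_lit 78) (nat_lit 532) (nat_lit 0) (XT.lf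 (nat_lit 0) (nat_lit 3880730461) (nat_lit 608) (nat_lit 7700303886) (nat_lit 76) (nat_lit 5658645069) (nat_lit 203) (nat_lit 5) (nat_lit 211) (nat_lit 5) (nat_lit 204) (nat_lit 5) (nat_lit 479) (nat_lit 417) (nat_lit 244)) (XT.lf (nat_lit 0) (nat_lit 1208449578) (nat_lit 532) (nat_lit 5512946997) (nat_lit 608) (nat_lit 10729153854) (nat_lit 196) (nat_lit 5) (nat_lit 203) (nat_lit 5) (nat_lit 204) (nat_lit 5) (nat_lit 480) (nat_lit 417) (nat_lit 243))) (XT.nd (nat_lit 78) (nat_lit 456) (nat_lit 0) (XT.lf (nat_lit 0) (nat_lit 9667078703) (nat_lit 608) (nat_lit 7280210355) (nat_lit 76) (nat_lit 717389933) (nat_lit 196) (nat_lit 5) (nat_lit 204) (nat_lit 5) (nat_lit 197) (nat_lit 5) (nat_lit 481) (nat_lit 417) (nat_lit 242)) (XT.lf (nat_lit 0) (nat_lit 1838095513) (nat_lit 456) (nat_lit 10873978651) (nat_lit 532) (nat_lit 5170212065) (nat_lit 190) (nat_lit 5) (nat_lit 196) (nat_lit 5) (nat_lit 197) (nat_lit 5) (nat_lit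 482) (nat_lit 417) (nat_lit 241)))))) (XT.nd (nat_lit 546) (nat_lit 1900) (nat_lit 0) (XT.nd (nat_lit 234) (nat_lit 912) (nat_lit 0) (XT.nd (nat_lit 78) (nat_lit 608) (nat_lit 0) (XT.lf (nat_lit 0) (nat_lit 11227101408) (nat_lit 456) (nat_lit 4631768661) (nat_lit 532) (nat_lit 2244561550) (nat_lit 190) (nat_lit 5) (nat_lit 196) (nat_lit 5) (nat_lit 197) (nat_lit 5) (nat_lit 483) (nat_lit 417) (nat_lit 240)) (XT.nd (nat_lit 78) (nat_lit 0) (nat_lit 0) (XT.lf (nat_lit 0) (nat_lit 749621956) (nat_lit 608) (nat_lit 15847612304) (nat_lit 76) (nat_lit 1731279081) (nat_lit 182) (nat_lit 5) (nat_lit 190) (nat_lit 5) (nat_lit 183) (nat_lit 5) (nat_lit 484) (nat_lit 417) (nat_lit 239)) (XT.lf (nat_lit 0) (nat_lit 3843004902) (nat_lit 608) (nat_lit 6494863039) (nat_lit 76) (nat_lit 8218548403) (nat_lit 182) (nat_lit 5) (nat_lit 190) (nat_lit 5) (nat_lit 183) (nat_lit 5) (nat_lit 485) (nat_lit 417) (nat_lit 238)))) (XT.nd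 (nat_lit 156) (nat_lit 456) (nat_lit 0) (XT.nd (nat_lit 78) (nat_lit 0) (nat_lit 0) (XT.lf (nat_lit 0) (nat_lit 3075142456) (nat_lit 456) (nat_lit 3935450490) (nat_lit 532) (nat_lit 11778041425) (nat_lit 176) (nat_lit 5) (nat_lit 182) (nat_lit 5) (nat_lit 183) (nat_lit 5) (nat_lit 486) (nat_lit 417) (nat_lit 237)) (XT.lf (nat_lit 0) (nat_lit 10294693357) (nat_lit 532) (nat_lit 6127375962) (nat_lit 76) (nat_lit 2602367867) (nat_lit 176) (nat_lit 5) (nat_lit 183) (nat_lit 5) (nat_lit 177) (nat_lit 5) (nat_lit 487) (nat_lit 417) (nat_lit 236))) (XT.nd (nat_lit 78) (nat_lit 0) (nat_lit 0) (XT.lf (nat_lit 0) (nat_lit 3662431876) (nat_lit 456) (nat_lit 10024473129) (nat_lit 532) (nat_lit 5577206038) (nat_lit 170) (nat_lit 5) (nat_lit 176) (nat_lit 5) (nat_lit 177) (nat_lit 5) (nat_lit 488) (nat_lit 417) (nat_lit 235)) (XT.lf (nat_lit 0) (nat_lit 13721158564) (nat_lit 456) (nat_lit 3459588777) (nat_lit 532) (nat_lit 2327158804)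 (nat_lit 170) (nat_lit 5) (nat_lit 176) (nat_lit 5) (nat_lit 177) (nat_lit 5) (nat_lit 489) (nat_lit 417) (nat_lit 234))))) (XT.nd (nat_lit 312) (nat_lit 912) (nat_lit 0) (XT.nd (nat_lit 156) (nat_lit 456) (nat_lit 0) (XT.nd (nat_lit 78) (nat_lit 0) (nat_lit 0) (XT.lf (nat_lit 0) (nat_lit 1016603091) (nat_lit 532) (nat_lit 15513112846) (nat_lit 76) (nat_lit 3225902894) (nat_lit 163) (nat_lit 5) (nat_lit 170) (nat_lit 5) (nat_lit 164) (nat_lit 5) (nat_lit 490) (nat_lit 417) (nat_lit 233)) (XT.lf (nat_lit 0) (nat_lit 4450931960) (nat_lit 532) (nat_lit 5505208647) (nat_lit 76) (nat_lit 10050743763) (nat_lit 163) (nat_lit 5) (nat_lit 170) (nat_lit 5) (nat_lit 164) (nat_lit 5) (nat_lit 491) (nat_lit 417) (nat_lit 232))) (XT.nd (nat_lit 78) (nat_lit 0) (nat_lit 0) (XT.lf (nat_lit 0) (nat_lit 4755512217) (nat_lit 456) (nat_lit 3222274649) (nat_lit 532) (nat_lit 12284914795) (nat_lit 157) (nat_lit 5) (nat_lit 163) (nat_lit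 5) (nat_lit 164) (nat_lit 5) (nat_lit 492) (nat_lit 417) (nat_lit 231)) (XT.lf (nat_lit 0) (nat_lit 11629061789) (nat_lit 532) (nat_lit 5260514922) (nat_lit 76) (nat_lit 3632984099) (nat_lit 157) (nat_lit 5) (nat_lit 164) (nat_lit 5) (nat_lit 158) (nat_lit 5) (nat_lit 493) (nat_lit 417) (nat_lit 230)))) (XT.nd (nat_lit 156) (nat_lit 532) (nat_lit 0) (XT.nd (nat_lit 78) (nat_lit 0) (nat_lit 0) (XT.lf (nat_lit 0) (nat_lit 5228749232) (nat_lit 380) (nat_lit 10173059306) (nat_lit 456) (nat_lit 5384842783) (nat_lit 152) (nat_lit 5) (nat_lit 157) (nat_lit 5) (nat_lit 158) (nat_lit 5) (nat_lit 494) (nat_lit 417) (nat_lit 229)) (XT.lf (nat_lit 0) (nat_lit 15989589086) (nat_lit 380) (nat_lit 3288952574) (nat_lit 456) (nat_lit 1776914399) (nat_lit 152) (nat_lit 5) (nat_lit 157) (nat_lit 5) (nat_lit 158) (nat_lit 5) (nat_lit 495) (nat_lit 417) (nat_lit 228))) (XT.nd (nat_lit 78) (nat_lit 0) (nat_lit 0) (XT.lf (nat_lit 0)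 (nat_lit 1933008978) (nat_lit 532) (nat_lit 15664492392) (nat_lit 76) (nat_lit 3730795379) (nat_lit 145) (nat_lit 5) (nat_lit 152) (nat_lit 5) (nat_lit 146) (nat_lit 5) (nat_lit 496) (nat_lit 417) (nat_lit 227)) (XT.lf (nat_lit 0) (nat_lit 5742729977) (nat_lit 532) (nat_lit 4972427697) (nat_lit 76) (nat_lit 10890216702) (nat_lit 145) (nat_lit 5) (nat_lit 152) (nat_lit 5) (nat_lit 146) (nat_lit 5) (nat_lit 497) (nat_lit 417) (nat_lit 226))))))))
noncomputable def xc186 : XT := (XT.nd (nat_lit 53352) (nat_lit 0) (nat_lit 20140) (XT.nd (nat_lit 1092) (nat_lit 1596) (nat_lit 0) (XT.nd (nat_lit 546) (nat_lit 1064) (nat_lit 0) (XT.nd (nat_lit 234) (nat_lit 836) (nat_lit 0) (XT.nd (nat_lit 78) (nat_lit 380) (nat_lit 0) (XT.lf (nat_lit 0) (nat_lit 6002915754) (nat_lit 380) (nat_lit 3658203461) (nat_lit 456) (nat_lit 12226227675) (nat_lit 140) (nat_lit 5) (nat_lit 145) (nat_lit 5) (nat_lit 146) (nat_lit 5) (nat_lit 498)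 (nat_lit 417) (nat_lit 225)) (XT.nd (nat_lit 78) (nat_lit 380) (nat_lit 0) (XT.lf (nat_lit 0) (nat_lit 13707996427) (nat_lit 456) (nat_lit 4941671149) (nat_lit 76) (nat_lit 3524291635) (nat_lit 140) (nat_lit 5) (nat_lit 146) (nat_lit 5) (nat_lit 141) (nat_lit 5) (nat_lit 499) (nat_lit 417) (nat_lit 224)) (XT.lf (nat_lit 0) (nat_lit 6268772828) (nat_lit 380) (nat_lit 11625640692) (nat_lit 456) (nat_lit 4570720915) (nat_lit 135) (nat_lit 5) (nat_lit 140) (nat_lit 5) (nat_lit 141) (nat_lit 5) (nat_lit 500) (nat_lit 417) (nat_lit 223)))) (XT.nd (nat_lit 156) (nat_lit 380) (nat_lit 0) (XT.nd (nat_lit 78) (nat_lit 456) (nat_lit 0) (XT.lf (nat_lit 0) (nat_lit 17761310827) (nat_lit 380) (nat_lit 4430149074) (nat_lit 456) (nat_lit 570137897) (nat_lit 135) (nat_lit 5) (nat_lit 140) (nat_lit 5) (nat_lit 141) (nat_lit 5) (nat_lit 501) (nat_lit 417) (nat_lit 222)) (XT.lf (nat_lit 0) (nat_lit 3519561209) (nat_lit 456) (nat_lit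 16609317787) (nat_lit 76) (nat_lit 2933555241) (nat_lit 129) (nat_lit 5) (nat_lit 135) (nat_lit 5) (nat_lit 130) (nat_lit 5) (nat_lit 502) (nat_lit 417) (nat_lit 221))) (XT.nd (nat_lit 78) (nat_lit 380) (nat_lit 0) (XT.lf (nat_lit 0) (nat_lit 7740406791) (nat_lit 456) (nat_lit 5207638846) (nat_lit 76) (nat_lit 10420029162) (nat_lit 129) (nat_lit 5) (nat_lit 135) (nat_lit 5) (nat_lit 130) (nat_lit 5) (nat_lit 503) (nat_lit 417) (nat_lit 220)) (XT.lf (nat_lit 0) (nat_lit 6498425238) (nat_lit 380) (nat_lit 5583420441) (nat_lit 456) (nat_lit 11597261415) (nat_lit 124) (nat_lit 5) (nat_lit 129) (nat_lit 5) (nat_lit 130) (nat_lit 5) (nat_lit 504) (nat_lit 417) (nat_lit 219))))) (XT.nd (nat_lit 234) (nat_lit 684) (nat_lit 0) (XT.nd (nat_lit 78) (nat_lit 380) (nat_lit 0) (XT.lf (nat_lit 0) (nat_lit 16551838279) (nat_lit 456) (nat_lit 5508133076) (nat_lit 76) (nat_lit 1935556583) (nat_lit 124) (nat_lit 5) (nat_lit 130)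 (nat_lit 5) (nat_lit 125) (nat_lit 5) (nat_lit 505) (nat_lit 417) (nat_lit 218)) (XT.nd (nat_lit 78) (nat_lit 76) (nat_lit 0) (XT.lf (nat_lit 0) (nat_lit 6436560995) (nat_lit 304) (nat_lit 14747580002) (nat_lit 380) (nat_lit 3132680350) (nat_lit 120) (nat_lit 5) (nat_lit 124) (nat_lit 5) (nat_lit 125) (nat_lit 5) (nat_lit 506) (nat_lit 417) (nat_lit 217)) (XT.lf (nat_lit 0) (nat_lit 1279332906) (nat_lit 380) (nat_lit 5966211672) (nat_lit 76) (nat_lit 17398206733) (nat_lit 119) (nat_lit 5) (nat_lit 124) (nat_lit 5) (nat_lit 120) (nat_lit 5) (nat_lit 507) (nat_lit 417) (nat_lit 216)))) (XT.nd (nat_lit 156) (nat_lit 304) (nat_lit 0) (XT.nd (nat_lit 78) (nat_lit 0) (nat_lit 0) (XT.lf (nat_lit 0) (nat_lit 5775486393) (nat_lit 456) (nat_lit 18740542390) (nat_lit 76) (nat_lit 460022239) (nat_lit 114) (nat_lit 5) (nat_lit 120) (nat_lit 5) (nat_lit 115) (nat_lit 5) (nat_lit 508) (nat_lit 417) (nat_lit 215)) (XT.lf (nat_lit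 0) (nat_lit 10444162173) (nat_lit 456) (nat_lit 6608944718) (nat_lit 76) (nat_lit 8260240027) (nat_lit 114) (nat_lit 5) (nat_lit 120) (nat_lit 5) (nat_lit 115) (nat_lit 5) (nat_lit 509) (nat_lit 417) (nat_lit 214))) (XT.nd (nat_lit 78) (nat_lit 0) (nat_lit 0) (XT.lf (nat_lit 0) (nat_lit 5833322579) (nat_lit 304) (nat_lit 9405188103) (nat_lit 380) (nat_lit 10418234197) (nat_lit 110) (nat_lit 5) (nat_lit 114) (nat_lit 5) (nat_lit 115) (nat_lit 5) (nat_lit 510) (nat_lit 417) (nat_lit 213)) (XT.lf (nat_lit 0) (nat_lit 18605609510) (nat_lit 304) (nat_lit 1561966256) (nat_lit 380) (nat_lit 5838660533) (nat_lit 110) (nat_lit 5) (nat_lit 114) (nat_lit 5) (nat_lit 115) (nat_lit 5) (nat_lit 511) (nat_lit 417) (nat_lit 212)))))) (XT.nd (nat_lit 546) (nat_lit 304) (nat_lit 0) (XT.nd (nat_lit 234) (nat_lit 608) (nat_lit 0) (XT.nd (nat_lit 78) (nat_lit 380) (nat_lit 0) (XT.lf (nat_lit 0) (nat_lit 5289862952) (nat_lit 304) (nat_lit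 19976074975) (nat_lit 380) (nat_lit 1095367354) (nat_lit 106) (nat_lit 5) (nat_lit 110) (nat_lit 5) (nat_lit 111) (nat_lit 5) (nat_lit 512) (nat_lit 417) (nat_lit 211)) (XT.nd (nat_lit 78) (nat_lit 304) (nat_lit 0) (XT.lf (nat_lit 0) (nat_lit 3748624463) (nat_lit 380) (nat_lit 8431333899) (nat_lit 76) (nat_lit 14541934834) (nat_lit 105) (nat_lit 5) (nat_lit 110) (nat_lit 5) (nat_lit 106) (nat_lit 5) (nat_lit 513) (nat_lit 417) (nat_lit 210)) (XT.lf (nat_lit 0) (nat_lit 4505215488) (nat_lit 304) (nat_lit 4193569419) (nat_lit 380) (nat_lit 18390285971) (nat_lit 101) (nat_lit 5) (nat_lit 105) (nat_lit 5) (nat_lit 106) (nat_lit 5) (nat_lit 514) (nat_lit 417) (nat_lit 209)))) (XT.nd (nat_lit 156) (nat_lit 304) (nat_lit 0) (XT.nd (nat_lit 78) (nat_lit 304) (nat_lit 0) (XT.lf (nat_lit 0) (nat_lit 13825288232) (nat_lit 380) (nat_lit 9681941236) (nat_lit 76) (nat_lit 3954817746) (nat_lit 101) (nat_lit 5) (nat_lit 106) (nat_lit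 5) (nat_lit 102) (nat_lit 5) (nat_lit 515) (nat_lit 417) (nat_lit 208)) (XT.lf (nat_lit 0) (nat_lit 3487916957) (nat_lit 304) (nat_lit 15611649706) (nat_lit 380) (nat_lit 8742013370) (nat_lit 97) (nat_lit 5) (nat_lit 101) (nat_lit 5) (nat_lit 102) (nat_lit 5) (nat_lit 516) (nat_lit 417) (nat_lit 207))) (XT.nd (nat_lit 78) (nat_lit 304) (nat_lit 0) (XT.lf (nat_lit 0) (nat_lit 17044399730) (nat_lit 304) (nat_lit 7494778438) (nat_lit 380) (nat_lit 3688330210) (nat_lit 97) (nat_lit 5) (nat_lit 101) (nat_lit 5) (nat_lit 102) (nat_lit 5) (nat_lit 517) (nat_lit 417) (nat_lit 206)) (XT.lf (nat_lit 0) (nat_lit 1462064453) (nat_lit 304) (nat_lit 26362917674) (nat_lit 76) (nat_lit 795687086) (nat_lit 93) (nat_lit 5) (nat_lit 97) (nat_lit 5) (nat_lit 94) (nat_lit 5) (nat_lit 518) (nat_lit 417) (nat_lit 205))))) (XT.nd (nat_lit 234) (nat_lit 0) (nat_lit 0) (XT.nd (nat_lit 78) (nat_lit 304) (nat_lit 0) (XT.lf (nat_lit 0) (nat_lit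 6786273737) (nat_lit 304) (nat_lit 12983687626) (nat_lit 76) (nat_lit 9248842150) (nat_lit 93) (nat_lit 5) (nat_lit 97) (nat_lit 5) (nat_lit 94) (nat_lit 5) (nat_lit 519) (nat_lit 417) (nat_lit 204)) (XT.nd (nat_lit 78) (nat_lit 0) (nat_lit 0) (XT.lf (nat_lit 0) (nat_lit 664035121) (nat_lit 304) (nat_lit 11552313522) (nat_lit 380) (nat_lit 17208565910) (nat_lit 89) (nat_lit 5) (nat_lit 93) (nat_lit 5) (nat_lit 94) (nat_lit 5) (nat_lit 520) (nat_lit 417) (nat_lit 203)) (XT.lf (nat_lit 0) (nat_lit 14752960105) (nat_lit 304) (nat_lit 3084308748) (nat_lit 380) (nat_lit 12000235732) (nat_lit 89) (nat_lit 5) (nat_lit 93) (nat_lit 5) (nat_lit 94) (nat_lit 5) (nat_lit 521) (nat_lit 417) (nat_lit 202)))) (XT.nd (nat_lit 51324) (nat_lit 0) (nat_lit 28196) (XT.nd (nat_lit 51246) (nat_lit 0) (nat_lit 28196) (XT.lf (nat_lit 0) (nat_lit 23601855534) (nat_lit 380) (nat_lit 1178413651) (nat_lit 76) (nat_lit 5477453887) (nat_lit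 89) (nat_lit 5) (nat_lit 94) (nat_lit 5) (nat_lit 90) (nat_lit 5) (nat_lit 522) (nat_lit 417) (nat_lit 201)) (XT.lf (nat_lit 0) (nat_lit 1845252536) (nat_lit 0) (nat_lit 1845252536) (nat_lit 1444) (nat_lit 933682400) (nat_lit 460) (nat_lit 5) (nat_lit 460) (nat_lit 3) (nat_lit 479) (nat_lit 3) (nat_lit 418) (nat_lit 418) (nat_lit 304))) (XT.nd (nat_lit 78) (nat_lit 0) (nat_lit 0) (XT.lf (nat_lit 0) (nat_lit 8041319394) (nat_lit 0) (nat_lit 224461666) (nat_lit 1444) (nat_lit 1058245627) (nat_lit 460) (nat_lit 5) (nat_lit 460) (nat_lit 3) (nat_lit 479) (nat_lit 3) (nat_lit 419) (nat_lit 418) (nat_lit 303)) (XT.lf (nat_lit 76) (nat_lit 3085786140) (nat_lit 0) (nat_lit 6102790064) (nat_lit 1520) (nat_lit 212224759) (nat_lit 461) (nat_lit 5) (nat_lit 460) (nat_lit 5) (nat_lit 480) (nat_lit 5) (nat_lit 420) (nat_lit 418) (nat_lit 302))))))) (XT.nd (nat_lit 1092) (nat_lit 5244) (nat_lit 0) (XT.nd (nat_lit 546) (nat_lit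 1292) (nat_lit 0) (XT.nd (nat_lit 234) (nat_lit 0) (nat_lit 76) (XT.nd (nat_lit 78) (nat_lit 0) (nat_lit 76) (XT.lf (nat_lit 0) (nat_lit 631320825) (nat_lit 1520) (nat_lit 1937037907) (nat_lit 1596) (nat_lit 6910900171) (nat_lit 440) (nat_lit 5) (nat_lit 460) (nat_lit 5) (nat_lit 461) (nat_lit 5) (nat_lit 421) (nat_lit 418) (nat_lit 301)) (XT.nd (nat_lit 78) (nat_lit 0) (nat_lit 0) (XT.lf (nat_lit 0) (nat_lit 1491761667) (nat_lit 1520) (nat_lit 7016881882) (nat_lit 1596) (nat_lit 1050572224) (nat_lit 441) (nat_lit 5) (nat_lit 461) (nat_lit 5) (nat_lit 462) (nat_lit 5) (nat_lit 422) (nat_lit 418) (nat_lit 300)) (XT.lf (nat_lit 0) (nat_lit 2379296140) (nat_lit 1520) (nat_lit 2531608243) (nat_lit 1596) (nat_lit 4729684551) (nat_lit 441) (nat_lit 5) (nat_lit 461) (nat_lit 5) (nat_lit 462) (nat_lit 5) (nat_lit 423) (nat_lit 418) (nat_lit 299)))) (XT.nd (nat_lit 156) (nat_lit 0) (nat_lit 76) (XT.nd (nat_lit 78) (nat_lit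 0) (nat_lit 76) (XT.lf (nat_lit 76) (nat_lit 2059050651) (nat_lit 0) (nat_lit 1219086814) (nat_lit 1596) (nat_lit 6445595527) (nat_lit 442) (nat_lit 5) (nat_lit 441) (nat_lit 5) (nat_lit 462) (nat_lit 5) (nat_lit 424) (nat_lit 418) (nat_lit 298)) (XT.lf (nat_lit 0) (nat_lit 4209146970) (nat_lit 1520) (nat_lit 3060715621) (nat_lit 1596) (nat_lit 2538407787) (nat_lit 442) (nat_lit 5) (nat_lit 462) (nat_lit 5) (nat_lit 463) (nat_lit 5) (nat_lit 425) (nat_lit 418) (nat_lit 297))) (XT.nd (nat_lit 78) (nat_lit 0) (nat_lit 76) (XT.lf (nat_lit 76) (nat_lit 1637251139) (nat_lit 0) (nat_lit 3521166732) (nat_lit 1596) (nat_lit 4736101809) (nat_lit 443) (nat_lit 5) (nat_lit 442) (nat_lit 5) (nat_lit 463) (nat_lit 5) (nat_lit 426) (nat_lit 418) (nat_lit 296)) (XT.lf (nat_lit 0) (nat_lit 6130598457) (nat_lit 1520) (nat_lit 3525357168) (nat_lit 1596) (nat_lit 326473578) (nat_lit 443) (nat_lit 5) (nat_lit 463) (nat_lit 5) (nat_lit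 464) (nat_lit 5) (nat_lit 427) (nat_lit 418) (nat_lit 295))))) (XT.nd (nat_lit 234) (nat_lit 1520) (nat_lit 0) (XT.nd (nat_lit 78) (nat_lit 0) (nat_lit 0) (XT.lf (nat_lit 76) (nat_lit 1283093660) (nat_lit 0) (nat_lit 5852430812) (nat_lit 1596) (nat_lit 2936319857) (nat_lit 444) (nat_lit 5) (nat_lit 443) (nat_lit 5) (nat_lit 464) (nat_lit 5) (nat_lit 428) (nat_lit 418) (nat_lit 294)) (XT.nd (nat_lit 78) (nat_lit 0) (nat_lit 76) (XT.lf (nat_lit 76) (nat_lit 6223969223) (nat_lit 0) (nat_lit 1942173818) (nat_lit 1596) (nat_lit 1996806021) (nat_lit 444) (nat_lit 5) (nat_lit 443) (nat_lit 5) (nat_lit 464) (nat_lit 5) (nat_lit 429) (nat_lit 418) (nat_lit 293)) (XT.lf (nat_lit 76) (nat_lit 995847261) (nat_lit 0) (nat_lit 8223611065) (nat_lit 1596) (nat_lit 1036388805) (nat_lit 445) (nat_lit 5) (nat_lit 444) (nat_lit 5) (nat_lit 465) (nat_lit 5) (nat_lit 430) (nat_lit 418) (nat_lit 292)))) (XT.nd (nat_lit 156) (nat_lit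 0) (nat_lit 76) (XT.nd (nat_lit 78) (nat_lit 1596) (nat_lit 0) (XT.lf (nat_lit 76) (nat_lit 6058094873) (nat_lit 0) (nat_lit 4257558776) (nat_lit 1596) (nat_lit 34525912) (nat_lit 445) (nat_lit 5) (nat_lit 444) (nat_lit 5) (nat_lit 465) (nat_lit 5) (nat_lit 431) (nat_lit 418) (nat_lit 291)) (XT.lf (nat_lit 76) (nat_lit 767190692) (nat_lit 0) (nat_lit 195034602) (nat_lit 1672) (nat_lit 9484301301) (nat_lit 424) (nat_lit 5) (nat_lit 423) (nat_lit 5) (nat_lit 445) (nat_lit 5) (nat_lit 432) (nat_lit 418) (nat_lit 290))) (XT.nd (nat_lit 78) (nat_lit 0) (nat_lit 0) (XT.lf (nat_lit 0) (nat_lit 2016196370) (nat_lit 1596) (nat_lit 4596407485) (nat_lit 1672) (nat_lit 3931449150) (nat_lit 424) (nat_lit 5) (nat_lit 445) (nat_lit 5) (nat_lit 446) (nat_lit 5) (nat_lit 433) (nat_lit 418) (nat_lit 289)) (XT.lf (nat_lit 76) (nat_lit 582808333) (nat_lit 0) (nat_lit 2496961173) (nat_lit 1672) (nat_lit 7564001693) (nat_lit 425) (nat_lit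 5) (nat_lit 424) (nat_lit 5) (nat_lit 446) (nat_lit 5) (nat_lit 434) (nat_lit 418) (nat_lit 288)))))) (XT.nd (nat_lit 546) (nat_lit 3876) (nat_lit 0) (XT.nd (nat_lit 234) (nat_lit 1520) (nat_lit 0) (XT.nd (nat_lit 78) (nat_lit 0) (nat_lit 0) (XT.lf (nat_lit 0) (nat_lit 4190432909) (nat_lit 1596) (nat_lit 4840214999) (nat_lit 1672) (nat_lit 1714330952) (nat_lit 425) (nat_lit 5) (nat_lit 446) (nat_lit 5) (nat_lit 447) (nat_lit 5) (nat_lit 435) (nat_lit 418) (nat_lit 287)) (XT.nd (nat_lit 78) (nat_lit 0) (nat_lit 0) (XT.lf (nat_lit 76) (nat_lit 462701782) (nat_lit 0) (nat_lit 4864193462) (nat_lit 1672) (nat_lit 5521254972) (nat_lit 426) (nat_lit 5) (nat_lit 425) (nat_lit 5) (nat_lit 447) (nat_lit 5) (nat_lit 436) (nat_lit 418) (nat_lit 286)) (XT.lf (nat_lit 76) (nat_lit 5925586484) (nat_lit 0) (nat_lit 577262932) (nat_lit 1672) (nat_lit 4450211364) (nat_lit 426) (nat_lit 5) (nat_lit 425) (nat_lit 5) (nat_lit 447)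 (nat_lit 5) (nat_lit 437) (nat_lit 418) (nat_lit 285)))) (XT.nd (nat_lit 156) (nat_lit 1596) (nat_lit 0) (XT.nd (nat_lit 78) (nat_lit 0) (nat_lit 0) (XT.lf (nat_lit 76) (nat_lit 406532823) (nat_lit 0) (nat_lit 7307687584) (nat_lit 1672) (nat_lit 3345622011) (nat_lit 427) (nat_lit 5) (nat_lit 426) (nat_lit 5) (nat_lit 448) (nat_lit 5) (nat_lit 438) (nat_lit 418) (nat_lit 284)) (XT.lf (nat_lit 76) (nat_lit 6001756867) (nat_lit 0) (nat_lit 2970438129) (nat_lit 1672) (nat_lit 2196127774) (nat_lit 427) (nat_lit 5) (nat_lit 426) (nat_lit 5) (nat_lit 448) (nat_lit 5) (nat_lit 439) (nat_lit 418) (nat_lit 283))) (XT.nd (nat_lit 78) (nat_lit 1672) (nat_lit 0) (XT.lf (nat_lit 76) (nat_lit 414068334) (nat_lit 0) (nat_lit 9838546997) (nat_lit 1672) (nat_lit 1026422071) (nat_lit 428) (nat_lit 5) (nat_lit 427) (nat_lit 5) (nat_lit 449) (nat_lit 5) (nat_lit 440) (nat_lit 418) (nat_lit 282)) (XT.lf (nat_lit 0) (nat_lit 204331597)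 (nat_lit 1672) (nat_lit 5247872412) (nat_lit 1748) (nat_lit 5938953870) (nat_lit 405) (nat_lit 5) (nat_lit 427) (nat_lit 5) (nat_lit 428) (nat_lit 5) (nat_lit 441) (nat_lit 418) (nat_lit 281))))) (XT.nd (nat_lit 312) (nat_lit 2280) (nat_lit 0) (XT.nd (nat_lit 156) (nat_lit 1596) (nat_lit 0) (XT.nd (nat_lit 78) (nat_lit 0) (nat_lit 76) (XT.lf (nat_lit 76) (nat_lit 469191475) (nat_lit 0) (nat_lit 965381187) (nat_lit 1748) (nat_lit 10071049885) (nat_lit 406) (nat_lit 5) (nat_lit 405) (nat_lit 5) (nat_lit 428) (nat_lit 5) (nat_lit 442) (nat_lit 418) (nat_lit 280)) (XT.lf (nat_lit 0) (nat_lit 2734095180) (nat_lit 1672) (nat_lit 5285583276) (nat_lit 76) (nat_lit 3601814126) (nat_lit 406) (nat_lit 5) (nat_lit 428) (nat_lit 5) (nat_lit 407) (nat_lit 5) (nat_lit 443) (nat_lit 418) (nat_lit 279))) (XT.nd (nat_lit 78) (nat_lit 0) (nat_lit 0) (XT.lf (nat_lit 0) (nat_lit 569628972) (nat_lit 1672) (nat_lit 3486130897) (nat_lit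 1748) (nat_lit 7684006529) (nat_lit 384) (nat_lit 5) (nat_lit 406) (nat_lit 5) (nat_lit 407) (nat_lit 5) (nat_lit 444) (nat_lit 418) (nat_lit 278)) (XT.lf (nat_lit 0) (nat_lit 5433222315) (nat_lit 1748) (nat_lit 5265677996) (nat_lit 76) (nat_lit 1160927325) (nat_lit 384) (nat_lit 5) (nat_lit 407) (nat_lit 5) (nat_lit 385) (nat_lit 5) (nat_lit 445) (nat_lit 418) (nat_lit 277)))) (XT.nd (nat_lit 156) (nat_lit 836) (nat_lit 0) (XT.nd (nat_lit 78) (nat_lit 0) (nat_lit 0) (XT.lf (nat_lit 0) (nat_lit 731663374) (nat_lit 1444) (nat_lit 6120948529) (nat_lit 1520) (nat_lit 5129399688) (nat_lit 365) (nat_lit 5) (nat_lit 384) (nat_lit 5) (nat_lit 385) (nat_lit 5) (nat_lit 446) (nat_lit 418) (nat_lit 276)) (XT.lf (nat_lit 0) (nat_lit 6908690119) (nat_lit 1444) (nat_lit 1413763469) (nat_lit 1520) (nat_lit 3783753225) (nat_lit 365) (nat_lit 5) (nat_lit 384) (nat_lit 5) (nat_lit 385) (nat_lit 5) (nat_lit 447) (nat_lit 418) (nat_lit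 275))) (XT.nd (nat_lit 78) (nat_lit 0) (nat_lit 0) (XT.lf (nat_lit 0) (nat_lit 955214756) (nat_lit 836) (nat_lit 8881673002) (nat_lit 912) (nat_lit 2395702969) (nat_lit 354) (nat_lit 5) (nat_lit 365) (nat_lit 5) (nat_lit 366) (nat_lit 5) (nat_lit 448) (nat_lit 418) (nat_lit 274)) (XT.lf (nat_lit 0) (nat_lit 7280354160) (nat_lit 836) (nat_lit 4132614552) (nat_lit 912) (nat_lit 947914973) (nat_lit 354) (nat_lit 5) (nat_lit 365) (nat_lit 5) (nat_lit 366) (nat_lit 5) (nat_lit 449) (nat_lit 418) (nat_lit 273))))))))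
noncomputable def xc187 : XT := (XT.nd (nat_lit 2184) (nat_lit 6612) (nat_lit 0) (XT.nd (nat_lit 1092) (nat_lit 5168) (nat_lit 0) (XT.nd (nat_lit 546) (nat_lit 2280) (nat_lit 0) (XT.nd (nat_lit 234) (nat_lit 1596) (nat_lit 0) (XT.nd (nat_lit 78) (nat_lit 836) (nat_lit 0) (XT.lf (nat_lit 0) (nat_lit 521995160) (nat_lit 988) (nat_lit 11254934990) (nat_lit 76) (nat_lit 714749839) (nat_lit 341) (nat_lit 5) (nat_lit 354) (nat_lit 5) (nat_lit 342) (nat_lit 5) (nat_lit 450) (nat_lit 418) (nat_lit 272)) (XT.nd (nat_lit 78) (nat_lit 836) (nat_lit 0) (XT.lf (nat_lit 0) (nat_lit 2057828934) (nat_lit 988) (nat_lit 4920799357) (nat_lit 76) (nat_lit 5645362291) (nat_lit 341) (nat_lit 5) (nat_lit 354) (nat_lit 5) (nat_lit 342) (nat_lit 5) (nat_lit 451) (nat_lit 418) (nat_lit 271)) (XT.lf (nat_lit 0) (nat_lit 1548812079) (nat_lit 836) (nat_lit 2073386982) (nat_lit 912) (nat_lit 9136799813) (nat_lit 330) (nat_lit 5) (nat_lit 341)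 (nat_lit 5) (nat_lit 342) (nat_lit 5) (nat_lit 452) (nat_lit 418) (nat_lit 270)))) (XT.nd (nat_lit 156) (nat_lit 760) (nat_lit 0) (XT.nd (nat_lit 78) (nat_lit 836) (nat_lit 0) (XT.lf (nat_lit 0) (nat_lit 5258053119) (nat_lit 912) (nat_lit 4712467629) (nat_lit 76) (nat_lit 2925390377) (nat_lit 330) (nat_lit 5) (nat_lit 342) (nat_lit 5) (nat_lit 331) (nat_lit 5) (nat_lit 453) (nat_lit 418) (nat_lit 269)) (XT.lf (nat_lit 0) (nat_lit 1915124161) (nat_lit 836) (nat_lit 5025835446) (nat_lit 912) (nat_lit 6094322882) (nat_lit 319) (nat_lit 5) (nat_lit 330) (nat_lit 5) (nat_lit 331) (nat_lit 5) (nat_lit 454) (nat_lit 418) (nat_lit 268))) (XT.nd (nat_lit 78) (nat_lit 760) (nat_lit 0) (XT.lf (nat_lit 0) (nat_lit 8677801850) (nat_lit 912) (nat_lit 4449622067) (nat_lit 76) (nat_lit 49619235) (nat_lit 319) (nat_lit 5) (nat_lit 331) (nat_lit 5) (nat_lit 320) (nat_lit 5) (nat_lit 455) (nat_lit 418) (nat_lit 267)) (XT.lf (nat_lit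 0) (nat_lit 2340328055) (nat_lit 760) (nat_lit 8146090209) (nat_lit 836) (nat_lit 2834487298) (nat_lit 309) (nat_lit 5) (nat_lit 319) (nat_lit 5) (nat_lit 320) (nat_lit 5) (nat_lit 456) (nat_lit 418) (nat_lit 266))))) (XT.nd (nat_lit 234) (nat_lit 1444) (nat_lit 0) (XT.nd (nat_lit 78) (nat_lit 836) (nat_lit 0) (XT.lf (nat_lit 0) (nat_lit 9315061016) (nat_lit 760) (nat_lit 3034714747) (nat_lit 836) (nat_lit 1117505219) (nat_lit 309) (nat_lit 5) (nat_lit 319) (nat_lit 5) (nat_lit 320) (nat_lit 5) (nat_lit 457) (nat_lit 418) (nat_lit 265)) (XT.nd (nat_lit 78) (nat_lit 0) (nat_lit 0) (XT.lf (nat_lit 0) (nat_lit 647053128) (nat_lit 836) (nat_lit 10796158808) (nat_lit 76) (nat_lit 2172865546) (nat_lit 298) (nat_lit 5) (nat_lit 309) (nat_lit 5) (nat_lit 299) (nat_lit 5) (nat_lit 458) (nat_lit 418) (nat_lit 264)) (XT.lf (nat_lit 0) (nat_lit 2469094157) (nat_lit 836) (nat_lit 3818607053) (nat_lit 76) (nat_lit 7479264595)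 (nat_lit 298) (nat_lit 5) (nat_lit 309) (nat_lit 5) (nat_lit 299) (nat_lit 5) (nat_lit 459) (nat_lit 418) (nat_lit 263)))) (XT.nd (nat_lit 156) (nat_lit 760) (nat_lit 0) (XT.nd (nat_lit 78) (nat_lit 0) (nat_lit 0) (XT.lf (nat_lit 0) (nat_lit 3330989851) (nat_lit 684) (nat_lit 1007424292) (nat_lit 760) (nat_lit 9582247581) (nat_lit 289) (nat_lit 5) (nat_lit 298) (nat_lit 5) (nat_lit 299) (nat_lit 5) (nat_lit 460) (nat_lit 418) (nat_lit 262)) (XT.lf (nat_lit 0) (nat_lit 6288690401) (nat_lit 760) (nat_lit 3441510891) (nat_lit 76) (nat_lit 4346365338) (nat_lit 289) (nat_lit 5) (nat_lit 299) (nat_lit 5) (nat_lit 290) (nat_lit 5) (nat_lit 461) (nat_lit 418) (nat_lit 261))) (XT.nd (nat_lit 78) (nat_lit 0) (nat_lit 0) (XT.lf (nat_lit 0) (nat_lit 3882751684) (nat_lit 760) (nat_lit 4416657907) (nat_lit 836) (nat_lit 5935757632) (nat_lit 279) (nat_lit 5) (nat_lit 289) (nat_lit 5) (nat_lit 290) (nat_lit 5) (nat_lit 462) (nat_lit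 418) (nat_lit 260)) (XT.lf (nat_lit 0) (nat_lit 10369788303) (nat_lit 836) (nat_lit 3014241450) (nat_lit 76) (nat_lit 1012527383) (nat_lit 279) (nat_lit 5) (nat_lit 290) (nat_lit 5) (nat_lit 280) (nat_lit 5) (nat_lit 463) (nat_lit 418) (nat_lit 259)))))) (XT.nd (nat_lit 546) (nat_lit 2432) (nat_lit 0) (XT.nd (nat_lit 234) (nat_lit 1292) (nat_lit 0) (XT.nd (nat_lit 78) (nat_lit 760) (nat_lit 0) (XT.lf (nat_lit 0) (nat_lit 4489297707) (nat_lit 684) (nat_lit 8040560721) (nat_lit 760) (nat_lit 2030356835) (nat_lit 270) (nat_lit 5) (nat_lit 279) (nat_lit 5) (nat_lit 280) (nat_lit 5) (nat_lit 464) (nat_lit 418) (nat_lit 258)) (XT.nd (nat_lit 78) (nat_lit 684) (nat_lit 0) (XT.lf (nat_lit 0) (nat_lit 16208129) (nat_lit 760) (nat_lit 2554242270) (nat_lit 76) (nat_lit 12156495168) (nat_lit 269) (nat_lit 5) (nat_lit 279) (nat_lit 5) (nat_lit 270) (nat_lit 5) (nat_lit 465) (nat_lit 418) (nat_lit 257)) (XT.lf (nat_lit 0) (nat_lit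 2120000223) (nat_lit 760) (nat_lit 9760049177) (nat_lit 76) (nat_lit 3015828757) (nat_lit 260) (nat_lit 5) (nat_lit 270) (nat_lit 5) (nat_lit 261) (nat_lit 5) (nat_lit 466) (nat_lit 418) (nat_lit 256)))) (XT.nd (nat_lit 156) (nat_lit 684) (nat_lit 0) (XT.nd (nat_lit 78) (nat_lit 608) (nat_lit 0) (XT.lf (nat_lit 0) (nat_lit 4290400407) (nat_lit 760) (nat_lit 2081656177) (nat_lit 76) (nat_lit 8695647797) (nat_lit 260) (nat_lit 5) (nat_lit 270) (nat_lit 5) (nat_lit 261) (nat_lit 5) (nat_lit 467) (nat_lit 418) (nat_lit 255)) (XT.lf (nat_lit 0) (nat_lit 5815797256) (nat_lit 608) (nat_lit 716617995) (nat_lit 684) (nat_lit 8709993264) (nat_lit 252) (nat_lit 5) (nat_lit 260) (nat_lit 5) (nat_lit 261) (nat_lit 5) (nat_lit 468) (nat_lit 418) (nat_lit 254))) (XT.nd (nat_lit 78) (nat_lit 684) (nat_lit 0) (XT.lf (nat_lit 0) (nat_lit 8856688518) (nat_lit 684) (nat_lit 1564700729) (nat_lit 76) (nat_lit 4998474529) (nat_lit 252)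 (nat_lit 5) (nat_lit 261) (nat_lit 5) (nat_lit 253) (nat_lit 5) (nat_lit 469) (nat_lit 418) (nat_lit 253)) (XT.lf (nat_lit 0) (nat_lit 6524589488) (nat_lit 684) (nat_lit 4740706843) (nat_lit 760) (nat_lit 4334820134) (nat_lit 243) (nat_lit 5) (nat_lit 252) (nat_lit 5) (nat_lit 253) (nat_lit 5) (nat_lit 470) (nat_lit 418) (nat_lit 252))))) (XT.nd (nat_lit 234) (nat_lit 1748) (nat_lit 0) (XT.nd (nat_lit 78) (nat_lit 684) (nat_lit 0) (XT.lf (nat_lit 0) (nat_lit 13730330812) (nat_lit 760) (nat_lit 1004591077) (nat_lit 76) (nat_lit 1048892426) (nat_lit 243) (nat_lit 5) (nat_lit 253) (nat_lit 5) (nat_lit 244) (nat_lit 5) (nat_lit 471) (nat_lit 418) (nat_lit 251)) (XT.nd (nat_lit 78) (nat_lit 0) (nat_lit 0) (XT.lf (nat_lit 0) (nat_lit 340043900) (nat_lit 684) (nat_lit 8690751565) (nat_lit 76) (nat_lit 6938957127) (nat_lit 234) (nat_lit 5) (nat_lit 243) (nat_lit 5) (nat_lit 235) (nat_lit 5) (nat_lit 472) (nat_lit 418)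 (nat_lit 250)) (XT.lf (nat_lit 0) (nat_lit 2751825416) (nat_lit 684) (nat_lit 441670764) (nat_lit 76) (nat_lit 12965689289) (nat_lit 234) (nat_lit 5) (nat_lit 243) (nat_lit 5) (nat_lit 235) (nat_lit 5) (nat_lit 473) (nat_lit 418) (nat_lit 249)))) (XT.nd (nat_lit 156) (nat_lit 608) (nat_lit 0) (XT.nd (nat_lit 78) (nat_lit 532) (nat_lit 0) (XT.lf (nat_lit 0) (nat_lit 5273726453) (nat_lit 684) (nat_lit 8302022741) (nat_lit 76) (nat_lit 2775424935) (nat_lit 226) (nat_lit 5) (nat_lit 235) (nat_lit 5) (nat_lit 227) (nat_lit 5) (nat_lit 474) (nat_lit 418) (nat_lit 248)) (XT.lf (nat_lit 0) (nat_lit 138963456) (nat_lit 532) (nat_lit 7723473297) (nat_lit 608) (nat_lit 8684243092) (nat_lit 219) (nat_lit 5) (nat_lit 226) (nat_lit 5) (nat_lit 227) (nat_lit 5) (nat_lit 475) (nat_lit 418) (nat_lit 247))) (XT.nd (nat_lit 78) (nat_lit 608) (nat_lit 0) (XT.lf (nat_lit 0) (nat_lit 8850850591) (nat_lit 532) (nat_lit 1699220150) (nat_lit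 608) (nat_lit 6195086562) (nat_lit 219) (nat_lit 5) (nat_lit 226) (nat_lit 5) (nat_lit 227) (nat_lit 5) (nat_lit 476) (nat_lit 418) (nat_lit 246)) (XT.lf (nat_lit 0) (nat_lit 760066071) (nat_lit 608) (nat_lit 12556783801) (nat_lit 684) (nat_lit 3630251114) (nat_lit 211) (nat_lit 5) (nat_lit 219) (nat_lit 5) (nat_lit 220) (nat_lit 5) (nat_lit 477) (nat_lit 418) (nat_lit 245))))))) (XT.nd (nat_lit 1092) (nat_lit 2964) (nat_lit 0) (XT.nd (nat_lit 546) (nat_lit 2052) (nat_lit 0) (XT.nd (nat_lit 234) (nat_lit 988) (nat_lit 0) (XT.nd (nat_lit 78) (nat_lit 608) (nat_lit 0) (XT.lf (nat_lit 0) (nat_lit 9672791305) (nat_lit 608) (nat_lit 6522019342) (nat_lit 684) (nat_lit 957160411) (nat_lit 211) (nat_lit 5) (nat_lit 219) (nat_lit 5) (nat_lit 220) (nat_lit 5) (nat_lit 478) (nat_lit 418) (nat_lit 244)) (XT.nd (nat_lit 78) (nat_lit 0) (nat_lit 0) (XT.lf (nat_lit 0) (nat_lit 1399446178) (nat_lit 532) (nat_lit 347622860) (nat_lit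 608) (nat_lit 15613626342) (nat_lit 203) (nat_lit 5) (nat_lit 210) (nat_lit 5) (nat_lit 211) (nat_lit 5) (nat_lit 479) (nat_lit 418) (nat_lit 243)) (XT.lf (nat_lit 0) (nat_lit 4573611276) (nat_lit 608) (nat_lit 7071205434) (nat_lit 76) (nat_lit 5927034231) (nat_lit 203) (nat_lit 5) (nat_lit 211) (nat_lit 5) (nat_lit 204) (nat_lit 5) (nat_lit 480) (nat_lit 418) (nat_lit 242)))) (XT.nd (nat_lit 156) (nat_lit 456) (nat_lit 0) (XT.nd (nat_lit 78) (nat_lit 0) (nat_lit 0) (XT.lf (nat_lit 0) (nat_lit 2010571096) (nat_lit 532) (nat_lit 5453506557) (nat_lit 608) (nat_lit 10323008193) (nat_lit 196) (nat_lit 5) (nat_lit 203) (nat_lit 5) (nat_lit 204) (nat_lit 5) (nat_lit 481) (nat_lit 418) (nat_lit 241)) (XT.lf (nat_lit 0) (nat_lit 10457827089) (nat_lit 608) (nat_lit 6651965231) (nat_lit 76) (nat_lit 895927675) (nat_lit 196) (nat_lit 5) (nat_lit 204) (nat_lit 5) (nat_lit 197) (nat_lit 5) (nat_lit 482) (nat_lit 418) (nat_lit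 240))) (XT.nd (nat_lit 78) (nat_lit 0) (nat_lit 0) (XT.lf (nat_lit 0) (nat_lit 2643615640) (nat_lit 456) (nat_lit 10913384248) (nat_lit 532) (nat_lit 4670819910) (nat_lit 190) (nat_lit 5) (nat_lit 196) (nat_lit 5) (nat_lit 197) (nat_lit 5) (nat_lit 483) (nat_lit 418) (nat_lit 239)) (XT.lf (nat_lit 0) (nat_lit 12205327963) (nat_lit 456) (nat_lit 4549821705) (nat_lit 532) (nat_lit 1698475922) (nat_lit 190) (nat_lit 5) (nat_lit 196) (nat_lit 5) (nat_lit 197) (nat_lit 5) (nat_lit 484) (nat_lit 418) (nat_lit 238))))) (XT.nd (nat_lit 234) (nat_lit 988) (nat_lit 0) (XT.nd (nat_lit 78) (nat_lit 456) (nat_lit 0) (XT.lf (nat_lit 0) (nat_lit 1342486477) (nat_lit 608) (nat_lit 15397207112) (nat_lit 76) (nat_lit 1943551322) (nat_lit 182) (nat_lit 5) (nat_lit 190) (nat_lit 5) (nat_lit 183) (nat_lit 5) (nat_lit 485) (nat_lit 418) (nat_lit 237)) (XT.nd (nat_lit 78) (nat_lit 456) (nat_lit 0) (XT.lf (nat_lit 0) (nat_lit 4486406257)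 (nat_lit 608) (nat_lit 5872449086) (nat_lit 76) (nat_lit 8557082763) (nat_lit 182) (nat_lit 5) (nat_lit 190) (nat_lit 5) (nat_lit 183) (nat_lit 5) (nat_lit 486) (nat_lit 418) (nat_lit 236)) (XT.lf (nat_lit 0) (nat_lit 3884007103) (nat_lit 456) (nat_lit 3827082675) (nat_lit 532) (nat_lit 11441841247) (nat_lit 176) (nat_lit 5) (nat_lit 182) (nat_lit 5) (nat_lit 183) (nat_lit 5) (nat_lit 487) (nat_lit 418) (nat_lit 235)))) (XT.nd (nat_lit 156) (nat_lit 532) (nat_lit 0) (XT.nd (nat_lit 78) (nat_lit 456) (nat_lit 0) (XT.lf (nat_lit 0) (nat_lit 11051077028) (nat_lit 532) (nat_lit 5507155634) (nat_lit 76) (nat_lit 2835418439) (nat_lit 176) (nat_lit 5) (nat_lit 183) (nat_lit 5) (nat_lit 177) (nat_lit 5) (nat_lit 488) (nat_lit 418) (nat_lit 234)) (XT.lf (nat_lit 0) (nat_lit 4473561731) (nat_lit 456) (nat_lit 10031568075) (nat_lit 532) (nat_lit 5133113888) (nat_lit 170) (nat_lit 5) (nat_lit 176) (nat_lit 5) (nat_lit 177)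 (nat_lit 5) (nat_lit 489) (nat_lit 418) (nat_lit 233))) (XT.nd (nat_lit 78) (nat_lit 532) (nat_lit 0) (XT.lf (nat_lit 0) (nat_lit 14718994693) (nat_lit 456) (nat_lit 3339178086) (nat_lit 532) (nat_lit 1828960538) (nat_lit 170) (nat_lit 5) (nat_lit 176) (nat_lit 5) (nat_lit 177) (nat_lit 5) (nat_lit 490) (nat_lit 418) (nat_lit 232)) (XT.lf (nat_lit 0) (nat_lit 1569965829) (nat_lit 532) (nat_lit 15087756784) (nat_lit 76) (nat_lit 3482103133) (nat_lit 163) (nat_lit 5) (nat_lit 170) (nat_lit 5) (nat_lit 164) (nat_lit 5) (nat_lit 491) (nat_lit 418) (nat_lit 231)))))) (XT.nd (nat_lit 546) (nat_lit 1596) (nat_lit 0) (XT.nd (nat_lit 234) (nat_lit 912) (nat_lit 0) (XT.nd (nat_lit 78) (nat_lit 456) (nat_lit 0) (XT.lf (nat_lit 0) (nat_lit 5062529693) (nat_lit 532) (nat_lit 4894118389) (nat_lit 76) (nat_lit 10439682344) (nat_lit 163) (nat_lit 5) (nat_lit 170) (nat_lit 5) (nat_lit 164) (nat_lit 5) (nat_lit 492) (nat_lit 418)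 (nat_lit 230)) (XT.nd (nat_lit 78) (nat_lit 0) (nat_lit 0) (XT.lf (nat_lit 0) (nat_lit 5567072193) (nat_lit 456) (nat_lit 3087254524) (nat_lit 532) (nat_lit 12003053954) (nat_lit 157) (nat_lit 5) (nat_lit 163) (nat_lit 5) (nat_lit 164) (nat_lit 5) (nat_lit 493) (nat_lit 418) (nat_lit 229)) (XT.lf (nat_lit 0) (nat_lit 12369759863) (nat_lit 532) (nat_lit 4654225523) (nat_lit 76) (nat_lit 3898633576) (nat_lit 157) (nat_lit 5) (nat_lit 164) (nat_lit 5) (nat_lit 158) (nat_lit 5) (nat_lit 494) (nat_lit 418) (nat_lit 228)))) (XT.nd (nat_lit 156) (nat_lit 532) (nat_lit 0) (XT.nd (nat_lit 78) (nat_lit 0) (nat_lit 0) (XT.lf (nat_lit 0) (nat_lit 6040142996) (nat_lit 380) (nat_lit 10172444613) (nat_lit 456) (nat_lit 4979515678) (nat_lit 152) (nat_lit 5) (nat_lit 157) (nat_lit 5) (nat_lit 158) (nat_lit 5) (nat_lit 495) (nat_lit 418) (nat_lit 227)) (XT.lf (nat_lit 0) (nat_lit 17002340455) (nat_lit 380) (nat_lit 3154657234) (nat_lit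 456) (nat_lit 1309488020) (nat_lit 152) (nat_lit 5) (nat_lit 157) (nat_lit 5) (nat_lit 158) (nat_lit 5) (nat_lit 496) (nat_lit 418) (nat_lit 226))) (XT.nd (nat_lit 78) (nat_lit 0) (nat_lit 0) (XT.lf (nat_lit 0) (nat_lit 2464142784) (nat_lit 532) (nat_lit 15273901036) (nat_lit 76) (nat_lit 4006756236) (nat_lit 145) (nat_lit 5) (nat_lit 152) (nat_lit 5) (nat_lit 146) (nat_lit 5) (nat_lit 497) (nat_lit 418) (nat_lit 225)) (XT.lf (nat_lit 0) (nat_lit 6340401857) (nat_lit 532) (nat_lit 4381796639) (nat_lit 76) (nat_lit 11305418045) (nat_lit 145) (nat_lit 5) (nat_lit 152) (nat_lit 5) (nat_lit 146) (nat_lit 5) (nat_lit 498) (nat_lit 418) (nat_lit 224))))) (XT.nd (nat_lit 312) (nat_lit 836) (nat_lit 0) (XT.nd (nat_lit 156) (nat_lit 380) (nat_lit 0) (XT.nd (nat_lit 78) (nat_lit 0) (nat_lit 0) (XT.lf (nat_lit 0) (nat_lit 6808513684) (nat_lit 380) (nat_lit 3523629169) (nat_lit 456) (nat_lit 11983190071) (nat_lit 140) (nat_lit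 5) (nat_lit 145) (nat_lit 5) (nat_lit 146) (nat_lit 5) (nat_lit 499) (nat_lit 418) (nat_lit 223)) (XT.lf (nat_lit 0) (nat_lit 14451911286) (nat_lit 456) (nat_lit 4360159726) (nat_lit 76) (nat_lit 3795771424) (nat_lit 140) (nat_lit 5) (nat_lit 146) (nat_lit 5) (nat_lit 141) (nat_lit 5) (nat_lit 500) (nat_lit 418) (nat_lit 222))) (XT.nd (nat_lit 78) (nat_lit 0) (nat_lit 0) (XT.lf (nat_lit 0) (nat_lit 7070017178) (nat_lit 380) (nat_lit 11647216851) (nat_lit 456) (nat_lit 4187707528) (nat_lit 135) (nat_lit 5) (nat_lit 140) (nat_lit 5) (nat_lit 141) (nat_lit 5) (nat_lit 501) (nat_lit 418) (nat_lit 221)) (XT.lf (nat_lit 0) (nat_lit 18779153606) (nat_lit 380) (nat_lit 4311951413) (nat_lit 456) (nat_lit 116415355) (nat_lit 135) (nat_lit 5) (nat_lit 140) (nat_lit 5) (nat_lit 141) (nat_lit 5) (nat_lit 502) (nat_lit 418) (nat_lit 220)))) (XT.nd (nat_lit 156) (nat_lit 380) (nat_lit 0) (XT.nd (nat_lit 78) (nat_lit 0) (nat_lit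 0) (XT.lf (nat_lit 0) (nat_lit 4045655988) (nat_lit 456) (nat_lit 16269090993) (nat_lit 76) (nat_lit 3199636304) (nat_lit 129) (nat_lit 5) (nat_lit 135) (nat_lit 5) (nat_lit 130) (nat_lit 5) (nat_lit 503) (nat_lit 418) (nat_lit 219)) (XT.lf (nat_lit 0) (nat_lit 8341983118) (nat_lit 456) (nat_lit 4652563045) (nat_lit 76) (nat_lit 10831772842) (nat_lit 129) (nat_lit 5) (nat_lit 135) (nat_lit 5) (nat_lit 130) (nat_lit 5) (nat_lit 504) (nat_lit 418) (nat_lit 218))) (XT.nd (nat_lit 78) (nat_lit 0) (nat_lit 0) (XT.lf (nat_lit 0) (nat_lit 7283285291) (nat_lit 380) (nat_lit 5482457323) (nat_lit 456) (nat_lit 11377923062) (nat_lit 124) (nat_lit 5) (nat_lit 129) (nat_lit 5) (nat_lit 130) (nat_lit 5) (nat_lit 505) (nat_lit 418) (nat_lit 217)) (XT.lf (nat_lit 0) (nat_lit 17317816775) (nat_lit 456) (nat_lit 4968752048) (nat_lit 76) (nat_lit 2179995976) (nat_lit 124) (nat_lit 5) (nat_lit 130) (nat_lit 5) (nat_lit 125) (nat_lit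 5) (nat_lit 506) (nat_lit 418) (nat_lit 216))))))))
noncomputable def xc188 : XT := (XT.nd (nat_lit 53430) (nat_lit 0) (nat_lit 15884) (XT.nd (nat_lit 1092) (nat_lit 304) (nat_lit 0) (XT.nd (nat_lit 546) (nat_lit 988) (nat_lit 0) (XT.nd (nat_lit 234) (nat_lit 608) (nat_lit 0) (XT.nd (nat_lit 78) (nat_lit 456) (nat_lit 0) (XT.lf (nat_lit 0) (nat_lit 7210562591) (nat_lit 304) (nat_lit 14827864211) (nat_lit 380) (nat_lit 2755947479) (nat_lit 120) (nat_lit 5) (nat_lit 124) (nat_lit 5) (nat_lit 125) (nat_lit 5) (nat_lit 507) (nat_lit 418) (nat_lit 215)) (XT.nd (nat_lit 78) (nat_lit 380) (nat_lit 0) (XT.lf (nat_lit 0) (nat_lit 1730040982) (nat_lit 380) (nat_lit 5447103474) (nat_lit 76) (nat_lit 17950814677) (nat_lit 119) (nat_lit 5) (nat_lit 124) (nat_lit 5) (nat_lit 120) (nat_lit 5) (nat_lit 508) (nat_lit 418) (nat_lit 214)) (XT.lf (nat_lit 0) (nat_lit 6313284751) (nat_lit 456) (nat_lit 18473926473) (nat_lit 76) (nat_lit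 679753500) (nat_lit 114) (nat_lit 5) (nat_lit 120) (nat_lit 5) (nat_lit 115) (nat_lit 5) (nat_lit 509) (nat_lit 418) (nat_lit 213)))) (XT.nd (nat_lit 156) (nat_lit 304) (nat_lit 0) (XT.nd (nat_lit 78) (nat_lit 304) (nat_lit 0) (XT.lf (nat_lit 0) (nat_lit 11067053878) (nat_lit 456) (nat_lit 6112273843) (nat_lit 76) (nat_lit 8631847588) (nat_lit 114) (nat_lit 5) (nat_lit 120) (nat_lit 5) (nat_lit 115) (nat_lit 5) (nat_lit 510) (nat_lit 418) (nat_lit 212)) (XT.lf (nat_lit 0) (nat_lit 6574701630) (nat_lit 304) (nat_lit 9378525963) (nat_lit 380) (nat_lit 10208297977) (nat_lit 110) (nat_lit 5) (nat_lit 114) (nat_lit 5) (nat_lit 115) (nat_lit 5) (nat_lit 511) (nat_lit 418) (nat_lit 211))) (XT.nd (nat_lit 78) (nat_lit 304) (nat_lit 0) (XT.lf (nat_lit 0) (nat_lit 19590185033) (nat_lit 304) (nat_lit 1382650775) (nat_lit 380) (nat_lit 5545334819) (nat_lit 110) (nat_lit 5) (nat_lit 114) (nat_lit 5) (nat_lit 115) (nat_lit 5)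 (nat_lit 512) (nat_lit 418) (nat_lit 210)) (XT.lf (nat_lit 0) (nat_lit 6010872627) (nat_lit 304) (nat_lit 20159746649) (nat_lit 380) (nat_lit 709775615) (nat_lit 106) (nat_lit 5) (nat_lit 110) (nat_lit 5) (nat_lit 111) (nat_lit 5) (nat_lit 513) (nat_lit 418) (nat_lit 209))))) (XT.nd (nat_lit 234) (nat_lit 608) (nat_lit 0) (XT.nd (nat_lit 78) (nat_lit 304) (nat_lit 0) (XT.lf (nat_lit 0) (nat_lit 4217866229) (nat_lit 380) (nat_lit 7991428071) (nat_lit 76) (nat_lit 15039007927) (nat_lit 105) (nat_lit 5) (nat_lit 110) (nat_lit 5) (nat_lit 106) (nat_lit 5) (nat_lit 514) (nat_lit 418) (nat_lit 208)) (XT.nd (nat_lit 78) (nat_lit 0) (nat_lit 0) (XT.lf (nat_lit 0) (nat_lit 5199848801) (nat_lit 304) (nat_lit 4063375314) (nat_lit 380) (nat_lit 18359678276) (nat_lit 101) (nat_lit 5) (nat_lit 105) (nat_lit 5) (nat_lit 106) (nat_lit 5) (nat_lit 515) (nat_lit 418) (nat_lit 207)) (XT.lf (nat_lit 0) (nat_lit 14485963962) (nat_lit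 380) (nat_lit 9276473146) (nat_lit 76) (nat_lit 4241029774) (nat_lit 101) (nat_lit 5) (nat_lit 106) (nat_lit 5) (nat_lit 102) (nat_lit 5) (nat_lit 516) (nat_lit 418) (nat_lit 206)))) (XT.nd (nat_lit 156) (nat_lit 304) (nat_lit 0) (XT.nd (nat_lit 78) (nat_lit 0) (nat_lit 0) (XT.lf (nat_lit 0) (nat_lit 4152840718) (nat_lit 304) (nat_lit 15709218707) (nat_lit 380) (nat_lit 8528607005) (nat_lit 97) (nat_lit 5) (nat_lit 101) (nat_lit 5) (nat_lit 102) (nat_lit 5) (nat_lit 517) (nat_lit 418) (nat_lit 205)) (XT.lf (nat_lit 0) (nat_lit 17968783236) (nat_lit 304) (nat_lit 7434219112) (nat_lit 380) (nat_lit 3381462860) (nat_lit 97) (nat_lit 5) (nat_lit 101) (nat_lit 5) (nat_lit 102) (nat_lit 5) (nat_lit 518) (nat_lit 418) (nat_lit 204))) (XT.nd (nat_lit 78) (nat_lit 0) (nat_lit 0) (XT.lf (nat_lit 0) (nat_lit 1864759447) (nat_lit 304) (nat_lit 26299242964) (nat_lit 76) (nat_lit 1021483734) (nat_lit 93) (nat_lit 5) (nat_lit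 97) (nat_lit 5) (nat_lit 94) (nat_lit 5) (nat_lit 519) (nat_lit 418) (nat_lit 203)) (XT.lf (nat_lit 0) (nat_lit 7288130295) (nat_lit 304) (nat_lit 12664015238) (nat_lit 76) (nat_lit 9639586549) (nat_lit 93) (nat_lit 5) (nat_lit 97) (nat_lit 5) (nat_lit 94) (nat_lit 5) (nat_lit 520) (nat_lit 418) (nat_lit 202)))))) (XT.nd (nat_lit 51792) (nat_lit 0) (nat_lit 26752) (XT.nd (nat_lit 51480) (nat_lit 0) (nat_lit 26600) (XT.nd (nat_lit 78) (nat_lit 0) (nat_lit 0) (XT.lf (nat_lit 0) (nat_lit 1252850476) (nat_lit 304) (nat_lit 11570513934) (nat_lit 380) (nat_lit 17182672226) (nat_lit 89) (nat_lit 5) (nat_lit 93) (nat_lit 5) (nat_lit 94) (nat_lit 5) (nat_lit 521) (nat_lit 418) (nat_lit 201)) (XT.nd (nat_lit 51324) (nat_lit 0) (nat_lit 28196) (XT.lf (nat_lit 0) (nat_lit 15612268967) (nat_lit 304) (nat_lit 2937322513) (nat_lit 380) (nat_lit 11877431620) (nat_lit 89) (nat_lit 5) (nat_lit 93) (nat_lit 5) (nat_lit 94) (nat_lit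 5) (nat_lit 522) (nat_lit 418) (nat_lit 200)) (XT.lf (nat_lit 0) (nat_lit 2285005346) (nat_lit 0) (nat_lit 2285005346) (nat_lit 1444) (nat_lit 129937806) (nat_lit 460) (nat_lit 5) (nat_lit 460) (nat_lit 3) (nat_lit 479) (nat_lit 3) (nat_lit 419) (nat_lit 419) (nat_lit 302)))) (XT.nd (nat_lit 156) (nat_lit 0) (nat_lit 76) (XT.nd (nat_lit 78) (nat_lit 0) (nat_lit 76) (XT.lf (nat_lit 0) (nat_lit 526181573) (nat_lit 1596) (nat_lit 489135940) (nat_lit 1596) (nat_lit 8462330822) (nat_lit 439) (nat_lit 3) (nat_lit 460) (nat_lit 3) (nat_lit 460) (nat_lit 5) (nat_lit 420) (nat_lit 419) (nat_lit 301)) (XT.lf (nat_lit 0) (nat_lit 1346914063) (nat_lit 1520) (nat_lit 5595653848) (nat_lit 1596) (nat_lit 2613918900) (nat_lit 440) (nat_lit 5) (nat_lit 460) (nat_lit 5) (nat_lit 461) (nat_lit 5) (nat_lit 421) (nat_lit 419) (nat_lit 300))) (XT.nd (nat_lit 78) (nat_lit 0) (nat_lit 76) (XT.lf (nat_lit 0) (nat_lit 2173892619) (nat_lit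 1520) (nat_lit 1148076891) (nat_lit 1596) (nat_lit 6315150768) (nat_lit 440) (nat_lit 5) (nat_lit 460) (nat_lit 5) (nat_lit 461) (nat_lit 5) (nat_lit 422) (nat_lit 419) (nat_lit 299)) (XT.lf (nat_lit 0) (nat_lit 3022447307) (nat_lit 1520) (nat_lit 6299319934) (nat_lit 1596) (nat_lit 397512999) (nat_lit 441) (nat_lit 5) (nat_lit 461) (nat_lit 5) (nat_lit 462) (nat_lit 5) (nat_lit 423) (nat_lit 419) (nat_lit 298))))) (XT.nd (nat_lit 234) (nat_lit 0) (nat_lit 76) (XT.nd (nat_lit 78) (nat_lit 0) (nat_lit 0) (XT.lf (nat_lit 0) (nat_lit 3898304030) (nat_lit 1520) (nat_lit 1741162383) (nat_lit 1596) (nat_lit 4163424644) (nat_lit 441) (nat_lit 5) (nat_lit 461) (nat_lit 5) (nat_lit 462) (nat_lit 5) (nat_lit 424) (nat_lit 419) (nat_lit 297)) (XT.nd (nat_lit 78) (nat_lit 0) (nat_lit 76) (XT.lf (nat_lit 76) (nat_lit 2935776280) (nat_lit 0) (nat_lit 1855919400) (nat_lit 1596) (nat_lit 5096492047) (nat_lit 442) (nat_lit 5) (nat_lit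 441) (nat_lit 5) (nat_lit 462) (nat_lit 5) (nat_lit 425) (nat_lit 419) (nat_lit 296)) (XT.lf (nat_lit 0) (nat_lit 5709034839) (nat_lit 1520) (nat_lit 2269438779) (nat_lit 1596) (nat_lit 1996608838) (nat_lit 442) (nat_lit 5) (nat_lit 462) (nat_lit 5) (nat_lit 463) (nat_lit 5) (nat_lit 426) (nat_lit 419) (nat_lit 295)))) (XT.nd (nat_lit 156) (nat_lit 0) (nat_lit 76) (XT.nd (nat_lit 78) (nat_lit 0) (nat_lit 0) (XT.lf (nat_lit 76) (nat_lit 2516878822) (nat_lit 0) (nat_lit 4138151941) (nat_lit 1596) (nat_lit 3408491567) (nat_lit 443) (nat_lit 5) (nat_lit 442) (nat_lit 5) (nat_lit 463) (nat_lit 5) (nat_lit 427) (nat_lit 419) (nat_lit 294)) (XT.lf (nat_lit 76) (nat_lit 7418725220) (nat_lit 0) (nat_lit 198416488) (nat_lit 1596) (nat_lit 2536658577) (nat_lit 443) (nat_lit 5) (nat_lit 442) (nat_lit 5) (nat_lit 463) (nat_lit 5) (nat_lit 428) (nat_lit 419) (nat_lit 293))) (XT.nd (nat_lit 78) (nat_lit 0) (nat_lit 0) (XT.lf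 (nat_lit 76) (nat_lit 2165161467) (nat_lit 0) (nat_lit 6454558390) (nat_lit 1596) (nat_lit 1625752370) (nat_lit 444) (nat_lit 5) (nat_lit 443) (nat_lit 5) (nat_lit 464) (nat_lit 5) (nat_lit 429) (nat_lit 419) (nat_lit 292)) (XT.lf (nat_lit 76) (nat_lit 7188062268) (nat_lit 0) (nat_lit 2456584904) (nat_lit 1596) (nat_lit 694297157) (nat_lit 444) (nat_lit 5) (nat_lit 443) (nat_lit 5) (nat_lit 464) (nat_lit 5) (nat_lit 430) (nat_lit 419) (nat_lit 291))))))) (XT.nd (nat_lit 1092) (nat_lit 8132) (nat_lit 0) (XT.nd (nat_lit 546) (nat_lit 1368) (nat_lit 0) (XT.nd (nat_lit 234) (nat_lit 0) (nat_lit 76) (XT.nd (nat_lit 78) (nat_lit 0) (nat_lit 0) (XT.lf (nat_lit 0) (nat_lit 258210228) (nat_lit 1596) (nat_lit 8555876186) (nat_lit 1672) (nat_lit 1620062873) (nat_lit 423) (nat_lit 5) (nat_lit 444) (nat_lit 5) (nat_lit 445) (nat_lit 5) (nat_lit 431) (nat_lit 419) (nat_lit 290)) (XT.nd (nat_lit 78) (nat_lit 0) (nat_lit 0) (XT.lf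 (nat_lit 0) (nat_lit 1241189101) (nat_lit 1596) (nat_lit 3512540695) (nat_lit 1672) (nat_lit 5777034344) (nat_lit 423) (nat_lit 5) (nat_lit 444) (nat_lit 5) (nat_lit 445) (nat_lit 5) (nat_lit 432) (nat_lit 419) (nat_lit 289)) (XT.lf (nat_lit 76) (nat_lit 1641999722) (nat_lit 0) (nat_lit 595975455) (nat_lit 1672) (nat_lit 8391464868) (nat_lit 424) (nat_lit 5) (nat_lit 423) (nat_lit 5) (nat_lit 445) (nat_lit 5) (nat_lit 433) (nat_lit 419) (nat_lit 288)))) (XT.nd (nat_lit 156) (nat_lit 0) (nat_lit 76) (XT.nd (nat_lit 78) (nat_lit 0) (nat_lit 0) (XT.lf (nat_lit 0) (nat_lit 3285861013) (nat_lit 1596) (nat_lit 3817688434) (nat_lit 1672) (nat_lit 3625928223) (nat_lit 424) (nat_lit 5) (nat_lit 445) (nat_lit 5) (nat_lit 446) (nat_lit 5) (nat_lit 434) (nat_lit 419) (nat_lit 287)) (XT.lf (nat_lit 76) (nat_lit 1459383759) (nat_lit 0) (nat_lit 2892832762) (nat_lit 1672) (nat_lit 6479360539) (nat_lit 425) (nat_lit 5) (nat_lit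 424) (nat_lit 5) (nat_lit 446) (nat_lit 5) (nat_lit 435) (nat_lit 419) (nat_lit 286))) (XT.nd (nat_lit 78) (nat_lit 0) (nat_lit 0) (XT.lf (nat_lit 0) (nat_lit 5459149021) (nat_lit 1596) (nat_lit 4062279255) (nat_lit 1672) (nat_lit 1413916199) (nat_lit 425) (nat_lit 5) (nat_lit 446) (nat_lit 5) (nat_lit 447) (nat_lit 5) (nat_lit 436) (nat_lit 419) (nat_lit 285)) (XT.lf (nat_lit 76) (nat_lit 1340940993) (nat_lit 0) (nat_lit 5259808158) (nat_lit 1672) (nat_lit 4440198323) (nat_lit 426) (nat_lit 5) (nat_lit 425) (nat_lit 5) (nat_lit 447) (nat_lit 5) (nat_lit 437) (nat_lit 419) (nat_lit 284))))) (XT.nd (nat_lit 234) (nat_lit 1520) (nat_lit 0) (XT.nd (nat_lit 78) (nat_lit 0) (nat_lit 76) (XT.lf (nat_lit 76) (nat_lit 6896044464) (nat_lit 0) (nat_lit 881289393) (nat_lit 1672) (nat_lit 3371096231) (nat_lit 426) (nat_lit 5) (nat_lit 425) (nat_lit 5) (nat_lit 447) (nat_lit 5) (nat_lit 438) (nat_lit 419) (nat_lit 283)) (XT.nd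 (nat_lit 78) (nat_lit 0) (nat_lit 0) (XT.lf (nat_lit 76) (nat_lit 1286427350) (nat_lit 0) (nat_lit 7707863488) (nat_lit 1672) (nat_lit 2263445103) (nat_lit 427) (nat_lit 5) (nat_lit 426) (nat_lit 5) (nat_lit 448) (nat_lit 5) (nat_lit 439) (nat_lit 419) (nat_lit 282)) (XT.lf (nat_lit 76) (nat_lit 6976462465) (nat_lit 0) (nat_lit 3278888217) (nat_lit 1672) (nat_lit 1113492145) (nat_lit 427) (nat_lit 5) (nat_lit 426) (nat_lit 5) (nat_lit 448) (nat_lit 5) (nat_lit 440) (nat_lit 419) (nat_lit 281)))) (XT.nd (nat_lit 156) (nat_lit 0) (nat_lit 0) (XT.nd (nat_lit 78) (nat_lit 0) (nat_lit 0) (XT.lf (nat_lit 0) (nat_lit 60876117) (nat_lit 1672) (nat_lit 10186838791) (nat_lit 1748) (nat_lit 1234415100) (nat_lit 405) (nat_lit 5) (nat_lit 427) (nat_lit 5) (nat_lit 428) (nat_lit 5) (nat_lit 441) (nat_lit 419) (nat_lit 280)) (XT.lf (nat_lit 0) (nat_lit 1281061059) (nat_lit 1672) (nat_lit 4481621859) (nat_lit 1748) (nat_lit 5834117635)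 (nat_lit 405) (nat_lit 5) (nat_lit 427) (nat_lit 5) (nat_lit 428) (nat_lit 5) (nat_lit 442) (nat_lit 419) (nat_lit 279))) (XT.nd (nat_lit 78) (nat_lit 0) (nat_lit 76) (XT.lf (nat_lit 76) (nat_lit 1344051675) (nat_lit 0) (nat_lit 1176442305) (nat_lit 1748) (nat_lit 9193383062) (nat_lit 406) (nat_lit 5) (nat_lit 405) (nat_lit 5) (nat_lit 428) (nat_lit 5) (nat_lit 443) (nat_lit 419) (nat_lit 278)) (XT.lf (nat_lit 0) (nat_lit 3824056371) (nat_lit 1672) (nat_lit 4520138747) (nat_lit 76) (nat_lit 3488322357) (nat_lit 406) (nat_lit 5) (nat_lit 428) (nat_lit 5) (nat_lit 407) (nat_lit 5) (nat_lit 444) (nat_lit 419) (nat_lit 277)))))) (XT.nd (nat_lit 546) (nat_lit 3268) (nat_lit 0) (XT.nd (nat_lit 234) (nat_lit 1824) (nat_lit 0) (XT.nd (nat_lit 78) (nat_lit 1444) (nat_lit 0) (XT.lf (nat_lit 0) (nat_lit 1446446455) (nat_lit 1672) (nat_lit 3711027218) (nat_lit 1748) (nat_lit 6795990423) (nat_lit 384) (nat_lit 5) (nat_lit 406)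 (nat_lit 5) (nat_lit 407) (nat_lit 5) (nat_lit 445) (nat_lit 419) (nat_lit 276)) (XT.nd (nat_lit 78) (nat_lit 1444) (nat_lit 0) (XT.lf (nat_lit 0) (nat_lit 6541485894) (nat_lit 1748) (nat_lit 4500864081) (nat_lit 76) (nat_lit 1034010016) (nat_lit 384) (nat_lit 5) (nat_lit 407) (nat_lit 5) (nat_lit 385) (nat_lit 5) (nat_lit 446) (nat_lit 419) (nat_lit 275)) (XT.lf (nat_lit 0) (nat_lit 1610699594) (nat_lit 1444) (nat_lit 6364575974) (nat_lit 1520) (nat_lit 4226004992) (nat_lit 365) (nat_lit 5) (nat_lit 384) (nat_lit 5) (nat_lit 385) (nat_lit 5) (nat_lit 447) (nat_lit 419) (nat_lit 274)))) (XT.nd (nat_lit 156) (nat_lit 988) (nat_lit 0) (XT.nd (nat_lit 78) (nat_lit 836) (nat_lit 0) (XT.lf (nat_lit 0) (nat_lit 7894317797) (nat_lit 1444) (nat_lit 1560870576) (nat_lit 1520) (nat_lit 2873170750) (nat_lit 365) (nat_lit 5) (nat_lit 384) (nat_lit 5) (nat_lit 385) (nat_lit 5) (nat_lit 448) (nat_lit 419) (nat_lit 273)) (XT.lf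 (nat_lit 0) (nat_lit 1836804464) (nat_lit 836) (nat_lit 9149003404) (nat_lit 912) (nat_lit 1471757583) (nat_lit 354) (nat_lit 5) (nat_lit 365) (nat_lit 5) (nat_lit 366) (nat_lit 5) (nat_lit 449) (nat_lit 419) (nat_lit 272))) (XT.nd (nat_lit 78) (nat_lit 988) (nat_lit 0) (XT.lf (nat_lit 0) (nat_lit 8271535177) (nat_lit 836) (nat_lit 4303205021) (nat_lit 912) (nat_lit 14069895) (nat_lit 354) (nat_lit 5) (nat_lit 365) (nat_lit 5) (nat_lit 366) (nat_lit 5) (nat_lit 450) (nat_lit 419) (nat_lit 271)) (XT.lf (nat_lit 0) (nat_lit 1459360378) (nat_lit 988) (nat_lit 10607375940) (nat_lit 76) (nat_lit 655641858) (nat_lit 341) (nat_lit 5) (nat_lit 354) (nat_lit 5) (nat_lit 342) (nat_lit 5) (nat_lit 451) (nat_lit 419) (nat_lit 270))))) (XT.nd (nat_lit 312) (nat_lit 1596) (nat_lit 0) (XT.nd (nat_lit 156) (nat_lit 836) (nat_lit 0) (XT.nd (nat_lit 78) (nat_lit 836) (nat_lit 0) (XT.lf (nat_lit 0) (nat_lit 3007735821) (nat_lit 988)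 (nat_lit 4163668530) (nat_lit 76) (nat_lit 5686305833) (nat_lit 341) (nat_lit 5) (nat_lit 354) (nat_lit 5) (nat_lit 342) (nat_lit 5) (nat_lit 452) (nat_lit 419) (nat_lit 269)) (XT.lf (nat_lit 0) (nat_lit 2429706537) (nat_lit 836) (nat_lit 2161386412) (nat_lit 912) (nat_lit 8404583175) (nat_lit 330) (nat_lit 5) (nat_lit 341) (nat_lit 5) (nat_lit 342) (nat_lit 5) (nat_lit 453) (nat_lit 419) (nat_lit 268))) (XT.nd (nat_lit 78) (nat_lit 836) (nat_lit 0) (XT.lf (nat_lit 0) (nat_lit 6241790449) (nat_lit 912) (nat_lit 3955027709) (nat_lit 76) (nat_lit 2938877185) (nat_lit 330) (nat_lit 5) (nat_lit 342) (nat_lit 5) (nat_lit 331) (nat_lit 5) (nat_lit 454) (nat_lit 419) (nat_lit 267)) (XT.lf (nat_lit 0) (nat_lit 2799512697) (nat_lit 836) (nat_lit 5147108735) (nat_lit 912) (nat_lit 5331478403) (nat_lit 319) (nat_lit 5) (nat_lit 330) (nat_lit 5) (nat_lit 331) (nat_lit 5) (nat_lit 455) (nat_lit 419) (nat_lit 266)))) (XT.nd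 (nat_lit 156) (nat_lit 836) (nat_lit 0) (XT.nd (nat_lit 78) (nat_lit 760) (nat_lit 0) (XT.lf (nat_lit 0) (nat_lit 9701071484) (nat_lit 912) (nat_lit 3691448703) (nat_lit 76) (nat_lit 30528919) (nat_lit 319) (nat_lit 5) (nat_lit 331) (nat_lit 5) (nat_lit 320) (nat_lit 5) (nat_lit 456) (nat_lit 419) (nat_lit 265)) (XT.lf (nat_lit 0) (nat_lit 3228726962) (nat_lit 760) (nat_lit 8305936388) (nat_lit 836) (nat_lit 2035359952) (nat_lit 309) (nat_lit 5) (nat_lit 319) (nat_lit 5) (nat_lit 320) (nat_lit 5) (nat_lit 457) (nat_lit 419) (nat_lit 264))) (XT.nd (nat_lit 78) (nat_lit 836) (nat_lit 0) (XT.lf (nat_lit 0) (nat_lit 10326452772) (nat_lit 760) (nat_lit 3092393723) (nat_lit 836) (nat_lit 300818958) (nat_lit 309) (nat_lit 5) (nat_lit 319) (nat_lit 5) (nat_lit 320) (nat_lit 5) (nat_lit 458) (nat_lit 419) (nat_lit 263)) (XT.lf (nat_lit 0) (nat_lit 1477276868) (nat_lit 836) (nat_lit 10164228840) (nat_lit 76) (nat_lit 2230048205)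 (nat_lit 298) (nat_lit 5) (nat_lit 309) (nat_lit 5) (nat_lit 299) (nat_lit 5) (nat_lit 459) (nat_lit 419) (nat_lit 262))))))))
noncomputable def xc189 : XT := (XT.nd (nat_lit 2184) (nat_lit 6156) (nat_lit 0) (XT.nd (nat_lit 1092) (nat_lit 3952) (nat_lit 0) (XT.nd (nat_lit 546) (nat_lit 2660) (nat_lit 0) (XT.nd (nat_lit 234) (nat_lit 1520) (nat_lit 0) (XT.nd (nat_lit 78) (nat_lit 684) (nat_lit 0) (XT.lf (nat_lit 0) (nat_lit 3319733566) (nat_lit 836) (nat_lit 3063750622) (nat_lit 76) (nat_lit 7642306110) (nat_lit 298) (nat_lit 5) (nat_lit 309) (nat_lit 5) (nat_lit 299) (nat_lit 5) (nat_lit 460) (nat_lit 419) (nat_lit 261)) (XT.nd (nat_lit 78) (nat_lit 0) (nat_lit 0) (XT.lf (nat_lit 0) (nat_lit 4223369612) (nat_lit 684) (nat_lit 992720790) (nat_lit 760) (nat_lit 8966686326) (nat_lit 289) (nat_lit 5) (nat_lit 298) (nat_lit 5) (nat_lit 299) (nat_lit 5) (nat_lit 461) (nat_lit 419) (nat_lit 260)) (XT.lf (nat_lit 0) (nat_lit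 7190086031) (nat_lit 760) (nat_lit 2685015705) (nat_lit 76) (nat_lit 4467013132) (nat_lit 289) (nat_lit 5) (nat_lit 299) (nat_lit 5) (nat_lit 290) (nat_lit 5) (nat_lit 462) (nat_lit 419) (nat_lit 259)))) (XT.nd (nat_lit 156) (nat_lit 760) (nat_lit 0) (XT.nd (nat_lit 78) (nat_lit 0) (nat_lit 0) (XT.lf (nat_lit 0) (nat_lit 4780302348) (nat_lit 760) (nat_lit 4450832291) (nat_lit 836) (nat_lit 5272959761) (nat_lit 279) (nat_lit 5) (nat_lit 289) (nat_lit 5) (nat_lit 290) (nat_lit 5) (nat_lit 463) (nat_lit 419) (nat_lit 258)) (XT.lf (nat_lit 0) (nat_lit 11328251218) (nat_lit 836) (nat_lit 2255584943) (nat_lit 76) (nat_lit 1085178393) (nat_lit 279) (nat_lit 5) (nat_lit 290) (nat_lit 5) (nat_lit 280) (nat_lit 5) (nat_lit 464) (nat_lit 419) (nat_lit 257))) (XT.nd (nat_lit 78) (nat_lit 76) (nat_lit 0) (XT.lf (nat_lit 0) (nat_lit 5392637225) (nat_lit 684) (nat_lit 8129440843) (nat_lit 760) (nat_lit 1314065539) (nat_lit 270)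 (nat_lit 5) (nat_lit 279) (nat_lit 5) (nat_lit 280) (nat_lit 5) (nat_lit 465) (nat_lit 419) (nat_lit 256)) (XT.lf (nat_lit 0) (nat_lit 748857363) (nat_lit 760) (nat_lit 1797567079) (nat_lit 76) (nat_lit 12459987247) (nat_lit 269) (nat_lit 5) (nat_lit 279) (nat_lit 5) (nat_lit 270) (nat_lit 5) (nat_lit 466) (nat_lit 419) (nat_lit 255))))) (XT.nd (nat_lit 234) (nat_lit 1368) (nat_lit 0) (XT.nd (nat_lit 78) (nat_lit 608) (nat_lit 0) (XT.lf (nat_lit 0) (nat_lit 2886090668) (nat_lit 760) (nat_lit 9138437562) (nat_lit 76) (nat_lit 3154375751) (nat_lit 260) (nat_lit 5) (nat_lit 270) (nat_lit 5) (nat_lit 261) (nat_lit 5) (nat_lit 467) (nat_lit 419) (nat_lit 254)) (XT.nd (nat_lit 78) (nat_lit 608) (nat_lit 0) (XT.lf (nat_lit 0) (nat_lit 5085708847) (nat_lit 760) (nat_lit 1322492636) (nat_lit 76) (nat_lit 8946257242) (nat_lit 260) (nat_lit 5) (nat_lit 270) (nat_lit 5) (nat_lit 261) (nat_lit 5) (nat_lit 468) (nat_lit 419)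 (nat_lit 253)) (XT.lf (nat_lit 0) (nat_lit 6727641467) (nat_lit 608) (nat_lit 636175845) (nat_lit 684) (nat_lit 8169022596) (nat_lit 252) (nat_lit 5) (nat_lit 260) (nat_lit 5) (nat_lit 261) (nat_lit 5) (nat_lit 469) (nat_lit 419) (nat_lit 252)))) (XT.nd (nat_lit 156) (nat_lit 684) (nat_lit 0) (XT.nd (nat_lit 78) (nat_lit 684) (nat_lit 0) (XT.lf (nat_lit 0) (nat_lit 9721439048) (nat_lit 684) (nat_lit 802534250) (nat_lit 76) (nat_lit 5190141593) (nat_lit 252) (nat_lit 5) (nat_lit 261) (nat_lit 5) (nat_lit 253) (nat_lit 5) (nat_lit 470) (nat_lit 419) (nat_lit 251)) (XT.lf (nat_lit 0) (nat_lit 7443321637) (nat_lit 684) (nat_lit 4726532478) (nat_lit 760) (nat_lit 3728293539) (nat_lit 243) (nat_lit 5) (nat_lit 252) (nat_lit 5) (nat_lit 253) (nat_lit 5) (nat_lit 471) (nat_lit 419) (nat_lit 250))) (XT.nd (nat_lit 78) (nat_lit 684) (nat_lit 0) (XT.lf (nat_lit 0) (nat_lit 14671564373) (nat_lit 760) (nat_lit 238894787) (nat_lit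 76) (nat_lit 1175320370) (nat_lit 243) (nat_lit 5) (nat_lit 253) (nat_lit 5) (nat_lit 244) (nat_lit 5) (nat_lit 472) (nat_lit 419) (nat_lit 249)) (XT.lf (nat_lit 0) (nat_lit 1010196891) (nat_lit 684) (nat_lit 8074768710) (nat_lit 76) (nat_lit 7190551168) (nat_lit 234) (nat_lit 5) (nat_lit 243) (nat_lit 5) (nat_lit 235) (nat_lit 5) (nat_lit 473) (nat_lit 419) (nat_lit 248)))))) (XT.nd (nat_lit 546) (nat_lit 1596) (nat_lit 0) (XT.nd (nat_lit 234) (nat_lit 1216) (nat_lit 0) (XT.nd (nat_lit 78) (nat_lit 532) (nat_lit 0) (XT.lf (nat_lit 0) (nat_lit 328110704) (nat_lit 608) (nat_lit 3131226741) (nat_lit 684) (nat_lit 13009625523) (nat_lit 226) (nat_lit 5) (nat_lit 234) (nat_lit 5) (nat_lit 235) (nat_lit 5) (nat_lit 474) (nat_lit 419) (nat_lit 247)) (XT.nd (nat_lit 78) (nat_lit 532) (nat_lit 0) (XT.lf (nat_lit 0) (nat_lit 6022610759) (nat_lit 684) (nat_lit 7686466405) (nat_lit 76) (nat_lit 2955902545) (nat_lit 226) (nat_lit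 5) (nat_lit 235) (nat_lit 5) (nat_lit 227) (nat_lit 5) (nat_lit 475) (nat_lit 419) (nat_lit 246)) (XT.lf (nat_lit 0) (nat_lit 918197431) (nat_lit 532) (nat_lit 7737323215) (nat_lit 608) (nat_lit 8209033244) (nat_lit 219) (nat_lit 5) (nat_lit 226) (nat_lit 5) (nat_lit 227) (nat_lit 5) (nat_lit 476) (nat_lit 419) (nat_lit 245)))) (XT.nd (nat_lit 156) (nat_lit 608) (nat_lit 0) (XT.nd (nat_lit 78) (nat_lit 608) (nat_lit 0) (XT.lf (nat_lit 0) (nat_lit 9789097707) (nat_lit 532) (nat_lit 1595342251) (nat_lit 608) (nat_lit 5682817009) (nat_lit 219) (nat_lit 5) (nat_lit 226) (nat_lit 5) (nat_lit 227) (nat_lit 5) (nat_lit 477) (nat_lit 419) (nat_lit 244)) (XT.lf (nat_lit 0) (nat_lit 1543319448) (nat_lit 608) (nat_lit 12656876572) (nat_lit 684) (nat_lit 3073177268) (nat_lit 211) (nat_lit 5) (nat_lit 219) (nat_lit 5) (nat_lit 220) (nat_lit 5) (nat_lit 478) (nat_lit 419) (nat_lit 243))) (XT.nd (nat_lit 78) (nat_lit 608) (nat_lit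 0) (XT.lf (nat_lit 0) (nat_lit 10619239342) (nat_lit 608) (nat_lit 6504378449) (nat_lit 684) (nat_lit 358971396) (nat_lit 211) (nat_lit 5) (nat_lit 219) (nat_lit 5) (nat_lit 220) (nat_lit 5) (nat_lit 479) (nat_lit 419) (nat_lit 242)) (XT.lf (nat_lit 0) (nat_lit 2183831229) (nat_lit 532) (nat_lit 200380216) (nat_lit 608) (nat_lit 15311343294) (nat_lit 203) (nat_lit 5) (nat_lit 210) (nat_lit 5) (nat_lit 211) (nat_lit 5) (nat_lit 480) (nat_lit 419) (nat_lit 241))))) (XT.nd (nat_lit 234) (nat_lit 1064) (nat_lit 0) (XT.nd (nat_lit 78) (nat_lit 532) (nat_lit 0) (XT.lf (nat_lit 0) (nat_lit 5256458172) (nat_lit 608) (nat_lit 6459933915) (nat_lit 76) (nat_lit 6194763940) (nat_lit 203) (nat_lit 5) (nat_lit 211) (nat_lit 5) (nat_lit 204) (nat_lit 5) (nat_lit 481) (nat_lit 419) (nat_lit 240)) (XT.nd (nat_lit 78) (nat_lit 0) (nat_lit 0) (XT.lf (nat_lit 0) (nat_lit 2798526200) (nat_lit 532) (nat_lit 5399466942) (nat_lit 608)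 (nat_lit 9932843272) (nat_lit 196) (nat_lit 5) (nat_lit 203) (nat_lit 5) (nat_lit 204) (nat_lit 5) (nat_lit 482) (nat_lit 419) (nat_lit 239)) (XT.lf (nat_lit 0) (nat_lit 11241192407) (nat_lit 608) (nat_lit 6041204718) (nat_lit 76) (nat_lit 1071660476) (nat_lit 196) (nat_lit 5) (nat_lit 204) (nat_lit 5) (nat_lit 197) (nat_lit 5) (nat_lit 483) (nat_lit 419) (nat_lit 238)))) (XT.nd (nat_lit 156) (nat_lit 608) (nat_lit 0) (XT.nd (nat_lit 78) (nat_lit 0) (nat_lit 0) (XT.lf (nat_lit 0) (nat_lit 3435394350) (nat_lit 456) (nat_lit 10960492787) (nat_lit 532) (nat_lit 4184847231) (nat_lit 190) (nat_lit 5) (nat_lit 196) (nat_lit 5) (nat_lit 197) (nat_lit 5) (nat_lit 484) (nat_lit 419) (nat_lit 237)) (XT.lf (nat_lit 0) (nat_lit 13173852559) (nat_lit 456) (nat_lit 4473015054) (nat_lit 532) (nat_lit 1164416934) (nat_lit 190) (nat_lit 5) (nat_lit 196) (nat_lit 5) (nat_lit 197) (nat_lit 5) (nat_lit 485) (nat_lit 419) (nat_lit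 236))) (XT.nd (nat_lit 78) (nat_lit 0) (nat_lit 0) (XT.lf (nat_lit 0) (nat_lit 1924768811) (nat_lit 608) (nat_lit 14967591240) (nat_lit 76) (nat_lit 2153170772) (nat_lit 182) (nat_lit 5) (nat_lit 190) (nat_lit 5) (nat_lit 183) (nat_lit 5) (nat_lit 486) (nat_lit 419) (nat_lit 235)) (XT.lf (nat_lit 0) (nat_lit 5120676151) (nat_lit 608) (nat_lit 5266800015) (nat_lit 76) (nat_lit 8895624833) (nat_lit 182) (nat_lit 5) (nat_lit 190) (nat_lit 5) (nat_lit 183) (nat_lit 5) (nat_lit 487) (nat_lit 419) (nat_lit 234))))))) (XT.nd (nat_lit 1092) (nat_lit 2964) (nat_lit 0) (XT.nd (nat_lit 546) (nat_lit 1292) (nat_lit 0) (XT.nd (nat_lit 234) (nat_lit 988) (nat_lit 0) (XT.nd (nat_lit 78) (nat_lit 456) (nat_lit 0) (XT.lf (nat_lit 0) (nat_lit 4680028074) (nat_lit 456) (nat_lit 3723811924) (nat_lit 532) (nat_lit 11121119243) (nat_lit 176) (nat_lit 5) (nat_lit 182) (nat_lit 5) (nat_lit 183) (nat_lit 5) (nat_lit 488) (nat_lit 419)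 (nat_lit 233)) (XT.nd (nat_lit 78) (nat_lit 456) (nat_lit 0) (XT.lf (nat_lit 0) (nat_lit 11801212183) (nat_lit 532) (nat_lit 4903373480) (nat_lit 76) (nat_lit 3066101447) (nat_lit 176) (nat_lit 5) (nat_lit 183) (nat_lit 5) (nat_lit 177) (nat_lit 5) (nat_lit 489) (nat_lit 419) (nat_lit 232)) (XT.lf (nat_lit 0) (nat_lit 5272261355) (nat_lit 456) (nat_lit 10046314665) (nat_lit 532) (nat_lit 4701715928) (nat_lit 170) (nat_lit 5) (nat_lit 176) (nat_lit 5) (nat_lit 177) (nat_lit 5) (nat_lit 490) (nat_lit 419) (nat_lit 231)))) (XT.nd (nat_lit 156) (nat_lit 456) (nat_lit 0) (XT.nd (nat_lit 78) (nat_lit 532) (nat_lit 0) (XT.lf (nat_lit 0) (nat_lit 15708696538) (nat_lit 456) (nat_lit 3223721675) (nat_lit 532) (nat_lit 1341951281) (nat_lit 170) (nat_lit 5) (nat_lit 176) (nat_lit 5) (nat_lit 177) (nat_lit 5) (nat_lit 491) (nat_lit 419) (nat_lit 230)) (XT.lf (nat_lit 0) (nat_lit 2113697591) (nat_lit 532) (nat_lit 14682458555)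 (nat_lit 76) (nat_lit 3735984123) (nat_lit 163) (nat_lit 5) (nat_lit 170) (nat_lit 5) (nat_lit 164) (nat_lit 5) (nat_lit 492) (nat_lit 419) (nat_lit 229))) (XT.nd (nat_lit 78) (nat_lit 456) (nat_lit 0) (XT.lf (nat_lit 0) (nat_lit 5666066998) (nat_lit 532) (nat_lit 4298811184) (nat_lit 76) (nat_lit 10829102391) (nat_lit 163) (nat_lit 5) (nat_lit 170) (nat_lit 5) (nat_lit 164) (nat_lit 5) (nat_lit 493) (nat_lit 419) (nat_lit 228)) (XT.lf (nat_lit 0) (nat_lit 6367042751) (nat_lit 456) (nat_lit 2957279489) (nat_lit 532) (nat_lit 11736041661) (nat_lit 157) (nat_lit 5) (nat_lit 163) (nat_lit 5) (nat_lit 164) (nat_lit 5) (nat_lit 494) (nat_lit 419) (nat_lit 227))))) (XT.nd (nat_lit 234) (nat_lit 912) (nat_lit 0) (XT.nd (nat_lit 78) (nat_lit 380) (nat_lit 0) (XT.lf (nat_lit 0) (nat_lit 13105541103) (nat_lit 532) (nat_lit 4063438736) (nat_lit 76) (nat_lit 4162102014) (nat_lit 157) (nat_lit 5) (nat_lit 164) (nat_lit 5) (nat_lit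 158) (nat_lit 5) (nat_lit 495) (nat_lit 419) (nat_lit 226)) (XT.nd (nat_lit 78) (nat_lit 0) (nat_lit 0) (XT.lf (nat_lit 0) (nat_lit 6840318000) (nat_lit 380) (nat_lit 10179742141) (nat_lit 456) (nat_lit 4586003376) (nat_lit 152) (nat_lit 5) (nat_lit 157) (nat_lit 5) (nat_lit 158) (nat_lit 5) (nat_lit 496) (nat_lit 419) (nat_lit 225)) (XT.lf (nat_lit 0) (nat_lit 18008438386) (nat_lit 380) (nat_lit 3025445120) (nat_lit 456) (nat_lit 852243844) (nat_lit 152) (nat_lit 5) (nat_lit 157) (nat_lit 5) (nat_lit 158) (nat_lit 5) (nat_lit 497) (nat_lit 419) (nat_lit 224)))) (XT.nd (nat_lit 156) (nat_lit 380) (nat_lit 0) (XT.nd (nat_lit 78) (nat_lit 0) (nat_lit 0) (XT.lf (nat_lit 0) (nat_lit 2986775915) (nat_lit 532) (nat_lit 14902830418) (nat_lit 76) (nat_lit 4280417839) (nat_lit 145) (nat_lit 5) (nat_lit 152) (nat_lit 5) (nat_lit 146) (nat_lit 5) (nat_lit 498) (nat_lit 419) (nat_lit 223)) (XT.lf (nat_lit 0) (nat_lit 6931278791)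 (nat_lit 532) (nat_lit 3806149592) (nat_lit 76) (nat_lit 11721258248) (nat_lit 145) (nat_lit 5) (nat_lit 152) (nat_lit 5) (nat_lit 146) (nat_lit 5) (nat_lit 499) (nat_lit 419) (nat_lit 222))) (XT.nd (nat_lit 78) (nat_lit 0) (nat_lit 0) (XT.lf (nat_lit 0) (nat_lit 7603603233) (nat_lit 380) (nat_lit 3394430125) (nat_lit 456) (nat_lit 11754224348) (nat_lit 140) (nat_lit 5) (nat_lit 145) (nat_lit 5) (nat_lit 146) (nat_lit 5) (nat_lit 500) (nat_lit 419) (nat_lit 221)) (XT.lf (nat_lit 0) (nat_lit 15192463285) (nat_lit 456) (nat_lit 3793436693) (nat_lit 76) (nat_lit 4064875968) (nat_lit 140) (nat_lit 5) (nat_lit 146) (nat_lit 5) (nat_lit 141) (nat_lit 5) (nat_lit 501) (nat_lit 419) (nat_lit 220)))))) (XT.nd (nat_lit 546) (nat_lit 1444) (nat_lit 0) (XT.nd (nat_lit 234) (nat_lit 684) (nat_lit 0) (XT.nd (nat_lit 78) (nat_lit 456) (nat_lit 0) (XT.lf (nat_lit 0) (nat_lit 7861041602) (nat_lit 380) (nat_lit 11677415460) (nat_lit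 456) (nat_lit 3815456482) (nat_lit 135) (nat_lit 5) (nat_lit 140) (nat_lit 5) (nat_lit 141) (nat_lit 5) (nat_lit 502) (nat_lit 419) (nat_lit 219)) (XT.nd (nat_lit 78) (nat_lit 380) (nat_lit 0) (XT.lf (nat_lit 0) (nat_lit 324014276) (nat_lit 456) (nat_lit 3873231537) (nat_lit 76) (nat_lit 19465434449) (nat_lit 134) (nat_lit 5) (nat_lit 140) (nat_lit 5) (nat_lit 135) (nat_lit 5) (nat_lit 503) (nat_lit 419) (nat_lit 218)) (XT.lf (nat_lit 0) (nat_lit 4564577138) (nat_lit 456) (nat_lit 15948170285) (nat_lit 76) (nat_lit 3462985007) (nat_lit 129) (nat_lit 5) (nat_lit 135) (nat_lit 5) (nat_lit 130) (nat_lit 5) (nat_lit 504) (nat_lit 419) (nat_lit 217)))) (XT.nd (nat_lit 156) (nat_lit 304) (nat_lit 0) (XT.nd (nat_lit 78) (nat_lit 380) (nat_lit 0) (XT.lf (nat_lit 0) (nat_lit 8938242418) (nat_lit 456) (nat_lit 4111984377) (nat_lit 76) (nat_lit 11243855335) (nat_lit 129) (nat_lit 5) (nat_lit 135) (nat_lit 5) (nat_lit 130)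 (nat_lit 5) (nat_lit 505) (nat_lit 419) (nat_lit 216)) (XT.lf (nat_lit 0) (nat_lit 8058412307) (nat_lit 380) (nat_lit 5387731683) (nat_lit 456) (nat_lit 11171721834) (nat_lit 124) (nat_lit 5) (nat_lit 129) (nat_lit 5) (nat_lit 130) (nat_lit 5) (nat_lit 506) (nat_lit 419) (nat_lit 215))) (XT.nd (nat_lit 78) (nat_lit 304) (nat_lit 0) (XT.lf (nat_lit 0) (nat_lit 18082225524) (nat_lit 456) (nat_lit 4443805973) (nat_lit 76) (nat_lit 2421335478) (nat_lit 124) (nat_lit 5) (nat_lit 130) (nat_lit 5) (nat_lit 125) (nat_lit 5) (nat_lit 507) (nat_lit 419) (nat_lit 214)) (XT.lf (nat_lit 0) (nat_lit 7974987583) (nat_lit 304) (nat_lit 14918089901) (nat_lit 380) (nat_lit 2388741863) (nat_lit 120) (nat_lit 5) (nat_lit 124) (nat_lit 5) (nat_lit 125) (nat_lit 5) (nat_lit 508) (nat_lit 419) (nat_lit 213))))) (XT.nd (nat_lit 312) (nat_lit 684) (nat_lit 0) (XT.nd (nat_lit 156) (nat_lit 304) (nat_lit 0) (XT.nd (nat_lit 78) (nat_lit 380)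 (nat_lit 0) (XT.lf (nat_lit 0) (nat_lit 2173255236) (nat_lit 380) (nat_lit 4942404221) (nat_lit 76) (nat_lit 18506528211) (nat_lit 119) (nat_lit 5) (nat_lit 124) (nat_lit 5) (nat_lit 120) (nat_lit 5) (nat_lit 509) (nat_lit 419) (nat_lit 212)) (XT.lf (nat_lit 0) (nat_lit 6845441094) (nat_lit 456) (nat_lit 18226885622) (nat_lit 76) (nat_lit 895704217) (nat_lit 114) (nat_lit 5) (nat_lit 120) (nat_lit 5) (nat_lit 115) (nat_lit 5) (nat_lit 510) (nat_lit 419) (nat_lit 211))) (XT.nd (nat_lit 78) (nat_lit 304) (nat_lit 0) (XT.lf (nat_lit 0) (nat_lit 11686326963) (nat_lit 456) (nat_lit 5630088554) (nat_lit 76) (nat_lit 9002872429) (nat_lit 114) (nat_lit 5) (nat_lit 120) (nat_lit 5) (nat_lit 115) (nat_lit 5) (nat_lit 511) (nat_lit 419) (nat_lit 210)) (XT.lf (nat_lit 0) (nat_lit 7306649910) (nat_lit 304) (nat_lit 9359670202) (nat_lit 380) (nat_lit 10010406167) (nat_lit 110) (nat_lit 5) (nat_lit 114) (nat_lit 5) (nat_lit 115)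 (nat_lit 5) (nat_lit 512) (nat_lit 419) (nat_lit 209)))) (XT.nd (nat_lit 156) (nat_lit 380) (nat_lit 0) (XT.nd (nat_lit 78) (nat_lit 304) (nat_lit 0) (XT.lf (nat_lit 0) (nat_lit 20570669368) (nat_lit 304) (nat_lit 1207925084) (nat_lit 380) (nat_lit 5262067231) (nat_lit 110) (nat_lit 5) (nat_lit 114) (nat_lit 5) (nat_lit 115) (nat_lit 5) (nat_lit 513) (nat_lit 419) (nat_lit 208)) (XT.lf (nat_lit 0) (nat_lit 6722413047) (nat_lit 304) (nat_lit 20355473469) (nat_lit 380) (nat_lit 332295728) (nat_lit 106) (nat_lit 5) (nat_lit 110) (nat_lit 5) (nat_lit 111) (nat_lit 5) (nat_lit 514) (nat_lit 419) (nat_lit 207))) (XT.nd (nat_lit 78) (nat_lit 304) (nat_lit 0) (XT.lf (nat_lit 0) (nat_lit 4681182873) (nat_lit 380) (nat_lit 7566354185) (nat_lit 76) (nat_lit 15538014149) (nat_lit 105) (nat_lit 5) (nat_lit 110) (nat_lit 5) (nat_lit 106) (nat_lit 5) (nat_lit 515) (nat_lit 419) (nat_lit 206)) (XT.lf (nat_lit 0) (nat_lit 5884900182)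 (nat_lit 304) (nat_lit 3938889751) (nat_lit 380) (nat_lit 18343929305) (nat_lit 101) (nat_lit 5) (nat_lit 105) (nat_lit 5) (nat_lit 106) (nat_lit 5) (nat_lit 516) (nat_lit 419) (nat_lit 205))))))))
noncomputable def xc190 : XT := (XT.nd (nat_lit 53508) (nat_lit 0) (nat_lit 12388) (XT.nd (nat_lit 52416) (nat_lit 0) (nat_lit 25308) (XT.nd (nat_lit 51870) (nat_lit 0) (nat_lit 26600) (XT.nd (nat_lit 234) (nat_lit 608) (nat_lit 0) (XT.nd (nat_lit 78) (nat_lit 304) (nat_lit 0) (XT.lf (nat_lit 0) (nat_lit 15144935418) (nat_lit 380) (nat_lit 8886159746) (nat_lit 76) (nat_lit 4524923488) (nat_lit 101) (nat_lit 5) (nat_lit 106) (nat_lit 5) (nat_lit 102) (nat_lit 5) (nat_lit 517) (nat_lit 419) (nat_lit 204)) (XT.nd (nat_lit 78) (nat_lit 0) (nat_lit 0) (XT.lf (nat_lit 0) (nat_lit 4807951956) (nat_lit 304) (nat_lit 15817074753) (nat_lit 380) (nat_lit 8326008603) (nat_lit 97) (nat_lit 5) (nat_lit 101) (nat_lit 5) (nat_lit 102)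 (nat_lit 5) (nat_lit 518) (nat_lit 419) (nat_lit 203)) (XT.lf (nat_lit 0) (nat_lit 18888996571) (nat_lit 304) (nat_lit 7380620820) (nat_lit 380) (nat_lit 3083238645) (nat_lit 97) (nat_lit 5) (nat_lit 101) (nat_lit 5) (nat_lit 102) (nat_lit 5) (nat_lit 519) (nat_lit 419) (nat_lit 202)))) (XT.nd (nat_lit 156) (nat_lit 304) (nat_lit 0) (XT.nd (nat_lit 78) (nat_lit 0) (nat_lit 0) (XT.lf (nat_lit 0) (nat_lit 2261006678) (nat_lit 304) (nat_lit 26257241411) (nat_lit 76) (nat_lit 1243646306) (nat_lit 93) (nat_lit 5) (nat_lit 97) (nat_lit 5) (nat_lit 94) (nat_lit 5) (nat_lit 520) (nat_lit 419) (nat_lit 201)) (XT.lf (nat_lit 0) (nat_lit 7785806668) (nat_lit 304) (nat_lit 12360446119) (nat_lit 76) (nat_lit 10030155630) (nat_lit 93) (nat_lit 5) (nat_lit 97) (nat_lit 5) (nat_lit 94) (nat_lit 5) (nat_lit 521) (nat_lit 419) (nat_lit 200))) (XT.nd (nat_lit 51402) (nat_lit 0) (nat_lit 26600) (XT.lf (nat_lit 0) (nat_lit 1831093426)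 (nat_lit 304) (nat_lit 11597343420) (nat_lit 380) (nat_lit 17170630742) (nat_lit 89) (nat_lit 5) (nat_lit 93) (nat_lit 5) (nat_lit 94) (nat_lit 5) (nat_lit 522) (nat_lit 419) (nat_lit 199)) (XT.lf (nat_lit 0) (nat_lit 649317094) (nat_lit 1596) (nat_lit 2064235790) (nat_lit 1596) (nat_lit 2064235790) (nat_lit 439) (nat_lit 3) (nat_lit 460) (nat_lit 3) (nat_lit 460) (nat_lit 5) (nat_lit 420) (nat_lit 420) (nat_lit 300))))) (XT.nd (nat_lit 234) (nat_lit 0) (nat_lit 76) (XT.nd (nat_lit 78) (nat_lit 0) (nat_lit 76) (XT.lf (nat_lit 76) (nat_lit 285503637) (nat_lit 0) (nat_lit 1782693318) (nat_lit 1596) (nat_lit 7567249615) (nat_lit 440) (nat_lit 5) (nat_lit 439) (nat_lit 3) (nat_lit 460) (nat_lit 5) (nat_lit 421) (nat_lit 420) (nat_lit 299)) (XT.nd (nat_lit 78) (nat_lit 0) (nat_lit 0) (XT.lf (nat_lit 0) (nat_lit 2873798793) (nat_lit 1520) (nat_lit 4896094597) (nat_lit 1596) (nat_lit 1946621388) (nat_lit 440) (nat_lit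 5) (nat_lit 460) (nat_lit 5) (nat_lit 461) (nat_lit 5) (nat_lit 422) (nat_lit 420) (nat_lit 298)) (XT.lf (nat_lit 0) (nat_lit 3687906205) (nat_lit 1520) (nat_lit 375477323) (nat_lit 1596) (nat_lit 5735987225) (nat_lit 440) (nat_lit 5) (nat_lit 460) (nat_lit 5) (nat_lit 461) (nat_lit 5) (nat_lit 423) (nat_lit 420) (nat_lit 297)))) (XT.nd (nat_lit 156) (nat_lit 0) (nat_lit 76) (XT.nd (nat_lit 78) (nat_lit 0) (nat_lit 76) (XT.lf (nat_lit 76) (nat_lit 4281407536) (nat_lit 0) (nat_lit 245654223) (nat_lit 1596) (nat_lit 5356660761) (nat_lit 441) (nat_lit 5) (nat_lit 440) (nat_lit 5) (nat_lit 461) (nat_lit 5) (nat_lit 424) (nat_lit 420) (nat_lit 296)) (XT.lf (nat_lit 0) (nat_lit 5390554970) (nat_lit 1520) (nat_lit 967567691) (nat_lit 1596) (nat_lit 3611501290) (nat_lit 441) (nat_lit 5) (nat_lit 461) (nat_lit 5) (nat_lit 462) (nat_lit 5) (nat_lit 425) (nat_lit 420) (nat_lit 295))) (XT.nd (nat_lit 78) (nat_lit 0) (nat_lit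 76) (XT.lf (nat_lit 76) (nat_lit 3797591207) (nat_lit 0) (nat_lit 2481706425) (nat_lit 1596) (nat_lit 3777799636) (nat_lit 442) (nat_lit 5) (nat_lit 441) (nat_lit 5) (nat_lit 462) (nat_lit 5) (nat_lit 426) (nat_lit 420) (nat_lit 294)) (XT.lf (nat_lit 0) (nat_lit 7183946919) (nat_lit 1520) (nat_lit 1495439670) (nat_lit 1596) (nat_lit 1466984013) (nat_lit 442) (nat_lit 5) (nat_lit 462) (nat_lit 5) (nat_lit 463) (nat_lit 5) (nat_lit 427) (nat_lit 420) (nat_lit 293)))))) (XT.nd (nat_lit 546) (nat_lit 0) (nat_lit 152) (XT.nd (nat_lit 234) (nat_lit 1520) (nat_lit 0) (XT.nd (nat_lit 78) (nat_lit 0) (nat_lit 0) (XT.lf (nat_lit 76) (nat_lit 3381213573) (nat_lit 0) (nat_lit 4746253190) (nat_lit 1596) (nat_lit 2109560016) (nat_lit 443) (nat_lit 5) (nat_lit 442) (nat_lit 5) (nat_lit 463) (nat_lit 5) (nat_lit 428) (nat_lit 420) (nat_lit 292)) (XT.nd (nat_lit 78) (nat_lit 0) (nat_lit 76) (XT.lf (nat_lit 76) (nat_lit 8365136170)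 (nat_lit 0) (nat_lit 717422279) (nat_lit 1596) (nat_lit 1247096276) (nat_lit 443) (nat_lit 5) (nat_lit 442) (nat_lit 5) (nat_lit 463) (nat_lit 5) (nat_lit 429) (nat_lit 420) (nat_lit 291)) (XT.lf (nat_lit 76) (nat_lit 3031615345) (nat_lit 0) (nat_lit 7049892312) (nat_lit 1596) (nat_lit 342144884) (nat_lit 444) (nat_lit 5) (nat_lit 443) (nat_lit 5) (nat_lit 464) (nat_lit 5) (nat_lit 430) (nat_lit 420) (nat_lit 290)))) (XT.nd (nat_lit 156) (nat_lit 0) (nat_lit 76) (XT.nd (nat_lit 78) (nat_lit 0) (nat_lit 76) (XT.lf (nat_lit 0) (nat_lit 574498328) (nat_lit 1596) (nat_lit 2384463828) (nat_lit 1672) (nat_lit 7560480439) (nat_lit 422) (nat_lit 5) (nat_lit 443) (nat_lit 5) (nat_lit 444) (nat_lit 5) (nat_lit 431) (nat_lit 420) (nat_lit 289)) (XT.lf (nat_lit 0) (nat_lit 1514299591) (nat_lit 1596) (nat_lit 7878800534) (nat_lit 1672) (nat_lit 1223826670) (nat_lit 423) (nat_lit 5) (nat_lit 444) (nat_lit 5) (nat_lit 445) (nat_lit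 5) (nat_lit 432) (nat_lit 420) (nat_lit 288))) (XT.nd (nat_lit 78) (nat_lit 0) (nat_lit 0) (XT.lf (nat_lit 0) (nat_lit 2492410097) (nat_lit 1596) (nat_lit 2751229572) (nat_lit 1672) (nat_lit 5472342227) (nat_lit 423) (nat_lit 5) (nat_lit 444) (nat_lit 5) (nat_lit 445) (nat_lit 5) (nat_lit 433) (nat_lit 420) (nat_lit 287)) (XT.lf (nat_lit 76) (nat_lit 2500930851) (nat_lit 0) (nat_lit 989517572) (nat_lit 1672) (nat_lit 7326573618) (nat_lit 424) (nat_lit 5) (nat_lit 423) (nat_lit 5) (nat_lit 445) (nat_lit 5) (nat_lit 434) (nat_lit 420) (nat_lit 286))))) (XT.nd (nat_lit 234) (nat_lit 0) (nat_lit 76) (XT.nd (nat_lit 78) (nat_lit 0) (nat_lit 0) (XT.lf (nat_lit 0) (nat_lit 4533182150) (nat_lit 1596) (nat_lit 3057203293) (nat_lit 1672) (nat_lit 3329213887) (nat_lit 424) (nat_lit 5) (nat_lit 445) (nat_lit 5) (nat_lit 446) (nat_lit 5) (nat_lit 435) (nat_lit 420) (nat_lit 285)) (XT.nd (nat_lit 78) (nat_lit 0) (nat_lit 76)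 (XT.lf (nat_lit 76) (nat_lit 2319904824) (nat_lit 0) (nat_lit 3283188808) (nat_lit 1672) (nat_lit 5421018887) (nat_lit 425) (nat_lit 5) (nat_lit 424) (nat_lit 5) (nat_lit 446) (nat_lit 5) (nat_lit 436) (nat_lit 420) (nat_lit 284)) (XT.lf (nat_lit 0) (nat_lit 6707228054) (nat_lit 1596) (nat_lit 3302752018) (nat_lit 1672) (nat_lit 1120490012) (nat_lit 425) (nat_lit 5) (nat_lit 446) (nat_lit 5) (nat_lit 447) (nat_lit 5) (nat_lit 437) (nat_lit 420) (nat_lit 283)))) (XT.nd (nat_lit 156) (nat_lit 0) (nat_lit 76) (XT.nd (nat_lit 78) (nat_lit 0) (nat_lit 0) (XT.lf (nat_lit 76) (nat_lit 2203001235) (nat_lit 0) (nat_lit 5651750598) (nat_lit 1672) (nat_lit 3383787230) (nat_lit 426) (nat_lit 5) (nat_lit 425) (nat_lit 5) (nat_lit 447) (nat_lit 5) (nat_lit 438) (nat_lit 420) (nat_lit 282)) (XT.lf (nat_lit 76) (nat_lit 7852829493) (nat_lit 0) (nat_lit 1180038982) (nat_lit 1672) (nat_lit 2315758293) (nat_lit 426) (nat_lit 5) (nat_lit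 425) (nat_lit 5) (nat_lit 447) (nat_lit 5) (nat_lit 439) (nat_lit 420) (nat_lit 281))) (XT.nd (nat_lit 78) (nat_lit 0) (nat_lit 0) (XT.lf (nat_lit 76) (nat_lit 2150068113) (nat_lit 0) (nat_lit 8106178919) (nat_lit 1672) (nat_lit 1204245196) (nat_lit 427) (nat_lit 5) (nat_lit 426) (nat_lit 5) (nat_lit 448) (nat_lit 5) (nat_lit 440) (nat_lit 420) (nat_lit 280)) (XT.lf (nat_lit 76) (nat_lit 7937474279) (nat_lit 0) (nat_lit 3583836728) (nat_lit 1672) (nat_lit 52949431) (nat_lit 427) (nat_lit 5) (nat_lit 426) (nat_lit 5) (nat_lit 448) (nat_lit 5) (nat_lit 441) (nat_lit 420) (nat_lit 279))))))) (XT.nd (nat_lit 1092) (nat_lit 5928) (nat_lit 0) (XT.nd (nat_lit 546) (nat_lit 2660) (nat_lit 0) (XT.nd (nat_lit 234) (nat_lit 3040) (nat_lit 0) (XT.nd (nat_lit 78) (nat_lit 0) (nat_lit 0) (XT.lf (nat_lit 0) (nat_lit 1113704256) (nat_lit 1672) (nat_lit 9536450075) (nat_lit 1748) (nat_lit 1039872704) (nat_lit 405) (nat_lit 5) (nat_lit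 427) (nat_lit 5) (nat_lit 428) (nat_lit 5) (nat_lit 442) (nat_lit 420) (nat_lit 278)) (XT.nd (nat_lit 78) (nat_lit 0) (nat_lit 0) (XT.lf (nat_lit 0) (nat_lit 2337673081) (nat_lit 1672) (nat_lit 3733876363) (nat_lit 1748) (nat_lit 5735867931) (nat_lit 405) (nat_lit 5) (nat_lit 427) (nat_lit 5) (nat_lit 428) (nat_lit 5) (nat_lit 443) (nat_lit 420) (nat_lit 277)) (XT.lf (nat_lit 76) (nat_lit 2202801576) (nat_lit 0) (nat_lit 1384278623) (nat_lit 1748) (nat_lit 8340065197) (nat_lit 406) (nat_lit 5) (nat_lit 405) (nat_lit 5) (nat_lit 428) (nat_lit 5) (nat_lit 444) (nat_lit 420) (nat_lit 276)))) (XT.nd (nat_lit 156) (nat_lit 1444) (nat_lit 0) (XT.nd (nat_lit 78) (nat_lit 1672) (nat_lit 0) (XT.lf (nat_lit 0) (nat_lit 4895615629) (nat_lit 1672) (nat_lit 3773213385) (nat_lit 76) (nat_lit 3379765033) (nat_lit 406) (nat_lit 5) (nat_lit 428) (nat_lit 5) (nat_lit 407) (nat_lit 5) (nat_lit 445) (nat_lit 420) (nat_lit 275)) (XT.lf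 (nat_lit 0) (nat_lit 2307194784) (nat_lit 1672) (nat_lit 3934395881) (nat_lit 1748) (nat_lit 5930664328) (nat_lit 384) (nat_lit 5) (nat_lit 406) (nat_lit 5) (nat_lit 407) (nat_lit 5) (nat_lit 446) (nat_lit 420) (nat_lit 274))) (XT.nd (nat_lit 78) (nat_lit 1444) (nat_lit 0) (XT.lf (nat_lit 0) (nat_lit 7633099092) (nat_lit 1748) (nat_lit 3754541997) (nat_lit 76) (nat_lit 910384320) (nat_lit 384) (nat_lit 5) (nat_lit 407) (nat_lit 5) (nat_lit 385) (nat_lit 5) (nat_lit 447) (nat_lit 420) (nat_lit 273)) (XT.lf (nat_lit 0) (nat_lit 2473750719) (nat_lit 1444) (nat_lit 6608369295) (nat_lit 1520) (nat_lit 3343605936) (nat_lit 365) (nat_lit 5) (nat_lit 384) (nat_lit 5) (nat_lit 385) (nat_lit 5) (nat_lit 448) (nat_lit 420) (nat_lit 272))))) (XT.nd (nat_lit 234) (nat_lit 1748) (nat_lit 0) (XT.nd (nat_lit 78) (nat_lit 912) (nat_lit 0) (XT.lf (nat_lit 0) (nat_lit 8866750361) (nat_lit 1444) (nat_lit 1706305440) (nat_lit 1520)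 (nat_lit 1982674209) (nat_lit 365) (nat_lit 5) (nat_lit 384) (nat_lit 5) (nat_lit 385) (nat_lit 5) (nat_lit 449) (nat_lit 420) (nat_lit 271)) (XT.nd (nat_lit 78) (nat_lit 76) (nat_lit 0) (XT.lf (nat_lit 0) (nat_lit 2702534606) (nat_lit 836) (nat_lit 9418197372) (nat_lit 912) (nat_lit 567071777) (nat_lit 354) (nat_lit 5) (nat_lit 365) (nat_lit 5) (nat_lit 366) (nat_lit 5) (nat_lit 450) (nat_lit 420) (nat_lit 270)) (XT.lf (nat_lit 0) (nat_lit 889630841) (nat_lit 912) (nat_lit 3578191821) (nat_lit 76) (nat_lit 8354104416) (nat_lit 353) (nat_lit 5) (nat_lit 365) (nat_lit 5) (nat_lit 354) (nat_lit 5) (nat_lit 451) (nat_lit 420) (nat_lit 269)))) (XT.nd (nat_lit 156) (nat_lit 836) (nat_lit 0) (XT.nd (nat_lit 78) (nat_lit 0) (nat_lit 0) (XT.lf (nat_lit 0) (nat_lit 2379479260) (nat_lit 988) (nat_lit 9980752073) (nat_lit 76) (nat_lit 598202044) (nat_lit 341) (nat_lit 5) (nat_lit 354) (nat_lit 5) (nat_lit 342) (nat_lit 5)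 (nat_lit 452) (nat_lit 420) (nat_lit 268)) (XT.lf (nat_lit 0) (nat_lit 3941352963) (nat_lit 988) (nat_lit 3424617013) (nat_lit 76) (nat_lit 5730862684) (nat_lit 341) (nat_lit 5) (nat_lit 354) (nat_lit 5) (nat_lit 342) (nat_lit 5) (nat_lit 453) (nat_lit 420) (nat_lit 267))) (XT.nd (nat_lit 78) (nat_lit 0) (nat_lit 0) (XT.lf (nat_lit 0) (nat_lit 3295215524) (nat_lit 836) (nat_lit 2249338950) (nat_lit 912) (nat_lit 7693250930) (nat_lit 330) (nat_lit 5) (nat_lit 341) (nat_lit 5) (nat_lit 342) (nat_lit 5) (nat_lit 454) (nat_lit 420) (nat_lit 266)) (XT.lf (nat_lit 0) (nat_lit 7211086338) (nat_lit 912) (nat_lit 3215511124) (nat_lit 76) (nat_lit 2954381949) (nat_lit 330) (nat_lit 5) (nat_lit 342) (nat_lit 5) (nat_lit 331) (nat_lit 5) (nat_lit 455) (nat_lit 420) (nat_lit 265)))))) (XT.nd (nat_lit 546) (nat_lit 2812) (nat_lit 0) (XT.nd (nat_lit 234) (nat_lit 1520) (nat_lit 0) (XT.nd (nat_lit 78) (nat_lit 760) (nat_lit 0)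 (XT.lf (nat_lit 0) (nat_lit 3668734452) (nat_lit 836) (nat_lit 5270001487) (nat_lit 912) (nat_lit 4587732215) (nat_lit 319) (nat_lit 5) (nat_lit 330) (nat_lit 5) (nat_lit 331) (nat_lit 5) (nat_lit 456) (nat_lit 420) (nat_lit 264)) (XT.nd (nat_lit 78) (nat_lit 760) (nat_lit 0) (XT.lf (nat_lit 0) (nat_lit 10711811095) (nat_lit 912) (nat_lit 2951008352) (nat_lit 76) (nat_lit 11836634) (nat_lit 319) (nat_lit 5) (nat_lit 331) (nat_lit 5) (nat_lit 320) (nat_lit 5) (nat_lit 457) (nat_lit 420) (nat_lit 263)) (XT.lf (nat_lit 0) (nat_lit 4102213792) (nat_lit 760) (nat_lit 8469098921) (nat_lit 836) (nat_lit 1253482479) (nat_lit 309) (nat_lit 5) (nat_lit 319) (nat_lit 5) (nat_lit 320) (nat_lit 5) (nat_lit 458) (nat_lit 420) (nat_lit 262)))) (XT.nd (nat_lit 156) (nat_lit 684) (nat_lit 0) (XT.nd (nat_lit 78) (nat_lit 760) (nat_lit 0) (XT.lf (nat_lit 0) (nat_lit 493067613) (nat_lit 836) (nat_lit 2654967010) (nat_lit 76) (nat_lit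 10829656736) (nat_lit 308) (nat_lit 5) (nat_lit 319) (nat_lit 5) (nat_lit 309) (nat_lit 5) (nat_lit 459) (nat_lit 420) (nat_lit 261)) (XT.lf (nat_lit 0) (nat_lit 2292369000) (nat_lit 836) (nat_lit 9552583444) (nat_lit 76) (nat_lit 2287841544) (nat_lit 298) (nat_lit 5) (nat_lit 309) (nat_lit 5) (nat_lit 299) (nat_lit 5) (nat_lit 460) (nat_lit 420) (nat_lit 260))) (XT.nd (nat_lit 78) (nat_lit 684) (nat_lit 0) (XT.lf (nat_lit 0) (nat_lit 4156271958) (nat_lit 836) (nat_lit 2326074680) (nat_lit 76) (nat_lit 7808085934) (nat_lit 298) (nat_lit 5) (nat_lit 309) (nat_lit 5) (nat_lit 299) (nat_lit 5) (nat_lit 461) (nat_lit 420) (nat_lit 259)) (XT.lf (nat_lit 0) (nat_lit 5101531702) (nat_lit 684) (nat_lit 979076564) (nat_lit 760) (nat_lit 8370158647) (nat_lit 289) (nat_lit 5) (nat_lit 298) (nat_lit 5) (nat_lit 299) (nat_lit 5) (nat_lit 462) (nat_lit 420) (nat_lit 258))))) (XT.nd (nat_lit 312) (nat_lit 1368) (nat_lit 0) (XT.nd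 (nat_lit 156) (nat_lit 684) (nat_lit 0) (XT.nd (nat_lit 78) (nat_lit 760) (nat_lit 0) (XT.lf (nat_lit 0) (nat_lit 8079391233) (nat_lit 760) (nat_lit 1945439007) (nat_lit 76) (nat_lit 4588764475) (nat_lit 289) (nat_lit 5) (nat_lit 299) (nat_lit 5) (nat_lit 290) (nat_lit 5) (nat_lit 463) (nat_lit 420) (nat_lit 257)) (XT.lf (nat_lit 0) (nat_lit 5663966480) (nat_lit 760) (nat_lit 4487793214) (nat_lit 836) (nat_lit 4627253036) (nat_lit 279) (nat_lit 5) (nat_lit 289) (nat_lit 5) (nat_lit 290) (nat_lit 5) (nat_lit 464) (nat_lit 420) (nat_lit 256))) (XT.nd (nat_lit 78) (nat_lit 684) (nat_lit 0) (XT.lf (nat_lit 0) (nat_lit 12276718539) (nat_lit 836) (nat_lit 1513555797) (nat_lit 76) (nat_lit 1157247650) (nat_lit 279) (nat_lit 5) (nat_lit 290) (nat_lit 5) (nat_lit 280) (nat_lit 5) (nat_lit 465) (nat_lit 420) (nat_lit 255)) (XT.lf (nat_lit 0) (nat_lit 6282452257) (nat_lit 684) (nat_lit 8222891740) (nat_lit 760) (nat_lit 612839707)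 (nat_lit 270) (nat_lit 5) (nat_lit 279) (nat_lit 5) (nat_lit 280) (nat_lit 5) (nat_lit 466) (nat_lit 420) (nat_lit 254)))) (XT.nd (nat_lit 156) (nat_lit 608) (nat_lit 0) (XT.nd (nat_lit 78) (nat_lit 684) (nat_lit 0) (XT.lf (nat_lit 0) (nat_lit 1467722507) (nat_lit 760) (nat_lit 1057124690) (nat_lit 76) (nat_lit 12767205230) (nat_lit 269) (nat_lit 5) (nat_lit 279) (nat_lit 5) (nat_lit 270) (nat_lit 5) (nat_lit 467) (nat_lit 420) (nat_lit 253)) (XT.lf (nat_lit 0) (nat_lit 3639401140) (nat_lit 760) (nat_lit 8536111544) (nat_lit 76) (nat_lit 3292655901) (nat_lit 260) (nat_lit 5) (nat_lit 270) (nat_lit 5) (nat_lit 261) (nat_lit 5) (nat_lit 468) (nat_lit 420) (nat_lit 252))) (XT.nd (nat_lit 78) (nat_lit 608) (nat_lit 0) (XT.lf (nat_lit 0) (nat_lit 5869372690) (nat_lit 760) (nat_lit 579241735) (nat_lit 76) (nat_lit 9198900657) (nat_lit 260) (nat_lit 5) (nat_lit 270) (nat_lit 5) (nat_lit 261) (nat_lit 5) (nat_lit 469)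 (nat_lit 420) (nat_lit 251)) (XT.lf (nat_lit 0) (nat_lit 7626831230) (nat_lit 608) (nat_lit 557805062) (nat_lit 684) (nat_lit 7645003459) (nat_lit 252) (nat_lit 5) (nat_lit 260) (nat_lit 5) (nat_lit 261) (nat_lit 5) (nat_lit 470) (nat_lit 420) (nat_lit 250))))))))
noncomputable def xc191 : XT := (XT.nd (nat_lit 2184) (nat_lit 4484) (nat_lit 0) (XT.nd (nat_lit 1092) (nat_lit 3344) (nat_lit 0) (XT.nd (nat_lit 546) (nat_lit 1748) (nat_lit 0) (XT.nd (nat_lit 234) (nat_lit 1216) (nat_lit 0) (XT.nd (nat_lit 78) (nat_lit 1292) (nat_lit 0) (XT.lf (nat_lit 0) (nat_lit 10576783592) (nat_lit 684) (nat_lit 55935480) (nat_lit 76) (nat_lit 5382081270) (nat_lit 252) (nat_lit 5) (nat_lit 261) (nat_lit 5) (nat_lit 253) (nat_lit 5) (nat_lit 471) (nat_lit 420) (nat_lit 249)) (XT.nd (nat_lit 78) (nat_lit 608) (nat_lit 0) (XT.lf (nat_lit 0) (nat_lit 8349820095) (nat_lit 684) (nat_lit 4716306783) (nat_lit 760) (nat_lit 3136555105) (nat_lit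 243) (nat_lit 5) (nat_lit 252) (nat_lit 5) (nat_lit 253) (nat_lit 5) (nat_lit 472) (nat_lit 420) (nat_lit 248)) (XT.lf (nat_lit 0) (nat_lit 518401242) (nat_lit 608) (nat_lit 15090701230) (nat_lit 684) (nat_lit 785146679) (nat_lit 235) (nat_lit 5) (nat_lit 243) (nat_lit 5) (nat_lit 244) (nat_lit 5) (nat_lit 473) (nat_lit 420) (nat_lit 247)))) (XT.nd (nat_lit 156) (nat_lit 532) (nat_lit 0) (XT.nd (nat_lit 78) (nat_lit 608) (nat_lit 0) (XT.lf (nat_lit 0) (nat_lit 1667994170) (nat_lit 684) (nat_lit 7477135012) (nat_lit 76) (nat_lit 7442796349) (nat_lit 234) (nat_lit 5) (nat_lit 243) (nat_lit 5) (nat_lit 235) (nat_lit 5) (nat_lit 474) (nat_lit 420) (nat_lit 246)) (XT.lf (nat_lit 0) (nat_lit 1088807720) (nat_lit 608) (nat_lit 3069704329) (nat_lit 684) (nat_lit 12626887573) (nat_lit 226) (nat_lit 5) (nat_lit 234) (nat_lit 5) (nat_lit 235) (nat_lit 5) (nat_lit 475) (nat_lit 420) (nat_lit 245))) (XT.nd (nat_lit 78) (nat_lit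 532) (nat_lit 0) (XT.lf (nat_lit 0) (nat_lit 6761488366) (nat_lit 684) (nat_lit 7088949299) (nat_lit 76) (nat_lit 3135137006) (nat_lit 226) (nat_lit 5) (nat_lit 235) (nat_lit 5) (nat_lit 227) (nat_lit 5) (nat_lit 476) (nat_lit 420) (nat_lit 244)) (XT.lf (nat_lit 0) (nat_lit 1682865404) (nat_lit 532) (nat_lit 7756910560) (nat_lit 608) (nat_lit 7749516571) (nat_lit 219) (nat_lit 5) (nat_lit 226) (nat_lit 5) (nat_lit 227) (nat_lit 5) (nat_lit 477) (nat_lit 420) (nat_lit 243))))) (XT.nd (nat_lit 234) (nat_lit 1064) (nat_lit 0) (XT.nd (nat_lit 78) (nat_lit 684) (nat_lit 0) (XT.lf (nat_lit 0) (nat_lit 10716550272) (nat_lit 532) (nat_lit 1494740155) (nat_lit 608) (nat_lit 5185005371) (nat_lit 219) (nat_lit 5) (nat_lit 226) (nat_lit 5) (nat_lit 227) (nat_lit 5) (nat_lit 478) (nat_lit 420) (nat_lit 242)) (XT.nd (nat_lit 78) (nat_lit 76) (nat_lit 0) (XT.lf (nat_lit 0) (nat_lit 2312413494) (nat_lit 608) (nat_lit 12764836378)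 (nat_lit 684) (nat_lit 2529413143) (nat_lit 211) (nat_lit 5) (nat_lit 219) (nat_lit 5) (nat_lit 220) (nat_lit 5) (nat_lit 479) (nat_lit 420) (nat_lit 241)) (XT.lf (nat_lit 0) (nat_lit 224229741) (nat_lit 684) (nat_lit 6266400474) (nat_lit 76) (nat_lit 11329642294) (nat_lit 210) (nat_lit 5) (nat_lit 219) (nat_lit 5) (nat_lit 211) (nat_lit 5) (nat_lit 480) (nat_lit 420) (nat_lit 240)))) (XT.nd (nat_lit 156) (nat_lit 532) (nat_lit 0) (XT.nd (nat_lit 78) (nat_lit 0) (nat_lit 0) (XT.lf (nat_lit 0) (nat_lit 2954532198) (nat_lit 532) (nat_lit 56180302) (nat_lit 608) (nat_lit 15026878527) (nat_lit 203) (nat_lit 5) (nat_lit 210) (nat_lit 5) (nat_lit 211) (nat_lit 5) (nat_lit 481) (nat_lit 420) (nat_lit 239)) (XT.lf (nat_lit 0) (nat_lit 5929998205) (nat_lit 608) (nat_lit 5865665055) (nat_lit 76) (nat_lit 6462055051) (nat_lit 203) (nat_lit 5) (nat_lit 211) (nat_lit 5) (nat_lit 204) (nat_lit 5) (nat_lit 482) (nat_lit 420)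 (nat_lit 238))) (XT.nd (nat_lit 78) (nat_lit 0) (nat_lit 0) (XT.lf (nat_lit 0) (nat_lit 3573204608) (nat_lit 532) (nat_lit 5350680285) (nat_lit 608) (nat_lit 9558042732) (nat_lit 196) (nat_lit 5) (nat_lit 203) (nat_lit 5) (nat_lit 204) (nat_lit 5) (nat_lit 483) (nat_lit 420) (nat_lit 237)) (XT.lf (nat_lit 0) (nat_lit 12017927806) (nat_lit 608) (nat_lit 5447111648) (nat_lit 76) (nat_lit 1244779813) (nat_lit 196) (nat_lit 5) (nat_lit 204) (nat_lit 5) (nat_lit 197) (nat_lit 5) (nat_lit 484) (nat_lit 420) (nat_lit 236)))))) (XT.nd (nat_lit 546) (nat_lit 1368) (nat_lit 0) (XT.nd (nat_lit 234) (nat_lit 912) (nat_lit 0) (XT.nd (nat_lit 78) (nat_lit 608) (nat_lit 0) (XT.lf (nat_lit 0) (nat_lit 4214316000) (nat_lit 456) (nat_lit 11015189814) (nat_lit 532) (nat_lit 3711653483) (nat_lit 190) (nat_lit 5) (nat_lit 196) (nat_lit 5) (nat_lit 197) (nat_lit 5) (nat_lit 485) (nat_lit 420) (nat_lit 235)) (XT.nd (nat_lit 78) (nat_lit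 608) (nat_lit 0) (XT.lf (nat_lit 0) (nat_lit 14133617612) (nat_lit 456) (nat_lit 4401188269) (nat_lit 532) (nat_lit 641734005) (nat_lit 190) (nat_lit 5) (nat_lit 196) (nat_lit 5) (nat_lit 197) (nat_lit 5) (nat_lit 486) (nat_lit 420) (nat_lit 234)) (XT.lf (nat_lit 0) (nat_lit 2497128667) (nat_lit 608) (nat_lit 14558023406) (nat_lit 76) (nat_lit 2360352241) (nat_lit 182) (nat_lit 5) (nat_lit 190) (nat_lit 5) (nat_lit 183) (nat_lit 5) (nat_lit 487) (nat_lit 420) (nat_lit 233)))) (XT.nd (nat_lit 156) (nat_lit 456) (nat_lit 0) (XT.nd (nat_lit 78) (nat_lit 456) (nat_lit 0) (XT.lf (nat_lit 0) (nat_lit 5746486223) (nat_lit 608) (nat_lit 4677116741) (nat_lit 76) (nat_lit 9234437382) (nat_lit 182) (nat_lit 5) (nat_lit 190) (nat_lit 5) (nat_lit 183) (nat_lit 5) (nat_lit 488) (nat_lit 420) (nat_lit 232)) (XT.lf (nat_lit 0) (nat_lit 5464075414) (nat_lit 456) (nat_lit 3625458094) (nat_lit 532) (nat_lit 10815322837) (nat_lit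 176) (nat_lit 5) (nat_lit 182) (nat_lit 5) (nat_lit 183) (nat_lit 5) (nat_lit 489) (nat_lit 420) (nat_lit 231))) (XT.nd (nat_lit 78) (nat_lit 456) (nat_lit 0) (XT.lf (nat_lit 0) (nat_lit 12545803914) (nat_lit 532) (nat_lit 4315238271) (nat_lit 76) (nat_lit 3294642468) (nat_lit 176) (nat_lit 5) (nat_lit 183) (nat_lit 5) (nat_lit 177) (nat_lit 5) (nat_lit 490) (nat_lit 420) (nat_lit 230)) (XT.lf (nat_lit 0) (nat_lit 6059394770) (nat_lit 456) (nat_lit 10068574319) (nat_lit 532) (nat_lit 4282428219) (nat_lit 170) (nat_lit 5) (nat_lit 176) (nat_lit 5) (nat_lit 177) (nat_lit 5) (nat_lit 491) (nat_lit 420) (nat_lit 229))))) (XT.nd (nat_lit 234) (nat_lit 836) (nat_lit 0) (XT.nd (nat_lit 78) (nat_lit 532) (nat_lit 0) (XT.lf (nat_lit 0) (nat_lit 16691192221) (nat_lit 456) (nat_lit 3113032737) (nat_lit 532) (nat_lit 865533417) (nat_lit 170) (nat_lit 5) (nat_lit 176) (nat_lit 5) (nat_lit 177) (nat_lit 5) (nat_lit 492) (nat_lit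 420) (nat_lit 228)) (XT.nd (nat_lit 78) (nat_lit 0) (nat_lit 0) (XT.lf (nat_lit 0) (nat_lit 2648409494) (nat_lit 532) (nat_lit 14296510107) (nat_lit 76) (nat_lit 3987788512) (nat_lit 163) (nat_lit 5) (nat_lit 170) (nat_lit 5) (nat_lit 164) (nat_lit 5) (nat_lit 493) (nat_lit 420) (nat_lit 227)) (XT.lf (nat_lit 0) (nat_lit 6262170644) (nat_lit 532) (nat_lit 3718515232) (nat_lit 76) (nat_lit 11219296895) (nat_lit 163) (nat_lit 5) (nat_lit 170) (nat_lit 5) (nat_lit 164) (nat_lit 5) (nat_lit 494) (nat_lit 420) (nat_lit 226)))) (XT.nd (nat_lit 156) (nat_lit 380) (nat_lit 0) (XT.nd (nat_lit 78) (nat_lit 0) (nat_lit 0) (XT.lf (nat_lit 0) (nat_lit 7156272413) (nat_lit 456) (nat_lit 2832149679) (nat_lit 532) (nat_lit 11483379400) (nat_lit 157) (nat_lit 5) (nat_lit 163) (nat_lit 5) (nat_lit 164) (nat_lit 5) (nat_lit 495) (nat_lit 420) (nat_lit 225)) (XT.lf (nat_lit 0) (nat_lit 13837073342) (nat_lit 532) (nat_lit 3487391769)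 (nat_lit 76) (nat_lit 4423636794) (nat_lit 157) (nat_lit 5) (nat_lit 164) (nat_lit 5) (nat_lit 158) (nat_lit 5) (nat_lit 496) (nat_lit 420) (nat_lit 224))) (XT.nd (nat_lit 78) (nat_lit 0) (nat_lit 0) (XT.lf (nat_lit 0) (nat_lit 7630115656) (nat_lit 380) (nat_lit 10194802416) (nat_lit 456) (nat_lit 4203768604) (nat_lit 152) (nat_lit 5) (nat_lit 157) (nat_lit 5) (nat_lit 158) (nat_lit 5) (nat_lit 497) (nat_lit 420) (nat_lit 223)) (XT.lf (nat_lit 0) (nat_lit 19008794698) (nat_lit 380) (nat_lit 2901116211) (nat_lit 456) (nat_lit 404627113) (nat_lit 152) (nat_lit 5) (nat_lit 157) (nat_lit 5) (nat_lit 158) (nat_lit 5) (nat_lit 498) (nat_lit 420) (nat_lit 222))))))) (XT.nd (nat_lit 1092) (nat_lit 1596) (nat_lit 0) (XT.nd (nat_lit 546) (nat_lit 1140) (nat_lit 0) (XT.nd (nat_lit 234) (nat_lit 836) (nat_lit 0) (XT.nd (nat_lit 78) (nat_lit 380) (nat_lit 0) (XT.lf (nat_lit 0) (nat_lit 3501480940) (nat_lit 532) (nat_lit 14550609596)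 (nat_lit 76) (nat_lit 4552037806) (nat_lit 145) (nat_lit 5) (nat_lit 152) (nat_lit 5) (nat_lit 146) (nat_lit 5) (nat_lit 499) (nat_lit 420) (nat_lit 221)) (XT.nd (nat_lit 78) (nat_lit 380) (nat_lit 0) (XT.lf (nat_lit 0) (nat_lit 7515952903) (nat_lit 532) (nat_lit 3244745691) (nat_lit 76) (nat_lit 12138047736) (nat_lit 145) (nat_lit 5) (nat_lit 152) (nat_lit 5) (nat_lit 146) (nat_lit 5) (nat_lit 500) (nat_lit 420) (nat_lit 220)) (XT.lf (nat_lit 0) (nat_lit 8389007934) (nat_lit 380) (nat_lit 3270400593) (nat_lit 456) (nat_lit 11538876766) (nat_lit 140) (nat_lit 5) (nat_lit 145) (nat_lit 5) (nat_lit 146) (nat_lit 5) (nat_lit 501) (nat_lit 420) (nat_lit 219)))) (XT.nd (nat_lit 156) (nat_lit 456) (nat_lit 0) (XT.nd (nat_lit 78) (nat_lit 380) (nat_lit 0) (XT.lf (nat_lit 0) (nat_lit 15930293494) (nat_lit 456) (nat_lit 3240771953) (nat_lit 76) (nat_lit 4331860834) (nat_lit 140) (nat_lit 5) (nat_lit 146) (nat_lit 5) (nat_lit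 141) (nat_lit 5) (nat_lit 502) (nat_lit 420) (nat_lit 218)) (XT.lf (nat_lit 0) (nat_lit 8642660820) (nat_lit 380) (nat_lit 11716090905) (nat_lit 456) (nat_lit 3453467653) (nat_lit 135) (nat_lit 5) (nat_lit 140) (nat_lit 5) (nat_lit 141) (nat_lit 5) (nat_lit 503) (nat_lit 420) (nat_lit 217))) (XT.nd (nat_lit 78) (nat_lit 380) (nat_lit 0) (XT.lf (nat_lit 0) (nat_lit 754562799) (nat_lit 456) (nat_lit 3332730381) (nat_lit 76) (nat_lit 20039984459) (nat_lit 134) (nat_lit 5) (nat_lit 140) (nat_lit 5) (nat_lit 135) (nat_lit 5) (nat_lit 504) (nat_lit 420) (nat_lit 216)) (XT.lf (nat_lit 0) (nat_lit 5076868325) (nat_lit 456) (nat_lit 15645927879) (nat_lit 76) (nat_lit 3723859449) (nat_lit 129) (nat_lit 5) (nat_lit 135) (nat_lit 5) (nat_lit 130) (nat_lit 5) (nat_lit 505) (nat_lit 420) (nat_lit 215))))) (XT.nd (nat_lit 234) (nat_lit 760) (nat_lit 0) (XT.nd (nat_lit 78) (nat_lit 380) (nat_lit 0) (XT.lf (nat_lit 0) (nat_lit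 9529752016) (nat_lit 456) (nat_lit 3585198758) (nat_lit 76) (nat_lit 11656590032) (nat_lit 129) (nat_lit 5) (nat_lit 135) (nat_lit 5) (nat_lit 130) (nat_lit 5) (nat_lit 506) (nat_lit 420) (nat_lit 214)) (XT.nd (nat_lit 78) (nat_lit 0) (nat_lit 0) (XT.lf (nat_lit 0) (nat_lit 8824599115) (nat_lit 380) (nat_lit 5299047653) (nat_lit 456) (nat_lit 10978239999) (nat_lit 124) (nat_lit 5) (nat_lit 129) (nat_lit 5) (nat_lit 130) (nat_lit 5) (nat_lit 507) (nat_lit 420) (nat_lit 213)) (XT.lf (nat_lit 0) (nat_lit 18845688963) (nat_lit 456) (nat_lit 3932604126) (nat_lit 76) (nat_lit 2659823301) (nat_lit 124) (nat_lit 5) (nat_lit 130) (nat_lit 5) (nat_lit 125) (nat_lit 5) (nat_lit 508) (nat_lit 420) (nat_lit 212)))) (XT.nd (nat_lit 156) (nat_lit 380) (nat_lit 0) (XT.nd (nat_lit 78) (nat_lit 76) (nat_lit 0) (XT.lf (nat_lit 0) (nat_lit 8730617420) (nat_lit 304) (nat_lit 15018132212) (nat_lit 380) (nat_lit 2030591512) (nat_lit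 120) (nat_lit 5) (nat_lit 124) (nat_lit 5) (nat_lit 125) (nat_lit 5) (nat_lit 509) (nat_lit 420) (nat_lit 211)) (XT.lf (nat_lit 0) (nat_lit 2609466818) (nat_lit 380) (nat_lit 4451439423) (nat_lit 76) (nat_lit 19065718023) (nat_lit 119) (nat_lit 5) (nat_lit 124) (nat_lit 5) (nat_lit 120) (nat_lit 5) (nat_lit 510) (nat_lit 420) (nat_lit 210))) (XT.nd (nat_lit 78) (nat_lit 0) (nat_lit 0) (XT.lf (nat_lit 0) (nat_lit 7372479336) (nat_lit 456) (nat_lit 17998844152) (nat_lit 76) (nat_lit 1108116232) (nat_lit 114) (nat_lit 5) (nat_lit 120) (nat_lit 5) (nat_lit 115) (nat_lit 5) (nat_lit 511) (nat_lit 420) (nat_lit 209)) (XT.lf (nat_lit 0) (nat_lit 12302533326) (nat_lit 456) (nat_lit 5161730342) (nat_lit 76) (nat_lit 9373614123) (nat_lit 114) (nat_lit 5) (nat_lit 120) (nat_lit 5) (nat_lit 115) (nat_lit 5) (nat_lit 512) (nat_lit 420) (nat_lit 208)))))) (XT.nd (nat_lit 546) (nat_lit 304) (nat_lit 0) (XT.nd (nat_lit 234) (nat_lit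 608) (nat_lit 0) (XT.nd (nat_lit 78) (nat_lit 380) (nat_lit 0) (XT.lf (nat_lit 0) (nat_lit 8029920786) (nat_lit 304) (nat_lit 9348453109) (nat_lit 380) (nat_lit 9824168914) (nat_lit 110) (nat_lit 5) (nat_lit 114) (nat_lit 5) (nat_lit 115) (nat_lit 5) (nat_lit 513) (nat_lit 420) (nat_lit 207)) (XT.nd (nat_lit 78) (nat_lit 380) (nat_lit 0) (XT.lf (nat_lit 0) (nat_lit 21547904204) (nat_lit 304) (nat_lit 1037563491) (nat_lit 380) (nat_lit 4988440559) (nat_lit 110) (nat_lit 5) (nat_lit 114) (nat_lit 5) (nat_lit 115) (nat_lit 5) (nat_lit 514) (nat_lit 420) (nat_lit 206)) (XT.lf (nat_lit 0) (nat_lit 37032382) (nat_lit 380) (nat_lit 20525890175) (nat_lit 76) (nat_lit 7387941595) (nat_lit 105) (nat_lit 5) (nat_lit 110) (nat_lit 5) (nat_lit 106) (nat_lit 5) (nat_lit 515) (nat_lit 420) (nat_lit 205)))) (XT.nd (nat_lit 156) (nat_lit 304) (nat_lit 0) (XT.nd (nat_lit 78) (nat_lit 304) (nat_lit 0) (XT.lf (nat_lit 0) (nat_lit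 5139050398) (nat_lit 380) (nat_lit 7155491296) (nat_lit 76) (nat_lit 16039303135) (nat_lit 105) (nat_lit 5) (nat_lit 110) (nat_lit 5) (nat_lit 106) (nat_lit 5) (nat_lit 516) (nat_lit 420) (nat_lit 204)) (XT.lf (nat_lit 0) (nat_lit 6561089540) (nat_lit 304) (nat_lit 3819904119) (nat_lit 380) (nat_lit 18342735480) (nat_lit 101) (nat_lit 5) (nat_lit 105) (nat_lit 5) (nat_lit 106) (nat_lit 5) (nat_lit 517) (nat_lit 420) (nat_lit 203))) (XT.nd (nat_lit 78) (nat_lit 304) (nat_lit 0) (XT.lf (nat_lit 0) (nat_lit 15802747792) (nat_lit 380) (nat_lit 8510400757) (nat_lit 76) (nat_lit 4806764824) (nat_lit 101) (nat_lit 5) (nat_lit 106) (nat_lit 5) (nat_lit 102) (nat_lit 5) (nat_lit 518) (nat_lit 420) (nat_lit 202)) (XT.lf (nat_lit 0) (nat_lit 5453951848) (nat_lit 304) (nat_lit 15935099901) (nat_lit 380) (nat_lit 8133848899) (nat_lit 97) (nat_lit 5) (nat_lit 101) (nat_lit 5) (nat_lit 102) (nat_lit 5) (nat_lit 519) (nat_lit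 420) (nat_lit 201))))) (XT.nd (nat_lit 51792) (nat_lit 0) (nat_lit 26372) (XT.nd (nat_lit 51636) (nat_lit 0) (nat_lit 26296) (XT.nd (nat_lit 78) (nat_lit 304) (nat_lit 0) (XT.lf (nat_lit 0) (nat_lit 19805836162) (nat_lit 304) (nat_lit 7333805445) (nat_lit 380) (nat_lit 2793256481) (nat_lit 97) (nat_lit 5) (nat_lit 101) (nat_lit 5) (nat_lit 102) (nat_lit 5) (nat_lit 520) (nat_lit 420) (nat_lit 200)) (XT.lf (nat_lit 0) (nat_lit 2651240309) (nat_lit 304) (nat_lit 26236455431) (nat_lit 76) (nat_lit 1462418596) (nat_lit 93) (nat_lit 5) (nat_lit 97) (nat_lit 5) (nat_lit 94) (nat_lit 5) (nat_lit 521) (nat_lit 420) (nat_lit 199))) (XT.nd (nat_lit 78) (nat_lit 0) (nat_lit 0) (XT.lf (nat_lit 0) (nat_lit 1412126021) (nat_lit 1596) (nat_lit 1722835277) (nat_lit 1596) (nat_lit 1722835277) (nat_lit 439) (nat_lit 3) (nat_lit 460) (nat_lit 3) (nat_lit 460) (nat_lit 5) (nat_lit 421) (nat_lit 421) (nat_lit 298)) (XT.lf (nat_lit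 76) (nat_lit 1051548834) (nat_lit 0) (nat_lit 2533189022) (nat_lit 1596) (nat_lit 6212832892) (nat_lit 440) (nat_lit 5) (nat_lit 439) (nat_lit 3) (nat_lit 460) (nat_lit 5) (nat_lit 422) (nat_lit 421) (nat_lit 297)))) (XT.nd (nat_lit 156) (nat_lit 0) (nat_lit 0) (XT.nd (nat_lit 78) (nat_lit 0) (nat_lit 0) (XT.lf (nat_lit 0) (nat_lit 4372976469) (nat_lit 1520) (nat_lit 4214054620) (nat_lit 1596) (nat_lit 1293919936) (nat_lit 440) (nat_lit 5) (nat_lit 460) (nat_lit 5) (nat_lit 461) (nat_lit 5) (nat_lit 423) (nat_lit 421) (nat_lit 296)) (XT.lf (nat_lit 76) (nat_lit 386753976) (nat_lit 0) (nat_lit 4790854455) (nat_lit 1596) (nat_lit 4788391624) (nat_lit 441) (nat_lit 5) (nat_lit 440) (nat_lit 5) (nat_lit 461) (nat_lit 5) (nat_lit 424) (nat_lit 421) (nat_lit 295))) (XT.nd (nat_lit 78) (nat_lit 0) (nat_lit 76) (XT.lf (nat_lit 76) (nat_lit 5126673471) (nat_lit 0) (nat_lit 881580261) (nat_lit 1596) (nat_lit 4044311370)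 (nat_lit 441) (nat_lit 5) (nat_lit 440) (nat_lit 5) (nat_lit 461) (nat_lit 5) (nat_lit 425) (nat_lit 421) (nat_lit 294)) (XT.lf (nat_lit 0) (nat_lit 6857732524) (nat_lit 1520) (nat_lit 209892959) (nat_lit 1596) (nat_lit 3073204742) (nat_lit 441) (nat_lit 5) (nat_lit 461) (nat_lit 5) (nat_lit 462) (nat_lit 5) (nat_lit 426) (nat_lit 421) (nat_lit 293))))))))
noncomputable def xc192 : XT := (XT.nd (nat_lit 2184) (nat_lit 10488) (nat_lit 0) (XT.nd (nat_lit 1092) (nat_lit 6080) (nat_lit 0) (XT.nd (nat_lit 546) (nat_lit 0) (nat_lit 152) (XT.nd (nat_lit 234) (nat_lit 1520) (nat_lit 0) (XT.nd (nat_lit 78) (nat_lit 0) (nat_lit 76) (XT.lf (nat_lit 76) (nat_lit 4645457103) (nat_lit 0) (nat_lit 3097150470) (nat_lit 1596) (nat_lit 2487897871) (nat_lit 442) (nat_lit 5) (nat_lit 441) (nat_lit 5) (nat_lit 462) (nat_lit 5) (nat_lit 427) (nat_lit 421) (nat_lit 292)) (XT.nd (nat_lit 78) (nat_lit 0) (nat_lit 0) (XT.lf (nat_lit 0)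 (nat_lit 8635518382) (nat_lit 1520) (nat_lit 737778410) (nat_lit 1596) (nat_lit 948883284) (nat_lit 442) (nat_lit 5) (nat_lit 462) (nat_lit 5) (nat_lit 463) (nat_lit 5) (nat_lit 428) (nat_lit 421) (nat_lit 291)) (XT.lf (nat_lit 76) (nat_lit 4231226517) (nat_lit 0) (nat_lit 5346116941) (nat_lit 1596) (nat_lit 837736047) (nat_lit 443) (nat_lit 5) (nat_lit 442) (nat_lit 5) (nat_lit 463) (nat_lit 5) (nat_lit 429) (nat_lit 421) (nat_lit 290)))) (XT.nd (nat_lit 156) (nat_lit 0) (nat_lit 76) (XT.nd (nat_lit 78) (nat_lit 0) (nat_lit 76) (XT.lf (nat_lit 0) (nat_lit 15999341) (nat_lit 1596) (nat_lit 1210701947) (nat_lit 1672) (nat_lit 9283379905) (nat_lit 421) (nat_lit 5) (nat_lit 442) (nat_lit 5) (nat_lit 443) (nat_lit 5) (nat_lit 430) (nat_lit 421) (nat_lit 289)) (XT.lf (nat_lit 0) (nat_lit 904014236) (nat_lit 1596) (nat_lit 6728947491) (nat_lit 1672) (nat_lit 2973353709) (nat_lit 422) (nat_lit 5) (nat_lit 443) (nat_lit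 5) (nat_lit 444) (nat_lit 5) (nat_lit 431) (nat_lit 421) (nat_lit 288))) (XT.nd (nat_lit 78) (nat_lit 0) (nat_lit 76) (XT.lf (nat_lit 0) (nat_lit 1809934354) (nat_lit 1596) (nat_lit 1639344683) (nat_lit 1672) (nat_lit 7255203907) (nat_lit 422) (nat_lit 5) (nat_lit 443) (nat_lit 5) (nat_lit 444) (nat_lit 5) (nat_lit 432) (nat_lit 421) (nat_lit 287)) (XT.lf (nat_lit 0) (nat_lit 2746935794) (nat_lit 1596) (nat_lit 7221119744) (nat_lit 1672) (nat_lit 836310258) (nat_lit 423) (nat_lit 5) (nat_lit 444) (nat_lit 5) (nat_lit 445) (nat_lit 5) (nat_lit 433) (nat_lit 421) (nat_lit 286))))) (XT.nd (nat_lit 234) (nat_lit 0) (nat_lit 76) (XT.nd (nat_lit 78) (nat_lit 0) (nat_lit 0) (XT.lf (nat_lit 0) (nat_lit 3721033016) (nat_lit 1596) (nat_lit 2006982791) (nat_lit 1672) (nat_lit 5177874419) (nat_lit 423) (nat_lit 5) (nat_lit 444) (nat_lit 5) (nat_lit 445) (nat_lit 5) (nat_lit 434) (nat_lit 421) (nat_lit 285)) (XT.nd (nat_lit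 78) (nat_lit 0) (nat_lit 76) (XT.lf (nat_lit 76) (nat_lit 3344962477) (nat_lit 0) (nat_lit 1376111660) (nat_lit 1672) (nat_lit 6288252584) (nat_lit 424) (nat_lit 5) (nat_lit 423) (nat_lit 5) (nat_lit 445) (nat_lit 5) (nat_lit 435) (nat_lit 421) (nat_lit 284)) (XT.lf (nat_lit 0) (nat_lit 5759566589) (nat_lit 1596) (nat_lit 2314003925) (nat_lit 1672) (nat_lit 3040903028) (nat_lit 424) (nat_lit 5) (nat_lit 445) (nat_lit 5) (nat_lit 446) (nat_lit 5) (nat_lit 436) (nat_lit 421) (nat_lit 283)))) (XT.nd (nat_lit 156) (nat_lit 0) (nat_lit 76) (XT.nd (nat_lit 78) (nat_lit 0) (nat_lit 76) (XT.lf (nat_lit 76) (nat_lit 3165354622) (nat_lit 0) (nat_lit 3668440618) (nat_lit 1672) (nat_lit 4387639129) (nat_lit 425) (nat_lit 5) (nat_lit 424) (nat_lit 5) (nat_lit 446) (nat_lit 5) (nat_lit 437) (nat_lit 421) (nat_lit 282)) (XT.lf (nat_lit 0) (nat_lit 7936043946) (nat_lit 1596) (nat_lit 2560682470) (nat_lit 1672) (nat_lit 833687480)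 (nat_lit 425) (nat_lit 5) (nat_lit 446) (nat_lit 5) (nat_lit 447) (nat_lit 5) (nat_lit 438) (nat_lit 421) (nat_lit 281))) (XT.nd (nat_lit 78) (nat_lit 0) (nat_lit 0) (XT.lf (nat_lit 76) (nat_lit 3049869239) (nat_lit 0) (nat_lit 6040397180) (nat_lit 1672) (nat_lit 2350718011) (nat_lit 426) (nat_lit 5) (nat_lit 425) (nat_lit 5) (nat_lit 447) (nat_lit 5) (nat_lit 439) (nat_lit 421) (nat_lit 280)) (XT.lf (nat_lit 76) (nat_lit 8796952729) (nat_lit 0) (nat_lit 1473847183) (nat_lit 1672) (nat_lit 1282911730) (nat_lit 426) (nat_lit 5) (nat_lit 425) (nat_lit 5) (nat_lit 447) (nat_lit 5) (nat_lit 440) (nat_lit 421) (nat_lit 279)))))) (XT.nd (nat_lit 546) (nat_lit 3268) (nat_lit 0) (XT.nd (nat_lit 234) (nat_lit 1520) (nat_lit 0) (XT.nd (nat_lit 78) (nat_lit 1672) (nat_lit 0) (XT.lf (nat_lit 76) (nat_lit 2998444539) (nat_lit 0) (nat_lit 8502979700) (nat_lit 1672) (nat_lit 166749162) (nat_lit 427) (nat_lit 5) (nat_lit 426)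 (nat_lit 5) (nat_lit 448) (nat_lit 5) (nat_lit 441) (nat_lit 421) (nat_lit 278)) (XT.nd (nat_lit 78) (nat_lit 0) (nat_lit 76) (XT.lf (nat_lit 0) (nat_lit 973815707) (nat_lit 1672) (nat_lit 2905238628) (nat_lit 1748) (nat_lit 7905456637) (nat_lit 404) (nat_lit 5) (nat_lit 426) (nat_lit 5) (nat_lit 427) (nat_lit 5) (nat_lit 442) (nat_lit 421) (nat_lit 277)) (XT.lf (nat_lit 0) (nat_lit 2146753637) (nat_lit 1672) (nat_lit 8906220319) (nat_lit 1748) (nat_lit 849952455) (nat_lit 405) (nat_lit 5) (nat_lit 427) (nat_lit 5) (nat_lit 428) (nat_lit 5) (nat_lit 443) (nat_lit 421) (nat_lit 276)))) (XT.nd (nat_lit 156) (nat_lit 1596) (nat_lit 0) (XT.nd (nat_lit 78) (nat_lit 0) (nat_lit 0) (XT.lf (nat_lit 0) (nat_lit 3375382715) (nat_lit 1672) (nat_lit 3003692363) (nat_lit 1748) (nat_lit 5643999307) (nat_lit 405) (nat_lit 5) (nat_lit 427) (nat_lit 5) (nat_lit 428) (nat_lit 5) (nat_lit 444) (nat_lit 421) (nat_lit 275)) (XT.lf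 (nat_lit 76) (nat_lit 3046423993) (nat_lit 0) (nat_lit 1589114784) (nat_lit 1748) (nat_lit 7509956154) (nat_lit 406) (nat_lit 5) (nat_lit 405) (nat_lit 5) (nat_lit 428) (nat_lit 5) (nat_lit 445) (nat_lit 421) (nat_lit 274))) (XT.nd (nat_lit 78) (nat_lit 1672) (nat_lit 0) (XT.lf (nat_lit 0) (nat_lit 5949965976) (nat_lit 1672) (nat_lit 3043863988) (nat_lit 76) (nat_lit 3275961092) (nat_lit 406) (nat_lit 5) (nat_lit 428) (nat_lit 5) (nat_lit 407) (nat_lit 5) (nat_lit 446) (nat_lit 421) (nat_lit 273)) (XT.lf (nat_lit 0) (nat_lit 3152857518) (nat_lit 1672) (nat_lit 4156440314) (nat_lit 1748) (nat_lit 5086911311) (nat_lit 384) (nat_lit 5) (nat_lit 406) (nat_lit 5) (nat_lit 407) (nat_lit 5) (nat_lit 447) (nat_lit 421) (nat_lit 272))))) (XT.nd (nat_lit 234) (nat_lit 1824) (nat_lit 0) (XT.nd (nat_lit 78) (nat_lit 1444) (nat_lit 0) (XT.lf (nat_lit 0) (nat_lit 8709236160) (nat_lit 1748) (nat_lit 3025769549) (nat_lit 76) (nat_lit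 789889684) (nat_lit 384) (nat_lit 5) (nat_lit 407) (nat_lit 5) (nat_lit 385) (nat_lit 5) (nat_lit 448) (nat_lit 421) (nat_lit 271)) (XT.nd (nat_lit 78) (nat_lit 0) (nat_lit 0) (XT.lf (nat_lit 0) (nat_lit 3321800447) (nat_lit 1444) (nat_lit 6852514575) (nat_lit 1520) (nat_lit 2481105548) (nat_lit 365) (nat_lit 5) (nat_lit 384) (nat_lit 5) (nat_lit 385) (nat_lit 5) (nat_lit 449) (nat_lit 421) (nat_lit 270)) (XT.lf (nat_lit 0) (nat_lit 9827001755) (nat_lit 1444) (nat_lit 1850213798) (nat_lit 1520) (nat_lit 1111178177) (nat_lit 365) (nat_lit 5) (nat_lit 384) (nat_lit 5) (nat_lit 385) (nat_lit 5) (nat_lit 450) (nat_lit 421) (nat_lit 269)))) (XT.nd (nat_lit 156) (nat_lit 912) (nat_lit 0) (XT.nd (nat_lit 78) (nat_lit 0) (nat_lit 0) (XT.lf (nat_lit 0) (nat_lit 315245246) (nat_lit 912) (nat_lit 9372066721) (nat_lit 76) (nat_lit 3236027794) (nat_lit 353) (nat_lit 5) (nat_lit 365) (nat_lit 5) (nat_lit 354) (nat_lit 5) (nat_lit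 451) (nat_lit 421) (nat_lit 268)) (XT.lf (nat_lit 0) (nat_lit 1776121954) (nat_lit 912) (nat_lit 2856469021) (nat_lit 76) (nat_lit 8427838195) (nat_lit 353) (nat_lit 5) (nat_lit 365) (nat_lit 5) (nat_lit 354) (nat_lit 5) (nat_lit 452) (nat_lit 421) (nat_lit 267))) (XT.nd (nat_lit 78) (nat_lit 0) (nat_lit 0) (XT.lf (nat_lit 0) (nat_lit 3283404557) (nat_lit 988) (nat_lit 9374166244) (nat_lit 76) (nat_lit 542353079) (nat_lit 341) (nat_lit 5) (nat_lit 354) (nat_lit 5) (nat_lit 342) (nat_lit 5) (nat_lit 453) (nat_lit 421) (nat_lit 266)) (XT.lf (nat_lit 0) (nat_lit 4859724838) (nat_lit 988) (nat_lit 2702716343) (nat_lit 76) (nat_lit 5778996599) (nat_lit 341) (nat_lit 5) (nat_lit 354) (nat_lit 5) (nat_lit 342) (nat_lit 5) (nat_lit 454) (nat_lit 421) (nat_lit 265))))))) (XT.nd (nat_lit 1092) (nat_lit 5016) (nat_lit 0) (XT.nd (nat_lit 546) (nat_lit 2204) (nat_lit 0) (XT.nd (nat_lit 234) (nat_lit 1596) (nat_lit 0) (XT.nd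 (nat_lit 78) (nat_lit 836) (nat_lit 0) (XT.lf (nat_lit 0) (nat_lit 4146312891) (nat_lit 836) (nat_lit 2337313819) (nat_lit 912) (nat_lit 7001841142) (nat_lit 330) (nat_lit 5) (nat_lit 341) (nat_lit 5) (nat_lit 342) (nat_lit 5) (nat_lit 455) (nat_lit 421) (nat_lit 264)) (XT.nd (nat_lit 78) (nat_lit 836) (nat_lit 0) (XT.lf (nat_lit 0) (nat_lit 8166976731) (nat_lit 912) (nat_lit 2492992107) (nat_lit 76) (nat_lit 2971877143) (nat_lit 330) (nat_lit 5) (nat_lit 342) (nat_lit 5) (nat_lit 331) (nat_lit 5) (nat_lit 456) (nat_lit 421) (nat_lit 263)) (XT.lf (nat_lit 0) (nat_lit 4523761872) (nat_lit 836) (nat_lit 5394577388) (nat_lit 912) (nat_lit 3862132230) (nat_lit 319) (nat_lit 5) (nat_lit 330) (nat_lit 5) (nat_lit 331) (nat_lit 5) (nat_lit 457) (nat_lit 421) (nat_lit 262)))) (XT.nd (nat_lit 156) (nat_lit 836) (nat_lit 0) (XT.nd (nat_lit 78) (nat_lit 760) (nat_lit 0) (XT.lf (nat_lit 0) (nat_lit 11704527909) (nat_lit 836)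 (nat_lit 6566058) (nat_lit 912) (nat_lit 2220854837) (nat_lit 319) (nat_lit 5) (nat_lit 330) (nat_lit 5) (nat_lit 331) (nat_lit 5) (nat_lit 458) (nat_lit 421) (nat_lit 261)) (XT.lf (nat_lit 0) (nat_lit 4961759308) (nat_lit 760) (nat_lit 8635639496) (nat_lit 836) (nat_lit 487909422) (nat_lit 309) (nat_lit 5) (nat_lit 319) (nat_lit 5) (nat_lit 320) (nat_lit 5) (nat_lit 459) (nat_lit 421) (nat_lit 260))) (XT.nd (nat_lit 78) (nat_lit 760) (nat_lit 0) (XT.lf (nat_lit 0) (nat_lit 1267902774) (nat_lit 836) (nat_lit 1935173476) (nat_lit 76) (nat_lit 11038398802) (nat_lit 308) (nat_lit 5) (nat_lit 319) (nat_lit 5) (nat_lit 309) (nat_lit 5) (nat_lit 460) (nat_lit 421) (nat_lit 259)) (XT.lf (nat_lit 0) (nat_lit 3093259243) (nat_lit 836) (nat_lit 8960349864) (nat_lit 76) (nat_lit 2346278475) (nat_lit 298) (nat_lit 5) (nat_lit 309) (nat_lit 5) (nat_lit 299) (nat_lit 5) (nat_lit 461) (nat_lit 421) (nat_lit 258))))) (XT.nd (nat_lit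 234) (nat_lit 1520) (nat_lit 0) (XT.nd (nat_lit 78) (nat_lit 684) (nat_lit 0) (XT.lf (nat_lit 0) (nat_lit 4979635499) (nat_lit 836) (nat_lit 1604669459) (nat_lit 76) (nat_lit 7976679122) (nat_lit 298) (nat_lit 5) (nat_lit 309) (nat_lit 5) (nat_lit 299) (nat_lit 5) (nat_lit 462) (nat_lit 421) (nat_lit 257)) (XT.nd (nat_lit 78) (nat_lit 0) (nat_lit 0) (XT.lf (nat_lit 0) (nat_lit 5966436901) (nat_lit 684) (nat_lit 966460246) (nat_lit 760) (nat_lit 7791828058) (nat_lit 289) (nat_lit 5) (nat_lit 298) (nat_lit 5) (nat_lit 299) (nat_lit 5) (nat_lit 463) (nat_lit 421) (nat_lit 256)) (XT.lf (nat_lit 0) (nat_lit 8957533730) (nat_lit 760) (nat_lit 1221874689) (nat_lit 76) (nat_lit 4711692282) (nat_lit 289) (nat_lit 5) (nat_lit 299) (nat_lit 5) (nat_lit 290) (nat_lit 5) (nat_lit 464) (nat_lit 421) (nat_lit 255)))) (XT.nd (nat_lit 156) (nat_lit 760) (nat_lit 0) (XT.nd (nat_lit 78) (nat_lit 0) (nat_lit 0) (XT.lf (nat_lit 0)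 (nat_lit 6534702638) (nat_lit 760) (nat_lit 4527514743) (nat_lit 836) (nat_lit 3997800865) (nat_lit 279) (nat_lit 5) (nat_lit 289) (nat_lit 5) (nat_lit 290) (nat_lit 5) (nat_lit 465) (nat_lit 421) (nat_lit 254)) (XT.lf (nat_lit 0) (nat_lit 13216122860) (nat_lit 836) (nat_lit 787251705) (nat_lit 76) (nat_lit 1228802530) (nat_lit 279) (nat_lit 5) (nat_lit 290) (nat_lit 5) (nat_lit 280) (nat_lit 5) (nat_lit 466) (nat_lit 421) (nat_lit 253))) (XT.nd (nat_lit 78) (nat_lit 0) (nat_lit 0) (XT.lf (nat_lit 0) (nat_lit 73188022) (nat_lit 760) (nat_lit 8247217211) (nat_lit 76) (nat_lit 7086019888) (nat_lit 269) (nat_lit 5) (nat_lit 279) (nat_lit 5) (nat_lit 270) (nat_lit 5) (nat_lit 467) (nat_lit 421) (nat_lit 252)) (XT.lf (nat_lit 0) (nat_lit 2173632124) (nat_lit 760) (nat_lit 332021768) (nat_lit 76) (nat_lit 13078314653) (nat_lit 269) (nat_lit 5) (nat_lit 279) (nat_lit 5) (nat_lit 270) (nat_lit 5) (nat_lit 468) (nat_lit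 421) (nat_lit 251)))))) (XT.nd (nat_lit 546) (nat_lit 2356) (nat_lit 0) (XT.nd (nat_lit 234) (nat_lit 1368) (nat_lit 0) (XT.nd (nat_lit 78) (nat_lit 608) (nat_lit 0) (XT.lf (nat_lit 0) (nat_lit 4380767267) (nat_lit 760) (nat_lit 7952225192) (nat_lit 76) (nat_lit 3430781833) (nat_lit 260) (nat_lit 5) (nat_lit 270) (nat_lit 5) (nat_lit 261) (nat_lit 5) (nat_lit 469) (nat_lit 421) (nat_lit 250)) (XT.nd (nat_lit 78) (nat_lit 0) (nat_lit 0) (XT.lf (nat_lit 0) (nat_lit 150965708) (nat_lit 608) (nat_lit 6492243334) (nat_lit 684) (nat_lit 9303748831) (nat_lit 252) (nat_lit 5) (nat_lit 260) (nat_lit 5) (nat_lit 261) (nat_lit 5) (nat_lit 470) (nat_lit 421) (nat_lit 249)) (XT.lf (nat_lit 0) (nat_lit 8514313004) (nat_lit 608) (nat_lit 481404166) (nat_lit 684) (nat_lit 7137196502) (nat_lit 252) (nat_lit 5) (nat_lit 260) (nat_lit 5) (nat_lit 261) (nat_lit 5) (nat_lit 471) (nat_lit 421) (nat_lit 248)))) (XT.nd (nat_lit 156) (nat_lit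 684) (nat_lit 0) (XT.nd (nat_lit 78) (nat_lit 0) (nat_lit 0) (XT.lf (nat_lit 0) (nat_lit 684964084) (nat_lit 684) (nat_lit 10743054019) (nat_lit 760) (nat_lit 4893920435) (nat_lit 243) (nat_lit 5) (nat_lit 252) (nat_lit 5) (nat_lit 253) (nat_lit 5) (nat_lit 472) (nat_lit 421) (nat_lit 247)) (XT.lf (nat_lit 0) (nat_lit 9245028747) (nat_lit 684) (nat_lit 4709944390) (nat_lit 760) (nat_lit 2558855312) (nat_lit 243) (nat_lit 5) (nat_lit 252) (nat_lit 5) (nat_lit 253) (nat_lit 5) (nat_lit 473) (nat_lit 421) (nat_lit 246))) (XT.nd (nat_lit 78) (nat_lit 76) (nat_lit 0) (XT.lf (nat_lit 0) (nat_lit 1264363470) (nat_lit 608) (nat_lit 15277557271) (nat_lit 684) (nat_lit 167450964) (nat_lit 235) (nat_lit 5) (nat_lit 243) (nat_lit 5) (nat_lit 244) (nat_lit 5) (nat_lit 474) (nat_lit 421) (nat_lit 245)) (XT.lf (nat_lit 0) (nat_lit 2314188869) (nat_lit 684) (nat_lit 6897026547) (nat_lit 76) (nat_lit 7695875804) (nat_lit 234) (nat_lit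 5) (nat_lit 243) (nat_lit 5) (nat_lit 235) (nat_lit 5) (nat_lit 475) (nat_lit 421) (nat_lit 244))))) (XT.nd (nat_lit 312) (nat_lit 1216) (nat_lit 0) (XT.nd (nat_lit 156) (nat_lit 532) (nat_lit 0) (XT.nd (nat_lit 78) (nat_lit 0) (nat_lit 0) (XT.lf (nat_lit 0) (nat_lit 1835434703) (nat_lit 608) (nat_lit 3011772246) (nat_lit 684) (nat_lit 12261460638) (nat_lit 226) (nat_lit 5) (nat_lit 234) (nat_lit 5) (nat_lit 235) (nat_lit 5) (nat_lit 476) (nat_lit 421) (nat_lit 243)) (XT.lf (nat_lit 0) (nat_lit 7491129313) (nat_lit 684) (nat_lit 6508653665) (nat_lit 76) (nat_lit 3313291888) (nat_lit 226) (nat_lit 5) (nat_lit 235) (nat_lit 5) (nat_lit 227) (nat_lit 5) (nat_lit 477) (nat_lit 421) (nat_lit 242))) (XT.nd (nat_lit 78) (nat_lit 0) (nat_lit 0) (XT.lf (nat_lit 0) (nat_lit 2433846841) (nat_lit 532) (nat_lit 7782138045) (nat_lit 608) (nat_lit 7305028493) (nat_lit 219) (nat_lit 5) (nat_lit 226) (nat_lit 5) (nat_lit 227) (nat_lit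 5) (nat_lit 478) (nat_lit 421) (nat_lit 241)) (XT.lf (nat_lit 0) (nat_lit 11634140228) (nat_lit 532) (nat_lit 1397271501) (nat_lit 608) (nat_lit 4700981548) (nat_lit 219) (nat_lit 5) (nat_lit 226) (nat_lit 5) (nat_lit 227) (nat_lit 5) (nat_lit 479) (nat_lit 421) (nat_lit 240)))) (XT.nd (nat_lit 156) (nat_lit 532) (nat_lit 0) (XT.nd (nat_lit 78) (nat_lit 76) (nat_lit 0) (XT.lf (nat_lit 0) (nat_lit 3068223143) (nat_lit 608) (nat_lit 12880592808) (nat_lit 684) (nat_lit 1998275464) (nat_lit 211) (nat_lit 5) (nat_lit 219) (nat_lit 5) (nat_lit 220) (nat_lit 5) (nat_lit 480) (nat_lit 421) (nat_lit 239)) (XT.lf (nat_lit 0) (nat_lit 791554044) (nat_lit 684) (nat_lit 5688307612) (nat_lit 76) (nat_lit 11685266891) (nat_lit 210) (nat_lit 5) (nat_lit 219) (nat_lit 5) (nat_lit 211) (nat_lit 5) (nat_lit 481) (nat_lit 421) (nat_lit 238))) (XT.nd (nat_lit 78) (nat_lit 0) (nat_lit 0) (XT.lf (nat_lit 0) (nat_lit 3627820255) (nat_lit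 608) (nat_lit 14675066051) (nat_lit 76) (nat_lit 84031791) (nat_lit 203) (nat_lit 5) (nat_lit 211) (nat_lit 5) (nat_lit 204) (nat_lit 5) (nat_lit 482) (nat_lit 421) (nat_lit 237)) (XT.lf (nat_lit 0) (nat_lit 6594936953) (nat_lit 608) (nat_lit 5287603944) (nat_lit 76) (nat_lit 6729123750) (nat_lit 203) (nat_lit 5) (nat_lit 211) (nat_lit 5) (nat_lit 204) (nat_lit 5) (nat_lit 483) (nat_lit 421) (nat_lit 236))))))))
noncomputable def xc193 : XT := (XT.nd (nat_lit 2184) (nat_lit 1672) (nat_lit 0) (XT.nd (nat_lit 1092) (nat_lit 2888) (nat_lit 0) (XT.nd (nat_lit 546) (nat_lit 1444) (nat_lit 0) (XT.nd (nat_lit 234) (nat_lit 1064) (nat_lit 0) (XT.nd (nat_lit 78) (nat_lit 456) (nat_lit 0) (XT.lf (nat_lit 0) (nat_lit 4335468280) (nat_lit 532) (nat_lit 5307005697) (nat_lit 608) (nat_lit 9198014231) (nat_lit 196) (nat_lit 5) (nat_lit 203) (nat_lit 5) (nat_lit 204) (nat_lit 5) (nat_lit 484) (nat_lit 421) (nat_lit 235)) (XT.nd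 (nat_lit 78) (nat_lit 456) (nat_lit 0) (XT.lf (nat_lit 0) (nat_lit 12788766514) (nat_lit 608) (nat_lit 4868897821) (nat_lit 76) (nat_lit 1415471380) (nat_lit 196) (nat_lit 5) (nat_lit 204) (nat_lit 5) (nat_lit 197) (nat_lit 5) (nat_lit 485) (nat_lit 421) (nat_lit 234)) (XT.lf (nat_lit 0) (nat_lit 4981237616) (nat_lit 456) (nat_lit 11077369016) (nat_lit 532) (nat_lit 3250620604) (nat_lit 190) (nat_lit 5) (nat_lit 196) (nat_lit 5) (nat_lit 197) (nat_lit 5) (nat_lit 486) (nat_lit 421) (nat_lit 233)))) (XT.nd (nat_lit 156) (nat_lit 456) (nat_lit 0) (XT.nd (nat_lit 78) (nat_lit 608) (nat_lit 0) (XT.lf (nat_lit 0) (nat_lit 15085540255) (nat_lit 456) (nat_lit 4334187922) (nat_lit 532) (nat_lit 129798147) (nat_lit 190) (nat_lit 5) (nat_lit 196) (nat_lit 5) (nat_lit 197) (nat_lit 5) (nat_lit 487) (nat_lit 421) (nat_lit 232)) (XT.lf (nat_lit 0) (nat_lit 3060205112) (nat_lit 608) (nat_lit 14167792429) (nat_lit 76) (nat_lit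 2565304436) (nat_lit 182) (nat_lit 5) (nat_lit 190) (nat_lit 5) (nat_lit 183) (nat_lit 5) (nat_lit 488) (nat_lit 421) (nat_lit 231))) (XT.nd (nat_lit 78) (nat_lit 456) (nat_lit 0) (XT.lf (nat_lit 0) (nat_lit 6364488370) (nat_lit 608) (nat_lit 4102628248) (nat_lit 76) (nat_lit 9573778238) (nat_lit 182) (nat_lit 5) (nat_lit 190) (nat_lit 5) (nat_lit 183) (nat_lit 5) (nat_lit 489) (nat_lit 421) (nat_lit 230)) (XT.lf (nat_lit 0) (nat_lit 6236992812) (nat_lit 456) (nat_lit 3531848389) (nat_lit 532) (nat_lit 10523921883) (nat_lit 176) (nat_lit 5) (nat_lit 182) (nat_lit 5) (nat_lit 183) (nat_lit 5) (nat_lit 490) (nat_lit 421) (nat_lit 229))))) (XT.nd (nat_lit 234) (nat_lit 988) (nat_lit 0) (XT.nd (nat_lit 78) (nat_lit 456) (nat_lit 0) (XT.lf (nat_lit 0) (nat_lit 13285539184) (nat_lit 532) (nat_lit 3741986444) (nat_lit 76) (nat_lit 3521260992) (nat_lit 176) (nat_lit 5) (nat_lit 183) (nat_lit 5) (nat_lit 177) (nat_lit 5)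 (nat_lit 491) (nat_lit 421) (nat_lit 228)) (XT.nd (nat_lit 78) (nat_lit 0) (nat_lit 0) (XT.lf (nat_lit 0) (nat_lit 6835800069) (nat_lit 456) (nat_lit 10098217009) (nat_lit 532) (nat_lit 3874687676) (nat_lit 170) (nat_lit 5) (nat_lit 176) (nat_lit 5) (nat_lit 177) (nat_lit 5) (nat_lit 492) (nat_lit 421) (nat_lit 227)) (XT.lf (nat_lit 0) (nat_lit 17667386070) (nat_lit 456) (nat_lit 3006931827) (nat_lit 532) (nat_lit 399129274) (nat_lit 170) (nat_lit 5) (nat_lit 176) (nat_lit 5) (nat_lit 177) (nat_lit 5) (nat_lit 493) (nat_lit 421) (nat_lit 226)))) (XT.nd (nat_lit 156) (nat_lit 456) (nat_lit 0) (XT.nd (nat_lit 78) (nat_lit 0) (nat_lit 0) (XT.lf (nat_lit 0) (nat_lit 3174693671) (nat_lit 532) (nat_lit 13929232293) (nat_lit 76) (nat_lit 4237752573) (nat_lit 163) (nat_lit 5) (nat_lit 170) (nat_lit 5) (nat_lit 164) (nat_lit 5) (nat_lit 494) (nat_lit 421) (nat_lit 225)) (XT.lf (nat_lit 0) (nat_lit 6851449338) (nat_lit 532)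 (nat_lit 3152485521) (nat_lit 76) (nat_lit 11610553707) (nat_lit 163) (nat_lit 5) (nat_lit 170) (nat_lit 5) (nat_lit 164) (nat_lit 5) (nat_lit 495) (nat_lit 421) (nat_lit 224))) (XT.nd (nat_lit 78) (nat_lit 0) (nat_lit 0) (XT.lf (nat_lit 0) (nat_lit 7935584719) (nat_lit 456) (nat_lit 2711672911) (nat_lit 532) (nat_lit 11244589572) (nat_lit 157) (nat_lit 5) (nat_lit 163) (nat_lit 5) (nat_lit 164) (nat_lit 5) (nat_lit 496) (nat_lit 421) (nat_lit 223)) (XT.lf (nat_lit 0) (nat_lit 14565008021) (nat_lit 532) (nat_lit 2925348234) (nat_lit 76) (nat_lit 4683478945) (nat_lit 157) (nat_lit 5) (nat_lit 164) (nat_lit 5) (nat_lit 158) (nat_lit 5) (nat_lit 497) (nat_lit 421) (nat_lit 222)))))) (XT.nd (nat_lit 546) (nat_lit 1216) (nat_lit 0) (XT.nd (nat_lit 234) (nat_lit 760) (nat_lit 0) (XT.nd (nat_lit 78) (nat_lit 532) (nat_lit 0) (XT.lf (nat_lit 0) (nat_lit 8410352817) (nat_lit 380) (nat_lit 10217484924) (nat_lit 456) (nat_lit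 3832293381) (nat_lit 152) (nat_lit 5) (nat_lit 157) (nat_lit 5) (nat_lit 158) (nat_lit 5) (nat_lit 498) (nat_lit 421) (nat_lit 221)) (XT.nd (nat_lit 78) (nat_lit 456) (nat_lit 0) (XT.lf (nat_lit 0) (nat_lit 33453988) (nat_lit 456) (nat_lit 2747799719) (nat_lit 76) (nat_lit 19970620392) (nat_lit 151) (nat_lit 5) (nat_lit 157) (nat_lit 5) (nat_lit 152) (nat_lit 5) (nat_lit 499) (nat_lit 421) (nat_lit 220)) (XT.lf (nat_lit 0) (nat_lit 4008813046) (nat_lit 532) (nat_lit 14216595422) (nat_lit 76) (nat_lit 4821867115) (nat_lit 145) (nat_lit 5) (nat_lit 152) (nat_lit 5) (nat_lit 146) (nat_lit 5) (nat_lit 500) (nat_lit 421) (nat_lit 219)))) (XT.nd (nat_lit 156) (nat_lit 380) (nat_lit 0) (XT.nd (nat_lit 78) (nat_lit 380) (nat_lit 0) (XT.lf (nat_lit 0) (nat_lit 8094999890) (nat_lit 532) (nat_lit 2696869659) (nat_lit 76) (nat_lit 12556091585) (nat_lit 145) (nat_lit 5) (nat_lit 152) (nat_lit 5) (nat_lit 146) (nat_lit 5) (nat_lit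 501) (nat_lit 421) (nat_lit 218)) (XT.lf (nat_lit 0) (nat_lit 9165527652) (nat_lit 380) (nat_lit 3151342885) (nat_lit 456) (nat_lit 11336713059) (nat_lit 140) (nat_lit 5) (nat_lit 145) (nat_lit 5) (nat_lit 146) (nat_lit 5) (nat_lit 502) (nat_lit 421) (nat_lit 217))) (XT.nd (nat_lit 78) (nat_lit 380) (nat_lit 0) (XT.lf (nat_lit 0) (nat_lit 16666028298) (nat_lit 456) (nat_lit 2701460639) (nat_lit 76) (nat_lit 4596974932) (nat_lit 140) (nat_lit 5) (nat_lit 146) (nat_lit 5) (nat_lit 141) (nat_lit 5) (nat_lit 503) (nat_lit 421) (nat_lit 216)) (XT.lf (nat_lit 0) (nat_lit 9415666272) (nat_lit 380) (nat_lit 11763107009) (nat_lit 456) (nat_lit 3101258692) (nat_lit 135) (nat_lit 5) (nat_lit 140) (nat_lit 5) (nat_lit 141) (nat_lit 5) (nat_lit 504) (nat_lit 421) (nat_lit 215))))) (XT.nd (nat_lit 234) (nat_lit 760) (nat_lit 0) (XT.nd (nat_lit 78) (nat_lit 380) (nat_lit 0) (XT.lf (nat_lit 0) (nat_lit 1177255205) (nat_lit 456)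 (nat_lit 2805415568) (nat_lit 76) (nat_lit 20618832324) (nat_lit 134) (nat_lit 5) (nat_lit 140) (nat_lit 5) (nat_lit 135) (nat_lit 5) (nat_lit 505) (nat_lit 421) (nat_lit 214)) (XT.nd (nat_lit 78) (nat_lit 0) (nat_lit 0) (XT.lf (nat_lit 0) (nat_lit 5583057407) (nat_lit 456) (nat_lit 15361762802) (nat_lit 76) (nat_lit 3982510746) (nat_lit 129) (nat_lit 5) (nat_lit 135) (nat_lit 5) (nat_lit 130) (nat_lit 5) (nat_lit 506) (nat_lit 421) (nat_lit 213)) (XT.lf (nat_lit 0) (nat_lit 10117064424) (nat_lit 456) (nat_lit 3071526621) (nat_lit 76) (nat_lit 12070284683) (nat_lit 129) (nat_lit 5) (nat_lit 135) (nat_lit 5) (nat_lit 130) (nat_lit 5) (nat_lit 507) (nat_lit 421) (nat_lit 212)))) (XT.nd (nat_lit 156) (nat_lit 380) (nat_lit 0) (XT.nd (nat_lit 78) (nat_lit 0) (nat_lit 0) (XT.lf (nat_lit 0) (nat_lit 9582616050) (nat_lit 380) (nat_lit 5216217895) (nat_lit 456) (nat_lit 10797077895) (nat_lit 124) (nat_lit 5) (nat_lit 129)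 (nat_lit 5) (nat_lit 130) (nat_lit 5) (nat_lit 508) (nat_lit 421) (nat_lit 211)) (XT.lf (nat_lit 0) (nat_lit 19608818552) (nat_lit 456) (nat_lit 3434480001) (nat_lit 76) (nat_lit 2895700576) (nat_lit 124) (nat_lit 5) (nat_lit 130) (nat_lit 5) (nat_lit 125) (nat_lit 5) (nat_lit 509) (nat_lit 421) (nat_lit 210))) (XT.nd (nat_lit 78) (nat_lit 76) (nat_lit 0) (XT.lf (nat_lit 0) (nat_lit 9478211395) (nat_lit 304) (nat_lit 15127876357) (nat_lit 380) (nat_lit 1681040724) (nat_lit 120) (nat_lit 5) (nat_lit 124) (nat_lit 5) (nat_lit 125) (nat_lit 5) (nat_lit 510) (nat_lit 421) (nat_lit 209)) (XT.lf (nat_lit 0) (nat_lit 3039151806) (nat_lit 380) (nat_lit 3973558483) (nat_lit 76) (nat_lit 19628750230) (nat_lit 119) (nat_lit 5) (nat_lit 124) (nat_lit 5) (nat_lit 120) (nat_lit 5) (nat_lit 511) (nat_lit 421) (nat_lit 208))))))) (XT.nd (nat_lit 52650) (nat_lit 0) (nat_lit 24624) (XT.nd (nat_lit 546) (nat_lit 304) (nat_lit 0)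 (XT.nd (nat_lit 234) (nat_lit 684) (nat_lit 0) (XT.nd (nat_lit 78) (nat_lit 304) (nat_lit 0) (XT.lf (nat_lit 0) (nat_lit 7894909142) (nat_lit 456) (nat_lit 17789252424) (nat_lit 76) (nat_lit 1317223895) (nat_lit 114) (nat_lit 5) (nat_lit 120) (nat_lit 5) (nat_lit 115) (nat_lit 5) (nat_lit 512) (nat_lit 421) (nat_lit 207)) (XT.nd (nat_lit 78) (nat_lit 304) (nat_lit 0) (XT.lf (nat_lit 0) (nat_lit 12916211658) (nat_lit 456) (nat_lit 4706564351) (nat_lit 76) (nat_lit 9744366150) (nat_lit 114) (nat_lit 5) (nat_lit 120) (nat_lit 5) (nat_lit 115) (nat_lit 5) (nat_lit 513) (nat_lit 421) (nat_lit 206)) (XT.lf (nat_lit 0) (nat_lit 8745246112) (nat_lit 304) (nat_lit 9344716196) (nat_lit 380) (nat_lit 9649213061) (nat_lit 110) (nat_lit 5) (nat_lit 114) (nat_lit 5) (nat_lit 115) (nat_lit 5) (nat_lit 514) (nat_lit 421) (nat_lit 205)))) (XT.nd (nat_lit 156) (nat_lit 304) (nat_lit 0) (XT.nd (nat_lit 78) (nat_lit 380) (nat_lit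 0) (XT.lf (nat_lit 0) (nat_lit 22522712201) (nat_lit 304) (nat_lit 871348118) (nat_lit 380) (nat_lit 4724053261) (nat_lit 110) (nat_lit 5) (nat_lit 114) (nat_lit 5) (nat_lit 115) (nat_lit 5) (nat_lit 515) (nat_lit 421) (nat_lit 204)) (XT.lf (nat_lit 0) (nat_lit 394874860) (nat_lit 380) (nat_lit 20385241339) (nat_lit 76) (nat_lit 7722493274) (nat_lit 105) (nat_lit 5) (nat_lit 110) (nat_lit 5) (nat_lit 106) (nat_lit 5) (nat_lit 516) (nat_lit 421) (nat_lit 203))) (XT.nd (nat_lit 78) (nat_lit 304) (nat_lit 0) (XT.lf (nat_lit 0) (nat_lit 5591931241) (nat_lit 380) (nat_lit 6758241671) (nat_lit 76) (nat_lit 16543219440) (nat_lit 105) (nat_lit 5) (nat_lit 110) (nat_lit 5) (nat_lit 106) (nat_lit 5) (nat_lit 517) (nat_lit 421) (nat_lit 202)) (XT.lf (nat_lit 0) (nat_lit 7229115785) (nat_lit 304) (nat_lit 3706218169) (nat_lit 380) (nat_lit 18355810478) (nat_lit 101) (nat_lit 5) (nat_lit 105) (nat_lit 5) (nat_lit 106) (nat_lit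 5) (nat_lit 518) (nat_lit 421) (nat_lit 201))))) (XT.nd (nat_lit 51792) (nat_lit 0) (nat_lit 25992) (XT.nd (nat_lit 78) (nat_lit 304) (nat_lit 0) (XT.lf (nat_lit 0) (nat_lit 16459934683) (nat_lit 380) (nat_lit 8148618977) (nat_lit 76) (nat_lit 5086812911) (nat_lit 101) (nat_lit 5) (nat_lit 106) (nat_lit 5) (nat_lit 102) (nat_lit 5) (nat_lit 519) (nat_lit 421) (nat_lit 200)) (XT.nd (nat_lit 78) (nat_lit 0) (nat_lit 0) (XT.lf (nat_lit 0) (nat_lit 6091520748) (nat_lit 304) (nat_lit 16063186417) (nat_lit 380) (nat_lit 7951773978) (nat_lit 97) (nat_lit 5) (nat_lit 101) (nat_lit 5) (nat_lit 102) (nat_lit 5) (nat_lit 520) (nat_lit 421) (nat_lit 199)) (XT.lf (nat_lit 0) (nat_lit 20720080202) (nat_lit 304) (nat_lit 7293603630) (nat_lit 380) (nat_lit 2511129552) (nat_lit 97) (nat_lit 5) (nat_lit 101) (nat_lit 5) (nat_lit 102) (nat_lit 5) (nat_lit 521) (nat_lit 421) (nat_lit 198)))) (XT.nd (nat_lit 156) (nat_lit 0) (nat_lit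 76) (XT.nd (nat_lit 78) (nat_lit 0) (nat_lit 0) (XT.lf (nat_lit 0) (nat_lit 2161074600) (nat_lit 1596) (nat_lit 1389466889) (nat_lit 1596) (nat_lit 1389466889) (nat_lit 439) (nat_lit 3) (nat_lit 460) (nat_lit 3) (nat_lit 460) (nat_lit 5) (nat_lit 422) (nat_lit 422) (nat_lit 296)) (XT.lf (nat_lit 76) (nat_lit 1803390195) (nat_lit 0) (nat_lit 3270936460) (nat_lit 1596) (nat_lit 4889798397) (nat_lit 440) (nat_lit 5) (nat_lit 439) (nat_lit 3) (nat_lit 460) (nat_lit 5) (nat_lit 423) (nat_lit 422) (nat_lit 295))) (XT.nd (nat_lit 78) (nat_lit 0) (nat_lit 0) (XT.lf (nat_lit 0) (nat_lit 5846154664) (nat_lit 1520) (nat_lit 3548660714) (nat_lit 1596) (nat_lit 655021440) (nat_lit 440) (nat_lit 5) (nat_lit 460) (nat_lit 5) (nat_lit 461) (nat_lit 5) (nat_lit 424) (nat_lit 422) (nat_lit 294)) (XT.lf (nat_lit 76) (nat_lit 1139231982) (nat_lit 0) (nat_lit 5505311695) (nat_lit 1596) (nat_lit 3492509842) (nat_lit 441) (nat_lit 5)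 (nat_lit 440) (nat_lit 5) (nat_lit 461) (nat_lit 5) (nat_lit 425) (nat_lit 422) (nat_lit 293)))))) (XT.nd (nat_lit 546) (nat_lit 0) (nat_lit 76) (XT.nd (nat_lit 234) (nat_lit 1444) (nat_lit 0) (XT.nd (nat_lit 78) (nat_lit 0) (nat_lit 76) (XT.lf (nat_lit 76) (nat_lit 5959347064) (nat_lit 0) (nat_lit 1505721818) (nat_lit 1596) (nat_lit 2760835231) (nat_lit 441) (nat_lit 5) (nat_lit 440) (nat_lit 5) (nat_lit 461) (nat_lit 5) (nat_lit 426) (nat_lit 422) (nat_lit 292)) (XT.nd (nat_lit 78) (nat_lit 0) (nat_lit 0) (XT.lf (nat_lit 76) (nat_lit 539842528) (nat_lit 0) (nat_lit 7765130259) (nat_lit 1596) (nat_lit 2011512241) (nat_lit 442) (nat_lit 5) (nat_lit 441) (nat_lit 5) (nat_lit 462) (nat_lit 5) (nat_lit 427) (nat_lit 422) (nat_lit 291)) (XT.lf (nat_lit 76) (nat_lit 5480305953) (nat_lit 0) (nat_lit 3702932307) (nat_lit 1596) (nat_lit 1225220459) (nat_lit 442) (nat_lit 5) (nat_lit 441) (nat_lit 5) (nat_lit 462) (nat_lit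 5) (nat_lit 428) (nat_lit 422) (nat_lit 290)))) (XT.nd (nat_lit 156) (nat_lit 0) (nat_lit 0) (XT.nd (nat_lit 78) (nat_lit 1596) (nat_lit 0) (XT.lf (nat_lit 76) (nat_lit 4512958) (nat_lit 0) (nat_lit 10060850555) (nat_lit 1596) (nat_lit 437194661) (nat_lit 443) (nat_lit 5) (nat_lit 442) (nat_lit 5) (nat_lit 463) (nat_lit 5) (nat_lit 429) (nat_lit 422) (nat_lit 289)) (XT.lf (nat_lit 0) (nat_lit 403142045) (nat_lit 1596) (nat_lit 5532523242) (nat_lit 1672) (nat_lit 4662011273) (nat_lit 421) (nat_lit 5) (nat_lit 442) (nat_lit 5) (nat_lit 443) (nat_lit 5) (nat_lit 430) (nat_lit 422) (nat_lit 288))) (XT.nd (nat_lit 78) (nat_lit 0) (nat_lit 76) (XT.lf (nat_lit 0) (nat_lit 1238305616) (nat_lit 1596) (nat_lit 480544530) (nat_lit 1672) (nat_lit 8976123365) (nat_lit 421) (nat_lit 5) (nat_lit 442) (nat_lit 5) (nat_lit 443) (nat_lit 5) (nat_lit 431) (nat_lit 422) (nat_lit 287)) (XT.lf (nat_lit 0) (nat_lit 2122041638) (nat_lit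 1596) (nat_lit 6086263283) (nat_lit 1672) (nat_lit 2585285351) (nat_lit 422) (nat_lit 5) (nat_lit 443) (nat_lit 5) (nat_lit 444) (nat_lit 5) (nat_lit 432) (nat_lit 422) (nat_lit 286))))) (XT.nd (nat_lit 312) (nat_lit 0) (nat_lit 152) (XT.nd (nat_lit 156) (nat_lit 0) (nat_lit 76) (XT.nd (nat_lit 78) (nat_lit 0) (nat_lit 76) (XT.lf (nat_lit 0) (nat_lit 3022551783) (nat_lit 1596) (nat_lit 910108873) (nat_lit 1672) (nat_lit 6961547757) (nat_lit 422) (nat_lit 5) (nat_lit 443) (nat_lit 5) (nat_lit 444) (nat_lit 5) (nat_lit 433) (nat_lit 422) (nat_lit 285)) (XT.lf (nat_lit 0) (nat_lit 3957535996) (nat_lit 1596) (nat_lit 6581942754) (nat_lit 1672) (nat_lit 457041707) (nat_lit 423) (nat_lit 5) (nat_lit 444) (nat_lit 5) (nat_lit 445) (nat_lit 5) (nat_lit 434) (nat_lit 422) (nat_lit 284))) (XT.nd (nat_lit 78) (nat_lit 0) (nat_lit 0) (XT.lf (nat_lit 0) (nat_lit 4928455133) (nat_lit 1596) (nat_lit 1278887755) (nat_lit 1672)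 (nat_lit 4893201754) (nat_lit 423) (nat_lit 5) (nat_lit 444) (nat_lit 5) (nat_lit 445) (nat_lit 5) (nat_lit 435) (nat_lit 422) (nat_lit 283)) (XT.lf (nat_lit 76) (nat_lit 4175042243) (nat_lit 0) (nat_lit 1756194194) (nat_lit 1672) (nat_lit 5275174395) (nat_lit 424) (nat_lit 5) (nat_lit 423) (nat_lit 5) (nat_lit 445) (nat_lit 5) (nat_lit 436) (nat_lit 422) (nat_lit 282)))) (XT.nd (nat_lit 156) (nat_lit 0) (nat_lit 76) (XT.nd (nat_lit 78) (nat_lit 0) (nat_lit 0) (XT.lf (nat_lit 0) (nat_lit 6966377295) (nat_lit 1596) (nat_lit 1587174204) (nat_lit 1672) (nat_lit 2760606962) (nat_lit 424) (nat_lit 5) (nat_lit 445) (nat_lit 5) (nat_lit 446) (nat_lit 5) (nat_lit 437) (nat_lit 422) (nat_lit 281)) (XT.lf (nat_lit 76) (nat_lit 3996685265) (nat_lit 0) (nat_lit 4048987471) (nat_lit 1672) (nat_lit 3377929266) (nat_lit 425) (nat_lit 5) (nat_lit 424) (nat_lit 5) (nat_lit 446) (nat_lit 5) (nat_lit 438) (nat_lit 422) (nat_lit 280)))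 (XT.nd (nat_lit 78) (nat_lit 0) (nat_lit 0) (XT.lf (nat_lit 0) (nat_lit 9146928734) (nat_lit 1596) (nat_lit 1835151993) (nat_lit 1672) (nat_lit 553155989) (nat_lit 425) (nat_lit 5) (nat_lit 446) (nat_lit 5) (nat_lit 447) (nat_lit 5) (nat_lit 439) (nat_lit 422) (nat_lit 279)) (XT.lf (nat_lit 76) (nat_lit 3882500591) (nat_lit 0) (nat_lit 6426114360) (nat_lit 1672) (nat_lit 1339730677) (nat_lit 426) (nat_lit 5) (nat_lit 425) (nat_lit 5) (nat_lit 447) (nat_lit 5) (nat_lit 440) (nat_lit 422) (nat_lit 278))))))))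
noncomputable def xc194 : XT := (XT.nd (nat_lit 2184) (nat_lit 8512) (nat_lit 0) (XT.nd (nat_lit 1092) (nat_lit 5472) (nat_lit 0) (XT.nd (nat_lit 546) (nat_lit 4788) (nat_lit 0) (XT.nd (nat_lit 234) (nat_lit 0) (nat_lit 76) (XT.nd (nat_lit 78) (nat_lit 1596) (nat_lit 0) (XT.lf (nat_lit 76) (nat_lit 9729395673) (nat_lit 0) (nat_lit 1763039064) (nat_lit 1672) (nat_lit 271313402) (nat_lit 426) (nat_lit 5) (nat_lit 425) (nat_lit 5) (nat_lit 447) (nat_lit 5) (nat_lit 441) (nat_lit 422) (nat_lit 277)) (XT.nd (nat_lit 78) (nat_lit 0) (nat_lit 0) (XT.lf (nat_lit 0) (nat_lit 839122810) (nat_lit 1672) (nat_lit 8053849928) (nat_lit 1748) (nat_lit 2987761031) (nat_lit 404) (nat_lit 5) (nat_lit 426) (nat_lit 5) (nat_lit 427) (nat_lit 5) (nat_lit 442) (nat_lit 422) (nat_lit 276)) (XT.lf (nat_lit 0) (nat_lit 1980523661) (nat_lit 1672) (nat_lit 2190628487) (nat_lit 1748) (nat_lit 7828632196) (nat_lit 404) (nat_lit 5) (nat_lit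 426) (nat_lit 5) (nat_lit 427) (nat_lit 5) (nat_lit 443) (nat_lit 422) (nat_lit 275)))) (XT.nd (nat_lit 156) (nat_lit 0) (nat_lit 0) (XT.nd (nat_lit 78) (nat_lit 0) (nat_lit 0) (XT.lf (nat_lit 0) (nat_lit 3161214368) (nat_lit 1672) (nat_lit 8295264797) (nat_lit 1748) (nat_lit 664416227) (nat_lit 405) (nat_lit 5) (nat_lit 427) (nat_lit 5) (nat_lit 428) (nat_lit 5) (nat_lit 444) (nat_lit 422) (nat_lit 274)) (XT.lf (nat_lit 0) (nat_lit 4395366505) (nat_lit 1672) (nat_lit 2290158437) (nat_lit 1748) (nat_lit 5558315296) (nat_lit 405) (nat_lit 5) (nat_lit 427) (nat_lit 5) (nat_lit 428) (nat_lit 5) (nat_lit 445) (nat_lit 422) (nat_lit 273))) (XT.nd (nat_lit 78) (nat_lit 0) (nat_lit 76) (XT.lf (nat_lit 76) (nat_lit 3875870721) (nat_lit 0) (nat_lit 1791168695) (nat_lit 1748) (nat_lit 6701956173) (nat_lit 406) (nat_lit 5) (nat_lit 405) (nat_lit 5) (nat_lit 428) (nat_lit 5) (nat_lit 446) (nat_lit 422) (nat_lit 272)) (XT.lf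 (nat_lit 0) (nat_lit 6988263675) (nat_lit 1672) (nat_lit 2331179498) (nat_lit 76) (nat_lit 3176736714) (nat_lit 406) (nat_lit 5) (nat_lit 428) (nat_lit 5) (nat_lit 407) (nat_lit 5) (nat_lit 447) (nat_lit 422) (nat_lit 271))))) (XT.nd (nat_lit 234) (nat_lit 1824) (nat_lit 0) (XT.nd (nat_lit 78) (nat_lit 1444) (nat_lit 0) (XT.lf (nat_lit 0) (nat_lit 3984387216) (nat_lit 1672) (nat_lit 4377358928) (nat_lit 1748) (nat_lit 4263653090) (nat_lit 384) (nat_lit 5) (nat_lit 406) (nat_lit 5) (nat_lit 407) (nat_lit 5) (nat_lit 448) (nat_lit 422) (nat_lit 270)) (XT.nd (nat_lit 78) (nat_lit 1444) (nat_lit 0) (XT.lf (nat_lit 0) (nat_lit 9771036307) (nat_lit 1748) (nat_lit 2313636642) (nat_lit 76) (nat_lit 672371136) (nat_lit 384) (nat_lit 5) (nat_lit 407) (nat_lit 5) (nat_lit 385) (nat_lit 5) (nat_lit 449) (nat_lit 422) (nat_lit 269)) (XT.lf (nat_lit 0) (nat_lit 4155801541) (nat_lit 1444) (nat_lit 7097194523) (nat_lit 1520) (nat_lit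 1637443820) (nat_lit 365) (nat_lit 5) (nat_lit 384) (nat_lit 5) (nat_lit 385) (nat_lit 5) (nat_lit 450) (nat_lit 422) (nat_lit 268)))) (XT.nd (nat_lit 156) (nat_lit 912) (nat_lit 0) (XT.nd (nat_lit 78) (nat_lit 912) (nat_lit 0) (XT.lf (nat_lit 0) (nat_lit 10776056579) (nat_lit 1444) (nat_lit 1992737345) (nat_lit 1520) (nat_lit 257633270) (nat_lit 365) (nat_lit 5) (nat_lit 384) (nat_lit 5) (nat_lit 385) (nat_lit 5) (nat_lit 451) (nat_lit 422) (nat_lit 267)) (XT.lf (nat_lit 0) (nat_lit 1173215343) (nat_lit 912) (nat_lit 8781776060) (nat_lit 76) (nat_lit 3209230399) (nat_lit 353) (nat_lit 5) (nat_lit 365) (nat_lit 5) (nat_lit 354) (nat_lit 5) (nat_lit 452) (nat_lit 422) (nat_lit 266))) (XT.nd (nat_lit 78) (nat_lit 912) (nat_lit 0) (XT.lf (nat_lit 0) (nat_lit 2646610267) (nat_lit 912) (nat_lit 2151116052) (nat_lit 76) (nat_lit 8506671479) (nat_lit 353) (nat_lit 5) (nat_lit 365) (nat_lit 5) (nat_lit 354) (nat_lit 5)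 (nat_lit 453) (nat_lit 422) (nat_lit 265)) (XT.lf (nat_lit 0) (nat_lit 4172155800) (nat_lit 988) (nat_lit 8786754460) (nat_lit 76) (nat_lit 488020397) (nat_lit 341) (nat_lit 5) (nat_lit 354) (nat_lit 5) (nat_lit 342) (nat_lit 5) (nat_lit 454) (nat_lit 422) (nat_lit 264)))))) (XT.nd (nat_lit 546) (nat_lit 2964) (nat_lit 0) (XT.nd (nat_lit 234) (nat_lit 1672) (nat_lit 0) (XT.nd (nat_lit 78) (nat_lit 836) (nat_lit 0) (XT.lf (nat_lit 0) (nat_lit 5763863602) (nat_lit 988) (nat_lit 1997069583) (nat_lit 76) (nat_lit 5830674821) (nat_lit 341) (nat_lit 5) (nat_lit 354) (nat_lit 5) (nat_lit 342) (nat_lit 5) (nat_lit 455) (nat_lit 422) (nat_lit 263)) (XT.nd (nat_lit 78) (nat_lit 0) (nat_lit 0) (XT.lf (nat_lit 0) (nat_lit 4983942202) (nat_lit 836) (nat_lit 2425378905) (nat_lit 912) (nat_lit 6329426210) (nat_lit 330) (nat_lit 5) (nat_lit 341) (nat_lit 5) (nat_lit 342) (nat_lit 5) (nat_lit 456) (nat_lit 422) (nat_lit 262)) (XT.lf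 (nat_lit 0) (nat_lit 9110466848) (nat_lit 912) (nat_lit 1786576249) (nat_lit 76) (nat_lit 2991337327) (nat_lit 330) (nat_lit 5) (nat_lit 342) (nat_lit 5) (nat_lit 331) (nat_lit 5) (nat_lit 457) (nat_lit 422) (nat_lit 261)))) (XT.nd (nat_lit 156) (nat_lit 836) (nat_lit 0) (XT.nd (nat_lit 78) (nat_lit 0) (nat_lit 0) (XT.lf (nat_lit 0) (nat_lit 5365537312) (nat_lit 836) (nat_lit 5520900185) (nat_lit 912) (nat_lit 3153759122) (nat_lit 319) (nat_lit 5) (nat_lit 330) (nat_lit 5) (nat_lit 331) (nat_lit 5) (nat_lit 458) (nat_lit 422) (nat_lit 260)) (XT.lf (nat_lit 0) (nat_lit 12675187293) (nat_lit 836) (nat_lit 24767231) (nat_lit 912) (nat_lit 1495060411) (nat_lit 319) (nat_lit 5) (nat_lit 330) (nat_lit 5) (nat_lit 331) (nat_lit 5) (nat_lit 459) (nat_lit 422) (nat_lit 259))) (XT.nd (nat_lit 78) (nat_lit 0) (nat_lit 0) (XT.lf (nat_lit 0) (nat_lit 258833711) (nat_lit 836) (nat_lit 8545050597) (nat_lit 76) (nat_lit 5547733791)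 (nat_lit 308) (nat_lit 5) (nat_lit 319) (nat_lit 5) (nat_lit 309) (nat_lit 5) (nat_lit 460) (nat_lit 422) (nat_lit 258)) (XT.lf (nat_lit 0) (nat_lit 2028529773) (nat_lit 836) (nat_lit 1230996443) (nat_lit 76) (nat_lit 11251620577) (nat_lit 308) (nat_lit 5) (nat_lit 319) (nat_lit 5) (nat_lit 309) (nat_lit 5) (nat_lit 461) (nat_lit 422) (nat_lit 257))))) (XT.nd (nat_lit 234) (nat_lit 1520) (nat_lit 0) (XT.nd (nat_lit 78) (nat_lit 684) (nat_lit 0) (XT.lf (nat_lit 0) (nat_lit 3880848057) (nat_lit 836) (nat_lit 8386687533) (nat_lit 76) (nat_lit 2405391760) (nat_lit 298) (nat_lit 5) (nat_lit 309) (nat_lit 5) (nat_lit 299) (nat_lit 5) (nat_lit 462) (nat_lit 422) (nat_lit 256)) (XT.nd (nat_lit 78) (nat_lit 684) (nat_lit 0) (XT.lf (nat_lit 0) (nat_lit 5790721962) (nat_lit 836) (nat_lit 898655664) (nat_lit 76) (nat_lit 8148161446) (nat_lit 298) (nat_lit 5) (nat_lit 309) (nat_lit 5) (nat_lit 299) (nat_lit 5) (nat_lit 463)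 (nat_lit 422) (nat_lit 255)) (XT.lf (nat_lit 0) (nat_lit 6819016855) (nat_lit 684) (nat_lit 954841884) (nat_lit 760) (nat_lit 7230888609) (nat_lit 289) (nat_lit 5) (nat_lit 298) (nat_lit 5) (nat_lit 299) (nat_lit 5) (nat_lit 464) (nat_lit 422) (nat_lit 254)))) (XT.nd (nat_lit 156) (nat_lit 760) (nat_lit 0) (XT.nd (nat_lit 78) (nat_lit 760) (nat_lit 0) (XT.lf (nat_lit 0) (nat_lit 9825414386) (nat_lit 760) (nat_lit 513446843) (nat_lit 76) (nat_lit 4835868956) (nat_lit 289) (nat_lit 5) (nat_lit 299) (nat_lit 5) (nat_lit 290) (nat_lit 5) (nat_lit 465) (nat_lit 422) (nat_lit 253)) (XT.lf (nat_lit 0) (nat_lit 7393440547) (nat_lit 760) (nat_lit 4569973597) (nat_lit 836) (nat_lit 3383795682) (nat_lit 279) (nat_lit 5) (nat_lit 289) (nat_lit 5) (nat_lit 290) (nat_lit 5) (nat_lit 466) (nat_lit 422) (nat_lit 252))) (XT.nd (nat_lit 78) (nat_lit 760) (nat_lit 0) (XT.lf (nat_lit 0) (nat_lit 14147371451) (nat_lit 836) (nat_lit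 75800270) (nat_lit 76) (nat_lit 1299908692) (nat_lit 279) (nat_lit 5) (nat_lit 290) (nat_lit 5) (nat_lit 280) (nat_lit 5) (nat_lit 467) (nat_lit 422) (nat_lit 251)) (XT.lf (nat_lit 0) (nat_lit 737941163) (nat_lit 760) (nat_lit 7680548403) (nat_lit 76) (nat_lit 7282412168) (nat_lit 269) (nat_lit 5) (nat_lit 279) (nat_lit 5) (nat_lit 270) (nat_lit 5) (nat_lit 468) (nat_lit 422) (nat_lit 250))))))) (XT.nd (nat_lit 1092) (nat_lit 4028) (nat_lit 0) (XT.nd (nat_lit 546) (nat_lit 1824) (nat_lit 0) (XT.nd (nat_lit 234) (nat_lit 1368) (nat_lit 0) (XT.nd (nat_lit 78) (nat_lit 608) (nat_lit 0) (XT.lf (nat_lit 0) (nat_lit 383637061) (nat_lit 684) (nat_lit 2486242238) (nat_lit 760) (nat_lit 13012334595) (nat_lit 260) (nat_lit 5) (nat_lit 269) (nat_lit 5) (nat_lit 270) (nat_lit 5) (nat_lit 469) (nat_lit 422) (nat_lit 249)) (XT.nd (nat_lit 78) (nat_lit 608) (nat_lit 0) (XT.lf (nat_lit 0) (nat_lit 5110999013) (nat_lit 760) (nat_lit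 7385963485) (nat_lit 76) (nat_lit 3568863842) (nat_lit 260) (nat_lit 5) (nat_lit 270) (nat_lit 5) (nat_lit 261) (nat_lit 5) (nat_lit 470) (nat_lit 422) (nat_lit 248)) (XT.lf (nat_lit 0) (nat_lit 874519483) (nat_lit 608) (nat_lit 6536248007) (nat_lit 684) (nat_lit 8842071821) (nat_lit 252) (nat_lit 5) (nat_lit 260) (nat_lit 5) (nat_lit 261) (nat_lit 5) (nat_lit 471) (nat_lit 422) (nat_lit 247)))) (XT.nd (nat_lit 156) (nat_lit 684) (nat_lit 0) (XT.nd (nat_lit 78) (nat_lit 684) (nat_lit 0) (XT.lf (nat_lit 0) (nat_lit 9391005598) (nat_lit 608) (nat_lit 406875197) (nat_lit 684) (nat_lit 6644889466) (nat_lit 252) (nat_lit 5) (nat_lit 260) (nat_lit 5) (nat_lit 261) (nat_lit 5) (nat_lit 472) (nat_lit 422) (nat_lit 246)) (XT.lf (nat_lit 0) (nat_lit 1412596945) (nat_lit 684) (nat_lit 10859200856) (nat_lit 760) (nat_lit 4363925417) (nat_lit 243) (nat_lit 5) (nat_lit 252) (nat_lit 5) (nat_lit 253) (nat_lit 5) (nat_lit 473)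 (nat_lit 422) (nat_lit 245))) (XT.nd (nat_lit 78) (nat_lit 684) (nat_lit 0) (XT.lf (nat_lit 0) (nat_lit 10129864203) (nat_lit 684) (nat_lit 4707364608) (nat_lit 760) (nat_lit 1994470234) (nat_lit 243) (nat_lit 5) (nat_lit 252) (nat_lit 5) (nat_lit 253) (nat_lit 5) (nat_lit 474) (nat_lit 422) (nat_lit 244)) (XT.lf (nat_lit 0) (nat_lit 432258535) (nat_lit 684) (nat_lit 15037455174) (nat_lit 76) (nat_lit 1561521705) (nat_lit 234) (nat_lit 5) (nat_lit 243) (nat_lit 5) (nat_lit 235) (nat_lit 5) (nat_lit 475) (nat_lit 422) (nat_lit 243))))) (XT.nd (nat_lit 234) (nat_lit 1216) (nat_lit 0) (XT.nd (nat_lit 78) (nat_lit 608) (nat_lit 0) (XT.lf (nat_lit 0) (nat_lit 2949510339) (nat_lit 684) (nat_lit 6333649157) (nat_lit 76) (nat_lit 7949969721) (nat_lit 234) (nat_lit 5) (nat_lit 243) (nat_lit 5) (nat_lit 235) (nat_lit 5) (nat_lit 476) (nat_lit 422) (nat_lit 242)) (XT.nd (nat_lit 78) (nat_lit 0) (nat_lit 0) (XT.lf (nat_lit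 0) (nat_lit 2568847384) (nat_lit 608) (nat_lit 2957315102) (nat_lit 684) (nat_lit 11912721485) (nat_lit 226) (nat_lit 5) (nat_lit 234) (nat_lit 5) (nat_lit 235) (nat_lit 5) (nat_lit 477) (nat_lit 422) (nat_lit 241)) (XT.lf (nat_lit 0) (nat_lit 8212281368) (nat_lit 684) (nat_lit 5944791156) (nat_lit 76) (nat_lit 3490526722) (nat_lit 226) (nat_lit 5) (nat_lit 235) (nat_lit 5) (nat_lit 227) (nat_lit 5) (nat_lit 478) (nat_lit 422) (nat_lit 240)))) (XT.nd (nat_lit 156) (nat_lit 684) (nat_lit 0) (XT.nd (nat_lit 78) (nat_lit 0) (nat_lit 0) (XT.lf (nat_lit 0) (nat_lit 3171993336) (nat_lit 532) (nat_lit 7812914671) (nat_lit 608) (nat_lit 6874929131) (nat_lit 219) (nat_lit 5) (nat_lit 226) (nat_lit 5) (nat_lit 227) (nat_lit 5) (nat_lit 479) (nat_lit 422) (nat_lit 239)) (XT.lf (nat_lit 0) (nat_lit 12542773580) (nat_lit 532) (nat_lit 1302799152) (nat_lit 608) (nat_lit 4230099284) (nat_lit 219) (nat_lit 5) (nat_lit 226) (nat_lit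 5) (nat_lit 227) (nat_lit 5) (nat_lit 480) (nat_lit 422) (nat_lit 238))) (XT.nd (nat_lit 78) (nat_lit 76) (nat_lit 0) (XT.lf (nat_lit 0) (nat_lit 3811595850) (nat_lit 608) (nat_lit 13004082887) (nat_lit 684) (nat_lit 1479104158) (nat_lit 211) (nat_lit 5) (nat_lit 219) (nat_lit 5) (nat_lit 220) (nat_lit 5) (nat_lit 481) (nat_lit 422) (nat_lit 237)) (XT.lf (nat_lit 0) (nat_lit 1348369081) (nat_lit 684) (nat_lit 5125967583) (nat_lit 76) (nat_lit 12042993520) (nat_lit 210) (nat_lit 5) (nat_lit 219) (nat_lit 5) (nat_lit 211) (nat_lit 5) (nat_lit 482) (nat_lit 422) (nat_lit 236)))))) (XT.nd (nat_lit 546) (nat_lit 1900) (nat_lit 0) (XT.nd (nat_lit 234) (nat_lit 1064) (nat_lit 0) (XT.nd (nat_lit 78) (nat_lit 532) (nat_lit 0) (XT.lf (nat_lit 0) (nat_lit 4236002918) (nat_lit 608) (nat_lit 14286827752) (nat_lit 76) (nat_lit 220837523) (nat_lit 203) (nat_lit 5) (nat_lit 211) (nat_lit 5) (nat_lit 204) (nat_lit 5) (nat_lit 483)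 (nat_lit 422) (nat_lit 235)) (XT.nd (nat_lit 78) (nat_lit 532) (nat_lit 0) (XT.lf (nat_lit 0) (nat_lit 7251959475) (nat_lit 608) (nat_lit 4724983847) (nat_lit 76) (nat_lit 6996181809) (nat_lit 203) (nat_lit 5) (nat_lit 211) (nat_lit 5) (nat_lit 204) (nat_lit 5) (nat_lit 484) (nat_lit 422) (nat_lit 234)) (XT.lf (nat_lit 0) (nat_lit 5086152637) (nat_lit 532) (nat_lit 5268309025) (nat_lit 608) (nat_lit 8852188515) (nat_lit 196) (nat_lit 5) (nat_lit 203) (nat_lit 5) (nat_lit 204) (nat_lit 5) (nat_lit 485) (nat_lit 422) (nat_lit 233)))) (XT.nd (nat_lit 156) (nat_lit 608) (nat_lit 0) (XT.nd (nat_lit 78) (nat_lit 456) (nat_lit 0) (XT.lf (nat_lit 0) (nat_lit 13554422805) (nat_lit 608) (nat_lit 4305802825) (nat_lit 76) (nat_lit 1583915344) (nat_lit 196) (nat_lit 5) (nat_lit 204) (nat_lit 5) (nat_lit 197) (nat_lit 5) (nat_lit 486) (nat_lit 422) (nat_lit 232)) (XT.lf (nat_lit 0) (nat_lit 5736990104) (nat_lit 456) (nat_lit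 11146931973) (nat_lit 532) (nat_lit 2801152096) (nat_lit 190) (nat_lit 5) (nat_lit 196) (nat_lit 5) (nat_lit 197) (nat_lit 5) (nat_lit 487) (nat_lit 422) (nat_lit 231))) (XT.nd (nat_lit 78) (nat_lit 532) (nat_lit 0) (XT.lf (nat_lit 0) (nat_lit 367120115) (nat_lit 532) (nat_lit 3902283659) (nat_lit 76) (nat_lit 15660929862) (nat_lit 189) (nat_lit 5) (nat_lit 196) (nat_lit 5) (nat_lit 190) (nat_lit 5) (nat_lit 488) (nat_lit 422) (nat_lit 230)) (XT.lf (nat_lit 0) (nat_lit 3614617472) (nat_lit 608) (nat_lit 13796216092) (nat_lit 76) (nat_lit 2768230238) (nat_lit 182) (nat_lit 5) (nat_lit 190) (nat_lit 5) (nat_lit 183) (nat_lit 5) (nat_lit 489) (nat_lit 422) (nat_lit 229))))) (XT.nd (nat_lit 312) (nat_lit 988) (nat_lit 0) (XT.nd (nat_lit 156) (nat_lit 456) (nat_lit 0) (XT.nd (nat_lit 78) (nat_lit 456) (nat_lit 0) (XT.lf (nat_lit 0) (nat_lit 6975315645) (nat_lit 608) (nat_lit 3542590435) (nat_lit 76) (nat_lit 9913900580)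 (nat_lit 182) (nat_lit 5) (nat_lit 190) (nat_lit 5) (nat_lit 183) (nat_lit 5) (nat_lit 490) (nat_lit 422) (nat_lit 228)) (XT.lf (nat_lit 0) (nat_lit 6999598766) (nat_lit 456) (nat_lit 3442817088) (nat_lit 532) (nat_lit 10246407807) (nat_lit 176) (nat_lit 5) (nat_lit 182) (nat_lit 5) (nat_lit 183) (nat_lit 5) (nat_lit 491) (nat_lit 422) (nat_lit 227))) (XT.nd (nat_lit 78) (nat_lit 456) (nat_lit 0) (XT.lf (nat_lit 0) (nat_lit 14021087715) (nat_lit 532) (nat_lit 3182880967) (nat_lit 76) (nat_lit 3746170712) (nat_lit 176) (nat_lit 5) (nat_lit 183) (nat_lit 5) (nat_lit 177) (nat_lit 5) (nat_lit 492) (nat_lit 422) (nat_lit 226)) (XT.lf (nat_lit 0) (nat_lit 7602290584) (nat_lit 456) (nat_lit 10135120992) (nat_lit 532) (nat_lit 3477951223) (nat_lit 170) (nat_lit 5) (nat_lit 176) (nat_lit 5) (nat_lit 177) (nat_lit 5) (nat_lit 493) (nat_lit 422) (nat_lit 225)))) (XT.nd (nat_lit 156) (nat_lit 456) (nat_lit 0) (XT.nd (nat_lit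 78) (nat_lit 456) (nat_lit 0) (XT.lf (nat_lit 0) (nat_lit 57061399) (nat_lit 532) (nat_lit 2847802272) (nat_lit 76) (nat_lit 18580715474) (nat_lit 169) (nat_lit 5) (nat_lit 176) (nat_lit 5) (nat_lit 170) (nat_lit 5) (nat_lit 494) (nat_lit 422) (nat_lit 224)) (XT.lf (nat_lit 0) (nat_lit 3693124094) (nat_lit 532) (nat_lit 13579973786) (nat_lit 76) (nat_lit 4486106519) (nat_lit 163) (nat_lit 5) (nat_lit 170) (nat_lit 5) (nat_lit 164) (nat_lit 5) (nat_lit 495) (nat_lit 422) (nat_lit 223))) (XT.nd (nat_lit 78) (nat_lit 456) (nat_lit 0) (XT.lf (nat_lit 0) (nat_lit 7434494550) (nat_lit 532) (nat_lit 2600002728) (nat_lit 76) (nat_lit 12003155855) (nat_lit 163) (nat_lit 5) (nat_lit 170) (nat_lit 5) (nat_lit 164) (nat_lit 5) (nat_lit 496) (nat_lit 422) (nat_lit 222)) (XT.lf (nat_lit 0) (nat_lit 8705779360) (nat_lit 456) (nat_lit 2595664385) (nat_lit 532) (nat_lit 11019214721) (nat_lit 157) (nat_lit 5) (nat_lit 163) (nat_lit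 5) (nat_lit 164) (nat_lit 5) (nat_lit 497) (nat_lit 422) (nat_lit 221))))))))
noncomputable def xc195 : XT := (XT.nd (nat_lit 53820) (nat_lit 0) (nat_lit 18544) (XT.nd (nat_lit 1092) (nat_lit 1748) (nat_lit 0) (XT.nd (nat_lit 546) (nat_lit 1520) (nat_lit 0) (XT.nd (nat_lit 234) (nat_lit 836) (nat_lit 0) (XT.nd (nat_lit 78) (nat_lit 456) (nat_lit 0) (XT.lf (nat_lit 0) (nat_lit 15289981010) (nat_lit 532) (nat_lit 2376597058) (nat_lit 76) (nat_lit 4941863456) (nat_lit 157) (nat_lit 5) (nat_lit 164) (nat_lit 5) (nat_lit 158) (nat_lit 5) (nat_lit 498) (nat_lit 422) (nat_lit 220)) (XT.nd (nat_lit 78) (nat_lit 76) (nat_lit 0) (XT.lf (nat_lit 0) (nat_lit 9181822895) (nat_lit 380) (nat_lit 10247657825) (nat_lit 456) (nat_lit 3471078238) (nat_lit 152) (nat_lit 5) (nat_lit 157) (nat_lit 5) (nat_lit 158) (nat_lit 5) (nat_lit 499) (nat_lit 422) (nat_lit 219)) (XT.lf (nat_lit 0) (nat_lit 457768544) (nat_lit 456) (nat_lit 2205505787)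 (nat_lit 76) (nat_lit 20534978776) (nat_lit 151) (nat_lit 5) (nat_lit 157) (nat_lit 5) (nat_lit 152) (nat_lit 5) (nat_lit 500) (nat_lit 422) (nat_lit 218)))) (XT.nd (nat_lit 156) (nat_lit 380) (nat_lit 0) (XT.nd (nat_lit 78) (nat_lit 0) (nat_lit 0) (XT.lf (nat_lit 0) (nat_lit 4509310805) (nat_lit 532) (nat_lit 13900171501) (nat_lit 76) (nat_lit 5090150432) (nat_lit 145) (nat_lit 5) (nat_lit 152) (nat_lit 5) (nat_lit 146) (nat_lit 5) (nat_lit 501) (nat_lit 422) (nat_lit 217)) (XT.lf (nat_lit 0) (nat_lit 8668979788) (nat_lit 532) (nat_lit 2161830748) (nat_lit 76) (nat_lit 12975689863) (nat_lit 145) (nat_lit 5) (nat_lit 152) (nat_lit 5) (nat_lit 146) (nat_lit 5) (nat_lit 502) (nat_lit 422) (nat_lit 216))) (XT.nd (nat_lit 78) (nat_lit 0) (nat_lit 0) (XT.lf (nat_lit 0) (nat_lit 9933939665) (nat_lit 380) (nat_lit 3037067052) (nat_lit 456) (nat_lit 11147317713) (nat_lit 140) (nat_lit 5) (nat_lit 145) (nat_lit 5) (nat_lit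 146) (nat_lit 5) (nat_lit 503) (nat_lit 422) (nat_lit 215)) (XT.lf (nat_lit 0) (nat_lit 17400280173) (nat_lit 456) (nat_lit 2174822076) (nat_lit 76) (nat_lit 4860460837) (nat_lit 140) (nat_lit 5) (nat_lit 146) (nat_lit 5) (nat_lit 141) (nat_lit 5) (nat_lit 504) (nat_lit 422) (nat_lit 214))))) (XT.nd (nat_lit 234) (nat_lit 684) (nat_lit 0) (XT.nd (nat_lit 78) (nat_lit 456) (nat_lit 0) (XT.lf (nat_lit 0) (nat_lit 10180827190) (nat_lit 380) (nat_lit 11818336745) (nat_lit 456) (nat_lit 2758364301) (nat_lit 135) (nat_lit 5) (nat_lit 140) (nat_lit 5) (nat_lit 141) (nat_lit 5) (nat_lit 505) (nat_lit 422) (nat_lit 213)) (XT.nd (nat_lit 78) (nat_lit 380) (nat_lit 0) (XT.lf (nat_lit 0) (nat_lit 1592573811) (nat_lit 456) (nat_lit 2290619014) (nat_lit 76) (nat_lit 21202343318) (nat_lit 134) (nat_lit 5) (nat_lit 140) (nat_lit 5) (nat_lit 135) (nat_lit 5) (nat_lit 506) (nat_lit 422) (nat_lit 212)) (XT.lf (nat_lit 0) (nat_lit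 6083657151) (nat_lit 456) (nat_lit 15095099910) (nat_lit 76) (nat_lit 4239183363) (nat_lit 129) (nat_lit 5) (nat_lit 135) (nat_lit 5) (nat_lit 130) (nat_lit 5) (nat_lit 507) (nat_lit 422) (nat_lit 211)))) (XT.nd (nat_lit 156) (nat_lit 304) (nat_lit 0) (XT.nd (nat_lit 78) (nat_lit 380) (nat_lit 0) (XT.lf (nat_lit 0) (nat_lit 10700718061) (nat_lit 456) (nat_lit 2570311910) (nat_lit 76) (nat_lit 12485241751) (nat_lit 129) (nat_lit 5) (nat_lit 135) (nat_lit 5) (nat_lit 130) (nat_lit 5) (nat_lit 508) (nat_lit 422) (nat_lit 210)) (XT.lf (nat_lit 0) (nat_lit 10333212001) (nat_lit 380) (nat_lit 5139063291) (nat_lit 456) (nat_lit 10627853262) (nat_lit 124) (nat_lit 5) (nat_lit 129) (nat_lit 5) (nat_lit 130) (nat_lit 5) (nat_lit 509) (nat_lit 422) (nat_lit 209))) (XT.nd (nat_lit 78) (nat_lit 304) (nat_lit 0) (XT.lf (nat_lit 0) (nat_lit 20372213502) (nat_lit 456) (nat_lit 2948790317) (nat_lit 76) (nat_lit 3129201677) (nat_lit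 124) (nat_lit 5) (nat_lit 130) (nat_lit 5) (nat_lit 125) (nat_lit 5) (nat_lit 510) (nat_lit 422) (nat_lit 208)) (XT.lf (nat_lit 0) (nat_lit 10218507675) (nat_lit 304) (nat_lit 15247217333) (nat_lit 380) (nat_lit 1339649410) (nat_lit 120) (nat_lit 5) (nat_lit 124) (nat_lit 5) (nat_lit 125) (nat_lit 5) (nat_lit 511) (nat_lit 422) (nat_lit 207)))))) (XT.nd (nat_lit 546) (nat_lit 608) (nat_lit 0) (XT.nd (nat_lit 234) (nat_lit 684) (nat_lit 0) (XT.nd (nat_lit 78) (nat_lit 380) (nat_lit 0) (XT.lf (nat_lit 0) (nat_lit 3462771879) (nat_lit 380) (nat_lit 3508133719) (nat_lit 76) (nat_lit 20195986755) (nat_lit 119) (nat_lit 5) (nat_lit 124) (nat_lit 5) (nat_lit 120) (nat_lit 5) (nat_lit 512) (nat_lit 422) (nat_lit 206)) (XT.nd (nat_lit 78) (nat_lit 0) (nat_lit 0) (XT.lf (nat_lit 0) (nat_lit 8413226605) (nat_lit 456) (nat_lit 17597585906) (nat_lit 76) (nat_lit 1523254397) (nat_lit 114) (nat_lit 5) (nat_lit 120) (nat_lit 5)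 (nat_lit 115) (nat_lit 5) (nat_lit 513) (nat_lit 422) (nat_lit 205)) (XT.lf (nat_lit 0) (nat_lit 13527888127) (nat_lit 456) (nat_lit 4263978415) (nat_lit 76) (nat_lit 10115416241) (nat_lit 114) (nat_lit 5) (nat_lit 120) (nat_lit 5) (nat_lit 115) (nat_lit 5) (nat_lit 514) (nat_lit 422) (nat_lit 204)))) (XT.nd (nat_lit 156) (nat_lit 380) (nat_lit 0) (XT.nd (nat_lit 78) (nat_lit 0) (nat_lit 0) (XT.lf (nat_lit 0) (nat_lit 9453337222) (nat_lit 304) (nat_lit 9348309890) (nat_lit 380) (nat_lit 9485181528) (nat_lit 110) (nat_lit 5) (nat_lit 114) (nat_lit 5) (nat_lit 115) (nat_lit 5) (nat_lit 515) (nat_lit 422) (nat_lit 203)) (XT.lf (nat_lit 0) (nat_lit 23495898002) (nat_lit 304) (nat_lit 709068581) (nat_lit 380) (nat_lit 4468518843) (nat_lit 110) (nat_lit 5) (nat_lit 114) (nat_lit 5) (nat_lit 115) (nat_lit 5) (nat_lit 516) (nat_lit 422) (nat_lit 202))) (XT.nd (nat_lit 78) (nat_lit 0) (nat_lit 0) (XT.lf (nat_lit 0) (nat_lit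 746007489) (nat_lit 380) (nat_lit 20263181999) (nat_lit 76) (nat_lit 8056482593) (nat_lit 105) (nat_lit 5) (nat_lit 110) (nat_lit 5) (nat_lit 106) (nat_lit 5) (nat_lit 517) (nat_lit 422) (nat_lit 201)) (XT.lf (nat_lit 0) (nat_lit 6040274897) (nat_lit 380) (nat_lit 6374029870) (nat_lit 76) (nat_lit 17050102900) (nat_lit 105) (nat_lit 5) (nat_lit 110) (nat_lit 5) (nat_lit 106) (nat_lit 5) (nat_lit 518) (nat_lit 422) (nat_lit 200))))) (XT.nd (nat_lit 51870) (nat_lit 0) (nat_lit 25992) (XT.nd (nat_lit 78) (nat_lit 304) (nat_lit 0) (XT.lf (nat_lit 0) (nat_lit 7889657784) (nat_lit 304) (nat_lit 3597639695) (nat_lit 380) (nat_lit 18382884675) (nat_lit 101) (nat_lit 5) (nat_lit 105) (nat_lit 5) (nat_lit 106) (nat_lit 5) (nat_lit 519) (nat_lit 422) (nat_lit 199)) (XT.nd (nat_lit 78) (nat_lit 304) (nat_lit 0) (XT.lf (nat_lit 0) (nat_lit 17117018743) (nat_lit 380) (nat_lit 7800259373) (nat_lit 76) (nat_lit 5365320401) (nat_lit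 101) (nat_lit 5) (nat_lit 106) (nat_lit 5) (nat_lit 102) (nat_lit 5) (nat_lit 520) (nat_lit 422) (nat_lit 198)) (XT.lf (nat_lit 0) (nat_lit 6721319120) (nat_lit 304) (nat_lit 16201236494) (nat_lit 380) (nat_lit 7779444695) (nat_lit 97) (nat_lit 5) (nat_lit 101) (nat_lit 5) (nat_lit 102) (nat_lit 5) (nat_lit 521) (nat_lit 422) (nat_lit 197)))) (XT.nd (nat_lit 156) (nat_lit 0) (nat_lit 76) (XT.nd (nat_lit 78) (nat_lit 0) (nat_lit 0) (XT.lf (nat_lit 0) (nat_lit 2897016257) (nat_lit 1596) (nat_lit 1063714229) (nat_lit 1596) (nat_lit 1063714229) (nat_lit 439) (nat_lit 3) (nat_lit 460) (nat_lit 3) (nat_lit 460) (nat_lit 5) (nat_lit 423) (nat_lit 423) (nat_lit 294)) (XT.lf (nat_lit 76) (nat_lit 2541890125) (nat_lit 0) (nat_lit 3996758551) (nat_lit 1596) (nat_lit 3596503291) (nat_lit 440) (nat_lit 5) (nat_lit 439) (nat_lit 3) (nat_lit 460) (nat_lit 5) (nat_lit 424) (nat_lit 423) (nat_lit 293))) (XT.nd (nat_lit 78) (nat_lit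 0) (nat_lit 0) (XT.lf (nat_lit 0) (nat_lit 7294987279) (nat_lit 1520) (nat_lit 2899069724) (nat_lit 1596) (nat_lit 29159072) (nat_lit 440) (nat_lit 5) (nat_lit 460) (nat_lit 5) (nat_lit 461) (nat_lit 5) (nat_lit 425) (nat_lit 423) (nat_lit 292)) (XT.lf (nat_lit 76) (nat_lit 1877840272) (nat_lit 0) (nat_lit 6210035528) (nat_lit 1596) (nat_lit 2224749876) (nat_lit 441) (nat_lit 5) (nat_lit 440) (nat_lit 5) (nat_lit 461) (nat_lit 5) (nat_lit 426) (nat_lit 423) (nat_lit 291))))))) (XT.nd (nat_lit 1092) (nat_lit 6004) (nat_lit 0) (XT.nd (nat_lit 546) (nat_lit 0) (nat_lit 152) (XT.nd (nat_lit 234) (nat_lit 0) (nat_lit 0) (XT.nd (nat_lit 78) (nat_lit 1520) (nat_lit 0) (XT.lf (nat_lit 76) (nat_lit 6780321898) (nat_lit 0) (nat_lit 2118794685) (nat_lit 1596) (nat_lit 1504669422) (nat_lit 441) (nat_lit 5) (nat_lit 440) (nat_lit 5) (nat_lit 461) (nat_lit 5) (nat_lit 427) (nat_lit 423) (nat_lit 290)) (XT.nd (nat_lit 78) (nat_lit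 1596) (nat_lit 0) (XT.lf (nat_lit 76) (nat_lit 1278031249) (nat_lit 0) (nat_lit 8453608186) (nat_lit 1596) (nat_lit 765041143) (nat_lit 442) (nat_lit 5) (nat_lit 441) (nat_lit 5) (nat_lit 462) (nat_lit 5) (nat_lit 428) (nat_lit 423) (nat_lit 289)) (XT.lf (nat_lit 0) (nat_lit 11592971) (nat_lit 1596) (nat_lit 4288041090) (nat_lit 1672) (nat_lit 6291370590) (nat_lit 420) (nat_lit 5) (nat_lit 441) (nat_lit 5) (nat_lit 442) (nat_lit 5) (nat_lit 429) (nat_lit 423) (nat_lit 288)))) (XT.nd (nat_lit 156) (nat_lit 0) (nat_lit 76) (XT.nd (nat_lit 78) (nat_lit 0) (nat_lit 76) (XT.lf (nat_lit 76) (nat_lit 736314765) (nat_lit 0) (nat_lit 45879411) (nat_lit 1672) (nat_lit 9905157804) (nat_lit 421) (nat_lit 5) (nat_lit 420) (nat_lit 5) (nat_lit 442) (nat_lit 5) (nat_lit 430) (nat_lit 423) (nat_lit 287)) (XT.lf (nat_lit 0) (nat_lit 1609230658) (nat_lit 1596) (nat_lit 4903593847) (nat_lit 1672) (nat_lit 4271992539) (nat_lit 421)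 (nat_lit 5) (nat_lit 442) (nat_lit 5) (nat_lit 443) (nat_lit 5) (nat_lit 431) (nat_lit 423) (nat_lit 286))) (XT.nd (nat_lit 78) (nat_lit 0) (nat_lit 76) (XT.lf (nat_lit 76) (nat_lit 238044873) (nat_lit 0) (nat_lit 2201107470) (nat_lit 1672) (nat_lit 8445363210) (nat_lit 422) (nat_lit 5) (nat_lit 421) (nat_lit 5) (nat_lit 443) (nat_lit 5) (nat_lit 432) (nat_lit 423) (nat_lit 285)) (XT.lf (nat_lit 0) (nat_lit 3317834178) (nat_lit 1596) (nat_lit 5460907466) (nat_lit 1672) (nat_lit 2206833972) (nat_lit 422) (nat_lit 5) (nat_lit 443) (nat_lit 5) (nat_lit 444) (nat_lit 5) (nat_lit 433) (nat_lit 423) (nat_lit 284))))) (XT.nd (nat_lit 234) (nat_lit 0) (nat_lit 76) (XT.nd (nat_lit 78) (nat_lit 0) (nat_lit 76) (XT.lf (nat_lit 0) (nat_lit 4213739787) (nat_lit 1596) (nat_lit 195878617) (nat_lit 1672) (nat_lit 6679056078) (nat_lit 422) (nat_lit 5) (nat_lit 443) (nat_lit 5) (nat_lit 444) (nat_lit 5) (nat_lit 434) (nat_lit 423)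 (nat_lit 283)) (XT.nd (nat_lit 78) (nat_lit 0) (nat_lit 0) (XT.lf (nat_lit 0) (nat_lit 5147472459) (nat_lit 1596) (nat_lit 5960410342) (nat_lit 1672) (nat_lit 85564743) (nat_lit 423) (nat_lit 5) (nat_lit 444) (nat_lit 5) (nat_lit 445) (nat_lit 5) (nat_lit 435) (nat_lit 423) (nat_lit 282)) (XT.lf (nat_lit 0) (nat_lit 6116029866) (nat_lit 1596) (nat_lit 566062308) (nat_lit 1672) (nat_lit 4617911085) (nat_lit 423) (nat_lit 5) (nat_lit 444) (nat_lit 5) (nat_lit 445) (nat_lit 5) (nat_lit 436) (nat_lit 423) (nat_lit 281)))) (XT.nd (nat_lit 156) (nat_lit 0) (nat_lit 76) (XT.nd (nat_lit 78) (nat_lit 0) (nat_lit 76) (XT.lf (nat_lit 76) (nat_lit 4992088374) (nat_lit 0) (nat_lit 2130188032) (nat_lit 1672) (nat_lit 4286057314) (nat_lit 424) (nat_lit 5) (nat_lit 423) (nat_lit 5) (nat_lit 445) (nat_lit 5) (nat_lit 437) (nat_lit 423) (nat_lit 280)) (XT.lf (nat_lit 0) (nat_lit 8154935304) (nat_lit 1596) (nat_lit 875828686) (nat_lit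 1672) (nat_lit 2487950852) (nat_lit 424) (nat_lit 5) (nat_lit 445) (nat_lit 5) (nat_lit 446) (nat_lit 5) (nat_lit 438) (nat_lit 423) (nat_lit 279))) (XT.nd (nat_lit 78) (nat_lit 0) (nat_lit 76) (XT.lf (nat_lit 76) (nat_lit 4814819229) (nat_lit 0) (nat_lit 4425217163) (nat_lit 1672) (nat_lit 2390641017) (nat_lit 425) (nat_lit 5) (nat_lit 424) (nat_lit 5) (nat_lit 446) (nat_lit 5) (nat_lit 439) (nat_lit 423) (nat_lit 278)) (XT.lf (nat_lit 0) (nat_lit 10341174410) (nat_lit 1596) (nat_lit 1125272828) (nat_lit 1672) (nat_lit 278554710) (nat_lit 425) (nat_lit 5) (nat_lit 446) (nat_lit 5) (nat_lit 447) (nat_lit 5) (nat_lit 440) (nat_lit 423) (nat_lit 277)))))) (XT.nd (nat_lit 546) (nat_lit 4712) (nat_lit 0) (XT.nd (nat_lit 234) (nat_lit 0) (nat_lit 76) (XT.nd (nat_lit 78) (nat_lit 1672) (nat_lit 0) (XT.lf (nat_lit 76) (nat_lit 4701821083) (nat_lit 0) (nat_lit 6809259135) (nat_lit 1672) (nat_lit 349607091) (nat_lit 426)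 (nat_lit 5) (nat_lit 425) (nat_lit 5) (nat_lit 447) (nat_lit 5) (nat_lit 441) (nat_lit 423) (nat_lit 276)) (XT.nd (nat_lit 78) (nat_lit 0) (nat_lit 76) (XT.lf (nat_lit 0) (nat_lit 710792893) (nat_lit 1672) (nat_lit 1332367048) (nat_lit 1748) (nat_lit 9935548820) (nat_lit 403) (nat_lit 5) (nat_lit 425) (nat_lit 5) (nat_lit 426) (nat_lit 5) (nat_lit 442) (nat_lit 423) (nat_lit 275)) (XT.lf (nat_lit 0) (nat_lit 1823779423) (nat_lit 1672) (nat_lit 7457363286) (nat_lit 1748) (nat_lit 2817189219) (nat_lit 404) (nat_lit 5) (nat_lit 426) (nat_lit 5) (nat_lit 427) (nat_lit 5) (nat_lit 443) (nat_lit 423) (nat_lit 274)))) (XT.nd (nat_lit 156) (nat_lit 0) (nat_lit 76) (XT.nd (nat_lit 78) (nat_lit 0) (nat_lit 76) (XT.lf (nat_lit 0) (nat_lit 2969030366) (nat_lit 1672) (nat_lit 1491731604) (nat_lit 1748) (nat_lit 7759394024) (nat_lit 404) (nat_lit 5) (nat_lit 426) (nat_lit 5) (nat_lit 427) (nat_lit 5) (nat_lit 444) (nat_lit 423)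 (nat_lit 273)) (XT.lf (nat_lit 0) (nat_lit 4158238789) (nat_lit 1672) (nat_lit 7702731099) (nat_lit 1748) (nat_lit 483033966) (nat_lit 405) (nat_lit 5) (nat_lit 427) (nat_lit 5) (nat_lit 428) (nat_lit 5) (nat_lit 445) (nat_lit 423) (nat_lit 272))) (XT.nd (nat_lit 78) (nat_lit 0) (nat_lit 0) (XT.lf (nat_lit 0) (nat_lit 5398764162) (nat_lit 1672) (nat_lit 1592393965) (nat_lit 1748) (nat_lit 5478628087) (nat_lit 405) (nat_lit 5) (nat_lit 427) (nat_lit 5) (nat_lit 428) (nat_lit 5) (nat_lit 446) (nat_lit 423) (nat_lit 271)) (XT.lf (nat_lit 76) (nat_lit 4692063884) (nat_lit 0) (nat_lit 1990651829) (nat_lit 1748) (nat_lit 5915004232) (nat_lit 406) (nat_lit 5) (nat_lit 405) (nat_lit 5) (nat_lit 428) (nat_lit 5) (nat_lit 447) (nat_lit 423) (nat_lit 270))))) (XT.nd (nat_lit 312) (nat_lit 1824) (nat_lit 0) (XT.nd (nat_lit 156) (nat_lit 1444) (nat_lit 0) (XT.nd (nat_lit 78) (nat_lit 1672) (nat_lit 0) (XT.lf (nat_lit 0) (nat_lit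 8011629851) (nat_lit 1672) (nat_lit 1634279665) (nat_lit 76) (nat_lit 3081925043) (nat_lit 406) (nat_lit 5) (nat_lit 428) (nat_lit 5) (nat_lit 407) (nat_lit 5) (nat_lit 448) (nat_lit 423) (nat_lit 269)) (XT.lf (nat_lit 0) (nat_lit 4802706782) (nat_lit 1672) (nat_lit 4597345367) (nat_lit 1748) (nat_lit 3459848443) (nat_lit 384) (nat_lit 5) (nat_lit 406) (nat_lit 5) (nat_lit 407) (nat_lit 5) (nat_lit 449) (nat_lit 423) (nat_lit 268))) (XT.nd (nat_lit 78) (nat_lit 1444) (nat_lit 0) (XT.lf (nat_lit 0) (nat_lit 10819605268) (nat_lit 1748) (nat_lit 1617263953) (nat_lit 76) (nat_lit 557679052) (nat_lit 384) (nat_lit 5) (nat_lit 407) (nat_lit 5) (nat_lit 385) (nat_lit 5) (nat_lit 450) (nat_lit 423) (nat_lit 267)) (XT.lf (nat_lit 0) (nat_lit 4976677169) (nat_lit 1444) (nat_lit 7342588679) (nat_lit 1520) (nat_lit 811596157) (nat_lit 365) (nat_lit 5) (nat_lit 384) (nat_lit 5) (nat_lit 385) (nat_lit 5) (nat_lit 451) (nat_lit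 423) (nat_lit 266)))) (XT.nd (nat_lit 156) (nat_lit 912) (nat_lit 0) (XT.nd (nat_lit 78) (nat_lit 836) (nat_lit 0) (XT.lf (nat_lit 0) (nat_lit 571382010) (nat_lit 1520) (nat_lit 1558797637) (nat_lit 76) (nat_lit 11139655148) (nat_lit 364) (nat_lit 5) (nat_lit 384) (nat_lit 5) (nat_lit 365) (nat_lit 5) (nat_lit 452) (nat_lit 423) (nat_lit 265)) (XT.lf (nat_lit 0) (nat_lit 2015273644) (nat_lit 912) (nat_lit 8209879866) (nat_lit 76) (nat_lit 3185450811) (nat_lit 353) (nat_lit 5) (nat_lit 365) (nat_lit 5) (nat_lit 354) (nat_lit 5) (nat_lit 453) (nat_lit 423) (nat_lit 264))) (XT.nd (nat_lit 78) (nat_lit 912) (nat_lit 0) (XT.lf (nat_lit 0) (nat_lit 3502085605) (nat_lit 912) (nat_lit 1461264143) (nat_lit 76) (nat_lit 8590565500) (nat_lit 353) (nat_lit 5) (nat_lit 365) (nat_lit 5) (nat_lit 354) (nat_lit 5) (nat_lit 454) (nat_lit 423) (nat_lit 263)) (XT.lf (nat_lit 0) (nat_lit 5046720747) (nat_lit 988) (nat_lit 8217684563)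 (nat_lit 76) (nat_lit 435132070) (nat_lit 341) (nat_lit 5) (nat_lit 354) (nat_lit 5) (nat_lit 342) (nat_lit 5) (nat_lit 455) (nat_lit 423) (nat_lit 262))))))))
noncomputable def xc196 : XT := (XT.nd (nat_lit 2184) (nat_lit 6840) (nat_lit 0) (XT.nd (nat_lit 1092) (nat_lit 4484) (nat_lit 0) (XT.nd (nat_lit 546) (nat_lit 2964) (nat_lit 0) (XT.nd (nat_lit 234) (nat_lit 1672) (nat_lit 0) (XT.nd (nat_lit 78) (nat_lit 836) (nat_lit 0) (XT.lf (nat_lit 0) (nat_lit 6654750512) (nat_lit 988) (nat_lit 1306810007) (nat_lit 76) (nat_lit 5885867989) (nat_lit 341) (nat_lit 5) (nat_lit 354) (nat_lit 5) (nat_lit 342) (nat_lit 5) (nat_lit 456) (nat_lit 423) (nat_lit 261)) (XT.nd (nat_lit 78) (nat_lit 0) (nat_lit 0) (XT.lf (nat_lit 0) (nat_lit 5809018060) (nat_lit 836) (nat_lit 2513600834) (nat_lit 912) (nat_lit 5675111470) (nat_lit 330) (nat_lit 5) (nat_lit 341) (nat_lit 5) (nat_lit 342) (nat_lit 5) (nat_lit 457) (nat_lit 423) (nat_lit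 260)) (XT.lf (nat_lit 0) (nat_lit 10042532570) (nat_lit 912) (nat_lit 1095399181) (nat_lit 76) (nat_lit 3012739084) (nat_lit 330) (nat_lit 5) (nat_lit 342) (nat_lit 5) (nat_lit 331) (nat_lit 5) (nat_lit 458) (nat_lit 423) (nat_lit 259)))) (XT.nd (nat_lit 156) (nat_lit 836) (nat_lit 0) (XT.nd (nat_lit 78) (nat_lit 0) (nat_lit 0) (XT.lf (nat_lit 0) (nat_lit 6194974358) (nat_lit 836) (nat_lit 5649033730) (nat_lit 912) (nat_lit 2461724969) (nat_lit 319) (nat_lit 5) (nat_lit 330) (nat_lit 5) (nat_lit 331) (nat_lit 5) (nat_lit 459) (nat_lit 423) (nat_lit 258)) (XT.lf (nat_lit 0) (nat_lit 13636657999) (nat_lit 836) (nat_lit 42630754) (nat_lit 912) (nat_lit 784658349) (nat_lit 319) (nat_lit 5) (nat_lit 330) (nat_lit 5) (nat_lit 331) (nat_lit 5) (nat_lit 460) (nat_lit 423) (nat_lit 257))) (XT.nd (nat_lit 78) (nat_lit 0) (nat_lit 0) (XT.lf (nat_lit 0) (nat_lit 984862290) (nat_lit 836) (nat_lit 7987637391) (nat_lit 76) (nat_lit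 5651290231) (nat_lit 308) (nat_lit 5) (nat_lit 319) (nat_lit 5) (nat_lit 309) (nat_lit 5) (nat_lit 461) (nat_lit 423) (nat_lit 256)) (XT.lf (nat_lit 0) (nat_lit 2775817923) (nat_lit 836) (nat_lit 541582825) (nat_lit 76) (nat_lit 11469399815) (nat_lit 308) (nat_lit 5) (nat_lit 319) (nat_lit 5) (nat_lit 309) (nat_lit 5) (nat_lit 462) (nat_lit 423) (nat_lit 255))))) (XT.nd (nat_lit 234) (nat_lit 1520) (nat_lit 0) (XT.nd (nat_lit 78) (nat_lit 684) (nat_lit 0) (XT.lf (nat_lit 0) (nat_lit 4656007913) (nat_lit 836) (nat_lit 7830786789) (nat_lit 76) (nat_lit 2465214047) (nat_lit 298) (nat_lit 5) (nat_lit 309) (nat_lit 5) (nat_lit 299) (nat_lit 5) (nat_lit 463) (nat_lit 423) (nat_lit 254)) (XT.nd (nat_lit 78) (nat_lit 684) (nat_lit 0) (XT.lf (nat_lit 0) (nat_lit 6590401985) (nat_lit 836) (nat_lit 207183194) (nat_lit 76) (nat_lit 8322609432) (nat_lit 298) (nat_lit 5) (nat_lit 309) (nat_lit 5) (nat_lit 299) (nat_lit 5) (nat_lit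 464) (nat_lit 423) (nat_lit 253)) (XT.lf (nat_lit 0) (nat_lit 7660175370) (nat_lit 684) (nat_lit 944192886) (nat_lit 760) (nat_lit 6686563656) (nat_lit 289) (nat_lit 5) (nat_lit 298) (nat_lit 5) (nat_lit 299) (nat_lit 5) (nat_lit 465) (nat_lit 423) (nat_lit 252)))) (XT.nd (nat_lit 156) (nat_lit 760) (nat_lit 0) (XT.nd (nat_lit 78) (nat_lit 0) (nat_lit 0) (XT.lf (nat_lit 0) (nat_lit 183092799) (nat_lit 760) (nat_lit 10502004391) (nat_lit 836) (nat_lit 4779462406) (nat_lit 279) (nat_lit 5) (nat_lit 289) (nat_lit 5) (nat_lit 290) (nat_lit 5) (nat_lit 466) (nat_lit 423) (nat_lit 251)) (XT.lf (nat_lit 0) (nat_lit 8241082385) (nat_lit 760) (nat_lit 4615149077) (nat_lit 836) (nat_lit 2784457755) (nat_lit 279) (nat_lit 5) (nat_lit 289) (nat_lit 5) (nat_lit 290) (nat_lit 5) (nat_lit 467) (nat_lit 423) (nat_lit 250))) (XT.nd (nat_lit 78) (nat_lit 76) (nat_lit 0) (XT.lf (nat_lit 0) (nat_lit 629903567) (nat_lit 684) (nat_lit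 14445533644) (nat_lit 760) (nat_lit 744816340) (nat_lit 270) (nat_lit 5) (nat_lit 279) (nat_lit 5) (nat_lit 280) (nat_lit 5) (nat_lit 468) (nat_lit 423) (nat_lit 249)) (XT.lf (nat_lit 0) (nat_lit 1390233031) (nat_lit 760) (nat_lit 7130955649) (nat_lit 76) (nat_lit 7480609317) (nat_lit 269) (nat_lit 5) (nat_lit 279) (nat_lit 5) (nat_lit 270) (nat_lit 5) (nat_lit 469) (nat_lit 423) (nat_lit 248)))))) (XT.nd (nat_lit 546) (nat_lit 1824) (nat_lit 0) (XT.nd (nat_lit 234) (nat_lit 1368) (nat_lit 0) (XT.nd (nat_lit 78) (nat_lit 608) (nat_lit 0) (XT.lf (nat_lit 0) (nat_lit 1089887184) (nat_lit 684) (nat_lit 2466957726) (nat_lit 760) (nat_lit 12630058068) (nat_lit 260) (nat_lit 5) (nat_lit 269) (nat_lit 5) (nat_lit 270) (nat_lit 5) (nat_lit 470) (nat_lit 423) (nat_lit 247)) (XT.nd (nat_lit 78) (nat_lit 608) (nat_lit 0) (XT.lf (nat_lit 0) (nat_lit 5830881816) (nat_lit 760) (nat_lit 6836541067) (nat_lit 76) (nat_lit 3707010028)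 (nat_lit 260) (nat_lit 5) (nat_lit 270) (nat_lit 5) (nat_lit 261) (nat_lit 5) (nat_lit 471) (nat_lit 423) (nat_lit 246)) (XT.lf (nat_lit 0) (nat_lit 1584565101) (nat_lit 608) (nat_lit 6584466053) (nat_lit 684) (nat_lit 8396314271) (nat_lit 252) (nat_lit 5) (nat_lit 260) (nat_lit 5) (nat_lit 261) (nat_lit 5) (nat_lit 472) (nat_lit 423) (nat_lit 245)))) (XT.nd (nat_lit 156) (nat_lit 684) (nat_lit 0) (XT.nd (nat_lit 78) (nat_lit 684) (nat_lit 0) (XT.lf (nat_lit 0) (nat_lit 10257801424) (nat_lit 608) (nat_lit 334123570) (nat_lit 684) (nat_lit 6167396091) (nat_lit 252) (nat_lit 5) (nat_lit 260) (nat_lit 5) (nat_lit 261) (nat_lit 5) (nat_lit 473) (nat_lit 423) (nat_lit 244)) (XT.lf (nat_lit 0) (nat_lit 2127059551) (nat_lit 684) (nat_lit 10981503824) (nat_lit 760) (nat_lit 3847711588) (nat_lit 243) (nat_lit 5) (nat_lit 252) (nat_lit 5) (nat_lit 253) (nat_lit 5) (nat_lit 474) (nat_lit 423) (nat_lit 243))) (XT.nd (nat_lit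 78) (nat_lit 684) (nat_lit 0) (XT.lf (nat_lit 0) (nat_lit 11005217043) (nat_lit 684) (nat_lit 4708491264) (nat_lit 760) (nat_lit 1442700485) (nat_lit 243) (nat_lit 5) (nat_lit 252) (nat_lit 5) (nat_lit 253) (nat_lit 5) (nat_lit 475) (nat_lit 423) (nat_lit 242)) (XT.lf (nat_lit 0) (nat_lit 1018391639) (nat_lit 684) (nat_lit 14650637688) (nat_lit 76) (nat_lit 1690964297) (nat_lit 234) (nat_lit 5) (nat_lit 243) (nat_lit 5) (nat_lit 235) (nat_lit 5) (nat_lit 476) (nat_lit 423) (nat_lit 241))))) (XT.nd (nat_lit 234) (nat_lit 1216) (nat_lit 0) (XT.nd (nat_lit 78) (nat_lit 608) (nat_lit 0) (XT.lf (nat_lit 0) (nat_lit 3574665187) (nat_lit 684) (nat_lit 5786237249) (nat_lit 76) (nat_lit 8205255544) (nat_lit 234) (nat_lit 5) (nat_lit 243) (nat_lit 5) (nat_lit 235) (nat_lit 5) (nat_lit 477) (nat_lit 423) (nat_lit 240)) (XT.nd (nat_lit 78) (nat_lit 0) (nat_lit 0) (XT.lf (nat_lit 0) (nat_lit 3289874454) (nat_lit 608) (nat_lit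 2906222468) (nat_lit 684) (nat_lit 11580072065) (nat_lit 226) (nat_lit 5) (nat_lit 234) (nat_lit 5) (nat_lit 235) (nat_lit 5) (nat_lit 478) (nat_lit 423) (nat_lit 239)) (XT.lf (nat_lit 0) (nat_lit 8925671045) (nat_lit 684) (nat_lit 5396601644) (nat_lit 76) (nat_lit 3666997190) (nat_lit 226) (nat_lit 5) (nat_lit 235) (nat_lit 5) (nat_lit 227) (nat_lit 5) (nat_lit 479) (nat_lit 423) (nat_lit 238)))) (XT.nd (nat_lit 156) (nat_lit 684) (nat_lit 0) (XT.nd (nat_lit 78) (nat_lit 0) (nat_lit 0) (XT.lf (nat_lit 0) (nat_lit 3898129818) (nat_lit 532) (nat_lit 7849155534) (nat_lit 608) (nat_lit 6458602326) (nat_lit 219) (nat_lit 5) (nat_lit 226) (nat_lit 5) (nat_lit 227) (nat_lit 5) (nat_lit 480) (nat_lit 423) (nat_lit 237)) (XT.lf (nat_lit 0) (nat_lit 13443331616) (nat_lit 532) (nat_lit 1211190988) (nat_lit 608) (nat_lit 3771735204) (nat_lit 219) (nat_lit 5) (nat_lit 226) (nat_lit 5) (nat_lit 227) (nat_lit 5) (nat_lit 481)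 (nat_lit 423) (nat_lit 236))) (XT.nd (nat_lit 78) (nat_lit 76) (nat_lit 0) (XT.lf (nat_lit 0) (nat_lit 4543352801) (nat_lit 608) (nat_lit 13135250880) (nat_lit 684) (nat_lit 971261390) (nat_lit 211) (nat_lit 5) (nat_lit 219) (nat_lit 5) (nat_lit 220) (nat_lit 5) (nat_lit 482) (nat_lit 423) (nat_lit 235)) (XT.lf (nat_lit 0) (nat_lit 1895313352) (nat_lit 684) (nat_lit 4578634780) (nat_lit 76) (nat_lit 12403058784) (nat_lit 210) (nat_lit 5) (nat_lit 219) (nat_lit 5) (nat_lit 211) (nat_lit 5) (nat_lit 483) (nat_lit 423) (nat_lit 234))))))) (XT.nd (nat_lit 1092) (nat_lit 3268) (nat_lit 0) (XT.nd (nat_lit 546) (nat_lit 1444) (nat_lit 0) (XT.nd (nat_lit 234) (nat_lit 1064) (nat_lit 0) (XT.nd (nat_lit 78) (nat_lit 532) (nat_lit 0) (XT.lf (nat_lit 0) (nat_lit 4835550215) (nat_lit 608) (nat_lit 13917297468) (nat_lit 76) (nat_lit 355132297) (nat_lit 203) (nat_lit 5) (nat_lit 211) (nat_lit 5) (nat_lit 204) (nat_lit 5) (nat_lit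 484) (nat_lit 423) (nat_lit 233)) (XT.nd (nat_lit 78) (nat_lit 532) (nat_lit 0) (XT.lf (nat_lit 0) (nat_lit 7901731251) (nat_lit 608) (nat_lit 4177065054) (nat_lit 76) (nat_lit 7263436841) (nat_lit 203) (nat_lit 5) (nat_lit 211) (nat_lit 5) (nat_lit 204) (nat_lit 5) (nat_lit 485) (nat_lit 423) (nat_lit 232)) (XT.lf (nat_lit 0) (nat_lit 5826067722) (nat_lit 532) (nat_lit 5234462607) (nat_lit 608) (nat_lit 8520018520) (nat_lit 196) (nat_lit 5) (nat_lit 203) (nat_lit 5) (nat_lit 204) (nat_lit 5) (nat_lit 486) (nat_lit 423) (nat_lit 231)))) (XT.nd (nat_lit 156) (nat_lit 608) (nat_lit 0) (XT.nd (nat_lit 78) (nat_lit 456) (nat_lit 0) (XT.lf (nat_lit 0) (nat_lit 14315592924) (nat_lit 608) (nat_lit 3757092899) (nat_lit 76) (nat_lit 1750286591) (nat_lit 196) (nat_lit 5) (nat_lit 204) (nat_lit 5) (nat_lit 197) (nat_lit 5) (nat_lit 487) (nat_lit 423) (nat_lit 230)) (XT.lf (nat_lit 0) (nat_lit 6482379402) (nat_lit 456) (nat_lit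 11223787929) (nat_lit 532) (nat_lit 2362672140) (nat_lit 190) (nat_lit 5) (nat_lit 196) (nat_lit 5) (nat_lit 197) (nat_lit 5) (nat_lit 488) (nat_lit 423) (nat_lit 229))) (XT.nd (nat_lit 78) (nat_lit 532) (nat_lit 0) (XT.lf (nat_lit 0) (nat_lit 852911049) (nat_lit 532) (nat_lit 3355451842) (nat_lit 76) (nat_lit 16110773105) (nat_lit 189) (nat_lit 5) (nat_lit 196) (nat_lit 5) (nat_lit 190) (nat_lit 5) (nat_lit 489) (nat_lit 423) (nat_lit 228)) (XT.lf (nat_lit 0) (nat_lit 4160966201) (nat_lit 608) (nat_lit 13442640044) (nat_lit 76) (nat_lit 2969326978) (nat_lit 182) (nat_lit 5) (nat_lit 190) (nat_lit 5) (nat_lit 183) (nat_lit 5) (nat_lit 490) (nat_lit 423) (nat_lit 227))))) (XT.nd (nat_lit 234) (nat_lit 988) (nat_lit 0) (XT.nd (nat_lit 78) (nat_lit 456) (nat_lit 0) (XT.lf (nat_lit 0) (nat_lit 7579583115) (nat_lit 608) (nat_lit 2996285019) (nat_lit 76) (nat_lit 10255053234) (nat_lit 182) (nat_lit 5) (nat_lit 190) (nat_lit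 5) (nat_lit 183) (nat_lit 5) (nat_lit 491) (nat_lit 423) (nat_lit 226)) (XT.nd (nat_lit 78) (nat_lit 0) (nat_lit 0) (XT.lf (nat_lit 0) (nat_lit 7752687722) (nat_lit 456) (nat_lit 3358205274) (nat_lit 532) (nat_lit 9982292794) (nat_lit 176) (nat_lit 5) (nat_lit 182) (nat_lit 5) (nat_lit 183) (nat_lit 5) (nat_lit 492) (nat_lit 423) (nat_lit 225)) (XT.lf (nat_lit 0) (nat_lit 14753102844) (nat_lit 532) (nat_lit 2637210246) (nat_lit 76) (nat_lit 3969579806) (nat_lit 176) (nat_lit 5) (nat_lit 183) (nat_lit 5) (nat_lit 177) (nat_lit 5) (nat_lit 493) (nat_lit 423) (nat_lit 224)))) (XT.nd (nat_lit 156) (nat_lit 456) (nat_lit 0) (XT.nd (nat_lit 78) (nat_lit 76) (nat_lit 0) (XT.lf (nat_lit 0) (nat_lit 8359655998) (nat_lit 456) (nat_lit 10179172549) (nat_lit 532) (nat_lit 3091694977) (nat_lit 170) (nat_lit 5) (nat_lit 176) (nat_lit 5) (nat_lit 177) (nat_lit 5) (nat_lit 494) (nat_lit 423) (nat_lit 223)) (XT.lf (nat_lit 0) (nat_lit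 499219461) (nat_lit 532) (nat_lit 2305241967) (nat_lit 76) (nat_lit 19101804084) (nat_lit 169) (nat_lit 5) (nat_lit 176) (nat_lit 5) (nat_lit 170) (nat_lit 5) (nat_lit 495) (nat_lit 423) (nat_lit 222))) (XT.nd (nat_lit 78) (nat_lit 0) (nat_lit 0) (XT.lf (nat_lit 0) (nat_lit 4204257384) (nat_lit 532) (nat_lit 13248110024) (nat_lit 76) (nat_lit 4733074801) (nat_lit 163) (nat_lit 5) (nat_lit 170) (nat_lit 5) (nat_lit 164) (nat_lit 5) (nat_lit 496) (nat_lit 423) (nat_lit 221)) (XT.lf (nat_lit 0) (nat_lit 8011881312) (nat_lit 532) (nat_lit 2060372157) (nat_lit 76) (nat_lit 12397381865) (nat_lit 163) (nat_lit 5) (nat_lit 170) (nat_lit 5) (nat_lit 164) (nat_lit 5) (nat_lit 497) (nat_lit 423) (nat_lit 220)))))) (XT.nd (nat_lit 546) (nat_lit 1520) (nat_lit 0) (XT.nd (nat_lit 234) (nat_lit 912) (nat_lit 0) (XT.nd (nat_lit 78) (nat_lit 380) (nat_lit 0) (XT.lf (nat_lit 0) (nat_lit 9467633266) (nat_lit 456) (nat_lit 2483946391)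 (nat_lit 532) (nat_lit 10806816775) (nat_lit 157) (nat_lit 5) (nat_lit 163) (nat_lit 5) (nat_lit 164) (nat_lit 5) (nat_lit 498) (nat_lit 423) (nat_lit 219)) (XT.nd (nat_lit 78) (nat_lit 380) (nat_lit 0) (XT.lf (nat_lit 0) (nat_lit 16012613415) (nat_lit 532) (nat_lit 1840451431) (nat_lit 76) (nat_lit 5199019576) (nat_lit 157) (nat_lit 5) (nat_lit 164) (nat_lit 5) (nat_lit 158) (nat_lit 5) (nat_lit 499) (nat_lit 423) (nat_lit 218)) (XT.lf (nat_lit 0) (nat_lit 9945296936) (nat_lit 380) (nat_lit 10285197681) (nat_lit 456) (nat_lit 3119641469) (nat_lit 152) (nat_lit 5) (nat_lit 157) (nat_lit 5) (nat_lit 158) (nat_lit 5) (nat_lit 500) (nat_lit 423) (nat_lit 217)))) (XT.nd (nat_lit 156) (nat_lit 380) (nat_lit 0) (XT.nd (nat_lit 78) (nat_lit 456) (nat_lit 0) (XT.lf (nat_lit 0) (nat_lit 874118720) (nat_lit 456) (nat_lit 1675557920) (nat_lit 76) (nat_lit 21104219274) (nat_lit 151) (nat_lit 5) (nat_lit 157) (nat_lit 5) (nat_lit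 152) (nat_lit 5) (nat_lit 501) (nat_lit 423) (nat_lit 216)) (XT.lf (nat_lit 0) (nat_lit 5003496923) (nat_lit 532) (nat_lit 13600747182) (nat_lit 76) (nat_lit 5357126427) (nat_lit 145) (nat_lit 5) (nat_lit 152) (nat_lit 5) (nat_lit 146) (nat_lit 5) (nat_lit 502) (nat_lit 423) (nat_lit 215))) (XT.nd (nat_lit 78) (nat_lit 380) (nat_lit 0) (XT.lf (nat_lit 0) (nat_lit 9238437719) (nat_lit 532) (nat_lit 1638961727) (nat_lit 76) (nat_lit 13397137961) (nat_lit 145) (nat_lit 5) (nat_lit 152) (nat_lit 5) (nat_lit 146) (nat_lit 5) (nat_lit 503) (nat_lit 423) (nat_lit 214)) (XT.lf (nat_lit 0) (nat_lit 10694999715) (nat_lit 380) (nat_lit 2927390582) (nat_lit 456) (nat_lit 10970293281) (nat_lit 140) (nat_lit 5) (nat_lit 145) (nat_lit 5) (nat_lit 146) (nat_lit 5) (nat_lit 504) (nat_lit 423) (nat_lit 213))))) (XT.nd (nat_lit 312) (nat_lit 684) (nat_lit 0) (XT.nd (nat_lit 156) (nat_lit 456) (nat_lit 0) (XT.nd (nat_lit 78) (nat_lit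 380) (nat_lit 0) (XT.lf (nat_lit 0) (nat_lit 18133648434) (nat_lit 456) (nat_lit 1660198780) (nat_lit 76) (nat_lit 5122555103) (nat_lit 140) (nat_lit 5) (nat_lit 146) (nat_lit 5) (nat_lit 141) (nat_lit 5) (nat_lit 505) (nat_lit 423) (nat_lit 212)) (XT.lf (nat_lit 0) (nat_lit 10938891631) (nat_lit 380) (nat_lit 11881661953) (nat_lit 456) (nat_lit 2424335543) (nat_lit 135) (nat_lit 5) (nat_lit 140) (nat_lit 5) (nat_lit 141) (nat_lit 5) (nat_lit 506) (nat_lit 423) (nat_lit 211))) (XT.nd (nat_lit 78) (nat_lit 380) (nat_lit 0) (XT.lf (nat_lit 0) (nat_lit 2000985746) (nat_lit 456) (nat_lit 1787695461) (nat_lit 76) (nat_lit 21790879177) (nat_lit 134) (nat_lit 5) (nat_lit 140) (nat_lit 5) (nat_lit 135) (nat_lit 5) (nat_lit 507) (nat_lit 423) (nat_lit 210)) (XT.lf (nat_lit 0) (nat_lit 6579165931) (nat_lit 456) (nat_lit 14845388924) (nat_lit 76) (nat_lit 4494115437) (nat_lit 129) (nat_lit 5) (nat_lit 135) (nat_lit 5) (nat_lit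 130) (nat_lit 5) (nat_lit 508) (nat_lit 423) (nat_lit 209)))) (XT.nd (nat_lit 156) (nat_lit 304) (nat_lit 0) (XT.nd (nat_lit 78) (nat_lit 380) (nat_lit 0) (XT.lf (nat_lit 0) (nat_lit 11281237948) (nat_lit 456) (nat_lit 2080921105) (nat_lit 76) (nat_lit 12901758750) (nat_lit 129) (nat_lit 5) (nat_lit 135) (nat_lit 5) (nat_lit 130) (nat_lit 5) (nat_lit 509) (nat_lit 423) (nat_lit 208)) (XT.lf (nat_lit 0) (nat_lit 11077115409) (nat_lit 380) (nat_lit 5067412645) (nat_lit 456) (nat_lit 10470200609) (nat_lit 124) (nat_lit 5) (nat_lit 129) (nat_lit 5) (nat_lit 130) (nat_lit 5) (nat_lit 510) (nat_lit 423) (nat_lit 207))) (XT.nd (nat_lit 78) (nat_lit 304) (nat_lit 0) (XT.lf (nat_lit 0) (nat_lit 21136461482) (nat_lit 456) (nat_lit 2474914062) (nat_lit 76) (nat_lit 3360554540) (nat_lit 124) (nat_lit 5) (nat_lit 130) (nat_lit 5) (nat_lit 125) (nat_lit 5) (nat_lit 511) (nat_lit 423) (nat_lit 206)) (XT.lf (nat_lit 0) (nat_lit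 10952224284) (nat_lit 304) (nat_lit 15376059651) (nat_lit 380) (nat_lit 1005992447) (nat_lit 120) (nat_lit 5) (nat_lit 124) (nat_lit 5) (nat_lit 125) (nat_lit 5) (nat_lit 512) (nat_lit 423) (nat_lit 205))))))))
noncomputable def xc197 : XT := (XT.nd (nat_lit 53898) (nat_lit 0) (nat_lit 12084) (XT.nd (nat_lit 52806) (nat_lit 0) (nat_lit 22952) (XT.nd (nat_lit 546) (nat_lit 304) (nat_lit 0) (XT.nd (nat_lit 234) (nat_lit 684) (nat_lit 0) (XT.nd (nat_lit 78) (nat_lit 380) (nat_lit 0) (XT.lf (nat_lit 0) (nat_lit 3880774948) (nat_lit 380) (nat_lit 3054559434) (nat_lit 76) (nat_lit 20767785692) (nat_lit 119) (nat_lit 5) (nat_lit 124) (nat_lit 5) (nat_lit 120) (nat_lit 5) (nat_lit 513) (nat_lit 423) (nat_lit 204)) (XT.nd (nat_lit 78) (nat_lit 0) (nat_lit 0) (XT.lf (nat_lit 0) (nat_lit 8927914897) (nat_lit 456) (nat_lit 17423344268) (nat_lit 76) (nat_lit 1726428081) (nat_lit 114) (nat_lit 5) (nat_lit 120) (nat_lit 5) (nat_lit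 115) (nat_lit 5) (nat_lit 514) (nat_lit 423) (nat_lit 203)) (XT.lf (nat_lit 0) (nat_lit 14138077027) (nat_lit 456) (nat_lit 3833382144) (nat_lit 76) (nat_lit 10487046720) (nat_lit 114) (nat_lit 5) (nat_lit 120) (nat_lit 5) (nat_lit 115) (nat_lit 5) (nat_lit 515) (nat_lit 423) (nat_lit 202)))) (XT.nd (nat_lit 156) (nat_lit 380) (nat_lit 0) (XT.nd (nat_lit 78) (nat_lit 0) (nat_lit 0) (XT.lf (nat_lit 0) (nat_lit 10154885886) (nat_lit 304) (nat_lit 9359093245) (nat_lit 380) (nat_lit 9331732724) (nat_lit 110) (nat_lit 5) (nat_lit 114) (nat_lit 5) (nat_lit 115) (nat_lit 5) (nat_lit 516) (nat_lit 423) (nat_lit 201)) (XT.lf (nat_lit 0) (nat_lit 24468249216) (nat_lit 304) (nat_lit 550521675) (nat_lit 380) (nat_lit 4221465263) (nat_lit 110) (nat_lit 5) (nat_lit 114) (nat_lit 5) (nat_lit 115) (nat_lit 5) (nat_lit 517) (nat_lit 423) (nat_lit 200))) (XT.nd (nat_lit 78) (nat_lit 0) (nat_lit 0) (XT.lf (nat_lit 0) (nat_lit 1090834532)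 (nat_lit 380) (nat_lit 20159252859) (nat_lit 76) (nat_lit 8390179962) (nat_lit 105) (nat_lit 5) (nat_lit 110) (nat_lit 5) (nat_lit 106) (nat_lit 5) (nat_lit 518) (nat_lit 423) (nat_lit 199)) (XT.lf (nat_lit 0) (nat_lit 6484518525) (nat_lit 380) (nat_lit 6002301860) (nat_lit 76) (nat_lit 17560288995) (nat_lit 105) (nat_lit 5) (nat_lit 110) (nat_lit 5) (nat_lit 106) (nat_lit 5) (nat_lit 519) (nat_lit 423) (nat_lit 198))))) (XT.nd (nat_lit 51948) (nat_lit 0) (nat_lit 25688) (XT.nd (nat_lit 78) (nat_lit 0) (nat_lit 0) (XT.lf (nat_lit 0) (nat_lit 8543375279) (nat_lit 304) (nat_lit 3493984225) (nat_lit 380) (nat_lit 18423704600) (nat_lit 101) (nat_lit 5) (nat_lit 105) (nat_lit 5) (nat_lit 106) (nat_lit 5) (nat_lit 520) (nat_lit 423) (nat_lit 197)) (XT.nd (nat_lit 51792) (nat_lit 0) (nat_lit 25688) (XT.lf (nat_lit 0) (nat_lit 17774512296) (nat_lit 380) (nat_lit 7464788222) (nat_lit 76) (nat_lit 5642533799) (nat_lit 101)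 (nat_lit 5) (nat_lit 106) (nat_lit 5) (nat_lit 102) (nat_lit 5) (nat_lit 521) (nat_lit 423) (nat_lit 196)) (XT.lf (nat_lit 0) (nat_lit 3620777579) (nat_lit 1596) (nat_lit 745174983) (nat_lit 1596) (nat_lit 745174983) (nat_lit 439) (nat_lit 3) (nat_lit 460) (nat_lit 3) (nat_lit 460) (nat_lit 5) (nat_lit 424) (nat_lit 424) (nat_lit 292)))) (XT.nd (nat_lit 156) (nat_lit 0) (nat_lit 76) (XT.nd (nat_lit 78) (nat_lit 0) (nat_lit 0) (XT.lf (nat_lit 76) (nat_lit 3267883758) (nat_lit 0) (nat_lit 4711452816) (nat_lit 1596) (nat_lit 2331360044) (nat_lit 440) (nat_lit 5) (nat_lit 439) (nat_lit 3) (nat_lit 460) (nat_lit 5) (nat_lit 425) (nat_lit 424) (nat_lit 291)) (XT.lf (nat_lit 76) (nat_lit 8132746346) (nat_lit 0) (nat_lit 592175324) (nat_lit 1596) (nat_lit 1676136770) (nat_lit 440) (nat_lit 5) (nat_lit 439) (nat_lit 3) (nat_lit 460) (nat_lit 5) (nat_lit 426) (nat_lit 424) (nat_lit 290))) (XT.nd (nat_lit 78) (nat_lit 0)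 (nat_lit 0) (XT.lf (nat_lit 76) (nat_lit 2603424424) (nat_lit 0) (nat_lit 6905764112) (nat_lit 1596) (nat_lit 983575743) (nat_lit 441) (nat_lit 5) (nat_lit 440) (nat_lit 5) (nat_lit 461) (nat_lit 5) (nat_lit 427) (nat_lit 424) (nat_lit 289)) (XT.lf (nat_lit 76) (nat_lit 7590464950) (nat_lit 0) (nat_lit 2721492023) (nat_lit 1596) (nat_lit 274302879) (nat_lit 441) (nat_lit 5) (nat_lit 440) (nat_lit 5) (nat_lit 461) (nat_lit 5) (nat_lit 428) (nat_lit 424) (nat_lit 288)))))) (XT.nd (nat_lit 546) (nat_lit 1292) (nat_lit 0) (XT.nd (nat_lit 234) (nat_lit 0) (nat_lit 76) (XT.nd (nat_lit 78) (nat_lit 0) (nat_lit 0) (XT.lf (nat_lit 0) (nat_lit 450409489) (nat_lit 1596) (nat_lit 8681719849) (nat_lit 1672) (nat_lit 1549306258) (nat_lit 420) (nat_lit 5) (nat_lit 441) (nat_lit 5) (nat_lit 442) (nat_lit 5) (nat_lit 429) (nat_lit 424) (nat_lit 287)) (XT.nd (nat_lit 78) (nat_lit 0) (nat_lit 0) (XT.lf (nat_lit 0) (nat_lit 1208410253)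 (nat_lit 1596) (nat_lit 3671609785) (nat_lit 1672) (nat_lit 5898020467) (nat_lit 420) (nat_lit 5) (nat_lit 441) (nat_lit 5) (nat_lit 442) (nat_lit 5) (nat_lit 430) (nat_lit 424) (nat_lit 286)) (XT.lf (nat_lit 76) (nat_lit 1448613502) (nat_lit 0) (nat_lit 526876624) (nat_lit 1672) (nat_lit 8901220038) (nat_lit 421) (nat_lit 5) (nat_lit 420) (nat_lit 5) (nat_lit 442) (nat_lit 5) (nat_lit 431) (nat_lit 424) (nat_lit 285)))) (XT.nd (nat_lit 156) (nat_lit 0) (nat_lit 76) (XT.nd (nat_lit 78) (nat_lit 0) (nat_lit 0) (XT.lf (nat_lit 0) (nat_lit 2792920242) (nat_lit 1596) (nat_lit 4290804653) (nat_lit 1672) (nat_lit 3892938965) (nat_lit 421) (nat_lit 5) (nat_lit 442) (nat_lit 5) (nat_lit 443) (nat_lit 5) (nat_lit 432) (nat_lit 424) (nat_lit 284)) (XT.lf (nat_lit 76) (nat_lit 948990125) (nat_lit 0) (nat_lit 2672456725) (nat_lit 1672) (nat_lit 7457285426) (nat_lit 422) (nat_lit 5) (nat_lit 421) (nat_lit 5) (nat_lit 443) (nat_lit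 5) (nat_lit 433) (nat_lit 424) (nat_lit 283))) (XT.nd (nat_lit 78) (nat_lit 0) (nat_lit 0) (XT.lf (nat_lit 0) (nat_lit 4492756518) (nat_lit 1596) (nat_lit 4852054603) (nat_lit 1672) (nat_lit 1837517089) (nat_lit 422) (nat_lit 5) (nat_lit 443) (nat_lit 5) (nat_lit 444) (nat_lit 5) (nat_lit 434) (nat_lit 424) (nat_lit 282)) (XT.lf (nat_lit 76) (nat_lit 510895485) (nat_lit 0) (nat_lit 4877265244) (nat_lit 1672) (nat_lit 5899712157) (nat_lit 423) (nat_lit 5) (nat_lit 422) (nat_lit 5) (nat_lit 444) (nat_lit 5) (nat_lit 435) (nat_lit 424) (nat_lit 281))))) (XT.nd (nat_lit 234) (nat_lit 1444) (nat_lit 0) (XT.nd (nat_lit 78) (nat_lit 0) (nat_lit 76) (XT.lf (nat_lit 76) (nat_lit 6037643283) (nat_lit 0) (nat_lit 282263847) (nat_lit 1672) (nat_lit 5075262638) (nat_lit 423) (nat_lit 5) (nat_lit 422) (nat_lit 5) (nat_lit 444) (nat_lit 5) (nat_lit 436) (nat_lit 424) (nat_lit 280)) (XT.nd (nat_lit 78) (nat_lit 0) (nat_lit 0)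 (XT.lf (nat_lit 76) (nat_lit 134105367) (nat_lit 0) (nat_lit 7151834010) (nat_lit 1672) (nat_lit 4218369988) (nat_lit 424) (nat_lit 5) (nat_lit 423) (nat_lit 5) (nat_lit 445) (nat_lit 5) (nat_lit 437) (nat_lit 424) (nat_lit 279)) (XT.lf (nat_lit 76) (nat_lit 5796990971) (nat_lit 0) (nat_lit 2498503014) (nat_lit 1672) (nat_lit 3319663343) (nat_lit 424) (nat_lit 5) (nat_lit 423) (nat_lit 5) (nat_lit 445) (nat_lit 5) (nat_lit 438) (nat_lit 424) (nat_lit 278)))) (XT.nd (nat_lit 156) (nat_lit 1596) (nat_lit 0) (XT.nd (nat_lit 78) (nat_lit 0) (nat_lit 0) (XT.lf (nat_lit 0) (nat_lit 9326521575) (nat_lit 1596) (nat_lit 179111308) (nat_lit 1672) (nat_lit 2222573144) (nat_lit 424) (nat_lit 5) (nat_lit 445) (nat_lit 5) (nat_lit 446) (nat_lit 5) (nat_lit 439) (nat_lit 424) (nat_lit 277)) (XT.lf (nat_lit 76) (nat_lit 5620650658) (nat_lit 0) (nat_lit 4797506534) (nat_lit 1672) (nat_lit 1424567992) (nat_lit 425) (nat_lit 5) (nat_lit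 424) (nat_lit 5) (nat_lit 446) (nat_lit 5) (nat_lit 440) (nat_lit 424) (nat_lit 276))) (XT.nd (nat_lit 78) (nat_lit 1672) (nat_lit 0) (XT.lf (nat_lit 0) (nat_lit 11520034713) (nat_lit 1596) (nat_lit 430186777) (nat_lit 1672) (nat_lit 9554102) (nat_lit 425) (nat_lit 5) (nat_lit 446) (nat_lit 5) (nat_lit 447) (nat_lit 5) (nat_lit 441) (nat_lit 424) (nat_lit 275)) (XT.lf (nat_lit 0) (nat_lit 612688485) (nat_lit 1672) (nat_lit 6573379556) (nat_lit 1748) (nat_lit 4891928068) (nat_lit 403) (nat_lit 5) (nat_lit 425) (nat_lit 5) (nat_lit 426) (nat_lit 5) (nat_lit 442) (nat_lit 424) (nat_lit 274))))))) (XT.nd (nat_lit 1092) (nat_lit 6156) (nat_lit 0) (XT.nd (nat_lit 546) (nat_lit 4712) (nat_lit 0) (XT.nd (nat_lit 234) (nat_lit 0) (nat_lit 152) (XT.nd (nat_lit 78) (nat_lit 0) (nat_lit 76) (XT.lf (nat_lit 0) (nat_lit 1670705668) (nat_lit 1672) (nat_lit 646907804) (nat_lit 1748) (nat_lit 9881109413) (nat_lit 403) (nat_lit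 5) (nat_lit 425) (nat_lit 5) (nat_lit 426) (nat_lit 5) (nat_lit 443) (nat_lit 424) (nat_lit 273)) (XT.nd (nat_lit 78) (nat_lit 0) (nat_lit 0) (XT.lf (nat_lit 0) (nat_lit 2790545434) (nat_lit 1672) (nat_lit 6878364030) (nat_lit 1748) (nat_lit 2652149850) (nat_lit 404) (nat_lit 5) (nat_lit 426) (nat_lit 5) (nat_lit 427) (nat_lit 5) (nat_lit 444) (nat_lit 424) (nat_lit 272)) (XT.lf (nat_lit 0) (nat_lit 3940460407) (nat_lit 1672) (nat_lit 807697098) (nat_lit 1748) (nat_lit 7697539597) (nat_lit 404) (nat_lit 5) (nat_lit 426) (nat_lit 5) (nat_lit 427) (nat_lit 5) (nat_lit 445) (nat_lit 424) (nat_lit 271)))) (XT.nd (nat_lit 156) (nat_lit 0) (nat_lit 0) (XT.nd (nat_lit 78) (nat_lit 0) (nat_lit 0) (XT.lf (nat_lit 0) (nat_lit 5138943100) (nat_lit 1672) (nat_lit 7127797838) (nat_lit 1748) (nat_lit 305583356) (nat_lit 405) (nat_lit 5) (nat_lit 427) (nat_lit 5) (nat_lit 428) (nat_lit 5) (nat_lit 446) (nat_lit 424) (nat_lit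 270)) (XT.lf (nat_lit 0) (nat_lit 6386680167) (nat_lit 1672) (nat_lit 909547842) (nat_lit 1748) (nat_lit 5404758208) (nat_lit 405) (nat_lit 5) (nat_lit 427) (nat_lit 5) (nat_lit 428) (nat_lit 5) (nat_lit 447) (nat_lit 424) (nat_lit 269))) (XT.nd (nat_lit 78) (nat_lit 0) (nat_lit 76) (XT.lf (nat_lit 76) (nat_lit 5495897230) (nat_lit 0) (nat_lit 2187769519) (nat_lit 1748) (nat_lit 5148076457) (nat_lit 406) (nat_lit 5) (nat_lit 405) (nat_lit 5) (nat_lit 428) (nat_lit 5) (nat_lit 448) (nat_lit 424) (nat_lit 268)) (XT.lf (nat_lit 0) (nat_lit 9021152052) (nat_lit 1672) (nat_lit 952313755) (nat_lit 76) (nat_lit 2991365922) (nat_lit 406) (nat_lit 5) (nat_lit 428) (nat_lit 5) (nat_lit 407) (nat_lit 5) (nat_lit 449) (nat_lit 424) (nat_lit 267))))) (XT.nd (nat_lit 234) (nat_lit 1824) (nat_lit 0) (XT.nd (nat_lit 78) (nat_lit 1444) (nat_lit 0) (XT.lf (nat_lit 0) (nat_lit 5608710765) (nat_lit 1672) (nat_lit 4816588758) (nat_lit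 1748) (nat_lit 2674491675) (nat_lit 384) (nat_lit 5) (nat_lit 406) (nat_lit 5) (nat_lit 407) (nat_lit 5) (nat_lit 450) (nat_lit 424) (nat_lit 266)) (XT.nd (nat_lit 78) (nat_lit 1444) (nat_lit 0) (XT.lf (nat_lit 0) (nat_lit 11856016822) (nat_lit 1748) (nat_lit 935801637) (nat_lit 76) (nat_lit 445668940) (nat_lit 384) (nat_lit 5) (nat_lit 407) (nat_lit 5) (nat_lit 385) (nat_lit 5) (nat_lit 451) (nat_lit 424) (nat_lit 265)) (XT.lf (nat_lit 0) (nat_lit 5785322205) (nat_lit 1444) (nat_lit 7588873619) (nat_lit 1520) (nat_lit 2571891) (nat_lit 365) (nat_lit 5) (nat_lit 384) (nat_lit 5) (nat_lit 385) (nat_lit 5) (nat_lit 452) (nat_lit 424) (nat_lit 264)))) (XT.nd (nat_lit 156) (nat_lit 912) (nat_lit 0) (XT.nd (nat_lit 78) (nat_lit 836) (nat_lit 0) (XT.lf (nat_lit 0) (nat_lit 1381273186) (nat_lit 1520) (nat_lit 883635440) (nat_lit 76) (nat_lit 11253833951) (nat_lit 364) (nat_lit 5) (nat_lit 384) (nat_lit 5) (nat_lit 365)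 (nat_lit 5) (nat_lit 453) (nat_lit 424) (nat_lit 263)) (XT.lf (nat_lit 0) (nat_lit 2842386109) (nat_lit 912) (nat_lit 7655573315) (nat_lit 76) (nat_lit 3164611388) (nat_lit 353) (nat_lit 5) (nat_lit 365) (nat_lit 5) (nat_lit 354) (nat_lit 5) (nat_lit 454) (nat_lit 424) (nat_lit 262))) (XT.nd (nat_lit 78) (nat_lit 912) (nat_lit 0) (XT.lf (nat_lit 0) (nat_lit 4343506721) (nat_lit 912) (nat_lit 786073595) (nat_lit 76) (nat_lit 8679486183) (nat_lit 353) (nat_lit 5) (nat_lit 365) (nat_lit 5) (nat_lit 354) (nat_lit 5) (nat_lit 455) (nat_lit 424) (nat_lit 261)) (XT.lf (nat_lit 0) (nat_lit 5908056767) (nat_lit 988) (nat_lit 7666154952) (nat_lit 76) (nat_lit 383618703) (nat_lit 341) (nat_lit 5) (nat_lit 354) (nat_lit 5) (nat_lit 342) (nat_lit 5) (nat_lit 456) (nat_lit 424) (nat_lit 260)))))) (XT.nd (nat_lit 546) (nat_lit 2888) (nat_lit 0) (XT.nd (nat_lit 234) (nat_lit 2432) (nat_lit 0) (XT.nd (nat_lit 78) (nat_lit 836)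 (nat_lit 0) (XT.lf (nat_lit 0) (nat_lit 7533337292) (nat_lit 988) (nat_lit 631099833) (nat_lit 76) (nat_lit 5944550047) (nat_lit 341) (nat_lit 5) (nat_lit 354) (nat_lit 5) (nat_lit 342) (nat_lit 5) (nat_lit 457) (nat_lit 424) (nat_lit 259)) (XT.nd (nat_lit 78) (nat_lit 0) (nat_lit 0) (XT.lf (nat_lit 0) (nat_lit 6622427384) (nat_lit 836) (nat_lit 2602045044) (nat_lit 912) (nat_lit 5038033861) (nat_lit 330) (nat_lit 5) (nat_lit 341) (nat_lit 5) (nat_lit 342) (nat_lit 5) (nat_lit 458) (nat_lit 424) (nat_lit 258)) (XT.lf (nat_lit 0) (nat_lit 10964121769) (nat_lit 912) (nat_lit 418625318) (nat_lit 76) (nat_lit 3036060965) (nat_lit 330) (nat_lit 5) (nat_lit 342) (nat_lit 5) (nat_lit 331) (nat_lit 5) (nat_lit 459) (nat_lit 424) (nat_lit 257)))) (XT.nd (nat_lit 156) (nat_lit 1596) (nat_lit 0) (XT.nd (nat_lit 78) (nat_lit 0) (nat_lit 0) (XT.lf (nat_lit 0) (nat_lit 7012959101) (nat_lit 836) (nat_lit 5779042030) (nat_lit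 912) (nat_lit 1785171949) (nat_lit 319) (nat_lit 5) (nat_lit 330) (nat_lit 5) (nat_lit 331) (nat_lit 5) (nat_lit 460) (nat_lit 424) (nat_lit 256)) (XT.lf (nat_lit 0) (nat_lit 14589866900) (nat_lit 836) (nat_lit 60177119) (nat_lit 912) (nat_lit 88795124) (nat_lit 319) (nat_lit 5) (nat_lit 330) (nat_lit 5) (nat_lit 331) (nat_lit 5) (nat_lit 461) (nat_lit 424) (nat_lit 255))) (XT.nd (nat_lit 78) (nat_lit 760) (nat_lit 0) (XT.lf (nat_lit 0) (nat_lit 1697419883) (nat_lit 836) (nat_lit 7447357250) (nat_lit 76) (nat_lit 5757205081) (nat_lit 308) (nat_lit 5) (nat_lit 319) (nat_lit 5) (nat_lit 309) (nat_lit 5) (nat_lit 462) (nat_lit 424) (nat_lit 254)) (XT.lf (nat_lit 0) (nat_lit 135671629) (nat_lit 760) (nat_lit 3375818372) (nat_lit 836) (nat_lit 11557025528) (nat_lit 298) (nat_lit 5) (nat_lit 308) (nat_lit 5) (nat_lit 309) (nat_lit 5) (nat_lit 463) (nat_lit 424) (nat_lit 253))))) (XT.nd (nat_lit 312) (nat_lit 1444) (nat_lit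 0) (XT.nd (nat_lit 156) (nat_lit 760) (nat_lit 0) (XT.nd (nat_lit 78) (nat_lit 684) (nat_lit 0) (XT.lf (nat_lit 0) (nat_lit 5419584526) (nat_lit 836) (nat_lit 7291867640) (nat_lit 76) (nat_lit 2525777894) (nat_lit 298) (nat_lit 5) (nat_lit 309) (nat_lit 5) (nat_lit 299) (nat_lit 5) (nat_lit 464) (nat_lit 424) (nat_lit 252)) (XT.lf (nat_lit 0) (nat_lit 476823716) (nat_lit 684) (nat_lit 6905792414) (nat_lit 760) (nat_lit 8026372550) (nat_lit 289) (nat_lit 5) (nat_lit 298) (nat_lit 5) (nat_lit 299) (nat_lit 5) (nat_lit 465) (nat_lit 424) (nat_lit 251))) (XT.nd (nat_lit 78) (nat_lit 760) (nat_lit 0) (XT.lf (nat_lit 0) (nat_lit 8490789660) (nat_lit 684) (nat_lit 934485976) (nat_lit 760) (nat_lit 6158104690) (nat_lit 289) (nat_lit 5) (nat_lit 298) (nat_lit 5) (nat_lit 299) (nat_lit 5) (nat_lit 466) (nat_lit 424) (nat_lit 250)) (XT.lf (nat_lit 0) (nat_lit 872806642) (nat_lit 760) (nat_lit 10666726840) (nat_lit 836) (nat_lit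 4221116517) (nat_lit 279) (nat_lit 5) (nat_lit 289) (nat_lit 5) (nat_lit 290) (nat_lit 5) (nat_lit 467) (nat_lit 424) (nat_lit 249)))) (XT.nd (nat_lit 156) (nat_lit 760) (nat_lit 0) (XT.nd (nat_lit 78) (nat_lit 684) (nat_lit 0) (XT.lf (nat_lit 0) (nat_lit 9078504019) (nat_lit 760) (nat_lit 4663023001) (nat_lit 836) (nat_lit 2199034030) (nat_lit 279) (nat_lit 5) (nat_lit 289) (nat_lit 5) (nat_lit 290) (nat_lit 5) (nat_lit 468) (nat_lit 424) (nat_lit 248)) (XT.lf (nat_lit 0) (nat_lit 1323246867) (nat_lit 684) (nat_lit 14674255597) (nat_lit 760) (nat_lit 126373918) (nat_lit 270) (nat_lit 5) (nat_lit 279) (nat_lit 5) (nat_lit 280) (nat_lit 5) (nat_lit 469) (nat_lit 424) (nat_lit 247))) (XT.nd (nat_lit 78) (nat_lit 684) (nat_lit 0) (XT.lf (nat_lit 0) (nat_lit 2030814552) (nat_lit 760) (nat_lit 6597677298) (nat_lit 76) (nat_lit 7680729871) (nat_lit 269) (nat_lit 5) (nat_lit 279) (nat_lit 5) (nat_lit 270) (nat_lit 5)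 (nat_lit 470) (nat_lit 424) (nat_lit 246)) (XT.lf (nat_lit 0) (nat_lit 1783135698) (nat_lit 684) (nat_lit 2449967241) (nat_lit 760) (nat_lit 12265085970) (nat_lit 260) (nat_lit 5) (nat_lit 269) (nat_lit 5) (nat_lit 270) (nat_lit 5) (nat_lit 471) (nat_lit 424) (nat_lit 245))))))))
noncomputable def xc198 : XT := (XT.nd (nat_lit 2184) (nat_lit 3952) (nat_lit 0) (XT.nd (nat_lit 1092) (nat_lit 3496) (nat_lit 0) (XT.nd (nat_lit 546) (nat_lit 2356) (nat_lit 0) (XT.nd (nat_lit 234) (nat_lit 1368) (nat_lit 0) (XT.nd (nat_lit 78) (nat_lit 608) (nat_lit 0) (XT.lf (nat_lit 0) (nat_lit 6541177675) (nat_lit 760) (nat_lit 6303201062) (nat_lit 76) (nat_lit 3845326419) (nat_lit 260) (nat_lit 5) (nat_lit 270) (nat_lit 5) (nat_lit 261) (nat_lit 5) (nat_lit 472) (nat_lit 424) (nat_lit 244)) (XT.nd (nat_lit 78) (nat_lit 0) (nat_lit 0) (XT.lf (nat_lit 0) (nat_lit 2281918869) (nat_lit 608) (nat_lit 6636852304) (nat_lit 684) (nat_lit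 7965817847) (nat_lit 252) (nat_lit 5) (nat_lit 260) (nat_lit 5) (nat_lit 261) (nat_lit 5) (nat_lit 473) (nat_lit 424) (nat_lit 243)) (XT.lf (nat_lit 0) (nat_lit 11115567713) (nat_lit 608) (nat_lit 263057934) (nat_lit 684) (nat_lit 5704055082) (nat_lit 252) (nat_lit 5) (nat_lit 260) (nat_lit 5) (nat_lit 261) (nat_lit 5) (nat_lit 474) (nat_lit 424) (nat_lit 242)))) (XT.nd (nat_lit 156) (nat_lit 684) (nat_lit 0) (XT.nd (nat_lit 78) (nat_lit 0) (nat_lit 0) (XT.lf (nat_lit 0) (nat_lit 2829165013) (nat_lit 684) (nat_lit 11109937198) (nat_lit 760) (nat_lit 3344607826) (nat_lit 243) (nat_lit 5) (nat_lit 252) (nat_lit 5) (nat_lit 253) (nat_lit 5) (nat_lit 475) (nat_lit 424) (nat_lit 241)) (XT.lf (nat_lit 0) (nat_lit 11871953022) (nat_lit 684) (nat_lit 4713252558) (nat_lit 760) (nat_lit 902870187) (nat_lit 243) (nat_lit 5) (nat_lit 252) (nat_lit 5) (nat_lit 253) (nat_lit 5) (nat_lit 476) (nat_lit 424) (nat_lit 240))) (XT.nd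 (nat_lit 78) (nat_lit 0) (nat_lit 0) (XT.lf (nat_lit 0) (nat_lit 1593822845) (nat_lit 684) (nat_lit 14282782901) (nat_lit 76) (nat_lit 1819182043) (nat_lit 234) (nat_lit 5) (nat_lit 243) (nat_lit 5) (nat_lit 235) (nat_lit 5) (nat_lit 477) (nat_lit 424) (nat_lit 239)) (XT.lf (nat_lit 0) (nat_lit 4190338268) (nat_lit 684) (nat_lit 5254052640) (nat_lit 76) (nat_lit 8461908165) (nat_lit 234) (nat_lit 5) (nat_lit 243) (nat_lit 5) (nat_lit 235) (nat_lit 5) (nat_lit 478) (nat_lit 424) (nat_lit 238))))) (XT.nd (nat_lit 234) (nat_lit 1216) (nat_lit 0) (XT.nd (nat_lit 78) (nat_lit 532) (nat_lit 0) (XT.lf (nat_lit 0) (nat_lit 3999318735) (nat_lit 608) (nat_lit 2858388693) (nat_lit 684) (nat_lit 11262938549) (nat_lit 226) (nat_lit 5) (nat_lit 234) (nat_lit 5) (nat_lit 235) (nat_lit 5) (nat_lit 479) (nat_lit 424) (nat_lit 237)) (XT.nd (nat_lit 78) (nat_lit 532) (nat_lit 0) (XT.lf (nat_lit 0) (nat_lit 9632004583) (nat_lit 684)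 (nat_lit 4863352079) (nat_lit 76) (nat_lit 3842855332) (nat_lit 226) (nat_lit 5) (nat_lit 235) (nat_lit 5) (nat_lit 227) (nat_lit 5) (nat_lit 480) (nat_lit 424) (nat_lit 236)) (XT.lf (nat_lit 0) (nat_lit 4613055713) (nat_lit 532) (nat_lit 7890781638) (nat_lit 608) (nat_lit 6055454701) (nat_lit 219) (nat_lit 5) (nat_lit 226) (nat_lit 5) (nat_lit 227) (nat_lit 5) (nat_lit 481) (nat_lit 424) (nat_lit 235)))) (XT.nd (nat_lit 156) (nat_lit 608) (nat_lit 0) (XT.nd (nat_lit 78) (nat_lit 608) (nat_lit 0) (XT.lf (nat_lit 0) (nat_lit 14336672070) (nat_lit 532) (nat_lit 1122319703) (nat_lit 608) (nat_lit 3325287877) (nat_lit 219) (nat_lit 5) (nat_lit 226) (nat_lit 5) (nat_lit 227) (nat_lit 5) (nat_lit 482) (nat_lit 424) (nat_lit 234)) (XT.lf (nat_lit 0) (nat_lit 5264290055) (nat_lit 608) (nat_lit 13274048107) (nat_lit 684) (nat_lit 474130629) (nat_lit 211) (nat_lit 5) (nat_lit 219) (nat_lit 5) (nat_lit 220) (nat_lit 5) (nat_lit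 483) (nat_lit 424) (nat_lit 233))) (XT.nd (nat_lit 78) (nat_lit 532) (nat_lit 0) (XT.lf (nat_lit 0) (nat_lit 2433005173) (nat_lit 684) (nat_lit 4045589872) (nat_lit 76) (nat_lit 12765696462) (nat_lit 210) (nat_lit 5) (nat_lit 219) (nat_lit 5) (nat_lit 211) (nat_lit 5) (nat_lit 484) (nat_lit 424) (nat_lit 232)) (XT.lf (nat_lit 0) (nat_lit 5427097088) (nat_lit 608) (nat_lit 13565821388) (nat_lit 76) (nat_lit 487069645) (nat_lit 203) (nat_lit 5) (nat_lit 211) (nat_lit 5) (nat_lit 204) (nat_lit 5) (nat_lit 485) (nat_lit 424) (nat_lit 231)))))) (XT.nd (nat_lit 546) (nat_lit 1900) (nat_lit 0) (XT.nd (nat_lit 234) (nat_lit 1064) (nat_lit 0) (XT.nd (nat_lit 78) (nat_lit 532) (nat_lit 0) (XT.lf (nat_lit 0) (nat_lit 8544899080) (nat_lit 608) (nat_lit 3643133777) (nat_lit 76) (nat_lit 7531092540) (nat_lit 203) (nat_lit 5) (nat_lit 211) (nat_lit 5) (nat_lit 204) (nat_lit 5) (nat_lit 486) (nat_lit 424) (nat_lit 230)) (XT.nd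 (nat_lit 78) (nat_lit 0) (nat_lit 0) (XT.lf (nat_lit 0) (nat_lit 6555999335) (nat_lit 532) (nat_lit 5205345056) (nat_lit 608) (nat_lit 8200978517) (nat_lit 196) (nat_lit 5) (nat_lit 203) (nat_lit 5) (nat_lit 204) (nat_lit 5) (nat_lit 487) (nat_lit 424) (nat_lit 229)) (XT.lf (nat_lit 0) (nat_lit 15072955976) (nat_lit 608) (nat_lit 3222059841) (nat_lit 76) (nat_lit 1914754973) (nat_lit 196) (nat_lit 5) (nat_lit 204) (nat_lit 5) (nat_lit 197) (nat_lit 5) (nat_lit 488) (nat_lit 424) (nat_lit 228)))) (XT.nd (nat_lit 156) (nat_lit 532) (nat_lit 0) (XT.nd (nat_lit 78) (nat_lit 76) (nat_lit 0) (XT.lf (nat_lit 0) (nat_lit 7218187597) (nat_lit 456) (nat_lit 11307853573) (nat_lit 532) (nat_lit 1934624738) (nat_lit 190) (nat_lit 5) (nat_lit 196) (nat_lit 5) (nat_lit 197) (nat_lit 5) (nat_lit 489) (nat_lit 424) (nat_lit 227)) (XT.lf (nat_lit 0) (nat_lit 1329839062) (nat_lit 532) (nat_lit 2821948143) (nat_lit 76) (nat_lit 16564307912)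 (nat_lit 189) (nat_lit 5) (nat_lit 196) (nat_lit 5) (nat_lit 190) (nat_lit 5) (nat_lit 490) (nat_lit 424) (nat_lit 226))) (XT.nd (nat_lit 78) (nat_lit 0) (nat_lit 0) (XT.lf (nat_lit 0) (nat_lit 4699833718) (nat_lit 608) (nat_lit 13106436742) (nat_lit 76) (nat_lit 3168786696) (nat_lit 182) (nat_lit 5) (nat_lit 190) (nat_lit 5) (nat_lit 183) (nat_lit 5) (nat_lit 491) (nat_lit 424) (nat_lit 225)) (XT.lf (nat_lit 0) (nat_lit 8177888692) (nat_lit 608) (nat_lit 2463018461) (nat_lit 76) (nat_lit 10597480945) (nat_lit 182) (nat_lit 5) (nat_lit 190) (nat_lit 5) (nat_lit 183) (nat_lit 5) (nat_lit 492) (nat_lit 424) (nat_lit 224))))) (XT.nd (nat_lit 234) (nat_lit 988) (nat_lit 0) (XT.nd (nat_lit 78) (nat_lit 456) (nat_lit 0) (XT.lf (nat_lit 0) (nat_lit 8497031154) (nat_lit 456) (nat_lit 3277860580) (nat_lit 532) (nat_lit 9731108998) (nat_lit 176) (nat_lit 5) (nat_lit 182) (nat_lit 5) (nat_lit 183) (nat_lit 5) (nat_lit 493)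 (nat_lit 424) (nat_lit 223)) (XT.nd (nat_lit 78) (nat_lit 456) (nat_lit 0) (XT.lf (nat_lit 0) (nat_lit 15482222355) (nat_lit 532) (nat_lit 2104287072) (nat_lit 76) (nat_lit 4191691201) (nat_lit 176) (nat_lit 5) (nat_lit 183) (nat_lit 5) (nat_lit 177) (nat_lit 5) (nat_lit 494) (nat_lit 424) (nat_lit 222)) (XT.lf (nat_lit 0) (nat_lit 9108663421) (nat_lit 456) (nat_lit 10230265744) (nat_lit 532) (nat_lit 2715413469) (nat_lit 170) (nat_lit 5) (nat_lit 176) (nat_lit 5) (nat_lit 177) (nat_lit 5) (nat_lit 495) (nat_lit 424) (nat_lit 221)))) (XT.nd (nat_lit 156) (nat_lit 456) (nat_lit 0) (XT.nd (nat_lit 78) (nat_lit 456) (nat_lit 0) (XT.lf (nat_lit 0) (nat_lit 933095463) (nat_lit 532) (nat_lit 1775110406) (nat_lit 76) (nat_lit 19627510197) (nat_lit 169) (nat_lit 5) (nat_lit 176) (nat_lit 5) (nat_lit 170) (nat_lit 5) (nat_lit 496) (nat_lit 424) (nat_lit 220)) (XT.lf (nat_lit 0) (nat_lit 4708633583) (nat_lit 532) (nat_lit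 12933042199) (nat_lit 76) (nat_lit 4978876388) (nat_lit 163) (nat_lit 5) (nat_lit 170) (nat_lit 5) (nat_lit 164) (nat_lit 5) (nat_lit 497) (nat_lit 424) (nat_lit 219))) (XT.nd (nat_lit 78) (nat_lit 456) (nat_lit 0) (XT.lf (nat_lit 0) (nat_lit 8584168988) (nat_lit 532) (nat_lit 1532922713) (nat_lit 76) (nat_lit 12793506062) (nat_lit 163) (nat_lit 5) (nat_lit 170) (nat_lit 5) (nat_lit 164) (nat_lit 5) (nat_lit 498) (nat_lit 424) (nat_lit 218)) (XT.lf (nat_lit 0) (nat_lit 10221901655) (nat_lit 456) (nat_lit 2376348040) (nat_lit 532) (nat_lit 10606976332) (nat_lit 157) (nat_lit 5) (nat_lit 163) (nat_lit 5) (nat_lit 164) (nat_lit 5) (nat_lit 499) (nat_lit 424) (nat_lit 217))))))) (XT.nd (nat_lit 1092) (nat_lit 1140) (nat_lit 0) (XT.nd (nat_lit 546) (nat_lit 1520) (nat_lit 0) (XT.nd (nat_lit 234) (nat_lit 836) (nat_lit 0) (XT.nd (nat_lit 78) (nat_lit 456) (nat_lit 0) (XT.lf (nat_lit 0) (nat_lit 16733512343) (nat_lit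 532) (nat_lit 1316247804) (nat_lit 76) (nat_lit 5455171104) (nat_lit 157) (nat_lit 5) (nat_lit 164) (nat_lit 5) (nat_lit 158) (nat_lit 5) (nat_lit 500) (nat_lit 424) (nat_lit 216)) (XT.nd (nat_lit 78) (nat_lit 76) (nat_lit 0) (XT.lf (nat_lit 0) (nat_lit 10701524659) (nat_lit 380) (nat_lit 10329989196) (nat_lit 456) (nat_lit 2777518406) (nat_lit 152) (nat_lit 5) (nat_lit 157) (nat_lit 5) (nat_lit 158) (nat_lit 5) (nat_lit 501) (nat_lit 424) (nat_lit 215)) (XT.lf (nat_lit 0) (nat_lit 1282984029) (nat_lit 456) (nat_lit 1157302466) (nat_lit 76) (nat_lit 21678688244) (nat_lit 151) (nat_lit 5) (nat_lit 157) (nat_lit 5) (nat_lit 152) (nat_lit 5) (nat_lit 502) (nat_lit 424) (nat_lit 214)))) (XT.nd (nat_lit 156) (nat_lit 380) (nat_lit 0) (XT.nd (nat_lit 78) (nat_lit 0) (nat_lit 0) (XT.lf (nat_lit 0) (nat_lit 5491878955) (nat_lit 532) (nat_lit 13317756600) (nat_lit 76) (nat_lit 5623028074) (nat_lit 145) (nat_lit 5) (nat_lit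 152) (nat_lit 5) (nat_lit 146) (nat_lit 5) (nat_lit 503) (nat_lit 424) (nat_lit 213)) (XT.lf (nat_lit 0) (nat_lit 9803904604) (nat_lit 532) (nat_lit 1127617897) (nat_lit 76) (nat_lit 13820726914) (nat_lit 145) (nat_lit 5) (nat_lit 152) (nat_lit 5) (nat_lit 146) (nat_lit 5) (nat_lit 504) (nat_lit 424) (nat_lit 212))) (XT.nd (nat_lit 78) (nat_lit 0) (nat_lit 0) (XT.lf (nat_lit 0) (nat_lit 11449443017) (nat_lit 380) (nat_lit 2822138113) (nat_lit 456) (nat_lit 10805259713) (nat_lit 140) (nat_lit 5) (nat_lit 145) (nat_lit 5) (nat_lit 146) (nat_lit 5) (nat_lit 505) (nat_lit 424) (nat_lit 211)) (XT.lf (nat_lit 0) (nat_lit 18866719959) (nat_lit 456) (nat_lit 1156955487) (nat_lit 76) (nat_lit 5383488568) (nat_lit 140) (nat_lit 5) (nat_lit 146) (nat_lit 5) (nat_lit 141) (nat_lit 5) (nat_lit 506) (nat_lit 424) (nat_lit 210))))) (XT.nd (nat_lit 234) (nat_lit 684) (nat_lit 0) (XT.nd (nat_lit 78) (nat_lit 456) (nat_lit 0) (XT.lf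 (nat_lit 0) (nat_lit 11690587474) (nat_lit 380) (nat_lit 11952973079) (nat_lit 456) (nat_lit 2098739166) (nat_lit 135) (nat_lit 5) (nat_lit 140) (nat_lit 5) (nat_lit 141) (nat_lit 5) (nat_lit 507) (nat_lit 424) (nat_lit 209)) (XT.nd (nat_lit 78) (nat_lit 380) (nat_lit 0) (XT.lf (nat_lit 0) (nat_lit 2402943618) (nat_lit 456) (nat_lit 1296021522) (nat_lit 76) (nat_lit 22384798445) (nat_lit 134) (nat_lit 5) (nat_lit 140) (nat_lit 5) (nat_lit 135) (nat_lit 5) (nat_lit 508) (nat_lit 424) (nat_lit 208)) (XT.lf (nat_lit 0) (nat_lit 7070068392) (nat_lit 456) (nat_lit 14612103523) (nat_lit 76) (nat_lit 4747539082) (nat_lit 129) (nat_lit 5) (nat_lit 135) (nat_lit 5) (nat_lit 130) (nat_lit 5) (nat_lit 509) (nat_lit 424) (nat_lit 207)))) (XT.nd (nat_lit 156) (nat_lit 304) (nat_lit 0) (XT.nd (nat_lit 78) (nat_lit 380) (nat_lit 0) (XT.lf (nat_lit 0) (nat_lit 11859136377) (nat_lit 456) (nat_lit 1602742292) (nat_lit 76) (nat_lit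 13320128569) (nat_lit 129) (nat_lit 5) (nat_lit 135) (nat_lit 5) (nat_lit 130) (nat_lit 5) (nat_lit 510) (nat_lit 424) (nat_lit 206)) (XT.lf (nat_lit 0) (nat_lit 11815035233) (nat_lit 380) (nat_lit 5001102390) (nat_lit 456) (nat_lit 10323770598) (nat_lit 124) (nat_lit 5) (nat_lit 129) (nat_lit 5) (nat_lit 130) (nat_lit 5) (nat_lit 511) (nat_lit 424) (nat_lit 205))) (XT.nd (nat_lit 78) (nat_lit 304) (nat_lit 0) (XT.lf (nat_lit 0) (nat_lit 21902139298) (nat_lit 456) (nat_lit 2012251577) (nat_lit 76) (nat_lit 3589980961) (nat_lit 124) (nat_lit 5) (nat_lit 130) (nat_lit 5) (nat_lit 125) (nat_lit 5) (nat_lit 512) (nat_lit 424) (nat_lit 204)) (XT.lf (nat_lit 0) (nat_lit 11680060058) (nat_lit 304) (nat_lit 15514317071) (nat_lit 380) (nat_lit 679659057) (nat_lit 120) (nat_lit 5) (nat_lit 124) (nat_lit 5) (nat_lit 125) (nat_lit 5) (nat_lit 513) (nat_lit 424) (nat_lit 203)))))) (XT.nd (nat_lit 52416) (nat_lit 0) (nat_lit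 23864) (XT.nd (nat_lit 234) (nat_lit 684) (nat_lit 0) (XT.nd (nat_lit 78) (nat_lit 380) (nat_lit 0) (XT.lf (nat_lit 0) (nat_lit 4293595783) (nat_lit 380) (nat_lit 2612251007) (nat_lit 76) (nat_lit 21344501653) (nat_lit 119) (nat_lit 5) (nat_lit 124) (nat_lit 5) (nat_lit 120) (nat_lit 5) (nat_lit 514) (nat_lit 424) (nat_lit 202)) (XT.nd (nat_lit 78) (nat_lit 0) (nat_lit 0) (XT.lf (nat_lit 0) (nat_lit 9439444898) (nat_lit 456) (nat_lit 17266050527) (nat_lit 76) (nat_lit 1926958754) (nat_lit 114) (nat_lit 5) (nat_lit 120) (nat_lit 5) (nat_lit 115) (nat_lit 5) (nat_lit 515) (nat_lit 424) (nat_lit 201)) (XT.lf (nat_lit 0) (nat_lit 14747281414) (nat_lit 456) (nat_lit 3414206036) (nat_lit 76) (nat_lit 10859534822) (nat_lit 114) (nat_lit 5) (nat_lit 120) (nat_lit 5) (nat_lit 115) (nat_lit 5) (nat_lit 516) (nat_lit 424) (nat_lit 200)))) (XT.nd (nat_lit 156) (nat_lit 380) (nat_lit 0) (XT.nd (nat_lit 78) (nat_lit 0) (nat_lit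 0) (XT.lf (nat_lit 0) (nat_lit 10850565225) (nat_lit 304) (nat_lit 9376933662) (nat_lit 380) (nat_lit 9188539970) (nat_lit 110) (nat_lit 5) (nat_lit 114) (nat_lit 5) (nat_lit 115) (nat_lit 5) (nat_lit 517) (nat_lit 424) (nat_lit 199)) (XT.lf (nat_lit 0) (nat_lit 25440537358) (nat_lit 304) (nat_lit 395511080) (nat_lit 380) (nat_lit 3982534365) (nat_lit 110) (nat_lit 5) (nat_lit 114) (nat_lit 5) (nat_lit 115) (nat_lit 5) (nat_lit 518) (nat_lit 424) (nat_lit 198))) (XT.nd (nat_lit 78) (nat_lit 0) (nat_lit 0) (XT.lf (nat_lit 0) (nat_lit 1429747429) (nat_lit 380) (nat_lit 20073017714) (nat_lit 76) (nat_lit 8723850263) (nat_lit 105) (nat_lit 5) (nat_lit 110) (nat_lit 5) (nat_lit 106) (nat_lit 5) (nat_lit 519) (nat_lit 424) (nat_lit 197)) (XT.lf (nat_lit 0) (nat_lit 6925087529) (nat_lit 380) (nat_lit 5642524169) (nat_lit 76) (nat_lit 18074109189) (nat_lit 105) (nat_lit 5) (nat_lit 110) (nat_lit 5) (nat_lit 106) (nat_lit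 5) (nat_lit 520) (nat_lit 424) (nat_lit 196))))) (XT.nd (nat_lit 312) (nat_lit 0) (nat_lit 0) (XT.nd (nat_lit 156) (nat_lit 1520) (nat_lit 0) (XT.nd (nat_lit 78) (nat_lit 0) (nat_lit 0) (XT.lf (nat_lit 0) (nat_lit 4333159486) (nat_lit 1596) (nat_lit 433460326) (nat_lit 1596) (nat_lit 433460326) (nat_lit 439) (nat_lit 3) (nat_lit 460) (nat_lit 3) (nat_lit 460) (nat_lit 5) (nat_lit 425) (nat_lit 425) (nat_lit 290)) (XT.lf (nat_lit 76) (nat_lit 3982180140) (nat_lit 0) (nat_lit 5415792497) (nat_lit 1596) (nat_lit 1092834120) (nat_lit 440) (nat_lit 5) (nat_lit 439) (nat_lit 3) (nat_lit 460) (nat_lit 5) (nat_lit 426) (nat_lit 425) (nat_lit 289))) (XT.nd (nat_lit 78) (nat_lit 1520) (nat_lit 0) (XT.lf (nat_lit 76) (nat_lit 8931615691) (nat_lit 0) (nat_lit 1202166502) (nat_lit 1596) (nat_lit 449705461) (nat_lit 440) (nat_lit 5) (nat_lit 439) (nat_lit 3) (nat_lit 460) (nat_lit 5) (nat_lit 427) (nat_lit 425) (nat_lit 288))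 (XT.lf (nat_lit 0) (nat_lit 229448522) (nat_lit 1596) (nat_lit 7362225900) (nat_lit 1672) (nat_lit 3085815074) (nat_lit 419) (nat_lit 5) (nat_lit 440) (nat_lit 5) (nat_lit 441) (nat_lit 5) (nat_lit 428) (nat_lit 425) (nat_lit 287)))) (XT.nd (nat_lit 156) (nat_lit 0) (nat_lit 76) (XT.nd (nat_lit 78) (nat_lit 0) (nat_lit 76) (XT.lf (nat_lit 0) (nat_lit 919506048) (nat_lit 1596) (nat_lit 2388808926) (nat_lit 1672) (nat_lit 7464941366) (nat_lit 419) (nat_lit 5) (nat_lit 440) (nat_lit 5) (nat_lit 441) (nat_lit 5) (nat_lit 429) (nat_lit 425) (nat_lit 286)) (XT.lf (nat_lit 0) (nat_lit 1632540642) (nat_lit 1596) (nat_lit 8166930592) (nat_lit 1672) (nat_lit 1071294800) (nat_lit 420) (nat_lit 5) (nat_lit 441) (nat_lit 5) (nat_lit 442) (nat_lit 5) (nat_lit 430) (nat_lit 425) (nat_lit 285))) (XT.nd (nat_lit 78) (nat_lit 0) (nat_lit 0) (XT.lf (nat_lit 0) (nat_lit 2382699010) (nat_lit 1596) (nat_lit 3070116830) (nat_lit 1672)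 (nat_lit 5516963638) (nat_lit 420) (nat_lit 5) (nat_lit 441) (nat_lit 5) (nat_lit 442) (nat_lit 5) (nat_lit 431) (nat_lit 425) (nat_lit 284)) (XT.lf (nat_lit 76) (nat_lit 2148070626) (nat_lit 0) (nat_lit 998851703) (nat_lit 1672) (nat_lit 7923880230) (nat_lit 421) (nat_lit 5) (nat_lit 420) (nat_lit 5) (nat_lit 442) (nat_lit 5) (nat_lit 432) (nat_lit 425) (nat_lit 283))))))))
noncomputable def xc199 : XT := (XT.nd (nat_lit 2184) (nat_lit 9348) (nat_lit 0) (XT.nd (nat_lit 1092) (nat_lit 6308) (nat_lit 0) (XT.nd (nat_lit 546) (nat_lit 1444) (nat_lit 0) (XT.nd (nat_lit 234) (nat_lit 0) (nat_lit 76) (XT.nd (nat_lit 78) (nat_lit 0) (nat_lit 0) (XT.lf (nat_lit 0) (nat_lit 3955569277) (nat_lit 1596) (nat_lit 3693363276) (nat_lit 1672) (nat_lit 3524341165) (nat_lit 421) (nat_lit 5) (nat_lit 442) (nat_lit 5) (nat_lit 443) (nat_lit 5) (nat_lit 433) (nat_lit 425) (nat_lit 282)) (XT.nd (nat_lit 78) (nat_lit 0) (nat_lit 76)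 (XT.lf (nat_lit 76) (nat_lit 1646732282) (nat_lit 0) (nat_lit 3136639333) (nat_lit 1672) (nat_lit 6494373227) (nat_lit 422) (nat_lit 5) (nat_lit 421) (nat_lit 5) (nat_lit 443) (nat_lit 5) (nat_lit 434) (nat_lit 425) (nat_lit 281)) (XT.lf (nat_lit 0) (nat_lit 5648130348) (nat_lit 1596) (nat_lit 4258908254) (nat_lit 1672) (nat_lit 1476868774) (nat_lit 422) (nat_lit 5) (nat_lit 443) (nat_lit 5) (nat_lit 444) (nat_lit 5) (nat_lit 435) (nat_lit 425) (nat_lit 280)))) (XT.nd (nat_lit 156) (nat_lit 0) (nat_lit 76) (XT.nd (nat_lit 78) (nat_lit 0) (nat_lit 0) (XT.lf (nat_lit 76) (nat_lit 1206760128) (nat_lit 0) (nat_lit 5338241665) (nat_lit 1672) (nat_lit 4946904814) (nat_lit 423) (nat_lit 5) (nat_lit 422) (nat_lit 5) (nat_lit 444) (nat_lit 5) (nat_lit 436) (nat_lit 425) (nat_lit 279)) (XT.lf (nat_lit 76) (nat_lit 6830598829) (nat_lit 0) (nat_lit 644214140) (nat_lit 1672) (nat_lit 4126962414) (nat_lit 423) (nat_lit 5) (nat_lit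 422) (nat_lit 5) (nat_lit 444) (nat_lit 5) (nat_lit 437) (nat_lit 425) (nat_lit 278))) (XT.nd (nat_lit 78) (nat_lit 0) (nat_lit 0) (XT.lf (nat_lit 76) (nat_lit 828023582) (nat_lit 0) (nat_lit 7614195417) (nat_lit 1672) (nat_lit 3271251978) (nat_lit 424) (nat_lit 5) (nat_lit 423) (nat_lit 5) (nat_lit 445) (nat_lit 5) (nat_lit 438) (nat_lit 425) (nat_lit 277)) (XT.lf (nat_lit 76) (nat_lit 6590613248) (nat_lit 0) (nat_lit 2861536532) (nat_lit 1672) (nat_lit 2374796404) (nat_lit 424) (nat_lit 5) (nat_lit 423) (nat_lit 5) (nat_lit 445) (nat_lit 5) (nat_lit 439) (nat_lit 425) (nat_lit 276))))) (XT.nd (nat_lit 234) (nat_lit 0) (nat_lit 76) (XT.nd (nat_lit 78) (nat_lit 1672) (nat_lit 0) (XT.lf (nat_lit 76) (nat_lit 510501156) (nat_lit 0) (nat_lit 9975192127) (nat_lit 1672) (nat_lit 1456938381) (nat_lit 425) (nat_lit 5) (nat_lit 424) (nat_lit 5) (nat_lit 446) (nat_lit 5) (nat_lit 440) (nat_lit 425) (nat_lit 275)) (XT.nd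 (nat_lit 78) (nat_lit 1672) (nat_lit 0) (XT.lf (nat_lit 76) (nat_lit 6415046604) (nat_lit 0) (nat_lit 5166221974) (nat_lit 1672) (nat_lit 478543930) (nat_lit 425) (nat_lit 5) (nat_lit 424) (nat_lit 5) (nat_lit 446) (nat_lit 5) (nat_lit 441) (nat_lit 425) (nat_lit 274)) (XT.lf (nat_lit 76) (nat_lit 249242241) (nat_lit 0) (nat_lit 252535334) (nat_lit 1748) (nat_lit 11677717047) (nat_lit 403) (nat_lit 5) (nat_lit 402) (nat_lit 5) (nat_lit 425) (nat_lit 5) (nat_lit 442) (nat_lit 425) (nat_lit 273)))) (XT.nd (nat_lit 156) (nat_lit 0) (nat_lit 76) (XT.nd (nat_lit 78) (nat_lit 0) (nat_lit 0) (XT.lf (nat_lit 0) (nat_lit 1552096095) (nat_lit 1672) (nat_lit 6006703437) (nat_lit 1748) (nat_lit 4741579979) (nat_lit 403) (nat_lit 5) (nat_lit 425) (nat_lit 5) (nat_lit 426) (nat_lit 5) (nat_lit 443) (nat_lit 425) (nat_lit 272)) (XT.lf (nat_lit 76) (nat_lit 24935692) (nat_lit 0) (nat_lit 2588320341) (nat_lit 1748) (nat_lit 9810637562)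 (nat_lit 404) (nat_lit 5) (nat_lit 403) (nat_lit 5) (nat_lit 426) (nat_lit 5) (nat_lit 444) (nat_lit 425) (nat_lit 271))) (XT.nd (nat_lit 78) (nat_lit 0) (nat_lit 0) (XT.lf (nat_lit 0) (nat_lit 3740522455) (nat_lit 1672) (nat_lit 6316059606) (nat_lit 1748) (nat_lit 2492406272) (nat_lit 404) (nat_lit 5) (nat_lit 426) (nat_lit 5) (nat_lit 427) (nat_lit 5) (nat_lit 445) (nat_lit 425) (nat_lit 270)) (XT.lf (nat_lit 0) (nat_lit 4895903059) (nat_lit 1672) (nat_lit 137702310) (nat_lit 1748) (nat_lit 7642876100) (nat_lit 404) (nat_lit 5) (nat_lit 426) (nat_lit 5) (nat_lit 427) (nat_lit 5) (nat_lit 446) (nat_lit 425) (nat_lit 269)))))) (XT.nd (nat_lit 546) (nat_lit 3420) (nat_lit 0) (XT.nd (nat_lit 234) (nat_lit 3116) (nat_lit 0) (XT.nd (nat_lit 78) (nat_lit 0) (nat_lit 0) (XT.lf (nat_lit 0) (nat_lit 6104408944) (nat_lit 1672) (nat_lit 6569673400) (nat_lit 1748) (nat_lit 131849493) (nat_lit 405) (nat_lit 5) (nat_lit 427)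 (nat_lit 5) (nat_lit 428) (nat_lit 5) (nat_lit 447) (nat_lit 425) (nat_lit 268)) (XT.nd (nat_lit 78) (nat_lit 0) (nat_lit 0) (XT.lf (nat_lit 0) (nat_lit 7360185321) (nat_lit 1672) (nat_lit 240797235) (nat_lit 1748) (nat_lit 5336534225) (nat_lit 405) (nat_lit 5) (nat_lit 427) (nat_lit 5) (nat_lit 428) (nat_lit 5) (nat_lit 448) (nat_lit 425) (nat_lit 267)) (XT.lf (nat_lit 76) (nat_lit 6288237386) (nat_lit 0) (nat_lit 2382721230) (nat_lit 1748) (nat_lit 4400184603) (nat_lit 406) (nat_lit 5) (nat_lit 405) (nat_lit 5) (nat_lit 428) (nat_lit 5) (nat_lit 449) (nat_lit 425) (nat_lit 266)))) (XT.nd (nat_lit 156) (nat_lit 1520) (nat_lit 0) (XT.nd (nat_lit 78) (nat_lit 1672) (nat_lit 0) (XT.lf (nat_lit 0) (nat_lit 10017885745) (nat_lit 1672) (nat_lit 284459317) (nat_lit 76) (nat_lit 2904905638) (nat_lit 406) (nat_lit 5) (nat_lit 428) (nat_lit 5) (nat_lit 407) (nat_lit 5) (nat_lit 450) (nat_lit 425) (nat_lit 265)) (XT.lf (nat_lit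 0) (nat_lit 6403266611) (nat_lit 1672) (nat_lit 5035273939) (nat_lit 1748) (nat_lit 1906611135) (nat_lit 384) (nat_lit 5) (nat_lit 406) (nat_lit 5) (nat_lit 407) (nat_lit 5) (nat_lit 451) (nat_lit 425) (nat_lit 264))) (XT.nd (nat_lit 78) (nat_lit 1520) (nat_lit 0) (XT.lf (nat_lit 0) (nat_lit 12881314253) (nat_lit 1748) (nat_lit 268428093) (nat_lit 76) (nat_lit 336201222) (nat_lit 384) (nat_lit 5) (nat_lit 407) (nat_lit 5) (nat_lit 385) (nat_lit 5) (nat_lit 452) (nat_lit 425) (nat_lit 263)) (XT.lf (nat_lit 0) (nat_lit 780218463) (nat_lit 1520) (nat_lit 7050769006) (nat_lit 76) (nat_lit 5797150338) (nat_lit 364) (nat_lit 5) (nat_lit 384) (nat_lit 5) (nat_lit 365) (nat_lit 5) (nat_lit 453) (nat_lit 425) (nat_lit 262))))) (XT.nd (nat_lit 234) (nat_lit 2584) (nat_lit 0) (XT.nd (nat_lit 78) (nat_lit 836) (nat_lit 0) (XT.lf (nat_lit 0) (nat_lit 2176356872) (nat_lit 1520) (nat_lit 222397970) (nat_lit 76) (nat_lit 11374513956)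 (nat_lit 364) (nat_lit 5) (nat_lit 384) (nat_lit 5) (nat_lit 365) (nat_lit 5) (nat_lit 454) (nat_lit 425) (nat_lit 261)) (XT.nd (nat_lit 78) (nat_lit 0) (nat_lit 0) (XT.lf (nat_lit 0) (nat_lit 3655488149) (nat_lit 912) (nat_lit 7118081026) (nat_lit 76) (nat_lit 3146638295) (nat_lit 353) (nat_lit 5) (nat_lit 365) (nat_lit 5) (nat_lit 354) (nat_lit 5) (nat_lit 455) (nat_lit 425) (nat_lit 260)) (XT.lf (nat_lit 0) (nat_lit 5171802657) (nat_lit 912) (nat_lit 124732561) (nat_lit 76) (nat_lit 8773404024) (nat_lit 353) (nat_lit 5) (nat_lit 365) (nat_lit 5) (nat_lit 354) (nat_lit 5) (nat_lit 456) (nat_lit 425) (nat_lit 259)))) (XT.nd (nat_lit 156) (nat_lit 836) (nat_lit 0) (XT.nd (nat_lit 78) (nat_lit 836) (nat_lit 0) (XT.lf (nat_lit 0) (nat_lit 6757092187) (nat_lit 988) (nat_lit 7131393371) (nat_lit 76) (nat_lit 333413329) (nat_lit 341) (nat_lit 5) (nat_lit 354) (nat_lit 5) (nat_lit 342) (nat_lit 5) (nat_lit 457) (nat_lit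 425) (nat_lit 258)) (XT.lf (nat_lit 0) (nat_lit 31281253) (nat_lit 836) (nat_lit 8369469300) (nat_lit 912) (nat_lit 5975620004) (nat_lit 330) (nat_lit 5) (nat_lit 341) (nat_lit 5) (nat_lit 342) (nat_lit 5) (nat_lit 458) (nat_lit 425) (nat_lit 257))) (XT.nd (nat_lit 78) (nat_lit 836) (nat_lit 0) (XT.lf (nat_lit 0) (nat_lit 7425030645) (nat_lit 836) (nat_lit 2690775866) (nat_lit 912) (nat_lit 4417360630) (nat_lit 330) (nat_lit 5) (nat_lit 341) (nat_lit 5) (nat_lit 342) (nat_lit 5) (nat_lit 459) (nat_lit 425) (nat_lit 256)) (XT.lf (nat_lit 0) (nat_lit 247803339) (nat_lit 836) (nat_lit 11629961159) (nat_lit 912) (nat_lit 2815088997) (nat_lit 319) (nat_lit 5) (nat_lit 330) (nat_lit 5) (nat_lit 331) (nat_lit 5) (nat_lit 460) (nat_lit 425) (nat_lit 255))))))) (XT.nd (nat_lit 1092) (nat_lit 4256) (nat_lit 0) (XT.nd (nat_lit 546) (nat_lit 2812) (nat_lit 0) (XT.nd (nat_lit 234) (nat_lit 1444) (nat_lit 0) (XT.nd (nat_lit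 78) (nat_lit 836) (nat_lit 0) (XT.lf (nat_lit 0) (nat_lit 7820351362) (nat_lit 836) (nat_lit 5910989292) (nat_lit 912) (nat_lit 1123271082) (nat_lit 319) (nat_lit 5) (nat_lit 330) (nat_lit 5) (nat_lit 331) (nat_lit 5) (nat_lit 461) (nat_lit 425) (nat_lit 254)) (XT.nd (nat_lit 78) (nat_lit 0) (nat_lit 0) (XT.lf (nat_lit 0) (nat_lit 518881358) (nat_lit 760) (nat_lit 70060371) (nat_lit 836) (nat_lit 14430701530) (nat_lit 308) (nat_lit 5) (nat_lit 318) (nat_lit 5) (nat_lit 319) (nat_lit 5) (nat_lit 462) (nat_lit 425) (nat_lit 253)) (XT.lf (nat_lit 0) (nat_lit 2397324017) (nat_lit 836) (nat_lit 6923454636) (nat_lit 76) (nat_lit 5865514355) (nat_lit 308) (nat_lit 5) (nat_lit 319) (nat_lit 5) (nat_lit 309) (nat_lit 5) (nat_lit 463) (nat_lit 425) (nat_lit 252)))) (XT.nd (nat_lit 156) (nat_lit 684) (nat_lit 0) (XT.nd (nat_lit 78) (nat_lit 0) (nat_lit 0) (XT.lf (nat_lit 0) (nat_lit 806808178) (nat_lit 760) (nat_lit 3432149250)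 (nat_lit 836) (nat_lit 11117381958) (nat_lit 298) (nat_lit 5) (nat_lit 308) (nat_lit 5) (nat_lit 309) (nat_lit 5) (nat_lit 464) (nat_lit 425) (nat_lit 251)) (XT.lf (nat_lit 0) (nat_lit 6172398031) (nat_lit 836) (nat_lit 6769178575) (nat_lit 76) (nat_lit 2587115795) (nat_lit 298) (nat_lit 5) (nat_lit 309) (nat_lit 5) (nat_lit 299) (nat_lit 5) (nat_lit 465) (nat_lit 425) (nat_lit 250))) (XT.nd (nat_lit 78) (nat_lit 0) (nat_lit 0) (XT.lf (nat_lit 0) (nat_lit 1150488408) (nat_lit 684) (nat_lit 7015878098) (nat_lit 760) (nat_lit 7537693884) (nat_lit 289) (nat_lit 5) (nat_lit 298) (nat_lit 5) (nat_lit 299) (nat_lit 5) (nat_lit 466) (nat_lit 425) (nat_lit 249)) (XT.lf (nat_lit 0) (nat_lit 9311711549) (nat_lit 684) (nat_lit 925695141) (nat_lit 760) (nat_lit 5644790199) (nat_lit 289) (nat_lit 5) (nat_lit 298) (nat_lit 5) (nat_lit 299) (nat_lit 5) (nat_lit 467) (nat_lit 425) (nat_lit 248))))) (XT.nd (nat_lit 234) (nat_lit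 1292) (nat_lit 0) (XT.nd (nat_lit 78) (nat_lit 760) (nat_lit 0) (XT.lf (nat_lit 0) (nat_lit 1549674526) (nat_lit 760) (nat_lit 10836503477) (nat_lit 836) (nat_lit 3676996808) (nat_lit 279) (nat_lit 5) (nat_lit 289) (nat_lit 5) (nat_lit 290) (nat_lit 5) (nat_lit 468) (nat_lit 425) (nat_lit 247)) (XT.nd (nat_lit 78) (nat_lit 760) (nat_lit 0) (XT.lf (nat_lit 0) (nat_lit 9906556210) (nat_lit 760) (nat_lit 4713579637) (nat_lit 836) (nat_lit 1626797026) (nat_lit 279) (nat_lit 5) (nat_lit 289) (nat_lit 5) (nat_lit 290) (nat_lit 5) (nat_lit 469) (nat_lit 425) (nat_lit 246)) (XT.lf (nat_lit 0) (nat_lit 473550795) (nat_lit 760) (nat_lit 14433160620) (nat_lit 76) (nat_lit 1527294295) (nat_lit 269) (nat_lit 5) (nat_lit 279) (nat_lit 5) (nat_lit 270) (nat_lit 5) (nat_lit 470) (nat_lit 425) (nat_lit 245)))) (XT.nd (nat_lit 156) (nat_lit 608) (nat_lit 0) (XT.nd (nat_lit 78) (nat_lit 684) (nat_lit 0) (XT.lf (nat_lit 0) (nat_lit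 2660412831) (nat_lit 760) (nat_lit 6079979302) (nat_lit 76) (nat_lit 7882891534) (nat_lit 269) (nat_lit 5) (nat_lit 279) (nat_lit 5) (nat_lit 270) (nat_lit 5) (nat_lit 471) (nat_lit 425) (nat_lit 244)) (XT.lf (nat_lit 0) (nat_lit 2464175931) (nat_lit 684) (nat_lit 2435212607) (nat_lit 760) (nat_lit 11916795553) (nat_lit 260) (nat_lit 5) (nat_lit 269) (nat_lit 5) (nat_lit 270) (nat_lit 5) (nat_lit 472) (nat_lit 425) (nat_lit 243))) (XT.nd (nat_lit 78) (nat_lit 608) (nat_lit 0) (XT.lf (nat_lit 0) (nat_lit 7242626203) (nat_lit 760) (nat_lit 5785213924) (nat_lit 76) (nat_lit 3983917098) (nat_lit 260) (nat_lit 5) (nat_lit 270) (nat_lit 5) (nat_lit 261) (nat_lit 5) (nat_lit 473) (nat_lit 425) (nat_lit 242)) (XT.lf (nat_lit 0) (nat_lit 2967371227) (nat_lit 608) (nat_lit 6693365715) (nat_lit 684) (nat_lit 7549948977) (nat_lit 252) (nat_lit 5) (nat_lit 260) (nat_lit 5) (nat_lit 261) (nat_lit 5) (nat_lit 474) (nat_lit 425)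 (nat_lit 241)))))) (XT.nd (nat_lit 546) (nat_lit 2280) (nat_lit 0) (XT.nd (nat_lit 234) (nat_lit 1292) (nat_lit 0) (XT.nd (nat_lit 78) (nat_lit 684) (nat_lit 0) (XT.lf (nat_lit 0) (nat_lit 11965147676) (nat_lit 608) (nat_lit 193590038) (nat_lit 684) (nat_lit 5254229099) (nat_lit 252) (nat_lit 5) (nat_lit 260) (nat_lit 5) (nat_lit 261) (nat_lit 5) (nat_lit 475) (nat_lit 425) (nat_lit 240)) (XT.nd (nat_lit 78) (nat_lit 0) (nat_lit 0) (XT.lf (nat_lit 0) (nat_lit 3519700900) (nat_lit 684) (nat_lit 11244480519) (nat_lit 760) (nat_lit 2853966348) (nat_lit 243) (nat_lit 5) (nat_lit 252) (nat_lit 5) (nat_lit 253) (nat_lit 5) (nat_lit 476) (nat_lit 425) (nat_lit 239)) (XT.lf (nat_lit 0) (nat_lit 12730914226) (nat_lit 684) (nat_lit 4721580919) (nat_lit 760) (nat_lit 374325988) (nat_lit 243) (nat_lit 5) (nat_lit 252) (nat_lit 5) (nat_lit 253) (nat_lit 5) (nat_lit 477) (nat_lit 425) (nat_lit 238)))) (XT.nd (nat_lit 156) (nat_lit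 608) (nat_lit 0) (XT.nd (nat_lit 78) (nat_lit 0) (nat_lit 0) (XT.lf (nat_lit 0) (nat_lit 2159208889) (nat_lit 684) (nat_lit 13933233311) (nat_lit 76) (nat_lit 1946298536) (nat_lit 234) (nat_lit 5) (nat_lit 243) (nat_lit 5) (nat_lit 235) (nat_lit 5) (nat_lit 478) (nat_lit 425) (nat_lit 237)) (XT.lf (nat_lit 0) (nat_lit 4797193648) (nat_lit 684) (nat_lit 4736383450) (nat_lit 76) (nat_lit 8720100105) (nat_lit 234) (nat_lit 5) (nat_lit 243) (nat_lit 5) (nat_lit 235) (nat_lit 5) (nat_lit 479) (nat_lit 425) (nat_lit 236))) (XT.nd (nat_lit 78) (nat_lit 0) (nat_lit 0) (XT.lf (nat_lit 0) (nat_lit 4697958313) (nat_lit 608) (nat_lit 2813712730) (nat_lit 684) (nat_lit 10960770410) (nat_lit 226) (nat_lit 5) (nat_lit 234) (nat_lit 5) (nat_lit 235) (nat_lit 5) (nat_lit 480) (nat_lit 425) (nat_lit 235)) (XT.lf (nat_lit 0) (nat_lit 10331968893) (nat_lit 684) (nat_lit 4344335385) (nat_lit 76) (nat_lit 4018249731) (nat_lit 226) (nat_lit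 5) (nat_lit 235) (nat_lit 5) (nat_lit 227) (nat_lit 5) (nat_lit 481) (nat_lit 425) (nat_lit 234))))) (XT.nd (nat_lit 312) (nat_lit 1064) (nat_lit 0) (XT.nd (nat_lit 156) (nat_lit 684) (nat_lit 0) (XT.nd (nat_lit 78) (nat_lit 0) (nat_lit 0) (XT.lf (nat_lit 0) (nat_lit 5317546064) (nat_lit 532) (nat_lit 7937719716) (nat_lit 608) (nat_lit 5664914745) (nat_lit 219) (nat_lit 5) (nat_lit 226) (nat_lit 5) (nat_lit 227) (nat_lit 5) (nat_lit 482) (nat_lit 425) (nat_lit 233)) (XT.lf (nat_lit 0) (nat_lit 15223630253) (nat_lit 532) (nat_lit 1036062613) (nat_lit 608) (nat_lit 2890176918) (nat_lit 219) (nat_lit 5) (nat_lit 226) (nat_lit 5) (nat_lit 227) (nat_lit 5) (nat_lit 483) (nat_lit 425) (nat_lit 232))) (XT.nd (nat_lit 78) (nat_lit 0) (nat_lit 0) (XT.lf (nat_lit 0) (nat_lit 12715269) (nat_lit 684) (nat_lit 13407632173) (nat_lit 76) (nat_lit 5962379064) (nat_lit 210) (nat_lit 5) (nat_lit 219) (nat_lit 5) (nat_lit 211) (nat_lit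 5) (nat_lit 484) (nat_lit 425) (nat_lit 231)) (XT.lf (nat_lit 0) (nat_lit 2962043547) (nat_lit 684) (nat_lit 3526138729) (nat_lit 76) (nat_lit 13131137749) (nat_lit 210) (nat_lit 5) (nat_lit 219) (nat_lit 5) (nat_lit 211) (nat_lit 5) (nat_lit 485) (nat_lit 425) (nat_lit 230)))) (XT.nd (nat_lit 156) (nat_lit 532) (nat_lit 0) (XT.nd (nat_lit 78) (nat_lit 0) (nat_lit 0) (XT.lf (nat_lit 0) (nat_lit 6011259819) (nat_lit 608) (nat_lit 13231772543) (nat_lit 76) (nat_lit 616798255) (nat_lit 203) (nat_lit 5) (nat_lit 211) (nat_lit 5) (nat_lit 204) (nat_lit 5) (nat_lit 486) (nat_lit 425) (nat_lit 229)) (XT.lf (nat_lit 0) (nat_lit 9182091953) (nat_lit 608) (nat_lit 3122501088) (nat_lit 76) (nat_lit 7799348918) (nat_lit 203) (nat_lit 5) (nat_lit 211) (nat_lit 5) (nat_lit 204) (nat_lit 5) (nat_lit 487) (nat_lit 425) (nat_lit 228))) (XT.nd (nat_lit 78) (nat_lit 0) (nat_lit 0) (XT.lf (nat_lit 0) (nat_lit 7276710112) (nat_lit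 532) (nat_lit 5180841036) (nat_lit 608) (nat_lit 7894563279) (nat_lit 196) (nat_lit 5) (nat_lit 203) (nat_lit 5) (nat_lit 204) (nat_lit 5) (nat_lit 488) (nat_lit 425) (nat_lit 227)) (XT.lf (nat_lit 0) (nat_lit 15827174798) (nat_lit 608) (nat_lit 2700019957) (nat_lit 76) (nat_lit 2077485529) (nat_lit 196) (nat_lit 5) (nat_lit 204) (nat_lit 5) (nat_lit 197) (nat_lit 5) (nat_lit 489) (nat_lit 425) (nat_lit 226))))))))
noncomputable def xc200 : XT := (XT.nd (nat_lit 2184) (nat_lit 684) (nat_lit 0) (XT.nd (nat_lit 1092) (nat_lit 2812) (nat_lit 0) (XT.nd (nat_lit 546) (nat_lit 1444) (nat_lit 0) (XT.nd (nat_lit 234) (nat_lit 912) (nat_lit 0) (XT.nd (nat_lit 78) (nat_lit 608) (nat_lit 0) (XT.lf (nat_lit 0) (nat_lit 7945174001) (nat_lit 456) (nat_lit 11399052825) (nat_lit 532) (nat_lit 1516472900) (nat_lit 190) (nat_lit 5) (nat_lit 196) (nat_lit 5) (nat_lit 197) (nat_lit 5) (nat_lit 490) (nat_lit 425) (nat_lit 225)) (XT.nd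 (nat_lit 78) (nat_lit 532) (nat_lit 0) (XT.lf (nat_lit 0) (nat_lit 1798448331) (nat_lit 532) (nat_lit 2301096894) (nat_lit 76) (nat_lit 17021814124) (nat_lit 189) (nat_lit 5) (nat_lit 196) (nat_lit 5) (nat_lit 190) (nat_lit 5) (nat_lit 491) (nat_lit 425) (nat_lit 224)) (XT.lf (nat_lit 0) (nat_lit 5231785210) (nat_lit 608) (nat_lit 12787004439) (nat_lit 76) (nat_lit 3366796396) (nat_lit 182) (nat_lit 5) (nat_lit 190) (nat_lit 5) (nat_lit 183) (nat_lit 5) (nat_lit 492) (nat_lit 425) (nat_lit 223)))) (XT.nd (nat_lit 156) (nat_lit 456) (nat_lit 0) (XT.nd (nat_lit 78) (nat_lit 456) (nat_lit 0) (XT.lf (nat_lit 0) (nat_lit 8770813934) (nat_lit 608) (nat_lit 1942120950) (nat_lit 76) (nat_lit 10941424648) (nat_lit 182) (nat_lit 5) (nat_lit 190) (nat_lit 5) (nat_lit 183) (nat_lit 5) (nat_lit 493) (nat_lit 425) (nat_lit 222)) (XT.lf (nat_lit 0) (nat_lit 9233378618) (nat_lit 456) (nat_lit 3201636938) (nat_lit 532) (nat_lit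 9492407791) (nat_lit 176) (nat_lit 5) (nat_lit 182) (nat_lit 5) (nat_lit 183) (nat_lit 5) (nat_lit 494) (nat_lit 425) (nat_lit 221))) (XT.nd (nat_lit 78) (nat_lit 456) (nat_lit 0) (XT.lf (nat_lit 0) (nat_lit 16209069275) (nat_lit 532) (nat_lit 1583447613) (nat_lit 76) (nat_lit 4412702841) (nat_lit 176) (nat_lit 5) (nat_lit 183) (nat_lit 5) (nat_lit 177) (nat_lit 5) (nat_lit 495) (nat_lit 425) (nat_lit 220)) (XT.lf (nat_lit 0) (nat_lit 9850058435) (nat_lit 456) (nat_lit 10288302184) (nat_lit 532) (nat_lit 2348618886) (nat_lit 170) (nat_lit 5) (nat_lit 176) (nat_lit 5) (nat_lit 177) (nat_lit 5) (nat_lit 496) (nat_lit 425) (nat_lit 219))))) (XT.nd (nat_lit 234) (nat_lit 912) (nat_lit 0) (XT.nd (nat_lit 78) (nat_lit 456) (nat_lit 0) (XT.lf (nat_lit 0) (nat_lit 1359188757) (nat_lit 532) (nat_lit 1256752176) (nat_lit 76) (nat_lit 20158151550) (nat_lit 169) (nat_lit 5) (nat_lit 176) (nat_lit 5) (nat_lit 170) (nat_lit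 5) (nat_lit 497) (nat_lit 425) (nat_lit 218)) (XT.nd (nat_lit 78) (nat_lit 0) (nat_lit 0) (XT.lf (nat_lit 0) (nat_lit 5206776891) (nat_lit 532) (nat_lit 12634196291) (nat_lit 76) (nat_lit 5223725053) (nat_lit 163) (nat_lit 5) (nat_lit 170) (nat_lit 5) (nat_lit 164) (nat_lit 5) (nat_lit 498) (nat_lit 425) (nat_lit 217)) (XT.lf (nat_lit 0) (nat_lit 9151902012) (nat_lit 532) (nat_lit 1017005920) (nat_lit 76) (nat_lit 13191798867) (nat_lit 163) (nat_lit 5) (nat_lit 170) (nat_lit 5) (nat_lit 164) (nat_lit 5) (nat_lit 499) (nat_lit 425) (nat_lit 216)))) (XT.nd (nat_lit 156) (nat_lit 456) (nat_lit 0) (XT.nd (nat_lit 78) (nat_lit 0) (nat_lit 0) (XT.lf (nat_lit 0) (nat_lit 10969319046) (nat_lit 456) (nat_lit 2272704990) (nat_lit 532) (nat_lit 10419291965) (nat_lit 157) (nat_lit 5) (nat_lit 163) (nat_lit 5) (nat_lit 164) (nat_lit 5) (nat_lit 500) (nat_lit 425) (nat_lit 215)) (XT.lf (nat_lit 0) (nat_lit 17453271651) (nat_lit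 532) (nat_lit 803344909) (nat_lit 76) (nat_lit 5710536672) (nat_lit 157) (nat_lit 5) (nat_lit 164) (nat_lit 5) (nat_lit 158) (nat_lit 5) (nat_lit 501) (nat_lit 425) (nat_lit 214))) (XT.nd (nat_lit 78) (nat_lit 76) (nat_lit 0) (XT.lf (nat_lit 0) (nat_lit 11451235451) (nat_lit 380) (nat_lit 10381924968) (nat_lit 456) (nat_lit 2444260727) (nat_lit 152) (nat_lit 5) (nat_lit 157) (nat_lit 5) (nat_lit 158) (nat_lit 5) (nat_lit 502) (nat_lit 425) (nat_lit 213)) (XT.lf (nat_lit 0) (nat_lit 1684828767) (nat_lit 456) (nat_lit 650107673) (nat_lit 76) (nat_lit 22258729315) (nat_lit 151) (nat_lit 5) (nat_lit 157) (nat_lit 5) (nat_lit 152) (nat_lit 5) (nat_lit 503) (nat_lit 425) (nat_lit 212)))))) (XT.nd (nat_lit 546) (nat_lit 1140) (nat_lit 0) (XT.nd (nat_lit 234) (nat_lit 836) (nat_lit 0) (XT.nd (nat_lit 78) (nat_lit 380) (nat_lit 0) (XT.lf (nat_lit 0) (nat_lit 5974949996) (nat_lit 532) (nat_lit 13050657747) (nat_lit 76) (nat_lit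 5888082943) (nat_lit 145) (nat_lit 5) (nat_lit 152) (nat_lit 5) (nat_lit 146) (nat_lit 5) (nat_lit 504) (nat_lit 425) (nat_lit 211)) (XT.nd (nat_lit 78) (nat_lit 380) (nat_lit 0) (XT.lf (nat_lit 0) (nat_lit 10365897854) (nat_lit 532) (nat_lit 627176152) (nat_lit 76) (nat_lit 14246743716) (nat_lit 145) (nat_lit 5) (nat_lit 152) (nat_lit 5) (nat_lit 146) (nat_lit 5) (nat_lit 505) (nat_lit 425) (nat_lit 210)) (XT.lf (nat_lit 0) (nat_lit 12197985229) (nat_lit 380) (nat_lit 2721141160) (nat_lit 456) (nat_lit 10651853725) (nat_lit 140) (nat_lit 5) (nat_lit 145) (nat_lit 5) (nat_lit 146) (nat_lit 5) (nat_lit 506) (nat_lit 425) (nat_lit 209)))) (XT.nd (nat_lit 156) (nat_lit 456) (nat_lit 0) (XT.nd (nat_lit 78) (nat_lit 380) (nat_lit 0) (XT.lf (nat_lit 0) (nat_lit 19600069887) (nat_lit 456) (nat_lit 664478229) (nat_lit 76) (nat_lit 5643486639) (nat_lit 140) (nat_lit 5) (nat_lit 146) (nat_lit 5) (nat_lit 141) (nat_lit 5)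 (nat_lit 507) (nat_lit 425) (nat_lit 208)) (XT.lf (nat_lit 0) (nat_lit 12436623377) (nat_lit 380) (nat_lit 12032168918) (nat_lit 456) (nat_lit 1781156965) (nat_lit 135) (nat_lit 5) (nat_lit 140) (nat_lit 5) (nat_lit 141) (nat_lit 5) (nat_lit 508) (nat_lit 425) (nat_lit 207))) (XT.nd (nat_lit 78) (nat_lit 380) (nat_lit 0) (XT.lf (nat_lit 0) (nat_lit 2798886148) (nat_lit 456) (nat_lit 814994770) (nat_lit 76) (nat_lit 22984456817) (nat_lit 134) (nat_lit 5) (nat_lit 140) (nat_lit 5) (nat_lit 135) (nat_lit 5) (nat_lit 509) (nat_lit 425) (nat_lit 206)) (XT.lf (nat_lit 0) (nat_lit 7556836103) (nat_lit 456) (nat_lit 14394740461) (nat_lit 76) (nat_lit 4999680691) (nat_lit 129) (nat_lit 5) (nat_lit 135) (nat_lit 5) (nat_lit 130) (nat_lit 5) (nat_lit 510) (nat_lit 425) (nat_lit 205))))) (XT.nd (nat_lit 234) (nat_lit 760) (nat_lit 0) (XT.nd (nat_lit 78) (nat_lit 380) (nat_lit 0) (XT.lf (nat_lit 0) (nat_lit 12434913558) (nat_lit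 456) (nat_lit 1135184263) (nat_lit 76) (nat_lit 13740639794) (nat_lit 129) (nat_lit 5) (nat_lit 135) (nat_lit 5) (nat_lit 130) (nat_lit 5) (nat_lit 511) (nat_lit 425) (nat_lit 204)) (XT.nd (nat_lit 78) (nat_lit 0) (nat_lit 0) (XT.lf (nat_lit 0) (nat_lit 12547661886) (nat_lit 380) (nat_lit 4939976314) (nat_lit 456) (nat_lit 10188229455) (nat_lit 124) (nat_lit 5) (nat_lit 129) (nat_lit 5) (nat_lit 130) (nat_lit 5) (nat_lit 512) (nat_lit 425) (nat_lit 203)) (XT.lf (nat_lit 0) (nat_lit 22669813559) (nat_lit 456) (nat_lit 1560223669) (nat_lit 76) (nat_lit 3817696892) (nat_lit 124) (nat_lit 5) (nat_lit 130) (nat_lit 5) (nat_lit 125) (nat_lit 5) (nat_lit 513) (nat_lit 425) (nat_lit 202)))) (XT.nd (nat_lit 156) (nat_lit 380) (nat_lit 0) (XT.nd (nat_lit 78) (nat_lit 76) (nat_lit 0) (XT.lf (nat_lit 0) (nat_lit 12402695560) (nat_lit 304) (nat_lit 15661912359) (nat_lit 380) (nat_lit 360252200) (nat_lit 120) (nat_lit 5) (nat_lit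 124) (nat_lit 5) (nat_lit 125) (nat_lit 5) (nat_lit 514) (nat_lit 425) (nat_lit 201)) (XT.lf (nat_lit 0) (nat_lit 4701656604) (nat_lit 380) (nat_lit 2180644032) (nat_lit 76) (nat_lit 21926486118) (nat_lit 119) (nat_lit 5) (nat_lit 124) (nat_lit 5) (nat_lit 120) (nat_lit 5) (nat_lit 515) (nat_lit 425) (nat_lit 200))) (XT.nd (nat_lit 78) (nat_lit 0) (nat_lit 0) (XT.lf (nat_lit 0) (nat_lit 9948275803) (nat_lit 456) (nat_lit 17125250213) (nat_lit 76) (nat_lit 2125053976) (nat_lit 114) (nat_lit 5) (nat_lit 120) (nat_lit 5) (nat_lit 115) (nat_lit 5) (nat_lit 516) (nat_lit 425) (nat_lit 199)) (XT.lf (nat_lit 0) (nat_lit 15355993715) (nat_lit 456) (nat_lit 3005900623) (nat_lit 76) (nat_lit 11233153015) (nat_lit 114) (nat_lit 5) (nat_lit 120) (nat_lit 5) (nat_lit 115) (nat_lit 5) (nat_lit 517) (nat_lit 425) (nat_lit 198))))))) (XT.nd (nat_lit 53040) (nat_lit 0) (nat_lit 21204) (XT.nd (nat_lit 52494) (nat_lit 0) (nat_lit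 23864) (XT.nd (nat_lit 52182) (nat_lit 0) (nat_lit 23788) (XT.nd (nat_lit 78) (nat_lit 380) (nat_lit 0) (XT.lf (nat_lit 0) (nat_lit 11541030606) (nat_lit 304) (nat_lit 9401706621) (nat_lit 380) (nat_lit 9055290962) (nat_lit 110) (nat_lit 5) (nat_lit 114) (nat_lit 5) (nat_lit 115) (nat_lit 5) (nat_lit 518) (nat_lit 425) (nat_lit 197)) (XT.nd (nat_lit 78) (nat_lit 380) (nat_lit 0) (XT.lf (nat_lit 0) (nat_lit 26413518769) (nat_lit 304) (nat_lit 243847073) (nat_lit 380) (nat_lit 3751381319) (nat_lit 110) (nat_lit 5) (nat_lit 114) (nat_lit 5) (nat_lit 115) (nat_lit 5) (nat_lit 519) (nat_lit 425) (nat_lit 196)) (XT.lf (nat_lit 0) (nat_lit 1763125352) (nat_lit 380) (nat_lit 20004062648) (nat_lit 76) (nat_lit 9057753165) (nat_lit 105) (nat_lit 5) (nat_lit 110) (nat_lit 5) (nat_lit 106) (nat_lit 5) (nat_lit 520) (nat_lit 425) (nat_lit 195)))) (XT.nd (nat_lit 156) (nat_lit 0) (nat_lit 0) (XT.nd (nat_lit 78) (nat_lit 1596)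 (nat_lit 0) (XT.lf (nat_lit 0) (nat_lit 5034938358) (nat_lit 1596) (nat_lit 128194356) (nat_lit 1596) (nat_lit 128194356) (nat_lit 439) (nat_lit 3) (nat_lit 460) (nat_lit 3) (nat_lit 460) (nat_lit 5) (nat_lit 426) (nat_lit 426) (nat_lit 288)) (XT.lf (nat_lit 0) (nat_lit 118977117) (nat_lit 1596) (nat_lit 5990752116) (nat_lit 1672) (nat_lit 4565787852) (nat_lit 418) (nat_lit 5) (nat_lit 439) (nat_lit 3) (nat_lit 440) (nat_lit 5) (nat_lit 427) (nat_lit 426) (nat_lit 287))) (XT.nd (nat_lit 78) (nat_lit 0) (nat_lit 76) (XT.lf (nat_lit 0) (nat_lit 742461994) (nat_lit 1596) (nat_lit 1053686396) (nat_lit 1672) (nat_lit 8974313138) (nat_lit 418) (nat_lit 5) (nat_lit 439) (nat_lit 3) (nat_lit 440) (nat_lit 5) (nat_lit 428) (nat_lit 426) (nat_lit 286)) (XT.lf (nat_lit 0) (nat_lit 1406219358) (nat_lit 1596) (nat_lit 6857426007) (nat_lit 1672) (nat_lit 2603114470) (nat_lit 419) (nat_lit 5) (nat_lit 440) (nat_lit 5) (nat_lit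 441) (nat_lit 5) (nat_lit 429) (nat_lit 426) (nat_lit 285))))) (XT.nd (nat_lit 234) (nat_lit 0) (nat_lit 76) (XT.nd (nat_lit 78) (nat_lit 0) (nat_lit 76) (XT.lf (nat_lit 0) (nat_lit 2087094076) (nat_lit 1596) (nat_lit 1797325878) (nat_lit 1672) (nat_lit 7080498128) (nat_lit 419) (nat_lit 5) (nat_lit 440) (nat_lit 5) (nat_lit 441) (nat_lit 5) (nat_lit 430) (nat_lit 426) (nat_lit 284)) (XT.nd (nat_lit 78) (nat_lit 0) (nat_lit 0) (XT.lf (nat_lit 0) (nat_lit 2792760623) (nat_lit 1596) (nat_lit 7668577880) (nat_lit 1672) (nat_lit 603488109) (nat_lit 420) (nat_lit 5) (nat_lit 441) (nat_lit 5) (nat_lit 442) (nat_lit 5) (nat_lit 431) (nat_lit 426) (nat_lit 283)) (XT.lf (nat_lit 0) (nat_lit 3535812960) (nat_lit 1596) (nat_lit 2482802182) (nat_lit 1672) (nat_lit 5147663120) (nat_lit 420) (nat_lit 5) (nat_lit 441) (nat_lit 5) (nat_lit 442) (nat_lit 5) (nat_lit 432) (nat_lit 426) (nat_lit 282)))) (XT.nd (nat_lit 156) (nat_lit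 0) (nat_lit 76) (XT.nd (nat_lit 78) (nat_lit 0) (nat_lit 76) (XT.lf (nat_lit 76) (nat_lit 2835481148) (nat_lit 0) (nat_lit 1462348102) (nat_lit 1672) (nat_lit 6971857827) (nat_lit 421) (nat_lit 5) (nat_lit 420) (nat_lit 5) (nat_lit 442) (nat_lit 5) (nat_lit 433) (nat_lit 426) (nat_lit 281)) (XT.lf (nat_lit 0) (nat_lit 5098493263) (nat_lit 1596) (nat_lit 3110504791) (nat_lit 1672) (nat_lit 3165707862) (nat_lit 421) (nat_lit 5) (nat_lit 442) (nat_lit 5) (nat_lit 443) (nat_lit 5) (nat_lit 434) (nat_lit 426) (nat_lit 280))) (XT.nd (nat_lit 78) (nat_lit 0) (nat_lit 76) (XT.lf (nat_lit 76) (nat_lit 2332072114) (nat_lit 0) (nat_lit 3594156311) (nat_lit 1672) (nat_lit 5555385347) (nat_lit 422) (nat_lit 5) (nat_lit 421) (nat_lit 5) (nat_lit 443) (nat_lit 5) (nat_lit 435) (nat_lit 426) (nat_lit 279)) (XT.lf (nat_lit 0) (nat_lit 6785236265) (nat_lit 1596) (nat_lit 3680699798) (nat_lit 1672) (nat_lit 1124438967) (nat_lit 422)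 (nat_lit 5) (nat_lit 443) (nat_lit 5) (nat_lit 444) (nat_lit 5) (nat_lit 436) (nat_lit 426) (nat_lit 278)))))) (XT.nd (nat_lit 546) (nat_lit 1368) (nat_lit 0) (XT.nd (nat_lit 234) (nat_lit 1520) (nat_lit 0) (XT.nd (nat_lit 78) (nat_lit 0) (nat_lit 0) (XT.lf (nat_lit 76) (nat_lit 1889917566) (nat_lit 0) (nat_lit 5794325142) (nat_lit 1672) (nat_lit 4016621854) (nat_lit 423) (nat_lit 5) (nat_lit 422) (nat_lit 5) (nat_lit 444) (nat_lit 5) (nat_lit 437) (nat_lit 426) (nat_lit 277)) (XT.nd (nat_lit 78) (nat_lit 0) (nat_lit 76) (XT.lf (nat_lit 76) (nat_lit 7613311036) (nat_lit 0) (nat_lit 999567681) (nat_lit 1672) (nat_lit 3200461411) (nat_lit 423) (nat_lit 5) (nat_lit 422) (nat_lit 5) (nat_lit 444) (nat_lit 5) (nat_lit 438) (nat_lit 426) (nat_lit 276)) (XT.lf (nat_lit 76) (nat_lit 1508978620) (nat_lit 0) (nat_lit 8073404284) (nat_lit 1672) (nat_lit 2345245444) (nat_lit 424) (nat_lit 5) (nat_lit 423) (nat_lit 5) (nat_lit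 445) (nat_lit 5) (nat_lit 439) (nat_lit 426) (nat_lit 275)))) (XT.nd (nat_lit 156) (nat_lit 1596) (nat_lit 0) (XT.nd (nat_lit 78) (nat_lit 0) (nat_lit 76) (XT.lf (nat_lit 76) (nat_lit 7373792735) (nat_lit 0) (nat_lit 3219674084) (nat_lit 1672) (nat_lit 1450300592) (nat_lit 424) (nat_lit 5) (nat_lit 423) (nat_lit 5) (nat_lit 445) (nat_lit 5) (nat_lit 440) (nat_lit 426) (nat_lit 274)) (XT.lf (nat_lit 76) (nat_lit 1189321898) (nat_lit 0) (nat_lit 10442112940) (nat_lit 1672) (nat_lit 530669872) (nat_lit 425) (nat_lit 5) (nat_lit 424) (nat_lit 5) (nat_lit 446) (nat_lit 5) (nat_lit 441) (nat_lit 426) (nat_lit 273))) (XT.nd (nat_lit 78) (nat_lit 0) (nat_lit 0) (XT.lf (nat_lit 0) (nat_lit 442676060) (nat_lit 1672) (nat_lit 5086073265) (nat_lit 1748) (nat_lit 6753201592) (nat_lit 402) (nat_lit 5) (nat_lit 424) (nat_lit 5) (nat_lit 425) (nat_lit 5) (nat_lit 442) (nat_lit 426) (nat_lit 272)) (XT.lf (nat_lit 76) (nat_lit 918248387)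 (nat_lit 0) (nat_lit 504139884) (nat_lit 1748) (nat_lit 10981863718) (nat_lit 403) (nat_lit 5) (nat_lit 402) (nat_lit 5) (nat_lit 425) (nat_lit 5) (nat_lit 443) (nat_lit 426) (nat_lit 271))))) (XT.nd (nat_lit 312) (nat_lit 1444) (nat_lit 0) (XT.nd (nat_lit 156) (nat_lit 0) (nat_lit 76) (XT.nd (nat_lit 78) (nat_lit 0) (nat_lit 0) (XT.lf (nat_lit 0) (nat_lit 2474289344) (nat_lit 1672) (nat_lit 5455803567) (nat_lit 1748) (nat_lit 4597862319) (nat_lit 403) (nat_lit 5) (nat_lit 425) (nat_lit 5) (nat_lit 426) (nat_lit 5) (nat_lit 444) (nat_lit 426) (nat_lit 270)) (XT.lf (nat_lit 76) (nat_lit 692053648) (nat_lit 0) (nat_lit 2851473412) (nat_lit 1748) (nat_lit 9110687382) (nat_lit 404) (nat_lit 5) (nat_lit 403) (nat_lit 5) (nat_lit 426) (nat_lit 5) (nat_lit 445) (nat_lit 426) (nat_lit 269))) (XT.nd (nat_lit 78) (nat_lit 0) (nat_lit 0) (XT.lf (nat_lit 0) (nat_lit 4674777457) (nat_lit 1672) (nat_lit 5769685965) (nat_lit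 1748) (nat_lit 2337730584) (nat_lit 404) (nat_lit 5) (nat_lit 426) (nat_lit 5) (nat_lit 427) (nat_lit 5) (nat_lit 446) (nat_lit 426) (nat_lit 268)) (XT.lf (nat_lit 76) (nat_lit 525946262) (nat_lit 0) (nat_lit 5313882348) (nat_lit 1748) (nat_lit 7072688609) (nat_lit 405) (nat_lit 5) (nat_lit 404) (nat_lit 5) (nat_lit 427) (nat_lit 5) (nat_lit 447) (nat_lit 426) (nat_lit 267)))) (XT.nd (nat_lit 156) (nat_lit 1520) (nat_lit 0) (XT.nd (nat_lit 78) (nat_lit 0) (nat_lit 76) (XT.lf (nat_lit 76) (nat_lit 7017051973) (nat_lit 0) (nat_lit 38885414) (nat_lit 1748) (nat_lit 5988961802) (nat_lit 405) (nat_lit 5) (nat_lit 404) (nat_lit 5) (nat_lit 427) (nat_lit 5) (nat_lit 448) (nat_lit 426) (nat_lit 266)) (XT.lf (nat_lit 76) (nat_lit 420164133) (nat_lit 0) (nat_lit 7902882089) (nat_lit 1748) (nat_lit 4856356300) (nat_lit 406) (nat_lit 5) (nat_lit 405) (nat_lit 5) (nat_lit 428) (nat_lit 5) (nat_lit 449) (nat_lit 426) (nat_lit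 265))) (XT.nd (nat_lit 78) (nat_lit 1596) (nat_lit 0) (XT.lf (nat_lit 76) (nat_lit 7069925059) (nat_lit 0) (nat_lit 2575700839) (nat_lit 1748) (nat_lit 3670374587) (nat_lit 406) (nat_lit 5) (nat_lit 405) (nat_lit 5) (nat_lit 428) (nat_lit 5) (nat_lit 450) (nat_lit 426) (nat_lit 264)) (XT.lf (nat_lit 0) (nat_lit 374997173) (nat_lit 1672) (nat_lit 10630293332) (nat_lit 1748) (nat_lit 2449834231) (nat_lit 384) (nat_lit 5) (nat_lit 406) (nat_lit 5) (nat_lit 407) (nat_lit 5) (nat_lit 451) (nat_lit 426) (nat_lit 263))))))))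
noncomputable def xc201 : XT := (XT.nd (nat_lit 2184) (nat_lit 7144) (nat_lit 0) (XT.nd (nat_lit 1092) (nat_lit 4864) (nat_lit 0) (XT.nd (nat_lit 546) (nat_lit 3268) (nat_lit 0) (XT.nd (nat_lit 234) (nat_lit 1748) (nat_lit 0) (XT.nd (nat_lit 78) (nat_lit 1520) (nat_lit 0) (XT.lf (nat_lit 0) (nat_lit 7187215863) (nat_lit 1672) (nat_lit 5253581691) (nat_lit 1748) (nat_lit 1155267796) (nat_lit 384) (nat_lit 5) (nat_lit 406) (nat_lit 5) (nat_lit 407) (nat_lit 5) (nat_lit 452) (nat_lit 426) (nat_lit 262)) (XT.nd (nat_lit 78) (nat_lit 0) (nat_lit 0) (XT.lf (nat_lit 0) (nat_lit 157011515) (nat_lit 1520) (nat_lit 13350207461) (nat_lit 76) (nat_lit 232711182) (nat_lit 364) (nat_lit 5) (nat_lit 384) (nat_lit 5) (nat_lit 365) (nat_lit 5) (nat_lit 453) (nat_lit 426) (nat_lit 261)) (XT.lf (nat_lit 0) (nat_lit 1548232855) (nat_lit 1520) (nat_lit 6526186172) (nat_lit 76) (nat_lit 5810743664) (nat_lit 364) (nat_lit 5) (nat_lit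 384) (nat_lit 5) (nat_lit 365) (nat_lit 5) (nat_lit 454) (nat_lit 426) (nat_lit 260)))) (XT.nd (nat_lit 156) (nat_lit 912) (nat_lit 0) (XT.nd (nat_lit 78) (nat_lit 0) (nat_lit 0) (XT.lf (nat_lit 0) (nat_lit 431358685) (nat_lit 836) (nat_lit 2528982875) (nat_lit 912) (nat_lit 11073103391) (nat_lit 353) (nat_lit 5) (nat_lit 364) (nat_lit 5) (nat_lit 365) (nat_lit 5) (nat_lit 455) (nat_lit 426) (nat_lit 259)) (XT.lf (nat_lit 0) (nat_lit 4455485953) (nat_lit 912) (nat_lit 6596655876) (nat_lit 76) (nat_lit 3131461372) (nat_lit 353) (nat_lit 5) (nat_lit 365) (nat_lit 5) (nat_lit 354) (nat_lit 5) (nat_lit 456) (nat_lit 426) (nat_lit 258))) (XT.nd (nat_lit 78) (nat_lit 0) (nat_lit 0) (XT.lf (nat_lit 0) (nat_lit 530501756) (nat_lit 912) (nat_lit 5460816657) (nat_lit 988) (nat_lit 8345236591) (nat_lit 341) (nat_lit 5) (nat_lit 353) (nat_lit 5) (nat_lit 354) (nat_lit 5) (nat_lit 457) (nat_lit 426) (nat_lit 257)) (XT.lf (nat_lit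 0) (nat_lit 7594727576) (nat_lit 988) (nat_lit 6612655725) (nat_lit 76) (nat_lit 284451312) (nat_lit 341) (nat_lit 5) (nat_lit 354) (nat_lit 5) (nat_lit 342) (nat_lit 5) (nat_lit 458) (nat_lit 426) (nat_lit 256))))) (XT.nd (nat_lit 234) (nat_lit 1596) (nat_lit 0) (XT.nd (nat_lit 78) (nat_lit 836) (nat_lit 0) (XT.lf (nat_lit 0) (nat_lit 688921302) (nat_lit 836) (nat_lit 8572829197) (nat_lit 912) (nat_lit 5387844258) (nat_lit 330) (nat_lit 5) (nat_lit 341) (nat_lit 5) (nat_lit 342) (nat_lit 5) (nat_lit 459) (nat_lit 426) (nat_lit 255)) (XT.nd (nat_lit 78) (nat_lit 836) (nat_lit 0) (XT.lf (nat_lit 0) (nat_lit 8217663047) (nat_lit 836) (nat_lit 2779856590) (nat_lit 912) (nat_lit 3812288093) (nat_lit 330) (nat_lit 5) (nat_lit 341) (nat_lit 5) (nat_lit 342) (nat_lit 5) (nat_lit 460) (nat_lit 426) (nat_lit 254)) (XT.lf (nat_lit 0) (nat_lit 906811444) (nat_lit 836) (nat_lit 11878605894) (nat_lit 912) (nat_lit 2187464987)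 (nat_lit 319) (nat_lit 5) (nat_lit 330) (nat_lit 5) (nat_lit 331) (nat_lit 5) (nat_lit 461) (nat_lit 426) (nat_lit 253)))) (XT.nd (nat_lit 156) (nat_lit 760) (nat_lit 0) (XT.nd (nat_lit 78) (nat_lit 836) (nat_lit 0) (XT.lf (nat_lit 0) (nat_lit 8617985878) (nat_lit 836) (nat_lit 6044939972) (nat_lit 912) (nat_lit 475221023) (nat_lit 319) (nat_lit 5) (nat_lit 330) (nat_lit 5) (nat_lit 331) (nat_lit 5) (nat_lit 462) (nat_lit 426) (nat_lit 252)) (XT.lf (nat_lit 0) (nat_lit 1175410989) (nat_lit 760) (nat_lit 78251440) (nat_lit 836) (nat_lit 14052913157) (nat_lit 308) (nat_lit 5) (nat_lit 318) (nat_lit 5) (nat_lit 319) (nat_lit 5) (nat_lit 463) (nat_lit 426) (nat_lit 251))) (XT.nd (nat_lit 78) (nat_lit 760) (nat_lit 0) (XT.lf (nat_lit 0) (nat_lit 3085366360) (nat_lit 836) (nat_lit 6415201546) (nat_lit 76) (nat_lit 5976255220) (nat_lit 308) (nat_lit 5) (nat_lit 319) (nat_lit 5) (nat_lit 309) (nat_lit 5) (nat_lit 464)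 (nat_lit 426) (nat_lit 250)) (XT.lf (nat_lit 0) (nat_lit 1465411773) (nat_lit 760) (nat_lit 3490041092) (nat_lit 836) (nat_lit 10694992880) (nat_lit 298) (nat_lit 5) (nat_lit 308) (nat_lit 5) (nat_lit 309) (nat_lit 5) (nat_lit 465) (nat_lit 426) (nat_lit 249)))))) (XT.nd (nat_lit 546) (nat_lit 2660) (nat_lit 0) (XT.nd (nat_lit 234) (nat_lit 1520) (nat_lit 0) (XT.nd (nat_lit 78) (nat_lit 684) (nat_lit 0) (XT.lf (nat_lit 0) (nat_lit 6915244120) (nat_lit 836) (nat_lit 6261995424) (nat_lit 76) (nat_lit 2649260209) (nat_lit 298) (nat_lit 5) (nat_lit 309) (nat_lit 5) (nat_lit 299) (nat_lit 5) (nat_lit 466) (nat_lit 426) (nat_lit 248)) (XT.nd (nat_lit 78) (nat_lit 0) (nat_lit 0) (XT.lf (nat_lit 0) (nat_lit 1811837486) (nat_lit 684) (nat_lit 7129253940) (nat_lit 760) (nat_lit 7064451109) (nat_lit 289) (nat_lit 5) (nat_lit 298) (nat_lit 5) (nat_lit 299) (nat_lit 5) (nat_lit 467) (nat_lit 426) (nat_lit 247)) (XT.lf (nat_lit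 0) (nat_lit 10123768633) (nat_lit 684) (nat_lit 917795593) (nat_lit 760) (nat_lit 5145924579) (nat_lit 289) (nat_lit 5) (nat_lit 298) (nat_lit 5) (nat_lit 299) (nat_lit 5) (nat_lit 468) (nat_lit 426) (nat_lit 246)))) (XT.nd (nat_lit 156) (nat_lit 760) (nat_lit 0) (XT.nd (nat_lit 78) (nat_lit 0) (nat_lit 0) (XT.lf (nat_lit 0) (nat_lit 2214474007) (nat_lit 760) (nat_lit 11011367053) (nat_lit 836) (nat_lit 3146401758) (nat_lit 279) (nat_lit 5) (nat_lit 289) (nat_lit 5) (nat_lit 290) (nat_lit 5) (nat_lit 469) (nat_lit 426) (nat_lit 245)) (XT.lf (nat_lit 0) (nat_lit 10726065755) (nat_lit 760) (nat_lit 4766805648) (nat_lit 836) (nat_lit 1067043764) (nat_lit 279) (nat_lit 5) (nat_lit 289) (nat_lit 5) (nat_lit 290) (nat_lit 5) (nat_lit 470) (nat_lit 426) (nat_lit 244))) (XT.nd (nat_lit 78) (nat_lit 0) (nat_lit 0) (XT.lf (nat_lit 0) (nat_lit 1060455132) (nat_lit 760) (nat_lit 14084910555) (nat_lit 76) (nat_lit 1605435344)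 (nat_lit 269) (nat_lit 5) (nat_lit 279) (nat_lit 5) (nat_lit 270) (nat_lit 5) (nat_lit 471) (nat_lit 426) (nat_lit 243)) (XT.lf (nat_lit 0) (nat_lit 3279732186) (nat_lit 760) (nat_lit 5577154107) (nat_lit 76) (nat_lit 8087211289) (nat_lit 269) (nat_lit 5) (nat_lit 279) (nat_lit 5) (nat_lit 270) (nat_lit 5) (nat_lit 472) (nat_lit 426) (nat_lit 242))))) (XT.nd (nat_lit 234) (nat_lit 1368) (nat_lit 0) (XT.nd (nat_lit 78) (nat_lit 608) (nat_lit 0) (XT.lf (nat_lit 0) (nat_lit 3133776173) (nat_lit 684) (nat_lit 2422638525) (nat_lit 760) (nat_lit 11584589233) (nat_lit 260) (nat_lit 5) (nat_lit 269) (nat_lit 5) (nat_lit 270) (nat_lit 5) (nat_lit 473) (nat_lit 426) (nat_lit 241)) (XT.nd (nat_lit 78) (nat_lit 608) (nat_lit 0) (XT.lf (nat_lit 0) (nat_lit 7935945637) (nat_lit 760) (nat_lit 5281876335) (nat_lit 76) (nat_lit 4122884320) (nat_lit 260) (nat_lit 5) (nat_lit 270) (nat_lit 5) (nat_lit 261) (nat_lit 5) (nat_lit 474)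 (nat_lit 426) (nat_lit 240)) (XT.lf (nat_lit 0) (nat_lit 3641687875) (nat_lit 608) (nat_lit 6753969251) (nat_lit 684) (nat_lit 7148097874) (nat_lit 252) (nat_lit 5) (nat_lit 260) (nat_lit 5) (nat_lit 261) (nat_lit 5) (nat_lit 475) (nat_lit 426) (nat_lit 239)))) (XT.nd (nat_lit 156) (nat_lit 684) (nat_lit 0) (XT.nd (nat_lit 78) (nat_lit 684) (nat_lit 0) (XT.lf (nat_lit 0) (nat_lit 12807361633) (nat_lit 608) (nat_lit 125634605) (nat_lit 684) (nat_lit 4817303796) (nat_lit 252) (nat_lit 5) (nat_lit 260) (nat_lit 5) (nat_lit 261) (nat_lit 5) (nat_lit 476) (nat_lit 426) (nat_lit 238)) (XT.lf (nat_lit 0) (nat_lit 4199430353) (nat_lit 684) (nat_lit 11385118473) (nat_lit 760) (nat_lit 2375161750) (nat_lit 243) (nat_lit 5) (nat_lit 252) (nat_lit 5) (nat_lit 253) (nat_lit 5) (nat_lit 477) (nat_lit 426) (nat_lit 237))) (XT.nd (nat_lit 78) (nat_lit 608) (nat_lit 0) (XT.lf (nat_lit 0) (nat_lit 141681021) (nat_lit 760) (nat_lit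 4590781099) (nat_lit 76) (nat_lit 13440288416) (nat_lit 242) (nat_lit 5) (nat_lit 252) (nat_lit 5) (nat_lit 243) (nat_lit 5) (nat_lit 478) (nat_lit 426) (nat_lit 236)) (XT.lf (nat_lit 0) (nat_lit 2715185825) (nat_lit 684) (nat_lit 13601358522) (nat_lit 76) (nat_lit 2072434093) (nat_lit 234) (nat_lit 5) (nat_lit 243) (nat_lit 5) (nat_lit 235) (nat_lit 5) (nat_lit 479) (nat_lit 426) (nat_lit 235))))))) (XT.nd (nat_lit 1092) (nat_lit 3192) (nat_lit 0) (XT.nd (nat_lit 546) (nat_lit 2128) (nat_lit 0) (XT.nd (nat_lit 234) (nat_lit 1216) (nat_lit 0) (XT.nd (nat_lit 78) (nat_lit 608) (nat_lit 0) (XT.lf (nat_lit 0) (nat_lit 5395875519) (nat_lit 684) (nat_lit 4232543026) (nat_lit 76) (nat_lit 8980001701) (nat_lit 234) (nat_lit 5) (nat_lit 243) (nat_lit 5) (nat_lit 235) (nat_lit 5) (nat_lit 480) (nat_lit 426) (nat_lit 234)) (XT.nd (nat_lit 78) (nat_lit 0) (nat_lit 0) (XT.lf (nat_lit 0) (nat_lit 5386547624) (nat_lit 608) (nat_lit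 2772097964) (nat_lit 684) (nat_lit 10673039538) (nat_lit 226) (nat_lit 5) (nat_lit 234) (nat_lit 5) (nat_lit 235) (nat_lit 5) (nat_lit 481) (nat_lit 426) (nat_lit 233)) (XT.lf (nat_lit 0) (nat_lit 11026232472) (nat_lit 684) (nat_lit 3838869406) (nat_lit 76) (nat_lit 4193325695) (nat_lit 226) (nat_lit 5) (nat_lit 235) (nat_lit 5) (nat_lit 227) (nat_lit 5) (nat_lit 482) (nat_lit 426) (nat_lit 232)))) (XT.nd (nat_lit 156) (nat_lit 684) (nat_lit 0) (XT.nd (nat_lit 78) (nat_lit 0) (nat_lit 0) (XT.lf (nat_lit 0) (nat_lit 6012352615) (nat_lit 532) (nat_lit 7989902067) (nat_lit 608) (nat_lit 5286431945) (nat_lit 219) (nat_lit 5) (nat_lit 226) (nat_lit 5) (nat_lit 227) (nat_lit 5) (nat_lit 483) (nat_lit 426) (nat_lit 231)) (XT.lf (nat_lit 0) (nat_lit 16105020142) (nat_lit 532) (nat_lit 952301469) (nat_lit 608) (nat_lit 2465842129) (nat_lit 219) (nat_lit 5) (nat_lit 226) (nat_lit 5) (nat_lit 227) (nat_lit 5) (nat_lit 484)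 (nat_lit 426) (nat_lit 230))) (XT.nd (nat_lit 78) (nat_lit 0) (nat_lit 0) (XT.lf (nat_lit 0) (nat_lit 483928664) (nat_lit 684) (nat_lit 13087193699) (nat_lit 76) (nat_lit 6189594643) (nat_lit 210) (nat_lit 5) (nat_lit 219) (nat_lit 5) (nat_lit 211) (nat_lit 5) (nat_lit 485) (nat_lit 426) (nat_lit 229)) (XT.lf (nat_lit 0) (nat_lit 3483009016) (nat_lit 684) (nat_lit 3019611388) (nat_lit 76) (nat_lit 13499611482) (nat_lit 210) (nat_lit 5) (nat_lit 219) (nat_lit 5) (nat_lit 211) (nat_lit 5) (nat_lit 486) (nat_lit 426) (nat_lit 228))))) (XT.nd (nat_lit 234) (nat_lit 1064) (nat_lit 0) (XT.nd (nat_lit 78) (nat_lit 532) (nat_lit 0) (XT.lf (nat_lit 0) (nat_lit 6588636869) (nat_lit 608) (nat_lit 12914549793) (nat_lit 76) (nat_lit 744462189) (nat_lit 203) (nat_lit 5) (nat_lit 211) (nat_lit 5) (nat_lit 204) (nat_lit 5) (nat_lit 487) (nat_lit 426) (nat_lit 227)) (XT.nd (nat_lit 78) (nat_lit 532) (nat_lit 0) (XT.lf (nat_lit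 0) (nat_lit 9813921885) (nat_lit 608) (nat_lit 2614501893) (nat_lit 76) (nat_lit 8068402532) (nat_lit 203) (nat_lit 5) (nat_lit 211) (nat_lit 5) (nat_lit 204) (nat_lit 5) (nat_lit 488) (nat_lit 426) (nat_lit 226)) (XT.lf (nat_lit 0) (nat_lit 7988940576) (nat_lit 532) (nat_lit 5160841054) (nat_lit 608) (nat_lit 7600287294) (nat_lit 196) (nat_lit 5) (nat_lit 203) (nat_lit 5) (nat_lit 204) (nat_lit 5) (nat_lit 489) (nat_lit 426) (nat_lit 225)))) (XT.nd (nat_lit 156) (nat_lit 608) (nat_lit 0) (XT.nd (nat_lit 78) (nat_lit 456) (nat_lit 0) (XT.lf (nat_lit 0) (nat_lit 16578896785) (nat_lit 608) (nat_lit 2190313051) (nat_lit 76) (nat_lit 2238638717) (nat_lit 196) (nat_lit 5) (nat_lit 204) (nat_lit 5) (nat_lit 197) (nat_lit 5) (nat_lit 490) (nat_lit 426) (nat_lit 224)) (XT.lf (nat_lit 0) (nat_lit 8664076186) (nat_lit 456) (nat_lit 11497316640) (nat_lit 532) (nat_lit 1107697847) (nat_lit 190) (nat_lit 5) (nat_lit 196) (nat_lit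 5) (nat_lit 197) (nat_lit 5) (nat_lit 491) (nat_lit 426) (nat_lit 223))) (XT.nd (nat_lit 78) (nat_lit 532) (nat_lit 0) (XT.lf (nat_lit 0) (nat_lit 2259265902) (nat_lit 532) (nat_lit 1792245503) (nat_lit 76) (nat_lit 17483569183) (nat_lit 189) (nat_lit 5) (nat_lit 196) (nat_lit 5) (nat_lit 190) (nat_lit 5) (nat_lit 492) (nat_lit 426) (nat_lit 222)) (XT.lf (nat_lit 0) (nat_lit 5757369414) (nat_lit 608) (nat_lit 12483766215) (nat_lit 76) (nat_lit 3563538290) (nat_lit 182) (nat_lit 5) (nat_lit 190) (nat_lit 5) (nat_lit 183) (nat_lit 5) (nat_lit 493) (nat_lit 426) (nat_lit 221)))))) (XT.nd (nat_lit 546) (nat_lit 1748) (nat_lit 0) (XT.nd (nat_lit 234) (nat_lit 988) (nat_lit 0) (XT.nd (nat_lit 78) (nat_lit 456) (nat_lit 0) (XT.lf (nat_lit 0) (nat_lit 9358924820) (nat_lit 608) (nat_lit 1432945415) (nat_lit 76) (nat_lit 11287121735) (nat_lit 182) (nat_lit 5) (nat_lit 190) (nat_lit 5) (nat_lit 183) (nat_lit 5) (nat_lit 494)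 (nat_lit 426) (nat_lit 220)) (XT.nd (nat_lit 78) (nat_lit 0) (nat_lit 0) (XT.lf (nat_lit 0) (nat_lit 9962458764) (nat_lit 456) (nat_lit 3129394347) (nat_lit 532) (nat_lit 9265759036) (nat_lit 176) (nat_lit 5) (nat_lit 182) (nat_lit 5) (nat_lit 183) (nat_lit 5) (nat_lit 495) (nat_lit 426) (nat_lit 219)) (XT.lf (nat_lit 0) (nat_lit 16934252654) (nat_lit 532) (nat_lit 1074050436) (nat_lit 76) (nat_lit 4632807931) (nat_lit 176) (nat_lit 5) (nat_lit 183) (nat_lit 5) (nat_lit 177) (nat_lit 5) (nat_lit 496) (nat_lit 426) (nat_lit 218)))) (XT.nd (nat_lit 156) (nat_lit 456) (nat_lit 0) (XT.nd (nat_lit 78) (nat_lit 76) (nat_lit 0) (XT.lf (nat_lit 0) (nat_lit 10584566088) (nat_lit 456) (nat_lit 10353190802) (nat_lit 532) (nat_lit 1990840349) (nat_lit 170) (nat_lit 5) (nat_lit 176) (nat_lit 5) (nat_lit 177) (nat_lit 5) (nat_lit 497) (nat_lit 426) (nat_lit 217)) (XT.lf (nat_lit 0) (nat_lit 1777982860) (nat_lit 532) (nat_lit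 749533857) (nat_lit 76) (nat_lit 20694043483) (nat_lit 169) (nat_lit 5) (nat_lit 176) (nat_lit 5) (nat_lit 170) (nat_lit 5) (nat_lit 498) (nat_lit 426) (nat_lit 216))) (XT.nd (nat_lit 78) (nat_lit 0) (nat_lit 0) (XT.lf (nat_lit 0) (nat_lit 5699196394) (nat_lit 532) (nat_lit 12351022131) (nat_lit 76) (nat_lit 5467829636) (nat_lit 163) (nat_lit 5) (nat_lit 170) (nat_lit 5) (nat_lit 164) (nat_lit 5) (nat_lit 499) (nat_lit 426) (nat_lit 215)) (XT.lf (nat_lit 0) (nat_lit 9715610605) (nat_lit 532) (nat_lit 511994975) (nat_lit 76) (nat_lit 13592527081) (nat_lit 163) (nat_lit 5) (nat_lit 170) (nat_lit 5) (nat_lit 164) (nat_lit 5) (nat_lit 500) (nat_lit 426) (nat_lit 214))))) (XT.nd (nat_lit 312) (nat_lit 836) (nat_lit 0) (XT.nd (nat_lit 156) (nat_lit 456) (nat_lit 0) (XT.nd (nat_lit 78) (nat_lit 0) (nat_lit 0) (XT.lf (nat_lit 0) (nat_lit 11710600234) (nat_lit 456) (nat_lit 2172859195) (nat_lit 532) (nat_lit 10243379560)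 (nat_lit 157) (nat_lit 5) (nat_lit 163) (nat_lit 5) (nat_lit 164) (nat_lit 5) (nat_lit 501) (nat_lit 426) (nat_lit 213)) (XT.lf (nat_lit 0) (nat_lit 18172472668) (nat_lit 532) (nat_lit 301122831) (nat_lit 76) (nat_lit 5965330014) (nat_lit 157) (nat_lit 5) (nat_lit 164) (nat_lit 5) (nat_lit 158) (nat_lit 5) (nat_lit 502) (nat_lit 426) (nat_lit 212))) (XT.nd (nat_lit 78) (nat_lit 76) (nat_lit 0) (XT.lf (nat_lit 0) (nat_lit 12195139341) (nat_lit 380) (nat_lit 10440905248) (nat_lit 456) (nat_lit 2119435785) (nat_lit 152) (nat_lit 5) (nat_lit 157) (nat_lit 5) (nat_lit 158) (nat_lit 5) (nat_lit 503) (nat_lit 426) (nat_lit 211)) (XT.lf (nat_lit 0) (nat_lit 2080102677) (nat_lit 456) (nat_lit 153362766) (nat_lit 76) (nat_lit 22844683704) (nat_lit 151) (nat_lit 5) (nat_lit 157) (nat_lit 5) (nat_lit 152) (nat_lit 5) (nat_lit 504) (nat_lit 426) (nat_lit 210)))) (XT.nd (nat_lit 156) (nat_lit 380) (nat_lit 0) (XT.nd (nat_lit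 78) (nat_lit 0) (nat_lit 0) (XT.lf (nat_lit 0) (nat_lit 6453189347) (nat_lit 532) (nat_lit 12798931586) (nat_lit 76) (nat_lit 6152513487) (nat_lit 145) (nat_lit 5) (nat_lit 152) (nat_lit 5) (nat_lit 146) (nat_lit 5) (nat_lit 505) (nat_lit 426) (nat_lit 209)) (XT.lf (nat_lit 0) (nat_lit 10924922038) (nat_lit 532) (nat_lit 137034071) (nat_lit 76) (nat_lit 14675471614) (nat_lit 145) (nat_lit 5) (nat_lit 152) (nat_lit 5) (nat_lit 146) (nat_lit 5) (nat_lit 506) (nat_lit 426) (nat_lit 208))) (XT.nd (nat_lit 78) (nat_lit 0) (nat_lit 0) (XT.lf (nat_lit 0) (nat_lit 12941323396) (nat_lit 380) (nat_lit 2624237844) (nat_lit 456) (nat_lit 10509728187) (nat_lit 140) (nat_lit 5) (nat_lit 145) (nat_lit 5) (nat_lit 146) (nat_lit 5) (nat_lit 507) (nat_lit 426) (nat_lit 207)) (XT.lf (nat_lit 0) (nat_lit 20334262297) (nat_lit 456) (nat_lit 182173439) (nat_lit 76) (nat_lit 5902769578) (nat_lit 140) (nat_lit 5) (nat_lit 146) (nat_lit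 5) (nat_lit 141) (nat_lit 5) (nat_lit 508) (nat_lit 426) (nat_lit 206))))))))
noncomputable def xc202 : XT := (XT.nd (nat_lit 54210) (nat_lit 0) (nat_lit 12844) (XT.nd (nat_lit 53118) (nat_lit 0) (nat_lit 22192) (XT.nd (nat_lit 546) (nat_lit 760) (nat_lit 0) (XT.nd (nat_lit 234) (nat_lit 684) (nat_lit 0) (XT.nd (nat_lit 78) (nat_lit 456) (nat_lit 0) (XT.lf (nat_lit 0) (nat_lit 13177689711) (nat_lit 380) (nat_lit 12119156372) (nat_lit 456) (nat_lit 1471185155) (nat_lit 135) (nat_lit 5) (nat_lit 140) (nat_lit 5) (nat_lit 141) (nat_lit 5) (nat_lit 509) (nat_lit 426) (nat_lit 205)) (XT.nd (nat_lit 78) (nat_lit 380) (nat_lit 0) (XT.lf (nat_lit 0) (nat_lit 3189238782) (nat_lit 456) (nat_lit 344032861) (nat_lit 76) (nat_lit 23590207472) (nat_lit 134) (nat_lit 5) (nat_lit 140) (nat_lit 5) (nat_lit 135) (nat_lit 5) (nat_lit 510) (nat_lit 426) (nat_lit 204)) (XT.lf (nat_lit 0) (nat_lit 8039928172) (nat_lit 456) (nat_lit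 14192818726) (nat_lit 76) (nat_lit 5250761221) (nat_lit 129) (nat_lit 5) (nat_lit 135) (nat_lit 5) (nat_lit 130) (nat_lit 5) (nat_lit 511) (nat_lit 426) (nat_lit 203)))) (XT.nd (nat_lit 156) (nat_lit 304) (nat_lit 0) (XT.nd (nat_lit 78) (nat_lit 380) (nat_lit 0) (XT.lf (nat_lit 0) (nat_lit 13009058247) (nat_lit 456) (nat_lit 677675651) (nat_lit 76) (nat_lit 14163577018) (nat_lit 129) (nat_lit 5) (nat_lit 135) (nat_lit 5) (nat_lit 130) (nat_lit 5) (nat_lit 512) (nat_lit 426) (nat_lit 202)) (XT.lf (nat_lit 0) (nat_lit 13275668130) (nat_lit 380) (nat_lit 4883885294) (nat_lit 456) (nat_lit 10063258409) (nat_lit 124) (nat_lit 5) (nat_lit 129) (nat_lit 5) (nat_lit 130) (nat_lit 5) (nat_lit 513) (nat_lit 426) (nat_lit 201))) (XT.nd (nat_lit 78) (nat_lit 304) (nat_lit 0) (XT.lf (nat_lit 0) (nat_lit 23440041313) (nat_lit 456) (nat_lit 1118270761) (nat_lit 76) (nat_lit 4043912720) (nat_lit 124) (nat_lit 5) (nat_lit 130)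 (nat_lit 5) (nat_lit 125) (nat_lit 5) (nat_lit 514) (nat_lit 426) (nat_lit 200)) (XT.lf (nat_lit 0) (nat_lit 13120793975) (nat_lit 304) (nat_lit 15818777044) (nat_lit 380) (nat_lit 47388003) (nat_lit 120) (nat_lit 5) (nat_lit 124) (nat_lit 5) (nat_lit 125) (nat_lit 5) (nat_lit 515) (nat_lit 426) (nat_lit 199))))) (XT.nd (nat_lit 234) (nat_lit 304) (nat_lit 0) (XT.nd (nat_lit 78) (nat_lit 380) (nat_lit 0) (XT.lf (nat_lit 0) (nat_lit 5105367653) (nat_lit 380) (nat_lit 1759193480) (nat_lit 76) (nat_lit 22514087766) (nat_lit 119) (nat_lit 5) (nat_lit 124) (nat_lit 5) (nat_lit 120) (nat_lit 5) (nat_lit 516) (nat_lit 426) (nat_lit 198)) (XT.nd (nat_lit 78) (nat_lit 0) (nat_lit 0) (XT.lf (nat_lit 0) (nat_lit 10454855704) (nat_lit 456) (nat_lit 17000510576) (nat_lit 76) (nat_lit 2320915347) (nat_lit 114) (nat_lit 5) (nat_lit 120) (nat_lit 5) (nat_lit 115) (nat_lit 5) (nat_lit 517) (nat_lit 426) (nat_lit 197)) (XT.lf (nat_lit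 0) (nat_lit 15964696320) (nat_lit 456) (nat_lit 2607935654) (nat_lit 76) (nat_lit 11608169302) (nat_lit 114) (nat_lit 5) (nat_lit 120) (nat_lit 5) (nat_lit 115) (nat_lit 5) (nat_lit 518) (nat_lit 426) (nat_lit 196)))) (XT.nd (nat_lit 52182) (nat_lit 0) (nat_lit 23408) (XT.nd (nat_lit 78) (nat_lit 0) (nat_lit 0) (XT.lf (nat_lit 0) (nat_lit 12226920496) (nat_lit 304) (nat_lit 9433295431) (nat_lit 380) (nat_lit 8931687239) (nat_lit 110) (nat_lit 5) (nat_lit 114) (nat_lit 5) (nat_lit 115) (nat_lit 5) (nat_lit 519) (nat_lit 426) (nat_lit 195)) (XT.lf (nat_lit 0) (nat_lit 27387935495) (nat_lit 304) (nat_lit 95346247) (nat_lit 380) (nat_lit 3527674100) (nat_lit 110) (nat_lit 5) (nat_lit 114) (nat_lit 5) (nat_lit 115) (nat_lit 5) (nat_lit 520) (nat_lit 426) (nat_lit 194))) (XT.nd (nat_lit 78) (nat_lit 0) (nat_lit 0) (XT.lf (nat_lit 0) (nat_lit 169861536) (nat_lit 0) (nat_lit 169861536) (nat_lit 1596) (nat_lit 5045082039)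 (nat_lit 418) (nat_lit 5) (nat_lit 418) (nat_lit 3) (nat_lit 439) (nat_lit 3) (nat_lit 427) (nat_lit 427) (nat_lit 286)) (XT.lf (nat_lit 0) (nat_lit 1293068069) (nat_lit 1596) (nat_lit 5494640860) (nat_lit 1672) (nat_lit 4077048457) (nat_lit 418) (nat_lit 5) (nat_lit 439) (nat_lit 3) (nat_lit 440) (nat_lit 5) (nat_lit 428) (nat_lit 427) (nat_lit 285)))))) (XT.nd (nat_lit 546) (nat_lit 1216) (nat_lit 0) (XT.nd (nat_lit 234) (nat_lit 0) (nat_lit 152) (XT.nd (nat_lit 78) (nat_lit 0) (nat_lit 76) (XT.lf (nat_lit 0) (nat_lit 1906047909) (nat_lit 1596) (nat_lit 470910811) (nat_lit 1672) (nat_lit 8585117878) (nat_lit 418) (nat_lit 5) (nat_lit 439) (nat_lit 3) (nat_lit 440) (nat_lit 5) (nat_lit 429) (nat_lit 427) (nat_lit 284)) (XT.nd (nat_lit 78) (nat_lit 0) (nat_lit 0) (XT.lf (nat_lit 0) (nat_lit 2561008361) (nat_lit 1596) (nat_lit 6367849795) (nat_lit 1672) (nat_lit 2131900225) (nat_lit 419) (nat_lit 5) (nat_lit 440)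 (nat_lit 5) (nat_lit 441) (nat_lit 5) (nat_lit 430) (nat_lit 427) (nat_lit 283)) (XT.lf (nat_lit 0) (nat_lit 3233409110) (nat_lit 1596) (nat_lit 1218836383) (nat_lit 1672) (nat_lit 6709091881) (nat_lit 419) (nat_lit 5) (nat_lit 440) (nat_lit 5) (nat_lit 441) (nat_lit 5) (nat_lit 431) (nat_lit 427) (nat_lit 282)))) (XT.nd (nat_lit 156) (nat_lit 0) (nat_lit 0) (XT.nd (nat_lit 78) (nat_lit 0) (nat_lit 0) (XT.lf (nat_lit 0) (nat_lit 3932400119) (nat_lit 1596) (nat_lit 7185952393) (nat_lit 1672) (nat_lit 145322782) (nat_lit 420) (nat_lit 5) (nat_lit 441) (nat_lit 5) (nat_lit 442) (nat_lit 5) (nat_lit 432) (nat_lit 427) (nat_lit 281)) (XT.lf (nat_lit 0) (nat_lit 4669062830) (nat_lit 1596) (nat_lit 1908931712) (nat_lit 1672) (nat_lit 4789601589) (nat_lit 420) (nat_lit 5) (nat_lit 441) (nat_lit 5) (nat_lit 442) (nat_lit 5) (nat_lit 433) (nat_lit 427) (nat_lit 280))) (XT.nd (nat_lit 78) (nat_lit 0) (nat_lit 76) (XT.lf (nat_lit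 76) (nat_lit 3511615137) (nat_lit 0) (nat_lit 1917892032) (nat_lit 1672) (nat_lit 6043917045) (nat_lit 421) (nat_lit 5) (nat_lit 420) (nat_lit 5) (nat_lit 442) (nat_lit 5) (nat_lit 434) (nat_lit 427) (nat_lit 279)) (XT.lf (nat_lit 0) (nat_lit 6222966590) (nat_lit 1596) (nat_lit 2541490599) (nat_lit 1672) (nat_lit 2816565150) (nat_lit 421) (nat_lit 5) (nat_lit 442) (nat_lit 5) (nat_lit 443) (nat_lit 5) (nat_lit 435) (nat_lit 427) (nat_lit 278))))) (XT.nd (nat_lit 234) (nat_lit 1444) (nat_lit 0) (XT.nd (nat_lit 78) (nat_lit 0) (nat_lit 76) (XT.lf (nat_lit 76) (nat_lit 3005785053) (nat_lit 0) (nat_lit 4045493678) (nat_lit 1672) (nat_lit 4639123441) (nat_lit 422) (nat_lit 5) (nat_lit 421) (nat_lit 5) (nat_lit 443) (nat_lit 5) (nat_lit 436) (nat_lit 427) (nat_lit 277)) (XT.nd (nat_lit 78) (nat_lit 0) (nat_lit 0) (XT.lf (nat_lit 0) (nat_lit 7905315568) (nat_lit 1596) (nat_lit 3116687284) (nat_lit 1672) (nat_lit 779792815)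 (nat_lit 422) (nat_lit 5) (nat_lit 443) (nat_lit 5) (nat_lit 444) (nat_lit 5) (nat_lit 437) (nat_lit 427) (nat_lit 276)) (XT.lf (nat_lit 76) (nat_lit 2561147516) (nat_lit 0) (nat_lit 6245965819) (nat_lit 1672) (nat_lit 3107699143) (nat_lit 423) (nat_lit 5) (nat_lit 422) (nat_lit 5) (nat_lit 444) (nat_lit 5) (nat_lit 438) (nat_lit 427) (nat_lit 275)))) (XT.nd (nat_lit 156) (nat_lit 1520) (nat_lit 0) (XT.nd (nat_lit 78) (nat_lit 0) (nat_lit 76) (XT.lf (nat_lit 76) (nat_lit 8386588628) (nat_lit 0) (nat_lit 1348729793) (nat_lit 1672) (nat_lit 2294612651) (nat_lit 423) (nat_lit 5) (nat_lit 422) (nat_lit 5) (nat_lit 444) (nat_lit 5) (nat_lit 439) (nat_lit 427) (nat_lit 274)) (XT.lf (nat_lit 76) (nat_lit 2177753508) (nat_lit 0) (nat_lit 8529879057) (nat_lit 1672) (nat_lit 1439217275) (nat_lit 424) (nat_lit 5) (nat_lit 423) (nat_lit 5) (nat_lit 445) (nat_lit 5) (nat_lit 440) (nat_lit 427) (nat_lit 273))) (XT.nd (nat_lit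 78) (nat_lit 1596) (nat_lit 0) (XT.lf (nat_lit 76) (nat_lit 8147342429) (nat_lit 0) (nat_lit 3573289809) (nat_lit 1672) (nat_lit 545058489) (nat_lit 424) (nat_lit 5) (nat_lit 423) (nat_lit 5) (nat_lit 445) (nat_lit 5) (nat_lit 441) (nat_lit 427) (nat_lit 272)) (XT.lf (nat_lit 0) (nat_lit 372079635) (nat_lit 1672) (nat_lit 10533411556) (nat_lit 1748) (nat_lit 1481179599) (nat_lit 402) (nat_lit 5) (nat_lit 424) (nat_lit 5) (nat_lit 425) (nat_lit 5) (nat_lit 442) (nat_lit 427) (nat_lit 271))))))) (XT.nd (nat_lit 1092) (nat_lit 5624) (nat_lit 0) (XT.nd (nat_lit 546) (nat_lit 3724) (nat_lit 0) (XT.nd (nat_lit 234) (nat_lit 0) (nat_lit 76) (XT.nd (nat_lit 78) (nat_lit 0) (nat_lit 0) (XT.lf (nat_lit 0) (nat_lit 1340023579) (nat_lit 1672) (nat_lit 4545331453) (nat_lit 1748) (nat_lit 6623856177) (nat_lit 402) (nat_lit 5) (nat_lit 424) (nat_lit 5) (nat_lit 425) (nat_lit 5) (nat_lit 443) (nat_lit 427) (nat_lit 270)) (XT.nd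 (nat_lit 78) (nat_lit 0) (nat_lit 76) (XT.lf (nat_lit 76) (nat_lit 1574849900) (nat_lit 0) (nat_lit 751202539) (nat_lit 1748) (nat_lit 10308183355) (nat_lit 403) (nat_lit 5) (nat_lit 402) (nat_lit 5) (nat_lit 425) (nat_lit 5) (nat_lit 444) (nat_lit 427) (nat_lit 269)) (XT.lf (nat_lit 0) (nat_lit 3380321966) (nat_lit 1672) (nat_lit 4919942765) (nat_lit 1748) (nat_lit 4460533463) (nat_lit 403) (nat_lit 5) (nat_lit 425) (nat_lit 5) (nat_lit 426) (nat_lit 5) (nat_lit 445) (nat_lit 427) (nat_lit 268)))) (XT.nd (nat_lit 156) (nat_lit 0) (nat_lit 76) (XT.nd (nat_lit 78) (nat_lit 0) (nat_lit 76) (XT.lf (nat_lit 76) (nat_lit 1346628325) (nat_lit 0) (nat_lit 3111681142) (nat_lit 1748) (nat_lit 8431537297) (nat_lit 404) (nat_lit 5) (nat_lit 403) (nat_lit 5) (nat_lit 426) (nat_lit 5) (nat_lit 446) (nat_lit 427) (nat_lit 267)) (XT.lf (nat_lit 0) (nat_lit 5594344279) (nat_lit 1672) (nat_lit 5238506411) (nat_lit 1748) (nat_lit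 2187903291) (nat_lit 404) (nat_lit 5) (nat_lit 426) (nat_lit 5) (nat_lit 427) (nat_lit 5) (nat_lit 447) (nat_lit 427) (nat_lit 266))) (XT.nd (nat_lit 78) (nat_lit 0) (nat_lit 0) (XT.lf (nat_lit 76) (nat_lit 1178784689) (nat_lit 0) (nat_lit 5591884655) (nat_lit 1748) (nat_lit 6383265886) (nat_lit 405) (nat_lit 5) (nat_lit 404) (nat_lit 5) (nat_lit 427) (nat_lit 5) (nat_lit 448) (nat_lit 427) (nat_lit 265)) (XT.lf (nat_lit 76) (nat_lit 7787118014) (nat_lit 0) (nat_lit 208020632) (nat_lit 1748) (nat_lit 5294156239) (nat_lit 405) (nat_lit 5) (nat_lit 404) (nat_lit 5) (nat_lit 427) (nat_lit 5) (nat_lit 449) (nat_lit 427) (nat_lit 264))))) (XT.nd (nat_lit 234) (nat_lit 2356) (nat_lit 0) (XT.nd (nat_lit 78) (nat_lit 1596) (nat_lit 0) (XT.lf (nat_lit 76) (nat_lit 1071629107) (nat_lit 0) (nat_lit 8203415401) (nat_lit 1748) (nat_lit 4151705280) (nat_lit 406) (nat_lit 5) (nat_lit 405) (nat_lit 5) (nat_lit 428) (nat_lit 5)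 (nat_lit 450) (nat_lit 427) (nat_lit 263)) (XT.nd (nat_lit 78) (nat_lit 1596) (nat_lit 0) (XT.lf (nat_lit 76) (nat_lit 7841776199) (nat_lit 0) (nat_lit 2766896886) (nat_lit 1748) (nat_lit 2957725073) (nat_lit 406) (nat_lit 5) (nat_lit 405) (nat_lit 5) (nat_lit 428) (nat_lit 5) (nat_lit 451) (nat_lit 427) (nat_lit 262)) (XT.lf (nat_lit 0) (nat_lit 1025520568) (nat_lit 1672) (nat_lit 10958195546) (nat_lit 1748) (nat_lit 1724835267) (nat_lit 384) (nat_lit 5) (nat_lit 406) (nat_lit 5) (nat_lit 407) (nat_lit 5) (nat_lit 452) (nat_lit 427) (nat_lit 261)))) (XT.nd (nat_lit 156) (nat_lit 836) (nat_lit 0) (XT.nd (nat_lit 78) (nat_lit 1520) (nat_lit 0) (XT.lf (nat_lit 0) (nat_lit 7961375328) (nat_lit 1672) (nat_lit 5471688959) (nat_lit 1748) (nat_lit 419553889) (nat_lit 384) (nat_lit 5) (nat_lit 406) (nat_lit 5) (nat_lit 407) (nat_lit 5) (nat_lit 453) (nat_lit 427) (nat_lit 260)) (XT.lf (nat_lit 0) (nat_lit 897808630) (nat_lit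 1520) (nat_lit 12964664341) (nat_lit 76) (nat_lit 137022581) (nat_lit 364) (nat_lit 5) (nat_lit 384) (nat_lit 5) (nat_lit 365) (nat_lit 5) (nat_lit 454) (nat_lit 427) (nat_lit 259))) (XT.nd (nat_lit 78) (nat_lit 836) (nat_lit 0) (XT.lf (nat_lit 0) (nat_lit 2302390536) (nat_lit 1520) (nat_lit 6016957671) (nat_lit 76) (nat_lit 5828583220) (nat_lit 364) (nat_lit 5) (nat_lit 384) (nat_lit 5) (nat_lit 365) (nat_lit 5) (nat_lit 455) (nat_lit 427) (nat_lit 258)) (XT.lf (nat_lit 0) (nat_lit 1075529187) (nat_lit 836) (nat_lit 2657158342) (nat_lit 912) (nat_lit 10566702110) (nat_lit 353) (nat_lit 5) (nat_lit 364) (nat_lit 5) (nat_lit 365) (nat_lit 5) (nat_lit 456) (nat_lit 427) (nat_lit 257)))))) (XT.nd (nat_lit 546) (nat_lit 2964) (nat_lit 0) (XT.nd (nat_lit 234) (nat_lit 1748) (nat_lit 0) (XT.nd (nat_lit 78) (nat_lit 912) (nat_lit 0) (XT.lf (nat_lit 0) (nat_lit 5243257765) (nat_lit 912) (nat_lit 6090577873) (nat_lit 76)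 (nat_lit 3119014005) (nat_lit 353) (nat_lit 5) (nat_lit 365) (nat_lit 5) (nat_lit 354) (nat_lit 5) (nat_lit 457) (nat_lit 427) (nat_lit 256)) (XT.nd (nat_lit 78) (nat_lit 0) (nat_lit 0) (XT.lf (nat_lit 0) (nat_lit 1174925471) (nat_lit 912) (nat_lit 5625297285) (nat_lit 988) (nat_lit 7808838277) (nat_lit 341) (nat_lit 5) (nat_lit 353) (nat_lit 5) (nat_lit 354) (nat_lit 5) (nat_lit 458) (nat_lit 427) (nat_lit 255)) (XT.lf (nat_lit 0) (nat_lit 8421836993) (nat_lit 988) (nat_lit 6109224954) (nat_lit 76) (nat_lit 236670246) (nat_lit 341) (nat_lit 5) (nat_lit 354) (nat_lit 5) (nat_lit 342) (nat_lit 5) (nat_lit 459) (nat_lit 427) (nat_lit 254)))) (XT.nd (nat_lit 156) (nat_lit 912) (nat_lit 0) (XT.nd (nat_lit 78) (nat_lit 0) (nat_lit 0) (XT.lf (nat_lit 0) (nat_lit 1334201482) (nat_lit 836) (nat_lit 8778859513) (nat_lit 912) (nat_lit 4815777859) (nat_lit 330) (nat_lit 5) (nat_lit 341) (nat_lit 5) (nat_lit 342) (nat_lit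 5) (nat_lit 460) (nat_lit 427) (nat_lit 253)) (XT.lf (nat_lit 0) (nat_lit 9001135675) (nat_lit 836) (nat_lit 2869349537) (nat_lit 912) (nat_lit 3222040438) (nat_lit 330) (nat_lit 5) (nat_lit 341) (nat_lit 5) (nat_lit 342) (nat_lit 5) (nat_lit 461) (nat_lit 427) (nat_lit 252))) (XT.nd (nat_lit 78) (nat_lit 76) (nat_lit 0) (XT.lf (nat_lit 0) (nat_lit 1553602074) (nat_lit 836) (nat_lit 12131600457) (nat_lit 912) (nat_lit 1573846169) (nat_lit 319) (nat_lit 5) (nat_lit 330) (nat_lit 5) (nat_lit 331) (nat_lit 5) (nat_lit 462) (nat_lit 427) (nat_lit 251)) (XT.lf (nat_lit 0) (nat_lit 157657912) (nat_lit 912) (nat_lit 6022242936) (nat_lit 76) (nat_lit 9247957559) (nat_lit 318) (nat_lit 5) (nat_lit 330) (nat_lit 5) (nat_lit 319) (nat_lit 5) (nat_lit 463) (nat_lit 427) (nat_lit 250))))) (XT.nd (nat_lit 312) (nat_lit 1444) (nat_lit 0) (XT.nd (nat_lit 156) (nat_lit 760) (nat_lit 0) (XT.nd (nat_lit 78) (nat_lit 0) (nat_lit 0)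 (XT.lf (nat_lit 0) (nat_lit 1819980342) (nat_lit 760) (nat_lit 86342671) (nat_lit 836) (nat_lit 13693446235) (nat_lit 308) (nat_lit 5) (nat_lit 318) (nat_lit 5) (nat_lit 319) (nat_lit 5) (nat_lit 464) (nat_lit 427) (nat_lit 249)) (XT.lf (nat_lit 0) (nat_lit 3762313847) (nat_lit 836) (nat_lit 5921896405) (nat_lit 76) (nat_lit 6089466001) (nat_lit 308) (nat_lit 5) (nat_lit 319) (nat_lit 5) (nat_lit 309) (nat_lit 5) (nat_lit 465) (nat_lit 427) (nat_lit 248))) (XT.nd (nat_lit 78) (nat_lit 0) (nat_lit 0) (XT.lf (nat_lit 0) (nat_lit 2112239646) (nat_lit 760) (nat_lit 3549508251) (nat_lit 836) (nat_lit 10289191933) (nat_lit 298) (nat_lit 5) (nat_lit 308) (nat_lit 5) (nat_lit 309) (nat_lit 5) (nat_lit 466) (nat_lit 427) (nat_lit 247)) (XT.lf (nat_lit 0) (nat_lit 7648895148) (nat_lit 836) (nat_lit 5769620259) (nat_lit 76) (nat_lit 2712243585) (nat_lit 298) (nat_lit 5) (nat_lit 309) (nat_lit 5) (nat_lit 299) (nat_lit 5)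 (nat_lit 467) (nat_lit 427) (nat_lit 246)))) (XT.nd (nat_lit 156) (nat_lit 760) (nat_lit 0) (XT.nd (nat_lit 78) (nat_lit 0) (nat_lit 0) (XT.lf (nat_lit 0) (nat_lit 2461626052) (nat_lit 684) (nat_lit 7245943479) (nat_lit 760) (nat_lit 6605974030) (nat_lit 289) (nat_lit 5) (nat_lit 298) (nat_lit 5) (nat_lit 299) (nat_lit 5) (nat_lit 468) (nat_lit 427) (nat_lit 245)) (XT.lf (nat_lit 0) (nat_lit 10927765394) (nat_lit 684) (nat_lit 910763721) (nat_lit 760) (nat_lit 4660837089) (nat_lit 289) (nat_lit 5) (nat_lit 298) (nat_lit 5) (nat_lit 299) (nat_lit 5) (nat_lit 469) (nat_lit 427) (nat_lit 244))) (XT.nd (nat_lit 78) (nat_lit 0) (nat_lit 0) (XT.lf (nat_lit 0) (nat_lit 2867958018) (nat_lit 760) (nat_lit 11191353627) (nat_lit 836) (nat_lit 2628654105) (nat_lit 279) (nat_lit 5) (nat_lit 289) (nat_lit 5) (nat_lit 290) (nat_lit 5) (nat_lit 470) (nat_lit 427) (nat_lit 243)) (XT.lf (nat_lit 0) (nat_lit 11537836611) (nat_lit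 760) (nat_lit 4822690029) (nat_lit 836) (nat_lit 519094749) (nat_lit 279) (nat_lit 5) (nat_lit 289) (nat_lit 5) (nat_lit 290) (nat_lit 5) (nat_lit 471) (nat_lit 427) (nat_lit 242))))))))
noncomputable def xc203 : XT := (XT.nd (nat_lit 2184) (nat_lit 4484) (nat_lit 0) (XT.nd (nat_lit 1092) (nat_lit 3800) (nat_lit 0) (XT.nd (nat_lit 546) (nat_lit 1824) (nat_lit 0) (XT.nd (nat_lit 234) (nat_lit 1292) (nat_lit 0) (XT.nd (nat_lit 78) (nat_lit 684) (nat_lit 0) (XT.lf (nat_lit 0) (nat_lit 1636675116) (nat_lit 760) (nat_lit 13754427609) (nat_lit 76) (nat_lit 1683291036) (nat_lit 269) (nat_lit 5) (nat_lit 279) (nat_lit 5) (nat_lit 270) (nat_lit 5) (nat_lit 472) (nat_lit 427) (nat_lit 241)) (XT.nd (nat_lit 78) (nat_lit 684) (nat_lit 0) (XT.lf (nat_lit 0) (nat_lit 3889455145) (nat_lit 760) (nat_lit 5088519583) (nat_lit 76) (nat_lit 8293805500) (nat_lit 269) (nat_lit 5) (nat_lit 279) (nat_lit 5) (nat_lit 270) (nat_lit 5) (nat_lit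 473) (nat_lit 427) (nat_lit 240)) (XT.lf (nat_lit 0) (nat_lit 3792680765) (nat_lit 684) (nat_lit 2412192474) (nat_lit 760) (nat_lit 11267893637) (nat_lit 260) (nat_lit 5) (nat_lit 269) (nat_lit 5) (nat_lit 270) (nat_lit 5) (nat_lit 474) (nat_lit 427) (nat_lit 239)))) (XT.nd (nat_lit 156) (nat_lit 684) (nat_lit 0) (XT.nd (nat_lit 78) (nat_lit 608) (nat_lit 0) (XT.lf (nat_lit 0) (nat_lit 8621833822) (nat_lit 760) (nat_lit 4792510144) (nat_lit 76) (nat_lit 4262328627) (nat_lit 260) (nat_lit 5) (nat_lit 270) (nat_lit 5) (nat_lit 261) (nat_lit 5) (nat_lit 475) (nat_lit 427) (nat_lit 238)) (XT.lf (nat_lit 0) (nat_lit 4305610852) (nat_lit 608) (nat_lit 6818629780) (nat_lit 684) (nat_lit 6759677591) (nat_lit 252) (nat_lit 5) (nat_lit 260) (nat_lit 5) (nat_lit 261) (nat_lit 5) (nat_lit 476) (nat_lit 427) (nat_lit 237))) (XT.nd (nat_lit 78) (nat_lit 684) (nat_lit 0) (XT.lf (nat_lit 0) (nat_lit 13643008101) (nat_lit 608)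 (nat_lit 59109203) (nat_lit 684) (nat_lit 4392686891) (nat_lit 252) (nat_lit 5) (nat_lit 260) (nat_lit 5) (nat_lit 261) (nat_lit 5) (nat_lit 477) (nat_lit 427) (nat_lit 236)) (XT.lf (nat_lit 0) (nat_lit 4869093157) (nat_lit 684) (nat_lit 11531840780) (nat_lit 760) (nat_lit 1907590086) (nat_lit 243) (nat_lit 5) (nat_lit 252) (nat_lit 5) (nat_lit 253) (nat_lit 5) (nat_lit 478) (nat_lit 427) (nat_lit 235))))) (XT.nd (nat_lit 234) (nat_lit 1140) (nat_lit 0) (XT.nd (nat_lit 78) (nat_lit 608) (nat_lit 0) (XT.lf (nat_lit 0) (nat_lit 642867190) (nat_lit 760) (nat_lit 4101507747) (nat_lit 76) (nat_lit 13781587818) (nat_lit 242) (nat_lit 5) (nat_lit 252) (nat_lit 5) (nat_lit 243) (nat_lit 5) (nat_lit 479) (nat_lit 427) (nat_lit 234)) (XT.nd (nat_lit 78) (nat_lit 0) (nat_lit 0) (XT.lf (nat_lit 0) (nat_lit 3262369933) (nat_lit 684) (nat_lit 13286554229) (nat_lit 76) (nat_lit 2197705905) (nat_lit 234) (nat_lit 5) (nat_lit 243)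 (nat_lit 5) (nat_lit 235) (nat_lit 5) (nat_lit 480) (nat_lit 427) (nat_lit 233)) (XT.lf (nat_lit 0) (nat_lit 5987009099) (nat_lit 684) (nat_lit 3741868922) (nat_lit 76) (nat_lit 9241781275) (nat_lit 234) (nat_lit 5) (nat_lit 243) (nat_lit 5) (nat_lit 235) (nat_lit 5) (nat_lit 481) (nat_lit 427) (nat_lit 232)))) (XT.nd (nat_lit 156) (nat_lit 532) (nat_lit 0) (XT.nd (nat_lit 78) (nat_lit 0) (nat_lit 0) (XT.lf (nat_lit 0) (nat_lit 6065818508) (nat_lit 608) (nat_lit 2733452053) (nat_lit 684) (nat_lit 10399239390) (nat_lit 226) (nat_lit 5) (nat_lit 234) (nat_lit 5) (nat_lit 235) (nat_lit 5) (nat_lit 482) (nat_lit 427) (nat_lit 231)) (XT.lf (nat_lit 0) (nat_lit 11715446280) (nat_lit 684) (nat_lit 3346295885) (nat_lit 76) (nat_lit 4368225435) (nat_lit 226) (nat_lit 5) (nat_lit 235) (nat_lit 5) (nat_lit 227) (nat_lit 5) (nat_lit 483) (nat_lit 427) (nat_lit 230))) (XT.nd (nat_lit 78) (nat_lit 0) (nat_lit 0) (XT.lf (nat_lit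 0) (nat_lit 6698204848) (nat_lit 532) (nat_lit 8047266388) (nat_lit 608) (nat_lit 4919475949) (nat_lit 219) (nat_lit 5) (nat_lit 226) (nat_lit 5) (nat_lit 227) (nat_lit 5) (nat_lit 484) (nat_lit 427) (nat_lit 229)) (XT.lf (nat_lit 0) (nat_lit 16981635428) (nat_lit 532) (nat_lit 870922282) (nat_lit 608) (nat_lit 2051742663) (nat_lit 219) (nat_lit 5) (nat_lit 226) (nat_lit 5) (nat_lit 227) (nat_lit 5) (nat_lit 485) (nat_lit 427) (nat_lit 228)))))) (XT.nd (nat_lit 546) (nat_lit 1596) (nat_lit 0) (XT.nd (nat_lit 234) (nat_lit 988) (nat_lit 0) (XT.nd (nat_lit 78) (nat_lit 532) (nat_lit 0) (XT.lf (nat_lit 0) (nat_lit 946278411) (nat_lit 684) (nat_lit 12783202165) (nat_lit 76) (nat_lit 6417162004) (nat_lit 210) (nat_lit 5) (nat_lit 219) (nat_lit 5) (nat_lit 211) (nat_lit 5) (nat_lit 486) (nat_lit 427) (nat_lit 227)) (XT.nd (nat_lit 78) (nat_lit 532) (nat_lit 0) (XT.lf (nat_lit 0) (nat_lit 3996464465) (nat_lit 684) (nat_lit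 2525361059) (nat_lit 76) (nat_lit 13871344367) (nat_lit 210) (nat_lit 5) (nat_lit 219) (nat_lit 5) (nat_lit 211) (nat_lit 5) (nat_lit 487) (nat_lit 427) (nat_lit 226)) (XT.lf (nat_lit 0) (nat_lit 7159809697) (nat_lit 608) (nat_lit 12613576851) (nat_lit 76) (nat_lit 870201075) (nat_lit 203) (nat_lit 5) (nat_lit 211) (nat_lit 5) (nat_lit 204) (nat_lit 5) (nat_lit 488) (nat_lit 427) (nat_lit 225)))) (XT.nd (nat_lit 156) (nat_lit 456) (nat_lit 0) (XT.nd (nat_lit 78) (nat_lit 532) (nat_lit 0) (XT.lf (nat_lit 0) (nat_lit 10440984725) (nat_lit 608) (nat_lit 2118493952) (nat_lit 76) (nat_lit 8338446703) (nat_lit 203) (nat_lit 5) (nat_lit 211) (nat_lit 5) (nat_lit 204) (nat_lit 5) (nat_lit 489) (nat_lit 427) (nat_lit 224)) (XT.lf (nat_lit 0) (nat_lit 8693410142) (nat_lit 532) (nat_lit 5145241263) (nat_lit 608) (nat_lit 7317683995) (nat_lit 196) (nat_lit 5) (nat_lit 203) (nat_lit 5) (nat_lit 204) (nat_lit 5) (nat_lit 490)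 (nat_lit 427) (nat_lit 223))) (XT.nd (nat_lit 78) (nat_lit 456) (nat_lit 0) (XT.lf (nat_lit 0) (nat_lit 17328754700) (nat_lit 608) (nat_lit 1692301449) (nat_lit 76) (nat_lit 2398370619) (nat_lit 196) (nat_lit 5) (nat_lit 204) (nat_lit 5) (nat_lit 197) (nat_lit 5) (nat_lit 491) (nat_lit 427) (nat_lit 222)) (XT.lf (nat_lit 0) (nat_lit 9375610982) (nat_lit 456) (nat_lit 11602582809) (nat_lit 532) (nat_lit 707798256) (nat_lit 190) (nat_lit 5) (nat_lit 196) (nat_lit 5) (nat_lit 197) (nat_lit 5) (nat_lit 492) (nat_lit 427) (nat_lit 221))))) (XT.nd (nat_lit 234) (nat_lit 988) (nat_lit 0) (XT.nd (nat_lit 78) (nat_lit 532) (nat_lit 0) (XT.lf (nat_lit 0) (nat_lit 2712802436) (nat_lit 532) (nat_lit 1294763492) (nat_lit 76) (nat_lit 17949848386) (nat_lit 189) (nat_lit 5) (nat_lit 196) (nat_lit 5) (nat_lit 190) (nat_lit 5) (nat_lit 493) (nat_lit 427) (nat_lit 220)) (XT.nd (nat_lit 78) (nat_lit 0) (nat_lit 0) (XT.lf (nat_lit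 0) (nat_lit 6277119358) (nat_lit 608) (nat_lit 12196169035) (nat_lit 76) (nat_lit 3759190030) (nat_lit 182) (nat_lit 5) (nat_lit 190) (nat_lit 5) (nat_lit 183) (nat_lit 5) (nat_lit 494) (nat_lit 427) (nat_lit 219)) (XT.lf (nat_lit 0) (nat_lit 9942772488) (nat_lit 608) (nat_lit 934866574) (nat_lit 76) (nat_lit 11634806301) (nat_lit 182) (nat_lit 5) (nat_lit 190) (nat_lit 5) (nat_lit 183) (nat_lit 5) (nat_lit 495) (nat_lit 427) (nat_lit 218)))) (XT.nd (nat_lit 156) (nat_lit 532) (nat_lit 0) (XT.nd (nat_lit 78) (nat_lit 0) (nat_lit 0) (XT.lf (nat_lit 0) (nat_lit 10684980308) (nat_lit 456) (nat_lit 3060998641) (nat_lit 532) (nat_lit 9050750388) (nat_lit 176) (nat_lit 5) (nat_lit 182) (nat_lit 5) (nat_lit 183) (nat_lit 5) (nat_lit 496) (nat_lit 427) (nat_lit 217)) (XT.lf (nat_lit 0) (nat_lit 17658368304) (nat_lit 532) (nat_lit 575475573) (nat_lit 76) (nat_lit 4852195188) (nat_lit 176) (nat_lit 5) (nat_lit 183) (nat_lit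 5) (nat_lit 177) (nat_lit 5) (nat_lit 497) (nat_lit 427) (nat_lit 216))) (XT.nd (nat_lit 78) (nat_lit 76) (nat_lit 0) (XT.lf (nat_lit 0) (nat_lit 11312891861) (nat_lit 456) (nat_lit 10424847635) (nat_lit 532) (nat_lit 1641623212) (nat_lit 170) (nat_lit 5) (nat_lit 176) (nat_lit 5) (nat_lit 177) (nat_lit 5) (nat_lit 498) (nat_lit 427) (nat_lit 215)) (XT.lf (nat_lit 0) (nat_lit 2189946139) (nat_lit 532) (nat_lit 252843101) (nat_lit 76) (nat_lit 21235499229) (nat_lit 169) (nat_lit 5) (nat_lit 176) (nat_lit 5) (nat_lit 170) (nat_lit 5) (nat_lit 499) (nat_lit 427) (nat_lit 214))))))) (XT.nd (nat_lit 1092) (nat_lit 1444) (nat_lit 0) (XT.nd (nat_lit 546) (nat_lit 1216) (nat_lit 0) (XT.nd (nat_lit 234) (nat_lit 912) (nat_lit 0) (XT.nd (nat_lit 78) (nat_lit 456) (nat_lit 0) (XT.lf (nat_lit 0) (nat_lit 6186386746) (nat_lit 532) (nat_lit 12082992511) (nat_lit 76) (nat_lit 5711394304) (nat_lit 163) (nat_lit 5) (nat_lit 170)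 (nat_lit 5) (nat_lit 164) (nat_lit 5) (nat_lit 500) (nat_lit 427) (nat_lit 213)) (XT.nd (nat_lit 78) (nat_lit 456) (nat_lit 0) (XT.lf (nat_lit 0) (nat_lit 10275811469) (nat_lit 532) (nat_lit 17283832) (nat_lit 76) (nat_lit 13995954168) (nat_lit 163) (nat_lit 5) (nat_lit 170) (nat_lit 5) (nat_lit 164) (nat_lit 5) (nat_lit 501) (nat_lit 427) (nat_lit 212)) (XT.lf (nat_lit 0) (nat_lit 12446441234) (nat_lit 456) (nat_lit 2076658656) (nat_lit 532) (nat_lit 10078871676) (nat_lit 157) (nat_lit 5) (nat_lit 163) (nat_lit 5) (nat_lit 164) (nat_lit 5) (nat_lit 502) (nat_lit 427) (nat_lit 211)))) (XT.nd (nat_lit 156) (nat_lit 532) (nat_lit 0) (XT.nd (nat_lit 78) (nat_lit 0) (nat_lit 0) (XT.lf (nat_lit 0) (nat_lit 193556423) (nat_lit 380) (nat_lit 18699385163) (nat_lit 456) (nat_lit 6027460502) (nat_lit 152) (nat_lit 5) (nat_lit 157) (nat_lit 5) (nat_lit 158) (nat_lit 5) (nat_lit 503) (nat_lit 427) (nat_lit 210)) (XT.lf (nat_lit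 0) (nat_lit 12933927922) (nat_lit 380) (nat_lit 10506837713) (nat_lit 456) (nat_lit 1802625965) (nat_lit 152) (nat_lit 5) (nat_lit 157) (nat_lit 5) (nat_lit 158) (nat_lit 5) (nat_lit 504) (nat_lit 427) (nat_lit 209))) (XT.nd (nat_lit 78) (nat_lit 0) (nat_lit 0) (XT.lf (nat_lit 0) (nat_lit 337955284) (nat_lit 456) (nat_lit 2133480521) (nat_lit 532) (nat_lit 23101129474) (nat_lit 145) (nat_lit 5) (nat_lit 151) (nat_lit 5) (nat_lit 152) (nat_lit 5) (nat_lit 505) (nat_lit 427) (nat_lit 208)) (XT.lf (nat_lit 0) (nat_lit 6927063160) (nat_lit 532) (nat_lit 12562081194) (nat_lit 76) (nat_lit 6416537310) (nat_lit 145) (nat_lit 5) (nat_lit 152) (nat_lit 5) (nat_lit 146) (nat_lit 5) (nat_lit 506) (nat_lit 427) (nat_lit 207))))) (XT.nd (nat_lit 234) (nat_lit 456) (nat_lit 0) (XT.nd (nat_lit 78) (nat_lit 380) (nat_lit 0) (XT.lf (nat_lit 0) (nat_lit 347954441) (nat_lit 380) (nat_lit 11135774234) (nat_lit 456) (nat_lit 14761495122)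 (nat_lit 140) (nat_lit 5) (nat_lit 145) (nat_lit 5) (nat_lit 146) (nat_lit 5) (nat_lit 507) (nat_lit 427) (nat_lit 206)) (XT.nd (nat_lit 78) (nat_lit 380) (nat_lit 0) (XT.lf (nat_lit 0) (nat_lit 13680136851) (nat_lit 380) (nat_lit 2531272640) (nat_lit 456) (nat_lit 10378551536) (nat_lit 140) (nat_lit 5) (nat_lit 145) (nat_lit 5) (nat_lit 146) (nat_lit 5) (nat_lit 508) (nat_lit 427) (nat_lit 205)) (XT.lf (nat_lit 0) (nat_lit 294393943) (nat_lit 380) (nat_lit 20777368318) (nat_lit 456) (nat_lit 5869070229) (nat_lit 135) (nat_lit 5) (nat_lit 140) (nat_lit 5) (nat_lit 141) (nat_lit 5) (nat_lit 509) (nat_lit 427) (nat_lit 204)))) (XT.nd (nat_lit 156) (nat_lit 0) (nat_lit 0) (XT.nd (nat_lit 78) (nat_lit 456) (nat_lit 0) (XT.lf (nat_lit 0) (nat_lit 13914459447) (nat_lit 380) (nat_lit 12213850223) (nat_lit 456) (nat_lit 1168433782) (nat_lit 135) (nat_lit 5) (nat_lit 140) (nat_lit 5) (nat_lit 141) (nat_lit 5) (nat_lit 510)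 (nat_lit 427) (nat_lit 203)) (XT.lf (nat_lit 0) (nat_lit 118987864) (nat_lit 380) (nat_lit 3456198967) (nat_lit 456) (nat_lit 24084186076) (nat_lit 129) (nat_lit 5) (nat_lit 134) (nat_lit 5) (nat_lit 135) (nat_lit 5) (nat_lit 511) (nat_lit 427) (nat_lit 202))) (XT.nd (nat_lit 78) (nat_lit 0) (nat_lit 0) (XT.lf (nat_lit 0) (nat_lit 8519791851) (nat_lit 456) (nat_lit 14005878730) (nat_lit 76) (nat_lit 5500996473) (nat_lit 129) (nat_lit 5) (nat_lit 135) (nat_lit 5) (nat_lit 130) (nat_lit 5) (nat_lit 512) (nat_lit 427) (nat_lit 201)) (XT.lf (nat_lit 0) (nat_lit 13582048350) (nat_lit 456) (nat_lit 229664094) (nat_lit 76) (nat_lit 14589221133) (nat_lit 129) (nat_lit 5) (nat_lit 135) (nat_lit 5) (nat_lit 130) (nat_lit 5) (nat_lit 513) (nat_lit 427) (nat_lit 200)))))) (XT.nd (nat_lit 52650) (nat_lit 0) (nat_lit 23408) (XT.nd (nat_lit 234) (nat_lit 684) (nat_lit 0) (XT.nd (nat_lit 78) (nat_lit 380) (nat_lit 0) (XT.lf (nat_lit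 0) (nat_lit 13999709950) (nat_lit 380) (nat_lit 4832687043) (nat_lit 456) (nat_lit 9948553147) (nat_lit 124) (nat_lit 5) (nat_lit 129) (nat_lit 5) (nat_lit 130) (nat_lit 5) (nat_lit 514) (nat_lit 427) (nat_lit 199)) (XT.nd (nat_lit 78) (nat_lit 380) (nat_lit 0) (XT.lf (nat_lit 0) (nat_lit 24213370670) (nat_lit 456) (nat_lit 685852073) (nat_lit 76) (nat_lit 4268833546) (nat_lit 124) (nat_lit 5) (nat_lit 130) (nat_lit 5) (nat_lit 125) (nat_lit 5) (nat_lit 515) (nat_lit 427) (nat_lit 198)) (XT.lf (nat_lit 0) (nat_lit 255903969) (nat_lit 380) (nat_lit 15727229979) (nat_lit 76) (nat_lit 13577380738) (nat_lit 119) (nat_lit 5) (nat_lit 124) (nat_lit 5) (nat_lit 120) (nat_lit 5) (nat_lit 516) (nat_lit 427) (nat_lit 197)))) (XT.nd (nat_lit 156) (nat_lit 304) (nat_lit 0) (XT.nd (nat_lit 78) (nat_lit 380) (nat_lit 0) (XT.lf (nat_lit 0) (nat_lit 5505127751) (nat_lit 380) (nat_lit 1347372898) (nat_lit 76) (nat_lit 23107652804)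 (nat_lit 119) (nat_lit 5) (nat_lit 124) (nat_lit 5) (nat_lit 120) (nat_lit 5) (nat_lit 517) (nat_lit 427) (nat_lit 196)) (XT.lf (nat_lit 0) (nat_lit 10959622162) (nat_lit 456) (nat_lit 16891419825) (nat_lit 76) (nat_lit 2514738778) (nat_lit 114) (nat_lit 5) (nat_lit 120) (nat_lit 5) (nat_lit 115) (nat_lit 5) (nat_lit 518) (nat_lit 427) (nat_lit 195))) (XT.nd (nat_lit 78) (nat_lit 304) (nat_lit 0) (XT.lf (nat_lit 0) (nat_lit 16573862151) (nat_lit 456) (nat_lit 2219799305) (nat_lit 76) (nat_lit 11984847515) (nat_lit 114) (nat_lit 5) (nat_lit 120) (nat_lit 5) (nat_lit 115) (nat_lit 5) (nat_lit 519) (nat_lit 427) (nat_lit 194)) (XT.lf (nat_lit 0) (nat_lit 12908857289) (nat_lit 304) (nat_lit 9471590980) (nat_lit 380) (nat_lit 8817443685) (nat_lit 110) (nat_lit 5) (nat_lit 114) (nat_lit 5) (nat_lit 115) (nat_lit 5) (nat_lit 520) (nat_lit 427) (nat_lit 193))))) (XT.nd (nat_lit 312) (nat_lit 0) (nat_lit 76) (XT.nd (nat_lit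 156) (nat_lit 0) (nat_lit 0) (XT.nd (nat_lit 78) (nat_lit 0) (nat_lit 0) (XT.lf (nat_lit 0) (nat_lit 461378267) (nat_lit 0) (nat_lit 461378267) (nat_lit 1596) (nat_lit 4557810187) (nat_lit 418) (nat_lit 5) (nat_lit 418) (nat_lit 3) (nat_lit 439) (nat_lit 3) (nat_lit 428) (nat_lit 428) (nat_lit 284)) (XT.lf (nat_lit 0) (nat_lit 2445141857) (nat_lit 1596) (nat_lit 5012524547) (nat_lit 1672) (nat_lit 3601058521) (nat_lit 418) (nat_lit 5) (nat_lit 439) (nat_lit 3) (nat_lit 440) (nat_lit 5) (nat_lit 429) (nat_lit 428) (nat_lit 283))) (XT.nd (nat_lit 78) (nat_lit 0) (nat_lit 76) (XT.lf (nat_lit 76) (nat_lit 101401985) (nat_lit 0) (nat_lit 2947555081) (nat_lit 1672) (nat_lit 8109477694) (nat_lit 419) (nat_lit 5) (nat_lit 418) (nat_lit 5) (nat_lit 440) (nat_lit 5) (nat_lit 430) (nat_lit 428) (nat_lit 282)) (XT.lf (nat_lit 0) (nat_lit 3695143383) (nat_lit 1596) (nat_lit 5892818544) (nat_lit 1672) (nat_lit 1671581160) (nat_lit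 419) (nat_lit 5) (nat_lit 440) (nat_lit 5) (nat_lit 441) (nat_lit 5) (nat_lit 431) (nat_lit 428) (nat_lit 281)))) (XT.nd (nat_lit 156) (nat_lit 0) (nat_lit 76) (XT.nd (nat_lit 78) (nat_lit 0) (nat_lit 0) (XT.lf (nat_lit 0) (nat_lit 4359758522) (nat_lit 1596) (nat_lit 652636398) (nat_lit 1672) (nat_lit 6350178553) (nat_lit 419) (nat_lit 5) (nat_lit 440) (nat_lit 5) (nat_lit 441) (nat_lit 5) (nat_lit 432) (nat_lit 428) (nat_lit 280)) (XT.lf (nat_lit 76) (nat_lit 4746963396) (nat_lit 0) (nat_lit 307782673) (nat_lit 1672) (nat_lit 6412586593) (nat_lit 420) (nat_lit 5) (nat_lit 419) (nat_lit 5) (nat_lit 441) (nat_lit 5) (nat_lit 433) (nat_lit 428) (nat_lit 279))) (XT.nd (nat_lit 78) (nat_lit 0) (nat_lit 0) (XT.lf (nat_lit 0) (nat_lit 5783718223) (nat_lit 1596) (nat_lit 1347796127) (nat_lit 1672) (nat_lit 4442280594) (nat_lit 420) (nat_lit 5) (nat_lit 441) (nat_lit 5) (nat_lit 442) (nat_lit 5) (nat_lit 434) (nat_lit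 428) (nat_lit 278)) (XT.lf (nat_lit 76) (nat_lit 4177218802) (nat_lit 0) (nat_lit 2365993209) (nat_lit 1672) (nat_lit 5138865033) (nat_lit 421) (nat_lit 5) (nat_lit 420) (nat_lit 5) (nat_lit 442) (nat_lit 5) (nat_lit 435) (nat_lit 428) (nat_lit 277))))))))
noncomputable def xc204 : XT := (XT.nd (nat_lit 2184) (nat_lit 9348) (nat_lit 0) (XT.nd (nat_lit 1092) (nat_lit 6232) (nat_lit 0) (XT.nd (nat_lit 546) (nat_lit 0) (nat_lit 76) (XT.nd (nat_lit 234) (nat_lit 1520) (nat_lit 0) (XT.nd (nat_lit 78) (nat_lit 0) (nat_lit 0) (XT.lf (nat_lit 0) (nat_lit 7330224327) (nat_lit 1596) (nat_lit 1985607331) (nat_lit 1672) (nat_lit 2476455788) (nat_lit 421) (nat_lit 5) (nat_lit 442) (nat_lit 5) (nat_lit 443) (nat_lit 5) (nat_lit 436) (nat_lit 428) (nat_lit 276)) (XT.nd (nat_lit 78) (nat_lit 0) (nat_lit 76) (XT.lf (nat_lit 76) (nat_lit 3668622301) (nat_lit 0) (nat_lit 4491123122) (nat_lit 1672) (nat_lit 3744430312) (nat_lit 422)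 (nat_lit 5) (nat_lit 421) (nat_lit 5) (nat_lit 443) (nat_lit 5) (nat_lit 437) (nat_lit 428) (nat_lit 275)) (XT.lf (nat_lit 0) (nat_lit 9009571992) (nat_lit 1596) (nat_lit 2566154334) (nat_lit 1672) (nat_lit 442510037) (nat_lit 422) (nat_lit 5) (nat_lit 443) (nat_lit 5) (nat_lit 444) (nat_lit 5) (nat_lit 438) (nat_lit 428) (nat_lit 274)))) (XT.nd (nat_lit 156) (nat_lit 1596) (nat_lit 0) (XT.nd (nat_lit 78) (nat_lit 0) (nat_lit 0) (XT.lf (nat_lit 76) (nat_lit 3221205145) (nat_lit 0) (nat_lit 6693601566) (nat_lit 1672) (nat_lit 2219011961) (nat_lit 423) (nat_lit 5) (nat_lit 422) (nat_lit 5) (nat_lit 444) (nat_lit 5) (nat_lit 439) (nat_lit 428) (nat_lit 273)) (XT.lf (nat_lit 76) (nat_lit 9151217144) (nat_lit 0) (nat_lit 1692093047) (nat_lit 1672) (nat_lit 1408307684) (nat_lit 423) (nat_lit 5) (nat_lit 422) (nat_lit 5) (nat_lit 444) (nat_lit 5) (nat_lit 440) (nat_lit 428) (nat_lit 272))) (XT.nd (nat_lit 78) (nat_lit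 1672) (nat_lit 0) (XT.lf (nat_lit 76) (nat_lit 2835106459) (nat_lit 0) (nat_lit 8984027857) (nat_lit 1672) (nat_lit 552072095) (nat_lit 424) (nat_lit 5) (nat_lit 423) (nat_lit 5) (nat_lit 445) (nat_lit 5) (nat_lit 441) (nat_lit 428) (nat_lit 271)) (XT.lf (nat_lit 0) (nat_lit 337524934) (nat_lit 1672) (nat_lit 3582957091) (nat_lit 1748) (nat_lit 8572262001) (nat_lit 401) (nat_lit 5) (nat_lit 423) (nat_lit 5) (nat_lit 424) (nat_lit 5) (nat_lit 442) (nat_lit 428) (nat_lit 270))))) (XT.nd (nat_lit 234) (nat_lit 0) (nat_lit 76) (XT.nd (nat_lit 78) (nat_lit 0) (nat_lit 0) (XT.lf (nat_lit 0) (nat_lit 1250593775) (nat_lit 1672) (nat_lit 10114213829) (nat_lit 1748) (nat_lit 1251578244) (nat_lit 402) (nat_lit 5) (nat_lit 424) (nat_lit 5) (nat_lit 425) (nat_lit 5) (nat_lit 443) (nat_lit 428) (nat_lit 269)) (XT.nd (nat_lit 78) (nat_lit 0) (nat_lit 0) (XT.lf (nat_lit 0) (nat_lit 2220816743) (nat_lit 1672) (nat_lit 4018722437)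 (nat_lit 1748) (nat_lit 6502191195) (nat_lit 402) (nat_lit 5) (nat_lit 424) (nat_lit 5) (nat_lit 425) (nat_lit 5) (nat_lit 444) (nat_lit 428) (nat_lit 268)) (XT.lf (nat_lit 76) (nat_lit 2219799940) (nat_lit 0) (nat_lit 994004230) (nat_lit 1748) (nat_lit 9655717997) (nat_lit 403) (nat_lit 5) (nat_lit 402) (nat_lit 5) (nat_lit 425) (nat_lit 5) (nat_lit 445) (nat_lit 428) (nat_lit 267)))) (XT.nd (nat_lit 156) (nat_lit 0) (nat_lit 76) (XT.nd (nat_lit 78) (nat_lit 0) (nat_lit 0) (XT.lf (nat_lit 0) (nat_lit 4271214482) (nat_lit 1672) (nat_lit 4398409985) (nat_lit 1748) (nat_lit 4329361490) (nat_lit 403) (nat_lit 5) (nat_lit 425) (nat_lit 5) (nat_lit 426) (nat_lit 5) (nat_lit 446) (nat_lit 428) (nat_lit 266)) (XT.lf (nat_lit 76) (nat_lit 1989414030) (nat_lit 0) (nat_lit 3369203368) (nat_lit 1748) (nat_lit 7772252018) (nat_lit 404) (nat_lit 5) (nat_lit 403) (nat_lit 5) (nat_lit 426) (nat_lit 5) (nat_lit 447) (nat_lit 428)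 (nat_lit 265))) (XT.nd (nat_lit 78) (nat_lit 0) (nat_lit 0) (XT.lf (nat_lit 0) (nat_lit 6500225083) (nat_lit 1672) (nat_lit 4721810494) (nat_lit 1748) (nat_lit 2042712967) (nat_lit 404) (nat_lit 5) (nat_lit 426) (nat_lit 5) (nat_lit 427) (nat_lit 5) (nat_lit 448) (nat_lit 428) (nat_lit 264)) (XT.lf (nat_lit 76) (nat_lit 1819737835) (nat_lit 0) (nat_lit 5868778730) (nat_lit 1748) (nat_lit 5712318656) (nat_lit 405) (nat_lit 5) (nat_lit 404) (nat_lit 5) (nat_lit 427) (nat_lit 5) (nat_lit 449) (nat_lit 428) (nat_lit 263)))))) (XT.nd (nat_lit 546) (nat_lit 3420) (nat_lit 0) (XT.nd (nat_lit 234) (nat_lit 3040) (nat_lit 0) (XT.nd (nat_lit 78) (nat_lit 0) (nat_lit 76) (XT.lf (nat_lit 76) (nat_lit 8548132387) (nat_lit 0) (nat_lit 374001027) (nat_lit 1748) (nat_lit 4617085886) (nat_lit 405) (nat_lit 5) (nat_lit 404) (nat_lit 5) (nat_lit 427) (nat_lit 5) (nat_lit 450) (nat_lit 428) (nat_lit 262)) (XT.nd (nat_lit 78) (nat_lit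 0) (nat_lit 0) (XT.lf (nat_lit 76) (nat_lit 1711152511) (nat_lit 0) (nat_lit 8504426876) (nat_lit 1748) (nat_lit 3464095263) (nat_lit 406) (nat_lit 5) (nat_lit 405) (nat_lit 5) (nat_lit 428) (nat_lit 5) (nat_lit 451) (nat_lit 428) (nat_lit 261)) (XT.lf (nat_lit 76) (nat_lit 8604583117) (nat_lit 0) (nat_lit 2956492830) (nat_lit 1748) (nat_lit 2261346120) (nat_lit 406) (nat_lit 5) (nat_lit 405) (nat_lit 5) (nat_lit 428) (nat_lit 5) (nat_lit 452) (nat_lit 428) (nat_lit 260)))) (XT.nd (nat_lit 156) (nat_lit 1444) (nat_lit 0) (XT.nd (nat_lit 78) (nat_lit 76) (nat_lit 0) (XT.lf (nat_lit 0) (nat_lit 1664085045) (nat_lit 1672) (nat_lit 11288178706) (nat_lit 1748) (nat_lit 1015391518) (nat_lit 384) (nat_lit 5) (nat_lit 406) (nat_lit 5) (nat_lit 407) (nat_lit 5) (nat_lit 453) (nat_lit 428) (nat_lit 259)) (XT.lf (nat_lit 0) (nat_lit 297455393) (nat_lit 1748) (nat_lit 5390317585) (nat_lit 76) (nat_lit 8427086718) (nat_lit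 383) (nat_lit 5) (nat_lit 406) (nat_lit 5) (nat_lit 384) (nat_lit 5) (nat_lit 454) (nat_lit 428) (nat_lit 258))) (XT.nd (nat_lit 78) (nat_lit 0) (nat_lit 0) (XT.lf (nat_lit 0) (nat_lit 1624777572) (nat_lit 1520) (nat_lit 12596749565) (nat_lit 76) (nat_lit 43316643) (nat_lit 364) (nat_lit 5) (nat_lit 384) (nat_lit 5) (nat_lit 365) (nat_lit 5) (nat_lit 455) (nat_lit 428) (nat_lit 257)) (XT.lf (nat_lit 0) (nat_lit 3043548905) (nat_lit 1520) (nat_lit 5522386958) (nat_lit 76) (nat_lit 5850599600) (nat_lit 364) (nat_lit 5) (nat_lit 384) (nat_lit 5) (nat_lit 365) (nat_lit 5) (nat_lit 456) (nat_lit 428) (nat_lit 256))))) (XT.nd (nat_lit 234) (nat_lit 1672) (nat_lit 0) (XT.nd (nat_lit 78) (nat_lit 912) (nat_lit 0) (XT.lf (nat_lit 0) (nat_lit 1707904177) (nat_lit 836) (nat_lit 2784884179) (nat_lit 912) (nat_lit 10078436624) (nat_lit 353) (nat_lit 5) (nat_lit 364) (nat_lit 5) (nat_lit 365) (nat_lit 5) (nat_lit 457) (nat_lit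 428) (nat_lit 255)) (XT.nd (nat_lit 78) (nat_lit 912) (nat_lit 0) (XT.lf (nat_lit 0) (nat_lit 6019655112) (nat_lit 912) (nat_lit 5599153059) (nat_lit 76) (nat_lit 3109233006) (nat_lit 353) (nat_lit 5) (nat_lit 365) (nat_lit 5) (nat_lit 354) (nat_lit 5) (nat_lit 458) (nat_lit 428) (nat_lit 254)) (XT.lf (nat_lit 0) (nat_lit 1807625902) (nat_lit 912) (nat_lit 5790921546) (nat_lit 988) (nat_lit 7289022112) (nat_lit 341) (nat_lit 5) (nat_lit 353) (nat_lit 5) (nat_lit 354) (nat_lit 5) (nat_lit 459) (nat_lit 428) (nat_lit 253)))) (XT.nd (nat_lit 156) (nat_lit 836) (nat_lit 0) (XT.nd (nat_lit 78) (nat_lit 836) (nat_lit 0) (XT.lf (nat_lit 0) (nat_lit 9239269181) (nat_lit 988) (nat_lit 5620409949) (nat_lit 76) (nat_lit 190009868) (nat_lit 341) (nat_lit 5) (nat_lit 354) (nat_lit 5) (nat_lit 342) (nat_lit 5) (nat_lit 460) (nat_lit 428) (nat_lit 252)) (XT.lf (nat_lit 0) (nat_lit 1967865283) (nat_lit 836) (nat_lit 8987667895)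 (nat_lit 912) (nat_lit 4258668498) (nat_lit 330) (nat_lit 5) (nat_lit 341) (nat_lit 5) (nat_lit 342) (nat_lit 5) (nat_lit 461) (nat_lit 428) (nat_lit 251))) (XT.nd (nat_lit 78) (nat_lit 836) (nat_lit 0) (XT.lf (nat_lit 0) (nat_lit 9776236595) (nat_lit 836) (nat_lit 2959316128) (nat_lit 912) (nat_lit 2645868582) (nat_lit 330) (nat_lit 5) (nat_lit 341) (nat_lit 5) (nat_lit 342) (nat_lit 5) (nat_lit 462) (nat_lit 428) (nat_lit 250)) (XT.lf (nat_lit 0) (nat_lit 2188917099) (nat_lit 836) (nat_lit 12389056038) (nat_lit 912) (nat_lit 973481380) (nat_lit 319) (nat_lit 5) (nat_lit 330) (nat_lit 5) (nat_lit 331) (nat_lit 5) (nat_lit 463) (nat_lit 428) (nat_lit 249))))))) (XT.nd (nat_lit 1092) (nat_lit 4256) (nat_lit 0) (XT.nd (nat_lit 546) (nat_lit 2812) (nat_lit 0) (XT.nd (nat_lit 234) (nat_lit 1444) (nat_lit 0) (XT.nd (nat_lit 78) (nat_lit 760) (nat_lit 0) (XT.lf (nat_lit 0) (nat_lit 772139496) (nat_lit 912) (nat_lit 5541789946)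 (nat_lit 76) (nat_lit 9409881031) (nat_lit 318) (nat_lit 5) (nat_lit 330) (nat_lit 5) (nat_lit 319) (nat_lit 5) (nat_lit 464) (nat_lit 428) (nat_lit 248)) (XT.nd (nat_lit 78) (nat_lit 0) (nat_lit 0) (XT.lf (nat_lit 0) (nat_lit 2453324521) (nat_lit 760) (nat_lit 94342307) (nat_lit 836) (nat_lit 13351662347) (nat_lit 308) (nat_lit 5) (nat_lit 318) (nat_lit 5) (nat_lit 319) (nat_lit 5) (nat_lit 465) (nat_lit 428) (nat_lit 247)) (XT.lf (nat_lit 0) (nat_lit 4428909759) (nat_lit 836) (nat_lit 5442863003) (nat_lit 76) (nat_lit 6205186190) (nat_lit 308) (nat_lit 5) (nat_lit 319) (nat_lit 5) (nat_lit 309) (nat_lit 5) (nat_lit 466) (nat_lit 428) (nat_lit 246)))) (XT.nd (nat_lit 156) (nat_lit 684) (nat_lit 0) (XT.nd (nat_lit 78) (nat_lit 0) (nat_lit 0) (XT.lf (nat_lit 0) (nat_lit 2748025037) (nat_lit 760) (nat_lit 3610566021) (nat_lit 836) (nat_lit 9899338705) (nat_lit 298) (nat_lit 5) (nat_lit 308) (nat_lit 5) (nat_lit 309)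 (nat_lit 5) (nat_lit 467) (nat_lit 428) (nat_lit 245)) (XT.lf (nat_lit 0) (nat_lit 8374101179) (nat_lit 836) (nat_lit 5291380337) (nat_lit 76) (nat_lit 2776098387) (nat_lit 298) (nat_lit 5) (nat_lit 309) (nat_lit 5) (nat_lit 299) (nat_lit 5) (nat_lit 468) (nat_lit 428) (nat_lit 244))) (XT.nd (nat_lit 78) (nat_lit 0) (nat_lit 0) (XT.lf (nat_lit 0) (nat_lit 3100585424) (nat_lit 684) (nat_lit 7365972364) (nat_lit 760) (nat_lit 6161617058) (nat_lit 289) (nat_lit 5) (nat_lit 298) (nat_lit 5) (nat_lit 299) (nat_lit 5) (nat_lit 469) (nat_lit 428) (nat_lit 243)) (XT.lf (nat_lit 0) (nat_lit 11724484282) (nat_lit 684) (nat_lit 904577050) (nat_lit 760) (nat_lit 4188880838) (nat_lit 289) (nat_lit 5) (nat_lit 298) (nat_lit 5) (nat_lit 299) (nat_lit 5) (nat_lit 470) (nat_lit 428) (nat_lit 242))))) (XT.nd (nat_lit 234) (nat_lit 1292) (nat_lit 0) (XT.nd (nat_lit 78) (nat_lit 760) (nat_lit 0) (XT.lf (nat_lit 0) (nat_lit 3510855943)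 (nat_lit 760) (nat_lit 11376502531) (nat_lit 836) (nat_lit 2123099844) (nat_lit 279) (nat_lit 5) (nat_lit 289) (nat_lit 5) (nat_lit 290) (nat_lit 5) (nat_lit 471) (nat_lit 428) (nat_lit 241)) (XT.nd (nat_lit 78) (nat_lit 684) (nat_lit 0) (XT.lf (nat_lit 0) (nat_lit 17474794) (nat_lit 836) (nat_lit 4863631997) (nat_lit 76) (nat_lit 12325058896) (nat_lit 278) (nat_lit 5) (nat_lit 289) (nat_lit 5) (nat_lit 279) (nat_lit 5) (nat_lit 472) (nat_lit 428) (nat_lit 240)) (XT.lf (nat_lit 0) (nat_lit 2202867751) (nat_lit 760) (nat_lit 13441106744) (nat_lit 76) (nat_lit 1760927430) (nat_lit 269) (nat_lit 5) (nat_lit 279) (nat_lit 5) (nat_lit 270) (nat_lit 5) (nat_lit 473) (nat_lit 428) (nat_lit 239)))) (XT.nd (nat_lit 156) (nat_lit 608) (nat_lit 0) (XT.nd (nat_lit 78) (nat_lit 684) (nat_lit 0) (XT.lf (nat_lit 0) (nat_lit 4490243398) (nat_lit 760) (nat_lit 4613417997) (nat_lit 76) (nat_lit 8502790016) (nat_lit 269) (nat_lit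 5) (nat_lit 279) (nat_lit 5) (nat_lit 270) (nat_lit 5) (nat_lit 474) (nat_lit 428) (nat_lit 238)) (XT.lf (nat_lit 0) (nat_lit 4441611148) (nat_lit 684) (nat_lit 2403824615) (nat_lit 760) (nat_lit 10966158680) (nat_lit 260) (nat_lit 5) (nat_lit 269) (nat_lit 5) (nat_lit 270) (nat_lit 5) (nat_lit 475) (nat_lit 428) (nat_lit 237))) (XT.nd (nat_lit 78) (nat_lit 608) (nat_lit 0) (XT.lf (nat_lit 0) (nat_lit 9300969145) (nat_lit 760) (nat_lit 4316461348) (nat_lit 76) (nat_lit 4402348960) (nat_lit 260) (nat_lit 5) (nat_lit 270) (nat_lit 5) (nat_lit 261) (nat_lit 5) (nat_lit 476) (nat_lit 428) (nat_lit 236)) (XT.lf (nat_lit 0) (nat_lit 4959859574) (nat_lit 608) (nat_lit 6887317969) (nat_lit 684) (nat_lit 6384123123) (nat_lit 252) (nat_lit 5) (nat_lit 260) (nat_lit 5) (nat_lit 261) (nat_lit 5) (nat_lit 477) (nat_lit 428) (nat_lit 235)))))) (XT.nd (nat_lit 546) (nat_lit 2280) (nat_lit 0) (XT.nd (nat_lit 234) (nat_lit 1216)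 (nat_lit 0) (XT.nd (nat_lit 78) (nat_lit 760) (nat_lit 0) (XT.lf (nat_lit 0) (nat_lit 14466838346) (nat_lit 684) (nat_lit 3973780785) (nat_lit 76) (nat_lit 5986318) (nat_lit 252) (nat_lit 5) (nat_lit 261) (nat_lit 5) (nat_lit 253) (nat_lit 5) (nat_lit 478) (nat_lit 428) (nat_lit 234)) (XT.nd (nat_lit 78) (nat_lit 76) (nat_lit 0) (XT.lf (nat_lit 0) (nat_lit 5529406775) (nat_lit 684) (nat_lit 11684642089) (nat_lit 760) (nat_lit 1450667976) (nat_lit 243) (nat_lit 5) (nat_lit 252) (nat_lit 5) (nat_lit 253) (nat_lit 5) (nat_lit 479) (nat_lit 428) (nat_lit 233)) (XT.lf (nat_lit 0) (nat_lit 1134725444) (nat_lit 760) (nat_lit 3625013322) (nat_lit 76) (nat_lit 14126898193) (nat_lit 242) (nat_lit 5) (nat_lit 252) (nat_lit 5) (nat_lit 243) (nat_lit 5) (nat_lit 480) (nat_lit 428) (nat_lit 232)))) (XT.nd (nat_lit 156) (nat_lit 608) (nat_lit 0) (XT.nd (nat_lit 78) (nat_lit 0) (nat_lit 0) (XT.lf (nat_lit 0) (nat_lit 3801358576)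 (nat_lit 684) (nat_lit 12988241231) (nat_lit 76) (nat_lit 2322228200) (nat_lit 234) (nat_lit 5) (nat_lit 243) (nat_lit 5) (nat_lit 235) (nat_lit 5) (nat_lit 481) (nat_lit 428) (nat_lit 231)) (XT.lf (nat_lit 0) (nat_lit 6571201482) (nat_lit 684) (nat_lit 3263721906) (nat_lit 76) (nat_lit 9505605309) (nat_lit 234) (nat_lit 5) (nat_lit 243) (nat_lit 5) (nat_lit 235) (nat_lit 5) (nat_lit 482) (nat_lit 428) (nat_lit 230))) (XT.nd (nat_lit 78) (nat_lit 0) (nat_lit 0) (XT.lf (nat_lit 0) (nat_lit 6736481217) (nat_lit 608) (nat_lit 2697686770) (nat_lit 684) (nat_lit 10138884175) (nat_lit 226) (nat_lit 5) (nat_lit 234) (nat_lit 5) (nat_lit 235) (nat_lit 5) (nat_lit 483) (nat_lit 428) (nat_lit 229)) (XT.lf (nat_lit 0) (nat_lit 12400244593) (nat_lit 684) (nat_lit 2865979482) (nat_lit 76) (nat_lit 4543088240) (nat_lit 226) (nat_lit 5) (nat_lit 235) (nat_lit 5) (nat_lit 227) (nat_lit 5) (nat_lit 484) (nat_lit 428) (nat_lit 228)))))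 (XT.nd (nat_lit 312) (nat_lit 1064) (nat_lit 0) (XT.nd (nat_lit 156) (nat_lit 684) (nat_lit 0) (XT.nd (nat_lit 78) (nat_lit 0) (nat_lit 0) (XT.lf (nat_lit 0) (nat_lit 7375810987) (nat_lit 532) (nat_lit 8109755620) (nat_lit 608) (nat_lit 4563535754) (nat_lit 219) (nat_lit 5) (nat_lit 226) (nat_lit 5) (nat_lit 227) (nat_lit 5) (nat_lit 485) (nat_lit 428) (nat_lit 227)) (XT.lf (nat_lit 0) (nat_lit 17854250530) (nat_lit 532) (nat_lit 791815144) (nat_lit 608) (nat_lit 1647356228) (nat_lit 219) (nat_lit 5) (nat_lit 226) (nat_lit 5) (nat_lit 227) (nat_lit 5) (nat_lit 486) (nat_lit 428) (nat_lit 226))) (XT.nd (nat_lit 78) (nat_lit 0) (nat_lit 0) (XT.lf (nat_lit 0) (nat_lit 1400297380) (nat_lit 684) (nat_lit 12495098996) (nat_lit 76) (nat_lit 6645250985) (nat_lit 210) (nat_lit 5) (nat_lit 219) (nat_lit 5) (nat_lit 211) (nat_lit 5) (nat_lit 487) (nat_lit 428) (nat_lit 225)) (XT.lf (nat_lit 0) (nat_lit 4502955912) (nat_lit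 684) (nat_lit 2042763170) (nat_lit 76) (nat_lit 14246561196) (nat_lit 210) (nat_lit 5) (nat_lit 219) (nat_lit 5) (nat_lit 211) (nat_lit 5) (nat_lit 488) (nat_lit 428) (nat_lit 224)))) (XT.nd (nat_lit 156) (nat_lit 532) (nat_lit 0) (XT.nd (nat_lit 78) (nat_lit 0) (nat_lit 0) (XT.lf (nat_lit 0) (nat_lit 7725343540) (nat_lit 608) (nat_lit 12328301350) (nat_lit 76) (nat_lit 994150312) (nat_lit 203) (nat_lit 5) (nat_lit 211) (nat_lit 5) (nat_lit 204) (nat_lit 5) (nat_lit 489) (nat_lit 428) (nat_lit 223)) (XT.lf (nat_lit 0) (nat_lit 11063860938) (nat_lit 608) (nat_lit 1633856932) (nat_lit 76) (nat_lit 8609671731) (nat_lit 203) (nat_lit 5) (nat_lit 211) (nat_lit 5) (nat_lit 204) (nat_lit 5) (nat_lit 490) (nat_lit 428) (nat_lit 222))) (XT.nd (nat_lit 78) (nat_lit 0) (nat_lit 0) (XT.lf (nat_lit 0) (nat_lit 9390818094) (nat_lit 532) (nat_lit 5133943270) (nat_lit 608) (nat_lit 7046305028) (nat_lit 196) (nat_lit 5) (nat_lit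 203) (nat_lit 5) (nat_lit 204) (nat_lit 5) (nat_lit 491) (nat_lit 428) (nat_lit 221)) (XT.lf (nat_lit 0) (nat_lit 18077367452) (nat_lit 608) (nat_lit 1205369062) (nat_lit 76) (nat_lit 2556833156) (nat_lit 196) (nat_lit 5) (nat_lit 204) (nat_lit 5) (nat_lit 197) (nat_lit 5) (nat_lit 492) (nat_lit 428) (nat_lit 220))))))))
noncomputable def xc205 : XT := (XT.nd (nat_lit 54444) (nat_lit 0) (nat_lit 18164) (XT.nd (nat_lit 1092) (nat_lit 2356) (nat_lit 0) (XT.nd (nat_lit 546) (nat_lit 1900) (nat_lit 0) (XT.nd (nat_lit 234) (nat_lit 912) (nat_lit 0) (XT.nd (nat_lit 78) (nat_lit 608) (nat_lit 0) (XT.lf (nat_lit 0) (nat_lit 10080475444) (nat_lit 456) (nat_lit 11714795784) (nat_lit 532) (nat_lit 316289527) (nat_lit 190) (nat_lit 5) (nat_lit 196) (nat_lit 5) (nat_lit 197) (nat_lit 5) (nat_lit 493) (nat_lit 428) (nat_lit 219)) (XT.nd (nat_lit 78) (nat_lit 532) (nat_lit 0) (XT.lf (nat_lit 0) (nat_lit 3159552924) (nat_lit 532)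 (nat_lit 808041575) (nat_lit 76) (nat_lit 18420925150) (nat_lit 189) (nat_lit 5) (nat_lit 196) (nat_lit 5) (nat_lit 190) (nat_lit 5) (nat_lit 494) (nat_lit 428) (nat_lit 218)) (XT.lf (nat_lit 0) (nat_lit 6791553090) (nat_lit 608) (nat_lit 11923682857) (nat_lit 76) (nat_lit 3953924940) (nat_lit 182) (nat_lit 5) (nat_lit 190) (nat_lit 5) (nat_lit 183) (nat_lit 5) (nat_lit 495) (nat_lit 428) (nat_lit 217)))) (XT.nd (nat_lit 156) (nat_lit 456) (nat_lit 0) (XT.nd (nat_lit 78) (nat_lit 456) (nat_lit 0) (XT.lf (nat_lit 0) (nat_lit 10522893963) (nat_lit 608) (nat_lit 447280025) (nat_lit 76) (nat_lit 11984709397) (nat_lit 182) (nat_lit 5) (nat_lit 190) (nat_lit 5) (nat_lit 183) (nat_lit 5) (nat_lit 496) (nat_lit 428) (nat_lit 216)) (XT.lf (nat_lit 0) (nat_lit 11401632980) (nat_lit 456) (nat_lit 2996321274) (nat_lit 532) (nat_lit 8846986629) (nat_lit 176) (nat_lit 5) (nat_lit 182) (nat_lit 5) (nat_lit 183) (nat_lit 5) (nat_lit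 497) (nat_lit 428) (nat_lit 215))) (XT.nd (nat_lit 78) (nat_lit 456) (nat_lit 0) (XT.lf (nat_lit 0) (nat_lit 18381999527) (nat_lit 532) (nat_lit 87123616) (nat_lit 76) (nat_lit 5071049066) (nat_lit 176) (nat_lit 5) (nat_lit 183) (nat_lit 5) (nat_lit 177) (nat_lit 5) (nat_lit 498) (nat_lit 428) (nat_lit 214)) (XT.lf (nat_lit 0) (nat_lit 12035722604) (nat_lit 456) (nat_lit 10503195622) (nat_lit 532) (nat_lit 1300528394) (nat_lit 170) (nat_lit 5) (nat_lit 176) (nat_lit 5) (nat_lit 177) (nat_lit 5) (nat_lit 499) (nat_lit 428) (nat_lit 213))))) (XT.nd (nat_lit 234) (nat_lit 912) (nat_lit 0) (XT.nd (nat_lit 78) (nat_lit 456) (nat_lit 0) (XT.lf (nat_lit 0) (nat_lit 237020826) (nat_lit 456) (nat_lit 2360050542) (nat_lit 532) (nat_lit 21547348272) (nat_lit 163) (nat_lit 5) (nat_lit 169) (nat_lit 5) (nat_lit 170) (nat_lit 5) (nat_lit 500) (nat_lit 428) (nat_lit 212)) (XT.nd (nat_lit 78) (nat_lit 456) (nat_lit 0) (XT.lf (nat_lit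 0) (nat_lit 6668828846) (nat_lit 532) (nat_lit 11829602320) (nat_lit 76) (nat_lit 5954618803) (nat_lit 163) (nat_lit 5) (nat_lit 170) (nat_lit 5) (nat_lit 164) (nat_lit 5) (nat_lit 501) (nat_lit 428) (nat_lit 211)) (XT.lf (nat_lit 0) (nat_lit 473929336) (nat_lit 456) (nat_lit 10362156175) (nat_lit 532) (nat_lit 13931488245) (nat_lit 157) (nat_lit 5) (nat_lit 163) (nat_lit 5) (nat_lit 164) (nat_lit 5) (nat_lit 502) (nat_lit 428) (nat_lit 210)))) (XT.nd (nat_lit 156) (nat_lit 532) (nat_lit 0) (XT.nd (nat_lit 78) (nat_lit 380) (nat_lit 0) (XT.lf (nat_lit 0) (nat_lit 13177520189) (nat_lit 456) (nat_lit 1983957186) (nat_lit 532) (nat_lit 9925416935) (nat_lit 157) (nat_lit 5) (nat_lit 163) (nat_lit 5) (nat_lit 164) (nat_lit 5) (nat_lit 503) (nat_lit 428) (nat_lit 209)) (XT.lf (nat_lit 0) (nat_lit 682609702) (nat_lit 380) (nat_lit 18933288906) (nat_lit 456) (nat_lit 5795854285) (nat_lit 152) (nat_lit 5) (nat_lit 157)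 (nat_lit 5) (nat_lit 158) (nat_lit 5) (nat_lit 504) (nat_lit 428) (nat_lit 208))) (XT.nd (nat_lit 78) (nat_lit 532) (nat_lit 0) (XT.lf (nat_lit 0) (nat_lit 13668275256) (nat_lit 380) (nat_lit 10579637251) (nat_lit 456) (nat_lit 1493428066) (nat_lit 152) (nat_lit 5) (nat_lit 157) (nat_lit 5) (nat_lit 158) (nat_lit 5) (nat_lit 505) (nat_lit 428) (nat_lit 207)) (XT.lf (nat_lit 0) (nat_lit 821900259) (nat_lit 456) (nat_lit 2036104036) (nat_lit 532) (nat_lit 23219123178) (nat_lit 145) (nat_lit 5) (nat_lit 151) (nat_lit 5) (nat_lit 152) (nat_lit 5) (nat_lit 506) (nat_lit 428) (nat_lit 206)))))) (XT.nd (nat_lit 546) (nat_lit 1140) (nat_lit 0) (XT.nd (nat_lit 234) (nat_lit 836) (nat_lit 0) (XT.nd (nat_lit 78) (nat_lit 380) (nat_lit 0) (XT.lf (nat_lit 0) (nat_lit 7397025056) (nat_lit 532) (nat_lit 12339630946) (nat_lit 76) (nat_lit 6680367435) (nat_lit 145) (nat_lit 5) (nat_lit 152) (nat_lit 5) (nat_lit 146) (nat_lit 5)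 (nat_lit 507) (nat_lit 428) (nat_lit 205)) (XT.nd (nat_lit 78) (nat_lit 0) (nat_lit 0) (XT.lf (nat_lit 0) (nat_lit 825489008) (nat_lit 380) (nat_lit 11215891718) (nat_lit 456) (nat_lit 14722047363) (nat_lit 140) (nat_lit 5) (nat_lit 145) (nat_lit 5) (nat_lit 146) (nat_lit 5) (nat_lit 508) (nat_lit 428) (nat_lit 204)) (XT.lf (nat_lit 0) (nat_lit 14415088096) (nat_lit 380) (nat_lit 2442096131) (nat_lit 456) (nat_lit 10258007211) (nat_lit 140) (nat_lit 5) (nat_lit 145) (nat_lit 5) (nat_lit 146) (nat_lit 5) (nat_lit 509) (nat_lit 428) (nat_lit 203)))) (XT.nd (nat_lit 156) (nat_lit 456) (nat_lit 0) (XT.nd (nat_lit 78) (nat_lit 0) (nat_lit 0) (XT.lf (nat_lit 0) (nat_lit 764219020) (nat_lit 380) (nat_lit 21048122276) (nat_lit 456) (nat_lit 5660789794) (nat_lit 135) (nat_lit 5) (nat_lit 140) (nat_lit 5) (nat_lit 141) (nat_lit 5) (nat_lit 510) (nat_lit 428) (nat_lit 202)) (XT.lf (nat_lit 0) (nat_lit 14647589026) (nat_lit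 380) (nat_lit 12316172905) (nat_lit 456) (nat_lit 872526144) (nat_lit 135) (nat_lit 5) (nat_lit 140) (nat_lit 5) (nat_lit 141) (nat_lit 5) (nat_lit 511) (nat_lit 428) (nat_lit 201))) (XT.nd (nat_lit 78) (nat_lit 0) (nat_lit 0) (XT.lf (nat_lit 0) (nat_lit 577504528) (nat_lit 380) (nat_lit 3381058315) (nat_lit 456) (nat_lit 24247632699) (nat_lit 129) (nat_lit 5) (nat_lit 134) (nat_lit 5) (nat_lit 135) (nat_lit 5) (nat_lit 512) (nat_lit 428) (nat_lit 200)) (XT.lf (nat_lit 0) (nat_lit 8996863117) (nat_lit 456) (nat_lit 13833481531) (nat_lit 76) (nat_lit 5750597358) (nat_lit 129) (nat_lit 5) (nat_lit 135) (nat_lit 5) (nat_lit 130) (nat_lit 5) (nat_lit 513) (nat_lit 428) (nat_lit 199))))) (XT.nd (nat_lit 234) (nat_lit 760) (nat_lit 0) (XT.nd (nat_lit 78) (nat_lit 0) (nat_lit 0) (XT.lf (nat_lit 0) (nat_lit 212167168) (nat_lit 380) (nat_lit 13943561863) (nat_lit 456) (nat_lit 14807059992) (nat_lit 124) (nat_lit 5) (nat_lit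 129) (nat_lit 5) (nat_lit 130) (nat_lit 5) (nat_lit 514) (nat_lit 428) (nat_lit 198)) (XT.nd (nat_lit 78) (nat_lit 0) (nat_lit 0) (XT.lf (nat_lit 0) (nat_lit 14720427387) (nat_lit 380) (nat_lit 4786245861) (nat_lit 456) (nat_lit 9843823297) (nat_lit 124) (nat_lit 5) (nat_lit 129) (nat_lit 5) (nat_lit 130) (nat_lit 5) (nat_lit 515) (nat_lit 428) (nat_lit 197)) (XT.lf (nat_lit 0) (nat_lit 24990341400) (nat_lit 456) (nat_lit 262444832) (nat_lit 76) (nat_lit 4492659439) (nat_lit 124) (nat_lit 5) (nat_lit 130) (nat_lit 5) (nat_lit 125) (nat_lit 5) (nat_lit 516) (nat_lit 428) (nat_lit 196)))) (XT.nd (nat_lit 156) (nat_lit 380) (nat_lit 0) (XT.nd (nat_lit 78) (nat_lit 0) (nat_lit 0) (XT.lf (nat_lit 0) (nat_lit 552838465) (nat_lit 380) (nat_lit 15603534920) (nat_lit 76) (nat_lit 13989402159) (nat_lit 119) (nat_lit 5) (nat_lit 124) (nat_lit 5) (nat_lit 120) (nat_lit 5) (nat_lit 517) (nat_lit 428) (nat_lit 195)) (XT.lf (nat_lit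 0) (nat_lit 5901324833) (nat_lit 380) (nat_lit 944673631) (nat_lit 76) (nat_lit 23707525277) (nat_lit 119) (nat_lit 5) (nat_lit 124) (nat_lit 5) (nat_lit 120) (nat_lit 5) (nat_lit 518) (nat_lit 428) (nat_lit 194))) (XT.nd (nat_lit 52338) (nat_lit 0) (nat_lit 23104) (XT.lf (nat_lit 0) (nat_lit 11463002747) (nat_lit 456) (nat_lit 16797586397) (nat_lit 76) (nat_lit 2706714757) (nat_lit 114) (nat_lit 5) (nat_lit 120) (nat_lit 5) (nat_lit 115) (nat_lit 5) (nat_lit 519) (nat_lit 428) (nat_lit 193)) (XT.lf (nat_lit 0) (nat_lit 747537301) (nat_lit 0) (nat_lit 747537301) (nat_lit 1596) (nat_lit 4083632390) (nat_lit 418) (nat_lit 5) (nat_lit 418) (nat_lit 3) (nat_lit 439) (nat_lit 3) (nat_lit 429) (nat_lit 429) (nat_lit 282))))))) (XT.nd (nat_lit 1092) (nat_lit 3648) (nat_lit 0) (XT.nd (nat_lit 546) (nat_lit 1292) (nat_lit 0) (XT.nd (nat_lit 234) (nat_lit 0) (nat_lit 76) (XT.nd (nat_lit 78) (nat_lit 0) (nat_lit 0) (XT.lf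 (nat_lit 0) (nat_lit 3576524920) (nat_lit 1596) (nat_lit 4543754344) (nat_lit 1672) (nat_lit 3137198392) (nat_lit 418) (nat_lit 5) (nat_lit 439) (nat_lit 3) (nat_lit 440) (nat_lit 5) (nat_lit 430) (nat_lit 429) (nat_lit 281)) (XT.nd (nat_lit 78) (nat_lit 0) (nat_lit 76) (XT.lf (nat_lit 76) (nat_lit 668707161) (nat_lit 0) (nat_lit 3506154324) (nat_lit 1672) (nat_lit 7184686441) (nat_lit 419) (nat_lit 5) (nat_lit 418) (nat_lit 5) (nat_lit 440) (nat_lit 5) (nat_lit 431) (nat_lit 429) (nat_lit 280)) (XT.lf (nat_lit 0) (nat_lit 4809910202) (nat_lit 1596) (nat_lit 5431678138) (nat_lit 1672) (nat_lit 1221586151) (nat_lit 419) (nat_lit 5) (nat_lit 440) (nat_lit 5) (nat_lit 441) (nat_lit 5) (nat_lit 432) (nat_lit 429) (nat_lit 279)))) (XT.nd (nat_lit 156) (nat_lit 0) (nat_lit 76) (XT.nd (nat_lit 78) (nat_lit 0) (nat_lit 0) (XT.lf (nat_lit 0) (nat_lit 5467408547) (nat_lit 1596) (nat_lit 98045227) (nat_lit 1672) (nat_lit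 6003234445) (nat_lit 419) (nat_lit 5) (nat_lit 440) (nat_lit 5) (nat_lit 441) (nat_lit 5) (nat_lit 433) (nat_lit 429) (nat_lit 278)) (XT.lf (nat_lit 76) (nat_lit 5405812064) (nat_lit 0) (nat_lit 754136137) (nat_lit 1672) (nat_lit 5515935612) (nat_lit 420) (nat_lit 5) (nat_lit 419) (nat_lit 5) (nat_lit 441) (nat_lit 5) (nat_lit 434) (nat_lit 429) (nat_lit 277))) (XT.nd (nat_lit 78) (nat_lit 0) (nat_lit 0) (XT.lf (nat_lit 0) (nat_lit 6881009404) (nat_lit 1596) (nat_lit 798709932) (nat_lit 1672) (nat_lit 4105219798) (nat_lit 420) (nat_lit 5) (nat_lit 441) (nat_lit 5) (nat_lit 442) (nat_lit 5) (nat_lit 435) (nat_lit 429) (nat_lit 276)) (XT.lf (nat_lit 76) (nat_lit 4833015545) (nat_lit 0) (nat_lit 2807145577) (nat_lit 1672) (nat_lit 4255550107) (nat_lit 421) (nat_lit 5) (nat_lit 420) (nat_lit 5) (nat_lit 442) (nat_lit 5) (nat_lit 436) (nat_lit 429) (nat_lit 275))))) (XT.nd (nat_lit 234) (nat_lit 1520) (nat_lit 0) (XT.nd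 (nat_lit 78) (nat_lit 0) (nat_lit 0) (XT.lf (nat_lit 0) (nat_lit 8421463959) (nat_lit 1596) (nat_lit 1442165806) (nat_lit 1672) (nat_lit 2144938512) (nat_lit 421) (nat_lit 5) (nat_lit 442) (nat_lit 5) (nat_lit 443) (nat_lit 5) (nat_lit 437) (nat_lit 429) (nat_lit 274)) (XT.nd (nat_lit 78) (nat_lit 0) (nat_lit 76) (XT.lf (nat_lit 76) (nat_lit 4321311881) (nat_lit 0) (nat_lit 4931502649) (nat_lit 1672) (nat_lit 2870188202) (nat_lit 422) (nat_lit 5) (nat_lit 421) (nat_lit 5) (nat_lit 443) (nat_lit 5) (nat_lit 438) (nat_lit 429) (nat_lit 273)) (XT.lf (nat_lit 0) (nat_lit 10099173383) (nat_lit 1596) (nat_lit 2028409086) (nat_lit 1672) (nat_lit 112184310) (nat_lit 422) (nat_lit 5) (nat_lit 443) (nat_lit 5) (nat_lit 444) (nat_lit 5) (nat_lit 439) (nat_lit 429) (nat_lit 272)))) (XT.nd (nat_lit 156) (nat_lit 1596) (nat_lit 0) (XT.nd (nat_lit 78) (nat_lit 0) (nat_lit 0) (XT.lf (nat_lit 76) (nat_lit 3870822133) (nat_lit 0)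 (nat_lit 7137658556) (nat_lit 1672) (nat_lit 1349473357) (nat_lit 423) (nat_lit 5) (nat_lit 422) (nat_lit 5) (nat_lit 444) (nat_lit 5) (nat_lit 440) (nat_lit 429) (nat_lit 271)) (XT.lf (nat_lit 76) (nat_lit 9907960002) (nat_lit 0) (nat_lit 2030037808) (nat_lit 1672) (nat_lit 540474971) (nat_lit 423) (nat_lit 5) (nat_lit 422) (nat_lit 5) (nat_lit 444) (nat_lit 5) (nat_lit 441) (nat_lit 429) (nat_lit 270))) (XT.nd (nat_lit 78) (nat_lit 0) (nat_lit 0) (XT.lf (nat_lit 0) (nat_lit 313088546) (nat_lit 1672) (nat_lit 9121059459) (nat_lit 1748) (nat_lit 3166582415) (nat_lit 401) (nat_lit 5) (nat_lit 423) (nat_lit 5) (nat_lit 424) (nat_lit 5) (nat_lit 442) (nat_lit 429) (nat_lit 269)) (XT.lf (nat_lit 0) (nat_lit 1196056559) (nat_lit 1672) (nat_lit 3064315854) (nat_lit 1748) (nat_lit 8464605668) (nat_lit 401) (nat_lit 5) (nat_lit 423) (nat_lit 5) (nat_lit 424) (nat_lit 5) (nat_lit 443) (nat_lit 429) (nat_lit 268)))))) (XT.nd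 (nat_lit 546) (nat_lit 3724) (nat_lit 0) (XT.nd (nat_lit 234) (nat_lit 0) (nat_lit 76) (XT.nd (nat_lit 78) (nat_lit 0) (nat_lit 0) (XT.lf (nat_lit 0) (nat_lit 2112853389) (nat_lit 1672) (nat_lit 9711090611) (nat_lit 1748) (nat_lit 1027450881) (nat_lit 402) (nat_lit 5) (nat_lit 424) (nat_lit 5) (nat_lit 425) (nat_lit 5) (nat_lit 444) (nat_lit 429) (nat_lit 267)) (XT.nd (nat_lit 78) (nat_lit 0) (nat_lit 0) (XT.lf (nat_lit 0) (nat_lit 3086064194) (nat_lit 1672) (nat_lit 3505560127) (nat_lit 1748) (nat_lit 6387961560) (nat_lit 402) (nat_lit 5) (nat_lit 424) (nat_lit 5) (nat_lit 425) (nat_lit 5) (nat_lit 445) (nat_lit 429) (nat_lit 266)) (XT.lf (nat_lit 76) (nat_lit 2853827851) (nat_lit 0) (nat_lit 1232817072) (nat_lit 1748) (nat_lit 9023544944) (nat_lit 403) (nat_lit 5) (nat_lit 402) (nat_lit 5) (nat_lit 425) (nat_lit 5) (nat_lit 446) (nat_lit 429) (nat_lit 265)))) (XT.nd (nat_lit 156) (nat_lit 0) (nat_lit 76) (XT.nd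 (nat_lit 78) (nat_lit 0) (nat_lit 0) (XT.lf (nat_lit 0) (nat_lit 5147955648) (nat_lit 1672) (nat_lit 3890519251) (nat_lit 1748) (nat_lit 4204123803) (nat_lit 403) (nat_lit 5) (nat_lit 425) (nat_lit 5) (nat_lit 426) (nat_lit 5) (nat_lit 447) (nat_lit 429) (nat_lit 264)) (XT.lf (nat_lit 76) (nat_lit 2621141120) (nat_lit 0) (nat_lit 3624292743) (nat_lit 1748) (nat_lit 7131930021) (nat_lit 404) (nat_lit 5) (nat_lit 403) (nat_lit 5) (nat_lit 426) (nat_lit 5) (nat_lit 448) (nat_lit 429) (nat_lit 263))) (XT.nd (nat_lit 78) (nat_lit 0) (nat_lit 0) (XT.lf (nat_lit 0) (nat_lit 7393391752) (nat_lit 1672) (nat_lit 4218912943) (nat_lit 1748) (nat_lit 1901955933) (nat_lit 404) (nat_lit 5) (nat_lit 426) (nat_lit 5) (nat_lit 427) (nat_lit 5) (nat_lit 449) (nat_lit 429) (nat_lit 262)) (XT.lf (nat_lit 76) (nat_lit 2449536525) (nat_lit 0) (nat_lit 6144801346) (nat_lit 1748) (nat_lit 5058963580) (nat_lit 405) (nat_lit 5) (nat_lit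 404) (nat_lit 5) (nat_lit 427) (nat_lit 5) (nat_lit 450) (nat_lit 429) (nat_lit 261))))) (XT.nd (nat_lit 312) (nat_lit 2356) (nat_lit 0) (XT.nd (nat_lit 156) (nat_lit 1520) (nat_lit 0) (XT.nd (nat_lit 78) (nat_lit 0) (nat_lit 76) (XT.lf (nat_lit 76) (nat_lit 9300863597) (nat_lit 0) (nat_lit 537017363) (nat_lit 1748) (nat_lit 3956877163) (nat_lit 405) (nat_lit 5) (nat_lit 404) (nat_lit 5) (nat_lit 427) (nat_lit 5) (nat_lit 451) (nat_lit 429) (nat_lit 260)) (XT.lf (nat_lit 76) (nat_lit 2339465164) (nat_lit 0) (nat_lit 8806140910) (nat_lit 1748) (nat_lit 2792658095) (nat_lit 406) (nat_lit 5) (nat_lit 405) (nat_lit 5) (nat_lit 428) (nat_lit 5) (nat_lit 452) (nat_lit 429) (nat_lit 259))) (XT.nd (nat_lit 78) (nat_lit 1596) (nat_lit 0) (XT.lf (nat_lit 76) (nat_lit 9359115566) (nat_lit 0) (nat_lit 3144667291) (nat_lit 1748) (nat_lit 1580377873) (nat_lit 406) (nat_lit 5) (nat_lit 405) (nat_lit 5) (nat_lit 428) (nat_lit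 5) (nat_lit 453) (nat_lit 429) (nat_lit 258)) (XT.lf (nat_lit 0) (nat_lit 2291421020) (nat_lit 1672) (nat_lit 11620458283) (nat_lit 1748) (nat_lit 320647009) (nat_lit 384) (nat_lit 5) (nat_lit 406) (nat_lit 5) (nat_lit 407) (nat_lit 5) (nat_lit 454) (nat_lit 429) (nat_lit 257)))) (XT.nd (nat_lit 156) (nat_lit 836) (nat_lit 0) (XT.nd (nat_lit 78) (nat_lit 1444) (nat_lit 0) (XT.lf (nat_lit 0) (nat_lit 995242050) (nat_lit 1748) (nat_lit 4906071248) (nat_lit 76) (nat_lit 8481554461) (nat_lit 383) (nat_lit 5) (nat_lit 406) (nat_lit 5) (nat_lit 384) (nat_lit 5) (nat_lit 455) (nat_lit 429) (nat_lit 256)) (XT.lf (nat_lit 0) (nat_lit 2289910196) (nat_lit 1444) (nat_lit 49163065) (nat_lit 1520) (nat_lit 12196987880) (nat_lit 364) (nat_lit 5) (nat_lit 383) (nat_lit 5) (nat_lit 384) (nat_lit 5) (nat_lit 456) (nat_lit 429) (nat_lit 255))) (XT.nd (nat_lit 78) (nat_lit 836) (nat_lit 0) (XT.lf (nat_lit 0) (nat_lit 3772538450)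 (nat_lit 1520) (nat_lit 5041802531) (nat_lit 76) (nat_lit 5876728004) (nat_lit 364) (nat_lit 5) (nat_lit 384) (nat_lit 5) (nat_lit 365) (nat_lit 5) (nat_lit 457) (nat_lit 429) (nat_lit 254)) (XT.lf (nat_lit 0) (nat_lit 2329206058) (nat_lit 836) (nat_lit 2912268396) (nat_lit 912) (nat_lit 9607572130) (nat_lit 353) (nat_lit 5) (nat_lit 364) (nat_lit 5) (nat_lit 365) (nat_lit 5) (nat_lit 458) (nat_lit 429) (nat_lit 253))))))))
noncomputable def xc206 : XT := (XT.nd (nat_lit 2184) (nat_lit 7220) (nat_lit 0) (XT.nd (nat_lit 1092) (nat_lit 4560) (nat_lit 0) (XT.nd (nat_lit 546) (nat_lit 2964) (nat_lit 0) (XT.nd (nat_lit 234) (nat_lit 1748) (nat_lit 0) (XT.nd (nat_lit 78) (nat_lit 912) (nat_lit 0) (XT.lf (nat_lit 0) (nat_lit 6785503993) (nat_lit 912) (nat_lit 5121712464) (nat_lit 76) (nat_lit 3102058498) (nat_lit 353) (nat_lit 5) (nat_lit 365) (nat_lit 5) (nat_lit 354) (nat_lit 5) (nat_lit 459) (nat_lit 429) (nat_lit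 252)) (XT.nd (nat_lit 78) (nat_lit 0) (nat_lit 0) (XT.lf (nat_lit 0) (nat_lit 2429324289) (nat_lit 912) (nat_lit 5957795644) (nat_lit 988) (nat_lit 6785059253) (nat_lit 341) (nat_lit 5) (nat_lit 353) (nat_lit 5) (nat_lit 354) (nat_lit 5) (nat_lit 460) (nat_lit 429) (nat_lit 251)) (XT.lf (nat_lit 0) (nat_lit 10047848729) (nat_lit 988) (nat_lit 5145544498) (nat_lit 76) (nat_lit 144411965) (nat_lit 341) (nat_lit 5) (nat_lit 354) (nat_lit 5) (nat_lit 342) (nat_lit 5) (nat_lit 461) (nat_lit 429) (nat_lit 250)))) (XT.nd (nat_lit 156) (nat_lit 912) (nat_lit 0) (XT.nd (nat_lit 78) (nat_lit 0) (nat_lit 0) (XT.lf (nat_lit 0) (nat_lit 2590632596) (nat_lit 836) (nat_lit 9199362037) (nat_lit 912) (nat_lit 3715790236) (nat_lit 330) (nat_lit 5) (nat_lit 341) (nat_lit 5) (nat_lit 342) (nat_lit 5) (nat_lit 462) (nat_lit 429) (nat_lit 249)) (XT.lf (nat_lit 0) (nat_lit 10543731922) (nat_lit 836) (nat_lit 3049816945) (nat_lit 912)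 (nat_lit 2083049060) (nat_lit 330) (nat_lit 5) (nat_lit 341) (nat_lit 5) (nat_lit 342) (nat_lit 5) (nat_lit 463) (nat_lit 429) (nat_lit 248))) (XT.nd (nat_lit 78) (nat_lit 76) (nat_lit 0) (XT.lf (nat_lit 0) (nat_lit 2813474934) (nat_lit 836) (nat_lit 12651085114) (nat_lit 912) (nat_lit 385644478) (nat_lit 319) (nat_lit 5) (nat_lit 330) (nat_lit 5) (nat_lit 331) (nat_lit 5) (nat_lit 464) (nat_lit 429) (nat_lit 247)) (XT.lf (nat_lit 0) (nat_lit 1375172085) (nat_lit 912) (nat_lit 5075061493) (nat_lit 76) (nat_lit 9575937475) (nat_lit 318) (nat_lit 5) (nat_lit 330) (nat_lit 5) (nat_lit 319) (nat_lit 5) (nat_lit 465) (nat_lit 429) (nat_lit 246))))) (XT.nd (nat_lit 234) (nat_lit 1444) (nat_lit 0) (XT.nd (nat_lit 78) (nat_lit 760) (nat_lit 0) (XT.lf (nat_lit 0) (nat_lit 3076155499) (nat_lit 760) (nat_lit 102258355) (nat_lit 836) (nat_lit 13026949331) (nat_lit 308) (nat_lit 5) (nat_lit 318) (nat_lit 5) (nat_lit 319) (nat_lit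 5) (nat_lit 466) (nat_lit 429) (nat_lit 245)) (XT.nd (nat_lit 78) (nat_lit 760) (nat_lit 0) (XT.lf (nat_lit 0) (nat_lit 5085874762) (nat_lit 836) (nat_lit 4977449473) (nat_lit 76) (nat_lit 6323456454) (nat_lit 308) (nat_lit 5) (nat_lit 319) (nat_lit 5) (nat_lit 309) (nat_lit 5) (nat_lit 467) (nat_lit 429) (nat_lit 244)) (XT.lf (nat_lit 0) (nat_lit 3373478231) (nat_lit 760) (nat_lit 3673230634) (nat_lit 836) (nat_lit 9524817725) (nat_lit 298) (nat_lit 5) (nat_lit 308) (nat_lit 5) (nat_lit 309) (nat_lit 5) (nat_lit 468) (nat_lit 429) (nat_lit 243)))) (XT.nd (nat_lit 156) (nat_lit 760) (nat_lit 0) (XT.nd (nat_lit 78) (nat_lit 684) (nat_lit 0) (XT.lf (nat_lit 0) (nat_lit 9091591016) (nat_lit 836) (nat_lit 4826627083) (nat_lit 76) (nat_lit 2840857121) (nat_lit 298) (nat_lit 5) (nat_lit 309) (nat_lit 5) (nat_lit 299) (nat_lit 5) (nat_lit 469) (nat_lit 429) (nat_lit 242)) (XT.lf (nat_lit 0) (nat_lit 3729424172) (nat_lit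 684) (nat_lit 7489368335) (nat_lit 760) (nat_lit 5730758229) (nat_lit 289) (nat_lit 5) (nat_lit 298) (nat_lit 5) (nat_lit 299) (nat_lit 5) (nat_lit 470) (nat_lit 429) (nat_lit 241))) (XT.nd (nat_lit 78) (nat_lit 760) (nat_lit 0) (XT.lf (nat_lit 0) (nat_lit 12514686751) (nat_lit 684) (nat_lit 899214202) (nat_lit 760) (nat_lit 3729431818) (nat_lit 289) (nat_lit 5) (nat_lit 298) (nat_lit 5) (nat_lit 299) (nat_lit 5) (nat_lit 471) (nat_lit 429) (nat_lit 240)) (XT.lf (nat_lit 0) (nat_lit 4143874643) (nat_lit 760) (nat_lit 11566856333) (nat_lit 836) (nat_lit 1629107262) (nat_lit 279) (nat_lit 5) (nat_lit 289) (nat_lit 5) (nat_lit 290) (nat_lit 5) (nat_lit 472) (nat_lit 429) (nat_lit 239)))))) (XT.nd (nat_lit 546) (nat_lit 2508) (nat_lit 0) (XT.nd (nat_lit 234) (nat_lit 1292) (nat_lit 0) (XT.nd (nat_lit 78) (nat_lit 684) (nat_lit 0) (XT.lf (nat_lit 0) (nat_lit 536862408) (nat_lit 836) (nat_lit 4401936198) (nat_lit 76)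 (nat_lit 12600805193) (nat_lit 278) (nat_lit 5) (nat_lit 289) (nat_lit 5) (nat_lit 279) (nat_lit 5) (nat_lit 473) (nat_lit 429) (nat_lit 238)) (XT.nd (nat_lit 78) (nat_lit 0) (nat_lit 0) (XT.lf (nat_lit 0) (nat_lit 2759669371) (nat_lit 760) (nat_lit 13144368116) (nat_lit 76) (nat_lit 1838409122) (nat_lit 269) (nat_lit 5) (nat_lit 279) (nat_lit 5) (nat_lit 270) (nat_lit 5) (nat_lit 474) (nat_lit 429) (nat_lit 237)) (XT.lf (nat_lit 0) (nat_lit 5082738721) (nat_lit 760) (nat_lit 4151215021) (nat_lit 76) (nat_lit 8714280270) (nat_lit 269) (nat_lit 5) (nat_lit 279) (nat_lit 5) (nat_lit 270) (nat_lit 5) (nat_lit 475) (nat_lit 429) (nat_lit 236)))) (XT.nd (nat_lit 156) (nat_lit 608) (nat_lit 0) (XT.nd (nat_lit 78) (nat_lit 0) (nat_lit 0) (XT.lf (nat_lit 0) (nat_lit 5081266869) (nat_lit 684) (nat_lit 2397487700) (nat_lit 760) (nat_lit 10678856680) (nat_lit 260) (nat_lit 5) (nat_lit 269) (nat_lit 5) (nat_lit 270) (nat_lit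 5) (nat_lit 476) (nat_lit 429) (nat_lit 235)) (XT.lf (nat_lit 0) (nat_lit 9974011449) (nat_lit 760) (nat_lit 3853099112) (nat_lit 76) (nat_lit 4543042768) (nat_lit 260) (nat_lit 5) (nat_lit 270) (nat_lit 5) (nat_lit 261) (nat_lit 5) (nat_lit 477) (nat_lit 429) (nat_lit 234))) (XT.nd (nat_lit 78) (nat_lit 0) (nat_lit 0) (XT.lf (nat_lit 0) (nat_lit 5605131838) (nat_lit 608) (nat_lit 6960008189) (nat_lit 684) (nat_lit 6020890533) (nat_lit 252) (nat_lit 5) (nat_lit 260) (nat_lit 5) (nat_lit 261) (nat_lit 5) (nat_lit 478) (nat_lit 429) (nat_lit 233)) (XT.lf (nat_lit 0) (nat_lit 15228176408) (nat_lit 684) (nat_lit 3508600712) (nat_lit 76) (nat_lit 69050080) (nat_lit 252) (nat_lit 5) (nat_lit 261) (nat_lit 5) (nat_lit 253) (nat_lit 5) (nat_lit 479) (nat_lit 429) (nat_lit 232))))) (XT.nd (nat_lit 234) (nat_lit 1140) (nat_lit 0) (XT.nd (nat_lit 78) (nat_lit 684) (nat_lit 0) (XT.lf (nat_lit 0) (nat_lit 6181067339) (nat_lit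 684) (nat_lit 11843521871) (nat_lit 760) (nat_lit 1003831746) (nat_lit 243) (nat_lit 5) (nat_lit 252) (nat_lit 5) (nat_lit 253) (nat_lit 5) (nat_lit 480) (nat_lit 429) (nat_lit 231)) (XT.nd (nat_lit 78) (nat_lit 608) (nat_lit 0) (XT.lf (nat_lit 0) (nat_lit 1617820675) (nat_lit 760) (nat_lit 3160677199) (nat_lit 76) (nat_lit 14476409069) (nat_lit 242) (nat_lit 5) (nat_lit 252) (nat_lit 5) (nat_lit 243) (nat_lit 5) (nat_lit 481) (nat_lit 429) (nat_lit 230)) (XT.lf (nat_lit 0) (nat_lit 4332731042) (nat_lit 684) (nat_lit 12705864493) (nat_lit 76) (nat_lit 2446112380) (nat_lit 234) (nat_lit 5) (nat_lit 243) (nat_lit 5) (nat_lit 235) (nat_lit 5) (nat_lit 482) (nat_lit 429) (nat_lit 229)))) (XT.nd (nat_lit 156) (nat_lit 532) (nat_lit 0) (XT.nd (nat_lit 78) (nat_lit 608) (nat_lit 0) (XT.lf (nat_lit 0) (nat_lit 7149042467) (nat_lit 684) (nat_lit 2797485008) (nat_lit 76) (nat_lit 9771638608) (nat_lit 234) (nat_lit 5) (nat_lit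 243) (nat_lit 5) (nat_lit 235) (nat_lit 5) (nat_lit 483) (nat_lit 429) (nat_lit 228)) (XT.lf (nat_lit 0) (nat_lit 7399225393) (nat_lit 608) (nat_lit 2664717857) (nat_lit 684) (nat_lit 9891508070) (nat_lit 226) (nat_lit 5) (nat_lit 234) (nat_lit 5) (nat_lit 235) (nat_lit 5) (nat_lit 484) (nat_lit 429) (nat_lit 227))) (XT.nd (nat_lit 78) (nat_lit 532) (nat_lit 0) (XT.lf (nat_lit 0) (nat_lit 13081245820) (nat_lit 684) (nat_lit 2397306838) (nat_lit 76) (nat_lit 4718050634) (nat_lit 226) (nat_lit 5) (nat_lit 235) (nat_lit 5) (nat_lit 227) (nat_lit 5) (nat_lit 485) (nat_lit 429) (nat_lit 226)) (XT.lf (nat_lit 0) (nat_lit 8045858965) (nat_lit 532) (nat_lit 8177317808) (nat_lit 608) (nat_lit 4218118931) (nat_lit 219) (nat_lit 5) (nat_lit 226) (nat_lit 5) (nat_lit 227) (nat_lit 5) (nat_lit 486) (nat_lit 429) (nat_lit 225))))))) (XT.nd (nat_lit 1092) (nat_lit 3496) (nat_lit 0) (XT.nd (nat_lit 546) (nat_lit 1976) (nat_lit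 0) (XT.nd (nat_lit 234) (nat_lit 1064) (nat_lit 0) (XT.nd (nat_lit 78) (nat_lit 684) (nat_lit 0) (XT.lf (nat_lit 0) (nat_lit 18723621579) (nat_lit 532) (nat_lit 714874070) (nat_lit 608) (nat_lit 1252178315) (nat_lit 219) (nat_lit 5) (nat_lit 226) (nat_lit 5) (nat_lit 227) (nat_lit 5) (nat_lit 487) (nat_lit 429) (nat_lit 224)) (XT.nd (nat_lit 78) (nat_lit 0) (nat_lit 0) (XT.lf (nat_lit 0) (nat_lit 1846501521) (nat_lit 684) (nat_lit 12222348907) (nat_lit 76) (nat_lit 6874028497) (nat_lit 210) (nat_lit 5) (nat_lit 219) (nat_lit 5) (nat_lit 211) (nat_lit 5) (nat_lit 488) (nat_lit 429) (nat_lit 223)) (XT.lf (nat_lit 0) (nat_lit 5003013259) (nat_lit 684) (nat_lit 1571214444) (nat_lit 76) (nat_lit 14625485059) (nat_lit 210) (nat_lit 5) (nat_lit 219) (nat_lit 5) (nat_lit 211) (nat_lit 5) (nat_lit 489) (nat_lit 429) (nat_lit 222)))) (XT.nd (nat_lit 156) (nat_lit 532) (nat_lit 0) (XT.nd (nat_lit 78) (nat_lit 0) (nat_lit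 0) (XT.lf (nat_lit 0) (nat_lit 8285788175) (nat_lit 608) (nat_lit 12058193946) (nat_lit 76) (nat_lit 1116441254) (nat_lit 203) (nat_lit 5) (nat_lit 211) (nat_lit 5) (nat_lit 204) (nat_lit 5) (nat_lit 490) (nat_lit 429) (nat_lit 221)) (XT.lf (nat_lit 0) (nat_lit 11683116357) (nat_lit 608) (nat_lit 1159991491) (nat_lit 76) (nat_lit 8882265102) (nat_lit 203) (nat_lit 5) (nat_lit 211) (nat_lit 5) (nat_lit 204) (nat_lit 5) (nat_lit 491) (nat_lit 429) (nat_lit 220))) (XT.nd (nat_lit 78) (nat_lit 0) (nat_lit 0) (XT.lf (nat_lit 0) (nat_lit 10081844518) (nat_lit 532) (nat_lit 5126853952) (nat_lit 608) (nat_lit 6785719550) (nat_lit 196) (nat_lit 5) (nat_lit 203) (nat_lit 5) (nat_lit 204) (nat_lit 5) (nat_lit 492) (nat_lit 429) (nat_lit 219)) (XT.lf (nat_lit 0) (nat_lit 18825340847) (nat_lit 608) (nat_lit 728920488) (nat_lit 76) (nat_lit 2714174284) (nat_lit 196) (nat_lit 5) (nat_lit 204) (nat_lit 5) (nat_lit 197) (nat_lit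 5) (nat_lit 493) (nat_lit 429) (nat_lit 218))))) (XT.nd (nat_lit 234) (nat_lit 912) (nat_lit 0) (XT.nd (nat_lit 78) (nat_lit 532) (nat_lit 0) (XT.lf (nat_lit 0) (nat_lit 66414310) (nat_lit 532) (nat_lit 11767046516) (nat_lit 76) (nat_lit 10712487791) (nat_lit 189) (nat_lit 5) (nat_lit 196) (nat_lit 5) (nat_lit 190) (nat_lit 5) (nat_lit 494) (nat_lit 429) (nat_lit 217)) (XT.nd (nat_lit 78) (nat_lit 532) (nat_lit 0) (XT.lf (nat_lit 0) (nat_lit 3599997385) (nat_lit 532) (nat_lit 331490770) (nat_lit 76) (nat_lit 18897071254) (nat_lit 189) (nat_lit 5) (nat_lit 196) (nat_lit 5) (nat_lit 190) (nat_lit 5) (nat_lit 495) (nat_lit 429) (nat_lit 216)) (XT.lf (nat_lit 0) (nat_lit 7301174372) (nat_lit 608) (nat_lit 11665799769) (nat_lit 76) (nat_lit 4147912233) (nat_lit 182) (nat_lit 5) (nat_lit 190) (nat_lit 5) (nat_lit 183) (nat_lit 5) (nat_lit 496) (nat_lit 429) (nat_lit 215)))) (XT.nd (nat_lit 156) (nat_lit 456) (nat_lit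 0) (XT.nd (nat_lit 78) (nat_lit 0) (nat_lit 0) (XT.lf (nat_lit 0) (nat_lit 30802616) (nat_lit 456) (nat_lit 11069210217) (nat_lit 532) (nat_lit 12306456640) (nat_lit 176) (nat_lit 5) (nat_lit 182) (nat_lit 5) (nat_lit 183) (nat_lit 5) (nat_lit 497) (nat_lit 429) (nat_lit 214)) (XT.lf (nat_lit 0) (nat_lit 12113088425) (nat_lit 456) (nat_lit 2935239106) (nat_lit 532) (nat_lit 8654089023) (nat_lit 176) (nat_lit 5) (nat_lit 182) (nat_lit 5) (nat_lit 183) (nat_lit 5) (nat_lit 498) (nat_lit 429) (nat_lit 213))) (XT.nd (nat_lit 78) (nat_lit 0) (nat_lit 0) (XT.lf (nat_lit 0) (nat_lit 396789110) (nat_lit 456) (nat_lit 18711504920) (nat_lit 532) (nat_lit 4895337100) (nat_lit 170) (nat_lit 5) (nat_lit 176) (nat_lit 5) (nat_lit 177) (nat_lit 5) (nat_lit 499) (nat_lit 429) (nat_lit 212)) (XT.lf (nat_lit 0) (nat_lit 12753727432) (nat_lit 456) (nat_lit 10588164412) (nat_lit 532) (nat_lit 967131732) (nat_lit 170) (nat_lit 5) (nat_lit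 176) (nat_lit 5) (nat_lit 177) (nat_lit 5) (nat_lit 500) (nat_lit 429) (nat_lit 211)))))) (XT.nd (nat_lit 546) (nat_lit 1596) (nat_lit 0) (XT.nd (nat_lit 234) (nat_lit 912) (nat_lit 0) (XT.nd (nat_lit 78) (nat_lit 456) (nat_lit 0) (XT.lf (nat_lit 0) (nat_lit 720757921) (nat_lit 456) (nat_lit 2279103602) (nat_lit 532) (nat_lit 21620267989) (nat_lit 163) (nat_lit 5) (nat_lit 169) (nat_lit 5) (nat_lit 170) (nat_lit 5) (nat_lit 501) (nat_lit 429) (nat_lit 210)) (XT.nd (nat_lit 78) (nat_lit 456) (nat_lit 0) (XT.lf (nat_lit 0) (nat_lit 7146990472) (nat_lit 532) (nat_lit 11590367722) (nat_lit 76) (nat_lit 6197698696) (nat_lit 163) (nat_lit 5) (nat_lit 170) (nat_lit 5) (nat_lit 164) (nat_lit 5) (nat_lit 502) (nat_lit 429) (nat_lit 209)) (XT.lf (nat_lit 0) (nat_lit 956104130) (nat_lit 456) (nat_lit 10437796707) (nat_lit 532) (nat_lit 13862047250) (nat_lit 157) (nat_lit 5) (nat_lit 163) (nat_lit 5) (nat_lit 164) (nat_lit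 5) (nat_lit 503) (nat_lit 429) (nat_lit 208)))) (XT.nd (nat_lit 156) (nat_lit 532) (nat_lit 0) (XT.nd (nat_lit 78) (nat_lit 380) (nat_lit 0) (XT.lf (nat_lit 0) (nat_lit 13904498246) (nat_lit 456) (nat_lit 1894614181) (nat_lit 532) (nat_lit 9782679430) (nat_lit 157) (nat_lit 5) (nat_lit 163) (nat_lit 5) (nat_lit 164) (nat_lit 5) (nat_lit 504) (nat_lit 429) (nat_lit 207)) (XT.lf (nat_lit 0) (nat_lit 1162603834) (nat_lit 380) (nat_lit 19177310354) (nat_lit 456) (nat_lit 5573290568) (nat_lit 152) (nat_lit 5) (nat_lit 157) (nat_lit 5) (nat_lit 158) (nat_lit 5) (nat_lit 505) (nat_lit 429) (nat_lit 206))) (XT.nd (nat_lit 78) (nat_lit 532) (nat_lit 0) (XT.lf (nat_lit 0) (nat_lit 14398838739) (nat_lit 380) (nat_lit 10659225751) (nat_lit 456) (nat_lit 1191452703) (nat_lit 152) (nat_lit 5) (nat_lit 157) (nat_lit 5) (nat_lit 158) (nat_lit 5) (nat_lit 506) (nat_lit 429) (nat_lit 205)) (XT.lf (nat_lit 0) (nat_lit 1296994424)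 (nat_lit 456) (nat_lit 1942218181) (nat_lit 532) (nat_lit 23352835817) (nat_lit 145) (nat_lit 5) (nat_lit 151) (nat_lit 5) (nat_lit 152) (nat_lit 5) (nat_lit 507) (nat_lit 429) (nat_lit 204))))) (XT.nd (nat_lit 312) (nat_lit 836) (nat_lit 0) (XT.nd (nat_lit 156) (nat_lit 380) (nat_lit 0) (XT.nd (nat_lit 78) (nat_lit 380) (nat_lit 0) (XT.lf (nat_lit 0) (nat_lit 7863516723) (nat_lit 532) (nat_lit 12131125725) (nat_lit 76) (nat_lit 6944212557) (nat_lit 145) (nat_lit 5) (nat_lit 152) (nat_lit 5) (nat_lit 146) (nat_lit 5) (nat_lit 508) (nat_lit 429) (nat_lit 203)) (XT.lf (nat_lit 0) (nat_lit 1294301247) (nat_lit 380) (nat_lit 11303148805) (nat_lit 456) (nat_lit 14694806590) (nat_lit 140) (nat_lit 5) (nat_lit 145) (nat_lit 5) (nat_lit 146) (nat_lit 5) (nat_lit 509) (nat_lit 429) (nat_lit 202))) (XT.nd (nat_lit 78) (nat_lit 380) (nat_lit 0) (XT.lf (nat_lit 0) (nat_lit 15146823642) (nat_lit 380) (nat_lit 2356564772) (nat_lit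 456) (nat_lit 10147793120) (nat_lit 140) (nat_lit 5) (nat_lit 145) (nat_lit 5) (nat_lit 146) (nat_lit 5) (nat_lit 510) (nat_lit 429) (nat_lit 201)) (XT.lf (nat_lit 0) (nat_lit 1225425351) (nat_lit 380) (nat_lit 21329913817) (nat_lit 456) (nat_lit 5460989597) (nat_lit 135) (nat_lit 5) (nat_lit 140) (nat_lit 5) (nat_lit 141) (nat_lit 5) (nat_lit 511) (nat_lit 429) (nat_lit 200)))) (XT.nd (nat_lit 156) (nat_lit 380) (nat_lit 0) (XT.nd (nat_lit 78) (nat_lit 456) (nat_lit 0) (XT.lf (nat_lit 0) (nat_lit 15377719190) (nat_lit 380) (nat_lit 12426054300) (nat_lit 456) (nat_lit 583098242) (nat_lit 135) (nat_lit 5) (nat_lit 140) (nat_lit 5) (nat_lit 141) (nat_lit 5) (nat_lit 512) (nat_lit 429) (nat_lit 199)) (XT.lf (nat_lit 0) (nat_lit 1027479175) (nat_lit 380) (nat_lit 3310016821) (nat_lit 456) (nat_lit 24426705788) (nat_lit 129) (nat_lit 5) (nat_lit 134) (nat_lit 5) (nat_lit 135) (nat_lit 5) (nat_lit 513) (nat_lit 429)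 (nat_lit 198))) (XT.nd (nat_lit 78) (nat_lit 380) (nat_lit 0) (XT.lf (nat_lit 0) (nat_lit 9471567227) (nat_lit 456) (nat_lit 13675208088) (nat_lit 76) (nat_lit 5999770163) (nat_lit 129) (nat_lit 5) (nat_lit 135) (nat_lit 5) (nat_lit 130) (nat_lit 5) (nat_lit 514) (nat_lit 429) (nat_lit 197)) (XT.lf (nat_lit 0) (nat_lit 648492117) (nat_lit 380) (nat_lit 14082143961) (nat_lit 456) (nat_lit 14805455199) (nat_lit 124) (nat_lit 5) (nat_lit 129) (nat_lit 5) (nat_lit 130) (nat_lit 5) (nat_lit 515) (nat_lit 429) (nat_lit 196))))))))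
noncomputable def xc207 : XT := (XT.nd (nat_lit 54522) (nat_lit 0) (nat_lit 9348) (XT.nd (nat_lit 53430) (nat_lit 0) (nat_lit 21356) (XT.nd (nat_lit 52884) (nat_lit 0) (nat_lit 22800) (XT.nd (nat_lit 234) (nat_lit 0) (nat_lit 0) (XT.nd (nat_lit 78) (nat_lit 380) (nat_lit 0) (XT.lf (nat_lit 0) (nat_lit 15438445352) (nat_lit 380) (nat_lit 4744432406) (nat_lit 456) (nat_lit 9748791927) (nat_lit 124) (nat_lit 5) (nat_lit 129) (nat_lit 5) (nat_lit 130) (nat_lit 5) (nat_lit 516) (nat_lit 429) (nat_lit 195)) (XT.nd (nat_lit 78) (nat_lit 76) (nat_lit 0) (XT.lf (nat_lit 0) (nat_lit 154482551) (nat_lit 304) (nat_lit 25618005970) (nat_lit 380) (nat_lit 4562106150) (nat_lit 120) (nat_lit 5) (nat_lit 124) (nat_lit 5) (nat_lit 125) (nat_lit 5) (nat_lit 517) (nat_lit 429) (nat_lit 194)) (XT.lf (nat_lit 0) (nat_lit 844380065) (nat_lit 380) (nat_lit 15494383339) (nat_lit 76) (nat_lit 14404209238) (nat_lit 119) (nat_lit 5) (nat_lit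 124) (nat_lit 5) (nat_lit 120) (nat_lit 5) (nat_lit 518) (nat_lit 429) (nat_lit 193)))) (XT.nd (nat_lit 52494) (nat_lit 0) (nat_lit 22724) (XT.nd (nat_lit 52416) (nat_lit 0) (nat_lit 22724) (XT.lf (nat_lit 0) (nat_lit 6294336458) (nat_lit 380) (nat_lit 550604085) (nat_lit 76) (nat_lit 24314047387) (nat_lit 119) (nat_lit 5) (nat_lit 124) (nat_lit 5) (nat_lit 120) (nat_lit 5) (nat_lit 519) (nat_lit 429) (nat_lit 192)) (XT.lf (nat_lit 0) (nat_lit 1028665930) (nat_lit 0) (nat_lit 1028665930) (nat_lit 1596) (nat_lit 3621923646) (nat_lit 418) (nat_lit 5) (nat_lit 418) (nat_lit 3) (nat_lit 439) (nat_lit 3) (nat_lit 430) (nat_lit 430) (nat_lit 280))) (XT.nd (nat_lit 78) (nat_lit 0) (nat_lit 0) (XT.lf (nat_lit 0) (nat_lit 4688501618) (nat_lit 1596) (nat_lit 4087704504) (nat_lit 1672) (nat_lit 2684869984) (nat_lit 418) (nat_lit 5) (nat_lit 439) (nat_lit 3) (nat_lit 440) (nat_lit 5) (nat_lit 431) (nat_lit 430) (nat_lit 279))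 (XT.lf (nat_lit 76) (nat_lit 1225408041) (nat_lit 0) (nat_lit 4056523605) (nat_lit 1672) (nat_lit 6283608153) (nat_lit 419) (nat_lit 5) (nat_lit 418) (nat_lit 5) (nat_lit 440) (nat_lit 5) (nat_lit 432) (nat_lit 430) (nat_lit 278))))) (XT.nd (nat_lit 234) (nat_lit 0) (nat_lit 76) (XT.nd (nat_lit 78) (nat_lit 0) (nat_lit 0) (XT.lf (nat_lit 0) (nat_lit 5906554342) (nat_lit 1596) (nat_lit 4983798074) (nat_lit 1672) (nat_lit 781363286) (nat_lit 419) (nat_lit 5) (nat_lit 440) (nat_lit 5) (nat_lit 441) (nat_lit 5) (nat_lit 433) (nat_lit 430) (nat_lit 277)) (XT.nd (nat_lit 78) (nat_lit 0) (nat_lit 0) (XT.lf (nat_lit 76) (nat_lit 451517191) (nat_lit 0) (nat_lit 6109000424) (nat_lit 1672) (nat_lit 5219169778) (nat_lit 420) (nat_lit 5) (nat_lit 419) (nat_lit 5) (nat_lit 441) (nat_lit 5) (nat_lit 434) (nat_lit 430) (nat_lit 276)) (XT.lf (nat_lit 76) (nat_lit 6055940416) (nat_lit 0) (nat_lit 1192323252) (nat_lit 1672) (nat_lit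 4641149832) (nat_lit 420) (nat_lit 5) (nat_lit 419) (nat_lit 5) (nat_lit 441) (nat_lit 5) (nat_lit 435) (nat_lit 430) (nat_lit 275)))) (XT.nd (nat_lit 156) (nat_lit 0) (nat_lit 76) (XT.nd (nat_lit 78) (nat_lit 0) (nat_lit 0) (XT.lf (nat_lit 0) (nat_lit 7962129032) (nat_lit 1596) (nat_lit 261010431) (nat_lit 1672) (nat_lit 3777956250) (nat_lit 420) (nat_lit 5) (nat_lit 441) (nat_lit 5) (nat_lit 442) (nat_lit 5) (nat_lit 436) (nat_lit 430) (nat_lit 274)) (XT.lf (nat_lit 76) (nat_lit 5479706965) (nat_lit 0) (nat_lit 3241827996) (nat_lit 1672) (nat_lit 3392860045) (nat_lit 421) (nat_lit 5) (nat_lit 420) (nat_lit 5) (nat_lit 442) (nat_lit 5) (nat_lit 437) (nat_lit 430) (nat_lit 273))) (XT.nd (nat_lit 78) (nat_lit 0) (nat_lit 0) (XT.lf (nat_lit 0) (nat_lit 9497847050) (nat_lit 1596) (nat_lit 910500018) (nat_lit 1672) (nat_lit 1821587386) (nat_lit 421) (nat_lit 5) (nat_lit 442) (nat_lit 5) (nat_lit 443) (nat_lit 5) (nat_lit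 438) (nat_lit 430) (nat_lit 272)) (XT.lf (nat_lit 76) (nat_lit 4964559663) (nat_lit 0) (nat_lit 5367077208) (nat_lit 1672) (nat_lit 2015317151) (nat_lit 422) (nat_lit 5) (nat_lit 421) (nat_lit 5) (nat_lit 443) (nat_lit 5) (nat_lit 439) (nat_lit 430) (nat_lit 271)))))) (XT.nd (nat_lit 546) (nat_lit 0) (nat_lit 152) (XT.nd (nat_lit 234) (nat_lit 0) (nat_lit 76) (XT.nd (nat_lit 78) (nat_lit 1596) (nat_lit 0) (XT.lf (nat_lit 76) (nat_lit 10962256195) (nat_lit 0) (nat_lit 214389066) (nat_lit 1672) (nat_lit 1289786064) (nat_lit 422) (nat_lit 5) (nat_lit 421) (nat_lit 5) (nat_lit 443) (nat_lit 5) (nat_lit 440) (nat_lit 430) (nat_lit 270)) (XT.nd (nat_lit 78) (nat_lit 1672) (nat_lit 0) (XT.lf (nat_lit 76) (nat_lit 4510707708) (nat_lit 0) (nat_lit 7578551825) (nat_lit 1672) (nat_lit 498032563) (nat_lit 423) (nat_lit 5) (nat_lit 422) (nat_lit 5) (nat_lit 444) (nat_lit 5) (nat_lit 441) (nat_lit 430) (nat_lit 269)) (XT.lf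 (nat_lit 0) (nat_lit 305856988) (nat_lit 1672) (nat_lit 2055023328) (nat_lit 1748) (nat_lit 10349650078) (nat_lit 400) (nat_lit 5) (nat_lit 422) (nat_lit 5) (nat_lit 423) (nat_lit 5) (nat_lit 442) (nat_lit 430) (nat_lit 268)))) (XT.nd (nat_lit 156) (nat_lit 0) (nat_lit 76) (XT.nd (nat_lit 78) (nat_lit 0) (nat_lit 0) (XT.lf (nat_lit 0) (nat_lit 1154429851) (nat_lit 1672) (nat_lit 8724754786) (nat_lit 1748) (nat_lit 2956285070) (nat_lit 401) (nat_lit 5) (nat_lit 423) (nat_lit 5) (nat_lit 424) (nat_lit 5) (nat_lit 443) (nat_lit 430) (nat_lit 267)) (XT.lf (nat_lit 0) (nat_lit 2038683116) (nat_lit 1672) (nat_lit 2558223876) (nat_lit 1748) (nat_lit 8365634063) (nat_lit 401) (nat_lit 5) (nat_lit 423) (nat_lit 5) (nat_lit 424) (nat_lit 5) (nat_lit 444) (nat_lit 430) (nat_lit 266))) (XT.nd (nat_lit 78) (nat_lit 0) (nat_lit 0) (XT.lf (nat_lit 0) (nat_lit 2959846845) (nat_lit 1672) (nat_lit 9323413639) (nat_lit 1748) (nat_lit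 808516117) (nat_lit 402) (nat_lit 5) (nat_lit 424) (nat_lit 5) (nat_lit 425) (nat_lit 5) (nat_lit 445) (nat_lit 430) (nat_lit 265)) (XT.lf (nat_lit 0) (nat_lit 3936742722) (nat_lit 1672) (nat_lit 3005182325) (nat_lit 1748) (nat_lit 6280932770) (nat_lit 402) (nat_lit 5) (nat_lit 424) (nat_lit 5) (nat_lit 425) (nat_lit 5) (nat_lit 446) (nat_lit 430) (nat_lit 264))))) (XT.nd (nat_lit 234) (nat_lit 0) (nat_lit 152) (XT.nd (nat_lit 78) (nat_lit 0) (nat_lit 76) (XT.lf (nat_lit 76) (nat_lit 3477640195) (nat_lit 0) (nat_lit 1467904745) (nat_lit 1748) (nat_lit 8410775345) (nat_lit 403) (nat_lit 5) (nat_lit 402) (nat_lit 5) (nat_lit 425) (nat_lit 5) (nat_lit 447) (nat_lit 430) (nat_lit 263)) (XT.nd (nat_lit 78) (nat_lit 0) (nat_lit 0) (XT.lf (nat_lit 0) (nat_lit 6011503837) (nat_lit 1672) (nat_lit 3395608630) (nat_lit 1748) (nat_lit 4084606782) (nat_lit 403) (nat_lit 5) (nat_lit 425) (nat_lit 5) (nat_lit 426) (nat_lit 5)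 (nat_lit 448) (nat_lit 430) (nat_lit 262)) (XT.lf (nat_lit 76) (nat_lit 3242517047) (nat_lit 0) (nat_lit 3877195080) (nat_lit 1748) (nat_lit 6509702189) (nat_lit 404) (nat_lit 5) (nat_lit 403) (nat_lit 5) (nat_lit 426) (nat_lit 5) (nat_lit 449) (nat_lit 430) (nat_lit 261)))) (XT.nd (nat_lit 156) (nat_lit 0) (nat_lit 0) (XT.nd (nat_lit 78) (nat_lit 0) (nat_lit 0) (XT.lf (nat_lit 0) (nat_lit 8274787237) (nat_lit 1672) (nat_lit 3729152639) (nat_lit 1748) (nat_lit 1765435946) (nat_lit 404) (nat_lit 5) (nat_lit 426) (nat_lit 5) (nat_lit 427) (nat_lit 5) (nat_lit 450) (nat_lit 430) (nat_lit 260)) (XT.lf (nat_lit 76) (nat_lit 3068888591) (nat_lit 0) (nat_lit 6420183956) (nat_lit 1748) (nat_lit 4422348302) (nat_lit 405) (nat_lit 5) (nat_lit 404) (nat_lit 5) (nat_lit 427) (nat_lit 5) (nat_lit 451) (nat_lit 430) (nat_lit 259))) (XT.nd (nat_lit 78) (nat_lit 0) (nat_lit 76) (XT.lf (nat_lit 76) (nat_lit 10046058649) (nat_lit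 0) (nat_lit 697254360) (nat_lit 1748) (nat_lit 3312686717) (nat_lit 405) (nat_lit 5) (nat_lit 404) (nat_lit 5) (nat_lit 427) (nat_lit 5) (nat_lit 452) (nat_lit 430) (nat_lit 258)) (XT.lf (nat_lit 76) (nat_lit 2957274846) (nat_lit 0) (nat_lit 9108778046) (nat_lit 1748) (nat_lit 2136555209) (nat_lit 406) (nat_lit 5) (nat_lit 405) (nat_lit 5) (nat_lit 428) (nat_lit 5) (nat_lit 453) (nat_lit 430) (nat_lit 257))))))) (XT.nd (nat_lit 1092) (nat_lit 5016) (nat_lit 0) (XT.nd (nat_lit 546) (nat_lit 3420) (nat_lit 0) (XT.nd (nat_lit 234) (nat_lit 2280) (nat_lit 0) (XT.nd (nat_lit 78) (nat_lit 1672) (nat_lit 0) (XT.lf (nat_lit 76) (nat_lit 10106121778) (nat_lit 0) (nat_lit 3331594282) (nat_lit 1748) (nat_lit 913989304) (nat_lit 406) (nat_lit 5) (nat_lit 405) (nat_lit 5) (nat_lit 428) (nat_lit 5) (nat_lit 454) (nat_lit 430) (nat_lit 256)) (XT.nd (nat_lit 78) (nat_lit 0) (nat_lit 0) (XT.lf (nat_lit 0) (nat_lit 355501606) (nat_lit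 1748) (nat_lit 11597360095) (nat_lit 76) (nat_lit 2550348653) (nat_lit 383) (nat_lit 5) (nat_lit 406) (nat_lit 5) (nat_lit 384) (nat_lit 5) (nat_lit 455) (nat_lit 430) (nat_lit 255)) (XT.lf (nat_lit 0) (nat_lit 1680119544) (nat_lit 1748) (nat_lit 4435130111) (nat_lit 76) (nat_lit 8541541190) (nat_lit 383) (nat_lit 5) (nat_lit 406) (nat_lit 5) (nat_lit 384) (nat_lit 5) (nat_lit 456) (nat_lit 430) (nat_lit 254)))) (XT.nd (nat_lit 156) (nat_lit 836) (nat_lit 0) (XT.nd (nat_lit 78) (nat_lit 0) (nat_lit 0) (XT.lf (nat_lit 0) (nat_lit 2901027129) (nat_lit 1444) (nat_lit 140431995) (nat_lit 1520) (nat_lit 11771784863) (nat_lit 364) (nat_lit 5) (nat_lit 383) (nat_lit 5) (nat_lit 384) (nat_lit 5) (nat_lit 457) (nat_lit 430) (nat_lit 253)) (XT.lf (nat_lit 0) (nat_lit 4490163929) (nat_lit 1520) (nat_lit 4574556915) (nat_lit 76) (nat_lit 5906908097) (nat_lit 364) (nat_lit 5) (nat_lit 384) (nat_lit 5) (nat_lit 365) (nat_lit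 5) (nat_lit 458) (nat_lit 430) (nat_lit 252))) (XT.nd (nat_lit 78) (nat_lit 0) (nat_lit 0) (XT.lf (nat_lit 0) (nat_lit 2940134466) (nat_lit 836) (nat_lit 3039416622) (nat_lit 912) (nat_lit 9153401748) (nat_lit 353) (nat_lit 5) (nat_lit 364) (nat_lit 5) (nat_lit 365) (nat_lit 5) (nat_lit 459) (nat_lit 430) (nat_lit 251)) (XT.lf (nat_lit 0) (nat_lit 7541606017) (nat_lit 912) (nat_lit 4657611096) (nat_lit 76) (nat_lit 3097433800) (nat_lit 353) (nat_lit 5) (nat_lit 365) (nat_lit 5) (nat_lit 354) (nat_lit 5) (nat_lit 460) (nat_lit 430) (nat_lit 250))))) (XT.nd (nat_lit 234) (nat_lit 1672) (nat_lit 0) (XT.nd (nat_lit 78) (nat_lit 836) (nat_lit 0) (XT.lf (nat_lit 0) (nat_lit 3040719183) (nat_lit 912) (nat_lit 6126024669) (nat_lit 988) (nat_lit 6296247461) (nat_lit 341) (nat_lit 5) (nat_lit 353) (nat_lit 5) (nat_lit 354) (nat_lit 5) (nat_lit 461) (nat_lit 430) (nat_lit 249)) (XT.nd (nat_lit 78) (nat_lit 836) (nat_lit 0)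 (XT.lf (nat_lit 0) (nat_lit 10848377181) (nat_lit 988) (nat_lit 4683986291) (nat_lit 76) (nat_lit 99820293) (nat_lit 341) (nat_lit 5) (nat_lit 354) (nat_lit 5) (nat_lit 342) (nat_lit 5) (nat_lit 462) (nat_lit 430) (nat_lit 248)) (XT.lf (nat_lit 0) (nat_lit 3203200733) (nat_lit 836) (nat_lit 9414049762) (nat_lit 912) (nat_lit 3186442419) (nat_lit 330) (nat_lit 5) (nat_lit 341) (nat_lit 5) (nat_lit 342) (nat_lit 5) (nat_lit 463) (nat_lit 430) (nat_lit 247)))) (XT.nd (nat_lit 156) (nat_lit 760) (nat_lit 0) (XT.nd (nat_lit 78) (nat_lit 912) (nat_lit 0) (XT.lf (nat_lit 0) (nat_lit 11304366840) (nat_lit 836) (nat_lit 3140911798) (nat_lit 912) (nat_lit 1532882961) (nat_lit 330) (nat_lit 5) (nat_lit 341) (nat_lit 5) (nat_lit 342) (nat_lit 5) (nat_lit 464) (nat_lit 430) (nat_lit 246)) (XT.lf (nat_lit 0) (nat_lit 187870014) (nat_lit 912) (nat_lit 12728670785) (nat_lit 76) (nat_lit 3238840828) (nat_lit 318) (nat_lit 5) (nat_lit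 330) (nat_lit 5) (nat_lit 319) (nat_lit 5) (nat_lit 465) (nat_lit 430) (nat_lit 245))) (XT.nd (nat_lit 78) (nat_lit 760) (nat_lit 0) (XT.lf (nat_lit 0) (nat_lit 1967448497) (nat_lit 912) (nat_lit 4621425995) (nat_lit 76) (nat_lit 9746174817) (nat_lit 318) (nat_lit 5) (nat_lit 330) (nat_lit 5) (nat_lit 319) (nat_lit 5) (nat_lit 466) (nat_lit 430) (nat_lit 244)) (XT.lf (nat_lit 0) (nat_lit 3689163122) (nat_lit 760) (nat_lit 110098603) (nat_lit 836) (nat_lit 12718720283) (nat_lit 308) (nat_lit 5) (nat_lit 318) (nat_lit 5) (nat_lit 319) (nat_lit 5) (nat_lit 467) (nat_lit 430) (nat_lit 243)))))) (XT.nd (nat_lit 546) (nat_lit 2736) (nat_lit 0) (XT.nd (nat_lit 234) (nat_lit 1520) (nat_lit 0) (XT.nd (nat_lit 78) (nat_lit 760) (nat_lit 0) (XT.lf (nat_lit 0) (nat_lit 5733907913) (nat_lit 836) (nat_lit 4525027306) (nat_lit 76) (nat_lit 6444318645) (nat_lit 308) (nat_lit 5) (nat_lit 319) (nat_lit 5) (nat_lit 309) (nat_lit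 5) (nat_lit 468) (nat_lit 430) (nat_lit 242)) (XT.nd (nat_lit 78) (nat_lit 0) (nat_lit 0) (XT.lf (nat_lit 0) (nat_lit 3989287562) (nat_lit 760) (nat_lit 3737519249) (nat_lit 836) (nat_lit 9165037500) (nat_lit 298) (nat_lit 5) (nat_lit 308) (nat_lit 5) (nat_lit 309) (nat_lit 5) (nat_lit 469) (nat_lit 430) (nat_lit 241)) (XT.lf (nat_lit 0) (nat_lit 9802073175) (nat_lit 836) (nat_lit 4374735114) (nat_lit 76) (nat_lit 2906552354) (nat_lit 298) (nat_lit 5) (nat_lit 309) (nat_lit 5) (nat_lit 299) (nat_lit 5) (nat_lit 470) (nat_lit 430) (nat_lit 240)))) (XT.nd (nat_lit 156) (nat_lit 836) (nat_lit 0) (XT.nd (nat_lit 78) (nat_lit 0) (nat_lit 0) (XT.lf (nat_lit 0) (nat_lit 4348829110) (nat_lit 684) (nat_lit 7616161203) (nat_lit 760) (nat_lit 5312798260) (nat_lit 289) (nat_lit 5) (nat_lit 298) (nat_lit 5) (nat_lit 299) (nat_lit 5) (nat_lit 471) (nat_lit 430) (nat_lit 239)) (XT.lf (nat_lit 0) (nat_lit 13299114265) (nat_lit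 684) (nat_lit 894654861) (nat_lit 760) (nat_lit 3281887969) (nat_lit 289) (nat_lit 5) (nat_lit 298) (nat_lit 5) (nat_lit 299) (nat_lit 5) (nat_lit 472) (nat_lit 430) (nat_lit 238))) (XT.nd (nat_lit 78) (nat_lit 76) (nat_lit 0) (XT.lf (nat_lit 0) (nat_lit 4767699446) (nat_lit 760) (nat_lit 11762460811) (nat_lit 836) (nat_lit 1146066014) (nat_lit 279) (nat_lit 5) (nat_lit 289) (nat_lit 5) (nat_lit 290) (nat_lit 5) (nat_lit 473) (nat_lit 430) (nat_lit 237)) (XT.lf (nat_lit 0) (nat_lit 1046482891) (nat_lit 836) (nat_lit 3952711909) (nat_lit 76) (nat_lit 12880930792) (nat_lit 278) (nat_lit 5) (nat_lit 289) (nat_lit 5) (nat_lit 279) (nat_lit 5) (nat_lit 474) (nat_lit 430) (nat_lit 236))))) (XT.nd (nat_lit 312) (nat_lit 1368) (nat_lit 0) (XT.nd (nat_lit 156) (nat_lit 684) (nat_lit 0) (XT.nd (nat_lit 78) (nat_lit 0) (nat_lit 0) (XT.lf (nat_lit 0) (nat_lit 3307696538) (nat_lit 760) (nat_lit 12863656129) (nat_lit 76) (nat_lit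 1915799317) (nat_lit 269) (nat_lit 5) (nat_lit 279) (nat_lit 5) (nat_lit 270) (nat_lit 5) (nat_lit 475) (nat_lit 430) (nat_lit 235)) (XT.lf (nat_lit 0) (nat_lit 5667563868) (nat_lit 760) (nat_lit 3701298783) (nat_lit 76) (nat_lit 8928391378) (nat_lit 269) (nat_lit 5) (nat_lit 279) (nat_lit 5) (nat_lit 270) (nat_lit 5) (nat_lit 476) (nat_lit 430) (nat_lit 234))) (XT.nd (nat_lit 78) (nat_lit 0) (nat_lit 0) (XT.lf (nat_lit 0) (nat_lit 5712326557) (nat_lit 684) (nat_lit 2393136986) (nat_lit 760) (nat_lit 10405481513) (nat_lit 260) (nat_lit 5) (nat_lit 269) (nat_lit 5) (nat_lit 270) (nat_lit 5) (nat_lit 477) (nat_lit 430) (nat_lit 233)) (XT.lf (nat_lit 0) (nat_lit 10641602905) (nat_lit 760) (nat_lit 3401814821) (nat_lit 76) (nat_lit 4684506112) (nat_lit 260) (nat_lit 5) (nat_lit 270) (nat_lit 5) (nat_lit 261) (nat_lit 5) (nat_lit 478) (nat_lit 430) (nat_lit 232)))) (XT.nd (nat_lit 156) (nat_lit 760) (nat_lit 0) (XT.nd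 (nat_lit 78) (nat_lit 0) (nat_lit 0) (XT.lf (nat_lit 0) (nat_lit 6242104786) (nat_lit 608) (nat_lit 7036678424) (nat_lit 684) (nat_lit 5669456121) (nat_lit 252) (nat_lit 5) (nat_lit 260) (nat_lit 5) (nat_lit 261) (nat_lit 5) (nat_lit 479) (nat_lit 430) (nat_lit 231)) (XT.lf (nat_lit 0) (nat_lit 15986412845) (nat_lit 684) (nat_lit 3055266681) (nat_lit 76) (nat_lit 130930923) (nat_lit 252) (nat_lit 5) (nat_lit 261) (nat_lit 5) (nat_lit 253) (nat_lit 5) (nat_lit 480) (nat_lit 430) (nat_lit 230))) (XT.nd (nat_lit 78) (nat_lit 76) (nat_lit 0) (XT.lf (nat_lit 0) (nat_lit 6824750612) (nat_lit 684) (nat_lit 12008484331) (nat_lit 760) (nat_lit 566536611) (nat_lit 243) (nat_lit 5) (nat_lit 252) (nat_lit 5) (nat_lit 253) (nat_lit 5) (nat_lit 481) (nat_lit 430) (nat_lit 229)) (XT.lf (nat_lit 0) (nat_lit 2092699889) (nat_lit 760) (nat_lit 2707900365) (nat_lit 76) (nat_lit 14830309522) (nat_lit 242) (nat_lit 5) (nat_lit 252)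 (nat_lit 5) (nat_lit 243) (nat_lit 5) (nat_lit 482) (nat_lit 430) (nat_lit 228))))))))
noncomputable def xc208 : XT := (XT.nd (nat_lit 2184) (nat_lit 1596) (nat_lit 0) (XT.nd (nat_lit 1092) (nat_lit 3192) (nat_lit 0) (XT.nd (nat_lit 546) (nat_lit 2128) (nat_lit 0) (XT.nd (nat_lit 234) (nat_lit 1216) (nat_lit 0) (XT.nd (nat_lit 78) (nat_lit 608) (nat_lit 0) (XT.lf (nat_lit 0) (nat_lit 4857049345) (nat_lit 684) (nat_lit 12438892237) (nat_lit 76) (nat_lit 2569467169) (nat_lit 234) (nat_lit 5) (nat_lit 243) (nat_lit 5) (nat_lit 235) (nat_lit 5) (nat_lit 483) (nat_lit 430) (nat_lit 227)) (XT.nd (nat_lit 78) (nat_lit 608) (nat_lit 0) (XT.lf (nat_lit 0) (nat_lit 7721105358) (nat_lit 684) (nat_lit 2342562604) (nat_lit 76) (nat_lit 10040044460) (nat_lit 234) (nat_lit 5) (nat_lit 243) (nat_lit 5) (nat_lit 235) (nat_lit 5) (nat_lit 484) (nat_lit 430) (nat_lit 226)) (XT.lf (nat_lit 0) (nat_lit 8054721004) (nat_lit 608) (nat_lit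 2634464878) (nat_lit 684) (nat_lit 9656664462) (nat_lit 226) (nat_lit 5) (nat_lit 234) (nat_lit 5) (nat_lit 235) (nat_lit 5) (nat_lit 485) (nat_lit 430) (nat_lit 225)))) (XT.nd (nat_lit 156) (nat_lit 684) (nat_lit 0) (XT.nd (nat_lit 78) (nat_lit 532) (nat_lit 0) (XT.lf (nat_lit 0) (nat_lit 13759053297) (nat_lit 684) (nat_lit 1939685660) (nat_lit 76) (nat_lit 4893246547) (nat_lit 226) (nat_lit 5) (nat_lit 235) (nat_lit 5) (nat_lit 227) (nat_lit 5) (nat_lit 486) (nat_lit 430) (nat_lit 224)) (XT.lf (nat_lit 0) (nat_lit 8709017358) (nat_lit 532) (nat_lit 8249905951) (nat_lit 608) (nat_lit 3882750881) (nat_lit 219) (nat_lit 5) (nat_lit 226) (nat_lit 5) (nat_lit 227) (nat_lit 5) (nat_lit 487) (nat_lit 430) (nat_lit 223))) (XT.nd (nat_lit 78) (nat_lit 684) (nat_lit 0) (XT.lf (nat_lit 0) (nat_lit 19590487357) (nat_lit 532) (nat_lit 639996833) (nat_lit 608) (nat_lit 865721461) (nat_lit 219) (nat_lit 5) (nat_lit 226) (nat_lit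 5) (nat_lit 227) (nat_lit 5) (nat_lit 488) (nat_lit 430) (nat_lit 222)) (XT.lf (nat_lit 0) (nat_lit 2285390600) (nat_lit 684) (nat_lit 11964439033) (nat_lit 76) (nat_lit 7103658713) (nat_lit 210) (nat_lit 5) (nat_lit 219) (nat_lit 5) (nat_lit 211) (nat_lit 5) (nat_lit 489) (nat_lit 430) (nat_lit 221))))) (XT.nd (nat_lit 234) (nat_lit 1596) (nat_lit 0) (XT.nd (nat_lit 78) (nat_lit 532) (nat_lit 0) (XT.lf (nat_lit 0) (nat_lit 5497151022) (nat_lit 684) (nat_lit 1110132015) (nat_lit 76) (nat_lit 15008337551) (nat_lit 210) (nat_lit 5) (nat_lit 219) (nat_lit 5) (nat_lit 211) (nat_lit 5) (nat_lit 490) (nat_lit 430) (nat_lit 220)) (XT.nd (nat_lit 78) (nat_lit 0) (nat_lit 0) (XT.lf (nat_lit 0) (nat_lit 8841678644) (nat_lit 608) (nat_lit 11802747453) (nat_lit 76) (nat_lit 1237201389) (nat_lit 203) (nat_lit 5) (nat_lit 211) (nat_lit 5) (nat_lit 204) (nat_lit 5) (nat_lit 491) (nat_lit 430) (nat_lit 219)) (XT.lf (nat_lit 0)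 (nat_lit 12299302905) (nat_lit 608) (nat_lit 696318407) (nat_lit 76) (nat_lit 9156411689) (nat_lit 203) (nat_lit 5) (nat_lit 211) (nat_lit 5) (nat_lit 204) (nat_lit 5) (nat_lit 492) (nat_lit 430) (nat_lit 218)))) (XT.nd (nat_lit 156) (nat_lit 1064) (nat_lit 0) (XT.nd (nat_lit 78) (nat_lit 0) (nat_lit 0) (XT.lf (nat_lit 0) (nat_lit 10767151211) (nat_lit 532) (nat_lit 5123885280) (nat_lit 608) (nat_lit 6535513546) (nat_lit 196) (nat_lit 5) (nat_lit 203) (nat_lit 5) (nat_lit 204) (nat_lit 5) (nat_lit 493) (nat_lit 430) (nat_lit 217)) (XT.lf (nat_lit 0) (nat_lit 19573268316) (nat_lit 608) (nat_lit 262380141) (nat_lit 76) (nat_lit 2870538186) (nat_lit 196) (nat_lit 5) (nat_lit 204) (nat_lit 5) (nat_lit 197) (nat_lit 5) (nat_lit 494) (nat_lit 430) (nat_lit 216))) (XT.nd (nat_lit 78) (nat_lit 532) (nat_lit 0) (XT.lf (nat_lit 0) (nat_lit 437598873) (nat_lit 532) (nat_lit 11519336822) (nat_lit 76) (nat_lit 11032352842)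 (nat_lit 189) (nat_lit 5) (nat_lit 196) (nat_lit 5) (nat_lit 190) (nat_lit 5) (nat_lit 495) (nat_lit 430) (nat_lit 215)) (XT.lf (nat_lit 0) (nat_lit 137258629) (nat_lit 532) (nat_lit 3898234070) (nat_lit 608) (nat_lit 19242189631) (nat_lit 182) (nat_lit 5) (nat_lit 189) (nat_lit 5) (nat_lit 190) (nat_lit 5) (nat_lit 496) (nat_lit 430) (nat_lit 214)))))) (XT.nd (nat_lit 546) (nat_lit 1748) (nat_lit 0) (XT.nd (nat_lit 234) (nat_lit 988) (nat_lit 0) (XT.nd (nat_lit 78) (nat_lit 456) (nat_lit 0) (XT.lf (nat_lit 0) (nat_lit 7806473350) (nat_lit 608) (nat_lit 11422033156) (nat_lit 76) (nat_lit 4341317223) (nat_lit 182) (nat_lit 5) (nat_lit 190) (nat_lit 5) (nat_lit 183) (nat_lit 5) (nat_lit 497) (nat_lit 430) (nat_lit 213)) (XT.nd (nat_lit 78) (nat_lit 0) (nat_lit 0) (XT.lf (nat_lit 0) (nat_lit 505362575) (nat_lit 456) (nat_lit 11171958546) (nat_lit 532) (nat_lit 12190000147) (nat_lit 176) (nat_lit 5) (nat_lit 182) (nat_lit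 5) (nat_lit 183) (nat_lit 5) (nat_lit 498) (nat_lit 430) (nat_lit 212)) (XT.lf (nat_lit 0) (nat_lit 12820001082) (nat_lit 456) (nat_lit 2877634206) (nat_lit 532) (nat_lit 8471694700) (nat_lit 176) (nat_lit 5) (nat_lit 182) (nat_lit 5) (nat_lit 183) (nat_lit 5) (nat_lit 499) (nat_lit 430) (nat_lit 211)))) (XT.nd (nat_lit 156) (nat_lit 532) (nat_lit 0) (XT.nd (nat_lit 78) (nat_lit 0) (nat_lit 0) (XT.lf (nat_lit 0) (nat_lit 872656632) (nat_lit 456) (nat_lit 18963092741) (nat_lit 532) (nat_lit 4640883812) (nat_lit 170) (nat_lit 5) (nat_lit 176) (nat_lit 5) (nat_lit 177) (nat_lit 5) (nat_lit 500) (nat_lit 430) (nat_lit 210)) (XT.lf (nat_lit 0) (nat_lit 13467558588) (nat_lit 456) (nat_lit 10679690173) (nat_lit 532) (nat_lit 641023358) (nat_lit 170) (nat_lit 5) (nat_lit 176) (nat_lit 5) (nat_lit 177) (nat_lit 5) (nat_lit 501) (nat_lit 430) (nat_lit 209))) (XT.nd (nat_lit 78) (nat_lit 0) (nat_lit 0) (XT.lf (nat_lit 0)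 (nat_lit 1195569734) (nat_lit 456) (nat_lit 2201513865) (nat_lit 532) (nat_lit 21708548734) (nat_lit 163) (nat_lit 5) (nat_lit 169) (nat_lit 5) (nat_lit 170) (nat_lit 5) (nat_lit 502) (nat_lit 430) (nat_lit 208)) (XT.lf (nat_lit 0) (nat_lit 7621326906) (nat_lit 532) (nat_lit 11364825360) (nat_lit 76) (nat_lit 6440825600) (nat_lit 163) (nat_lit 5) (nat_lit 170) (nat_lit 5) (nat_lit 164) (nat_lit 5) (nat_lit 503) (nat_lit 430) (nat_lit 207))))) (XT.nd (nat_lit 234) (nat_lit 912) (nat_lit 0) (XT.nd (nat_lit 78) (nat_lit 380) (nat_lit 0) (XT.lf (nat_lit 0) (nat_lit 1429567049) (nat_lit 456) (nat_lit 10520060339) (nat_lit 532) (nat_lit 13804733447) (nat_lit 157) (nat_lit 5) (nat_lit 163) (nat_lit 5) (nat_lit 164) (nat_lit 5) (nat_lit 504) (nat_lit 430) (nat_lit 206)) (XT.nd (nat_lit 78) (nat_lit 380) (nat_lit 0) (XT.lf (nat_lit 0) (nat_lit 14628020404) (nat_lit 456) (nat_lit 1808494403) (nat_lit 532) (nat_lit 9650338168)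 (nat_lit 157) (nat_lit 5) (nat_lit 163) (nat_lit 5) (nat_lit 164) (nat_lit 5) (nat_lit 505) (nat_lit 430) (nat_lit 205)) (XT.lf (nat_lit 0) (nat_lit 1634089222) (nat_lit 380) (nat_lit 19431440635) (nat_lit 456) (nat_lit 5359419199) (nat_lit 152) (nat_lit 5) (nat_lit 157) (nat_lit 5) (nat_lit 158) (nat_lit 5) (nat_lit 506) (nat_lit 430) (nat_lit 204)))) (XT.nd (nat_lit 156) (nat_lit 380) (nat_lit 0) (XT.nd (nat_lit 78) (nat_lit 532) (nat_lit 0) (XT.lf (nat_lit 0) (nat_lit 15126259936) (nat_lit 380) (nat_lit 10745531906) (nat_lit 456) (nat_lit 896323737) (nat_lit 152) (nat_lit 5) (nat_lit 157) (nat_lit 5) (nat_lit 158) (nat_lit 5) (nat_lit 507) (nat_lit 430) (nat_lit 203)) (XT.lf (nat_lit 0) (nat_lit 1763780295) (nat_lit 456) (nat_lit 1851681600) (nat_lit 532) (nat_lit 23502063020) (nat_lit 145) (nat_lit 5) (nat_lit 151) (nat_lit 5) (nat_lit 152) (nat_lit 5) (nat_lit 508) (nat_lit 430) (nat_lit 202))) (XT.nd (nat_lit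 78) (nat_lit 380) (nat_lit 0) (XT.lf (nat_lit 0) (nat_lit 8326968493) (nat_lit 532) (nat_lit 11936130171) (nat_lit 76) (nat_lit 7208277289) (nat_lit 145) (nat_lit 5) (nat_lit 152) (nat_lit 5) (nat_lit 146) (nat_lit 5) (nat_lit 509) (nat_lit 430) (nat_lit 201)) (XT.lf (nat_lit 0) (nat_lit 1754926275) (nat_lit 380) (nat_lit 11397473270) (nat_lit 456) (nat_lit 14679512294) (nat_lit 140) (nat_lit 5) (nat_lit 145) (nat_lit 5) (nat_lit 146) (nat_lit 5) (nat_lit 510) (nat_lit 430) (nat_lit 200))))))) (XT.nd (nat_lit 53508) (nat_lit 0) (nat_lit 21356) (XT.nd (nat_lit 546) (nat_lit 380) (nat_lit 0) (XT.nd (nat_lit 234) (nat_lit 836) (nat_lit 0) (XT.nd (nat_lit 78) (nat_lit 380) (nat_lit 0) (XT.lf (nat_lit 0) (nat_lit 15875974823) (nat_lit 380) (nat_lit 2274540664) (nat_lit 456) (nat_lit 10047621112) (nat_lit 140) (nat_lit 5) (nat_lit 145) (nat_lit 5) (nat_lit 146) (nat_lit 5) (nat_lit 511) (nat_lit 430) (nat_lit 199)) (XT.nd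 (nat_lit 78) (nat_lit 0) (nat_lit 0) (XT.lf (nat_lit 0) (nat_lit 1678540117) (nat_lit 380) (nat_lit 21622745365) (nat_lit 456) (nat_lit 5269348188) (nat_lit 135) (nat_lit 5) (nat_lit 140) (nat_lit 5) (nat_lit 141) (nat_lit 5) (nat_lit 512) (nat_lit 430) (nat_lit 198)) (XT.lf (nat_lit 0) (nat_lit 16105475788) (nat_lit 380) (nat_lit 12543431535) (nat_lit 456) (nat_lit 299798246) (nat_lit 135) (nat_lit 5) (nat_lit 140) (nat_lit 5) (nat_lit 141) (nat_lit 5) (nat_lit 513) (nat_lit 430) (nat_lit 197)))) (XT.nd (nat_lit 156) (nat_lit 380) (nat_lit 0) (XT.nd (nat_lit 78) (nat_lit 0) (nat_lit 0) (XT.lf (nat_lit 0) (nat_lit 1469428754) (nat_lit 380) (nat_lit 3242938937) (nat_lit 456) (nat_lit 24621238016) (nat_lit 129) (nat_lit 5) (nat_lit 134) (nat_lit 5) (nat_lit 135) (nat_lit 5) (nat_lit 514) (nat_lit 430) (nat_lit 196)) (XT.lf (nat_lit 0) (nat_lit 9944319264) (nat_lit 456) (nat_lit 13530658546) (nat_lit 76) (nat_lit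 6248716794) (nat_lit 129) (nat_lit 5) (nat_lit 135) (nat_lit 5) (nat_lit 130) (nat_lit 5) (nat_lit 515) (nat_lit 430) (nat_lit 195))) (XT.nd (nat_lit 78) (nat_lit 0) (nat_lit 0) (XT.lf (nat_lit 0) (nat_lit 1076765310) (nat_lit 380) (nat_lit 14228945298) (nat_lit 456) (nat_lit 14815380150) (nat_lit 124) (nat_lit 5) (nat_lit 129) (nat_lit 5) (nat_lit 130) (nat_lit 5) (nat_lit 516) (nat_lit 430) (nat_lit 194)) (XT.lf (nat_lit 0) (nat_lit 16154374407) (nat_lit 380) (nat_lit 4707123465) (nat_lit 456) (nat_lit 9663195067) (nat_lit 124) (nat_lit 5) (nat_lit 129) (nat_lit 5) (nat_lit 130) (nat_lit 5) (nat_lit 517) (nat_lit 430) (nat_lit 193))))) (XT.nd (nat_lit 52650) (nat_lit 0) (nat_lit 22724) (XT.nd (nat_lit 78) (nat_lit 76) (nat_lit 0) (XT.lf (nat_lit 0) (nat_lit 566774229) (nat_lit 304) (nat_lit 25994233493) (nat_lit 380) (nat_lit 4374708738) (nat_lit 120) (nat_lit 5) (nat_lit 124) (nat_lit 5) (nat_lit 125) (nat_lit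 5) (nat_lit 518) (nat_lit 430) (nat_lit 192)) (XT.nd (nat_lit 52494) (nat_lit 0) (nat_lit 22724) (XT.lf (nat_lit 0) (nat_lit 1130860929) (nat_lit 380) (nat_lit 15399405301) (nat_lit 76) (nat_lit 14822069506) (nat_lit 119) (nat_lit 5) (nat_lit 124) (nat_lit 5) (nat_lit 120) (nat_lit 5) (nat_lit 519) (nat_lit 430) (nat_lit 191)) (XT.lf (nat_lit 0) (nat_lit 1305081119) (nat_lit 0) (nat_lit 1305081119) (nat_lit 1596) (nat_lit 3172080889) (nat_lit 418) (nat_lit 5) (nat_lit 418) (nat_lit 3) (nat_lit 439) (nat_lit 3) (nat_lit 431) (nat_lit 431) (nat_lit 278)))) (XT.nd (nat_lit 156) (nat_lit 0) (nat_lit 76) (XT.nd (nat_lit 78) (nat_lit 0) (nat_lit 0) (XT.lf (nat_lit 0) (nat_lit 5782316056) (nat_lit 1596) (nat_lit 3643771428) (nat_lit 1672) (nat_lit 2243495895) (nat_lit 418) (nat_lit 5) (nat_lit 439) (nat_lit 3) (nat_lit 440) (nat_lit 5) (nat_lit 432) (nat_lit 431) (nat_lit 277)) (XT.lf (nat_lit 76) (nat_lit 1772144899)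 (nat_lit 0) (nat_lit 4599251726) (nat_lit 1672) (nat_lit 5405078071) (nat_lit 419) (nat_lit 5) (nat_lit 418) (nat_lit 5) (nat_lit 440) (nat_lit 5) (nat_lit 433) (nat_lit 431) (nat_lit 276))) (XT.nd (nat_lit 78) (nat_lit 0) (nat_lit 0) (XT.lf (nat_lit 0) (nat_lit 6986282829) (nat_lit 1596) (nat_lit 4548570512) (nat_lit 1672) (nat_lit 350379068) (nat_lit 419) (nat_lit 5) (nat_lit 440) (nat_lit 5) (nat_lit 441) (nat_lit 5) (nat_lit 434) (nat_lit 431) (nat_lit 275)) (XT.lf (nat_lit 76) (nat_lit 991931957) (nat_lit 0) (nat_lit 6645988660) (nat_lit 1672) (nat_lit 4357764456) (nat_lit 420) (nat_lit 5) (nat_lit 419) (nat_lit 5) (nat_lit 441) (nat_lit 5) (nat_lit 435) (nat_lit 431) (nat_lit 274)))))) (XT.nd (nat_lit 546) (nat_lit 0) (nat_lit 0) (XT.nd (nat_lit 234) (nat_lit 1444) (nat_lit 0) (XT.nd (nat_lit 78) (nat_lit 0) (nat_lit 76) (XT.lf (nat_lit 76) (nat_lit 6698024344) (nat_lit 0) (nat_lit 1622844450) (nat_lit 1672)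 (nat_lit 3787121145) (nat_lit 420) (nat_lit 5) (nat_lit 419) (nat_lit 5) (nat_lit 441) (nat_lit 5) (nat_lit 436) (nat_lit 431) (nat_lit 273)) (XT.nd (nat_lit 78) (nat_lit 0) (nat_lit 0) (XT.lf (nat_lit 76) (nat_lit 269477481) (nat_lit 0) (nat_lit 8760505964) (nat_lit 1672) (nat_lit 3192315834) (nat_lit 421) (nat_lit 5) (nat_lit 420) (nat_lit 5) (nat_lit 442) (nat_lit 5) (nat_lit 437) (nat_lit 431) (nat_lit 272)) (XT.lf (nat_lit 76) (nat_lit 6117973836) (nat_lit 0) (nat_lit 3670504913) (nat_lit 1672) (nat_lit 2549720452) (nat_lit 421) (nat_lit 5) (nat_lit 420) (nat_lit 5) (nat_lit 442) (nat_lit 5) (nat_lit 438) (nat_lit 431) (nat_lit 271)))) (XT.nd (nat_lit 156) (nat_lit 1596) (nat_lit 0) (XT.nd (nat_lit 78) (nat_lit 0) (nat_lit 0) (XT.lf (nat_lit 0) (nat_lit 10560500849) (nat_lit 1596) (nat_lit 389966166) (nat_lit 1672) (nat_lit 1505991168) (nat_lit 421) (nat_lit 5) (nat_lit 442) (nat_lit 5) (nat_lit 443) (nat_lit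 5) (nat_lit 439) (nat_lit 431) (nat_lit 270)) (XT.lf (nat_lit 76) (nat_lit 5599050341) (nat_lit 0) (nat_lit 5798279293) (nat_lit 1672) (nat_lit 1178773423) (nat_lit 422) (nat_lit 5) (nat_lit 421) (nat_lit 5) (nat_lit 443) (nat_lit 5) (nat_lit 440) (nat_lit 431) (nat_lit 269))) (XT.nd (nat_lit 78) (nat_lit 1596) (nat_lit 0) (XT.lf (nat_lit 76) (nat_lit 11706206696) (nat_lit 0) (nat_lit 536187181) (nat_lit 1672) (nat_lit 455924852) (nat_lit 422) (nat_lit 5) (nat_lit 421) (nat_lit 5) (nat_lit 443) (nat_lit 5) (nat_lit 441) (nat_lit 431) (nat_lit 268)) (XT.lf (nat_lit 0) (nat_lit 331915545) (nat_lit 1672) (nat_lit 7682542943) (nat_lit 1748) (nat_lit 4807406759) (nat_lit 400) (nat_lit 5) (nat_lit 422) (nat_lit 5) (nat_lit 423) (nat_lit 5) (nat_lit 442) (nat_lit 431) (nat_lit 267))))) (XT.nd (nat_lit 312) (nat_lit 0) (nat_lit 152) (XT.nd (nat_lit 156) (nat_lit 0) (nat_lit 76) (XT.nd (nat_lit 78) (nat_lit 0) (nat_lit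 76) (XT.lf (nat_lit 0) (nat_lit 1128882302) (nat_lit 1672) (nat_lit 1554677810) (nat_lit 1748) (nat_lit 10264280247) (nat_lit 400) (nat_lit 5) (nat_lit 422) (nat_lit 5) (nat_lit 423) (nat_lit 5) (nat_lit 443) (nat_lit 431) (nat_lit 266)) (XT.lf (nat_lit 0) (nat_lit 1980170827) (nat_lit 1672) (nat_lit 8342996651) (nat_lit 1748) (nat_lit 2752407126) (nat_lit 401) (nat_lit 5) (nat_lit 423) (nat_lit 5) (nat_lit 424) (nat_lit 5) (nat_lit 444) (nat_lit 431) (nat_lit 265))) (XT.nd (nat_lit 78) (nat_lit 0) (nat_lit 76) (XT.lf (nat_lit 0) (nat_lit 2866370875) (nat_lit 1672) (nat_lit 2064042048) (nat_lit 1748) (nat_lit 8275100033) (nat_lit 401) (nat_lit 5) (nat_lit 423) (nat_lit 5) (nat_lit 424) (nat_lit 5) (nat_lit 445) (nat_lit 431) (nat_lit 264)) (XT.lf (nat_lit 0) (nat_lit 3792531275) (nat_lit 1672) (nat_lit 8950578967) (nat_lit 1748) (nat_lit 594502104) (nat_lit 402) (nat_lit 5) (nat_lit 424) (nat_lit 5) (nat_lit 425)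 (nat_lit 5) (nat_lit 446) (nat_lit 431) (nat_lit 263)))) (XT.nd (nat_lit 156) (nat_lit 0) (nat_lit 76) (XT.nd (nat_lit 78) (nat_lit 0) (nat_lit 0) (XT.lf (nat_lit 0) (nat_lit 4773798648) (nat_lit 1672) (nat_lit 2516949751) (nat_lit 1748) (nat_lit 6180880508) (nat_lit 402) (nat_lit 5) (nat_lit 424) (nat_lit 5) (nat_lit 425) (nat_lit 5) (nat_lit 447) (nat_lit 431) (nat_lit 262)) (XT.lf (nat_lit 76) (nat_lit 4091921744) (nat_lit 0) (nat_lit 1699522866) (nat_lit 1748) (nat_lit 7816552850) (nat_lit 403) (nat_lit 5) (nat_lit 402) (nat_lit 5) (nat_lit 425) (nat_lit 5) (nat_lit 448) (nat_lit 431) (nat_lit 261))) (XT.nd (nat_lit 78) (nat_lit 0) (nat_lit 0) (XT.lf (nat_lit 0) (nat_lit 6862788390) (nat_lit 1672) (nat_lit 2913039252) (nat_lit 1748) (nat_lit 3970605438) (nat_lit 403) (nat_lit 5) (nat_lit 425) (nat_lit 5) (nat_lit 426) (nat_lit 5) (nat_lit 449) (nat_lit 431) (nat_lit 260)) (XT.lf (nat_lit 76) (nat_lit 3854227349)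 (nat_lit 0) (nat_lit 4128149672) (nat_lit 1748) (nat_lit 5904730495) (nat_lit 404) (nat_lit 5) (nat_lit 403) (nat_lit 5) (nat_lit 426) (nat_lit 5) (nat_lit 450) (nat_lit 431) (nat_lit 259))))))))
noncomputable def xc209 : XT := (XT.nd (nat_lit 2184) (nat_lit 8208) (nat_lit 0) (XT.nd (nat_lit 1092) (nat_lit 5320) (nat_lit 0) (XT.nd (nat_lit 546) (nat_lit 4028) (nat_lit 0) (XT.nd (nat_lit 234) (nat_lit 1596) (nat_lit 0) (XT.nd (nat_lit 78) (nat_lit 0) (nat_lit 0) (XT.lf (nat_lit 0) (nat_lit 9145326859) (nat_lit 1672) (nat_lit 3251891629) (nat_lit 1748) (nat_lit 1632963903) (nat_lit 404) (nat_lit 5) (nat_lit 426) (nat_lit 5) (nat_lit 427) (nat_lit 5) (nat_lit 451) (nat_lit 431) (nat_lit 258)) (XT.nd (nat_lit 78) (nat_lit 0) (nat_lit 0) (XT.lf (nat_lit 76) (nat_lit 3678479873) (nat_lit 0) (nat_lit 6695152979) (nat_lit 1748) (nat_lit 3801650180) (nat_lit 405) (nat_lit 5) (nat_lit 404) (nat_lit 5) (nat_lit 427) (nat_lit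 5) (nat_lit 452) (nat_lit 431) (nat_lit 257)) (XT.lf (nat_lit 76) (nat_lit 10784444047) (nat_lit 0) (nat_lit 854890961) (nat_lit 1748) (nat_lit 2683700169) (nat_lit 405) (nat_lit 5) (nat_lit 404) (nat_lit 5) (nat_lit 427) (nat_lit 5) (nat_lit 453) (nat_lit 431) (nat_lit 256)))) (XT.nd (nat_lit 156) (nat_lit 1672) (nat_lit 0) (XT.nd (nat_lit 78) (nat_lit 0) (nat_lit 0) (XT.lf (nat_lit 76) (nat_lit 3565267304) (nat_lit 0) (nat_lit 9412555220) (nat_lit 1748) (nat_lit 1494976385) (nat_lit 406) (nat_lit 5) (nat_lit 405) (nat_lit 5) (nat_lit 428) (nat_lit 5) (nat_lit 454) (nat_lit 431) (nat_lit 255)) (XT.lf (nat_lit 76) (nat_lit 10846329470) (nat_lit 0) (nat_lit 3517443435) (nat_lit 1748) (nat_lit 261377005) (nat_lit 406) (nat_lit 5) (nat_lit 405) (nat_lit 5) (nat_lit 428) (nat_lit 5) (nat_lit 455) (nat_lit 431) (nat_lit 254))) (XT.nd (nat_lit 78) (nat_lit 0) (nat_lit 0) (XT.lf (nat_lit 0) (nat_lit 1014545612) (nat_lit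 1748) (nat_lit 11271402825) (nat_lit 76) (nat_lit 2493861156) (nat_lit 383) (nat_lit 5) (nat_lit 406) (nat_lit 5) (nat_lit 384) (nat_lit 5) (nat_lit 456) (nat_lit 431) (nat_lit 253)) (XT.lf (nat_lit 0) (nat_lit 2352872889) (nat_lit 1748) (nat_lit 3976867545) (nat_lit 76) (nat_lit 8606985278) (nat_lit 383) (nat_lit 5) (nat_lit 406) (nat_lit 5) (nat_lit 384) (nat_lit 5) (nat_lit 457) (nat_lit 431) (nat_lit 252))))) (XT.nd (nat_lit 234) (nat_lit 1748) (nat_lit 0) (XT.nd (nat_lit 78) (nat_lit 836) (nat_lit 0) (XT.lf (nat_lit 0) (nat_lit 3502414385) (nat_lit 1444) (nat_lit 230020402) (nat_lit 1520) (nat_lit 11364061415) (nat_lit 364) (nat_lit 5) (nat_lit 383) (nat_lit 5) (nat_lit 384) (nat_lit 5) (nat_lit 458) (nat_lit 431) (nat_lit 251)) (XT.nd (nat_lit 78) (nat_lit 836) (nat_lit 0) (XT.lf (nat_lit 0) (nat_lit 5197205490) (nat_lit 1520) (nat_lit 4120025690) (nat_lit 76) (nat_lit 5941083873) (nat_lit 364) (nat_lit 5)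 (nat_lit 384) (nat_lit 5) (nat_lit 365) (nat_lit 5) (nat_lit 459) (nat_lit 431) (nat_lit 250)) (XT.lf (nat_lit 0) (nat_lit 3541367267) (nat_lit 836) (nat_lit 3166432231) (nat_lit 912) (nat_lit 8715245423) (nat_lit 353) (nat_lit 5) (nat_lit 364) (nat_lit 5) (nat_lit 365) (nat_lit 5) (nat_lit 460) (nat_lit 431) (nat_lit 249)))) (XT.nd (nat_lit 156) (nat_lit 836) (nat_lit 0) (XT.nd (nat_lit 78) (nat_lit 912) (nat_lit 0) (XT.lf (nat_lit 0) (nat_lit 8288739506) (nat_lit 912) (nat_lit 4206226970) (nat_lit 76) (nat_lit 3095305325) (nat_lit 353) (nat_lit 5) (nat_lit 365) (nat_lit 5) (nat_lit 354) (nat_lit 5) (nat_lit 461) (nat_lit 431) (nat_lit 248)) (XT.lf (nat_lit 0) (nat_lit 3642487440) (nat_lit 912) (nat_lit 6295712706) (nat_lit 988) (nat_lit 5821910033) (nat_lit 341) (nat_lit 5) (nat_lit 353) (nat_lit 5) (nat_lit 354) (nat_lit 5) (nat_lit 462) (nat_lit 431) (nat_lit 247))) (XT.nd (nat_lit 78) (nat_lit 836) (nat_lit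 0) (XT.lf (nat_lit 0) (nat_lit 11641634110) (nat_lit 988) (nat_lit 4235115942) (nat_lit 76) (nat_lit 56180490) (nat_lit 341) (nat_lit 5) (nat_lit 354) (nat_lit 5) (nat_lit 342) (nat_lit 5) (nat_lit 463) (nat_lit 431) (nat_lit 246)) (XT.lf (nat_lit 0) (nat_lit 3806245414) (nat_lit 836) (nat_lit 9631839105) (nat_lit 912) (nat_lit 2669948640) (nat_lit 330) (nat_lit 5) (nat_lit 341) (nat_lit 5) (nat_lit 342) (nat_lit 5) (nat_lit 464) (nat_lit 431) (nat_lit 245)))))) (XT.nd (nat_lit 546) (nat_lit 2888) (nat_lit 0) (XT.nd (nat_lit 234) (nat_lit 1520) (nat_lit 0) (XT.nd (nat_lit 78) (nat_lit 912) (nat_lit 0) (XT.lf (nat_lit 0) (nat_lit 12058866595) (nat_lit 836) (nat_lit 3232659786) (nat_lit 912) (nat_lit 994694907) (nat_lit 330) (nat_lit 5) (nat_lit 341) (nat_lit 5) (nat_lit 342) (nat_lit 5) (nat_lit 465) (nat_lit 431) (nat_lit 244)) (XT.nd (nat_lit 78) (nat_lit 0) (nat_lit 0) (XT.lf (nat_lit 0) (nat_lit 745326405) (nat_lit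 912) (nat_lit 12438992506) (nat_lit 76) (nat_lit 3282753520) (nat_lit 318) (nat_lit 5) (nat_lit 330) (nat_lit 5) (nat_lit 319) (nat_lit 5) (nat_lit 466) (nat_lit 431) (nat_lit 243)) (XT.lf (nat_lit 0) (nat_lit 2549639615) (nat_lit 912) (nat_lit 4180274422) (nat_lit 76) (nat_lit 9920643289) (nat_lit 318) (nat_lit 5) (nat_lit 330) (nat_lit 5) (nat_lit 319) (nat_lit 5) (nat_lit 467) (nat_lit 431) (nat_lit 242)))) (XT.nd (nat_lit 156) (nat_lit 760) (nat_lit 0) (XT.nd (nat_lit 78) (nat_lit 0) (nat_lit 0) (XT.lf (nat_lit 0) (nat_lit 4293016081) (nat_lit 760) (nat_lit 117870627) (nat_lit 836) (nat_lit 12426412610) (nat_lit 308) (nat_lit 5) (nat_lit 318) (nat_lit 5) (nat_lit 319) (nat_lit 5) (nat_lit 468) (nat_lit 431) (nat_lit 241)) (XT.lf (nat_lit 0) (nat_lit 6373687624) (nat_lit 836) (nat_lit 4084990409) (nat_lit 76) (nat_lit 6567815803) (nat_lit 308) (nat_lit 5) (nat_lit 319) (nat_lit 5) (nat_lit 309) (nat_lit 5) (nat_lit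 469) (nat_lit 431) (nat_lit 240))) (XT.nd (nat_lit 78) (nat_lit 0) (nat_lit 0) (XT.lf (nat_lit 0) (nat_lit 4596120379) (nat_lit 760) (nat_lit 3803449952) (nat_lit 836) (nat_lit 8819429580) (nat_lit 298) (nat_lit 5) (nat_lit 308) (nat_lit 5) (nat_lit 309) (nat_lit 5) (nat_lit 470) (nat_lit 431) (nat_lit 239)) (XT.lf (nat_lit 0) (nat_lit 10506236841) (nat_lit 836) (nat_lit 3935101298) (nat_lit 76) (nat_lit 2973216744) (nat_lit 298) (nat_lit 5) (nat_lit 309) (nat_lit 5) (nat_lit 299) (nat_lit 5) (nat_lit 471) (nat_lit 431) (nat_lit 238))))) (XT.nd (nat_lit 234) (nat_lit 1444) (nat_lit 0) (XT.nd (nat_lit 78) (nat_lit 760) (nat_lit 0) (XT.lf (nat_lit 0) (nat_lit 4959466260) (nat_lit 684) (nat_lit 7746382834) (nat_lit 760) (nat_lit 4907159632) (nat_lit 289) (nat_lit 5) (nat_lit 298) (nat_lit 5) (nat_lit 299) (nat_lit 5) (nat_lit 472) (nat_lit 431) (nat_lit 237)) (XT.nd (nat_lit 78) (nat_lit 760) (nat_lit 0) (XT.lf (nat_lit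 0) (nat_lit 14078489263) (nat_lit 684) (nat_lit 890879729) (nat_lit 760) (nat_lit 2845668285) (nat_lit 289) (nat_lit 5) (nat_lit 298) (nat_lit 5) (nat_lit 299) (nat_lit 5) (nat_lit 473) (nat_lit 431) (nat_lit 236)) (XT.lf (nat_lit 0) (nat_lit 5382995101) (nat_lit 760) (nat_lit 11963364920) (nat_lit 836) (nat_lit 673386226) (nat_lit 279) (nat_lit 5) (nat_lit 289) (nat_lit 5) (nat_lit 290) (nat_lit 5) (nat_lit 474) (nat_lit 431) (nat_lit 235)))) (XT.nd (nat_lit 156) (nat_lit 684) (nat_lit 0) (XT.nd (nat_lit 78) (nat_lit 684) (nat_lit 0) (XT.lf (nat_lit 0) (nat_lit 1546923540) (nat_lit 836) (nat_lit 3515365711) (nat_lit 76) (nat_lit 13165567377) (nat_lit 278) (nat_lit 5) (nat_lit 289) (nat_lit 5) (nat_lit 279) (nat_lit 5) (nat_lit 475) (nat_lit 431) (nat_lit 234)) (XT.lf (nat_lit 0) (nat_lit 3847546912) (nat_lit 760) (nat_lit 12598438528) (nat_lit 76) (nat_lit 1993159915) (nat_lit 269) (nat_lit 5) (nat_lit 279) (nat_lit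 5) (nat_lit 270) (nat_lit 5) (nat_lit 476) (nat_lit 431) (nat_lit 233))) (XT.nd (nat_lit 78) (nat_lit 684) (nat_lit 0) (XT.lf (nat_lit 0) (nat_lit 6245323423) (nat_lit 760) (nat_lit 3263078952) (nat_lit 76) (nat_lit 9145238236) (nat_lit 269) (nat_lit 5) (nat_lit 279) (nat_lit 5) (nat_lit 270) (nat_lit 5) (nat_lit 477) (nat_lit 431) (nat_lit 232)) (XT.lf (nat_lit 0) (nat_lit 6335448857) (nat_lit 684) (nat_lit 2390730149) (nat_lit 760) (nat_lit 10145547794) (nat_lit 260) (nat_lit 5) (nat_lit 269) (nat_lit 5) (nat_lit 270) (nat_lit 5) (nat_lit 478) (nat_lit 431) (nat_lit 231))))))) (XT.nd (nat_lit 1092) (nat_lit 3876) (nat_lit 0) (XT.nd (nat_lit 546) (nat_lit 2356) (nat_lit 0) (XT.nd (nat_lit 234) (nat_lit 1368) (nat_lit 0) (XT.nd (nat_lit 78) (nat_lit 608) (nat_lit 0) (XT.lf (nat_lit 0) (nat_lit 11304368861) (nat_lit 760) (nat_lit 2962021173) (nat_lit 76) (nat_lit 4826833766) (nat_lit 260) (nat_lit 5) (nat_lit 270)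 (nat_lit 5) (nat_lit 261) (nat_lit 5) (nat_lit 479) (nat_lit 431) (nat_lit 230)) (XT.nd (nat_lit 78) (nat_lit 0) (nat_lit 0) (XT.lf (nat_lit 0) (nat_lit 6871435839) (nat_lit 608) (nat_lit 7117310176) (nat_lit 684) (nat_lit 5329315618) (nat_lit 252) (nat_lit 5) (nat_lit 260) (nat_lit 5) (nat_lit 261) (nat_lit 5) (nat_lit 480) (nat_lit 431) (nat_lit 229)) (XT.lf (nat_lit 0) (nat_lit 16742197339) (nat_lit 684) (nat_lit 2613194347) (nat_lit 76) (nat_lit 191700100) (nat_lit 252) (nat_lit 5) (nat_lit 261) (nat_lit 5) (nat_lit 253) (nat_lit 5) (nat_lit 481) (nat_lit 431) (nat_lit 228)))) (XT.nd (nat_lit 156) (nat_lit 608) (nat_lit 0) (XT.nd (nat_lit 78) (nat_lit 76) (nat_lit 0) (XT.lf (nat_lit 0) (nat_lit 7461112913) (nat_lit 684) (nat_lit 12179538315) (nat_lit 760) (nat_lit 138255877) (nat_lit 243) (nat_lit 5) (nat_lit 252) (nat_lit 5) (nat_lit 253) (nat_lit 5) (nat_lit 482) (nat_lit 431) (nat_lit 227)) (XT.lf (nat_lit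 0) (nat_lit 2559892988) (nat_lit 760) (nat_lit 2266104529) (nat_lit 76) (nat_lit 15188788331) (nat_lit 242) (nat_lit 5) (nat_lit 252) (nat_lit 5) (nat_lit 243) (nat_lit 5) (nat_lit 483) (nat_lit 431) (nat_lit 226))) (XT.nd (nat_lit 78) (nat_lit 0) (nat_lit 0) (XT.lf (nat_lit 0) (nat_lit 5374859000) (nat_lit 684) (nat_lit 12186815078) (nat_lit 76) (nat_lit 2692398748) (nat_lit 234) (nat_lit 5) (nat_lit 243) (nat_lit 5) (nat_lit 235) (nat_lit 5) (nat_lit 484) (nat_lit 431) (nat_lit 225)) (XT.lf (nat_lit 0) (nat_lit 8287947728) (nat_lit 684) (nat_lit 1898379539) (nat_lit 76) (nat_lit 10310984795) (nat_lit 234) (nat_lit 5) (nat_lit 243) (nat_lit 5) (nat_lit 235) (nat_lit 5) (nat_lit 485) (nat_lit 431) (nat_lit 224))))) (XT.nd (nat_lit 234) (nat_lit 1216) (nat_lit 0) (XT.nd (nat_lit 78) (nat_lit 532) (nat_lit 0) (XT.lf (nat_lit 0) (nat_lit 8703619252) (nat_lit 608) (nat_lit 2606851084) (nat_lit 684) (nat_lit 9433925232)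 (nat_lit 226) (nat_lit 5) (nat_lit 234) (nat_lit 5) (nat_lit 235) (nat_lit 5) (nat_lit 486) (nat_lit 431) (nat_lit 223)) (XT.nd (nat_lit 78) (nat_lit 532) (nat_lit 0) (XT.lf (nat_lit 0) (nat_lit 14434256047) (nat_lit 684) (nat_lit 1492543854) (nat_lit 76) (nat_lit 5068807461) (nat_lit 226) (nat_lit 5) (nat_lit 235) (nat_lit 5) (nat_lit 227) (nat_lit 5) (nat_lit 487) (nat_lit 431) (nat_lit 222)) (XT.lf (nat_lit 0) (nat_lit 9365936281) (nat_lit 532) (nat_lit 8327477876) (nat_lit 608) (nat_lit 3556974114) (nat_lit 219) (nat_lit 5) (nat_lit 226) (nat_lit 5) (nat_lit 227) (nat_lit 5) (nat_lit 488) (nat_lit 431) (nat_lit 221)))) (XT.nd (nat_lit 156) (nat_lit 532) (nat_lit 0) (XT.nd (nat_lit 78) (nat_lit 684) (nat_lit 0) (XT.lf (nat_lit 0) (nat_lit 20455570218) (nat_lit 532) (nat_lit 567084814) (nat_lit 608) (nat_lit 487514533) (nat_lit 219) (nat_lit 5) (nat_lit 226) (nat_lit 5) (nat_lit 227) (nat_lit 5) (nat_lit 489)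 (nat_lit 431) (nat_lit 220)) (XT.lf (nat_lit 0) (nat_lit 2717448900) (nat_lit 684) (nat_lit 11720878091) (nat_lit 76) (nat_lit 7334303250) (nat_lit 210) (nat_lit 5) (nat_lit 219) (nat_lit 5) (nat_lit 211) (nat_lit 5) (nat_lit 490) (nat_lit 431) (nat_lit 219))) (XT.nd (nat_lit 78) (nat_lit 532) (nat_lit 0) (XT.lf (nat_lit 0) (nat_lit 5985869031) (nat_lit 684) (nat_lit 658952574) (nat_lit 76) (nat_lit 15395338971) (nat_lit 210) (nat_lit 5) (nat_lit 219) (nat_lit 5) (nat_lit 211) (nat_lit 5) (nat_lit 491) (nat_lit 431) (nat_lit 218)) (XT.lf (nat_lit 0) (nat_lit 9393535963) (nat_lit 608) (nat_lit 11561476016) (nat_lit 76) (nat_lit 1356554520) (nat_lit 203) (nat_lit 5) (nat_lit 211) (nat_lit 5) (nat_lit 204) (nat_lit 5) (nat_lit 492) (nat_lit 431) (nat_lit 217)))))) (XT.nd (nat_lit 546) (nat_lit 1824) (nat_lit 0) (XT.nd (nat_lit 234) (nat_lit 1064) (nat_lit 0) (XT.nd (nat_lit 78) (nat_lit 988) (nat_lit 0) (XT.lf (nat_lit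 0) (nat_lit 12912959303) (nat_lit 608) (nat_lit 242277730) (nat_lit 76) (nat_lit 9432293945) (nat_lit 203) (nat_lit 5) (nat_lit 211) (nat_lit 5) (nat_lit 204) (nat_lit 5) (nat_lit 493) (nat_lit 431) (nat_lit 216)) (XT.nd (nat_lit 78) (nat_lit 456) (nat_lit 0) (XT.lf (nat_lit 0) (nat_lit 11447382550) (nat_lit 532) (nat_lit 5124954152) (nat_lit 608) (nat_lit 6295289182) (nat_lit 196) (nat_lit 5) (nat_lit 203) (nat_lit 5) (nat_lit 204) (nat_lit 5) (nat_lit 494) (nat_lit 431) (nat_lit 215)) (XT.lf (nat_lit 0) (nat_lit 197397489) (nat_lit 456) (nat_lit 20125615764) (nat_lit 532) (nat_lit 2829949604) (nat_lit 190) (nat_lit 5) (nat_lit 196) (nat_lit 5) (nat_lit 197) (nat_lit 5) (nat_lit 495) (nat_lit 431) (nat_lit 214)))) (XT.nd (nat_lit 156) (nat_lit 456) (nat_lit 0) (XT.nd (nat_lit 78) (nat_lit 532) (nat_lit 0) (XT.lf (nat_lit 0) (nat_lit 801845157) (nat_lit 532) (nat_lit 11285430378) (nat_lit 76) (nat_lit 11354514023)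 (nat_lit 189) (nat_lit 5) (nat_lit 196) (nat_lit 5) (nat_lit 190) (nat_lit 5) (nat_lit 496) (nat_lit 431) (nat_lit 213)) (XT.lf (nat_lit 0) (nat_lit 601242421) (nat_lit 532) (nat_lit 3866478630) (nat_lit 608) (nat_lit 19268313122) (nat_lit 182) (nat_lit 5) (nat_lit 189) (nat_lit 5) (nat_lit 190) (nat_lit 5) (nat_lit 497) (nat_lit 431) (nat_lit 212))) (XT.nd (nat_lit 78) (nat_lit 456) (nat_lit 0) (XT.lf (nat_lit 0) (nat_lit 8307927203) (nat_lit 608) (nat_lit 11191916910) (nat_lit 76) (nat_lit 4534301531) (nat_lit 182) (nat_lit 5) (nat_lit 190) (nat_lit 5) (nat_lit 183) (nat_lit 5) (nat_lit 498) (nat_lit 431) (nat_lit 211)) (XT.lf (nat_lit 0) (nat_lit 971009914) (nat_lit 456) (nat_lit 11281368617) (nat_lit 532) (nat_lit 12085294166) (nat_lit 176) (nat_lit 5) (nat_lit 182) (nat_lit 5) (nat_lit 183) (nat_lit 5) (nat_lit 499) (nat_lit 431) (nat_lit 210))))) (XT.nd (nat_lit 312) (nat_lit 836) (nat_lit 0) (XT.nd (nat_lit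 156) (nat_lit 532) (nat_lit 0) (XT.nd (nat_lit 78) (nat_lit 456) (nat_lit 0) (XT.lf (nat_lit 0) (nat_lit 13523009033) (nat_lit 456) (nat_lit 2823393655) (nat_lit 532) (nat_lit 8299456061) (nat_lit 176) (nat_lit 5) (nat_lit 182) (nat_lit 5) (nat_lit 183) (nat_lit 5) (nat_lit 500) (nat_lit 431) (nat_lit 209)) (XT.lf (nat_lit 0) (nat_lit 1339871146) (nat_lit 456) (nat_lit 19224474668) (nat_lit 532) (nat_lit 4395024029) (nat_lit 170) (nat_lit 5) (nat_lit 176) (nat_lit 5) (nat_lit 177) (nat_lit 5) (nat_lit 501) (nat_lit 431) (nat_lit 208))) (XT.nd (nat_lit 78) (nat_lit 532) (nat_lit 0) (XT.lf (nat_lit 0) (nat_lit 14177852290) (nat_lit 456) (nat_lit 10777715420) (nat_lit 532) (nat_lit 321807100) (nat_lit 170) (nat_lit 5) (nat_lit 176) (nat_lit 5) (nat_lit 177) (nat_lit 5) (nat_lit 502) (nat_lit 431) (nat_lit 207)) (XT.lf (nat_lit 0) (nat_lit 1662000019) (nat_lit 456) (nat_lit 2127155244) (nat_lit 532) (nat_lit 21811957873)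 (nat_lit 163) (nat_lit 5) (nat_lit 169) (nat_lit 5) (nat_lit 170) (nat_lit 5) (nat_lit 503) (nat_lit 431) (nat_lit 206)))) (XT.nd (nat_lit 156) (nat_lit 380) (nat_lit 0) (XT.nd (nat_lit 78) (nat_lit 456) (nat_lit 0) (XT.lf (nat_lit 0) (nat_lit 8092281535) (nat_lit 532) (nat_lit 11152531598) (nat_lit 76) (nat_lit 6684187413) (nat_lit 163) (nat_lit 5) (nat_lit 170) (nat_lit 5) (nat_lit 164) (nat_lit 5) (nat_lit 504) (nat_lit 431) (nat_lit 205)) (XT.lf (nat_lit 0) (nat_lit 1894856618) (nat_lit 456) (nat_lit 10608881094) (nat_lit 532) (nat_lit 13759264536) (nat_lit 157) (nat_lit 5) (nat_lit 163) (nat_lit 5) (nat_lit 164) (nat_lit 5) (nat_lit 505) (nat_lit 431) (nat_lit 204))) (XT.nd (nat_lit 78) (nat_lit 380) (nat_lit 0) (XT.lf (nat_lit 0) (nat_lit 15348716330) (nat_lit 456) (nat_lit 1725467770) (nat_lit 532) (nat_lit 9528086520) (nat_lit 157) (nat_lit 5) (nat_lit 163) (nat_lit 5) (nat_lit 164) (nat_lit 5) (nat_lit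 506) (nat_lit 431) (nat_lit 203)) (XT.lf (nat_lit 0) (nat_lit 2097598871) (nat_lit 380) (nat_lit 19695678899) (nat_lit 456) (nat_lit 5153903641) (nat_lit 152) (nat_lit 5) (nat_lit 157) (nat_lit 5) (nat_lit 158) (nat_lit 5) (nat_lit 507) (nat_lit 431) (nat_lit 202))))))))
noncomputable def xc210 : XT := (XT.nd (nat_lit 54756) (nat_lit 0) (nat_lit 11020) (XT.nd (nat_lit 53664) (nat_lit 0) (nat_lit 20900) (XT.nd (nat_lit 546) (nat_lit 836) (nat_lit 0) (XT.nd (nat_lit 234) (nat_lit 760) (nat_lit 0) (XT.nd (nat_lit 78) (nat_lit 532) (nat_lit 0) (XT.lf (nat_lit 0) (nat_lit 15851165395) (nat_lit 380) (nat_lit 10838491027) (nat_lit 456) (nat_lit 607677720) (nat_lit 152) (nat_lit 5) (nat_lit 157) (nat_lit 5) (nat_lit 158) (nat_lit 5) (nat_lit 508) (nat_lit 431) (nat_lit 201)) (XT.nd (nat_lit 78) (nat_lit 0) (nat_lit 0) (XT.lf (nat_lit 0) (nat_lit 2222783297) (nat_lit 456) (nat_lit 1764358306) (nat_lit 532) (nat_lit 23666616475)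 (nat_lit 145) (nat_lit 5) (nat_lit 151) (nat_lit 5) (nat_lit 152) (nat_lit 5) (nat_lit 509) (nat_lit 431) (nat_lit 200)) (XT.lf (nat_lit 0) (nat_lit 8787799901) (nat_lit 532) (nat_lit 11754227948) (nat_lit 76) (nat_lit 7472762405) (nat_lit 145) (nat_lit 5) (nat_lit 152) (nat_lit 5) (nat_lit 146) (nat_lit 5) (nat_lit 510) (nat_lit 431) (nat_lit 199)))) (XT.nd (nat_lit 156) (nat_lit 380) (nat_lit 0) (XT.nd (nat_lit 78) (nat_lit 0) (nat_lit 0) (XT.lf (nat_lit 0) (nat_lit 2207882358) (nat_lit 380) (nat_lit 11498799792) (nat_lit 456) (nat_lit 14675918354) (nat_lit 140) (nat_lit 5) (nat_lit 145) (nat_lit 5) (nat_lit 146) (nat_lit 5) (nat_lit 511) (nat_lit 431) (nat_lit 198)) (XT.lf (nat_lit 0) (nat_lit 16603158592) (nat_lit 380) (nat_lit 2195891336) (nat_lit 456) (nat_lit 9957216489) (nat_lit 140) (nat_lit 5) (nat_lit 145) (nat_lit 5) (nat_lit 146) (nat_lit 5) (nat_lit 512) (nat_lit 431) (nat_lit 197))) (XT.nd (nat_lit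 78) (nat_lit 0) (nat_lit 0) (XT.lf (nat_lit 0) (nat_lit 2124073874) (nat_lit 380) (nat_lit 21926627869) (nat_lit 456) (nat_lit 5085556758) (nat_lit 135) (nat_lit 5) (nat_lit 140) (nat_lit 5) (nat_lit 141) (nat_lit 5) (nat_lit 513) (nat_lit 431) (nat_lit 196)) (XT.lf (nat_lit 0) (nat_lit 16831470553) (nat_lit 380) (nat_lit 12668248790) (nat_lit 456) (nat_lit 22285981) (nat_lit 135) (nat_lit 5) (nat_lit 140) (nat_lit 5) (nat_lit 141) (nat_lit 5) (nat_lit 514) (nat_lit 431) (nat_lit 195))))) (XT.nd (nat_lit 234) (nat_lit 0) (nat_lit 0) (XT.nd (nat_lit 78) (nat_lit 380) (nat_lit 0) (XT.lf (nat_lit 0) (nat_lit 1903853849) (nat_lit 380) (nat_lit 3179694851) (nat_lit 456) (nat_lit 24831077340) (nat_lit 129) (nat_lit 5) (nat_lit 134) (nat_lit 5) (nat_lit 135) (nat_lit 5) (nat_lit 515) (nat_lit 431) (nat_lit 194)) (XT.nd (nat_lit 78) (nat_lit 380) (nat_lit 0) (XT.lf (nat_lit 0) (nat_lit 10415524653) (nat_lit 456) (nat_lit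 13399451548) (nat_lit 76) (nat_lit 6497635025) (nat_lit 129) (nat_lit 5) (nat_lit 135) (nat_lit 5) (nat_lit 130) (nat_lit 5) (nat_lit 516) (nat_lit 431) (nat_lit 193)) (XT.lf (nat_lit 0) (nat_lit 1497477232) (nat_lit 380) (nat_lit 14383918724) (nat_lit 456) (nat_lit 14836616479) (nat_lit 124) (nat_lit 5) (nat_lit 129) (nat_lit 5) (nat_lit 130) (nat_lit 5) (nat_lit 517) (nat_lit 431) (nat_lit 192)))) (XT.nd (nat_lit 52728) (nat_lit 0) (nat_lit 22344) (XT.nd (nat_lit 52650) (nat_lit 0) (nat_lit 22344) (XT.lf (nat_lit 0) (nat_lit 16868811518) (nat_lit 380) (nat_lit 4674201738) (nat_lit 456) (nat_lit 9586781249) (nat_lit 124) (nat_lit 5) (nat_lit 129) (nat_lit 5) (nat_lit 130) (nat_lit 5) (nat_lit 518) (nat_lit 431) (nat_lit 191)) (XT.lf (nat_lit 0) (nat_lit 1577089961) (nat_lit 0) (nat_lit 1577089961) (nat_lit 1596) (nat_lit 2733522093) (nat_lit 418) (nat_lit 5) (nat_lit 418) (nat_lit 3) (nat_lit 439) (nat_lit 3)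 (nat_lit 432) (nat_lit 432) (nat_lit 276))) (XT.nd (nat_lit 78) (nat_lit 0) (nat_lit 0) (XT.lf (nat_lit 0) (nat_lit 6859173839) (nat_lit 1596) (nat_lit 3211372765) (nat_lit 1672) (nat_lit 1812518555) (nat_lit 418) (nat_lit 5) (nat_lit 439) (nat_lit 3) (nat_lit 440) (nat_lit 5) (nat_lit 433) (nat_lit 432) (nat_lit 275)) (XT.lf (nat_lit 76) (nat_lit 2309537718) (nat_lit 0) (nat_lit 5134910011) (nat_lit 1672) (nat_lit 4547971783) (nat_lit 419) (nat_lit 5) (nat_lit 418) (nat_lit 5) (nat_lit 440) (nat_lit 5) (nat_lit 434) (nat_lit 432) (nat_lit 274)))))) (XT.nd (nat_lit 546) (nat_lit 1444) (nat_lit 0) (XT.nd (nat_lit 234) (nat_lit 0) (nat_lit 152) (XT.nd (nat_lit 78) (nat_lit 0) (nat_lit 76) (XT.lf (nat_lit 76) (nat_lit 7977901154) (nat_lit 0) (nat_lit 72837643) (nat_lit 1672) (nat_lit 4053044620) (nat_lit 419) (nat_lit 5) (nat_lit 418) (nat_lit 5) (nat_lit 440) (nat_lit 5) (nat_lit 435) (nat_lit 432) (nat_lit 273))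 (XT.nd (nat_lit 78) (nat_lit 0) (nat_lit 0) (XT.lf (nat_lit 76) (nat_lit 1522520713) (nat_lit 0) (nat_lit 7177609152) (nat_lit 1672) (nat_lit 3516633781) (nat_lit 420) (nat_lit 5) (nat_lit 419) (nat_lit 5) (nat_lit 441) (nat_lit 5) (nat_lit 436) (nat_lit 432) (nat_lit 272)) (XT.lf (nat_lit 76) (nat_lit 7332720240) (nat_lit 0) (nat_lit 2046184396) (nat_lit 1672) (nat_lit 2952779289) (nat_lit 420) (nat_lit 5) (nat_lit 419) (nat_lit 5) (nat_lit 441) (nat_lit 5) (nat_lit 437) (nat_lit 432) (nat_lit 271)))) (XT.nd (nat_lit 156) (nat_lit 0) (nat_lit 76) (XT.nd (nat_lit 78) (nat_lit 0) (nat_lit 0) (XT.lf (nat_lit 76) (nat_lit 793173630) (nat_lit 0) (nat_lit 9292422316) (nat_lit 1672) (nat_lit 2363028039) (nat_lit 421) (nat_lit 5) (nat_lit 420) (nat_lit 5) (nat_lit 442) (nat_lit 5) (nat_lit 438) (nat_lit 432) (nat_lit 270)) (XT.lf (nat_lit 76) (nat_lit 6748477038) (nat_lit 0) (nat_lit 4093627004) (nat_lit 1672) (nat_lit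 1725093184) (nat_lit 421) (nat_lit 5) (nat_lit 420) (nat_lit 5) (nat_lit 442) (nat_lit 5) (nat_lit 439) (nat_lit 432) (nat_lit 269))) (XT.nd (nat_lit 78) (nat_lit 0) (nat_lit 0) (XT.lf (nat_lit 76) (nat_lit 121653793) (nat_lit 0) (nat_lit 11489655905) (nat_lit 1672) (nat_lit 1076888764) (nat_lit 422) (nat_lit 5) (nat_lit 421) (nat_lit 5) (nat_lit 443) (nat_lit 5) (nat_lit 440) (nat_lit 432) (nat_lit 268)) (XT.lf (nat_lit 76) (nat_lit 6225448384) (nat_lit 0) (nat_lit 6225529520) (nat_lit 1672) (nat_lit 359547976) (nat_lit 422) (nat_lit 5) (nat_lit 421) (nat_lit 5) (nat_lit 443) (nat_lit 5) (nat_lit 441) (nat_lit 432) (nat_lit 267))))) (XT.nd (nat_lit 234) (nat_lit 0) (nat_lit 152) (XT.nd (nat_lit 78) (nat_lit 0) (nat_lit 76) (XT.lf (nat_lit 0) (nat_lit 356494433) (nat_lit 1672) (nat_lit 493205247) (nat_lit 1748) (nat_lit 12085774559) (nat_lit 399) (nat_lit 5) (nat_lit 421) (nat_lit 5) (nat_lit 422) (nat_lit 5) (nat_lit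 442) (nat_lit 432) (nat_lit 266)) (XT.nd (nat_lit 78) (nat_lit 0) (nat_lit 0) (XT.lf (nat_lit 0) (nat_lit 1139444223) (nat_lit 1672) (nat_lit 7305364405) (nat_lit 1748) (nat_lit 4616924666) (nat_lit 400) (nat_lit 5) (nat_lit 422) (nat_lit 5) (nat_lit 423) (nat_lit 5) (nat_lit 443) (nat_lit 432) (nat_lit 265)) (XT.lf (nat_lit 0) (nat_lit 1936646583) (nat_lit 1672) (nat_lit 1065350389) (nat_lit 1748) (nat_lit 10188555824) (nat_lit 400) (nat_lit 5) (nat_lit 422) (nat_lit 5) (nat_lit 423) (nat_lit 5) (nat_lit 444) (nat_lit 432) (nat_lit 264)))) (XT.nd (nat_lit 156) (nat_lit 0) (nat_lit 76) (XT.nd (nat_lit 78) (nat_lit 0) (nat_lit 0) (XT.lf (nat_lit 0) (nat_lit 2791258652) (nat_lit 1672) (nat_lit 7975203344) (nat_lit 1748) (nat_lit 2554664375) (nat_lit 401) (nat_lit 5) (nat_lit 423) (nat_lit 5) (nat_lit 424) (nat_lit 5) (nat_lit 445) (nat_lit 432) (nat_lit 263)) (XT.lf (nat_lit 0) (nat_lit 3680055556) (nat_lit 1672)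 (nat_lit 1581153046) (nat_lit 1748) (nat_lit 8192767825) (nat_lit 401) (nat_lit 5) (nat_lit 423) (nat_lit 5) (nat_lit 424) (nat_lit 5) (nat_lit 446) (nat_lit 432) (nat_lit 262))) (XT.nd (nat_lit 78) (nat_lit 0) (nat_lit 0) (XT.lf (nat_lit 0) (nat_lit 4611833932) (nat_lit 1672) (nat_lit 8592006016) (nat_lit 1748) (nat_lit 385146149) (nat_lit 402) (nat_lit 5) (nat_lit 424) (nat_lit 5) (nat_lit 425) (nat_lit 5) (nat_lit 447) (nat_lit 432) (nat_lit 261)) (XT.lf (nat_lit 0) (nat_lit 5598149162) (nat_lit 1672) (nat_lit 2040245089) (nat_lit 1748) (nat_lit 6087590278) (nat_lit 402) (nat_lit 5) (nat_lit 424) (nat_lit 5) (nat_lit 425) (nat_lit 5) (nat_lit 448) (nat_lit 432) (nat_lit 260))))))) (XT.nd (nat_lit 1092) (nat_lit 6384) (nat_lit 0) (XT.nd (nat_lit 546) (nat_lit 3724) (nat_lit 0) (XT.nd (nat_lit 234) (nat_lit 0) (nat_lit 152) (XT.nd (nat_lit 78) (nat_lit 0) (nat_lit 76) (XT.lf (nat_lit 76) (nat_lit 4697336443) (nat_lit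 0) (nat_lit 1927919347) (nat_lit 1748) (nat_lit 7240052302) (nat_lit 403) (nat_lit 5) (nat_lit 402) (nat_lit 5) (nat_lit 425) (nat_lit 5) (nat_lit 449) (nat_lit 432) (nat_lit 259)) (XT.nd (nat_lit 78) (nat_lit 0) (nat_lit 0) (XT.lf (nat_lit 0) (nat_lit 7702710898) (nat_lit 1672) (nat_lit 2442194356) (nat_lit 1748) (nat_lit 3861923083) (nat_lit 403) (nat_lit 5) (nat_lit 425) (nat_lit 5) (nat_lit 426) (nat_lit 5) (nat_lit 450) (nat_lit 432) (nat_lit 258)) (XT.lf (nat_lit 76) (nat_lit 4456936619) (nat_lit 0) (nat_lit 4377389607) (nat_lit 1748) (nat_lit 5316206750) (nat_lit 404) (nat_lit 5) (nat_lit 403) (nat_lit 5) (nat_lit 426) (nat_lit 5) (nat_lit 451) (nat_lit 432) (nat_lit 257)))) (XT.nd (nat_lit 156) (nat_lit 0) (nat_lit 0) (XT.nd (nat_lit 78) (nat_lit 0) (nat_lit 0) (XT.lf (nat_lit 0) (nat_lit 10005899561) (nat_lit 1672) (nat_lit 2786514176) (nat_lit 1748) (nat_lit 1504357550) (nat_lit 404) (nat_lit 5) (nat_lit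 426) (nat_lit 5) (nat_lit 427) (nat_lit 5) (nat_lit 452) (nat_lit 432) (nat_lit 256)) (XT.lf (nat_lit 76) (nat_lit 4278975182) (nat_lit 0) (nat_lit 6969930071) (nat_lit 1748) (nat_lit 3196075064) (nat_lit 405) (nat_lit 5) (nat_lit 404) (nat_lit 5) (nat_lit 427) (nat_lit 5) (nat_lit 453) (nat_lit 432) (nat_lit 255))) (XT.nd (nat_lit 78) (nat_lit 0) (nat_lit 76) (XT.lf (nat_lit 76) (nat_lit 11516726763) (nat_lit 0) (nat_lit 1010100576) (nat_lit 1748) (nat_lit 2069130917) (nat_lit 405) (nat_lit 5) (nat_lit 404) (nat_lit 5) (nat_lit 427) (nat_lit 5) (nat_lit 454) (nat_lit 432) (nat_lit 254)) (XT.lf (nat_lit 76) (nat_lit 4164107215) (nat_lit 0) (nat_lit 9717685999) (nat_lit 1748) (nat_lit 867138574) (nat_lit 406) (nat_lit 5) (nat_lit 405) (nat_lit 5) (nat_lit 428) (nat_lit 5) (nat_lit 455) (nat_lit 432) (nat_lit 253))))) (XT.nd (nat_lit 234) (nat_lit 2204) (nat_lit 0) (XT.nd (nat_lit 78) (nat_lit 0) (nat_lit 76) (XT.lf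 (nat_lit 0) (nat_lit 373275349) (nat_lit 1748) (nat_lit 3326599996) (nat_lit 1824) (nat_lit 11204666585) (nat_lit 382) (nat_lit 5) (nat_lit 405) (nat_lit 5) (nat_lit 406) (nat_lit 5) (nat_lit 456) (nat_lit 432) (nat_lit 252)) (XT.nd (nat_lit 78) (nat_lit 0) (nat_lit 0) (XT.lf (nat_lit 0) (nat_lit 1661455107) (nat_lit 1748) (nat_lit 10960590520) (nat_lit 76) (nat_lit 2440418050) (nat_lit 383) (nat_lit 5) (nat_lit 406) (nat_lit 5) (nat_lit 384) (nat_lit 5) (nat_lit 457) (nat_lit 432) (nat_lit 251)) (XT.lf (nat_lit 0) (nat_lit 3014262291) (nat_lit 1748) (nat_lit 3530679051) (nat_lit 76) (nat_lit 8677830544) (nat_lit 383) (nat_lit 5) (nat_lit 406) (nat_lit 5) (nat_lit 384) (nat_lit 5) (nat_lit 458) (nat_lit 432) (nat_lit 250)))) (XT.nd (nat_lit 156) (nat_lit 836) (nat_lit 0) (XT.nd (nat_lit 78) (nat_lit 0) (nat_lit 0) (XT.lf (nat_lit 0) (nat_lit 4094729795) (nat_lit 1444) (nat_lit 318030812) (nat_lit 1520) (nat_lit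 10973158151) (nat_lit 364) (nat_lit 5) (nat_lit 383) (nat_lit 5) (nat_lit 384) (nat_lit 5) (nat_lit 459) (nat_lit 432) (nat_lit 249)) (XT.lf (nat_lit 0) (nat_lit 5894419768) (nat_lit 1520) (nat_lit 3677606554) (nat_lit 76) (nat_lit 5979203525) (nat_lit 364) (nat_lit 5) (nat_lit 384) (nat_lit 5) (nat_lit 365) (nat_lit 5) (nat_lit 460) (nat_lit 432) (nat_lit 248))) (XT.nd (nat_lit 78) (nat_lit 0) (nat_lit 0) (XT.lf (nat_lit 0) (nat_lit 4133561501) (nat_lit 836) (nat_lit 3293416466) (nat_lit 912) (nat_lit 8292448870) (nat_lit 353) (nat_lit 5) (nat_lit 364) (nat_lit 5) (nat_lit 365) (nat_lit 5) (nat_lit 461) (nat_lit 432) (nat_lit 247)) (XT.lf (nat_lit 0) (nat_lit 9027660555) (nat_lit 912) (nat_lit 3766960171) (nat_lit 76) (nat_lit 3095622475) (nat_lit 353) (nat_lit 5) (nat_lit 365) (nat_lit 5) (nat_lit 354) (nat_lit 5) (nat_lit 462) (nat_lit 432) (nat_lit 246)))))) (XT.nd (nat_lit 546) (nat_lit 2964) (nat_lit 0) (XT.nd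 (nat_lit 234) (nat_lit 1672) (nat_lit 0) (XT.nd (nat_lit 78) (nat_lit 836) (nat_lit 0) (XT.lf (nat_lit 0) (nat_lit 4235285163) (nat_lit 912) (nat_lit 6466962931) (nat_lit 988) (nat_lit 5361394776) (nat_lit 341) (nat_lit 5) (nat_lit 353) (nat_lit 5) (nat_lit 354) (nat_lit 5) (nat_lit 463) (nat_lit 432) (nat_lit 245)) (XT.nd (nat_lit 78) (nat_lit 836) (nat_lit 0) (XT.lf (nat_lit 0) (nat_lit 12428378158) (nat_lit 988) (nat_lit 3798336066) (nat_lit 76) (nat_lit 13440001) (nat_lit 341) (nat_lit 5) (nat_lit 354) (nat_lit 5) (nat_lit 342) (nat_lit 5) (nat_lit 464) (nat_lit 432) (nat_lit 244)) (XT.lf (nat_lit 0) (nat_lit 4400421712) (nat_lit 836) (nat_lit 9852838389) (nat_lit 912) (nat_lit 2165655737) (nat_lit 330) (nat_lit 5) (nat_lit 341) (nat_lit 5) (nat_lit 342) (nat_lit 5) (nat_lit 465) (nat_lit 432) (nat_lit 243)))) (XT.nd (nat_lit 156) (nat_lit 760) (nat_lit 0) (XT.nd (nat_lit 78) (nat_lit 912) (nat_lit 0) (XT.lf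 (nat_lit 0) (nat_lit 12807937447) (nat_lit 836) (nat_lit 3325119357) (nat_lit 912) (nat_lit 467832064) (nat_lit 330) (nat_lit 5) (nat_lit 341) (nat_lit 5) (nat_lit 342) (nat_lit 5) (nat_lit 466) (nat_lit 432) (nat_lit 242)) (XT.lf (nat_lit 0) (nat_lit 1292431118) (nat_lit 912) (nat_lit 12164654619) (nat_lit 76) (nat_lit 3328354645) (nat_lit 318) (nat_lit 5) (nat_lit 330) (nat_lit 5) (nat_lit 319) (nat_lit 5) (nat_lit 467) (nat_lit 432) (nat_lit 241))) (XT.nd (nat_lit 78) (nat_lit 760) (nat_lit 0) (XT.lf (nat_lit 0) (nat_lit 3122395333) (nat_lit 912) (nat_lit 3751019383) (nat_lit 76) (nat_lit 10099395424) (nat_lit 318) (nat_lit 5) (nat_lit 330) (nat_lit 5) (nat_lit 319) (nat_lit 5) (nat_lit 468) (nat_lit 432) (nat_lit 240)) (XT.lf (nat_lit 0) (nat_lit 4888362848) (nat_lit 760) (nat_lit 125581798) (nat_lit 836) (nat_lit 12149487115) (nat_lit 308) (nat_lit 5) (nat_lit 318) (nat_lit 5) (nat_lit 319) (nat_lit 5) (nat_lit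 469) (nat_lit 432) (nat_lit 239))))) (XT.nd (nat_lit 312) (nat_lit 1520) (nat_lit 0) (XT.nd (nat_lit 156) (nat_lit 684) (nat_lit 0) (XT.nd (nat_lit 78) (nat_lit 760) (nat_lit 0) (XT.lf (nat_lit 0) (nat_lit 7005872596) (nat_lit 836) (nat_lit 3656754190) (nat_lit 76) (nat_lit 6693992174) (nat_lit 308) (nat_lit 5) (nat_lit 319) (nat_lit 5) (nat_lit 309) (nat_lit 5) (nat_lit 470) (nat_lit 432) (nat_lit 238)) (XT.lf (nat_lit 0) (nat_lit 5194623971) (nat_lit 760) (nat_lit 3871041748) (nat_lit 836) (nat_lit 8487447670) (nat_lit 298) (nat_lit 5) (nat_lit 308) (nat_lit 5) (nat_lit 309) (nat_lit 5) (nat_lit 471) (nat_lit 432) (nat_lit 237))) (XT.nd (nat_lit 78) (nat_lit 684) (nat_lit 0) (XT.lf (nat_lit 0) (nat_lit 11204752776) (nat_lit 836) (nat_lit 3507143849) (nat_lit 76) (nat_lit 3040883063) (nat_lit 298) (nat_lit 5) (nat_lit 309) (nat_lit 5) (nat_lit 299) (nat_lit 5) (nat_lit 472) (nat_lit 432) (nat_lit 236)) (XT.lf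 (nat_lit 0) (nat_lit 5561981774) (nat_lit 684) (nat_lit 7880067128) (nat_lit 760) (nat_lit 4513285723) (nat_lit 289) (nat_lit 5) (nat_lit 298) (nat_lit 5) (nat_lit 299) (nat_lit 5) (nat_lit 473) (nat_lit 432) (nat_lit 235)))) (XT.nd (nat_lit 156) (nat_lit 760) (nat_lit 0) (XT.nd (nat_lit 78) (nat_lit 760) (nat_lit 0) (XT.lf (nat_lit 0) (nat_lit 14853516097) (nat_lit 684) (nat_lit 887870498) (nat_lit 760) (nat_lit 2420211943) (nat_lit 289) (nat_lit 5) (nat_lit 298) (nat_lit 5) (nat_lit 299) (nat_lit 5) (nat_lit 474) (nat_lit 432) (nat_lit 234)) (XT.lf (nat_lit 0) (nat_lit 5990406701) (nat_lit 760) (nat_lit 12169620774) (nat_lit 836) (nat_lit 210497637) (nat_lit 279) (nat_lit 5) (nat_lit 289) (nat_lit 5) (nat_lit 290) (nat_lit 5) (nat_lit 475) (nat_lit 432) (nat_lit 233))) (XT.nd (nat_lit 78) (nat_lit 684) (nat_lit 0) (XT.lf (nat_lit 0) (nat_lit 2038753005) (nat_lit 836) (nat_lit 3089325048) (nat_lit 76) (nat_lit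 13454847554) (nat_lit 278) (nat_lit 5) (nat_lit 289) (nat_lit 5) (nat_lit 279) (nat_lit 5) (nat_lit 476) (nat_lit 432) (nat_lit 232)) (XT.lf (nat_lit 0) (nat_lit 4379800083) (nat_lit 760) (nat_lit 12348205527) (nat_lit 76) (nat_lit 2070551574) (nat_lit 269) (nat_lit 5) (nat_lit 279) (nat_lit 5) (nat_lit 270) (nat_lit 5) (nat_lit 477) (nat_lit 432) (nat_lit 231))))))))
noncomputable def xc211 : XT := (XT.nd (nat_lit 2184) (nat_lit 2964) (nat_lit 0) (XT.nd (nat_lit 1092) (nat_lit 3572) (nat_lit 0) (XT.nd (nat_lit 546) (nat_lit 2432) (nat_lit 0) (XT.nd (nat_lit 234) (nat_lit 1368) (nat_lit 0) (XT.nd (nat_lit 78) (nat_lit 684) (nat_lit 0) (XT.lf (nat_lit 0) (nat_lit 6816604630) (nat_lit 760) (nat_lit 2835985852) (nat_lit 76) (nat_lit 9364935610) (nat_lit 269) (nat_lit 5) (nat_lit 279) (nat_lit 5) (nat_lit 270) (nat_lit 5) (nat_lit 478) (nat_lit 432) (nat_lit 230)) (XT.nd (nat_lit 78) (nat_lit 0) (nat_lit 0) (XT.lf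 (nat_lit 0) (nat_lit 6951273337) (nat_lit 684) (nat_lit 2390227204) (nat_lit 760) (nat_lit 9898590095) (nat_lit 260) (nat_lit 5) (nat_lit 269) (nat_lit 5) (nat_lit 270) (nat_lit 5) (nat_lit 479) (nat_lit 432) (nat_lit 229)) (XT.lf (nat_lit 0) (nat_lit 11962918654) (nat_lit 760) (nat_lit 2533151309) (nat_lit 76) (nat_lit 4970119318) (nat_lit 260) (nat_lit 5) (nat_lit 270) (nat_lit 5) (nat_lit 261) (nat_lit 5) (nat_lit 480) (nat_lit 432) (nat_lit 228)))) (XT.nd (nat_lit 156) (nat_lit 760) (nat_lit 0) (XT.nd (nat_lit 78) (nat_lit 0) (nat_lit 0) (XT.lf (nat_lit 0) (nat_lit 7493763592) (nat_lit 608) (nat_lit 7201888390) (nat_lit 684) (nat_lit 4999983413) (nat_lit 252) (nat_lit 5) (nat_lit 260) (nat_lit 5) (nat_lit 261) (nat_lit 5) (nat_lit 481) (nat_lit 432) (nat_lit 227)) (XT.lf (nat_lit 0) (nat_lit 17496164928) (nat_lit 684) (nat_lit 2181819568) (nat_lit 76) (nat_lit 251426604) (nat_lit 252) (nat_lit 5) (nat_lit 261)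 (nat_lit 5) (nat_lit 253) (nat_lit 5) (nat_lit 482) (nat_lit 432) (nat_lit 226))) (XT.nd (nat_lit 78) (nat_lit 0) (nat_lit 0) (XT.lf (nat_lit 0) (nat_lit 277827638) (nat_lit 760) (nat_lit 12077005216) (nat_lit 76) (nat_lit 7811099994) (nat_lit 242) (nat_lit 5) (nat_lit 252) (nat_lit 5) (nat_lit 243) (nat_lit 5) (nat_lit 483) (nat_lit 432) (nat_lit 225)) (XT.lf (nat_lit 0) (nat_lit 3019913513) (nat_lit 760) (nat_lit 1834731268) (nat_lit 76) (nat_lit 15552034127) (nat_lit 242) (nat_lit 5) (nat_lit 252) (nat_lit 5) (nat_lit 243) (nat_lit 5) (nat_lit 484) (nat_lit 432) (nat_lit 224))))) (XT.nd (nat_lit 234) (nat_lit 1216) (nat_lit 0) (XT.nd (nat_lit 78) (nat_lit 608) (nat_lit 0) (XT.lf (nat_lit 0) (nat_lit 5886689771) (nat_lit 684) (nat_lit 11949145186) (nat_lit 76) (nat_lit 2815010886) (nat_lit 234) (nat_lit 5) (nat_lit 243) (nat_lit 5) (nat_lit 235) (nat_lit 5) (nat_lit 485) (nat_lit 432) (nat_lit 223)) (XT.nd (nat_lit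 78) (nat_lit 608) (nat_lit 0) (XT.lf (nat_lit 0) (nat_lit 8850112163) (nat_lit 684) (nat_lit 1464380273) (nat_lit 76) (nat_lit 10584620337) (nat_lit 234) (nat_lit 5) (nat_lit 243) (nat_lit 5) (nat_lit 235) (nat_lit 5) (nat_lit 486) (nat_lit 432) (nat_lit 222)) (XT.lf (nat_lit 0) (nat_lit 9346553448) (nat_lit 608) (nat_lit 2581803281) (nat_lit 684) (nat_lit 9222880054) (nat_lit 226) (nat_lit 5) (nat_lit 234) (nat_lit 5) (nat_lit 235) (nat_lit 5) (nat_lit 487) (nat_lit 432) (nat_lit 221)))) (XT.nd (nat_lit 156) (nat_lit 684) (nat_lit 0) (XT.nd (nat_lit 78) (nat_lit 532) (nat_lit 0) (XT.lf (nat_lit 0) (nat_lit 15107429522) (nat_lit 684) (nat_lit 1055328680) (nat_lit 76) (nat_lit 5244862562) (nat_lit 226) (nat_lit 5) (nat_lit 235) (nat_lit 5) (nat_lit 227) (nat_lit 5) (nat_lit 488) (nat_lit 432) (nat_lit 220)) (XT.lf (nat_lit 0) (nat_lit 10017248254) (nat_lit 532) (nat_lit 8409996104) (nat_lit 608) (nat_lit 3240347560)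 (nat_lit 219) (nat_lit 5) (nat_lit 226) (nat_lit 5) (nat_lit 227) (nat_lit 5) (nat_lit 489) (nat_lit 432) (nat_lit 219))) (XT.nd (nat_lit 78) (nat_lit 684) (nat_lit 0) (XT.lf (nat_lit 0) (nat_lit 21319576963) (nat_lit 532) (nat_lit 496042854) (nat_lit 608) (nat_lit 117102043) (nat_lit 219) (nat_lit 5) (nat_lit 226) (nat_lit 5) (nat_lit 227) (nat_lit 5) (nat_lit 490) (nat_lit 432) (nat_lit 218)) (XT.lf (nat_lit 0) (nat_lit 3143145906) (nat_lit 684) (nat_lit 11491195572) (nat_lit 76) (nat_lit 7566121345) (nat_lit 210) (nat_lit 5) (nat_lit 219) (nat_lit 5) (nat_lit 211) (nat_lit 5) (nat_lit 491) (nat_lit 432) (nat_lit 217)))))) (XT.nd (nat_lit 546) (nat_lit 1444) (nat_lit 0) (XT.nd (nat_lit 234) (nat_lit 1064) (nat_lit 0) (XT.nd (nat_lit 78) (nat_lit 1064) (nat_lit 0) (XT.lf (nat_lit 0) (nat_lit 6469653106) (nat_lit 684) (nat_lit 217131547) (nat_lit 76) (nat_lit 15786708525) (nat_lit 210) (nat_lit 5) (nat_lit 219)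 (nat_lit 5) (nat_lit 211) (nat_lit 5) (nat_lit 492) (nat_lit 432) (nat_lit 216)) (XT.nd (nat_lit 78) (nat_lit 532) (nat_lit 0) (XT.lf (nat_lit 0) (nat_lit 9941867800) (nat_lit 608) (nat_lit 11333914316) (nat_lit 76) (nat_lit 1474620926) (nat_lit 203) (nat_lit 5) (nat_lit 211) (nat_lit 5) (nat_lit 204) (nat_lit 5) (nat_lit 493) (nat_lit 432) (nat_lit 215)) (XT.lf (nat_lit 0) (nat_lit 205365433) (nat_lit 532) (nat_lit 13320579676) (nat_lit 608) (nat_lit 9506060029) (nat_lit 196) (nat_lit 5) (nat_lit 203) (nat_lit 5) (nat_lit 204) (nat_lit 5) (nat_lit 494) (nat_lit 432) (nat_lit 214)))) (XT.nd (nat_lit 156) (nat_lit 608) (nat_lit 0) (XT.nd (nat_lit 78) (nat_lit 456) (nat_lit 0) (XT.lf (nat_lit 0) (nat_lit 12123166336) (nat_lit 532) (nat_lit 5129982230) (nat_lit 608) (nat_lit 6064664174) (nat_lit 196) (nat_lit 5) (nat_lit 203) (nat_lit 5) (nat_lit 204) (nat_lit 5) (nat_lit 495) (nat_lit 432) (nat_lit 213)) (XT.lf (nat_lit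 0) (nat_lit 651731698) (nat_lit 456) (nat_lit 20423801296) (nat_lit 532) (nat_lit 2533393068) (nat_lit 190) (nat_lit 5) (nat_lit 196) (nat_lit 5) (nat_lit 197) (nat_lit 5) (nat_lit 496) (nat_lit 432) (nat_lit 212))) (XT.nd (nat_lit 78) (nat_lit 532) (nat_lit 0) (XT.lf (nat_lit 0) (nat_lit 1159572090) (nat_lit 532) (nat_lit 11064874876) (nat_lit 76) (nat_lit 11679176511) (nat_lit 189) (nat_lit 5) (nat_lit 196) (nat_lit 5) (nat_lit 190) (nat_lit 5) (nat_lit 497) (nat_lit 432) (nat_lit 211)) (XT.lf (nat_lit 0) (nat_lit 1056595431) (nat_lit 532) (nat_lit 3838348646) (nat_lit 608) (nat_lit 19308888630) (nat_lit 182) (nat_lit 5) (nat_lit 189) (nat_lit 5) (nat_lit 190) (nat_lit 5) (nat_lit 498) (nat_lit 432) (nat_lit 210))))) (XT.nd (nat_lit 234) (nat_lit 988) (nat_lit 0) (XT.nd (nat_lit 78) (nat_lit 456) (nat_lit 0) (XT.lf (nat_lit 0) (nat_lit 8806000765) (nat_lit 608) (nat_lit 10975004662) (nat_lit 76) (nat_lit 4727023282)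 (nat_lit 182) (nat_lit 5) (nat_lit 190) (nat_lit 5) (nat_lit 183) (nat_lit 5) (nat_lit 499) (nat_lit 432) (nat_lit 209)) (XT.nd (nat_lit 78) (nat_lit 0) (nat_lit 0) (XT.lf (nat_lit 0) (nat_lit 1428281023) (nat_lit 456) (nat_lit 11397394778) (nat_lit 532) (nat_lit 11992026978) (nat_lit 176) (nat_lit 5) (nat_lit 182) (nat_lit 5) (nat_lit 183) (nat_lit 5) (nat_lit 500) (nat_lit 432) (nat_lit 208)) (XT.lf (nat_lit 0) (nat_lit 14222734812) (nat_lit 456) (nat_lit 2772409360) (nat_lit 532) (nat_lit 8137040210) (nat_lit 176) (nat_lit 5) (nat_lit 182) (nat_lit 5) (nat_lit 183) (nat_lit 5) (nat_lit 501) (nat_lit 432) (nat_lit 207)))) (XT.nd (nat_lit 156) (nat_lit 532) (nat_lit 0) (XT.nd (nat_lit 78) (nat_lit 0) (nat_lit 0) (XT.lf (nat_lit 0) (nat_lit 1798965166) (nat_lit 456) (nat_lit 19495661655) (nat_lit 532) (nat_lit 4157398308) (nat_lit 170) (nat_lit 5) (nat_lit 176) (nat_lit 5) (nat_lit 177) (nat_lit 5) (nat_lit 502)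 (nat_lit 432) (nat_lit 206)) (XT.lf (nat_lit 0) (nat_lit 14885229530) (nat_lit 456) (nat_lit 10882188839) (nat_lit 532) (nat_lit 9099907) (nat_lit 170) (nat_lit 5) (nat_lit 176) (nat_lit 5) (nat_lit 177) (nat_lit 5) (nat_lit 503) (nat_lit 432) (nat_lit 205))) (XT.nd (nat_lit 78) (nat_lit 0) (nat_lit 0) (XT.lf (nat_lit 0) (nat_lit 2120575363) (nat_lit 456) (nat_lit 2055906636) (nat_lit 532) (nat_lit 21930279079) (nat_lit 163) (nat_lit 5) (nat_lit 169) (nat_lit 5) (nat_lit 170) (nat_lit 5) (nat_lit 504) (nat_lit 432) (nat_lit 204)) (XT.lf (nat_lit 0) (nat_lit 8560286422) (nat_lit 532) (nat_lit 10953061786) (nat_lit 76) (nat_lit 6927968528) (nat_lit 163) (nat_lit 5) (nat_lit 170) (nat_lit 5) (nat_lit 164) (nat_lit 5) (nat_lit 505) (nat_lit 432) (nat_lit 203))))))) (XT.nd (nat_lit 53742) (nat_lit 0) (nat_lit 20900) (XT.nd (nat_lit 546) (nat_lit 1216) (nat_lit 0) (XT.nd (nat_lit 234) (nat_lit 912) (nat_lit 0) (XT.nd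 (nat_lit 78) (nat_lit 380) (nat_lit 0) (XT.lf (nat_lit 0) (nat_lit 2352494454) (nat_lit 456) (nat_lit 10704199380) (nat_lit 532) (nat_lit 13725372953) (nat_lit 157) (nat_lit 5) (nat_lit 163) (nat_lit 5) (nat_lit 164) (nat_lit 5) (nat_lit 506) (nat_lit 432) (nat_lit 202)) (XT.nd (nat_lit 78) (nat_lit 380) (nat_lit 0) (XT.lf (nat_lit 0) (nat_lit 16067201150) (nat_lit 456) (nat_lit 1645409150) (nat_lit 532) (nat_lit 9415631707) (nat_lit 157) (nat_lit 5) (nat_lit 163) (nat_lit 5) (nat_lit 164) (nat_lit 5) (nat_lit 507) (nat_lit 432) (nat_lit 201)) (XT.lf (nat_lit 0) (nat_lit 2553649143) (nat_lit 380) (nat_lit 19970032165) (nat_lit 456) (nat_lit 4956420448) (nat_lit 152) (nat_lit 5) (nat_lit 157) (nat_lit 5) (nat_lit 158) (nat_lit 5) (nat_lit 508) (nat_lit 432) (nat_lit 200)))) (XT.nd (nat_lit 156) (nat_lit 380) (nat_lit 0) (XT.nd (nat_lit 78) (nat_lit 532) (nat_lit 0) (XT.lf (nat_lit 0) (nat_lit 16574167423) (nat_lit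 380) (nat_lit 10938044855) (nat_lit 456) (nat_lit 325163366) (nat_lit 152) (nat_lit 5) (nat_lit 157) (nat_lit 5) (nat_lit 158) (nat_lit 5) (nat_lit 509) (nat_lit 432) (nat_lit 199)) (XT.lf (nat_lit 0) (nat_lit 2674512508) (nat_lit 456) (nat_lit 1680117478) (nat_lit 532) (nat_lit 23846323464) (nat_lit 145) (nat_lit 5) (nat_lit 151) (nat_lit 5) (nat_lit 152) (nat_lit 5) (nat_lit 510) (nat_lit 432) (nat_lit 198))) (XT.nd (nat_lit 78) (nat_lit 380) (nat_lit 0) (XT.lf (nat_lit 0) (nat_lit 9246420218) (nat_lit 532) (nat_lit 11585021055) (nat_lit 76) (nat_lit 7737865068) (nat_lit 145) (nat_lit 5) (nat_lit 152) (nat_lit 5) (nat_lit 146) (nat_lit 5) (nat_lit 511) (nat_lit 432) (nat_lit 197)) (XT.lf (nat_lit 0) (nat_lit 2653671645) (nat_lit 380) (nat_lit 11607069767) (nat_lit 456) (nat_lit 14683792559) (nat_lit 140) (nat_lit 5) (nat_lit 145) (nat_lit 5) (nat_lit 146) (nat_lit 5) (nat_lit 512) (nat_lit 432) (nat_lit 196)))))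 (XT.nd (nat_lit 234) (nat_lit 760) (nat_lit 0) (XT.nd (nat_lit 78) (nat_lit 456) (nat_lit 0) (XT.lf (nat_lit 0) (nat_lit 17328978273) (nat_lit 380) (nat_lit 2120489535) (nat_lit 456) (nat_lit 9876317523) (nat_lit 140) (nat_lit 5) (nat_lit 145) (nat_lit 5) (nat_lit 146) (nat_lit 5) (nat_lit 513) (nat_lit 432) (nat_lit 195)) (XT.nd (nat_lit 78) (nat_lit 76) (nat_lit 0) (XT.lf (nat_lit 0) (nat_lit 2562521283) (nat_lit 380) (nat_lit 22241580647) (nat_lit 456) (nat_lit 4909318649) (nat_lit 135) (nat_lit 5) (nat_lit 140) (nat_lit 5) (nat_lit 141) (nat_lit 5) (nat_lit 514) (nat_lit 432) (nat_lit 194)) (XT.lf (nat_lit 0) (nat_lit 246491810) (nat_lit 456) (nat_lit 12552311218) (nat_lit 76) (nat_lit 17308155957) (nat_lit 134) (nat_lit 5) (nat_lit 140) (nat_lit 5) (nat_lit 135) (nat_lit 5) (nat_lit 515) (nat_lit 432) (nat_lit 193)))) (XT.nd (nat_lit 156) (nat_lit 380) (nat_lit 0) (XT.nd (nat_lit 78) (nat_lit 0) (nat_lit 0)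 (XT.lf (nat_lit 0) (nat_lit 2331239385) (nat_lit 380) (nat_lit 3120160274) (nat_lit 456) (nat_lit 25056086587) (nat_lit 129) (nat_lit 5) (nat_lit 134) (nat_lit 5) (nat_lit 135) (nat_lit 5) (nat_lit 516) (nat_lit 432) (nat_lit 192)) (XT.lf (nat_lit 0) (nat_lit 10885579672) (nat_lit 456) (nat_lit 13281223577) (nat_lit 76) (nat_lit 6746718728) (nat_lit 129) (nat_lit 5) (nat_lit 135) (nat_lit 5) (nat_lit 130) (nat_lit 5) (nat_lit 517) (nat_lit 432) (nat_lit 191))) (XT.nd (nat_lit 52728) (nat_lit 0) (nat_lit 22344) (XT.lf (nat_lit 0) (nat_lit 1911102877) (nat_lit 380) (nat_lit 14547024358) (nat_lit 456) (nat_lit 14868958888) (nat_lit 124) (nat_lit 5) (nat_lit 129) (nat_lit 5) (nat_lit 130) (nat_lit 5) (nat_lit 518) (nat_lit 432) (nat_lit 190)) (XT.lf (nat_lit 0) (nat_lit 1844990102) (nat_lit 0) (nat_lit 1844990102) (nat_lit 1596) (nat_lit 2305685409) (nat_lit 418) (nat_lit 5) (nat_lit 418) (nat_lit 3) (nat_lit 439)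 (nat_lit 3) (nat_lit 433) (nat_lit 433) (nat_lit 274)))))) (XT.nd (nat_lit 546) (nat_lit 1444) (nat_lit 0) (XT.nd (nat_lit 234) (nat_lit 0) (nat_lit 76) (XT.nd (nat_lit 78) (nat_lit 0) (nat_lit 0) (XT.lf (nat_lit 0) (nat_lit 7920243766) (nat_lit 1596) (nat_lit 2789946537) (nat_lit 1672) (nat_lit 1391399396) (nat_lit 418) (nat_lit 5) (nat_lit 439) (nat_lit 3) (nat_lit 440) (nat_lit 5) (nat_lit 434) (nat_lit 433) (nat_lit 273)) (XT.nd (nat_lit 78) (nat_lit 0) (nat_lit 0) (XT.lf (nat_lit 76) (nat_lit 2838187065) (nat_lit 0) (nat_lit 5664053088) (nat_lit 1672) (nat_lit 3711203567) (nat_lit 419) (nat_lit 5) (nat_lit 418) (nat_lit 5) (nat_lit 440) (nat_lit 5) (nat_lit 435) (nat_lit 433) (nat_lit 272)) (XT.lf (nat_lit 76) (nat_lit 8610457798) (nat_lit 0) (nat_lit 492377609) (nat_lit 1672) (nat_lit 3224568599) (nat_lit 419) (nat_lit 5) (nat_lit 418) (nat_lit 5) (nat_lit 440) (nat_lit 5) (nat_lit 436) (nat_lit 433) (nat_lit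 271)))) (XT.nd (nat_lit 156) (nat_lit 0) (nat_lit 76) (XT.nd (nat_lit 78) (nat_lit 0) (nat_lit 0) (XT.lf (nat_lit 76) (nat_lit 2043888195) (nat_lit 0) (nat_lit 7704380019) (nat_lit 1672) (nat_lit 2694726967) (nat_lit 420) (nat_lit 5) (nat_lit 419) (nat_lit 5) (nat_lit 441) (nat_lit 5) (nat_lit 437) (nat_lit 433) (nat_lit 270)) (XT.lf (nat_lit 76) (nat_lit 7960665887) (nat_lit 0) (nat_lit 2462812676) (nat_lit 1672) (nat_lit 2137090277) (nat_lit 420) (nat_lit 5) (nat_lit 419) (nat_lit 5) (nat_lit 441) (nat_lit 5) (nat_lit 438) (nat_lit 433) (nat_lit 269))) (XT.nd (nat_lit 78) (nat_lit 0) (nat_lit 0) (XT.lf (nat_lit 76) (nat_lit 1307217225) (nat_lit 0) (nat_lit 9821125657) (nat_lit 1672) (nat_lit 1551835975) (nat_lit 421) (nat_lit 5) (nat_lit 420) (nat_lit 5) (nat_lit 442) (nat_lit 5) (nat_lit 439) (nat_lit 433) (nat_lit 268)) (XT.lf (nat_lit 76) (nat_lit 7371858464) (nat_lit 0) (nat_lit 4511631793) (nat_lit 1672)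 (nat_lit 917974827) (nat_lit 421) (nat_lit 5) (nat_lit 420) (nat_lit 5) (nat_lit 442) (nat_lit 5) (nat_lit 440) (nat_lit 433) (nat_lit 267))))) (XT.nd (nat_lit 312) (nat_lit 0) (nat_lit 76) (XT.nd (nat_lit 156) (nat_lit 0) (nat_lit 0) (XT.nd (nat_lit 78) (nat_lit 1672) (nat_lit 0) (XT.lf (nat_lit 76) (nat_lit 628417297) (nat_lit 0) (nat_lit 12024630044) (nat_lit 1672) (nat_lit 272151133) (nat_lit 422) (nat_lit 5) (nat_lit 421) (nat_lit 5) (nat_lit 443) (nat_lit 5) (nat_lit 441) (nat_lit 433) (nat_lit 266)) (XT.lf (nat_lit 0) (nat_lit 437520573) (nat_lit 1672) (nat_lit 6208780622) (nat_lit 1748) (nat_lit 6403942381) (nat_lit 399) (nat_lit 5) (nat_lit 421) (nat_lit 5) (nat_lit 422) (nat_lit 5) (nat_lit 442) (nat_lit 433) (nat_lit 265))) (XT.nd (nat_lit 78) (nat_lit 0) (nat_lit 76) (XT.lf (nat_lit 0) (nat_lit 1147398501) (nat_lit 1672) (nat_lit 7366105) (nat_lit 1748) (nat_lit 12023202997) (nat_lit 399) (nat_lit 5)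 (nat_lit 421) (nat_lit 5) (nat_lit 422) (nat_lit 5) (nat_lit 443) (nat_lit 433) (nat_lit 264)) (XT.lf (nat_lit 0) (nat_lit 1932023926) (nat_lit 1672) (nat_lit 6941255049) (nat_lit 1748) (nat_lit 4433763133) (nat_lit 400) (nat_lit 5) (nat_lit 422) (nat_lit 5) (nat_lit 423) (nat_lit 5) (nat_lit 444) (nat_lit 433) (nat_lit 263)))) (XT.nd (nat_lit 156) (nat_lit 0) (nat_lit 76) (XT.nd (nat_lit 78) (nat_lit 0) (nat_lit 76) (XT.lf (nat_lit 0) (nat_lit 2730076395) (nat_lit 1672) (nat_lit 586445000) (nat_lit 1748) (nat_lit 10122228875) (nat_lit 400) (nat_lit 5) (nat_lit 422) (nat_lit 5) (nat_lit 423) (nat_lit 5) (nat_lit 445) (nat_lit 433) (nat_lit 262)) (XT.lf (nat_lit 0) (nat_lit 3588610554) (nat_lit 1672) (nat_lit 7620815408) (nat_lit 1748) (nat_lit 2362782948) (nat_lit 401) (nat_lit 5) (nat_lit 423) (nat_lit 5) (nat_lit 424) (nat_lit 5) (nat_lit 446) (nat_lit 433) (nat_lit 261))) (XT.nd (nat_lit 78) (nat_lit 0) (nat_lit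 76) (XT.lf (nat_lit 0) (nat_lit 4480643656) (nat_lit 1672) (nat_lit 1108960418) (nat_lit 1748) (nat_lit 8118412676) (nat_lit 401) (nat_lit 5) (nat_lit 423) (nat_lit 5) (nat_lit 424) (nat_lit 5) (nat_lit 447) (nat_lit 433) (nat_lit 260)) (XT.lf (nat_lit 0) (nat_lit 5418653494) (nat_lit 1672) (nat_lit 8247136669) (nat_lit 1748) (nat_lit 180194327) (nat_lit 402) (nat_lit 5) (nat_lit 424) (nat_lit 5) (nat_lit 425) (nat_lit 5) (nat_lit 448) (nat_lit 433) (nat_lit 259))))))))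
noncomputable def xc212 : XT := (XT.nd (nat_lit 2184) (nat_lit 8740) (nat_lit 0) (XT.nd (nat_lit 1092) (nat_lit 5700) (nat_lit 0) (XT.nd (nat_lit 546) (nat_lit 3724) (nat_lit 0) (XT.nd (nat_lit 234) (nat_lit 0) (nat_lit 76) (XT.nd (nat_lit 78) (nat_lit 0) (nat_lit 0) (XT.lf (nat_lit 0) (nat_lit 6410683599) (nat_lit 1672) (nat_lit 1574472082) (nat_lit 1748) (nat_lit 6000857040) (nat_lit 402) (nat_lit 5) (nat_lit 424) (nat_lit 5) (nat_lit 425) (nat_lit 5) (nat_lit 449) (nat_lit 433) (nat_lit 258)) (XT.nd (nat_lit 78) (nat_lit 0) (nat_lit 76) (XT.lf (nat_lit 76) (nat_lit 5294528332) (nat_lit 0) (nat_lit 2153334734) (nat_lit 1748) (nat_lit 6680478487) (nat_lit 403) (nat_lit 5) (nat_lit 402) (nat_lit 5) (nat_lit 425) (nat_lit 5) (nat_lit 450) (nat_lit 433) (nat_lit 257)) (XT.lf (nat_lit 0) (nat_lit 8532146449) (nat_lit 1672) (nat_lit 1982478380) (nat_lit 1748) (nat_lit 3758371018) (nat_lit 403) (nat_lit 5) (nat_lit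 425) (nat_lit 5) (nat_lit 426) (nat_lit 5) (nat_lit 451) (nat_lit 433) (nat_lit 256)))) (XT.nd (nat_lit 156) (nat_lit 0) (nat_lit 76) (XT.nd (nat_lit 78) (nat_lit 0) (nat_lit 76) (XT.lf (nat_lit 76) (nat_lit 5051289426) (nat_lit 0) (nat_lit 4625142073) (nat_lit 1748) (nat_lit 4743351381) (nat_lit 404) (nat_lit 5) (nat_lit 403) (nat_lit 5) (nat_lit 426) (nat_lit 5) (nat_lit 452) (nat_lit 433) (nat_lit 255)) (XT.lf (nat_lit 0) (nat_lit 10857369113) (nat_lit 1672) (nat_lit 2332425846) (nat_lit 1748) (nat_lit 1379441210) (nat_lit 404) (nat_lit 5) (nat_lit 426) (nat_lit 5) (nat_lit 427) (nat_lit 5) (nat_lit 453) (nat_lit 433) (nat_lit 254))) (XT.nd (nat_lit 78) (nat_lit 0) (nat_lit 0) (XT.lf (nat_lit 76) (nat_lit 4871019229) (nat_lit 0) (nat_lit 7244732394) (nat_lit 1748) (nat_lit 2604856119) (nat_lit 405) (nat_lit 5) (nat_lit 404) (nat_lit 5) (nat_lit 427) (nat_lit 5) (nat_lit 454) (nat_lit 433) (nat_lit 253)) (XT.lf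 (nat_lit 76) (nat_lit 12243595164) (nat_lit 0) (nat_lit 1163051335) (nat_lit 1748) (nat_lit 1468218981) (nat_lit 405) (nat_lit 5) (nat_lit 404) (nat_lit 5) (nat_lit 427) (nat_lit 5) (nat_lit 455) (nat_lit 433) (nat_lit 252))))) (XT.nd (nat_lit 234) (nat_lit 2204) (nat_lit 0) (XT.nd (nat_lit 78) (nat_lit 1748) (nat_lit 0) (XT.lf (nat_lit 76) (nat_lit 4754439115) (nat_lit 0) (nat_lit 10024380813) (nat_lit 1748) (nat_lit 252284749) (nat_lit 406) (nat_lit 5) (nat_lit 405) (nat_lit 5) (nat_lit 428) (nat_lit 5) (nat_lit 456) (nat_lit 433) (nat_lit 251)) (XT.nd (nat_lit 78) (nat_lit 0) (nat_lit 76) (XT.lf (nat_lit 0) (nat_lit 992412645) (nat_lit 1748) (nat_lit 2887493895) (nat_lit 1824) (nat_lit 11310091092) (nat_lit 382) (nat_lit 5) (nat_lit 405) (nat_lit 5) (nat_lit 406) (nat_lit 5) (nat_lit 457) (nat_lit 433) (nat_lit 250)) (XT.lf (nat_lit 0) (nat_lit 2296970429) (nat_lit 1748) (nat_lit 10664384836) (nat_lit 76) (nat_lit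 2389918137) (nat_lit 383) (nat_lit 5) (nat_lit 406) (nat_lit 5) (nat_lit 384) (nat_lit 5) (nat_lit 458) (nat_lit 433) (nat_lit 249)))) (XT.nd (nat_lit 156) (nat_lit 836) (nat_lit 0) (XT.nd (nat_lit 78) (nat_lit 1444) (nat_lit 0) (XT.lf (nat_lit 0) (nat_lit 3665024223) (nat_lit 1748) (nat_lit 3095981363) (nat_lit 76) (nat_lit 8754026101) (nat_lit 383) (nat_lit 5) (nat_lit 406) (nat_lit 5) (nat_lit 384) (nat_lit 5) (nat_lit 459) (nat_lit 433) (nat_lit 248)) (XT.lf (nat_lit 0) (nat_lit 4678611244) (nat_lit 1444) (nat_lit 404562519) (nat_lit 1520) (nat_lit 10598441679) (nat_lit 364) (nat_lit 5) (nat_lit 383) (nat_lit 5) (nat_lit 384) (nat_lit 5) (nat_lit 460) (nat_lit 433) (nat_lit 247))) (XT.nd (nat_lit 78) (nat_lit 836) (nat_lit 0) (XT.lf (nat_lit 0) (nat_lit 6582540927) (nat_lit 1520) (nat_lit 3246718422) (nat_lit 76) (nat_lit 6021219329) (nat_lit 364) (nat_lit 5) (nat_lit 384) (nat_lit 5) (nat_lit 365) (nat_lit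 5) (nat_lit 461) (nat_lit 433) (nat_lit 246)) (XT.lf (nat_lit 0) (nat_lit 4717354308) (nat_lit 836) (nat_lit 3420468562) (nat_lit 912) (nat_lit 7884382563) (nat_lit 353) (nat_lit 5) (nat_lit 364) (nat_lit 5) (nat_lit 365) (nat_lit 5) (nat_lit 462) (nat_lit 433) (nat_lit 245)))))) (XT.nd (nat_lit 546) (nat_lit 3040) (nat_lit 0) (XT.nd (nat_lit 234) (nat_lit 1748) (nat_lit 0) (XT.nd (nat_lit 78) (nat_lit 912) (nat_lit 0) (XT.lf (nat_lit 0) (nat_lit 9759104058) (nat_lit 912) (nat_lit 3339231960) (nat_lit 76) (nat_lit 3098337542) (nat_lit 353) (nat_lit 5) (nat_lit 365) (nat_lit 5) (nat_lit 354) (nat_lit 5) (nat_lit 463) (nat_lit 433) (nat_lit 244)) (XT.nd (nat_lit 78) (nat_lit 0) (nat_lit 0) (XT.lf (nat_lit 0) (nat_lit 4819748627) (nat_lit 912) (nat_lit 6639877709) (nat_lit 988) (nat_lit 4914073020) (nat_lit 341) (nat_lit 5) (nat_lit 353) (nat_lit 5) (nat_lit 354) (nat_lit 5) (nat_lit 464) (nat_lit 433) (nat_lit 243))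 (XT.lf (nat_lit 0) (nat_lit 13180705105) (nat_lit 912) (nat_lit 28830113) (nat_lit 988) (nat_lit 3344427453) (nat_lit 341) (nat_lit 5) (nat_lit 353) (nat_lit 5) (nat_lit 354) (nat_lit 5) (nat_lit 465) (nat_lit 433) (nat_lit 242)))) (XT.nd (nat_lit 156) (nat_lit 836) (nat_lit 0) (XT.nd (nat_lit 78) (nat_lit 76) (nat_lit 0) (XT.lf (nat_lit 0) (nat_lit 4986364970) (nat_lit 836) (nat_lit 10077156309) (nat_lit 912) (nat_lit 1672932831) (nat_lit 330) (nat_lit 5) (nat_lit 341) (nat_lit 5) (nat_lit 342) (nat_lit 5) (nat_lit 466) (nat_lit 433) (nat_lit 241)) (XT.lf (nat_lit 0) (nat_lit 47702858) (nat_lit 912) (nat_lit 3370325393) (nat_lit 76) (nat_lit 13504244622) (nat_lit 329) (nat_lit 5) (nat_lit 341) (nat_lit 5) (nat_lit 330) (nat_lit 5) (nat_lit 467) (nat_lit 433) (nat_lit 240))) (XT.nd (nat_lit 78) (nat_lit 0) (nat_lit 0) (XT.lf (nat_lit 0) (nat_lit 1829812020) (nat_lit 912) (nat_lit 11905143272) (nat_lit 76) (nat_lit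 3375646512) (nat_lit 318) (nat_lit 5) (nat_lit 330) (nat_lit 5) (nat_lit 319) (nat_lit 5) (nat_lit 468) (nat_lit 433) (nat_lit 239)) (XT.lf (nat_lit 0) (nat_lit 3686345475) (nat_lit 912) (nat_lit 3333094243) (nat_lit 76) (nat_lit 10282486052) (nat_lit 318) (nat_lit 5) (nat_lit 330) (nat_lit 5) (nat_lit 319) (nat_lit 5) (nat_lit 469) (nat_lit 433) (nat_lit 238))))) (XT.nd (nat_lit 234) (nat_lit 1520) (nat_lit 0) (XT.nd (nat_lit 78) (nat_lit 760) (nat_lit 0) (XT.lf (nat_lit 0) (nat_lit 5475832570) (nat_lit 760) (nat_lit 133239301) (nat_lit 836) (nat_lit 11887427120) (nat_lit 308) (nat_lit 5) (nat_lit 318) (nat_lit 5) (nat_lit 319) (nat_lit 5) (nat_lit 470) (nat_lit 433) (nat_lit 237)) (XT.nd (nat_lit 78) (nat_lit 760) (nat_lit 0) (XT.lf (nat_lit 0) (nat_lit 7631102716) (nat_lit 836) (nat_lit 3239754684) (nat_lit 76) (nat_lit 6822893216) (nat_lit 308) (nat_lit 5) (nat_lit 319) (nat_lit 5) (nat_lit 309) (nat_lit 5)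 (nat_lit 471) (nat_lit 433) (nat_lit 236)) (XT.lf (nat_lit 0) (nat_lit 5785426471) (nat_lit 760) (nat_lit 3940314560) (nat_lit 836) (nat_lit 8168566769) (nat_lit 298) (nat_lit 5) (nat_lit 308) (nat_lit 5) (nat_lit 309) (nat_lit 5) (nat_lit 472) (nat_lit 433) (nat_lit 235)))) (XT.nd (nat_lit 156) (nat_lit 836) (nat_lit 0) (XT.nd (nat_lit 78) (nat_lit 684) (nat_lit 0) (XT.lf (nat_lit 0) (nat_lit 11898274203) (nat_lit 836) (nat_lit 3090301455) (nat_lit 76) (nat_lit 3109584214) (nat_lit 298) (nat_lit 5) (nat_lit 309) (nat_lit 5) (nat_lit 299) (nat_lit 5) (nat_lit 473) (nat_lit 433) (nat_lit 234)) (XT.lf (nat_lit 0) (nat_lit 6157002830) (nat_lit 684) (nat_lit 8017250014) (nat_lit 760) (nat_lit 4130639960) (nat_lit 289) (nat_lit 5) (nat_lit 298) (nat_lit 5) (nat_lit 299) (nat_lit 5) (nat_lit 474) (nat_lit 433) (nat_lit 233))) (XT.nd (nat_lit 78) (nat_lit 836) (nat_lit 0) (XT.lf (nat_lit 0) (nat_lit 15624881929) (nat_lit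 684) (nat_lit 885609813) (nat_lit 760) (nat_lit 2004977478) (nat_lit 289) (nat_lit 5) (nat_lit 298) (nat_lit 5) (nat_lit 299) (nat_lit 5) (nat_lit 475) (nat_lit 433) (nat_lit 232)) (XT.lf (nat_lit 0) (nat_lit 239962254) (nat_lit 836) (nat_lit 12139711092) (nat_lit 76) (nat_lit 6348988037) (nat_lit 278) (nat_lit 5) (nat_lit 289) (nat_lit 5) (nat_lit 279) (nat_lit 5) (nat_lit 476) (nat_lit 433) (nat_lit 231))))))) (XT.nd (nat_lit 1092) (nat_lit 4256) (nat_lit 0) (XT.nd (nat_lit 546) (nat_lit 2508) (nat_lit 0) (XT.nd (nat_lit 234) (nat_lit 1292) (nat_lit 0) (XT.nd (nat_lit 78) (nat_lit 684) (nat_lit 0) (XT.lf (nat_lit 0) (nat_lit 2522522101) (nat_lit 836) (nat_lit 2674037369) (nat_lit 76) (nat_lit 13748904932) (nat_lit 278) (nat_lit 5) (nat_lit 289) (nat_lit 5) (nat_lit 279) (nat_lit 5) (nat_lit 477) (nat_lit 433) (nat_lit 230)) (XT.nd (nat_lit 78) (nat_lit 0) (nat_lit 0) (XT.lf (nat_lit 0) (nat_lit 4905018378) (nat_lit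 760) (nat_lit 12112468972) (nat_lit 76) (nat_lit 2148033791) (nat_lit 269) (nat_lit 5) (nat_lit 279) (nat_lit 5) (nat_lit 270) (nat_lit 5) (nat_lit 478) (nat_lit 433) (nat_lit 229)) (XT.lf (nat_lit 0) (nat_lit 7381978186) (nat_lit 760) (nat_lit 2419469623) (nat_lit 76) (nat_lit 9587598230) (nat_lit 269) (nat_lit 5) (nat_lit 279) (nat_lit 5) (nat_lit 270) (nat_lit 5) (nat_lit 479) (nat_lit 433) (nat_lit 228)))) (XT.nd (nat_lit 156) (nat_lit 608) (nat_lit 0) (XT.nd (nat_lit 78) (nat_lit 0) (nat_lit 0) (XT.lf (nat_lit 0) (nat_lit 7560421356) (nat_lit 684) (nat_lit 2391590429) (nat_lit 760) (nat_lit 9664162189) (nat_lit 260) (nat_lit 5) (nat_lit 269) (nat_lit 5) (nat_lit 270) (nat_lit 5) (nat_lit 480) (nat_lit 433) (nat_lit 227)) (XT.lf (nat_lit 0) (nat_lit 12617846401) (nat_lit 760) (nat_lit 2114657964) (nat_lit 76) (nat_lit 5114455266) (nat_lit 260) (nat_lit 5) (nat_lit 270) (nat_lit 5) (nat_lit 261) (nat_lit 5)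 (nat_lit 481) (nat_lit 433) (nat_lit 226))) (XT.nd (nat_lit 78) (nat_lit 0) (nat_lit 0) (XT.lf (nat_lit 0) (nat_lit 8109708679) (nat_lit 608) (nat_lit 7290401370) (nat_lit 684) (nat_lit 4680991811) (nat_lit 252) (nat_lit 5) (nat_lit 260) (nat_lit 5) (nat_lit 261) (nat_lit 5) (nat_lit 482) (nat_lit 433) (nat_lit 225)) (XT.lf (nat_lit 0) (nat_lit 18248936787) (nat_lit 684) (nat_lit 1760597573) (nat_lit 76) (nat_lit 310177264) (nat_lit 252) (nat_lit 5) (nat_lit 261) (nat_lit 5) (nat_lit 253) (nat_lit 5) (nat_lit 483) (nat_lit 433) (nat_lit 224))))) (XT.nd (nat_lit 234) (nat_lit 1140) (nat_lit 0) (XT.nd (nat_lit 78) (nat_lit 608) (nat_lit 0) (XT.lf (nat_lit 0) (nat_lit 684190726) (nat_lit 760) (nat_lit 11851196937) (nat_lit 76) (nat_lit 8025625945) (nat_lit 242) (nat_lit 5) (nat_lit 252) (nat_lit 5) (nat_lit 243) (nat_lit 5) (nat_lit 484) (nat_lit 433) (nat_lit 223)) (XT.nd (nat_lit 78) (nat_lit 608) (nat_lit 0) (XT.lf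 (nat_lit 0) (nat_lit 3473259366) (nat_lit 760) (nat_lit 1413241204) (nat_lit 76) (nat_lit 15920235546) (nat_lit 242) (nat_lit 5) (nat_lit 252) (nat_lit 5) (nat_lit 243) (nat_lit 5) (nat_lit 485) (nat_lit 433) (nat_lit 222)) (XT.lf (nat_lit 0) (nat_lit 6393056391) (nat_lit 684) (nat_lit 11725415486) (nat_lit 76) (nat_lit 2937405070) (nat_lit 234) (nat_lit 5) (nat_lit 243) (nat_lit 5) (nat_lit 235) (nat_lit 5) (nat_lit 486) (nat_lit 433) (nat_lit 221)))) (XT.nd (nat_lit 156) (nat_lit 532) (nat_lit 0) (XT.nd (nat_lit 78) (nat_lit 608) (nat_lit 0) (XT.lf (nat_lit 0) (nat_lit 9408126980) (nat_lit 684) (nat_lit 1040028071) (nat_lit 76) (nat_lit 10861110750) (nat_lit 234) (nat_lit 5) (nat_lit 243) (nat_lit 5) (nat_lit 235) (nat_lit 5) (nat_lit 487) (nat_lit 433) (nat_lit 220)) (XT.lf (nat_lit 0) (nat_lit 9984139853) (nat_lit 608) (nat_lit 2559251703) (nat_lit 684) (nat_lit 9023135730) (nat_lit 226) (nat_lit 5) (nat_lit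 234) (nat_lit 5) (nat_lit 235) (nat_lit 5) (nat_lit 488) (nat_lit 433) (nat_lit 219))) (XT.nd (nat_lit 78) (nat_lit 532) (nat_lit 0) (XT.lf (nat_lit 0) (nat_lit 15779136316) (nat_lit 684) (nat_lit 627505946) (nat_lit 76) (nat_lit 5421538892) (nat_lit 226) (nat_lit 5) (nat_lit 235) (nat_lit 5) (nat_lit 227) (nat_lit 5) (nat_lit 489) (nat_lit 433) (nat_lit 218)) (XT.lf (nat_lit 0) (nat_lit 10663569044) (nat_lit 532) (nat_lit 8497427736) (nat_lit 608) (nat_lit 2932445902) (nat_lit 219) (nat_lit 5) (nat_lit 226) (nat_lit 5) (nat_lit 227) (nat_lit 5) (nat_lit 490) (nat_lit 433) (nat_lit 217)))))) (XT.nd (nat_lit 546) (nat_lit 2052) (nat_lit 0) (XT.nd (nat_lit 234) (nat_lit 988) (nat_lit 0) (XT.nd (nat_lit 78) (nat_lit 1140) (nat_lit 0) (XT.lf (nat_lit 0) (nat_lit 242730749) (nat_lit 608) (nat_lit 182419513) (nat_lit 76) (nat_lit 21938840103) (nat_lit 218) (nat_lit 5) (nat_lit 226) (nat_lit 5) (nat_lit 219) (nat_lit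 5) (nat_lit 491) (nat_lit 433) (nat_lit 216)) (XT.nd (nat_lit 78) (nat_lit 532) (nat_lit 0) (XT.lf (nat_lit 0) (nat_lit 3562936956) (nat_lit 684) (nat_lit 11274940976) (nat_lit 76) (nat_lit 7799270020) (nat_lit 210) (nat_lit 5) (nat_lit 219) (nat_lit 5) (nat_lit 211) (nat_lit 5) (nat_lit 492) (nat_lit 433) (nat_lit 215)) (XT.lf (nat_lit 0) (nat_lit 218726327) (nat_lit 532) (nat_lit 6731669498) (nat_lit 608) (nat_lit 15965358297) (nat_lit 203) (nat_lit 5) (nat_lit 210) (nat_lit 5) (nat_lit 211) (nat_lit 5) (nat_lit 493) (nat_lit 433) (nat_lit 214)))) (XT.nd (nat_lit 156) (nat_lit 456) (nat_lit 0) (XT.nd (nat_lit 78) (nat_lit 532) (nat_lit 0) (XT.lf (nat_lit 0) (nat_lit 10487169128) (nat_lit 608) (nat_lit 11119616804) (nat_lit 76) (nat_lit 1591517531) (nat_lit 203) (nat_lit 5) (nat_lit 211) (nat_lit 5) (nat_lit 204) (nat_lit 5) (nat_lit 494) (nat_lit 433) (nat_lit 213)) (XT.lf (nat_lit 0) (nat_lit 647547384) (nat_lit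 532) (nat_lit 13491431460) (nat_lit 608) (nat_lit 9346641238) (nat_lit 196) (nat_lit 5) (nat_lit 203) (nat_lit 5) (nat_lit 204) (nat_lit 5) (nat_lit 495) (nat_lit 433) (nat_lit 212))) (XT.nd (nat_lit 78) (nat_lit 456) (nat_lit 0) (XT.lf (nat_lit 0) (nat_lit 12795114605) (nat_lit 532) (nat_lit 5138895787) (nat_lit 608) (nat_lit 5843271191) (nat_lit 196) (nat_lit 5) (nat_lit 203) (nat_lit 5) (nat_lit 204) (nat_lit 5) (nat_lit 496) (nat_lit 433) (nat_lit 211)) (XT.lf (nat_lit 0) (nat_lit 1097663545) (nat_lit 456) (nat_lit 20732001674) (nat_lit 532) (nat_lit 2244618860) (nat_lit 190) (nat_lit 5) (nat_lit 196) (nat_lit 5) (nat_lit 197) (nat_lit 5) (nat_lit 497) (nat_lit 433) (nat_lit 210))))) (XT.nd (nat_lit 312) (nat_lit 988) (nat_lit 0) (XT.nd (nat_lit 156) (nat_lit 456) (nat_lit 0) (XT.nd (nat_lit 78) (nat_lit 532) (nat_lit 0) (XT.lf (nat_lit 0) (nat_lit 1511185321) (nat_lit 532) (nat_lit 10857237243) (nat_lit 76)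 (nat_lit 12006543401) (nat_lit 189) (nat_lit 5) (nat_lit 196) (nat_lit 5) (nat_lit 190) (nat_lit 5) (nat_lit 498) (nat_lit 433) (nat_lit 209)) (XT.lf (nat_lit 0) (nat_lit 1503840529) (nat_lit 532) (nat_lit 3813751186) (nat_lit 608) (nat_lit 19363664294) (nat_lit 182) (nat_lit 5) (nat_lit 189) (nat_lit 5) (nat_lit 190) (nat_lit 5) (nat_lit 499) (nat_lit 433) (nat_lit 208))) (XT.nd (nat_lit 78) (nat_lit 456) (nat_lit 0) (XT.lf (nat_lit 0) (nat_lit 9301147135) (nat_lit 608) (nat_lit 10770869053) (nat_lit 76) (nat_lit 4919637297) (nat_lit 182) (nat_lit 5) (nat_lit 190) (nat_lit 5) (nat_lit 183) (nat_lit 5) (nat_lit 500) (nat_lit 433) (nat_lit 207)) (XT.lf (nat_lit 0) (nat_lit 1877695270) (nat_lit 456) (nat_lit 11519997411) (nat_lit 532) (nat_lit 11909901858) (nat_lit 176) (nat_lit 5) (nat_lit 182) (nat_lit 5) (nat_lit 183) (nat_lit 5) (nat_lit 501) (nat_lit 433) (nat_lit 206)))) (XT.nd (nat_lit 156) (nat_lit 532) (nat_lit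 0) (XT.nd (nat_lit 78) (nat_lit 456) (nat_lit 0) (XT.lf (nat_lit 0) (nat_lit 14919786201) (nat_lit 456) (nat_lit 2724577879) (nat_lit 532) (nat_lit 7984128407) (nat_lit 176) (nat_lit 5) (nat_lit 182) (nat_lit 5) (nat_lit 183) (nat_lit 5) (nat_lit 502) (nat_lit 433) (nat_lit 205)) (XT.lf (nat_lit 0) (nat_lit 2250454464) (nat_lit 456) (nat_lit 19776672055) (nat_lit 532) (nat_lit 3927660652) (nat_lit 170) (nat_lit 5) (nat_lit 176) (nat_lit 5) (nat_lit 177) (nat_lit 5) (nat_lit 503) (nat_lit 433) (nat_lit 204))) (XT.nd (nat_lit 78) (nat_lit 456) (nat_lit 0) (XT.lf (nat_lit 0) (nat_lit 293567348) (nat_lit 532) (nat_lit 10697527793) (nat_lit 76) (nat_lit 15294759520) (nat_lit 169) (nat_lit 5) (nat_lit 176) (nat_lit 5) (nat_lit 170) (nat_lit 5) (nat_lit 504) (nat_lit 433) (nat_lit 203)) (XT.lf (nat_lit 0) (nat_lit 2571805923) (nat_lit 456) (nat_lit 1987651727) (nat_lit 532) (nat_lit 22063311852) (nat_lit 163) (nat_lit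 5) (nat_lit 169) (nat_lit 5) (nat_lit 170) (nat_lit 5) (nat_lit 505) (nat_lit 433) (nat_lit 202))))))))
noncomputable def xc213 : XT := (XT.nd (nat_lit 54912) (nat_lit 0) (nat_lit 11324) (XT.nd (nat_lit 53820) (nat_lit 0) (nat_lit 20520) (XT.nd (nat_lit 546) (nat_lit 1216) (nat_lit 0) (XT.nd (nat_lit 234) (nat_lit 912) (nat_lit 0) (XT.nd (nat_lit 78) (nat_lit 456) (nat_lit 0) (XT.lf (nat_lit 0) (nat_lit 9025762869) (nat_lit 532) (nat_lit 10766009562) (nat_lit 76) (nat_lit 7172350050) (nat_lit 163) (nat_lit 5) (nat_lit 170) (nat_lit 5) (nat_lit 164) (nat_lit 5) (nat_lit 506) (nat_lit 433) (nat_lit 201)) (XT.nd (nat_lit 78) (nat_lit 0) (nat_lit 0) (XT.lf (nat_lit 0) (nat_lit 2802986004) (nat_lit 456) (nat_lit 10805961823) (nat_lit 532) (nat_lit 13702805370) (nat_lit 157) (nat_lit 5) (nat_lit 163) (nat_lit 5) (nat_lit 164) (nat_lit 5) (nat_lit 507) (nat_lit 433) (nat_lit 200)) (XT.lf (nat_lit 0) (nat_lit 16784076213)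 (nat_lit 456) (nat_lit 1568198171) (nat_lit 532) (nat_lit 9312694300) (nat_lit 157) (nat_lit 5) (nat_lit 163) (nat_lit 5) (nat_lit 164) (nat_lit 5) (nat_lit 508) (nat_lit 433) (nat_lit 199)))) (XT.nd (nat_lit 156) (nat_lit 532) (nat_lit 0) (XT.nd (nat_lit 78) (nat_lit 0) (nat_lit 0) (XT.lf (nat_lit 0) (nat_lit 3002740479) (nat_lit 380) (nat_lit 20254515169) (nat_lit 456) (nat_lit 4766658751) (nat_lit 152) (nat_lit 5) (nat_lit 157) (nat_lit 5) (nat_lit 158) (nat_lit 5) (nat_lit 509) (nat_lit 433) (nat_lit 198)) (XT.lf (nat_lit 0) (nat_lit 17295864843) (nat_lit 380) (nat_lit 11044141400) (nat_lit 456) (nat_lit 48441039) (nat_lit 152) (nat_lit 5) (nat_lit 157) (nat_lit 5) (nat_lit 158) (nat_lit 5) (nat_lit 510) (nat_lit 433) (nat_lit 197))) (XT.nd (nat_lit 78) (nat_lit 0) (nat_lit 0) (XT.lf (nat_lit 0) (nat_lit 3119461374) (nat_lit 456) (nat_lit 1598833251) (nat_lit 532) (nat_lit 24041026421) (nat_lit 145) (nat_lit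 5) (nat_lit 151) (nat_lit 5) (nat_lit 152) (nat_lit 5) (nat_lit 511) (nat_lit 433) (nat_lit 196)) (XT.lf (nat_lit 0) (nat_lit 9703228975) (nat_lit 532) (nat_lit 11428129154) (nat_lit 76) (nat_lit 8003779054) (nat_lit 145) (nat_lit 5) (nat_lit 152) (nat_lit 5) (nat_lit 146) (nat_lit 5) (nat_lit 512) (nat_lit 433) (nat_lit 195))))) (XT.nd (nat_lit 234) (nat_lit 456) (nat_lit 0) (XT.nd (nat_lit 78) (nat_lit 380) (nat_lit 0) (XT.lf (nat_lit 0) (nat_lit 3092780872) (nat_lit 380) (nat_lit 11722231134) (nat_lit 456) (nat_lit 14702916159) (nat_lit 140) (nat_lit 5) (nat_lit 145) (nat_lit 5) (nat_lit 146) (nat_lit 5) (nat_lit 513) (nat_lit 433) (nat_lit 194)) (XT.nd (nat_lit 78) (nat_lit 380) (nat_lit 0) (XT.lf (nat_lit 0) (nat_lit 18054024303) (nat_lit 380) (nat_lit 2048213024) (nat_lit 456) (nat_lit 9804675000) (nat_lit 140) (nat_lit 5) (nat_lit 145) (nat_lit 5) (nat_lit 146) (nat_lit 5) (nat_lit 514) (nat_lit 433) (nat_lit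 193)) (XT.lf (nat_lit 0) (nat_lit 2994361800) (nat_lit 380) (nat_lit 22567631233) (nat_lit 456) (nat_lit 4740348886) (nat_lit 135) (nat_lit 5) (nat_lit 140) (nat_lit 5) (nat_lit 141) (nat_lit 5) (nat_lit 515) (nat_lit 433) (nat_lit 192)))) (XT.nd (nat_lit 156) (nat_lit 0) (nat_lit 0) (XT.nd (nat_lit 78) (nat_lit 380) (nat_lit 0) (XT.lf (nat_lit 0) (nat_lit 509904328) (nat_lit 456) (nat_lit 12426688219) (nat_lit 76) (nat_lit 17767229380) (nat_lit 134) (nat_lit 5) (nat_lit 140) (nat_lit 5) (nat_lit 135) (nat_lit 5) (nat_lit 516) (nat_lit 433) (nat_lit 191)) (XT.lf (nat_lit 0) (nat_lit 2752055309) (nat_lit 380) (nat_lit 3064216233) (nat_lit 456) (nat_lit 25296143056) (nat_lit 129) (nat_lit 5) (nat_lit 134) (nat_lit 5) (nat_lit 135) (nat_lit 5) (nat_lit 517) (nat_lit 433) (nat_lit 190))) (XT.nd (nat_lit 52806) (nat_lit 0) (nat_lit 21964) (XT.lf (nat_lit 0) (nat_lit 11354871932) (nat_lit 456) (nat_lit 13175628323) (nat_lit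 76) (nat_lit 6996158102) (nat_lit 129) (nat_lit 5) (nat_lit 135) (nat_lit 5) (nat_lit 130) (nat_lit 5) (nat_lit 518) (nat_lit 433) (nat_lit 189)) (XT.lf (nat_lit 0) (nat_lit 2109070164) (nat_lit 0) (nat_lit 2109070164) (nat_lit 1596) (nat_lit 1888028332) (nat_lit 418) (nat_lit 5) (nat_lit 418) (nat_lit 3) (nat_lit 439) (nat_lit 3) (nat_lit 434) (nat_lit 434) (nat_lit 272)))))) (XT.nd (nat_lit 546) (nat_lit 1444) (nat_lit 0) (XT.nd (nat_lit 234) (nat_lit 0) (nat_lit 76) (XT.nd (nat_lit 78) (nat_lit 0) (nat_lit 0) (XT.lf (nat_lit 0) (nat_lit 8966659454) (nat_lit 1596) (nat_lit 2378950309) (nat_lit 1672) (nat_lit 979618071) (nat_lit 418) (nat_lit 5) (nat_lit 439) (nat_lit 3) (nat_lit 440) (nat_lit 5) (nat_lit 435) (nat_lit 434) (nat_lit 271)) (XT.nd (nat_lit 78) (nat_lit 0) (nat_lit 0) (XT.lf (nat_lit 76) (nat_lit 3358674945) (nat_lit 0) (nat_lit 6187219653) (nat_lit 1672) (nat_lit 2893724782) (nat_lit 419) (nat_lit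 5) (nat_lit 418) (nat_lit 5) (nat_lit 440) (nat_lit 5) (nat_lit 436) (nat_lit 434) (nat_lit 270)) (XT.lf (nat_lit 76) (nat_lit 9237298461) (nat_lit 0) (nat_lit 904073693) (nat_lit 1672) (nat_lit 2414841484) (nat_lit 419) (nat_lit 5) (nat_lit 418) (nat_lit 5) (nat_lit 440) (nat_lit 5) (nat_lit 437) (nat_lit 434) (nat_lit 269)))) (XT.nd (nat_lit 156) (nat_lit 0) (nat_lit 76) (XT.nd (nat_lit 78) (nat_lit 0) (nat_lit 0) (XT.lf (nat_lit 76) (nat_lit 2556620119) (nat_lit 0) (nat_lit 8226805455) (nat_lit 1672) (nat_lit 1891028764) (nat_lit 420) (nat_lit 5) (nat_lit 419) (nat_lit 5) (nat_lit 441) (nat_lit 5) (nat_lit 438) (nat_lit 434) (nat_lit 268)) (XT.lf (nat_lit 76) (nat_lit 8582481322) (nat_lit 0) (nat_lit 2873184454) (nat_lit 1672) (nat_lit 1339054884) (nat_lit 420) (nat_lit 5) (nat_lit 419) (nat_lit 5) (nat_lit 441) (nat_lit 5) (nat_lit 439) (nat_lit 434) (nat_lit 267))) (XT.nd (nat_lit 78) (nat_lit 0) (nat_lit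 0) (XT.lf (nat_lit 76) (nat_lit 1812196751) (nat_lit 0) (nat_lit 10347089591) (nat_lit 1672) (nat_lit 757754831) (nat_lit 421) (nat_lit 5) (nat_lit 420) (nat_lit 5) (nat_lit 442) (nat_lit 5) (nat_lit 440) (nat_lit 434) (nat_lit 266)) (XT.lf (nat_lit 76) (nat_lit 7988741889) (nat_lit 0) (nat_lit 4924944254) (nat_lit 1672) (nat_lit 127395242) (nat_lit 421) (nat_lit 5) (nat_lit 420) (nat_lit 5) (nat_lit 442) (nat_lit 5) (nat_lit 441) (nat_lit 434) (nat_lit 265))))) (XT.nd (nat_lit 234) (nat_lit 0) (nat_lit 76) (XT.nd (nat_lit 78) (nat_lit 0) (nat_lit 0) (XT.lf (nat_lit 0) (nat_lit 509820720) (nat_lit 1672) (nat_lit 12045211229) (nat_lit 1748) (nat_lit 612490420) (nat_lit 399) (nat_lit 5) (nat_lit 421) (nat_lit 5) (nat_lit 422) (nat_lit 5) (nat_lit 442) (nat_lit 434) (nat_lit 264)) (XT.nd (nat_lit 78) (nat_lit 0) (nat_lit 0) (XT.lf (nat_lit 0) (nat_lit 1214677042) (nat_lit 1672) (nat_lit 5846972660) (nat_lit 1748)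 (nat_lit 6233700588) (nat_lit 399) (nat_lit 5) (nat_lit 421) (nat_lit 5) (nat_lit 422) (nat_lit 5) (nat_lit 443) (nat_lit 434) (nat_lit 263)) (XT.lf (nat_lit 76) (nat_lit 475173037) (nat_lit 0) (nat_lit 1451597844) (nat_lit 1748) (nat_lit 11499107941) (nat_lit 400) (nat_lit 5) (nat_lit 399) (nat_lit 5) (nat_lit 422) (nat_lit 5) (nat_lit 444) (nat_lit 434) (nat_lit 262)))) (XT.nd (nat_lit 156) (nat_lit 0) (nat_lit 76) (XT.nd (nat_lit 78) (nat_lit 0) (nat_lit 0) (XT.lf (nat_lit 0) (nat_lit 2710563307) (nat_lit 1672) (nat_lit 6589675839) (nat_lit 1748) (nat_lit 4257636370) (nat_lit 400) (nat_lit 5) (nat_lit 422) (nat_lit 5) (nat_lit 423) (nat_lit 5) (nat_lit 445) (nat_lit 434) (nat_lit 261)) (XT.lf (nat_lit 0) (nat_lit 3510069004) (nat_lit 1672) (nat_lit 117385361) (nat_lit 1748) (nat_lit 10065063624) (nat_lit 400) (nat_lit 5) (nat_lit 422) (nat_lit 5) (nat_lit 423) (nat_lit 5) (nat_lit 446) (nat_lit 434) (nat_lit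 260))) (XT.nd (nat_lit 78) (nat_lit 0) (nat_lit 0) (XT.lf (nat_lit 0) (nat_lit 4373115107) (nat_lit 1672) (nat_lit 7279294766) (nat_lit 1748) (nat_lit 2176498896) (nat_lit 401) (nat_lit 5) (nat_lit 423) (nat_lit 5) (nat_lit 424) (nat_lit 5) (nat_lit 447) (nat_lit 434) (nat_lit 259)) (XT.lf (nat_lit 0) (nat_lit 5269013728) (nat_lit 1672) (nat_lit 646887714) (nat_lit 1748) (nat_lit 8051820429) (nat_lit 401) (nat_lit 5) (nat_lit 423) (nat_lit 5) (nat_lit 424) (nat_lit 5) (nat_lit 448) (nat_lit 434) (nat_lit 258))))))) (XT.nd (nat_lit 1092) (nat_lit 6536) (nat_lit 0) (XT.nd (nat_lit 546) (nat_lit 2812) (nat_lit 0) (XT.nd (nat_lit 234) (nat_lit 0) (nat_lit 152) (XT.nd (nat_lit 78) (nat_lit 0) (nat_lit 76) (XT.lf (nat_lit 76) (nat_lit 6193124205) (nat_lit 0) (nat_lit 20872636) (nat_lit 1748) (nat_lit 7894697275) (nat_lit 402) (nat_lit 5) (nat_lit 401) (nat_lit 5) (nat_lit 424) (nat_lit 5) (nat_lit 449) (nat_lit 434)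 (nat_lit 257)) (XT.nd (nat_lit 78) (nat_lit 0) (nat_lit 0) (XT.lf (nat_lit 0) (nat_lit 7212264681) (nat_lit 1672) (nat_lit 1119054652) (nat_lit 1748) (nat_lit 5920484864) (nat_lit 402) (nat_lit 5) (nat_lit 424) (nat_lit 5) (nat_lit 425) (nat_lit 5) (nat_lit 450) (nat_lit 434) (nat_lit 256)) (XT.lf (nat_lit 76) (nat_lit 5884122436) (nat_lit 0) (nat_lit 2376002544) (nat_lit 1748) (nat_lit 6137064930) (nat_lit 403) (nat_lit 5) (nat_lit 402) (nat_lit 5) (nat_lit 425) (nat_lit 5) (nat_lit 451) (nat_lit 434) (nat_lit 255)))) (XT.nd (nat_lit 156) (nat_lit 0) (nat_lit 76) (XT.nd (nat_lit 78) (nat_lit 0) (nat_lit 0) (XT.lf (nat_lit 0) (nat_lit 9351944832) (nat_lit 1672) (nat_lit 1533316084) (nat_lit 1748) (nat_lit 3659768229) (nat_lit 403) (nat_lit 5) (nat_lit 425) (nat_lit 5) (nat_lit 426) (nat_lit 5) (nat_lit 452) (nat_lit 434) (nat_lit 254)) (XT.lf (nat_lit 76) (nat_lit 5637911211) (nat_lit 0) (nat_lit 4871628644) (nat_lit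 1748) (nat_lit 4185412273) (nat_lit 404) (nat_lit 5) (nat_lit 403) (nat_lit 5) (nat_lit 426) (nat_lit 5) (nat_lit 453) (nat_lit 434) (nat_lit 253))) (XT.nd (nat_lit 78) (nat_lit 0) (nat_lit 0) (XT.lf (nat_lit 0) (nat_lit 11700575282) (nat_lit 1672) (nat_lit 1889052628) (nat_lit 1748) (nat_lit 1258045519) (nat_lit 404) (nat_lit 5) (nat_lit 426) (nat_lit 5) (nat_lit 427) (nat_lit 5) (nat_lit 454) (nat_lit 434) (nat_lit 252)) (XT.lf (nat_lit 76) (nat_lit 5455237522) (nat_lit 0) (nat_lit 7519772873) (nat_lit 1748) (nat_lit 2027252698) (nat_lit 405) (nat_lit 5) (nat_lit 404) (nat_lit 5) (nat_lit 427) (nat_lit 5) (nat_lit 455) (nat_lit 434) (nat_lit 251))))) (XT.nd (nat_lit 234) (nat_lit 1368) (nat_lit 0) (XT.nd (nat_lit 78) (nat_lit 1672) (nat_lit 0) (XT.lf (nat_lit 76) (nat_lit 12965719919) (nat_lit 0) (nat_lit 1313906313) (nat_lit 1748) (nat_lit 880229886) (nat_lit 405) (nat_lit 5) (nat_lit 404) (nat_lit 5) (nat_lit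 427) (nat_lit 5) (nat_lit 456) (nat_lit 434) (nat_lit 250)) (XT.nd (nat_lit 78) (nat_lit 0) (nat_lit 0) (XT.lf (nat_lit 0) (nat_lit 345722714) (nat_lit 1748) (nat_lit 9984804485) (nat_lit 1824) (nat_lit 4988845596) (nat_lit 382) (nat_lit 5) (nat_lit 405) (nat_lit 5) (nat_lit 406) (nat_lit 5) (nat_lit 457) (nat_lit 434) (nat_lit 249)) (XT.lf (nat_lit 0) (nat_lit 1600180725) (nat_lit 1748) (nat_lit 2459240216) (nat_lit 1824) (nat_lit 11422232144) (nat_lit 382) (nat_lit 5) (nat_lit 405) (nat_lit 5) (nat_lit 406) (nat_lit 5) (nat_lit 458) (nat_lit 434) (nat_lit 248)))) (XT.nd (nat_lit 156) (nat_lit 1444) (nat_lit 0) (XT.nd (nat_lit 78) (nat_lit 0) (nat_lit 0) (XT.lf (nat_lit 0) (nat_lit 2921808550) (nat_lit 1748) (nat_lit 10382269327) (nat_lit 76) (nat_lit 2342264486) (nat_lit 383) (nat_lit 5) (nat_lit 406) (nat_lit 5) (nat_lit 384) (nat_lit 5) (nat_lit 459) (nat_lit 434) (nat_lit 247)) (XT.lf (nat_lit 0) (nat_lit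 4305872465) (nat_lit 1748) (nat_lit 2672211573) (nat_lit 76) (nat_lit 8835526218) (nat_lit 383) (nat_lit 5) (nat_lit 406) (nat_lit 5) (nat_lit 384) (nat_lit 5) (nat_lit 460) (nat_lit 434) (nat_lit 246))) (XT.nd (nat_lit 78) (nat_lit 0) (nat_lit 0) (XT.lf (nat_lit 0) (nat_lit 5254677560) (nat_lit 1444) (nat_lit 489711719) (nat_lit 1520) (nat_lit 10239303597) (nat_lit 364) (nat_lit 5) (nat_lit 383) (nat_lit 5) (nat_lit 384) (nat_lit 5) (nat_lit 461) (nat_lit 434) (nat_lit 245)) (XT.lf (nat_lit 0) (nat_lit 7262281677) (nat_lit 1520) (nat_lit 2826800557) (nat_lit 76) (nat_lit 6067087519) (nat_lit 364) (nat_lit 5) (nat_lit 384) (nat_lit 5) (nat_lit 365) (nat_lit 5) (nat_lit 462) (nat_lit 434) (nat_lit 244)))))) (XT.nd (nat_lit 546) (nat_lit 3040) (nat_lit 0) (XT.nd (nat_lit 234) (nat_lit 1748) (nat_lit 0) (XT.nd (nat_lit 78) (nat_lit 912) (nat_lit 0) (XT.lf (nat_lit 0) (nat_lit 5293363810) (nat_lit 836) (nat_lit 3547685859)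 (nat_lit 912) (nat_lit 7490440761) (nat_lit 353) (nat_lit 5) (nat_lit 364) (nat_lit 5) (nat_lit 365) (nat_lit 5) (nat_lit 463) (nat_lit 434) (nat_lit 243)) (XT.nd (nat_lit 78) (nat_lit 912) (nat_lit 0) (XT.lf (nat_lit 0) (nat_lit 10483784690) (nat_lit 912) (nat_lit 2922483905) (nat_lit 76) (nat_lit 3103405617) (nat_lit 353) (nat_lit 5) (nat_lit 365) (nat_lit 5) (nat_lit 354) (nat_lit 5) (nat_lit 464) (nat_lit 434) (nat_lit 242)) (XT.lf (nat_lit 0) (nat_lit 5396495157) (nat_lit 912) (nat_lit 6814558692) (nat_lit 988) (nat_lit 4479338668) (nat_lit 341) (nat_lit 5) (nat_lit 353) (nat_lit 5) (nat_lit 354) (nat_lit 5) (nat_lit 465) (nat_lit 434) (nat_lit 241)))) (XT.nd (nat_lit 156) (nat_lit 912) (nat_lit 0) (XT.nd (nat_lit 78) (nat_lit 836) (nat_lit 0) (XT.lf (nat_lit 0) (nat_lit 13915252107) (nat_lit 912) (nat_lit 70468901) (nat_lit 988) (nat_lit 2888751480) (nat_lit 341) (nat_lit 5) (nat_lit 353) (nat_lit 5) (nat_lit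 354) (nat_lit 5) (nat_lit 466) (nat_lit 434) (nat_lit 240)) (XT.lf (nat_lit 0) (nat_lit 5564691677) (nat_lit 836) (nat_lit 10304902003) (nat_lit 912) (nat_lit 1191170399) (nat_lit 330) (nat_lit 5) (nat_lit 341) (nat_lit 5) (nat_lit 342) (nat_lit 5) (nat_lit 467) (nat_lit 434) (nat_lit 239))) (XT.nd (nat_lit 78) (nat_lit 836) (nat_lit 0) (XT.lf (nat_lit 0) (nat_lit 547150906) (nat_lit 912) (nat_lit 2961581545) (nat_lit 76) (nat_lit 13741705471) (nat_lit 329) (nat_lit 5) (nat_lit 341) (nat_lit 5) (nat_lit 330) (nat_lit 5) (nat_lit 468) (nat_lit 434) (nat_lit 238)) (XT.lf (nat_lit 0) (nat_lit 2358077119) (nat_lit 912) (nat_lit 11659966209) (nat_lit 76) (nat_lit 3424632696) (nat_lit 318) (nat_lit 5) (nat_lit 330) (nat_lit 5) (nat_lit 319) (nat_lit 5) (nat_lit 469) (nat_lit 434) (nat_lit 237))))) (XT.nd (nat_lit 312) (nat_lit 1520) (nat_lit 0) (XT.nd (nat_lit 156) (nat_lit 760) (nat_lit 0) (XT.nd (nat_lit 78) (nat_lit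 760) (nat_lit 0) (XT.lf (nat_lit 0) (nat_lit 4242100677) (nat_lit 912) (nat_lit 2925952276) (nat_lit 76) (nat_lit 10469972297) (nat_lit 318) (nat_lit 5) (nat_lit 330) (nat_lit 5) (nat_lit 319) (nat_lit 5) (nat_lit 470) (nat_lit 434) (nat_lit 236)) (XT.lf (nat_lit 0) (nat_lit 6056035943) (nat_lit 760) (nat_lit 140850133) (nat_lit 836) (nat_lit 11639737621) (nat_lit 308) (nat_lit 5) (nat_lit 318) (nat_lit 5) (nat_lit 319) (nat_lit 5) (nat_lit 471) (nat_lit 434) (nat_lit 235))) (XT.nd (nat_lit 78) (nat_lit 760) (nat_lit 0) (XT.lf (nat_lit 0) (nat_lit 8249999922) (nat_lit 836) (nat_lit 2833447711) (nat_lit 76) (nat_lit 6954565612) (nat_lit 308) (nat_lit 5) (nat_lit 319) (nat_lit 5) (nat_lit 309) (nat_lit 5) (nat_lit 472) (nat_lit 434) (nat_lit 234)) (XT.lf (nat_lit 0) (nat_lit 6369137712) (nat_lit 760) (nat_lit 4011289226) (nat_lit 836) (nat_lit 7862282341) (nat_lit 298) (nat_lit 5) (nat_lit 308) (nat_lit 5) (nat_lit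 309) (nat_lit 5) (nat_lit 473) (nat_lit 434) (nat_lit 233)))) (XT.nd (nat_lit 156) (nat_lit 836) (nat_lit 0) (XT.nd (nat_lit 78) (nat_lit 684) (nat_lit 0) (XT.lf (nat_lit 0) (nat_lit 12587437662) (nat_lit 836) (nat_lit 2684032445) (nat_lit 76) (nat_lit 3179353263) (nat_lit 298) (nat_lit 5) (nat_lit 309) (nat_lit 5) (nat_lit 299) (nat_lit 5) (nat_lit 474) (nat_lit 434) (nat_lit 232)) (XT.lf (nat_lit 0) (nat_lit 6745138484) (nat_lit 684) (nat_lit 8157969432) (nat_lit 760) (nat_lit 3758705010) (nat_lit 289) (nat_lit 5) (nat_lit 298) (nat_lit 5) (nat_lit 299) (nat_lit 5) (nat_lit 475) (nat_lit 434) (nat_lit 231))) (XT.nd (nat_lit 78) (nat_lit 836) (nat_lit 0) (XT.lf (nat_lit 0) (nat_lit 16393257604) (nat_lit 684) (nat_lit 884081242) (nat_lit 760) (nat_lit 1599441980) (nat_lit 289) (nat_lit 5) (nat_lit 298) (nat_lit 5) (nat_lit 299) (nat_lit 5) (nat_lit 476) (nat_lit 434) (nat_lit 230)) (XT.lf (nat_lit 0) (nat_lit 679069378)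 (nat_lit 836) (nat_lit 11914785529) (nat_lit 76) (nat_lit 6500438805) (nat_lit 278) (nat_lit 5) (nat_lit 289) (nat_lit 5) (nat_lit 279) (nat_lit 5) (nat_lit 477) (nat_lit 434) (nat_lit 229))))))))
noncomputable def xc214 : XT := (XT.nd (nat_lit 2184) (nat_lit 2660) (nat_lit 0) (XT.nd (nat_lit 1092) (nat_lit 3800) (nat_lit 0) (XT.nd (nat_lit 546) (nat_lit 2508) (nat_lit 0) (XT.nd (nat_lit 234) (nat_lit 1292) (nat_lit 0) (XT.nd (nat_lit 78) (nat_lit 684) (nat_lit 0) (XT.lf (nat_lit 0) (nat_lit 2998764581) (nat_lit 836) (nat_lit 2268969308) (nat_lit 76) (nat_lit 14047874215) (nat_lit 278) (nat_lit 5) (nat_lit 289) (nat_lit 5) (nat_lit 279) (nat_lit 5) (nat_lit 478) (nat_lit 434) (nat_lit 228)) (XT.nd (nat_lit 78) (nat_lit 0) (nat_lit 0) (XT.lf (nat_lit 0) (nat_lit 5423747631) (nat_lit 760) (nat_lit 11890761542) (nat_lit 76) (nat_lit 2225664964) (nat_lit 269) (nat_lit 5) (nat_lit 279) (nat_lit 5) (nat_lit 270) (nat_lit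 5) (nat_lit 479) (nat_lit 434) (nat_lit 227)) (XT.lf (nat_lit 0) (nat_lit 7941999010) (nat_lit 760) (nat_lit 2012999398) (nat_lit 76) (nat_lit 9813340878) (nat_lit 269) (nat_lit 5) (nat_lit 279) (nat_lit 5) (nat_lit 270) (nat_lit 5) (nat_lit 480) (nat_lit 434) (nat_lit 226)))) (XT.nd (nat_lit 156) (nat_lit 608) (nat_lit 0) (XT.nd (nat_lit 78) (nat_lit 0) (nat_lit 0) (XT.lf (nat_lit 0) (nat_lit 8163496903) (nat_lit 684) (nat_lit 2394784292) (nat_lit 760) (nat_lit 9441836334) (nat_lit 260) (nat_lit 5) (nat_lit 269) (nat_lit 5) (nat_lit 270) (nat_lit 5) (nat_lit 481) (nat_lit 434) (nat_lit 225)) (XT.lf (nat_lit 0) (nat_lit 13269731754) (nat_lit 760) (nat_lit 1706012666) (nat_lit 76) (nat_lit 5259933108) (nat_lit 260) (nat_lit 5) (nat_lit 270) (nat_lit 5) (nat_lit 261) (nat_lit 5) (nat_lit 482) (nat_lit 434) (nat_lit 224))) (XT.nd (nat_lit 78) (nat_lit 0) (nat_lit 0) (XT.lf (nat_lit 0) (nat_lit 8719874610) (nat_lit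 608) (nat_lit 7382840705) (nat_lit 684) (nat_lit 4371890318) (nat_lit 252) (nat_lit 5) (nat_lit 260) (nat_lit 5) (nat_lit 261) (nat_lit 5) (nat_lit 483) (nat_lit 434) (nat_lit 223)) (XT.lf (nat_lit 0) (nat_lit 19001120983) (nat_lit 684) (nat_lit 1349002156) (nat_lit 76) (nat_lit 368016841) (nat_lit 252) (nat_lit 5) (nat_lit 261) (nat_lit 5) (nat_lit 253) (nat_lit 5) (nat_lit 484) (nat_lit 434) (nat_lit 222))))) (XT.nd (nat_lit 234) (nat_lit 1140) (nat_lit 0) (XT.nd (nat_lit 78) (nat_lit 608) (nat_lit 0) (XT.lf (nat_lit 0) (nat_lit 1083117269) (nat_lit 760) (nat_lit 11639020200) (nat_lit 76) (nat_lit 8242178400) (nat_lit 242) (nat_lit 5) (nat_lit 252) (nat_lit 5) (nat_lit 243) (nat_lit 5) (nat_lit 485) (nat_lit 434) (nat_lit 221)) (XT.nd (nat_lit 78) (nat_lit 608) (nat_lit 0) (XT.lf (nat_lit 0) (nat_lit 3920413502) (nat_lit 760) (nat_lit 1001113208) (nat_lit 76) (nat_lit 16293581371) (nat_lit 242) (nat_lit 5) (nat_lit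 252) (nat_lit 5) (nat_lit 243) (nat_lit 5) (nat_lit 486) (nat_lit 434) (nat_lit 220)) (XT.lf (nat_lit 0) (nat_lit 6894459257) (nat_lit 684) (nat_lit 11515178886) (nat_lit 76) (nat_lit 3059680629) (nat_lit 234) (nat_lit 5) (nat_lit 243) (nat_lit 5) (nat_lit 235) (nat_lit 5) (nat_lit 487) (nat_lit 434) (nat_lit 219)))) (XT.nd (nat_lit 156) (nat_lit 532) (nat_lit 0) (XT.nd (nat_lit 78) (nat_lit 608) (nat_lit 0) (XT.lf (nat_lit 0) (nat_lit 9962506910) (nat_lit 684) (nat_lit 624804211) (nat_lit 76) (nat_lit 11140614786) (nat_lit 234) (nat_lit 5) (nat_lit 243) (nat_lit 5) (nat_lit 235) (nat_lit 5) (nat_lit 488) (nat_lit 434) (nat_lit 218)) (XT.lf (nat_lit 0) (nat_lit 10616978490) (nat_lit 608) (nat_lit 2539129890) (nat_lit 684) (nat_lit 8834315549) (nat_lit 226) (nat_lit 5) (nat_lit 234) (nat_lit 5) (nat_lit 235) (nat_lit 5) (nat_lit 489) (nat_lit 434) (nat_lit 217))) (XT.nd (nat_lit 78) (nat_lit 532) (nat_lit 0) (XT.lf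 (nat_lit 0) (nat_lit 16449926850) (nat_lit 684) (nat_lit 208559230) (nat_lit 76) (nat_lit 5598961478) (nat_lit 226) (nat_lit 5) (nat_lit 235) (nat_lit 5) (nat_lit 227) (nat_lit 5) (nat_lit 490) (nat_lit 434) (nat_lit 216)) (XT.lf (nat_lit 0) (nat_lit 11305498465) (nat_lit 532) (nat_lit 8589744332) (nat_lit 608) (nat_lit 2632858941) (nat_lit 219) (nat_lit 5) (nat_lit 226) (nat_lit 5) (nat_lit 227) (nat_lit 5) (nat_lit 491) (nat_lit 434) (nat_lit 215)))))) (XT.nd (nat_lit 546) (nat_lit 1596) (nat_lit 0) (XT.nd (nat_lit 234) (nat_lit 988) (nat_lit 0) (XT.nd (nat_lit 78) (nat_lit 532) (nat_lit 0) (XT.lf (nat_lit 0) (nat_lit 242149035) (nat_lit 608) (nat_lit 353613963) (nat_lit 684) (nat_lit 22208361695) (nat_lit 210) (nat_lit 5) (nat_lit 218) (nat_lit 5) (nat_lit 219) (nat_lit 5) (nat_lit 492) (nat_lit 434) (nat_lit 214)) (XT.nd (nat_lit 78) (nat_lit 532) (nat_lit 0) (XT.lf (nat_lit 0) (nat_lit 3977263872) (nat_lit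 684) (nat_lit 11071683059) (nat_lit 76) (nat_lit 8033904256) (nat_lit 210) (nat_lit 5) (nat_lit 219) (nat_lit 5) (nat_lit 211) (nat_lit 5) (nat_lit 493) (nat_lit 434) (nat_lit 213)) (XT.lf (nat_lit 0) (nat_lit 649036821) (nat_lit 532) (nat_lit 6779473729) (nat_lit 608) (nat_lit 15938601655) (nat_lit 203) (nat_lit 5) (nat_lit 210) (nat_lit 5) (nat_lit 211) (nat_lit 5) (nat_lit 494) (nat_lit 434) (nat_lit 212)))) (XT.nd (nat_lit 156) (nat_lit 456) (nat_lit 0) (XT.nd (nat_lit 78) (nat_lit 532) (nat_lit 0) (XT.lf (nat_lit 0) (nat_lit 11029922865) (nat_lit 608) (nat_lit 10918156969) (nat_lit 76) (nat_lit 1707358057) (nat_lit 203) (nat_lit 5) (nat_lit 211) (nat_lit 5) (nat_lit 204) (nat_lit 5) (nat_lit 495) (nat_lit 434) (nat_lit 211)) (XT.lf (nat_lit 0) (nat_lit 1081562001) (nat_lit 532) (nat_lit 13669410984) (nat_lit 608) (nat_lit 9197607135) (nat_lit 196) (nat_lit 5) (nat_lit 203) (nat_lit 5) (nat_lit 204) (nat_lit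 5) (nat_lit 496) (nat_lit 434) (nat_lit 210))) (XT.nd (nat_lit 78) (nat_lit 456) (nat_lit 0) (XT.lf (nat_lit 0) (nat_lit 13463824417) (nat_lit 532) (nat_lit 5151625560) (nat_lit 608) (nat_lit 5630757274) (nat_lit 196) (nat_lit 5) (nat_lit 203) (nat_lit 5) (nat_lit 204) (nat_lit 5) (nat_lit 497) (nat_lit 434) (nat_lit 209)) (XT.lf (nat_lit 0) (nat_lit 1535704102) (nat_lit 456) (nat_lit 21050259886) (nat_lit 532) (nat_lit 1963250118) (nat_lit 190) (nat_lit 5) (nat_lit 196) (nat_lit 5) (nat_lit 197) (nat_lit 5) (nat_lit 498) (nat_lit 434) (nat_lit 208))))) (XT.nd (nat_lit 234) (nat_lit 988) (nat_lit 0) (XT.nd (nat_lit 78) (nat_lit 532) (nat_lit 0) (XT.lf (nat_lit 0) (nat_lit 1857077799) (nat_lit 532) (nat_lit 10662102931) (nat_lit 76) (nat_lit 12336815906) (nat_lit 189) (nat_lit 5) (nat_lit 196) (nat_lit 5) (nat_lit 190) (nat_lit 5) (nat_lit 499) (nat_lit 434) (nat_lit 207)) (XT.nd (nat_lit 78) (nat_lit 0) (nat_lit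 0) (XT.lf (nat_lit 0) (nat_lit 1943484034) (nat_lit 532) (nat_lit 3792597881) (nat_lit 608) (nat_lit 19432404218) (nat_lit 182) (nat_lit 5) (nat_lit 189) (nat_lit 5) (nat_lit 190) (nat_lit 5) (nat_lit 500) (nat_lit 434) (nat_lit 206)) (XT.lf (nat_lit 0) (nat_lit 9793808249) (nat_lit 608) (nat_lit 10579101021) (nat_lit 76) (nat_lit 5112295277) (nat_lit 182) (nat_lit 5) (nat_lit 190) (nat_lit 5) (nat_lit 183) (nat_lit 5) (nat_lit 501) (nat_lit 434) (nat_lit 205)))) (XT.nd (nat_lit 156) (nat_lit 532) (nat_lit 0) (XT.nd (nat_lit 78) (nat_lit 0) (nat_lit 0) (XT.lf (nat_lit 0) (nat_lit 2319755736) (nat_lit 456) (nat_lit 11649142782) (nat_lit 532) (nat_lit 11838636555) (nat_lit 176) (nat_lit 5) (nat_lit 182) (nat_lit 5) (nat_lit 183) (nat_lit 5) (nat_lit 502) (nat_lit 434) (nat_lit 204)) (XT.lf (nat_lit 0) (nat_lit 15614756985) (nat_lit 456) (nat_lit 2679800242) (nat_lit 532) (nat_lit 7840415543) (nat_lit 176) (nat_lit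 5) (nat_lit 182) (nat_lit 5) (nat_lit 183) (nat_lit 5) (nat_lit 503) (nat_lit 434) (nat_lit 203))) (XT.nd (nat_lit 78) (nat_lit 76) (nat_lit 0) (XT.lf (nat_lit 0) (nat_lit 2694838788) (nat_lit 456) (nat_lit 20067531494) (nat_lit 532) (nat_lit 3705477973) (nat_lit 170) (nat_lit 5) (nat_lit 176) (nat_lit 5) (nat_lit 177) (nat_lit 5) (nat_lit 504) (nat_lit 434) (nat_lit 202)) (XT.lf (nat_lit 0) (nat_lit 590410937) (nat_lit 532) (nat_lit 10515931959) (nat_lit 76) (nat_lit 15699274239) (nat_lit 169) (nat_lit 5) (nat_lit 176) (nat_lit 5) (nat_lit 170) (nat_lit 5) (nat_lit 505) (nat_lit 434) (nat_lit 201))))))) (XT.nd (nat_lit 53976) (nat_lit 0) (nat_lit 20064) (XT.nd (nat_lit 546) (nat_lit 836) (nat_lit 0) (XT.nd (nat_lit 234) (nat_lit 912) (nat_lit 0) (XT.nd (nat_lit 78) (nat_lit 456) (nat_lit 0) (XT.lf (nat_lit 0) (nat_lit 3016186153) (nat_lit 456) (nat_lit 1922278808) (nat_lit 532) (nat_lit 22210871044) (nat_lit 163)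 (nat_lit 5) (nat_lit 169) (nat_lit 5) (nat_lit 170) (nat_lit 5) (nat_lit 506) (nat_lit 434) (nat_lit 200)) (XT.nd (nat_lit 78) (nat_lit 456) (nat_lit 0) (XT.lf (nat_lit 0) (nat_lit 9489121955) (nat_lit 532) (nat_lit 10590986174) (nat_lit 76) (nat_lit 7417510000) (nat_lit 163) (nat_lit 5) (nat_lit 170) (nat_lit 5) (nat_lit 164) (nat_lit 5) (nat_lit 507) (nat_lit 434) (nat_lit 199)) (XT.lf (nat_lit 0) (nat_lit 3246821253) (nat_lit 456) (nat_lit 10914121098) (nat_lit 532) (nat_lit 13691322221) (nat_lit 157) (nat_lit 5) (nat_lit 163) (nat_lit 5) (nat_lit 164) (nat_lit 5) (nat_lit 508) (nat_lit 434) (nat_lit 198)))) (XT.nd (nat_lit 156) (nat_lit 532) (nat_lit 0) (XT.nd (nat_lit 78) (nat_lit 380) (nat_lit 0) (XT.lf (nat_lit 0) (nat_lit 17499929825) (nat_lit 456) (nat_lit 1493719034) (nat_lit 532) (nat_lit 9219007739) (nat_lit 157) (nat_lit 5) (nat_lit 163) (nat_lit 5) (nat_lit 164) (nat_lit 5) (nat_lit 509) (nat_lit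 434) (nat_lit 197)) (XT.lf (nat_lit 0) (nat_lit 3445358104) (nat_lit 380) (nat_lit 20549150226) (nat_lit 456) (nat_lit 4584319775) (nat_lit 152) (nat_lit 5) (nat_lit 157) (nat_lit 5) (nat_lit 158) (nat_lit 5) (nat_lit 510) (nat_lit 434) (nat_lit 196))) (XT.nd (nat_lit 78) (nat_lit 456) (nat_lit 0) (XT.lf (nat_lit 0) (nat_lit 219895443) (nat_lit 456) (nat_lit 10935363713) (nat_lit 76) (nat_lit 17795472666) (nat_lit 151) (nat_lit 5) (nat_lit 157) (nat_lit 5) (nat_lit 152) (nat_lit 5) (nat_lit 511) (nat_lit 434) (nat_lit 195)) (XT.lf (nat_lit 0) (nat_lit 3558108403) (nat_lit 456) (nat_lit 1520384525) (nat_lit 532) (nat_lit 24250582521) (nat_lit 145) (nat_lit 5) (nat_lit 151) (nat_lit 5) (nat_lit 152) (nat_lit 5) (nat_lit 512) (nat_lit 434) (nat_lit 194))))) (XT.nd (nat_lit 234) (nat_lit 456) (nat_lit 0) (XT.nd (nat_lit 78) (nat_lit 380) (nat_lit 0) (XT.lf (nat_lit 0) (nat_lit 10158616461) (nat_lit 532) (nat_lit 11283188928)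 (nat_lit 76) (nat_lit 8270694971) (nat_lit 145) (nat_lit 5) (nat_lit 152) (nat_lit 5) (nat_lit 146) (nat_lit 5) (nat_lit 513) (nat_lit 434) (nat_lit 193)) (XT.nd (nat_lit 78) (nat_lit 0) (nat_lit 0) (XT.lf (nat_lit 0) (nat_lit 3525682042) (nat_lit 380) (nat_lit 11844238206) (nat_lit 456) (nat_lit 14733083430) (nat_lit 140) (nat_lit 5) (nat_lit 145) (nat_lit 5) (nat_lit 146) (nat_lit 5) (nat_lit 514) (nat_lit 434) (nat_lit 192)) (XT.lf (nat_lit 0) (nat_lit 18778874939) (nat_lit 380) (nat_lit 1978944392) (nat_lit 456) (nat_lit 9742051782) (nat_lit 140) (nat_lit 5) (nat_lit 145) (nat_lit 5) (nat_lit 146) (nat_lit 5) (nat_lit 515) (nat_lit 434) (nat_lit 191)))) (XT.nd (nat_lit 53040) (nat_lit 0) (nat_lit 21584) (XT.nd (nat_lit 78) (nat_lit 76) (nat_lit 0) (XT.lf (nat_lit 0) (nat_lit 3420060350) (nat_lit 380) (nat_lit 22904815243) (nat_lit 456) (nat_lit 4578373726) (nat_lit 135) (nat_lit 5) (nat_lit 140) (nat_lit 5)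 (nat_lit 141) (nat_lit 5) (nat_lit 516) (nat_lit 434) (nat_lit 190)) (XT.lf (nat_lit 0) (nat_lit 768547899) (nat_lit 456) (nat_lit 12313179285) (nat_lit 76) (nat_lit 18231099827) (nat_lit 134) (nat_lit 5) (nat_lit 140) (nat_lit 5) (nat_lit 135) (nat_lit 5) (nat_lit 517) (nat_lit 434) (nat_lit 189))) (XT.nd (nat_lit 78) (nat_lit 0) (nat_lit 0) (XT.lf (nat_lit 0) (nat_lit 2369610141) (nat_lit 0) (nat_lit 2369610141) (nat_lit 1596) (nat_lit 1480026897) (nat_lit 418) (nat_lit 5) (nat_lit 418) (nat_lit 3) (nat_lit 439) (nat_lit 3) (nat_lit 435) (nat_lit 435) (nat_lit 270)) (XT.lf (nat_lit 0) (nat_lit 9999520914) (nat_lit 1596) (nat_lit 1977860381) (nat_lit 1672) (nat_lit 576671684) (nat_lit 418) (nat_lit 5) (nat_lit 439) (nat_lit 3) (nat_lit 440) (nat_lit 5) (nat_lit 436) (nat_lit 435) (nat_lit 269)))))) (XT.nd (nat_lit 546) (nat_lit 0) (nat_lit 76) (XT.nd (nat_lit 234) (nat_lit 1520) (nat_lit 0) (XT.nd (nat_lit 78)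 (nat_lit 0) (nat_lit 0) (XT.lf (nat_lit 76) (nat_lit 3871565608) (nat_lit 0) (nat_lit 6704933195) (nat_lit 1672) (nat_lit 2094522330) (nat_lit 419) (nat_lit 5) (nat_lit 418) (nat_lit 5) (nat_lit 440) (nat_lit 5) (nat_lit 437) (nat_lit 435) (nat_lit 268)) (XT.nd (nat_lit 78) (nat_lit 0) (nat_lit 76) (XT.lf (nat_lit 76) (nat_lit 9859022043) (nat_lit 0) (nat_lit 1308399431) (nat_lit 1672) (nat_lit 1622866797) (nat_lit 419) (nat_lit 5) (nat_lit 418) (nat_lit 5) (nat_lit 440) (nat_lit 5) (nat_lit 438) (nat_lit 435) (nat_lit 267)) (XT.lf (nat_lit 76) (nat_lit 3061284009) (nat_lit 0) (nat_lit 8745376392) (nat_lit 1672) (nat_lit 1104557968) (nat_lit 420) (nat_lit 5) (nat_lit 419) (nat_lit 5) (nat_lit 441) (nat_lit 5) (nat_lit 439) (nat_lit 435) (nat_lit 266)))) (XT.nd (nat_lit 156) (nat_lit 0) (nat_lit 0) (XT.nd (nat_lit 78) (nat_lit 1596) (nat_lit 0) (XT.lf (nat_lit 76) (nat_lit 9198769662) (nat_lit 0) (nat_lit 3277741112)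 (nat_lit 1672) (nat_lit 557707187) (nat_lit 420) (nat_lit 5) (nat_lit 419) (nat_lit 5) (nat_lit 441) (nat_lit 5) (nat_lit 440) (nat_lit 435) (nat_lit 265)) (XT.lf (nat_lit 0) (nat_lit 19903101) (nat_lit 1672) (nat_lit 10850739648) (nat_lit 1748) (nat_lit 2288645452) (nat_lit 398) (nat_lit 5) (nat_lit 420) (nat_lit 5) (nat_lit 421) (nat_lit 5) (nat_lit 441) (nat_lit 435) (nat_lit 264))) (XT.nd (nat_lit 78) (nat_lit 0) (nat_lit 76) (XT.lf (nat_lit 0) (nat_lit 639090665) (nat_lit 1672) (nat_lit 4690598080) (nat_lit 1748) (nat_lit 7956354512) (nat_lit 398) (nat_lit 5) (nat_lit 420) (nat_lit 5) (nat_lit 421) (nat_lit 5) (nat_lit 442) (nat_lit 435) (nat_lit 263)) (XT.lf (nat_lit 0) (nat_lit 1273356407) (nat_lit 1672) (nat_lit 11809660968) (nat_lit 1748) (nat_lit 332269012) (nat_lit 399) (nat_lit 5) (nat_lit 421) (nat_lit 5) (nat_lit 422) (nat_lit 5) (nat_lit 443) (nat_lit 435) (nat_lit 262))))) (XT.nd (nat_lit 312) (nat_lit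 0) (nat_lit 152) (XT.nd (nat_lit 156) (nat_lit 0) (nat_lit 76) (XT.nd (nat_lit 78) (nat_lit 0) (nat_lit 0) (XT.lf (nat_lit 0) (nat_lit 1977538497) (nat_lit 1672) (nat_lit 5496799872) (nat_lit 1748) (nat_lit 6071638113) (nat_lit 399) (nat_lit 5) (nat_lit 421) (nat_lit 5) (nat_lit 422) (nat_lit 5) (nat_lit 444) (nat_lit 435) (nat_lit 261)) (XT.lf (nat_lit 76) (nat_lit 948715632) (nat_lit 0) (nat_lit 1743689707) (nat_lit 1748) (nat_lit 10986949613) (nat_lit 400) (nat_lit 5) (nat_lit 399) (nat_lit 5) (nat_lit 422) (nat_lit 5) (nat_lit 445) (nat_lit 435) (nat_lit 260))) (XT.nd (nat_lit 78) (nat_lit 0) (nat_lit 0) (XT.lf (nat_lit 0) (nat_lit 3475942299) (nat_lit 1672) (nat_lit 6250108043) (nat_lit 1748) (nat_lit 4088269658) (nat_lit 400) (nat_lit 5) (nat_lit 422) (nat_lit 5) (nat_lit 423) (nat_lit 5) (nat_lit 446) (nat_lit 435) (nat_lit 259)) (XT.lf (nat_lit 76) (nat_lit 346935994) (nat_lit 0) (nat_lit 3932810189) (nat_lit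 1748) (nat_lit 9672152579) (nat_lit 401) (nat_lit 5) (nat_lit 400) (nat_lit 5) (nat_lit 423) (nat_lit 5) (nat_lit 447) (nat_lit 435) (nat_lit 258)))) (XT.nd (nat_lit 156) (nat_lit 0) (nat_lit 0) (XT.nd (nat_lit 78) (nat_lit 0) (nat_lit 0) (XT.lf (nat_lit 0) (nat_lit 5145633486) (nat_lit 1672) (nat_lit 6950123884) (nat_lit 1748) (nat_lit 1995557795) (nat_lit 401) (nat_lit 5) (nat_lit 423) (nat_lit 5) (nat_lit 424) (nat_lit 5) (nat_lit 448) (nat_lit 435) (nat_lit 257)) (XT.lf (nat_lit 0) (nat_lit 6046017607) (nat_lit 1672) (nat_lit 194377648) (nat_lit 1748) (nat_lit 7992787152) (nat_lit 401) (nat_lit 5) (nat_lit 423) (nat_lit 5) (nat_lit 424) (nat_lit 5) (nat_lit 449) (nat_lit 435) (nat_lit 256))) (XT.nd (nat_lit 78) (nat_lit 0) (nat_lit 76) (XT.lf (nat_lit 76) (nat_lit 6779372352) (nat_lit 0) (nat_lit 220361054) (nat_lit 1748) (nat_lit 7377453078) (nat_lit 402) (nat_lit 5) (nat_lit 401) (nat_lit 5) (nat_lit 424)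 (nat_lit 5) (nat_lit 450) (nat_lit 435) (nat_lit 255)) (XT.lf (nat_lit 0) (nat_lit 8003729708) (nat_lit 1672) (nat_lit 673436060) (nat_lit 1748) (nat_lit 5846286607) (nat_lit 402) (nat_lit 5) (nat_lit 424) (nat_lit 5) (nat_lit 425) (nat_lit 5) (nat_lit 451) (nat_lit 435) (nat_lit 254))))))))
noncomputable def xc215 : XT := (XT.nd (nat_lit 2184) (nat_lit 8740) (nat_lit 0) (XT.nd (nat_lit 1092) (nat_lit 5700) (nat_lit 0) (XT.nd (nat_lit 546) (nat_lit 2204) (nat_lit 0) (XT.nd (nat_lit 234) (nat_lit 1520) (nat_lit 0) (XT.nd (nat_lit 78) (nat_lit 0) (nat_lit 76) (XT.lf (nat_lit 76) (nat_lit 6466725624) (nat_lit 0) (nat_lit 2596149579) (nat_lit 1748) (nat_lit 5609072736) (nat_lit 403) (nat_lit 5) (nat_lit 402) (nat_lit 5) (nat_lit 425) (nat_lit 5) (nat_lit 452) (nat_lit 435) (nat_lit 253)) (XT.nd (nat_lit 78) (nat_lit 0) (nat_lit 0) (XT.lf (nat_lit 0) (nat_lit 10162931685) (nat_lit 1672) (nat_lit 1094151702) (nat_lit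 1748) (nat_lit 3565941092) (nat_lit 403) (nat_lit 5) (nat_lit 425) (nat_lit 5) (nat_lit 426) (nat_lit 5) (nat_lit 453) (nat_lit 435) (nat_lit 252)) (XT.lf (nat_lit 76) (nat_lit 6217409147) (nat_lit 0) (nat_lit 5117065572) (nat_lit 1748) (nat_lit 3641663640) (nat_lit 404) (nat_lit 5) (nat_lit 403) (nat_lit 5) (nat_lit 426) (nat_lit 5) (nat_lit 454) (nat_lit 435) (nat_lit 251)))) (XT.nd (nat_lit 156) (nat_lit 1672) (nat_lit 0) (XT.nd (nat_lit 78) (nat_lit 0) (nat_lit 0) (XT.lf (nat_lit 0) (nat_lit 12536334948) (nat_lit 1672) (nat_lit 1455840086) (nat_lit 1748) (nat_lit 1140007164) (nat_lit 404) (nat_lit 5) (nat_lit 426) (nat_lit 5) (nat_lit 427) (nat_lit 5) (nat_lit 455) (nat_lit 435) (nat_lit 250)) (XT.lf (nat_lit 76) (nat_lit 6032237224) (nat_lit 0) (nat_lit 7795260440) (nat_lit 1748) (nat_lit 1462549248) (nat_lit 405) (nat_lit 5) (nat_lit 404) (nat_lit 5) (nat_lit 427) (nat_lit 5) (nat_lit 456) (nat_lit 435) (nat_lit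 249))) (XT.nd (nat_lit 78) (nat_lit 1672) (nat_lit 0) (XT.lf (nat_lit 76) (nat_lit 13683754858) (nat_lit 0) (nat_lit 1462823763) (nat_lit 1748) (nat_lit 304453597) (nat_lit 405) (nat_lit 5) (nat_lit 404) (nat_lit 5) (nat_lit 427) (nat_lit 5) (nat_lit 457) (nat_lit 435) (nat_lit 248)) (XT.lf (nat_lit 0) (nat_lit 929029156) (nat_lit 1748) (nat_lit 9708026500) (nat_lit 1824) (nat_lit 4976798224) (nat_lit 382) (nat_lit 5) (nat_lit 405) (nat_lit 5) (nat_lit 406) (nat_lit 5) (nat_lit 458) (nat_lit 435) (nat_lit 247))))) (XT.nd (nat_lit 234) (nat_lit 2204) (nat_lit 0) (XT.nd (nat_lit 78) (nat_lit 0) (nat_lit 76) (XT.lf (nat_lit 0) (nat_lit 2197274524) (nat_lit 1748) (nat_lit 2041293573) (nat_lit 1824) (nat_lit 11541045135) (nat_lit 382) (nat_lit 5) (nat_lit 405) (nat_lit 5) (nat_lit 406) (nat_lit 5) (nat_lit 459) (nat_lit 435) (nat_lit 246)) (XT.nd (nat_lit 78) (nat_lit 0) (nat_lit 0) (XT.lf (nat_lit 0) (nat_lit 3536664090)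 (nat_lit 1748) (nat_lit 10113748619) (nat_lit 76) (nat_lit 2297364281) (nat_lit 383) (nat_lit 5) (nat_lit 406) (nat_lit 5) (nat_lit 384) (nat_lit 5) (nat_lit 460) (nat_lit 435) (nat_lit 245)) (XT.lf (nat_lit 0) (nat_lit 4937499100) (nat_lit 1748) (nat_lit 2258826300) (nat_lit 76) (nat_lit 8922290178) (nat_lit 383) (nat_lit 5) (nat_lit 406) (nat_lit 5) (nat_lit 384) (nat_lit 5) (nat_lit 461) (nat_lit 435) (nat_lit 244)))) (XT.nd (nat_lit 156) (nat_lit 836) (nat_lit 0) (XT.nd (nat_lit 78) (nat_lit 0) (nat_lit 0) (XT.lf (nat_lit 0) (nat_lit 5823529370) (nat_lit 1444) (nat_lit 573571648) (nat_lit 1520) (nat_lit 9895159532) (nat_lit 364) (nat_lit 5) (nat_lit 383) (nat_lit 5) (nat_lit 384) (nat_lit 5) (nat_lit 462) (nat_lit 435) (nat_lit 243)) (XT.lf (nat_lit 0) (nat_lit 7934334242) (nat_lit 1520) (nat_lit 2417311739) (nat_lit 76) (nat_lit 6116768181) (nat_lit 364) (nat_lit 5) (nat_lit 384) (nat_lit 5) (nat_lit 365)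 (nat_lit 5) (nat_lit 463) (nat_lit 435) (nat_lit 242))) (XT.nd (nat_lit 78) (nat_lit 0) (nat_lit 0) (XT.lf (nat_lit 0) (nat_lit 5862189963) (nat_lit 836) (nat_lit 3675163919) (nat_lit 912) (nat_lit 7110040566) (nat_lit 353) (nat_lit 5) (nat_lit 364) (nat_lit 5) (nat_lit 365) (nat_lit 5) (nat_lit 464) (nat_lit 435) (nat_lit 241)) (XT.lf (nat_lit 0) (nat_lit 11202397860) (nat_lit 912) (nat_lit 2516177053) (nat_lit 76) (nat_lit 3110784498) (nat_lit 353) (nat_lit 5) (nat_lit 365) (nat_lit 5) (nat_lit 354) (nat_lit 5) (nat_lit 465) (nat_lit 435) (nat_lit 240)))))) (XT.nd (nat_lit 546) (nat_lit 2280) (nat_lit 0) (XT.nd (nat_lit 234) (nat_lit 1672) (nat_lit 0) (XT.nd (nat_lit 78) (nat_lit 836) (nat_lit 0) (XT.lf (nat_lit 0) (nat_lit 5966123982) (nat_lit 912) (nat_lit 6991106911) (nat_lit 988) (nat_lit 4056607283) (nat_lit 341) (nat_lit 5) (nat_lit 353) (nat_lit 5) (nat_lit 354) (nat_lit 5) (nat_lit 466) (nat_lit 435)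 (nat_lit 239)) (XT.nd (nat_lit 78) (nat_lit 836) (nat_lit 0) (XT.lf (nat_lit 0) (nat_lit 14646203151) (nat_lit 912) (nat_lit 111345969) (nat_lit 988) (nat_lit 2444253805) (nat_lit 341) (nat_lit 5) (nat_lit 353) (nat_lit 5) (nat_lit 354) (nat_lit 5) (nat_lit 467) (nat_lit 435) (nat_lit 238)) (XT.lf (nat_lit 0) (nat_lit 6136000319) (nat_lit 836) (nat_lit 10536185133) (nat_lit 912) (nat_lit 719779382) (nat_lit 330) (nat_lit 5) (nat_lit 341) (nat_lit 5) (nat_lit 342) (nat_lit 5) (nat_lit 468) (nat_lit 435) (nat_lit 237)))) (XT.nd (nat_lit 156) (nat_lit 760) (nat_lit 0) (XT.nd (nat_lit 78) (nat_lit 836) (nat_lit 0) (XT.lf (nat_lit 0) (nat_lit 1037230787) (nat_lit 912) (nat_lit 2563152318) (nat_lit 76) (nat_lit 13985182368) (nat_lit 329) (nat_lit 5) (nat_lit 341) (nat_lit 5) (nat_lit 330) (nat_lit 5) (nat_lit 469) (nat_lit 435) (nat_lit 236)) (XT.lf (nat_lit 0) (nat_lit 2877815418) (nat_lit 912) (nat_lit 11428651952)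 (nat_lit 76) (nat_lit 3475318020) (nat_lit 318) (nat_lit 5) (nat_lit 330) (nat_lit 5) (nat_lit 319) (nat_lit 5) (nat_lit 470) (nat_lit 435) (nat_lit 235))) (XT.nd (nat_lit 78) (nat_lit 760) (nat_lit 0) (XT.lf (nat_lit 0) (nat_lit 4790253237) (nat_lit 912) (nat_lit 2529065850) (nat_lit 76) (nat_lit 10661913577) (nat_lit 318) (nat_lit 5) (nat_lit 330) (nat_lit 5) (nat_lit 319) (nat_lit 5) (nat_lit 471) (nat_lit 435) (nat_lit 234)) (XT.lf (nat_lit 0) (nat_lit 6629566045) (nat_lit 760) (nat_lit 148421120) (nat_lit 836) (nat_lit 11405944484) (nat_lit 308) (nat_lit 5) (nat_lit 318) (nat_lit 5) (nat_lit 319) (nat_lit 5) (nat_lit 472) (nat_lit 435) (nat_lit 233))))) (XT.nd (nat_lit 234) (nat_lit 1520) (nat_lit 0) (XT.nd (nat_lit 78) (nat_lit 760) (nat_lit 0) (XT.lf (nat_lit 0) (nat_lit 8863169039) (nat_lit 836) (nat_lit 2437308066) (nat_lit 76) (nat_lit 7089057282) (nat_lit 308) (nat_lit 5) (nat_lit 319) (nat_lit 5) (nat_lit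 309) (nat_lit 5) (nat_lit 473) (nat_lit 435) (nat_lit 232)) (XT.nd (nat_lit 78) (nat_lit 0) (nat_lit 0) (XT.lf (nat_lit 0) (nat_lit 6946350061) (nat_lit 760) (nat_lit 4083987497) (nat_lit 836) (nat_lit 7568109531) (nat_lit 298) (nat_lit 5) (nat_lit 308) (nat_lit 5) (nat_lit 309) (nat_lit 5) (nat_lit 474) (nat_lit 435) (nat_lit 231)) (XT.lf (nat_lit 0) (nat_lit 13272863822) (nat_lit 836) (nat_lit 2287813980) (nat_lit 76) (nat_lit 3250223455) (nat_lit 298) (nat_lit 5) (nat_lit 309) (nat_lit 5) (nat_lit 299) (nat_lit 5) (nat_lit 475) (nat_lit 435) (nat_lit 230)))) (XT.nd (nat_lit 156) (nat_lit 836) (nat_lit 0) (XT.nd (nat_lit 78) (nat_lit 0) (nat_lit 0) (XT.lf (nat_lit 0) (nat_lit 7326980506) (nat_lit 684) (nat_lit 8302265323) (nat_lit 760) (nat_lit 3396982004) (nat_lit 289) (nat_lit 5) (nat_lit 298) (nat_lit 5) (nat_lit 299) (nat_lit 5) (nat_lit 476) (nat_lit 435) (nat_lit 229)) (XT.lf (nat_lit 0) (nat_lit 17159298494)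 (nat_lit 684) (nat_lit 883269241) (nat_lit 760) (nat_lit 1203100323) (nat_lit 289) (nat_lit 5) (nat_lit 298) (nat_lit 5) (nat_lit 299) (nat_lit 5) (nat_lit 477) (nat_lit 435) (nat_lit 228))) (XT.nd (nat_lit 78) (nat_lit 0) (nat_lit 0) (XT.lf (nat_lit 0) (nat_lit 1110093939) (nat_lit 836) (nat_lit 11703523584) (nat_lit 76) (nat_lit 6653968350) (nat_lit 278) (nat_lit 5) (nat_lit 289) (nat_lit 5) (nat_lit 279) (nat_lit 5) (nat_lit 478) (nat_lit 435) (nat_lit 227)) (XT.lf (nat_lit 0) (nat_lit 3467997886) (nat_lit 836) (nat_lit 1873605894) (nat_lit 76) (nat_lit 14351891276) (nat_lit 278) (nat_lit 5) (nat_lit 289) (nat_lit 5) (nat_lit 279) (nat_lit 5) (nat_lit 479) (nat_lit 435) (nat_lit 226))))))) (XT.nd (nat_lit 1092) (nat_lit 3572) (nat_lit 0) (XT.nd (nat_lit 546) (nat_lit 2432) (nat_lit 0) (XT.nd (nat_lit 234) (nat_lit 1368) (nat_lit 0) (XT.nd (nat_lit 78) (nat_lit 684) (nat_lit 0) (XT.lf (nat_lit 0) (nat_lit 5936517937)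 (nat_lit 760) (nat_lit 11682635971) (nat_lit 76) (nat_lit 2303502463) (nat_lit 269) (nat_lit 5) (nat_lit 279) (nat_lit 5) (nat_lit 270) (nat_lit 5) (nat_lit 480) (nat_lit 435) (nat_lit 225)) (XT.nd (nat_lit 78) (nat_lit 684) (nat_lit 0) (XT.lf (nat_lit 0) (nat_lit 8497206984) (nat_lit 760) (nat_lit 1616062521) (nat_lit 76) (nat_lit 10042278479) (nat_lit 269) (nat_lit 5) (nat_lit 279) (nat_lit 5) (nat_lit 270) (nat_lit 5) (nat_lit 481) (nat_lit 435) (nat_lit 224)) (XT.lf (nat_lit 0) (nat_lit 8761087410) (nat_lit 684) (nat_lit 2399775378) (nat_lit 760) (nat_lit 9231202569) (nat_lit 260) (nat_lit 5) (nat_lit 269) (nat_lit 5) (nat_lit 270) (nat_lit 5) (nat_lit 482) (nat_lit 435) (nat_lit 223)))) (XT.nd (nat_lit 156) (nat_lit 760) (nat_lit 0) (XT.nd (nat_lit 78) (nat_lit 608) (nat_lit 0) (XT.lf (nat_lit 0) (nat_lit 13919140638) (nat_lit 760) (nat_lit 1306704952) (nat_lit 76) (nat_lit 5406643435) (nat_lit 260) (nat_lit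 5) (nat_lit 270) (nat_lit 5) (nat_lit 261) (nat_lit 5) (nat_lit 483) (nat_lit 435) (nat_lit 222)) (XT.lf (nat_lit 0) (nat_lit 9324848570) (nat_lit 608) (nat_lit 7479201198) (nat_lit 684) (nat_lit 4072244956) (nat_lit 252) (nat_lit 5) (nat_lit 260) (nat_lit 5) (nat_lit 261) (nat_lit 5) (nat_lit 484) (nat_lit 435) (nat_lit 221))) (XT.nd (nat_lit 78) (nat_lit 760) (nat_lit 0) (XT.lf (nat_lit 0) (nat_lit 19753313203) (nat_lit 684) (nat_lit 946524905) (nat_lit 76) (nat_lit 425008120) (nat_lit 252) (nat_lit 5) (nat_lit 261) (nat_lit 5) (nat_lit 253) (nat_lit 5) (nat_lit 485) (nat_lit 435) (nat_lit 220)) (XT.lf (nat_lit 0) (nat_lit 1475062898) (nat_lit 760) (nat_lit 11440042937) (nat_lit 76) (nat_lit 8460885806) (nat_lit 242) (nat_lit 5) (nat_lit 252) (nat_lit 5) (nat_lit 243) (nat_lit 5) (nat_lit 486) (nat_lit 435) (nat_lit 219))))) (XT.nd (nat_lit 234) (nat_lit 1824) (nat_lit 0) (XT.nd (nat_lit 78) (nat_lit 608) (nat_lit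 0) (XT.lf (nat_lit 0) (nat_lit 4361844600) (nat_lit 760) (nat_lit 597843643) (nat_lit 76) (nat_lit 16672260683) (nat_lit 242) (nat_lit 5) (nat_lit 252) (nat_lit 5) (nat_lit 243) (nat_lit 5) (nat_lit 487) (nat_lit 435) (nat_lit 218)) (XT.nd (nat_lit 78) (nat_lit 0) (nat_lit 0) (XT.lf (nat_lit 0) (nat_lit 7391385099) (nat_lit 684) (nat_lit 11318007541) (nat_lit 76) (nat_lit 3181934851) (nat_lit 234) (nat_lit 5) (nat_lit 243) (nat_lit 5) (nat_lit 235) (nat_lit 5) (nat_lit 488) (nat_lit 435) (nat_lit 217)) (XT.lf (nat_lit 0) (nat_lit 10513753771) (nat_lit 684) (nat_lit 218207234) (nat_lit 76) (nat_lit 11423290424) (nat_lit 234) (nat_lit 5) (nat_lit 243) (nat_lit 5) (nat_lit 235) (nat_lit 5) (nat_lit 489) (nat_lit 435) (nat_lit 216)))) (XT.nd (nat_lit 156) (nat_lit 684) (nat_lit 0) (XT.nd (nat_lit 78) (nat_lit 532) (nat_lit 0) (XT.lf (nat_lit 0) (nat_lit 11245653930) (nat_lit 608) (nat_lit 2521374572) (nat_lit 684)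 (nat_lit 8656058669) (nat_lit 226) (nat_lit 5) (nat_lit 234) (nat_lit 5) (nat_lit 235) (nat_lit 5) (nat_lit 490) (nat_lit 435) (nat_lit 215)) (XT.lf (nat_lit 0) (nat_lit 204695489) (nat_lit 532) (nat_lit 16916973572) (nat_lit 608) (nat_lit 5573887010) (nat_lit 219) (nat_lit 5) (nat_lit 226) (nat_lit 5) (nat_lit 227) (nat_lit 5) (nat_lit 491) (nat_lit 435) (nat_lit 214))) (XT.nd (nat_lit 78) (nat_lit 684) (nat_lit 0) (XT.lf (nat_lit 0) (nat_lit 11943621160) (nat_lit 532) (nat_lit 8686921803) (nat_lit 608) (nat_lit 2341190976) (nat_lit 219) (nat_lit 5) (nat_lit 226) (nat_lit 5) (nat_lit 227) (nat_lit 5) (nat_lit 492) (nat_lit 435) (nat_lit 213)) (XT.lf (nat_lit 0) (nat_lit 660957494) (nat_lit 608) (nat_lit 282554833) (nat_lit 684) (nat_lit 22309803316) (nat_lit 210) (nat_lit 5) (nat_lit 218) (nat_lit 5) (nat_lit 219) (nat_lit 5) (nat_lit 493) (nat_lit 435) (nat_lit 212)))))) (XT.nd (nat_lit 546) (nat_lit 1976) (nat_lit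 0) (XT.nd (nat_lit 234) (nat_lit 1064) (nat_lit 0) (XT.nd (nat_lit 78) (nat_lit 532) (nat_lit 0) (XT.lf (nat_lit 0) (nat_lit 4386555571) (nat_lit 684) (nat_lit 10881009131) (nat_lit 76) (nat_lit 8270177147) (nat_lit 210) (nat_lit 5) (nat_lit 219) (nat_lit 5) (nat_lit 211) (nat_lit 5) (nat_lit 494) (nat_lit 435) (nat_lit 211)) (XT.nd (nat_lit 78) (nat_lit 0) (nat_lit 0) (XT.lf (nat_lit 0) (nat_lit 1071413913) (nat_lit 532) (nat_lit 6831605726) (nat_lit 608) (nat_lit 15924747960) (nat_lit 203) (nat_lit 5) (nat_lit 210) (nat_lit 5) (nat_lit 211) (nat_lit 5) (nat_lit 495) (nat_lit 435) (nat_lit 210)) (XT.lf (nat_lit 0) (nat_lit 11570600479) (nat_lit 608) (nat_lit 10729126634) (nat_lit 76) (nat_lit 1822253177) (nat_lit 203) (nat_lit 5) (nat_lit 211) (nat_lit 5) (nat_lit 204) (nat_lit 5) (nat_lit 496) (nat_lit 435) (nat_lit 209)))) (XT.nd (nat_lit 156) (nat_lit 532) (nat_lit 0) (XT.nd (nat_lit 78) (nat_lit 0) (nat_lit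 0) (XT.lf (nat_lit 0) (nat_lit 1507906495) (nat_lit 532) (nat_lit 13854516711) (nat_lit 608) (nat_lit 9058638355) (nat_lit 196) (nat_lit 5) (nat_lit 203) (nat_lit 5) (nat_lit 204) (nat_lit 5) (nat_lit 497) (nat_lit 435) (nat_lit 208)) (XT.lf (nat_lit 0) (nat_lit 14129878605) (nat_lit 532) (nat_lit 5168106608) (nat_lit 608) (nat_lit 5426783280) (nat_lit 196) (nat_lit 5) (nat_lit 203) (nat_lit 5) (nat_lit 204) (nat_lit 5) (nat_lit 498) (nat_lit 435) (nat_lit 207))) (XT.nd (nat_lit 78) (nat_lit 76) (nat_lit 0) (XT.lf (nat_lit 0) (nat_lit 1966348294) (nat_lit 456) (nat_lit 21378625886) (nat_lit 532) (nat_lit 1688923118) (nat_lit 190) (nat_lit 5) (nat_lit 196) (nat_lit 5) (nat_lit 197) (nat_lit 5) (nat_lit 499) (nat_lit 435) (nat_lit 206)) (XT.lf (nat_lit 0) (nat_lit 2197630322) (nat_lit 532) (nat_lit 10479075231) (nat_lit 76) (nat_lit 12670193552) (nat_lit 189) (nat_lit 5) (nat_lit 196) (nat_lit 5) (nat_lit 190) (nat_lit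 5) (nat_lit 500) (nat_lit 435) (nat_lit 205))))) (XT.nd (nat_lit 312) (nat_lit 988) (nat_lit 0) (XT.nd (nat_lit 156) (nat_lit 456) (nat_lit 0) (XT.nd (nat_lit 78) (nat_lit 0) (nat_lit 0) (XT.lf (nat_lit 0) (nat_lit 2376016435) (nat_lit 532) (nat_lit 3774804771) (nat_lit 608) (nat_lit 19514887980) (nat_lit 182) (nat_lit 5) (nat_lit 189) (nat_lit 5) (nat_lit 190) (nat_lit 5) (nat_lit 501) (nat_lit 435) (nat_lit 204)) (XT.lf (nat_lit 0) (nat_lit 10284415452) (nat_lit 608) (nat_lit 10399309135) (nat_lit 76) (nat_lit 5305145983) (nat_lit 182) (nat_lit 5) (nat_lit 190) (nat_lit 5) (nat_lit 183) (nat_lit 5) (nat_lit 502) (nat_lit 435) (nat_lit 203))) (XT.nd (nat_lit 78) (nat_lit 0) (nat_lit 0) (XT.lf (nat_lit 0) (nat_lit 2754949929) (nat_lit 456) (nat_lit 11784802899) (nat_lit 532) (nat_lit 11777962785) (nat_lit 176) (nat_lit 5) (nat_lit 182) (nat_lit 5) (nat_lit 183) (nat_lit 5) (nat_lit 503) (nat_lit 435) (nat_lit 202))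 (XT.lf (nat_lit 0) (nat_lit 16308227691) (nat_lit 456) (nat_lit 2637981797) (nat_lit 532) (nat_lit 7705609637) (nat_lit 176) (nat_lit 5) (nat_lit 182) (nat_lit 5) (nat_lit 183) (nat_lit 5) (nat_lit 504) (nat_lit 435) (nat_lit 201)))) (XT.nd (nat_lit 156) (nat_lit 456) (nat_lit 0) (XT.nd (nat_lit 78) (nat_lit 76) (nat_lit 0) (XT.lf (nat_lit 0) (nat_lit 3132602571) (nat_lit 456) (nat_lit 20368272740) (nat_lit 532) (nat_lit 3490529582) (nat_lit 170) (nat_lit 5) (nat_lit 176) (nat_lit 5) (nat_lit 177) (nat_lit 5) (nat_lit 505) (nat_lit 435) (nat_lit 200)) (XT.lf (nat_lit 0) (nat_lit 881892591) (nat_lit 532) (nat_lit 10346063757) (nat_lit 76) (nat_lit 16108049736) (nat_lit 169) (nat_lit 5) (nat_lit 176) (nat_lit 5) (nat_lit 170) (nat_lit 5) (nat_lit 506) (nat_lit 435) (nat_lit 199))) (XT.nd (nat_lit 78) (nat_lit 0) (nat_lit 0) (XT.lf (nat_lit 0) (nat_lit 3454195488) (nat_lit 456) (nat_lit 1859680600) (nat_lit 532) (nat_lit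 22372786423) (nat_lit 163) (nat_lit 5) (nat_lit 169) (nat_lit 5) (nat_lit 170) (nat_lit 5) (nat_lit 507) (nat_lit 435) (nat_lit 198)) (XT.lf (nat_lit 0) (nat_lit 9950765052) (nat_lit 532) (nat_lit 10427619835) (nat_lit 76) (nat_lit 7663623511) (nat_lit 163) (nat_lit 5) (nat_lit 170) (nat_lit 5) (nat_lit 164) (nat_lit 5) (nat_lit 508) (nat_lit 435) (nat_lit 197))))))))
noncomputable def xc216 : XT := (XT.nd (nat_lit 55146) (nat_lit 0) (nat_lit 9500) (XT.nd (nat_lit 54054) (nat_lit 0) (nat_lit 19912) (XT.nd (nat_lit 546) (nat_lit 380) (nat_lit 0) (XT.nd (nat_lit 234) (nat_lit 912) (nat_lit 0) (XT.nd (nat_lit 78) (nat_lit 380) (nat_lit 0) (XT.lf (nat_lit 0) (nat_lit 3684475411) (nat_lit 456) (nat_lit 11028635774) (nat_lit 532) (nat_lit 13690697247) (nat_lit 157) (nat_lit 5) (nat_lit 163) (nat_lit 5) (nat_lit 164) (nat_lit 5) (nat_lit 509) (nat_lit 435) (nat_lit 196)) (XT.nd (nat_lit 78) (nat_lit 380) (nat_lit 0) (XT.lf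 (nat_lit 0) (nat_lit 18215337964) (nat_lit 456) (nat_lit 1421860332) (nat_lit 532) (nat_lit 9134317875) (nat_lit 157) (nat_lit 5) (nat_lit 163) (nat_lit 5) (nat_lit 164) (nat_lit 5) (nat_lit 510) (nat_lit 435) (nat_lit 195)) (XT.lf (nat_lit 0) (nat_lit 3881972701) (nat_lit 380) (nat_lit 20853967095) (nat_lit 456) (nat_lit 4409116367) (nat_lit 152) (nat_lit 5) (nat_lit 157) (nat_lit 5) (nat_lit 158) (nat_lit 5) (nat_lit 511) (nat_lit 435) (nat_lit 194)))) (XT.nd (nat_lit 156) (nat_lit 380) (nat_lit 0) (XT.nd (nat_lit 78) (nat_lit 456) (nat_lit 0) (XT.lf (nat_lit 0) (nat_lit 482518347) (nat_lit 456) (nat_lit 10790028720) (nat_lit 76) (nat_lit 18251921784) (nat_lit 151) (nat_lit 5) (nat_lit 157) (nat_lit 5) (nat_lit 152) (nat_lit 5) (nat_lit 512) (nat_lit 435) (nat_lit 193)) (XT.lf (nat_lit 0) (nat_lit 3990917824) (nat_lit 456) (nat_lit 1444654777) (nat_lit 532) (nat_lit 24474863271) (nat_lit 145) (nat_lit 5) (nat_lit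 151) (nat_lit 5) (nat_lit 152) (nat_lit 5) (nat_lit 513) (nat_lit 435) (nat_lit 192))) (XT.nd (nat_lit 78) (nat_lit 380) (nat_lit 0) (XT.lf (nat_lit 0) (nat_lit 10612964211) (nat_lit 532) (nat_lit 11149853468) (nat_lit 76) (nat_lit 8538800465) (nat_lit 145) (nat_lit 5) (nat_lit 152) (nat_lit 5) (nat_lit 146) (nat_lit 5) (nat_lit 514) (nat_lit 435) (nat_lit 191)) (XT.lf (nat_lit 0) (nat_lit 3952833085) (nat_lit 380) (nat_lit 11973051507) (nat_lit 456) (nat_lit 14774101257) (nat_lit 140) (nat_lit 5) (nat_lit 145) (nat_lit 5) (nat_lit 146) (nat_lit 5) (nat_lit 515) (nat_lit 435) (nat_lit 190))))) (XT.nd (nat_lit 53196) (nat_lit 0) (nat_lit 21508) (XT.nd (nat_lit 78) (nat_lit 380) (nat_lit 0) (XT.lf (nat_lit 0) (nat_lit 19504096950) (nat_lit 380) (nat_lit 1912570864) (nat_lit 456) (nat_lit 9688222385) (nat_lit 140) (nat_lit 5) (nat_lit 145) (nat_lit 5) (nat_lit 146) (nat_lit 5) (nat_lit 516) (nat_lit 435) (nat_lit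 189)) (XT.nd (nat_lit 53040) (nat_lit 0) (nat_lit 21508) (XT.lf (nat_lit 0) (nat_lit 3840067973) (nat_lit 380) (nat_lit 23253176240) (nat_lit 456) (nat_lit 4423130226) (nat_lit 135) (nat_lit 5) (nat_lit 140) (nat_lit 5) (nat_lit 141) (nat_lit 5) (nat_lit 517) (nat_lit 435) (nat_lit 188)) (XT.lf (nat_lit 0) (nat_lit 2626881787) (nat_lit 0) (nat_lit 2626881787) (nat_lit 1596) (nat_lit 1081174916) (nat_lit 418) (nat_lit 5) (nat_lit 418) (nat_lit 3) (nat_lit 439) (nat_lit 3) (nat_lit 436) (nat_lit 436) (nat_lit 268)))) (XT.nd (nat_lit 156) (nat_lit 0) (nat_lit 0) (XT.nd (nat_lit 78) (nat_lit 0) (nat_lit 0) (XT.lf (nat_lit 0) (nat_lit 11019896060) (nat_lit 1596) (nat_lit 1586171016) (nat_lit 1672) (nat_lit 182074065) (nat_lit 418) (nat_lit 5) (nat_lit 439) (nat_lit 3) (nat_lit 440) (nat_lit 5) (nat_lit 437) (nat_lit 436) (nat_lit 267)) (XT.lf (nat_lit 76) (nat_lit 4377406344) (nat_lit 0) (nat_lit 7217702706) (nat_lit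 1672) (nat_lit 1312617171) (nat_lit 419) (nat_lit 5) (nat_lit 418) (nat_lit 5) (nat_lit 440) (nat_lit 5) (nat_lit 438) (nat_lit 436) (nat_lit 266))) (XT.nd (nat_lit 78) (nat_lit 0) (nat_lit 76) (XT.lf (nat_lit 76) (nat_lit 10476211723) (nat_lit 0) (nat_lit 1705813348) (nat_lit 1672) (nat_lit 847681382) (nat_lit 419) (nat_lit 5) (nat_lit 418) (nat_lit 5) (nat_lit 440) (nat_lit 5) (nat_lit 439) (nat_lit 436) (nat_lit 265)) (XT.lf (nat_lit 76) (nat_lit 3558429996) (nat_lit 0) (nat_lit 9260571144) (nat_lit 1672) (nat_lit 334365995) (nat_lit 420) (nat_lit 5) (nat_lit 419) (nat_lit 5) (nat_lit 441) (nat_lit 5) (nat_lit 440) (nat_lit 436) (nat_lit 264)))))) (XT.nd (nat_lit 546) (nat_lit 0) (nat_lit 228) (XT.nd (nat_lit 234) (nat_lit 0) (nat_lit 152) (XT.nd (nat_lit 78) (nat_lit 0) (nat_lit 76) (XT.lf (nat_lit 0) (nat_lit 205160364) (nat_lit 1672) (nat_lit 3470373762) (nat_lit 1748) (nat_lit 9603580807) (nat_lit 397) (nat_lit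 5) (nat_lit 419) (nat_lit 5) (nat_lit 420) (nat_lit 5) (nat_lit 441) (nat_lit 436) (nat_lit 263)) (XT.nd (nat_lit 78) (nat_lit 0) (nat_lit 0) (XT.lf (nat_lit 0) (nat_lit 772585070) (nat_lit 1672) (nat_lit 10614867647) (nat_lit 1748) (nat_lit 2019455925) (nat_lit 398) (nat_lit 5) (nat_lit 420) (nat_lit 5) (nat_lit 421) (nat_lit 5) (nat_lit 442) (nat_lit 436) (nat_lit 262)) (XT.lf (nat_lit 0) (nat_lit 1389405721) (nat_lit 1672) (nat_lit 4340403381) (nat_lit 1748) (nat_lit 7806694901) (nat_lit 398) (nat_lit 5) (nat_lit 420) (nat_lit 5) (nat_lit 421) (nat_lit 5) (nat_lit 443) (nat_lit 436) (nat_lit 261)))) (XT.nd (nat_lit 156) (nat_lit 0) (nat_lit 0) (XT.nd (nat_lit 78) (nat_lit 0) (nat_lit 0) (XT.lf (nat_lit 0) (nat_lit 2022909726) (nat_lit 1672) (nat_lit 11587901010) (nat_lit 1748) (nat_lit 57800189) (nat_lit 399) (nat_lit 5) (nat_lit 421) (nat_lit 5) (nat_lit 422) (nat_lit 5) (nat_lit 444) (nat_lit 436) (nat_lit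 260)) (XT.lf (nat_lit 0) (nat_lit 2726977689) (nat_lit 1672) (nat_lit 5157762167) (nat_lit 1748) (nat_lit 5917468716) (nat_lit 399) (nat_lit 5) (nat_lit 421) (nat_lit 5) (nat_lit 422) (nat_lit 5) (nat_lit 445) (nat_lit 436) (nat_lit 259))) (XT.nd (nat_lit 78) (nat_lit 0) (nat_lit 76) (XT.lf (nat_lit 76) (nat_lit 1413709873) (nat_lit 0) (nat_lit 2031408471) (nat_lit 1748) (nat_lit 10493366339) (nat_lit 400) (nat_lit 5) (nat_lit 399) (nat_lit 5) (nat_lit 422) (nat_lit 5) (nat_lit 446) (nat_lit 436) (nat_lit 258)) (XT.lf (nat_lit 0) (nat_lit 4229013362) (nat_lit 1672) (nat_lit 5922052425) (nat_lit 1748) (nat_lit 3925398911) (nat_lit 400) (nat_lit 5) (nat_lit 422) (nat_lit 5) (nat_lit 423) (nat_lit 5) (nat_lit 447) (nat_lit 436) (nat_lit 257))))) (XT.nd (nat_lit 234) (nat_lit 0) (nat_lit 76) (XT.nd (nat_lit 78) (nat_lit 0) (nat_lit 76) (XT.lf (nat_lit 76) (nat_lit 803951849) (nat_lit 0) (nat_lit 4234460689) (nat_lit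 1748) (nat_lit 9178601341) (nat_lit 401) (nat_lit 5) (nat_lit 400) (nat_lit 5) (nat_lit 423) (nat_lit 5) (nat_lit 448) (nat_lit 436) (nat_lit 256)) (XT.nd (nat_lit 78) (nat_lit 0) (nat_lit 0) (XT.lf (nat_lit 0) (nat_lit 5907000670) (nat_lit 1672) (nat_lit 6632804970) (nat_lit 1748) (nat_lit 1819714357) (nat_lit 401) (nat_lit 5) (nat_lit 423) (nat_lit 5) (nat_lit 424) (nat_lit 5) (nat_lit 449) (nat_lit 436) (nat_lit 255)) (XT.lf (nat_lit 76) (nat_lit 252419236) (nat_lit 0) (nat_lit 6561701237) (nat_lit 1748) (nat_lit 7690338421) (nat_lit 402) (nat_lit 5) (nat_lit 401) (nat_lit 5) (nat_lit 424) (nat_lit 5) (nat_lit 450) (nat_lit 436) (nat_lit 254)))) (XT.nd (nat_lit 156) (nat_lit 0) (nat_lit 76) (XT.nd (nat_lit 78) (nat_lit 0) (nat_lit 76) (XT.lf (nat_lit 76) (nat_lit 7359390464) (nat_lit 0) (nat_lit 416109073) (nat_lit 1748) (nat_lit 6876080434) (nat_lit 402) (nat_lit 5) (nat_lit 401) (nat_lit 5) (nat_lit 424) (nat_lit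 5) (nat_lit 451) (nat_lit 436) (nat_lit 253)) (XT.lf (nat_lit 0) (nat_lit 8785891705) (nat_lit 1672) (nat_lit 237078095) (nat_lit 1748) (nat_lit 5778083586) (nat_lit 402) (nat_lit 5) (nat_lit 424) (nat_lit 5) (nat_lit 425) (nat_lit 5) (nat_lit 452) (nat_lit 436) (nat_lit 252))) (XT.nd (nat_lit 78) (nat_lit 0) (nat_lit 76) (XT.lf (nat_lit 76) (nat_lit 7042927436) (nat_lit 0) (nat_lit 2813996240) (nat_lit 1748) (nat_lit 5095789472) (nat_lit 403) (nat_lit 5) (nat_lit 402) (nat_lit 5) (nat_lit 425) (nat_lit 5) (nat_lit 453) (nat_lit 436) (nat_lit 251)) (XT.lf (nat_lit 0) (nat_lit 10965909615) (nat_lit 1672) (nat_lit 664448132) (nat_lit 1748) (nat_lit 3476723100) (nat_lit 403) (nat_lit 5) (nat_lit 425) (nat_lit 5) (nat_lit 426) (nat_lit 5) (nat_lit 454) (nat_lit 436) (nat_lit 250))))))) (XT.nd (nat_lit 1092) (nat_lit 6156) (nat_lit 0) (XT.nd (nat_lit 546) (nat_lit 3040) (nat_lit 0) (XT.nd (nat_lit 234) (nat_lit 1672)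 (nat_lit 0) (XT.nd (nat_lit 78) (nat_lit 0) (nat_lit 76) (XT.lf (nat_lit 76) (nat_lit 6790372970) (nat_lit 0) (nat_lit 5361664048) (nat_lit 1748) (nat_lit 3111404950) (nat_lit 404) (nat_lit 5) (nat_lit 403) (nat_lit 5) (nat_lit 426) (nat_lit 5) (nat_lit 455) (nat_lit 436) (nat_lit 249)) (XT.nd (nat_lit 78) (nat_lit 0) (nat_lit 0) (XT.lf (nat_lit 0) (nat_lit 13365443193) (nat_lit 1672) (nat_lit 1032252549) (nat_lit 1748) (nat_lit 1025168644) (nat_lit 404) (nat_lit 5) (nat_lit 426) (nat_lit 5) (nat_lit 427) (nat_lit 5) (nat_lit 456) (nat_lit 436) (nat_lit 248)) (XT.lf (nat_lit 76) (nat_lit 6602607989) (nat_lit 0) (nat_lit 8071400279) (nat_lit 1748) (nat_lit 910054265) (nat_lit 405) (nat_lit 5) (nat_lit 404) (nat_lit 5) (nat_lit 427) (nat_lit 5) (nat_lit 457) (nat_lit 436) (nat_lit 247)))) (XT.nd (nat_lit 156) (nat_lit 0) (nat_lit 76) (XT.nd (nat_lit 78) (nat_lit 0) (nat_lit 76) (XT.lf (nat_lit 0) (nat_lit 256389235)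 (nat_lit 1748) (nat_lit 1351847584) (nat_lit 1824) (nat_lit 14140228076) (nat_lit 381) (nat_lit 5) (nat_lit 404) (nat_lit 5) (nat_lit 405) (nat_lit 5) (nat_lit 458) (nat_lit 436) (nat_lit 246)) (XT.lf (nat_lit 0) (nat_lit 1501619723) (nat_lit 1748) (nat_lit 9444215023) (nat_lit 1824) (nat_lit 4968852177) (nat_lit 382) (nat_lit 5) (nat_lit 405) (nat_lit 5) (nat_lit 406) (nat_lit 5) (nat_lit 459) (nat_lit 436) (nat_lit 245))) (XT.nd (nat_lit 78) (nat_lit 0) (nat_lit 76) (XT.lf (nat_lit 0) (nat_lit 2784367058) (nat_lit 1748) (nat_lit 1633127281) (nat_lit 1824) (nat_lit 11666491517) (nat_lit 382) (nat_lit 5) (nat_lit 405) (nat_lit 5) (nat_lit 406) (nat_lit 5) (nat_lit 460) (nat_lit 436) (nat_lit 244)) (XT.lf (nat_lit 0) (nat_lit 4142210299) (nat_lit 1748) (nat_lit 9858347606) (nat_lit 76) (nat_lit 2255128660) (nat_lit 383) (nat_lit 5) (nat_lit 406) (nat_lit 5) (nat_lit 384) (nat_lit 5) (nat_lit 461) (nat_lit 436) (nat_lit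 243))))) (XT.nd (nat_lit 234) (nat_lit 1748) (nat_lit 0) (XT.nd (nat_lit 78) (nat_lit 1444) (nat_lit 0) (XT.lf (nat_lit 0) (nat_lit 5560575481) (nat_lit 1748) (nat_lit 1855300880) (nat_lit 76) (nat_lit 9014282152) (nat_lit 383) (nat_lit 5) (nat_lit 406) (nat_lit 5) (nat_lit 384) (nat_lit 5) (nat_lit 462) (nat_lit 436) (nat_lit 242)) (XT.nd (nat_lit 78) (nat_lit 0) (nat_lit 0) (XT.lf (nat_lit 0) (nat_lit 6385749917) (nat_lit 1444) (nat_lit 656232715) (nat_lit 1520) (nat_lit 9565448211) (nat_lit 364) (nat_lit 5) (nat_lit 383) (nat_lit 5) (nat_lit 384) (nat_lit 5) (nat_lit 463) (nat_lit 436) (nat_lit 241)) (XT.lf (nat_lit 0) (nat_lit 8599371302) (nat_lit 1520) (nat_lit 2017729456) (nat_lit 76) (nat_lit 6170225144) (nat_lit 364) (nat_lit 5) (nat_lit 384) (nat_lit 5) (nat_lit 365) (nat_lit 5) (nat_lit 464) (nat_lit 436) (nat_lit 240)))) (XT.nd (nat_lit 156) (nat_lit 912) (nat_lit 0) (XT.nd (nat_lit 78) (nat_lit 0) (nat_lit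 0) (XT.lf (nat_lit 0) (nat_lit 6424415382) (nat_lit 836) (nat_lit 3802996631) (nat_lit 912) (nat_lit 6742621030) (nat_lit 353) (nat_lit 5) (nat_lit 364) (nat_lit 5) (nat_lit 365) (nat_lit 5) (nat_lit 465) (nat_lit 436) (nat_lit 239)) (XT.lf (nat_lit 0) (nat_lit 11915620632) (nat_lit 912) (nat_lit 2119791126) (nat_lit 76) (nat_lit 3120434607) (nat_lit 353) (nat_lit 5) (nat_lit 365) (nat_lit 5) (nat_lit 354) (nat_lit 5) (nat_lit 466) (nat_lit 436) (nat_lit 238))) (XT.nd (nat_lit 78) (nat_lit 0) (nat_lit 0) (XT.lf (nat_lit 0) (nat_lit 6529217051) (nat_lit 912) (nat_lit 7169622863) (nat_lit 988) (nat_lit 3645315208) (nat_lit 341) (nat_lit 5) (nat_lit 353) (nat_lit 5) (nat_lit 354) (nat_lit 5) (nat_lit 467) (nat_lit 436) (nat_lit 237)) (XT.lf (nat_lit 0) (nat_lit 15374196419) (nat_lit 912) (nat_lit 151508001) (nat_lit 988) (nat_lit 2010370037) (nat_lit 341) (nat_lit 5) (nat_lit 353) (nat_lit 5) (nat_lit 354) (nat_lit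 5) (nat_lit 468) (nat_lit 436) (nat_lit 236)))))) (XT.nd (nat_lit 546) (nat_lit 2888) (nat_lit 0) (XT.nd (nat_lit 234) (nat_lit 1520) (nat_lit 0) (XT.nd (nat_lit 78) (nat_lit 912) (nat_lit 0) (XT.lf (nat_lit 0) (nat_lit 6700872199) (nat_lit 836) (nat_lit 10771115958) (nat_lit 912) (nat_lit 258190323) (nat_lit 330) (nat_lit 5) (nat_lit 341) (nat_lit 5) (nat_lit 342) (nat_lit 5) (nat_lit 469) (nat_lit 436) (nat_lit 235)) (XT.nd (nat_lit 78) (nat_lit 836) (nat_lit 0) (XT.lf (nat_lit 0) (nat_lit 1518506797) (nat_lit 912) (nat_lit 2174526035) (nat_lit 76) (nat_lit 14234746442) (nat_lit 329) (nat_lit 5) (nat_lit 341) (nat_lit 5) (nat_lit 330) (nat_lit 5) (nat_lit 470) (nat_lit 436) (nat_lit 234)) (XT.lf (nat_lit 0) (nat_lit 3389597753) (nat_lit 912) (nat_lit 11210749039) (nat_lit 76) (nat_lit 3527708532) (nat_lit 318) (nat_lit 5) (nat_lit 330) (nat_lit 5) (nat_lit 319) (nat_lit 5) (nat_lit 471) (nat_lit 436) (nat_lit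 233)))) (XT.nd (nat_lit 156) (nat_lit 760) (nat_lit 0) (XT.nd (nat_lit 78) (nat_lit 760) (nat_lit 0) (XT.lf (nat_lit 0) (nat_lit 5331377935) (nat_lit 912) (nat_lit 2141925645) (nat_lit 76) (nat_lit 10858371604) (nat_lit 318) (nat_lit 5) (nat_lit 330) (nat_lit 5) (nat_lit 319) (nat_lit 5) (nat_lit 472) (nat_lit 436) (nat_lit 232)) (XT.lf (nat_lit 0) (nat_lit 7196999140) (nat_lit 760) (nat_lit 155958925) (nat_lit 836) (nat_lit 11185593660) (nat_lit 308) (nat_lit 5) (nat_lit 318) (nat_lit 5) (nat_lit 319) (nat_lit 5) (nat_lit 473) (nat_lit 436) (nat_lit 231))) (XT.nd (nat_lit 78) (nat_lit 760) (nat_lit 0) (XT.lf (nat_lit 0) (nat_lit 9471198586) (nat_lit 836) (nat_lit 2050828738) (nat_lit 76) (nat_lit 7226417395) (nat_lit 308) (nat_lit 5) (nat_lit 319) (nat_lit 5) (nat_lit 309) (nat_lit 5) (nat_lit 474) (nat_lit 436) (nat_lit 230)) (XT.lf (nat_lit 0) (nat_lit 7517639226) (nat_lit 760) (nat_lit 4158432036) (nat_lit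 836) (nat_lit 7285582394) (nat_lit 298) (nat_lit 5) (nat_lit 308) (nat_lit 5) (nat_lit 309) (nat_lit 5) (nat_lit 475) (nat_lit 436) (nat_lit 229))))) (XT.nd (nat_lit 312) (nat_lit 1368) (nat_lit 0) (XT.nd (nat_lit 156) (nat_lit 836) (nat_lit 0) (XT.nd (nat_lit 78) (nat_lit 684) (nat_lit 0) (XT.lf (nat_lit 0) (nat_lit 13955158283) (nat_lit 836) (nat_lit 1901141275) (nat_lit 76) (nat_lit 3322228238) (nat_lit 298) (nat_lit 5) (nat_lit 309) (nat_lit 5) (nat_lit 299) (nat_lit 5) (nat_lit 476) (nat_lit 436) (nat_lit 228)) (XT.lf (nat_lit 0) (nat_lit 7903104172) (nat_lit 684) (nat_lit 8450179624) (nat_lit 760) (nat_lit 3044989786) (nat_lit 289) (nat_lit 5) (nat_lit 298) (nat_lit 5) (nat_lit 299) (nat_lit 5) (nat_lit 477) (nat_lit 436) (nat_lit 227))) (XT.nd (nat_lit 78) (nat_lit 836) (nat_lit 0) (XT.lf (nat_lit 0) (nat_lit 17923645303) (nat_lit 684) (nat_lit 883159131) (nat_lit 760) (nat_lit 815464429) (nat_lit 289) (nat_lit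 5) (nat_lit 298) (nat_lit 5) (nat_lit 299) (nat_lit 5) (nat_lit 478) (nat_lit 436) (nat_lit 226)) (XT.lf (nat_lit 0) (nat_lit 1533529165) (nat_lit 836) (nat_lit 11505493272) (nat_lit 76) (nat_lit 6809655145) (nat_lit 278) (nat_lit 5) (nat_lit 289) (nat_lit 5) (nat_lit 279) (nat_lit 5) (nat_lit 479) (nat_lit 436) (nat_lit 225)))) (XT.nd (nat_lit 156) (nat_lit 684) (nat_lit 0) (XT.nd (nat_lit 78) (nat_lit 684) (nat_lit 0) (XT.lf (nat_lit 0) (nat_lit 3930723870) (nat_lit 836) (nat_lit 1487449793) (nat_lit 76) (nat_lit 14661093247) (nat_lit 278) (nat_lit 5) (nat_lit 289) (nat_lit 5) (nat_lit 279) (nat_lit 5) (nat_lit 480) (nat_lit 436) (nat_lit 224)) (XT.lf (nat_lit 0) (nat_lit 6443844367) (nat_lit 760) (nat_lit 11487664313) (nat_lit 76) (nat_lit 2381602692) (nat_lit 269) (nat_lit 5) (nat_lit 279) (nat_lit 5) (nat_lit 270) (nat_lit 5) (nat_lit 481) (nat_lit 436) (nat_lit 223))) (XT.nd (nat_lit 78) (nat_lit 684) (nat_lit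 0) (XT.lf (nat_lit 0) (nat_lit 9048127664) (nat_lit 760) (nat_lit 1228163795) (nat_lit 76) (nat_lit 10274526186) (nat_lit 269) (nat_lit 5) (nat_lit 279) (nat_lit 5) (nat_lit 270) (nat_lit 5) (nat_lit 482) (nat_lit 436) (nat_lit 222)) (XT.lf (nat_lit 0) (nat_lit 9353764531) (nat_lit 684) (nat_lit 2406532323) (nat_lit 760) (nat_lit 9031868054) (nat_lit 260) (nat_lit 5) (nat_lit 269) (nat_lit 5) (nat_lit 270) (nat_lit 5) (nat_lit 483) (nat_lit 436) (nat_lit 221))))))))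
noncomputable def xc217 : XT := (XT.nd (nat_lit 2184) (nat_lit 1292) (nat_lit 0) (XT.nd (nat_lit 1092) (nat_lit 3496) (nat_lit 0) (XT.nd (nat_lit 546) (nat_lit 1748) (nat_lit 0) (XT.nd (nat_lit 234) (nat_lit 1976) (nat_lit 0) (XT.nd (nat_lit 78) (nat_lit 608) (nat_lit 0) (XT.lf (nat_lit 0) (nat_lit 14566625959) (nat_lit 760) (nat_lit 916241620) (nat_lit 76) (nat_lit 5554676021) (nat_lit 260) (nat_lit 5) (nat_lit 270) (nat_lit 5) (nat_lit 261) (nat_lit 5) (nat_lit 484) (nat_lit 436) (nat_lit 220)) (XT.nd (nat_lit 78) (nat_lit 0) (nat_lit 0) (XT.lf (nat_lit 0) (nat_lit 9925202199) (nat_lit 608) (nat_lit 7579480799) (nat_lit 684) (nat_lit 3781637598) (nat_lit 252) (nat_lit 5) (nat_lit 260) (nat_lit 5) (nat_lit 261) (nat_lit 5) (nat_lit 485) (nat_lit 436) (nat_lit 219)) (XT.lf (nat_lit 0) (nat_lit 20506097460) (nat_lit 684) (nat_lit 552674459) (nat_lit 76) (nat_lit 481211994) (nat_lit 252) (nat_lit 5) (nat_lit 261)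 (nat_lit 5) (nat_lit 253) (nat_lit 5) (nat_lit 486) (nat_lit 436) (nat_lit 218)))) (XT.nd (nat_lit 156) (nat_lit 1216) (nat_lit 0) (XT.nd (nat_lit 78) (nat_lit 0) (nat_lit 0) (XT.lf (nat_lit 0) (nat_lit 1860468888) (nat_lit 760) (nat_lit 11253851806) (nat_lit 76) (nat_lit 8681875762) (nat_lit 242) (nat_lit 5) (nat_lit 252) (nat_lit 5) (nat_lit 243) (nat_lit 5) (nat_lit 487) (nat_lit 436) (nat_lit 217)) (XT.lf (nat_lit 0) (nat_lit 4798007700) (nat_lit 760) (nat_lit 202945623) (nat_lit 76) (nat_lit 17056462994) (nat_lit 242) (nat_lit 5) (nat_lit 252) (nat_lit 5) (nat_lit 243) (nat_lit 5) (nat_lit 488) (nat_lit 436) (nat_lit 216))) (XT.nd (nat_lit 78) (nat_lit 608) (nat_lit 0) (XT.lf (nat_lit 0) (nat_lit 7884307628) (nat_lit 684) (nat_lit 11133492141) (nat_lit 76) (nat_lit 3304263099) (nat_lit 234) (nat_lit 5) (nat_lit 243) (nat_lit 5) (nat_lit 235) (nat_lit 5) (nat_lit 489) (nat_lit 436) (nat_lit 215)) (XT.lf (nat_lit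 0) (nat_lit 182643186) (nat_lit 608) (nat_lit 10880899762) (nat_lit 684) (nat_lit 11527837662) (nat_lit 226) (nat_lit 5) (nat_lit 234) (nat_lit 5) (nat_lit 235) (nat_lit 5) (nat_lit 490) (nat_lit 436) (nat_lit 214))))) (XT.nd (nat_lit 234) (nat_lit 1216) (nat_lit 0) (XT.nd (nat_lit 78) (nat_lit 532) (nat_lit 0) (XT.lf (nat_lit 0) (nat_lit 11870736050) (nat_lit 608) (nat_lit 2505925559) (nat_lit 684) (nat_lit 8488019528) (nat_lit 226) (nat_lit 5) (nat_lit 234) (nat_lit 5) (nat_lit 235) (nat_lit 5) (nat_lit 491) (nat_lit 436) (nat_lit 213)) (XT.nd (nat_lit 78) (nat_lit 0) (nat_lit 0) (XT.lf (nat_lit 0) (nat_lit 612723444) (nat_lit 532) (nat_lit 17182158714) (nat_lit 608) (nat_lit 5347791080) (nat_lit 219) (nat_lit 5) (nat_lit 226) (nat_lit 5) (nat_lit 227) (nat_lit 5) (nat_lit 492) (nat_lit 436) (nat_lit 212)) (XT.lf (nat_lit 0) (nat_lit 12578507353) (nat_lit 532) (nat_lit 8788940309) (nat_lit 608) (nat_lit 2057060217)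 (nat_lit 219) (nat_lit 5) (nat_lit 226) (nat_lit 5) (nat_lit 227) (nat_lit 5) (nat_lit 493) (nat_lit 436) (nat_lit 211)))) (XT.nd (nat_lit 156) (nat_lit 532) (nat_lit 0) (XT.nd (nat_lit 78) (nat_lit 0) (nat_lit 0) (XT.lf (nat_lit 0) (nat_lit 1072067338) (nat_lit 608) (nat_lit 213108458) (nat_lit 684) (nat_lit 22426582223) (nat_lit 210) (nat_lit 5) (nat_lit 218) (nat_lit 5) (nat_lit 219) (nat_lit 5) (nat_lit 494) (nat_lit 436) (nat_lit 210)) (XT.lf (nat_lit 0) (nat_lit 4791228649) (nat_lit 684) (nat_lit 10702524364) (nat_lit 76) (nat_lit 8508240057) (nat_lit 210) (nat_lit 5) (nat_lit 219) (nat_lit 5) (nat_lit 211) (nat_lit 5) (nat_lit 495) (nat_lit 436) (nat_lit 209))) (XT.nd (nat_lit 78) (nat_lit 0) (nat_lit 0) (XT.lf (nat_lit 0) (nat_lit 1486341187) (nat_lit 532) (nat_lit 6888021119) (nat_lit 608) (nat_lit 15923533454) (nat_lit 203) (nat_lit 5) (nat_lit 210) (nat_lit 5) (nat_lit 211) (nat_lit 5) (nat_lit 496)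 (nat_lit 436) (nat_lit 208)) (XT.lf (nat_lit 0) (nat_lit 12109662581) (nat_lit 608) (nat_lit 10552135278) (nat_lit 76) (nat_lit 1936310657) (nat_lit 203) (nat_lit 5) (nat_lit 211) (nat_lit 5) (nat_lit 204) (nat_lit 5) (nat_lit 497) (nat_lit 436) (nat_lit 207)))))) (XT.nd (nat_lit 546) (nat_lit 1444) (nat_lit 0) (XT.nd (nat_lit 234) (nat_lit 1064) (nat_lit 0) (XT.nd (nat_lit 78) (nat_lit 456) (nat_lit 0) (XT.lf (nat_lit 0) (nat_lit 1927062370) (nat_lit 532) (nat_lit 14046752669) (nat_lit 608) (nat_lit 8929429613) (nat_lit 196) (nat_lit 5) (nat_lit 203) (nat_lit 5) (nat_lit 204) (nat_lit 5) (nat_lit 498) (nat_lit 436) (nat_lit 206)) (XT.nd (nat_lit 78) (nat_lit 456) (nat_lit 0) (XT.lf (nat_lit 0) (nat_lit 14793846516) (nat_lit 532) (nat_lit 5188278175) (nat_lit 608) (nat_lit 5231023348) (nat_lit 196) (nat_lit 5) (nat_lit 203) (nat_lit 5) (nat_lit 204) (nat_lit 5) (nat_lit 499) (nat_lit 436) (nat_lit 205)) (XT.lf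 (nat_lit 0) (nat_lit 2390075596) (nat_lit 456) (nat_lit 21717156498) (nat_lit 532) (nat_lit 1421286737) (nat_lit 190) (nat_lit 5) (nat_lit 196) (nat_lit 5) (nat_lit 197) (nat_lit 5) (nat_lit 500) (nat_lit 436) (nat_lit 204)))) (XT.nd (nat_lit 156) (nat_lit 456) (nat_lit 0) (XT.nd (nat_lit 78) (nat_lit 532) (nat_lit 0) (XT.lf (nat_lit 0) (nat_lit 2533212079) (nat_lit 532) (nat_lit 10307774615) (nat_lit 76) (nat_lit 13006874363) (nat_lit 189) (nat_lit 5) (nat_lit 196) (nat_lit 5) (nat_lit 190) (nat_lit 5) (nat_lit 501) (nat_lit 436) (nat_lit 203)) (XT.lf (nat_lit 0) (nat_lit 2801913081) (nat_lit 532) (nat_lit 3760292151) (nat_lit 608) (nat_lit 19610910150) (nat_lit 182) (nat_lit 5) (nat_lit 189) (nat_lit 5) (nat_lit 190) (nat_lit 5) (nat_lit 502) (nat_lit 436) (nat_lit 202))) (XT.nd (nat_lit 78) (nat_lit 456) (nat_lit 0) (XT.lf (nat_lit 0) (nat_lit 10773390033) (nat_lit 608) (nat_lit 10231118937) (nat_lit 76) (nat_lit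 5498335407) (nat_lit 182) (nat_lit 5) (nat_lit 190) (nat_lit 5) (nat_lit 183) (nat_lit 5) (nat_lit 503) (nat_lit 436) (nat_lit 201)) (XT.lf (nat_lit 0) (nat_lit 3183750464) (nat_lit 456) (nat_lit 11926955378) (nat_lit 532) (nat_lit 11727625749) (nat_lit 176) (nat_lit 5) (nat_lit 182) (nat_lit 5) (nat_lit 183) (nat_lit 5) (nat_lit 504) (nat_lit 436) (nat_lit 200))))) (XT.nd (nat_lit 234) (nat_lit 912) (nat_lit 0) (XT.nd (nat_lit 78) (nat_lit 532) (nat_lit 0) (XT.lf (nat_lit 0) (nat_lit 17000766300) (nat_lit 456) (nat_lit 2599032043) (nat_lit 532) (nat_lit 7579431348) (nat_lit 176) (nat_lit 5) (nat_lit 182) (nat_lit 5) (nat_lit 183) (nat_lit 5) (nat_lit 505) (nat_lit 436) (nat_lit 199)) (XT.nd (nat_lit 78) (nat_lit 76) (nat_lit 0) (XT.lf (nat_lit 0) (nat_lit 3564215606) (nat_lit 456) (nat_lit 20678935597) (nat_lit 532) (nat_lit 3282506695) (nat_lit 170) (nat_lit 5) (nat_lit 176) (nat_lit 5) (nat_lit 177) (nat_lit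 5) (nat_lit 506) (nat_lit 436) (nat_lit 198)) (XT.lf (nat_lit 0) (nat_lit 1168343818) (nat_lit 532) (nat_lit 10187561309) (nat_lit 76) (nat_lit 16521319931) (nat_lit 169) (nat_lit 5) (nat_lit 176) (nat_lit 5) (nat_lit 170) (nat_lit 5) (nat_lit 507) (nat_lit 436) (nat_lit 197)))) (XT.nd (nat_lit 156) (nat_lit 456) (nat_lit 0) (XT.nd (nat_lit 78) (nat_lit 0) (nat_lit 0) (XT.lf (nat_lit 0) (nat_lit 3886299018) (nat_lit 456) (nat_lit 1799754080) (nat_lit 532) (nat_lit 22548902241) (nat_lit 163) (nat_lit 5) (nat_lit 169) (nat_lit 5) (nat_lit 170) (nat_lit 5) (nat_lit 508) (nat_lit 436) (nat_lit 196)) (XT.lf (nat_lit 0) (nat_lit 10411084331) (nat_lit 532) (nat_lit 10275555102) (nat_lit 76) (nat_lit 7910863023) (nat_lit 163) (nat_lit 5) (nat_lit 170) (nat_lit 5) (nat_lit 164) (nat_lit 5) (nat_lit 509) (nat_lit 436) (nat_lit 195))) (XT.nd (nat_lit 78) (nat_lit 0) (nat_lit 0) (XT.lf (nat_lit 0) (nat_lit 4116409568) (nat_lit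 456) (nat_lit 11149470173) (nat_lit 532) (nat_lit 13700717056) (nat_lit 157) (nat_lit 5) (nat_lit 163) (nat_lit 5) (nat_lit 164) (nat_lit 5) (nat_lit 510) (nat_lit 436) (nat_lit 194)) (XT.lf (nat_lit 0) (nat_lit 18930864967) (nat_lit 456) (nat_lit 1352514874) (nat_lit 532) (nat_lit 9058382531) (nat_lit 157) (nat_lit 5) (nat_lit 163) (nat_lit 5) (nat_lit 164) (nat_lit 5) (nat_lit 511) (nat_lit 436) (nat_lit 193))))))) (XT.nd (nat_lit 54132) (nat_lit 0) (nat_lit 18316) (XT.nd (nat_lit 53586) (nat_lit 0) (nat_lit 19532) (XT.nd (nat_lit 234) (nat_lit 380) (nat_lit 0) (XT.nd (nat_lit 78) (nat_lit 532) (nat_lit 0) (XT.lf (nat_lit 0) (nat_lit 4313041062) (nat_lit 380) (nat_lit 21169002862) (nat_lit 456) (nat_lit 4240772548) (nat_lit 152) (nat_lit 5) (nat_lit 157) (nat_lit 5) (nat_lit 158) (nat_lit 5) (nat_lit 512) (nat_lit 436) (nat_lit 192)) (XT.nd (nat_lit 78) (nat_lit 456) (nat_lit 0) (XT.lf (nat_lit 0) (nat_lit 740366518)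 (nat_lit 456) (nat_lit 10655923232) (nat_lit 76) (nat_lit 18713595806) (nat_lit 151) (nat_lit 5) (nat_lit 157) (nat_lit 5) (nat_lit 152) (nat_lit 5) (nat_lit 513) (nat_lit 436) (nat_lit 191)) (XT.lf (nat_lit 0) (nat_lit 4418340229) (nat_lit 456) (nat_lit 1371531881) (nat_lit 532) (nat_lit 24713754135) (nat_lit 145) (nat_lit 5) (nat_lit 151) (nat_lit 5) (nat_lit 152) (nat_lit 5) (nat_lit 514) (nat_lit 436) (nat_lit 190)))) (XT.nd (nat_lit 156) (nat_lit 0) (nat_lit 0) (XT.nd (nat_lit 78) (nat_lit 380) (nat_lit 0) (XT.lf (nat_lit 0) (nat_lit 11066645467) (nat_lit 532) (nat_lit 11027791676) (nat_lit 76) (nat_lit 8808280429) (nat_lit 145) (nat_lit 5) (nat_lit 152) (nat_lit 5) (nat_lit 146) (nat_lit 5) (nat_lit 515) (nat_lit 436) (nat_lit 189)) (XT.lf (nat_lit 0) (nat_lit 4374678484) (nat_lit 380) (nat_lit 12108637620) (nat_lit 456) (nat_lit 14825788740) (nat_lit 140) (nat_lit 5) (nat_lit 145) (nat_lit 5) (nat_lit 146)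 (nat_lit 5) (nat_lit 516) (nat_lit 436) (nat_lit 188))) (XT.nd (nat_lit 53118) (nat_lit 0) (nat_lit 21128) (XT.lf (nat_lit 0) (nat_lit 20230246278) (nat_lit 380) (nat_lit 1848984128) (nat_lit 456) (nat_lit 9642972576) (nat_lit 140) (nat_lit 5) (nat_lit 145) (nat_lit 5) (nat_lit 146) (nat_lit 5) (nat_lit 517) (nat_lit 436) (nat_lit 187)) (XT.lf (nat_lit 0) (nat_lit 2881148992) (nat_lit 0) (nat_lit 2881148992) (nat_lit 1596) (nat_lit 690983228) (nat_lit 418) (nat_lit 5) (nat_lit 418) (nat_lit 3) (nat_lit 439) (nat_lit 3) (nat_lit 437) (nat_lit 437) (nat_lit 266))))) (XT.nd (nat_lit 234) (nat_lit 1596) (nat_lit 0) (XT.nd (nat_lit 78) (nat_lit 0) (nat_lit 0) (XT.lf (nat_lit 0) (nat_lit 11822803952) (nat_lit 0) (nat_lit 207364566) (nat_lit 1596) (nat_lit 997375475) (nat_lit 418) (nat_lit 5) (nat_lit 418) (nat_lit 3) (nat_lit 439) (nat_lit 3) (nat_lit 438) (nat_lit 437) (nat_lit 265)) (XT.nd (nat_lit 78) (nat_lit 0)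 (nat_lit 0) (XT.lf (nat_lit 76) (nat_lit 4876728235) (nat_lit 0) (nat_lit 7726023356) (nat_lit 1672) (nat_lit 547062897) (nat_lit 419) (nat_lit 5) (nat_lit 418) (nat_lit 5) (nat_lit 440) (nat_lit 5) (nat_lit 439) (nat_lit 437) (nat_lit 264)) (XT.lf (nat_lit 76) (nat_lit 11089435726) (nat_lit 0) (nat_lit 2096759611) (nat_lit 1672) (nat_lit 88354012) (nat_lit 419) (nat_lit 5) (nat_lit 418) (nat_lit 5) (nat_lit 440) (nat_lit 5) (nat_lit 440) (nat_lit 437) (nat_lit 263)))) (XT.nd (nat_lit 156) (nat_lit 0) (nat_lit 76) (XT.nd (nat_lit 78) (nat_lit 0) (nat_lit 0) (XT.lf (nat_lit 0) (nat_lit 414950029) (nat_lit 1672) (nat_lit 9355121461) (nat_lit 1748) (nat_lit 3630857024) (nat_lit 397) (nat_lit 5) (nat_lit 419) (nat_lit 5) (nat_lit 420) (nat_lit 5) (nat_lit 441) (nat_lit 437) (nat_lit 262)) (XT.lf (nat_lit 0) (nat_lit 946058052) (nat_lit 1672) (nat_lit 3118702730) (nat_lit 1748) (nat_lit 9464691106) (nat_lit 397) (nat_lit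 5) (nat_lit 419) (nat_lit 5) (nat_lit 420) (nat_lit 5) (nat_lit 442) (nat_lit 437) (nat_lit 261))) (XT.nd (nat_lit 78) (nat_lit 0) (nat_lit 0) (XT.lf (nat_lit 0) (nat_lit 1511108577) (nat_lit 1672) (nat_lit 10391864353) (nat_lit 1748) (nat_lit 1757112983) (nat_lit 398) (nat_lit 5) (nat_lit 420) (nat_lit 5) (nat_lit 421) (nat_lit 5) (nat_lit 443) (nat_lit 437) (nat_lit 260)) (XT.lf (nat_lit 0) (nat_lit 2126087762) (nat_lit 1672) (nat_lit 4000446109) (nat_lit 1748) (nat_lit 7666032661) (nat_lit 398) (nat_lit 5) (nat_lit 420) (nat_lit 5) (nat_lit 421) (nat_lit 5) (nat_lit 444) (nat_lit 437) (nat_lit 259)))))) (XT.nd (nat_lit 546) (nat_lit 1292) (nat_lit 0) (XT.nd (nat_lit 234) (nat_lit 0) (nat_lit 152) (XT.nd (nat_lit 78) (nat_lit 0) (nat_lit 76) (XT.lf (nat_lit 76) (nat_lit 2546677414) (nat_lit 0) (nat_lit 214049297) (nat_lit 1748) (nat_lit 11166829186) (nat_lit 399) (nat_lit 5) (nat_lit 398) (nat_lit 5) (nat_lit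 421) (nat_lit 5) (nat_lit 445) (nat_lit 437) (nat_lit 258)) (XT.nd (nat_lit 78) (nat_lit 0) (nat_lit 0) (XT.lf (nat_lit 0) (nat_lit 3463839833) (nat_lit 1672) (nat_lit 4829377903) (nat_lit 1748) (nat_lit 5770917899) (nat_lit 399) (nat_lit 5) (nat_lit 421) (nat_lit 5) (nat_lit 422) (nat_lit 5) (nat_lit 446) (nat_lit 437) (nat_lit 257)) (XT.lf (nat_lit 76) (nat_lit 1870684502) (nat_lit 0) (nat_lit 2315063332) (nat_lit 1748) (nat_lit 10017610571) (nat_lit 400) (nat_lit 5) (nat_lit 399) (nat_lit 5) (nat_lit 422) (nat_lit 5) (nat_lit 447) (nat_lit 437) (nat_lit 256)))) (XT.nd (nat_lit 156) (nat_lit 0) (nat_lit 76) (XT.nd (nat_lit 78) (nat_lit 0) (nat_lit 0) (XT.lf (nat_lit 0) (nat_lit 4970602680) (nat_lit 1672) (nat_lit 5605028480) (nat_lit 1748) (nat_lit 3768770270) (nat_lit 400) (nat_lit 5) (nat_lit 422) (nat_lit 5) (nat_lit 423) (nat_lit 5) (nat_lit 448) (nat_lit 437) (nat_lit 255)) (XT.lf (nat_lit 76) (nat_lit 1252630978)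 (nat_lit 0) (nat_lit 4533485058) (nat_lit 1748) (nat_lit 8701855905) (nat_lit 401) (nat_lit 5) (nat_lit 400) (nat_lit 5) (nat_lit 423) (nat_lit 5) (nat_lit 449) (nat_lit 437) (nat_lit 254))) (XT.nd (nat_lit 78) (nat_lit 0) (nat_lit 0) (XT.lf (nat_lit 0) (nat_lit 6658026607) (nat_lit 1672) (nat_lit 6326859193) (nat_lit 1748) (nat_lit 1648732065) (nat_lit 401) (nat_lit 5) (nat_lit 423) (nat_lit 5) (nat_lit 424) (nat_lit 5) (nat_lit 450) (nat_lit 437) (nat_lit 253)) (XT.lf (nat_lit 76) (nat_lit 693183959) (nat_lit 0) (nat_lit 6880524278) (nat_lit 1748) (nat_lit 7207947438) (nat_lit 402) (nat_lit 5) (nat_lit 401) (nat_lit 5) (nat_lit 424) (nat_lit 5) (nat_lit 451) (nat_lit 437) (nat_lit 252))))) (XT.nd (nat_lit 312) (nat_lit 1520) (nat_lit 0) (XT.nd (nat_lit 156) (nat_lit 0) (nat_lit 76) (XT.nd (nat_lit 78) (nat_lit 0) (nat_lit 76) (XT.lf (nat_lit 76) (nat_lit 7933751153) (nat_lit 0) (nat_lit 608342055) (nat_lit 1748)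 (nat_lit 6389878758) (nat_lit 402) (nat_lit 5) (nat_lit 401) (nat_lit 5) (nat_lit 424) (nat_lit 5) (nat_lit 452) (nat_lit 437) (nat_lit 251)) (XT.lf (nat_lit 76) (nat_lit 193071882) (nat_lit 0) (nat_lit 9367722197) (nat_lit 1748) (nat_lit 5523886948) (nat_lit 403) (nat_lit 5) (nat_lit 402) (nat_lit 5) (nat_lit 425) (nat_lit 5) (nat_lit 453) (nat_lit 437) (nat_lit 250))) (XT.nd (nat_lit 78) (nat_lit 0) (nat_lit 76) (XT.lf (nat_lit 76) (nat_lit 7613300883) (nat_lit 0) (nat_lit 3029756815) (nat_lit 1748) (nat_lit 4596528100) (nat_lit 403) (nat_lit 5) (nat_lit 402) (nat_lit 5) (nat_lit 425) (nat_lit 5) (nat_lit 454) (nat_lit 437) (nat_lit 249)) (XT.lf (nat_lit 0) (nat_lit 11761659273) (nat_lit 1672) (nat_lit 243686148) (nat_lit 1748) (nat_lit 3391954589) (nat_lit 403) (nat_lit 5) (nat_lit 425) (nat_lit 5) (nat_lit 426) (nat_lit 5) (nat_lit 455) (nat_lit 437) (nat_lit 248)))) (XT.nd (nat_lit 156) (nat_lit 1672) (nat_lit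 0) (XT.nd (nat_lit 78) (nat_lit 0) (nat_lit 76) (XT.lf (nat_lit 76) (nat_lit 7357375777) (nat_lit 0) (nat_lit 5605630475) (nat_lit 1748) (nat_lit 2593959882) (nat_lit 404) (nat_lit 5) (nat_lit 403) (nat_lit 5) (nat_lit 426) (nat_lit 5) (nat_lit 456) (nat_lit 437) (nat_lit 247)) (XT.lf (nat_lit 0) (nat_lit 14188674342) (nat_lit 1672) (nat_lit 617772323) (nat_lit 1748) (nat_lit 913378030) (nat_lit 404) (nat_lit 5) (nat_lit 426) (nat_lit 5) (nat_lit 427) (nat_lit 5) (nat_lit 457) (nat_lit 437) (nat_lit 246))) (XT.nd (nat_lit 78) (nat_lit 1748) (nat_lit 0) (XT.lf (nat_lit 76) (nat_lit 7166922760) (nat_lit 0) (nat_lit 8348394058) (nat_lit 1748) (nat_lit 369099288) (nat_lit 405) (nat_lit 5) (nat_lit 404) (nat_lit 5) (nat_lit 427) (nat_lit 5) (nat_lit 458) (nat_lit 437) (nat_lit 245)) (XT.lf (nat_lit 0) (nat_lit 802519599) (nat_lit 1748) (nat_lit 947551323) (nat_lit 1824) (nat_lit 14302186521) (nat_lit 381) (nat_lit 5)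 (nat_lit 404) (nat_lit 5) (nat_lit 405) (nat_lit 5) (nat_lit 459) (nat_lit 437) (nat_lit 244))))))))
noncomputable def xc218 : XT := (XT.nd (nat_lit 2184) (nat_lit 8132) (nat_lit 0) (XT.nd (nat_lit 1092) (nat_lit 5016) (nat_lit 0) (XT.nd (nat_lit 546) (nat_lit 2660) (nat_lit 0) (XT.nd (nat_lit 234) (nat_lit 2204) (nat_lit 0) (XT.nd (nat_lit 78) (nat_lit 0) (nat_lit 0) (XT.lf (nat_lit 0) (nat_lit 2064149219) (nat_lit 1748) (nat_lit 9192910928) (nat_lit 1824) (nat_lit 4964920867) (nat_lit 382) (nat_lit 5) (nat_lit 405) (nat_lit 5) (nat_lit 406) (nat_lit 5) (nat_lit 460) (nat_lit 437) (nat_lit 243)) (XT.nd (nat_lit 78) (nat_lit 0) (nat_lit 76) (XT.lf (nat_lit 0) (nat_lit 3362110381) (nat_lit 1748) (nat_lit 1234232577) (nat_lit 1824) (nat_lit 11798538648) (nat_lit 382) (nat_lit 5) (nat_lit 405) (nat_lit 5) (nat_lit 406) (nat_lit 5) (nat_lit 461) (nat_lit 437) (nat_lit 242)) (XT.lf (nat_lit 0) (nat_lit 4739099994) (nat_lit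 1748) (nat_lit 9615610689) (nat_lit 76) (nat_lit 2215472577) (nat_lit 383) (nat_lit 5) (nat_lit 406) (nat_lit 5) (nat_lit 384) (nat_lit 5) (nat_lit 462) (nat_lit 437) (nat_lit 241)))) (XT.nd (nat_lit 156) (nat_lit 836) (nat_lit 0) (XT.nd (nat_lit 78) (nat_lit 1444) (nat_lit 0) (XT.lf (nat_lit 0) (nat_lit 6175753156) (nat_lit 1748) (nat_lit 1461128594) (nat_lit 76) (nat_lit 9111471074) (nat_lit 383) (nat_lit 5) (nat_lit 406) (nat_lit 5) (nat_lit 384) (nat_lit 5) (nat_lit 463) (nat_lit 437) (nat_lit 240)) (XT.lf (nat_lit 0) (nat_lit 6941905861) (nat_lit 1444) (nat_lit 737782623) (nat_lit 1520) (nat_lit 9249630578) (nat_lit 364) (nat_lit 5) (nat_lit 383) (nat_lit 5) (nat_lit 384) (nat_lit 5) (nat_lit 464) (nat_lit 437) (nat_lit 239))) (XT.nd (nat_lit 78) (nat_lit 836) (nat_lit 0) (XT.lf (nat_lit 0) (nat_lit 9258046902) (nat_lit 1520) (nat_lit 1627549138) (nat_lit 76) (nat_lit 6227425878) (nat_lit 364) (nat_lit 5)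 (nat_lit 384) (nat_lit 5) (nat_lit 365) (nat_lit 5) (nat_lit 465) (nat_lit 437) (nat_lit 238)) (XT.lf (nat_lit 0) (nat_lit 6980606130) (nat_lit 836) (nat_lit 3931276319) (nat_lit 912) (nat_lit 6387642282) (nat_lit 353) (nat_lit 5) (nat_lit 364) (nat_lit 5) (nat_lit 365) (nat_lit 5) (nat_lit 466) (nat_lit 437) (nat_lit 237))))) (XT.nd (nat_lit 234) (nat_lit 1748) (nat_lit 0) (XT.nd (nat_lit 78) (nat_lit 912) (nat_lit 0) (XT.lf (nat_lit 0) (nat_lit 12624112604) (nat_lit 912) (nat_lit 1732823754) (nat_lit 76) (nat_lit 3132318903) (nat_lit 353) (nat_lit 5) (nat_lit 365) (nat_lit 5) (nat_lit 354) (nat_lit 5) (nat_lit 467) (nat_lit 437) (nat_lit 236)) (XT.nd (nat_lit 78) (nat_lit 0) (nat_lit 0) (XT.lf (nat_lit 0) (nat_lit 7086339829) (nat_lit 912) (nat_lit 7350206607) (nat_lit 988) (nat_lit 3244918724) (nat_lit 341) (nat_lit 5) (nat_lit 353) (nat_lit 5) (nat_lit 354) (nat_lit 5) (nat_lit 468) (nat_lit 437) (nat_lit 235))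 (XT.lf (nat_lit 0) (nat_lit 16099855286) (nat_lit 912) (nat_lit 191000206) (nat_lit 988) (nat_lit 1586555097) (nat_lit 341) (nat_lit 5) (nat_lit 353) (nat_lit 5) (nat_lit 354) (nat_lit 5) (nat_lit 469) (nat_lit 437) (nat_lit 234)))) (XT.nd (nat_lit 156) (nat_lit 836) (nat_lit 0) (XT.nd (nat_lit 78) (nat_lit 0) (nat_lit 0) (XT.lf (nat_lit 0) (nat_lit 191601173) (nat_lit 912) (nat_lit 10816918490) (nat_lit 76) (nat_lit 7066985302) (nat_lit 329) (nat_lit 5) (nat_lit 341) (nat_lit 5) (nat_lit 330) (nat_lit 5) (nat_lit 470) (nat_lit 437) (nat_lit 233)) (XT.lf (nat_lit 0) (nat_lit 1991525331) (nat_lit 912) (nat_lit 1795208666) (nat_lit 76) (nat_lit 14490472154) (nat_lit 329) (nat_lit 5) (nat_lit 341) (nat_lit 5) (nat_lit 330) (nat_lit 5) (nat_lit 471) (nat_lit 437) (nat_lit 232))) (XT.nd (nat_lit 78) (nat_lit 0) (nat_lit 0) (XT.lf (nat_lit 0) (nat_lit 3893977583) (nat_lit 912) (nat_lit 11005825273) (nat_lit 76) (nat_lit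 3581811482) (nat_lit 318) (nat_lit 5) (nat_lit 330) (nat_lit 5) (nat_lit 319) (nat_lit 5) (nat_lit 472) (nat_lit 437) (nat_lit 231)) (XT.lf (nat_lit 0) (nat_lit 5866032823) (nat_lit 912) (nat_lit 1764039897) (nat_lit 76) (nat_lit 11059410389) (nat_lit 318) (nat_lit 5) (nat_lit 330) (nat_lit 5) (nat_lit 319) (nat_lit 5) (nat_lit 473) (nat_lit 437) (nat_lit 230)))))) (XT.nd (nat_lit 546) (nat_lit 1976) (nat_lit 0) (XT.nd (nat_lit 234) (nat_lit 1520) (nat_lit 0) (XT.nd (nat_lit 78) (nat_lit 760) (nat_lit 0) (XT.lf (nat_lit 0) (nat_lit 7758895462) (nat_lit 760) (nat_lit 163470050) (nat_lit 836) (nat_lit 10978250445) (nat_lit 308) (nat_lit 5) (nat_lit 318) (nat_lit 5) (nat_lit 319) (nat_lit 5) (nat_lit 474) (nat_lit 437) (nat_lit 229)) (XT.nd (nat_lit 78) (nat_lit 760) (nat_lit 0) (XT.lf (nat_lit 0) (nat_lit 10074661549) (nat_lit 836) (nat_lit 1673520159) (nat_lit 76) (nat_lit 7366696384) (nat_lit 308) (nat_lit 5) (nat_lit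 319) (nat_lit 5) (nat_lit 309) (nat_lit 5) (nat_lit 475) (nat_lit 437) (nat_lit 228)) (XT.lf (nat_lit 0) (nat_lit 8083565025) (nat_lit 760) (nat_lit 4234646417) (nat_lit 836) (nat_lit 7014253165) (nat_lit 298) (nat_lit 5) (nat_lit 308) (nat_lit 5) (nat_lit 309) (nat_lit 5) (nat_lit 476) (nat_lit 437) (nat_lit 227)))) (XT.nd (nat_lit 156) (nat_lit 836) (nat_lit 0) (XT.nd (nat_lit 78) (nat_lit 684) (nat_lit 0) (XT.lf (nat_lit 0) (nat_lit 14634912338) (nat_lit 836) (nat_lit 1523526862) (nat_lit 76) (nat_lit 3395401286) (nat_lit 298) (nat_lit 5) (nat_lit 309) (nat_lit 5) (nat_lit 299) (nat_lit 5) (nat_lit 477) (nat_lit 437) (nat_lit 226)) (XT.lf (nat_lit 0) (nat_lit 8474069040) (nat_lit 684) (nat_lit 8601756261) (nat_lit 760) (nat_lit 2702264188) (nat_lit 289) (nat_lit 5) (nat_lit 298) (nat_lit 5) (nat_lit 299) (nat_lit 5) (nat_lit 478) (nat_lit 437) (nat_lit 225))) (XT.nd (nat_lit 78) (nat_lit 836) (nat_lit 0) (XT.lf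 (nat_lit 0) (nat_lit 18686924860) (nat_lit 684) (nat_lit 883737063) (nat_lit 760) (nat_lit 436062548) (nat_lit 289) (nat_lit 5) (nat_lit 298) (nat_lit 5) (nat_lit 299) (nat_lit 5) (nat_lit 479) (nat_lit 437) (nat_lit 224)) (XT.lf (nat_lit 0) (nat_lit 1949852715) (nat_lit 836) (nat_lit 11320281354) (nat_lit 76) (nat_lit 6967577802) (nat_lit 278) (nat_lit 5) (nat_lit 289) (nat_lit 5) (nat_lit 279) (nat_lit 5) (nat_lit 480) (nat_lit 437) (nat_lit 223))))) (XT.nd (nat_lit 234) (nat_lit 1292) (nat_lit 0) (XT.nd (nat_lit 78) (nat_lit 684) (nat_lit 0) (XT.lf (nat_lit 0) (nat_lit 4387429492) (nat_lit 836) (nat_lit 1110020570) (nat_lit 76) (nat_lit 14975618596) (nat_lit 278) (nat_lit 5) (nat_lit 289) (nat_lit 5) (nat_lit 279) (nat_lit 5) (nat_lit 481) (nat_lit 437) (nat_lit 222)) (XT.nd (nat_lit 78) (nat_lit 0) (nat_lit 0) (XT.lf (nat_lit 0) (nat_lit 6946227668) (nat_lit 760) (nat_lit 11305437230) (nat_lit 76) (nat_lit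 2460021156) (nat_lit 269) (nat_lit 5) (nat_lit 279) (nat_lit 5) (nat_lit 270) (nat_lit 5) (nat_lit 482) (nat_lit 437) (nat_lit 221)) (XT.lf (nat_lit 0) (nat_lit 9595272975) (nat_lit 760) (nat_lit 848824747) (nat_lit 76) (nat_lit 10510199464) (nat_lit 269) (nat_lit 5) (nat_lit 279) (nat_lit 5) (nat_lit 270) (nat_lit 5) (nat_lit 483) (nat_lit 437) (nat_lit 220)))) (XT.nd (nat_lit 156) (nat_lit 608) (nat_lit 0) (XT.nd (nat_lit 78) (nat_lit 0) (nat_lit 0) (XT.lf (nat_lit 0) (nat_lit 9942084893) (nat_lit 684) (nat_lit 2415025751) (nat_lit 760) (nat_lit 8843456429) (nat_lit 260) (nat_lit 5) (nat_lit 269) (nat_lit 5) (nat_lit 270) (nat_lit 5) (nat_lit 484) (nat_lit 437) (nat_lit 219)) (XT.lf (nat_lit 0) (nat_lit 15212728286) (nat_lit 760) (nat_lit 534146008) (nat_lit 76) (nat_lit 5704119903) (nat_lit 260) (nat_lit 5) (nat_lit 270) (nat_lit 5) (nat_lit 261) (nat_lit 5) (nat_lit 485) (nat_lit 437) (nat_lit 218))) (XT.nd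 (nat_lit 78) (nat_lit 0) (nat_lit 0) (XT.lf (nat_lit 0) (nat_lit 10521492343) (nat_lit 608) (nat_lit 7683680543) (nat_lit 684) (nat_lit 3499665335) (nat_lit 252) (nat_lit 5) (nat_lit 260) (nat_lit 5) (nat_lit 261) (nat_lit 5) (nat_lit 486) (nat_lit 437) (nat_lit 217)) (XT.lf (nat_lit 0) (nat_lit 21260046776) (nat_lit 684) (nat_lit 166975791) (nat_lit 76) (nat_lit 536687553) (nat_lit 252) (nat_lit 5) (nat_lit 261) (nat_lit 5) (nat_lit 253) (nat_lit 5) (nat_lit 487) (nat_lit 437) (nat_lit 216))))))) (XT.nd (nat_lit 1092) (nat_lit 3420) (nat_lit 0) (XT.nd (nat_lit 546) (nat_lit 2204) (nat_lit 0) (XT.nd (nat_lit 234) (nat_lit 1140) (nat_lit 0) (XT.nd (nat_lit 78) (nat_lit 608) (nat_lit 0) (XT.lf (nat_lit 0) (nat_lit 2239762784) (nat_lit 760) (nat_lit 11080051497) (nat_lit 76) (nat_lit 8905275137) (nat_lit 242) (nat_lit 5) (nat_lit 252) (nat_lit 5) (nat_lit 243) (nat_lit 5) (nat_lit 488) (nat_lit 437) (nat_lit 215))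 (XT.nd (nat_lit 78) (nat_lit 0) (nat_lit 0) (XT.lf (nat_lit 0) (nat_lit 186497634) (nat_lit 608) (nat_lit 5044058064) (nat_lit 684) (nat_lit 17261091623) (nat_lit 234) (nat_lit 5) (nat_lit 242) (nat_lit 5) (nat_lit 243) (nat_lit 5) (nat_lit 489) (nat_lit 437) (nat_lit 214)) (XT.lf (nat_lit 0) (nat_lit 8373688154) (nat_lit 684) (nat_lit 10961241231) (nat_lit 76) (nat_lit 3426758925) (nat_lit 234) (nat_lit 5) (nat_lit 243) (nat_lit 5) (nat_lit 235) (nat_lit 5) (nat_lit 490) (nat_lit 437) (nat_lit 213)))) (XT.nd (nat_lit 156) (nat_lit 532) (nat_lit 0) (XT.nd (nat_lit 78) (nat_lit 0) (nat_lit 0) (XT.lf (nat_lit 0) (nat_lit 578618639) (nat_lit 608) (nat_lit 11033932949) (nat_lit 684) (nat_lit 11423923519) (nat_lit 226) (nat_lit 5) (nat_lit 234) (nat_lit 5) (nat_lit 235) (nat_lit 5) (nat_lit 491) (nat_lit 437) (nat_lit 212)) (XT.lf (nat_lit 0) (nat_lit 12492780760) (nat_lit 608) (nat_lit 2492725631) (nat_lit 684) (nat_lit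 8329867276) (nat_lit 226) (nat_lit 5) (nat_lit 234) (nat_lit 5) (nat_lit 235) (nat_lit 5) (nat_lit 492) (nat_lit 437) (nat_lit 211))) (XT.nd (nat_lit 78) (nat_lit 0) (nat_lit 0) (XT.lf (nat_lit 0) (nat_lit 1013226706) (nat_lit 532) (nat_lit 17455488232) (nat_lit 608) (nat_lit 5130281629) (nat_lit 219) (nat_lit 5) (nat_lit 226) (nat_lit 5) (nat_lit 227) (nat_lit 5) (nat_lit 493) (nat_lit 437) (nat_lit 210)) (XT.lf (nat_lit 0) (nat_lit 13210713572) (nat_lit 532) (nat_lit 8895784158) (nat_lit 608) (nat_lit 1780098213) (nat_lit 219) (nat_lit 5) (nat_lit 226) (nat_lit 5) (nat_lit 227) (nat_lit 5) (nat_lit 494) (nat_lit 437) (nat_lit 209))))) (XT.nd (nat_lit 234) (nat_lit 988) (nat_lit 0) (XT.nd (nat_lit 78) (nat_lit 532) (nat_lit 0) (XT.lf (nat_lit 0) (nat_lit 1475948799) (nat_lit 608) (nat_lit 145189282) (nat_lit 684) (nat_lit 22558488377) (nat_lit 210) (nat_lit 5) (nat_lit 218) (nat_lit 5) (nat_lit 219) (nat_lit 5)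 (nat_lit 495) (nat_lit 437) (nat_lit 208)) (XT.nd (nat_lit 78) (nat_lit 532) (nat_lit 0) (XT.lf (nat_lit 0) (nat_lit 5191687945) (nat_lit 684) (nat_lit 10535851140) (nat_lit 76) (nat_lit 8748242774) (nat_lit 210) (nat_lit 5) (nat_lit 219) (nat_lit 5) (nat_lit 211) (nat_lit 5) (nat_lit 496) (nat_lit 437) (nat_lit 207)) (XT.lf (nat_lit 0) (nat_lit 1894286961) (nat_lit 532) (nat_lit 6948679733) (nat_lit 608) (nat_lit 15934709365) (nat_lit 203) (nat_lit 5) (nat_lit 210) (nat_lit 5) (nat_lit 211) (nat_lit 5) (nat_lit 497) (nat_lit 437) (nat_lit 206)))) (XT.nd (nat_lit 156) (nat_lit 456) (nat_lit 0) (XT.nd (nat_lit 78) (nat_lit 532) (nat_lit 0) (XT.lf (nat_lit 0) (nat_lit 12647559498) (nat_lit 608) (nat_lit 10386809385) (nat_lit 76) (nat_lit 2049635501) (nat_lit 203) (nat_lit 5) (nat_lit 211) (nat_lit 5) (nat_lit 204) (nat_lit 5) (nat_lit 498) (nat_lit 437) (nat_lit 205)) (XT.lf (nat_lit 0) (nat_lit 2339496107) (nat_lit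 532) (nat_lit 14246128345) (nat_lit 608) (nat_lit 8809689188) (nat_lit 196) (nat_lit 5) (nat_lit 203) (nat_lit 5) (nat_lit 204) (nat_lit 5) (nat_lit 499) (nat_lit 437) (nat_lit 204))) (XT.nd (nat_lit 78) (nat_lit 456) (nat_lit 0) (XT.lf (nat_lit 0) (nat_lit 15456284710) (nat_lit 532) (nat_lit 5212083565) (nat_lit 608) (nat_lit 5043164386) (nat_lit 196) (nat_lit 5) (nat_lit 203) (nat_lit 5) (nat_lit 204) (nat_lit 5) (nat_lit 500) (nat_lit 437) (nat_lit 203)) (XT.lf (nat_lit 0) (nat_lit 2807350711) (nat_lit 456) (nat_lit 22065915329) (nat_lit 532) (nat_lit 1160001934) (nat_lit 190) (nat_lit 5) (nat_lit 196) (nat_lit 5) (nat_lit 197) (nat_lit 5) (nat_lit 501) (nat_lit 437) (nat_lit 202)))))) (XT.nd (nat_lit 546) (nat_lit 1824) (nat_lit 0) (XT.nd (nat_lit 234) (nat_lit 988) (nat_lit 0) (XT.nd (nat_lit 78) (nat_lit 532) (nat_lit 0) (XT.lf (nat_lit 0) (nat_lit 2864181156) (nat_lit 532) (nat_lit 10147838104) (nat_lit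 76) (nat_lit 13347055045) (nat_lit 189) (nat_lit 5) (nat_lit 196) (nat_lit 5) (nat_lit 190) (nat_lit 5) (nat_lit 502) (nat_lit 437) (nat_lit 201)) (XT.nd (nat_lit 78) (nat_lit 0) (nat_lit 0) (XT.lf (nat_lit 0) (nat_lit 3221634847) (nat_lit 532) (nat_lit 3748984426) (nat_lit 608) (nat_lit 19720279844) (nat_lit 182) (nat_lit 5) (nat_lit 189) (nat_lit 5) (nat_lit 190) (nat_lit 5) (nat_lit 503) (nat_lit 437) (nat_lit 200)) (XT.lf (nat_lit 0) (nat_lit 11261143755) (nat_lit 608) (nat_lit 10074172322) (nat_lit 76) (nat_lit 5692006945) (nat_lit 182) (nat_lit 5) (nat_lit 190) (nat_lit 5) (nat_lit 183) (nat_lit 5) (nat_lit 504) (nat_lit 437) (nat_lit 199)))) (XT.nd (nat_lit 156) (nat_lit 532) (nat_lit 0) (XT.nd (nat_lit 78) (nat_lit 0) (nat_lit 0) (XT.lf (nat_lit 0) (nat_lit 3606615723) (nat_lit 456) (nat_lit 12075583319) (nat_lit 532) (nat_lit 11687383674) (nat_lit 176) (nat_lit 5) (nat_lit 182) (nat_lit 5) (nat_lit 183)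 (nat_lit 5) (nat_lit 505) (nat_lit 437) (nat_lit 198)) (XT.lf (nat_lit 0) (nat_lit 17692928930) (nat_lit 456) (nat_lit 2562864481) (nat_lit 532) (nat_lit 7461613514) (nat_lit 176) (nat_lit 5) (nat_lit 182) (nat_lit 5) (nat_lit 183) (nat_lit 5) (nat_lit 506) (nat_lit 437) (nat_lit 197))) (XT.nd (nat_lit 78) (nat_lit 76) (nat_lit 0) (XT.lf (nat_lit 0) (nat_lit 3990133698) (nat_lit 456) (nat_lit 20999566790) (nat_lit 532) (nat_lit 3081111963) (nat_lit 170) (nat_lit 5) (nat_lit 176) (nat_lit 5) (nat_lit 177) (nat_lit 5) (nat_lit 507) (nat_lit 437) (nat_lit 196)) (XT.lf (nat_lit 0) (nat_lit 1450085718) (nat_lit 532) (nat_lit 10040078660) (nat_lit 76) (nat_lit 16939317649) (nat_lit 169) (nat_lit 5) (nat_lit 176) (nat_lit 5) (nat_lit 170) (nat_lit 5) (nat_lit 508) (nat_lit 437) (nat_lit 195))))) (XT.nd (nat_lit 312) (nat_lit 912) (nat_lit 0) (XT.nd (nat_lit 156) (nat_lit 456) (nat_lit 0) (XT.nd (nat_lit 78) (nat_lit 0)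 (nat_lit 0) (XT.lf (nat_lit 0) (nat_lit 4312948123) (nat_lit 456) (nat_lit 1742400324) (nat_lit 532) (nat_lit 22739076836) (nat_lit 163) (nat_lit 5) (nat_lit 169) (nat_lit 5) (nat_lit 170) (nat_lit 5) (nat_lit 509) (nat_lit 437) (nat_lit 194)) (XT.lf (nat_lit 0) (nat_lit 10870463243) (nat_lit 532) (nat_lit 10134452277) (nat_lit 76) (nat_lit 8159398471) (nat_lit 163) (nat_lit 5) (nat_lit 170) (nat_lit 5) (nat_lit 164) (nat_lit 5) (nat_lit 510) (nat_lit 437) (nat_lit 193))) (XT.nd (nat_lit 78) (nat_lit 0) (nat_lit 0) (XT.lf (nat_lit 0) (nat_lit 4543071332) (nat_lit 456) (nat_lit 11276594219) (nat_lit 532) (nat_lit 13721180709) (nat_lit 157) (nat_lit 5) (nat_lit 163) (nat_lit 5) (nat_lit 164) (nat_lit 5) (nat_lit 511) (nat_lit 437) (nat_lit 192)) (XT.lf (nat_lit 0) (nat_lit 19647064200) (nat_lit 456) (nat_lit 1285579528) (nat_lit 532) (nat_lit 8990971076) (nat_lit 157) (nat_lit 5) (nat_lit 163) (nat_lit 5) (nat_lit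 164) (nat_lit 5) (nat_lit 512) (nat_lit 437) (nat_lit 191)))) (XT.nd (nat_lit 156) (nat_lit 456) (nat_lit 0) (XT.nd (nat_lit 78) (nat_lit 76) (nat_lit 0) (XT.lf (nat_lit 0) (nat_lit 4739006715) (nat_lit 380) (nat_lit 21494301821) (nat_lit 456) (nat_lit 4079023075) (nat_lit 152) (nat_lit 5) (nat_lit 157) (nat_lit 5) (nat_lit 158) (nat_lit 5) (nat_lit 513) (nat_lit 437) (nat_lit 190)) (XT.lf (nat_lit 0) (nat_lit 993733829) (nat_lit 456) (nat_lit 10532722913) (nat_lit 76) (nat_lit 19180750831) (nat_lit 151) (nat_lit 5) (nat_lit 157) (nat_lit 5) (nat_lit 152) (nat_lit 5) (nat_lit 514) (nat_lit 437) (nat_lit 189))) (XT.nd (nat_lit 78) (nat_lit 0) (nat_lit 0) (XT.lf (nat_lit 0) (nat_lit 4840813193) (nat_lit 456) (nat_lit 1300907931) (nat_lit 532) (nat_lit 24967154168) (nat_lit 145) (nat_lit 5) (nat_lit 151) (nat_lit 5) (nat_lit 152) (nat_lit 5) (nat_lit 515) (nat_lit 437) (nat_lit 188)) (XT.lf (nat_lit 0) (nat_lit 11520025640)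 (nat_lit 532) (nat_lit 10916687704) (nat_lit 76) (nat_lit 9079317198) (nat_lit 145) (nat_lit 5) (nat_lit 152) (nat_lit 5) (nat_lit 146) (nat_lit 5) (nat_lit 516) (nat_lit 437) (nat_lit 187))))))))
noncomputable def xc219 : XT := (XT.nd (nat_lit 2184) (nat_lit 11020) (nat_lit 0) (XT.nd (nat_lit 1092) (nat_lit 2432) (nat_lit 0) (XT.nd (nat_lit 546) (nat_lit 0) (nat_lit 152) (XT.nd (nat_lit 234) (nat_lit 0) (nat_lit 0) (XT.nd (nat_lit 78) (nat_lit 1672) (nat_lit 0) (XT.lf (nat_lit 0) (nat_lit 3132668137) (nat_lit 0) (nat_lit 3132668137) (nat_lit 1596) (nat_lit 308978993) (nat_lit 418) (nat_lit 5) (nat_lit 418) (nat_lit 3) (nat_lit 439) (nat_lit 3) (nat_lit 438) (nat_lit 438) (nat_lit 264)) (XT.nd (nat_lit 78) (nat_lit 1672) (nat_lit 0) (XT.lf (nat_lit 0) (nat_lit 12439448588) (nat_lit 0) (nat_lit 591700415) (nat_lit 1596) (nat_lit 241197690) (nat_lit 418) (nat_lit 5) (nat_lit 418) (nat_lit 3) (nat_lit 439) (nat_lit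 3) (nat_lit 439) (nat_lit 438) (nat_lit 263)) (XT.lf (nat_lit 0) (nat_lit 200392535) (nat_lit 1672) (nat_lit 8028639879) (nat_lit 1748) (nat_lit 5168309612) (nat_lit 396) (nat_lit 5) (nat_lit 418) (nat_lit 5) (nat_lit 419) (nat_lit 5) (nat_lit 440) (nat_lit 438) (nat_lit 262)))) (XT.nd (nat_lit 156) (nat_lit 0) (nat_lit 76) (XT.nd (nat_lit 78) (nat_lit 0) (nat_lit 76) (XT.lf (nat_lit 0) (nat_lit 647412200) (nat_lit 1672) (nat_lit 1829911980) (nat_lit 1748) (nat_lit 11047491378) (nat_lit 396) (nat_lit 5) (nat_lit 418) (nat_lit 5) (nat_lit 419) (nat_lit 5) (nat_lit 441) (nat_lit 438) (nat_lit 261)) (XT.lf (nat_lit 0) (nat_lit 1145596559) (nat_lit 1672) (nat_lit 9129401824) (nat_lit 1748) (nat_lit 3379002285) (nat_lit 397) (nat_lit 5) (nat_lit 419) (nat_lit 5) (nat_lit 420) (nat_lit 5) (nat_lit 442) (nat_lit 438) (nat_lit 260))) (XT.nd (nat_lit 78) (nat_lit 0) (nat_lit 76) (XT.lf (nat_lit 0) (nat_lit 1673163065) (nat_lit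 1672) (nat_lit 2776349268) (nat_lit 1748) (nat_lit 9335875242) (nat_lit 397) (nat_lit 5) (nat_lit 419) (nat_lit 5) (nat_lit 420) (nat_lit 5) (nat_lit 443) (nat_lit 438) (nat_lit 259)) (XT.lf (nat_lit 0) (nat_lit 2236324795) (nat_lit 1672) (nat_lit 10181304248) (nat_lit 1748) (nat_lit 1501278637) (nat_lit 398) (nat_lit 5) (nat_lit 420) (nat_lit 5) (nat_lit 421) (nat_lit 5) (nat_lit 444) (nat_lit 438) (nat_lit 258))))) (XT.nd (nat_lit 234) (nat_lit 0) (nat_lit 76) (XT.nd (nat_lit 78) (nat_lit 0) (nat_lit 0) (XT.lf (nat_lit 0) (nat_lit 2849976230) (nat_lit 1672) (nat_lit 3670261509) (nat_lit 1748) (nat_lit 7534082132) (nat_lit 398) (nat_lit 5) (nat_lit 420) (nat_lit 5) (nat_lit 421) (nat_lit 5) (nat_lit 445) (nat_lit 438) (nat_lit 257)) (XT.nd (nat_lit 78) (nat_lit 0) (nat_lit 76) (XT.lf (nat_lit 76) (nat_lit 3005105843) (nat_lit 0) (nat_lit 481487710) (nat_lit 1748) (nat_lit 10705638987) (nat_lit 399) (nat_lit 5)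 (nat_lit 398) (nat_lit 5) (nat_lit 421) (nat_lit 5) (nat_lit 446) (nat_lit 438) (nat_lit 256)) (XT.lf (nat_lit 0) (nat_lit 4188943801) (nat_lit 1672) (nat_lit 4511183159) (nat_lit 1748) (nat_lit 5631722462) (nat_lit 399) (nat_lit 5) (nat_lit 421) (nat_lit 5) (nat_lit 422) (nat_lit 5) (nat_lit 447) (nat_lit 438) (nat_lit 255)))) (XT.nd (nat_lit 156) (nat_lit 0) (nat_lit 76) (XT.nd (nat_lit 78) (nat_lit 0) (nat_lit 76) (XT.lf (nat_lit 76) (nat_lit 2320151663) (nat_lit 0) (nat_lit 2594954267) (nat_lit 1748) (nat_lit 9558963269) (nat_lit 400) (nat_lit 5) (nat_lit 399) (nat_lit 5) (nat_lit 422) (nat_lit 5) (nat_lit 448) (nat_lit 438) (nat_lit 254)) (XT.lf (nat_lit 0) (nat_lit 5701511323) (nat_lit 1672) (nat_lit 5298573693) (nat_lit 1748) (nat_lit 3618139696) (nat_lit 400) (nat_lit 5) (nat_lit 422) (nat_lit 5) (nat_lit 423) (nat_lit 5) (nat_lit 449) (nat_lit 438) (nat_lit 253))) (XT.nd (nat_lit 78) (nat_lit 0) (nat_lit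 76) (XT.lf (nat_lit 76) (nat_lit 1693485301) (nat_lit 0) (nat_lit 4830167019) (nat_lit 1748) (nat_lit 8241216491) (nat_lit 401) (nat_lit 5) (nat_lit 400) (nat_lit 5) (nat_lit 423) (nat_lit 5) (nat_lit 450) (nat_lit 438) (nat_lit 252)) (XT.lf (nat_lit 0) (nat_lit 7399497330) (nat_lit 1672) (nat_lit 6031825945) (nat_lit 1748) (nat_lit 1482382812) (nat_lit 401) (nat_lit 5) (nat_lit 423) (nat_lit 5) (nat_lit 424) (nat_lit 5) (nat_lit 451) (nat_lit 438) (nat_lit 251)))))) (XT.nd (nat_lit 546) (nat_lit 2812) (nat_lit 0) (XT.nd (nat_lit 234) (nat_lit 0) (nat_lit 76) (XT.nd (nat_lit 78) (nat_lit 0) (nat_lit 0) (XT.lf (nat_lit 76) (nat_lit 1125844579) (nat_lit 0) (nat_lit 7198439471) (nat_lit 1748) (nat_lit 6740612970) (nat_lit 402) (nat_lit 5) (nat_lit 401) (nat_lit 5) (nat_lit 424) (nat_lit 5) (nat_lit 452) (nat_lit 438) (nat_lit 250)) (XT.nd (nat_lit 78) (nat_lit 0) (nat_lit 76) (XT.lf (nat_lit 76) (nat_lit 8503011413)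 (nat_lit 0) (nat_lit 797278216) (nat_lit 1748) (nat_lit 5918172983) (nat_lit 402) (nat_lit 5) (nat_lit 401) (nat_lit 5) (nat_lit 424) (nat_lit 5) (nat_lit 453) (nat_lit 438) (nat_lit 249)) (XT.lf (nat_lit 76) (nat_lit 618026357) (nat_lit 0) (nat_lit 9711430220) (nat_lit 1748) (nat_lit 5044975313) (nat_lit 403) (nat_lit 5) (nat_lit 402) (nat_lit 5) (nat_lit 425) (nat_lit 5) (nat_lit 454) (nat_lit 438) (nat_lit 248)))) (XT.nd (nat_lit 156) (nat_lit 0) (nat_lit 76) (XT.nd (nat_lit 78) (nat_lit 0) (nat_lit 76) (XT.lf (nat_lit 76) (nat_lit 8178403212) (nat_lit 0) (nat_lit 3243639774) (nat_lit 1748) (nat_lit 4110625942) (nat_lit 403) (nat_lit 5) (nat_lit 402) (nat_lit 5) (nat_lit 425) (nat_lit 5) (nat_lit 455) (nat_lit 438) (nat_lit 247)) (XT.lf (nat_lit 76) (nat_lit 170877435) (nat_lit 0) (nat_lit 12381172401) (nat_lit 1748) (nat_lit 3141714493) (nat_lit 404) (nat_lit 5) (nat_lit 403) (nat_lit 5) (nat_lit 426) (nat_lit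 5) (nat_lit 456) (nat_lit 438) (nat_lit 246))) (XT.nd (nat_lit 78) (nat_lit 0) (nat_lit 76) (XT.lf (nat_lit 76) (nat_lit 7918974799) (nat_lit 0) (nat_lit 5849166716) (nat_lit 1748) (nat_lit 2088675329) (nat_lit 404) (nat_lit 5) (nat_lit 403) (nat_lit 5) (nat_lit 426) (nat_lit 5) (nat_lit 457) (nat_lit 438) (nat_lit 245)) (XT.lf (nat_lit 0) (nat_lit 15006782975) (nat_lit 1672) (nat_lit 211898936) (nat_lit 1748) (nat_lit 804488741) (nat_lit 404) (nat_lit 5) (nat_lit 426) (nat_lit 5) (nat_lit 427) (nat_lit 5) (nat_lit 458) (nat_lit 438) (nat_lit 244))))) (XT.nd (nat_lit 234) (nat_lit 1292) (nat_lit 0) (XT.nd (nat_lit 78) (nat_lit 0) (nat_lit 0) (XT.lf (nat_lit 0) (nat_lit 158851029) (nat_lit 1748) (nat_lit 8466523148) (nat_lit 1824) (nat_lit 7565821539) (nat_lit 381) (nat_lit 5) (nat_lit 404) (nat_lit 5) (nat_lit 405) (nat_lit 5) (nat_lit 459) (nat_lit 438) (nat_lit 243)) (XT.nd (nat_lit 78) (nat_lit 0) (nat_lit 76)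 (XT.lf (nat_lit 0) (nat_lit 1338564780) (nat_lit 1748) (nat_lit 551918330) (nat_lit 1824) (nat_lit 14472076737) (nat_lit 381) (nat_lit 5) (nat_lit 404) (nat_lit 5) (nat_lit 405) (nat_lit 5) (nat_lit 460) (nat_lit 438) (nat_lit 242)) (XT.lf (nat_lit 0) (nat_lit 2617251794) (nat_lit 1748) (nat_lit 8953673803) (nat_lit 1824) (nat_lit 4964922520) (nat_lit 382) (nat_lit 5) (nat_lit 405) (nat_lit 5) (nat_lit 406) (nat_lit 5) (nat_lit 461) (nat_lit 438) (nat_lit 241)))) (XT.nd (nat_lit 156) (nat_lit 1368) (nat_lit 0) (XT.nd (nat_lit 78) (nat_lit 0) (nat_lit 76) (XT.lf (nat_lit 0) (nat_lit 3931136501) (nat_lit 1748) (nat_lit 844117872) (nat_lit 1824) (nat_lit 11937159652) (nat_lit 382) (nat_lit 5) (nat_lit 405) (nat_lit 5) (nat_lit 406) (nat_lit 5) (nat_lit 462) (nat_lit 438) (nat_lit 240)) (XT.lf (nat_lit 0) (nat_lit 5327966471) (nat_lit 1748) (nat_lit 9385101037) (nat_lit 76) (nat_lit 2178314655) (nat_lit 383) (nat_lit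 5) (nat_lit 406) (nat_lit 5) (nat_lit 384) (nat_lit 5) (nat_lit 463) (nat_lit 438) (nat_lit 239))) (XT.nd (nat_lit 78) (nat_lit 1444) (nat_lit 0) (XT.lf (nat_lit 0) (nat_lit 6783664765) (nat_lit 1748) (nat_lit 1075819926) (nat_lit 76) (nat_lit 9213830520) (nat_lit 383) (nat_lit 5) (nat_lit 406) (nat_lit 5) (nat_lit 384) (nat_lit 5) (nat_lit 464) (nat_lit 438) (nat_lit 238)) (XT.lf (nat_lit 0) (nat_lit 7492548040) (nat_lit 1444) (nat_lit 818306493) (nat_lit 1520) (nat_lit 8947188936) (nat_lit 364) (nat_lit 5) (nat_lit 383) (nat_lit 5) (nat_lit 384) (nat_lit 5) (nat_lit 465) (nat_lit 438) (nat_lit 237))))))) (XT.nd (nat_lit 1092) (nat_lit 5320) (nat_lit 0) (XT.nd (nat_lit 546) (nat_lit 3040) (nat_lit 0) (XT.nd (nat_lit 234) (nat_lit 1824) (nat_lit 0) (XT.nd (nat_lit 78) (nat_lit 836) (nat_lit 0) (XT.lf (nat_lit 0) (nat_lit 9910997319) (nat_lit 1520) (nat_lit 1246283408) (nat_lit 76) (nat_lit 6288341400) (nat_lit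 364) (nat_lit 5) (nat_lit 384) (nat_lit 5) (nat_lit 365) (nat_lit 5) (nat_lit 466) (nat_lit 438) (nat_lit 236)) (XT.nd (nat_lit 78) (nat_lit 0) (nat_lit 0) (XT.lf (nat_lit 0) (nat_lit 7531312486) (nat_lit 836) (nat_lit 4060093844) (nat_lit 912) (nat_lit 6044584700) (nat_lit 353) (nat_lit 5) (nat_lit 364) (nat_lit 5) (nat_lit 365) (nat_lit 5) (nat_lit 467) (nat_lit 438) (nat_lit 235)) (XT.lf (nat_lit 0) (nat_lit 13328516770) (nat_lit 912) (nat_lit 1354789731) (nat_lit 76) (nat_lit 3146402809) (nat_lit 353) (nat_lit 5) (nat_lit 365) (nat_lit 5) (nat_lit 354) (nat_lit 5) (nat_lit 468) (nat_lit 438) (nat_lit 234)))) (XT.nd (nat_lit 156) (nat_lit 912) (nat_lit 0) (XT.nd (nat_lit 78) (nat_lit 0) (nat_lit 0) (XT.lf (nat_lit 0) (nat_lit 7638042055) (nat_lit 912) (nat_lit 7532957842) (nat_lit 988) (nat_lit 2854893235) (nat_lit 341) (nat_lit 5) (nat_lit 353) (nat_lit 5) (nat_lit 354) (nat_lit 5) (nat_lit 469) (nat_lit 438)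 (nat_lit 233)) (XT.lf (nat_lit 0) (nat_lit 16823789087) (nat_lit 912) (nat_lit 229866390) (nat_lit 988) (nat_lit 1172282411) (nat_lit 341) (nat_lit 5) (nat_lit 353) (nat_lit 5) (nat_lit 354) (nat_lit 5) (nat_lit 470) (nat_lit 438) (nat_lit 232))) (XT.nd (nat_lit 78) (nat_lit 0) (nat_lit 0) (XT.lf (nat_lit 0) (nat_lit 629402214) (nat_lit 912) (nat_lit 10618739321) (nat_lit 76) (nat_lit 7179923816) (nat_lit 329) (nat_lit 5) (nat_lit 341) (nat_lit 5) (nat_lit 330) (nat_lit 5) (nat_lit 471) (nat_lit 438) (nat_lit 231)) (XT.lf (nat_lit 0) (nat_lit 2456815660) (nat_lit 912) (nat_lit 1424723095) (nat_lit 76) (nat_lit 14752437291) (nat_lit 329) (nat_lit 5) (nat_lit 341) (nat_lit 5) (nat_lit 330) (nat_lit 5) (nat_lit 472) (nat_lit 438) (nat_lit 230))))) (XT.nd (nat_lit 234) (nat_lit 1444) (nat_lit 0) (XT.nd (nat_lit 78) (nat_lit 760) (nat_lit 0) (XT.lf (nat_lit 0) (nat_lit 4391491771) (nat_lit 912) (nat_lit 10813467012)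 (nat_lit 76) (nat_lit 3637635313) (nat_lit 318) (nat_lit 5) (nat_lit 330) (nat_lit 5) (nat_lit 319) (nat_lit 5) (nat_lit 473) (nat_lit 438) (nat_lit 229)) (XT.nd (nat_lit 78) (nat_lit 760) (nat_lit 0) (XT.lf (nat_lit 0) (nat_lit 6394759986) (nat_lit 912) (nat_lit 1394933669) (nat_lit 76) (nat_lit 11265096245) (nat_lit 318) (nat_lit 5) (nat_lit 330) (nat_lit 5) (nat_lit 319) (nat_lit 5) (nat_lit 474) (nat_lit 438) (nat_lit 228)) (XT.lf (nat_lit 0) (nat_lit 8315799956) (nat_lit 760) (nat_lit 170960854) (nat_lit 836) (nat_lit 10783498760) (nat_lit 308) (nat_lit 5) (nat_lit 318) (nat_lit 5) (nat_lit 319) (nat_lit 5) (nat_lit 475) (nat_lit 438) (nat_lit 227)))) (XT.nd (nat_lit 156) (nat_lit 684) (nat_lit 0) (XT.nd (nat_lit 78) (nat_lit 760) (nat_lit 0) (XT.lf (nat_lit 0) (nat_lit 10674116132) (nat_lit 836) (nat_lit 1304909485) (nat_lit 76) (nat_lit 7509945960) (nat_lit 308) (nat_lit 5) (nat_lit 319) (nat_lit 5) (nat_lit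 309) (nat_lit 5) (nat_lit 476) (nat_lit 438) (nat_lit 226)) (XT.lf (nat_lit 0) (nat_lit 8644672133) (nat_lit 760) (nat_lit 4312655129) (nat_lit 836) (nat_lit 6753691558) (nat_lit 298) (nat_lit 5) (nat_lit 308) (nat_lit 5) (nat_lit 309) (nat_lit 5) (nat_lit 477) (nat_lit 438) (nat_lit 225))) (XT.nd (nat_lit 78) (nat_lit 684) (nat_lit 0) (XT.lf (nat_lit 0) (nat_lit 15312703711) (nat_lit 836) (nat_lit 1154499860) (nat_lit 76) (nat_lit 3469776520) (nat_lit 298) (nat_lit 5) (nat_lit 309) (nat_lit 5) (nat_lit 299) (nat_lit 5) (nat_lit 478) (nat_lit 438) (nat_lit 224)) (XT.lf (nat_lit 0) (nat_lit 9040419686) (nat_lit 684) (nat_lit 8757041140) (nat_lit 760) (nat_lit 2368357345) (nat_lit 289) (nat_lit 5) (nat_lit 298) (nat_lit 5) (nat_lit 299) (nat_lit 5) (nat_lit 479) (nat_lit 438) (nat_lit 223)))))) (XT.nd (nat_lit 546) (nat_lit 3116) (nat_lit 0) (XT.nd (nat_lit 234) (nat_lit 1368) (nat_lit 0) (XT.nd (nat_lit 78) (nat_lit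 836) (nat_lit 0) (XT.lf (nat_lit 0) (nat_lit 19449750872) (nat_lit 684) (nat_lit 884989994) (nat_lit 760) (nat_lit 64438577) (nat_lit 289) (nat_lit 5) (nat_lit 298) (nat_lit 5) (nat_lit 299) (nat_lit 5) (nat_lit 480) (nat_lit 438) (nat_lit 222)) (XT.nd (nat_lit 78) (nat_lit 0) (nat_lit 0) (XT.lf (nat_lit 0) (nat_lit 2359527362) (nat_lit 836) (nat_lit 11147492648) (nat_lit 76) (nat_lit 7127815127) (nat_lit 278) (nat_lit 5) (nat_lit 289) (nat_lit 5) (nat_lit 279) (nat_lit 5) (nat_lit 481) (nat_lit 438) (nat_lit 221)) (XT.lf (nat_lit 0) (nat_lit 4838587486) (nat_lit 836) (nat_lit 740853988) (nat_lit 76) (nat_lit 15295607213) (nat_lit 278) (nat_lit 5) (nat_lit 289) (nat_lit 5) (nat_lit 279) (nat_lit 5) (nat_lit 482) (nat_lit 438) (nat_lit 220)))) (XT.nd (nat_lit 156) (nat_lit 684) (nat_lit 0) (XT.nd (nat_lit 78) (nat_lit 0) (nat_lit 0) (XT.lf (nat_lit 0) (nat_lit 7444154925) (nat_lit 760) (nat_lit 11135563304) (nat_lit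 76) (nat_lit 2538812514) (nat_lit 269) (nat_lit 5) (nat_lit 279) (nat_lit 5) (nat_lit 270) (nat_lit 5) (nat_lit 483) (nat_lit 438) (nat_lit 219)) (XT.lf (nat_lit 0) (nat_lit 10139141870) (nat_lit 760) (nat_lit 477582938) (nat_lit 76) (nat_lit 10749414175) (nat_lit 269) (nat_lit 5) (nat_lit 279) (nat_lit 5) (nat_lit 270) (nat_lit 5) (nat_lit 484) (nat_lit 438) (nat_lit 218))) (XT.nd (nat_lit 78) (nat_lit 0) (nat_lit 0) (XT.lf (nat_lit 0) (nat_lit 10526590827) (nat_lit 684) (nat_lit 2425228209) (nat_lit 760) (nat_lit 8665607193) (nat_lit 260) (nat_lit 5) (nat_lit 269) (nat_lit 5) (nat_lit 270) (nat_lit 5) (nat_lit 485) (nat_lit 438) (nat_lit 217)) (XT.lf (nat_lit 0) (nat_lit 15857976515) (nat_lit 760) (nat_lit 159957297) (nat_lit 76) (nat_lit 5855063472) (nat_lit 260) (nat_lit 5) (nat_lit 270) (nat_lit 5) (nat_lit 261) (nat_lit 5) (nat_lit 486) (nat_lit 438) (nat_lit 216))))) (XT.nd (nat_lit 312) (nat_lit 1140) (nat_lit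 0) (XT.nd (nat_lit 156) (nat_lit 684) (nat_lit 0) (XT.nd (nat_lit 78) (nat_lit 684) (nat_lit 0) (XT.lf (nat_lit 0) (nat_lit 11114261771) (nat_lit 608) (nat_lit 7791804489) (nat_lit 684) (nat_lit 3225939866) (nat_lit 252) (nat_lit 5) (nat_lit 260) (nat_lit 5) (nat_lit 261) (nat_lit 5) (nat_lit 487) (nat_lit 438) (nat_lit 215)) (XT.lf (nat_lit 0) (nat_lit 213834963) (nat_lit 684) (nat_lit 21803277238) (nat_lit 760) (nat_lit 379045555) (nat_lit 243) (nat_lit 5) (nat_lit 252) (nat_lit 5) (nat_lit 253) (nat_lit 5) (nat_lit 488) (nat_lit 438) (nat_lit 214))) (XT.nd (nat_lit 78) (nat_lit 608) (nat_lit 0) (XT.lf (nat_lit 0) (nat_lit 2613358999) (nat_lit 760) (nat_lit 10918264075) (nat_lit 76) (nat_lit 9131210187) (nat_lit 242) (nat_lit 5) (nat_lit 252) (nat_lit 5) (nat_lit 243) (nat_lit 5) (nat_lit 489) (nat_lit 438) (nat_lit 213)) (XT.lf (nat_lit 0) (nat_lit 571093746) (nat_lit 608) (nat_lit 5088899783) (nat_lit 684)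 (nat_lit 17274811844) (nat_lit 234) (nat_lit 5) (nat_lit 242) (nat_lit 5) (nat_lit 243) (nat_lit 5) (nat_lit 490) (nat_lit 438) (nat_lit 212)))) (XT.nd (nat_lit 156) (nat_lit 532) (nat_lit 0) (XT.nd (nat_lit 78) (nat_lit 608) (nat_lit 0) (XT.lf (nat_lit 0) (nat_lit 8859976194) (nat_lit 684) (nat_lit 10800880558) (nat_lit 76) (nat_lit 3549514177) (nat_lit 234) (nat_lit 5) (nat_lit 243) (nat_lit 5) (nat_lit 235) (nat_lit 5) (nat_lit 491) (nat_lit 438) (nat_lit 211)) (XT.lf (nat_lit 0) (nat_lit 967279237) (nat_lit 608) (nat_lit 11192534706) (nat_lit 684) (nat_lit 11330919006) (nat_lit 226) (nat_lit 5) (nat_lit 234) (nat_lit 5) (nat_lit 235) (nat_lit 5) (nat_lit 492) (nat_lit 438) (nat_lit 210))) (XT.nd (nat_lit 78) (nat_lit 532) (nat_lit 0) (XT.lf (nat_lit 0) (nat_lit 13112330714) (nat_lit 608) (nat_lit 2481720436) (nat_lit 684) (nat_lit 8181285225) (nat_lit 226) (nat_lit 5) (nat_lit 234) (nat_lit 5) (nat_lit 235)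 (nat_lit 5) (nat_lit 493) (nat_lit 438) (nat_lit 209)) (XT.lf (nat_lit 0) (nat_lit 1406663860) (nat_lit 532) (nat_lit 17737014704) (nat_lit 608) (nat_lit 4921021370) (nat_lit 219) (nat_lit 5) (nat_lit 226) (nat_lit 5) (nat_lit 227) (nat_lit 5) (nat_lit 494) (nat_lit 438) (nat_lit 208))))))))
noncomputable def xc220 : XT := (XT.nd (nat_lit 55458) (nat_lit 0) (nat_lit 13984) (XT.nd (nat_lit 1092) (nat_lit 1900) (nat_lit 0) (XT.nd (nat_lit 546) (nat_lit 1976) (nat_lit 0) (XT.nd (nat_lit 234) (nat_lit 1064) (nat_lit 0) (XT.nd (nat_lit 78) (nat_lit 684) (nat_lit 0) (XT.lf (nat_lit 0) (nat_lit 13840783353) (nat_lit 532) (nat_lit 9007441711) (nat_lit 608) (nat_lit 1509949303) (nat_lit 219) (nat_lit 5) (nat_lit 226) (nat_lit 5) (nat_lit 227) (nat_lit 5) (nat_lit 495) (nat_lit 438) (nat_lit 207)) (XT.nd (nat_lit 78) (nat_lit 0) (nat_lit 0) (XT.lf (nat_lit 0) (nat_lit 1873057273) (nat_lit 608) (nat_lit 78714613) (nat_lit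 684) (nat_lit 22705327608) (nat_lit 210) (nat_lit 5) (nat_lit 218) (nat_lit 5) (nat_lit 219) (nat_lit 5) (nat_lit 496) (nat_lit 438) (nat_lit 206)) (XT.lf (nat_lit 0) (nat_lit 5588327090) (nat_lit 684) (nat_lit 10380628417) (nat_lit 76) (nat_lit 8990333653) (nat_lit 210) (nat_lit 5) (nat_lit 219) (nat_lit 5) (nat_lit 211) (nat_lit 5) (nat_lit 497) (nat_lit 438) (nat_lit 205)))) (XT.nd (nat_lit 156) (nat_lit 532) (nat_lit 0) (XT.nd (nat_lit 78) (nat_lit 0) (nat_lit 0) (XT.lf (nat_lit 0) (nat_lit 2295704948) (nat_lit 532) (nat_lit 7013545477) (nat_lit 608) (nat_lit 15958041425) (nat_lit 203) (nat_lit 5) (nat_lit 210) (nat_lit 5) (nat_lit 211) (nat_lit 5) (nat_lit 498) (nat_lit 438) (nat_lit 204)) (XT.lf (nat_lit 0) (nat_lit 13184731819) (nat_lit 608) (nat_lit 10232791827) (nat_lit 76) (nat_lit 2162330087) (nat_lit 203) (nat_lit 5) (nat_lit 211) (nat_lit 5) (nat_lit 204) (nat_lit 5) (nat_lit 499) (nat_lit 438) (nat_lit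 203))) (XT.nd (nat_lit 78) (nat_lit 0) (nat_lit 0) (XT.lf (nat_lit 0) (nat_lit 2745659816) (nat_lit 532) (nat_lit 14452658585) (nat_lit 608) (nat_lit 8699138434) (nat_lit 196) (nat_lit 5) (nat_lit 203) (nat_lit 5) (nat_lit 204) (nat_lit 5) (nat_lit 500) (nat_lit 438) (nat_lit 202)) (XT.lf (nat_lit 0) (nat_lit 16117737647) (nat_lit 532) (nat_lit 5239470014) (nat_lit 608) (nat_lit 4862905578) (nat_lit 196) (nat_lit 5) (nat_lit 203) (nat_lit 5) (nat_lit 204) (nat_lit 5) (nat_lit 501) (nat_lit 438) (nat_lit 201))))) (XT.nd (nat_lit 234) (nat_lit 912) (nat_lit 0) (XT.nd (nat_lit 78) (nat_lit 608) (nat_lit 0) (XT.lf (nat_lit 0) (nat_lit 3218624218) (nat_lit 456) (nat_lit 22424972679) (nat_lit 532) (nat_lit 904741249) (nat_lit 190) (nat_lit 5) (nat_lit 196) (nat_lit 5) (nat_lit 197) (nat_lit 5) (nat_lit 502) (nat_lit 438) (nat_lit 200)) (XT.nd (nat_lit 78) (nat_lit 532) (nat_lit 0) (XT.lf (nat_lit 0) (nat_lit 3190885035)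 (nat_lit 532) (nat_lit 9998918661) (nat_lit 76) (nat_lit 13690931165) (nat_lit 189) (nat_lit 5) (nat_lit 196) (nat_lit 5) (nat_lit 190) (nat_lit 5) (nat_lit 503) (nat_lit 438) (nat_lit 199)) (XT.lf (nat_lit 0) (nat_lit 3635628774) (nat_lit 532) (nat_lit 3740809974) (nat_lit 608) (nat_lit 19842820284) (nat_lit 182) (nat_lit 5) (nat_lit 189) (nat_lit 5) (nat_lit 190) (nat_lit 5) (nat_lit 504) (nat_lit 438) (nat_lit 198)))) (XT.nd (nat_lit 156) (nat_lit 456) (nat_lit 0) (XT.nd (nat_lit 78) (nat_lit 456) (nat_lit 0) (XT.lf (nat_lit 0) (nat_lit 11748079358) (nat_lit 608) (nat_lit 9928126940) (nat_lit 76) (nat_lit 5886301554) (nat_lit 182) (nat_lit 5) (nat_lit 190) (nat_lit 5) (nat_lit 183) (nat_lit 5) (nat_lit 505) (nat_lit 438) (nat_lit 197)) (XT.lf (nat_lit 0) (nat_lit 4023990493) (nat_lit 456) (nat_lit 12230675178) (nat_lit 532) (nat_lit 11657007366) (nat_lit 176) (nat_lit 5) (nat_lit 182) (nat_lit 5) (nat_lit 183)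 (nat_lit 5) (nat_lit 506) (nat_lit 438) (nat_lit 196))) (XT.nd (nat_lit 78) (nat_lit 456) (nat_lit 0) (XT.lf (nat_lit 0) (nat_lit 18385260504) (nat_lit 456) (nat_lit 2529396469) (nat_lit 532) (nat_lit 7351900705) (nat_lit 176) (nat_lit 5) (nat_lit 182) (nat_lit 5) (nat_lit 183) (nat_lit 5) (nat_lit 507) (nat_lit 438) (nat_lit 195)) (XT.lf (nat_lit 0) (nat_lit 4410799289) (nat_lit 456) (nat_lit 21330219872) (nat_lit 532) (nat_lit 2886059014) (nat_lit 170) (nat_lit 5) (nat_lit 176) (nat_lit 5) (nat_lit 177) (nat_lit 5) (nat_lit 508) (nat_lit 438) (nat_lit 194)))))) (XT.nd (nat_lit 546) (nat_lit 456) (nat_lit 0) (XT.nd (nat_lit 234) (nat_lit 912) (nat_lit 0) (XT.nd (nat_lit 78) (nat_lit 456) (nat_lit 0) (XT.lf (nat_lit 0) (nat_lit 1727429439) (nat_lit 532) (nat_lit 9903285198) (nat_lit 76) (nat_lit 17362274821) (nat_lit 169) (nat_lit 5) (nat_lit 176) (nat_lit 5) (nat_lit 170) (nat_lit 5) (nat_lit 509) (nat_lit 438)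 (nat_lit 193)) (XT.nd (nat_lit 78) (nat_lit 0) (nat_lit 0) (XT.lf (nat_lit 0) (nat_lit 4734581101) (nat_lit 456) (nat_lit 1687524341) (nat_lit 532) (nat_lit 22943182238) (nat_lit 163) (nat_lit 5) (nat_lit 169) (nat_lit 5) (nat_lit 170) (nat_lit 5) (nat_lit 510) (nat_lit 438) (nat_lit 192)) (XT.lf (nat_lit 0) (nat_lit 11329276992) (nat_lit 532) (nat_lit 10003986836) (nat_lit 76) (nat_lit 8409397463) (nat_lit 163) (nat_lit 5) (nat_lit 170) (nat_lit 5) (nat_lit 164) (nat_lit 5) (nat_lit 511) (nat_lit 438) (nat_lit 191)))) (XT.nd (nat_lit 156) (nat_lit 456) (nat_lit 0) (XT.nd (nat_lit 78) (nat_lit 0) (nat_lit 0) (XT.lf (nat_lit 0) (nat_lit 4964895439) (nat_lit 456) (nat_lit 11409983315) (nat_lit 532) (nat_lit 13751899318) (nat_lit 157) (nat_lit 5) (nat_lit 163) (nat_lit 5) (nat_lit 164) (nat_lit 5) (nat_lit 512) (nat_lit 438) (nat_lit 190)) (XT.lf (nat_lit 0) (nat_lit 20364478700) (nat_lit 456) (nat_lit 1220955051)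 (nat_lit 532) (nat_lit 8931864021) (nat_lit 157) (nat_lit 5) (nat_lit 163) (nat_lit 5) (nat_lit 164) (nat_lit 5) (nat_lit 513) (nat_lit 438) (nat_lit 189))) (XT.nd (nat_lit 78) (nat_lit 76) (nat_lit 0) (XT.lf (nat_lit 0) (nat_lit 5160300529) (nat_lit 380) (nat_lit 21829915368) (nat_lit 456) (nat_lit 3923613029) (nat_lit 152) (nat_lit 5) (nat_lit 157) (nat_lit 5) (nat_lit 158) (nat_lit 5) (nat_lit 514) (nat_lit 438) (nat_lit 188)) (XT.lf (nat_lit 0) (nat_lit 1242904912) (nat_lit 456) (nat_lit 10420118256) (nat_lit 76) (nat_lit 19653642192) (nat_lit 151) (nat_lit 5) (nat_lit 157) (nat_lit 5) (nat_lit 152) (nat_lit 5) (nat_lit 515) (nat_lit 438) (nat_lit 187))))) (XT.nd (nat_lit 53508) (nat_lit 0) (nat_lit 19076) (XT.nd (nat_lit 53352) (nat_lit 0) (nat_lit 19000) (XT.lf (nat_lit 0) (nat_lit 5258761868) (nat_lit 456) (nat_lit 1232679082) (nat_lit 532) (nat_lit 25234975674) (nat_lit 145) (nat_lit 5) (nat_lit 151) (nat_lit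 5) (nat_lit 152) (nat_lit 5) (nat_lit 516) (nat_lit 438) (nat_lit 186)) (XT.nd (nat_lit 78) (nat_lit 0) (nat_lit 0) (XT.lf (nat_lit 0) (nat_lit 64438646) (nat_lit 1748) (nat_lit 3316817375) (nat_lit 1748) (nat_lit 3316817375) (nat_lit 395) (nat_lit 3) (nat_lit 418) (nat_lit 3) (nat_lit 418) (nat_lit 5) (nat_lit 439) (nat_lit 439) (nat_lit 262)) (XT.lf (nat_lit 0) (nat_lit 493408617) (nat_lit 1748) (nat_lit 472240146) (nat_lit 1748) (nat_lit 12556943283) (nat_lit 395) (nat_lit 3) (nat_lit 418) (nat_lit 3) (nat_lit 418) (nat_lit 5) (nat_lit 440) (nat_lit 439) (nat_lit 261)))) (XT.nd (nat_lit 156) (nat_lit 0) (nat_lit 76) (XT.nd (nat_lit 78) (nat_lit 0) (nat_lit 0) (XT.lf (nat_lit 0) (nat_lit 926313463) (nat_lit 1672) (nat_lit 7798704058) (nat_lit 1748) (nat_lit 4925333619) (nat_lit 396) (nat_lit 5) (nat_lit 418) (nat_lit 5) (nat_lit 419) (nat_lit 5) (nat_lit 441) (nat_lit 439) (nat_lit 260)) (XT.lf (nat_lit 0) (nat_lit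 1368118363) (nat_lit 1672) (nat_lit 1483658632) (nat_lit 1748) (nat_lit 10928890044) (nat_lit 396) (nat_lit 5) (nat_lit 418) (nat_lit 5) (nat_lit 419) (nat_lit 5) (nat_lit 442) (nat_lit 439) (nat_lit 259))) (XT.nd (nat_lit 78) (nat_lit 0) (nat_lit 0) (XT.lf (nat_lit 0) (nat_lit 1862806385) (nat_lit 1672) (nat_lit 8915198179) (nat_lit 1748) (nat_lit 3134710089) (nat_lit 397) (nat_lit 5) (nat_lit 419) (nat_lit 5) (nat_lit 420) (nat_lit 5) (nat_lit 443) (nat_lit 439) (nat_lit 258)) (XT.lf (nat_lit 0) (nat_lit 2387310537) (nat_lit 1672) (nat_lit 2442864801) (nat_lit 1748) (nat_lit 9216835647) (nat_lit 397) (nat_lit 5) (nat_lit 419) (nat_lit 5) (nat_lit 420) (nat_lit 5) (nat_lit 444) (nat_lit 439) (nat_lit 257))))))) (XT.nd (nat_lit 1092) (nat_lit 5244) (nat_lit 0) (XT.nd (nat_lit 546) (nat_lit 0) (nat_lit 228) (XT.nd (nat_lit 234) (nat_lit 0) (nat_lit 76) (XT.nd (nat_lit 78) (nat_lit 0) (nat_lit 0) (XT.lf (nat_lit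 0) (nat_lit 2949057872) (nat_lit 1672) (nat_lit 9982779821) (nat_lit 1748) (nat_lit 1251626581) (nat_lit 398) (nat_lit 5) (nat_lit 420) (nat_lit 5) (nat_lit 421) (nat_lit 5) (nat_lit 445) (nat_lit 439) (nat_lit 256)) (XT.nd (nat_lit 78) (nat_lit 0) (nat_lit 0) (XT.lf (nat_lit 0) (nat_lit 3561884167) (nat_lit 1672) (nat_lit 3349401532) (nat_lit 1748) (nat_lit 7410570021) (nat_lit 398) (nat_lit 5) (nat_lit 420) (nat_lit 5) (nat_lit 421) (nat_lit 5) (nat_lit 446) (nat_lit 439) (nat_lit 255)) (XT.lf (nat_lit 76) (nat_lit 3456879317) (nat_lit 0) (nat_lit 744056168) (nat_lit 1748) (nat_lit 10261805993) (nat_lit 399) (nat_lit 5) (nat_lit 398) (nat_lit 5) (nat_lit 421) (nat_lit 5) (nat_lit 447) (nat_lit 439) (nat_lit 254)))) (XT.nd (nat_lit 156) (nat_lit 0) (nat_lit 76) (XT.nd (nat_lit 78) (nat_lit 0) (nat_lit 0) (XT.lf (nat_lit 0) (nat_lit 4903083280) (nat_lit 1672) (nat_lit 4202731023) (nat_lit 1748) (nat_lit 5499630081)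 (nat_lit 399) (nat_lit 5) (nat_lit 421) (nat_lit 5) (nat_lit 422) (nat_lit 5) (nat_lit 448) (nat_lit 439) (nat_lit 253)) (XT.lf (nat_lit 76) (nat_lit 2762607629) (nat_lit 0) (nat_lit 2871372450) (nat_lit 1748) (nat_lit 9116732775) (nat_lit 400) (nat_lit 5) (nat_lit 399) (nat_lit 5) (nat_lit 422) (nat_lit 5) (nat_lit 449) (nat_lit 439) (nat_lit 252))) (XT.nd (nat_lit 78) (nat_lit 0) (nat_lit 0) (XT.lf (nat_lit 0) (nat_lit 6422516356) (nat_lit 1672) (nat_lit 5002242824) (nat_lit 1748) (nat_lit 3473272599) (nat_lit 400) (nat_lit 5) (nat_lit 422) (nat_lit 5) (nat_lit 423) (nat_lit 5) (nat_lit 450) (nat_lit 439) (nat_lit 251)) (XT.lf (nat_lit 76) (nat_lit 2127010623) (nat_lit 0) (nat_lit 5124782913) (nat_lit 1748) (nat_lit 7796009553) (nat_lit 401) (nat_lit 5) (nat_lit 400) (nat_lit 5) (nat_lit 423) (nat_lit 5) (nat_lit 451) (nat_lit 439) (nat_lit 250))))) (XT.nd (nat_lit 234) (nat_lit 0) (nat_lit 76) (XT.nd (nat_lit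 78) (nat_lit 0) (nat_lit 0) (XT.lf (nat_lit 0) (nat_lit 8132176042) (nat_lit 1672) (nat_lit 5747262127) (nat_lit 1748) (nat_lit 1320446563) (nat_lit 401) (nat_lit 5) (nat_lit 423) (nat_lit 5) (nat_lit 424) (nat_lit 5) (nat_lit 452) (nat_lit 439) (nat_lit 249)) (XT.nd (nat_lit 78) (nat_lit 0) (nat_lit 0) (XT.lf (nat_lit 76) (nat_lit 1550896017) (nat_lit 0) (nat_lit 7515711515) (nat_lit 1748) (nat_lit 6287676848) (nat_lit 402) (nat_lit 5) (nat_lit 401) (nat_lit 5) (nat_lit 424) (nat_lit 5) (nat_lit 453) (nat_lit 439) (nat_lit 248)) (XT.lf (nat_lit 76) (nat_lit 9067713353) (nat_lit 0) (nat_lit 983128932) (nat_lit 1748) (nat_lit 5460312539) (nat_lit 402) (nat_lit 5) (nat_lit 401) (nat_lit 5) (nat_lit 424) (nat_lit 5) (nat_lit 454) (nat_lit 439) (nat_lit 247)))) (XT.nd (nat_lit 156) (nat_lit 0) (nat_lit 76) (XT.nd (nat_lit 78) (nat_lit 0) (nat_lit 0) (XT.lf (nat_lit 76) (nat_lit 1035128366) (nat_lit 0) (nat_lit 10055941003)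 (nat_lit 1748) (nat_lit 4579372153) (nat_lit 403) (nat_lit 5) (nat_lit 402) (nat_lit 5) (nat_lit 425) (nat_lit 5) (nat_lit 455) (nat_lit 439) (nat_lit 246)) (XT.lf (nat_lit 76) (nat_lit 8738776651) (nat_lit 0) (nat_lit 3455848039) (nat_lit 1748) (nat_lit 3637443690) (nat_lit 403) (nat_lit 5) (nat_lit 402) (nat_lit 5) (nat_lit 425) (nat_lit 5) (nat_lit 456) (nat_lit 439) (nat_lit 245))) (XT.nd (nat_lit 78) (nat_lit 0) (nat_lit 0) (XT.lf (nat_lit 76) (nat_lit 580619991) (nat_lit 0) (nat_lit 12757642546) (nat_lit 1748) (nat_lit 2658309812) (nat_lit 404) (nat_lit 5) (nat_lit 403) (nat_lit 5) (nat_lit 426) (nat_lit 5) (nat_lit 457) (nat_lit 439) (nat_lit 244)) (XT.lf (nat_lit 76) (nat_lit 8475712145) (nat_lit 0) (nat_lit 6092470341) (nat_lit 1748) (nat_lit 1594920432) (nat_lit 404) (nat_lit 5) (nat_lit 403) (nat_lit 5) (nat_lit 426) (nat_lit 5) (nat_lit 458) (nat_lit 439) (nat_lit 243)))))) (XT.nd (nat_lit 546) (nat_lit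 3952) (nat_lit 0) (XT.nd (nat_lit 234) (nat_lit 0) (nat_lit 76) (XT.nd (nat_lit 78) (nat_lit 1748) (nat_lit 0) (XT.lf (nat_lit 76) (nat_lit 188321451) (nat_lit 0) (nat_lit 15633406152) (nat_lit 1748) (nat_lit 511260578) (nat_lit 405) (nat_lit 5) (nat_lit 404) (nat_lit 5) (nat_lit 427) (nat_lit 5) (nat_lit 459) (nat_lit 439) (nat_lit 242)) (XT.nd (nat_lit 78) (nat_lit 0) (nat_lit 0) (XT.lf (nat_lit 0) (nat_lit 671826863) (nat_lit 1748) (nat_lit 8229398691) (nat_lit 1824) (nat_lit 7603261975) (nat_lit 381) (nat_lit 5) (nat_lit 404) (nat_lit 5) (nat_lit 405) (nat_lit 5) (nat_lit 460) (nat_lit 439) (nat_lit 241)) (XT.lf (nat_lit 0) (nat_lit 1865138833) (nat_lit 1748) (nat_lit 164471481) (nat_lit 1824) (nat_lit 14649875140) (nat_lit 381) (nat_lit 5) (nat_lit 404) (nat_lit 5) (nat_lit 405) (nat_lit 5) (nat_lit 461) (nat_lit 439) (nat_lit 240)))) (XT.nd (nat_lit 156) (nat_lit 0) (nat_lit 76) (XT.nd (nat_lit 78) (nat_lit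 0) (nat_lit 0) (XT.lf (nat_lit 0) (nat_lit 3161541841) (nat_lit 1748) (nat_lit 8726081244) (nat_lit 1824) (nat_lit 4968780021) (nat_lit 382) (nat_lit 5) (nat_lit 405) (nat_lit 5) (nat_lit 406) (nat_lit 5) (nat_lit 462) (nat_lit 439) (nat_lit 239)) (XT.lf (nat_lit 0) (nat_lit 4492058262) (nat_lit 1748) (nat_lit 462308038) (nat_lit 1824) (nat_lit 12082333286) (nat_lit 382) (nat_lit 5) (nat_lit 405) (nat_lit 5) (nat_lit 406) (nat_lit 5) (nat_lit 463) (nat_lit 439) (nat_lit 238))) (XT.nd (nat_lit 78) (nat_lit 0) (nat_lit 0) (XT.lf (nat_lit 0) (nat_lit 5909424374) (nat_lit 1748) (nat_lit 9166399881) (nat_lit 76) (nat_lit 2143577051) (nat_lit 383) (nat_lit 5) (nat_lit 406) (nat_lit 5) (nat_lit 384) (nat_lit 5) (nat_lit 464) (nat_lit 439) (nat_lit 237)) (XT.lf (nat_lit 0) (nat_lit 7384924898) (nat_lit 1748) (nat_lit 698901837) (nat_lit 76) (nat_lit 9321338605) (nat_lit 383) (nat_lit 5) (nat_lit 406) (nat_lit 5) (nat_lit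 384) (nat_lit 5) (nat_lit 465) (nat_lit 439) (nat_lit 236))))) (XT.nd (nat_lit 312) (nat_lit 1824) (nat_lit 0) (XT.nd (nat_lit 156) (nat_lit 836) (nat_lit 0) (XT.nd (nat_lit 78) (nat_lit 0) (nat_lit 0) (XT.lf (nat_lit 0) (nat_lit 8038212208) (nat_lit 1444) (nat_lit 897886981) (nat_lit 1520) (nat_lit 8657626128) (nat_lit 364) (nat_lit 5) (nat_lit 383) (nat_lit 5) (nat_lit 384) (nat_lit 5) (nat_lit 466) (nat_lit 439) (nat_lit 235)) (XT.lf (nat_lit 0) (nat_lit 10558841908) (nat_lit 1520) (nat_lit 873461372) (nat_lit 76) (nat_lit 6352946178) (nat_lit 364) (nat_lit 5) (nat_lit 384) (nat_lit 5) (nat_lit 365) (nat_lit 5) (nat_lit 467) (nat_lit 439) (nat_lit 234))) (XT.nd (nat_lit 78) (nat_lit 0) (nat_lit 0) (XT.lf (nat_lit 0) (nat_lit 8077069680) (nat_lit 836) (nat_lit 4189538703) (nat_lit 912) (nat_lit 5712948109) (nat_lit 353) (nat_lit 5) (nat_lit 364) (nat_lit 5) (nat_lit 365) (nat_lit 5) (nat_lit 468) (nat_lit 439)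 (nat_lit 233)) (XT.lf (nat_lit 0) (nat_lit 14029460341) (nat_lit 912) (nat_lit 985220302) (nat_lit 76) (nat_lit 3162654133) (nat_lit 353) (nat_lit 5) (nat_lit 365) (nat_lit 5) (nat_lit 354) (nat_lit 5) (nat_lit 469) (nat_lit 439) (nat_lit 232)))) (XT.nd (nat_lit 156) (nat_lit 912) (nat_lit 0) (XT.nd (nat_lit 78) (nat_lit 0) (nat_lit 0) (XT.lf (nat_lit 0) (nat_lit 8184858480) (nat_lit 912) (nat_lit 7717975999) (nat_lit 988) (nat_lit 2474732484) (nat_lit 341) (nat_lit 5) (nat_lit 353) (nat_lit 5) (nat_lit 354) (nat_lit 5) (nat_lit 470) (nat_lit 439) (nat_lit 231)) (XT.lf (nat_lit 0) (nat_lit 17546593872) (nat_lit 912) (nat_lit 268149012) (nat_lit 988) (nat_lit 767043142) (nat_lit 341) (nat_lit 5) (nat_lit 353) (nat_lit 5) (nat_lit 354) (nat_lit 5) (nat_lit 471) (nat_lit 439) (nat_lit 230))) (XT.nd (nat_lit 78) (nat_lit 0) (nat_lit 0) (XT.lf (nat_lit 0) (nat_lit 1059107731) (nat_lit 912) (nat_lit 10432692789) (nat_lit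 76) (nat_lit 7296223952) (nat_lit 329) (nat_lit 5) (nat_lit 341) (nat_lit 5) (nat_lit 330) (nat_lit 5) (nat_lit 472) (nat_lit 439) (nat_lit 229)) (XT.lf (nat_lit 0) (nat_lit 2914890671) (nat_lit 912) (nat_lit 1062608422) (nat_lit 76) (nat_lit 15020722958) (nat_lit 329) (nat_lit 5) (nat_lit 341) (nat_lit 5) (nat_lit 330) (nat_lit 5) (nat_lit 473) (nat_lit 439) (nat_lit 228))))))))
noncomputable def xc221 : XT := (XT.nd (nat_lit 2184) (nat_lit 3420) (nat_lit 0) (XT.nd (nat_lit 1092) (nat_lit 4256) (nat_lit 0) (XT.nd (nat_lit 546) (nat_lit 2812) (nat_lit 0) (XT.nd (nat_lit 234) (nat_lit 1444) (nat_lit 0) (XT.nd (nat_lit 78) (nat_lit 760) (nat_lit 0) (XT.lf (nat_lit 0) (nat_lit 4882661319) (nat_lit 912) (nat_lit 10633278484) (nat_lit 76) (nat_lit 3695189635) (nat_lit 318) (nat_lit 5) (nat_lit 330) (nat_lit 5) (nat_lit 319) (nat_lit 5) (nat_lit 474) (nat_lit 439) (nat_lit 227)) (XT.nd (nat_lit 78) (nat_lit 760) (nat_lit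 0) (XT.lf (nat_lit 0) (nat_lit 6918086275) (nat_lit 912) (nat_lit 1034148158) (nat_lit 76) (nat_lit 11475497793) (nat_lit 318) (nat_lit 5) (nat_lit 330) (nat_lit 5) (nat_lit 319) (nat_lit 5) (nat_lit 475) (nat_lit 439) (nat_lit 226)) (XT.lf (nat_lit 0) (nat_lit 8868243007) (nat_lit 760) (nat_lit 178437552) (nat_lit 836) (nat_lit 10600940464) (nat_lit 308) (nat_lit 5) (nat_lit 318) (nat_lit 5) (nat_lit 319) (nat_lit 5) (nat_lit 476) (nat_lit 439) (nat_lit 225)))) (XT.nd (nat_lit 156) (nat_lit 684) (nat_lit 0) (XT.nd (nat_lit 78) (nat_lit 760) (nat_lit 0) (XT.lf (nat_lit 0) (nat_lit 11270106483) (nat_lit 836) (nat_lit 944539895) (nat_lit 76) (nat_lit 7656219129) (nat_lit 308) (nat_lit 5) (nat_lit 319) (nat_lit 5) (nat_lit 309) (nat_lit 5) (nat_lit 477) (nat_lit 439) (nat_lit 224)) (XT.lf (nat_lit 0) (nat_lit 9201490804) (nat_lit 760) (nat_lit 4392483571) (nat_lit 836) (nat_lit 6503484083) (nat_lit 298) (nat_lit 5)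 (nat_lit 308) (nat_lit 5) (nat_lit 309) (nat_lit 5) (nat_lit 478) (nat_lit 439) (nat_lit 223))) (XT.nd (nat_lit 78) (nat_lit 684) (nat_lit 0) (XT.lf (nat_lit 0) (nat_lit 15989097276) (nat_lit 836) (nat_lit 793605295) (nat_lit 76) (nat_lit 3545388128) (nat_lit 298) (nat_lit 5) (nat_lit 309) (nat_lit 5) (nat_lit 299) (nat_lit 5) (nat_lit 479) (nat_lit 439) (nat_lit 222)) (XT.lf (nat_lit 0) (nat_lit 9602686428) (nat_lit 684) (nat_lit 8916082149) (nat_lit 760) (nat_lit 2042837019) (nat_lit 289) (nat_lit 5) (nat_lit 298) (nat_lit 5) (nat_lit 299) (nat_lit 5) (nat_lit 480) (nat_lit 439) (nat_lit 221))))) (XT.nd (nat_lit 234) (nat_lit 1976) (nat_lit 0) (XT.nd (nat_lit 78) (nat_lit 760) (nat_lit 0) (XT.lf (nat_lit 0) (nat_lit 295916037) (nat_lit 760) (nat_lit 589003874) (nat_lit 76) (nat_lit 19914822873) (nat_lit 288) (nat_lit 5) (nat_lit 298) (nat_lit 5) (nat_lit 289) (nat_lit 5) (nat_lit 481) (nat_lit 439) (nat_lit 220))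 (XT.nd (nat_lit 78) (nat_lit 0) (nat_lit 0) (XT.lf (nat_lit 0) (nat_lit 2763001638) (nat_lit 836) (nat_lit 10986749371) (nat_lit 76) (nat_lit 7290446179) (nat_lit 278) (nat_lit 5) (nat_lit 289) (nat_lit 5) (nat_lit 279) (nat_lit 5) (nat_lit 482) (nat_lit 439) (nat_lit 219)) (XT.lf (nat_lit 0) (nat_lit 5284657010) (nat_lit 836) (nat_lit 379501332) (nat_lit 76) (nat_lit 15621200484) (nat_lit 278) (nat_lit 5) (nat_lit 289) (nat_lit 5) (nat_lit 279) (nat_lit 5) (nat_lit 483) (nat_lit 439) (nat_lit 218)))) (XT.nd (nat_lit 156) (nat_lit 1292) (nat_lit 0) (XT.nd (nat_lit 78) (nat_lit 0) (nat_lit 0) (XT.lf (nat_lit 0) (nat_lit 7938100214) (nat_lit 760) (nat_lit 10977668390) (nat_lit 76) (nat_lit 2618030648) (nat_lit 269) (nat_lit 5) (nat_lit 279) (nat_lit 5) (nat_lit 270) (nat_lit 5) (nat_lit 484) (nat_lit 439) (nat_lit 217)) (XT.lf (nat_lit 0) (nat_lit 10680220973) (nat_lit 760) (nat_lit 113991283) (nat_lit 76) (nat_lit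 10992286658) (nat_lit 269) (nat_lit 5) (nat_lit 279) (nat_lit 5) (nat_lit 270) (nat_lit 5) (nat_lit 485) (nat_lit 439) (nat_lit 216))) (XT.nd (nat_lit 78) (nat_lit 608) (nat_lit 0) (XT.lf (nat_lit 0) (nat_lit 11107811067) (nat_lit 684) (nat_lit 2437114110) (nat_lit 760) (nat_lit 8497975118) (nat_lit 260) (nat_lit 5) (nat_lit 269) (nat_lit 5) (nat_lit 270) (nat_lit 5) (nat_lit 486) (nat_lit 439) (nat_lit 215)) (XT.lf (nat_lit 0) (nat_lit 209518020) (nat_lit 608) (nat_lit 16294730819) (nat_lit 684) (nat_lit 5799436858) (nat_lit 252) (nat_lit 5) (nat_lit 260) (nat_lit 5) (nat_lit 261) (nat_lit 5) (nat_lit 487) (nat_lit 439) (nat_lit 214)))))) (XT.nd (nat_lit 546) (nat_lit 2280) (nat_lit 0) (XT.nd (nat_lit 234) (nat_lit 1216) (nat_lit 0) (XT.nd (nat_lit 78) (nat_lit 760) (nat_lit 0) (XT.lf (nat_lit 0) (nat_lit 11704039876) (nat_lit 608) (nat_lit 7903859662) (nat_lit 684) (nat_lit 2960086906) (nat_lit 252) (nat_lit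 5) (nat_lit 260) (nat_lit 5) (nat_lit 261) (nat_lit 5) (nat_lit 488) (nat_lit 439) (nat_lit 213)) (XT.nd (nat_lit 78) (nat_lit 76) (nat_lit 0) (XT.lf (nat_lit 0) (nat_lit 589520421) (nat_lit 684) (nat_lit 22187988797) (nat_lit 760) (nat_lit 59988671) (nat_lit 243) (nat_lit 5) (nat_lit 252) (nat_lit 5) (nat_lit 253) (nat_lit 5) (nat_lit 489) (nat_lit 439) (nat_lit 212)) (XT.lf (nat_lit 0) (nat_lit 2981659396) (nat_lit 760) (nat_lit 10768128346) (nat_lit 76) (nat_lit 9359806657) (nat_lit 242) (nat_lit 5) (nat_lit 252) (nat_lit 5) (nat_lit 243) (nat_lit 5) (nat_lit 490) (nat_lit 439) (nat_lit 211)))) (XT.nd (nat_lit 156) (nat_lit 608) (nat_lit 0) (XT.nd (nat_lit 78) (nat_lit 0) (nat_lit 0) (XT.lf (nat_lit 0) (nat_lit 948592283) (nat_lit 608) (nat_lit 5136814417) (nat_lit 684) (nat_lit 17301679082) (nat_lit 234) (nat_lit 5) (nat_lit 242) (nat_lit 5) (nat_lit 243) (nat_lit 5) (nat_lit 491) (nat_lit 439) (nat_lit 210))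 (XT.lf (nat_lit 0) (nat_lit 9343610048) (nat_lit 684) (nat_lit 10652052438) (nat_lit 76) (nat_lit 3672619102) (nat_lit 234) (nat_lit 5) (nat_lit 243) (nat_lit 5) (nat_lit 235) (nat_lit 5) (nat_lit 492) (nat_lit 439) (nat_lit 209))) (XT.nd (nat_lit 78) (nat_lit 0) (nat_lit 0) (XT.lf (nat_lit 0) (nat_lit 1349070252) (nat_lit 608) (nat_lit 11356719020) (nat_lit 684) (nat_lit 11248537978) (nat_lit 226) (nat_lit 5) (nat_lit 234) (nat_lit 5) (nat_lit 235) (nat_lit 5) (nat_lit 493) (nat_lit 439) (nat_lit 208)) (XT.lf (nat_lit 0) (nat_lit 13729915985) (nat_lit 608) (nat_lit 2472858394) (nat_lit 684) (nat_lit 8041970334) (nat_lit 226) (nat_lit 5) (nat_lit 234) (nat_lit 5) (nat_lit 235) (nat_lit 5) (nat_lit 494) (nat_lit 439) (nat_lit 207))))) (XT.nd (nat_lit 234) (nat_lit 1064) (nat_lit 0) (XT.nd (nat_lit 78) (nat_lit 684) (nat_lit 0) (XT.lf (nat_lit 0) (nat_lit 1793479010) (nat_lit 532) (nat_lit 18026796048) (nat_lit 608)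 (nat_lit 4719686039) (nat_lit 219) (nat_lit 5) (nat_lit 226) (nat_lit 5) (nat_lit 227) (nat_lit 5) (nat_lit 495) (nat_lit 439) (nat_lit 206)) (XT.nd (nat_lit 78) (nat_lit 684) (nat_lit 0) (XT.lf (nat_lit 0) (nat_lit 14469247915) (nat_lit 532) (nat_lit 9123905300) (nat_lit 608) (nat_lit 1246270095) (nat_lit 219) (nat_lit 5) (nat_lit 226) (nat_lit 5) (nat_lit 227) (nat_lit 5) (nat_lit 496) (nat_lit 439) (nat_lit 205)) (XT.lf (nat_lit 0) (nat_lit 2263833968) (nat_lit 608) (nat_lit 13604500) (nat_lit 684) (nat_lit 22866921150) (nat_lit 210) (nat_lit 5) (nat_lit 218) (nat_lit 5) (nat_lit 219) (nat_lit 5) (nat_lit 497) (nat_lit 439) (nat_lit 204)))) (XT.nd (nat_lit 156) (nat_lit 532) (nat_lit 0) (XT.nd (nat_lit 78) (nat_lit 532) (nat_lit 0) (XT.lf (nat_lit 0) (nat_lit 5981529028) (nat_lit 684) (nat_lit 10236511126) (nat_lit 76) (nat_lit 9234659765) (nat_lit 210) (nat_lit 5) (nat_lit 219) (nat_lit 5) (nat_lit 211) (nat_lit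 5) (nat_lit 498) (nat_lit 439) (nat_lit 203)) (XT.lf (nat_lit 0) (nat_lit 2691034894) (nat_lit 532) (nat_lit 7082586233) (nat_lit 608) (nat_lit 15993309397) (nat_lit 203) (nat_lit 5) (nat_lit 210) (nat_lit 5) (nat_lit 211) (nat_lit 5) (nat_lit 499) (nat_lit 439) (nat_lit 202))) (XT.nd (nat_lit 78) (nat_lit 532) (nat_lit 0) (XT.lf (nat_lit 0) (nat_lit 13721610933) (nat_lit 608) (nat_lit 10089741255) (nat_lit 76) (nat_lit 2274494294) (nat_lit 203) (nat_lit 5) (nat_lit 211) (nat_lit 5) (nat_lit 204) (nat_lit 5) (nat_lit 500) (nat_lit 439) (nat_lit 201)) (XT.lf (nat_lit 0) (nat_lit 3145991878) (nat_lit 532) (nat_lit 14666363499) (nat_lit 608) (nat_lit 8597511305) (nat_lit 196) (nat_lit 5) (nat_lit 203) (nat_lit 5) (nat_lit 204) (nat_lit 5) (nat_lit 501) (nat_lit 439) (nat_lit 200))))))) (XT.nd (nat_lit 1092) (nat_lit 76) (nat_lit 0) (XT.nd (nat_lit 546) (nat_lit 1824) (nat_lit 0) (XT.nd (nat_lit 234) (nat_lit 988)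 (nat_lit 0) (XT.nd (nat_lit 78) (nat_lit 532) (nat_lit 0) (XT.lf (nat_lit 0) (nat_lit 16778738346) (nat_lit 532) (nat_lit 5270388573) (nat_lit 608) (nat_lit 4689957907) (nat_lit 196) (nat_lit 5) (nat_lit 203) (nat_lit 5) (nat_lit 204) (nat_lit 5) (nat_lit 502) (nat_lit 439) (nat_lit 199)) (XT.nd (nat_lit 78) (nat_lit 76) (nat_lit 0) (XT.lf (nat_lit 0) (nat_lit 3624333200) (nat_lit 456) (nat_lit 22794405469) (nat_lit 532) (nat_lit 655188319) (nat_lit 190) (nat_lit 5) (nat_lit 196) (nat_lit 5) (nat_lit 197) (nat_lit 5) (nat_lit 503) (nat_lit 439) (nat_lit 198)) (XT.lf (nat_lit 0) (nat_lit 3513661076) (nat_lit 532) (nat_lit 9860684611) (nat_lit 76) (nat_lit 14038697327) (nat_lit 189) (nat_lit 5) (nat_lit 196) (nat_lit 5) (nat_lit 190) (nat_lit 5) (nat_lit 504) (nat_lit 439) (nat_lit 197)))) (XT.nd (nat_lit 156) (nat_lit 456) (nat_lit 0) (XT.nd (nat_lit 78) (nat_lit 0) (nat_lit 0) (XT.lf (nat_lit 0) (nat_lit 4044328691)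 (nat_lit 532) (nat_lit 3735701010) (nat_lit 608) (nat_lit 19978368388) (nat_lit 182) (nat_lit 5) (nat_lit 189) (nat_lit 5) (nat_lit 190) (nat_lit 5) (nat_lit 505) (nat_lit 439) (nat_lit 196)) (XT.lf (nat_lit 0) (nat_lit 12234591048) (nat_lit 608) (nat_lit 9792655618) (nat_lit 76) (nat_lit 6081357909) (nat_lit 182) (nat_lit 5) (nat_lit 190) (nat_lit 5) (nat_lit 183) (nat_lit 5) (nat_lit 506) (nat_lit 439) (nat_lit 195))) (XT.nd (nat_lit 78) (nat_lit 0) (nat_lit 0) (XT.lf (nat_lit 0) (nat_lit 4436306572) (nat_lit 456) (nat_lit 12392224661) (nat_lit 532) (nat_lit 11636279789) (nat_lit 176) (nat_lit 5) (nat_lit 182) (nat_lit 5) (nat_lit 183) (nat_lit 5) (nat_lit 507) (nat_lit 439) (nat_lit 194)) (XT.lf (nat_lit 0) (nat_lit 19078295390) (nat_lit 456) (nat_lit 2498549085) (nat_lit 532) (nat_lit 7250048793) (nat_lit 176) (nat_lit 5) (nat_lit 182) (nat_lit 5) (nat_lit 183) (nat_lit 5) (nat_lit 508) (nat_lit 439) (nat_lit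 193))))) (XT.nd (nat_lit 234) (nat_lit 836) (nat_lit 0) (XT.nd (nat_lit 78) (nat_lit 532) (nat_lit 0) (XT.lf (nat_lit 0) (nat_lit 4826642070) (nat_lit 456) (nat_lit 21670955130) (nat_lit 532) (nat_lit 2697072017) (nat_lit 170) (nat_lit 5) (nat_lit 176) (nat_lit 5) (nat_lit 177) (nat_lit 5) (nat_lit 509) (nat_lit 439) (nat_lit 192)) (XT.nd (nat_lit 78) (nat_lit 456) (nat_lit 0) (XT.lf (nat_lit 0) (nat_lit 2000676612) (nat_lit 532) (nat_lit 9776865094) (nat_lit 76) (nat_lit 17790422680) (nat_lit 169) (nat_lit 5) (nat_lit 176) (nat_lit 5) (nat_lit 170) (nat_lit 5) (nat_lit 510) (nat_lit 439) (nat_lit 191)) (XT.lf (nat_lit 0) (nat_lit 5151623757) (nat_lit 456) (nat_lit 1635034931) (nat_lit 532) (nat_lit 23161103808) (nat_lit 163) (nat_lit 5) (nat_lit 169) (nat_lit 5) (nat_lit 170) (nat_lit 5) (nat_lit 511) (nat_lit 439) (nat_lit 190)))) (XT.nd (nat_lit 156) (nat_lit 380) (nat_lit 0) (XT.nd (nat_lit 78) (nat_lit 456)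 (nat_lit 0) (XT.lf (nat_lit 0) (nat_lit 11787892985) (nat_lit 532) (nat_lit 9883848881) (nat_lit 76) (nat_lit 8661025457) (nat_lit 163) (nat_lit 5) (nat_lit 170) (nat_lit 5) (nat_lit 164) (nat_lit 5) (nat_lit 512) (nat_lit 439) (nat_lit 189)) (XT.lf (nat_lit 0) (nat_lit 5382304344) (nat_lit 456) (nat_lit 11549618210) (nat_lit 532) (nat_lit 13792695661) (nat_lit 157) (nat_lit 5) (nat_lit 163) (nat_lit 5) (nat_lit 164) (nat_lit 5) (nat_lit 513) (nat_lit 439) (nat_lit 188))) (XT.nd (nat_lit 78) (nat_lit 380) (nat_lit 0) (XT.lf (nat_lit 0) (nat_lit 21083641800) (nat_lit 456) (nat_lit 1158545945) (nat_lit 532) (nat_lit 8880852631) (nat_lit 157) (nat_lit 5) (nat_lit 163) (nat_lit 5) (nat_lit 164) (nat_lit 5) (nat_lit 514) (nat_lit 439) (nat_lit 187)) (XT.lf (nat_lit 0) (nat_lit 5577341294) (nat_lit 380) (nat_lit 22175901901) (nat_lit 456) (nat_lit 3774297413) (nat_lit 152) (nat_lit 5) (nat_lit 157) (nat_lit 5) (nat_lit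 158) (nat_lit 5) (nat_lit 515) (nat_lit 439) (nat_lit 186)))))) (XT.nd (nat_lit 53898) (nat_lit 0) (nat_lit 18772) (XT.nd (nat_lit 53586) (nat_lit 0) (nat_lit 18620) (XT.nd (nat_lit 53430) (nat_lit 0) (nat_lit 18544) (XT.lf (nat_lit 0) (nat_lit 1488155558) (nat_lit 456) (nat_lit 10317814051) (nat_lit 76) (nat_lit 20132524671) (nat_lit 151) (nat_lit 5) (nat_lit 157) (nat_lit 5) (nat_lit 152) (nat_lit 5) (nat_lit 516) (nat_lit 439) (nat_lit 185)) (XT.nd (nat_lit 78) (nat_lit 0) (nat_lit 0) (XT.lf (nat_lit 0) (nat_lit 426611559) (nat_lit 1748) (nat_lit 3198977945) (nat_lit 1748) (nat_lit 3198977945) (nat_lit 395) (nat_lit 3) (nat_lit 418) (nat_lit 3) (nat_lit 418) (nat_lit 5) (nat_lit 440) (nat_lit 440) (nat_lit 260)) (XT.lf (nat_lit 0) (nat_lit 1210892749) (nat_lit 1748) (nat_lit 120555974) (nat_lit 1748) (nat_lit 12446953173) (nat_lit 395) (nat_lit 3) (nat_lit 418) (nat_lit 3) (nat_lit 418) (nat_lit 5) (nat_lit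 441) (nat_lit 440) (nat_lit 259)))) (XT.nd (nat_lit 156) (nat_lit 0) (nat_lit 76) (XT.nd (nat_lit 78) (nat_lit 0) (nat_lit 0) (XT.lf (nat_lit 0) (nat_lit 1638720045) (nat_lit 1672) (nat_lit 7579333446) (nat_lit 1748) (nat_lit 4690946995) (nat_lit 396) (nat_lit 5) (nat_lit 418) (nat_lit 5) (nat_lit 419) (nat_lit 5) (nat_lit 442) (nat_lit 440) (nat_lit 258)) (XT.lf (nat_lit 0) (nat_lit 2075755546) (nat_lit 1672) (nat_lit 1145346812) (nat_lit 1748) (nat_lit 10821101867) (nat_lit 396) (nat_lit 5) (nat_lit 418) (nat_lit 5) (nat_lit 419) (nat_lit 5) (nat_lit 443) (nat_lit 440) (nat_lit 257))) (XT.nd (nat_lit 78) (nat_lit 0) (nat_lit 0) (XT.lf (nat_lit 0) (nat_lit 2567399974) (nat_lit 1672) (nat_lit 8712118365) (nat_lit 1748) (nat_lit 2897642429) (nat_lit 397) (nat_lit 5) (nat_lit 419) (nat_lit 5) (nat_lit 420) (nat_lit 5) (nat_lit 444) (nat_lit 440) (nat_lit 256)) (XT.lf (nat_lit 0) (nat_lit 3089309161) (nat_lit 1672)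 (nat_lit 2117816433) (nat_lit 1748) (nat_lit 9107288182) (nat_lit 397) (nat_lit 5) (nat_lit 419) (nat_lit 5) (nat_lit 420) (nat_lit 5) (nat_lit 445) (nat_lit 440) (nat_lit 255))))) (XT.nd (nat_lit 312) (nat_lit 0) (nat_lit 76) (XT.nd (nat_lit 156) (nat_lit 0) (nat_lit 0) (XT.nd (nat_lit 78) (nat_lit 0) (nat_lit 0) (XT.lf (nat_lit 0) (nat_lit 3650106100) (nat_lit 1672) (nat_lit 9795900901) (nat_lit 1748) (nat_lit 1007841706) (nat_lit 398) (nat_lit 5) (nat_lit 420) (nat_lit 5) (nat_lit 421) (nat_lit 5) (nat_lit 446) (nat_lit 440) (nat_lit 254)) (XT.lf (nat_lit 0) (nat_lit 4262599371) (nat_lit 1672) (nat_lit 3037434153) (nat_lit 1748) (nat_lit 7295234944) (nat_lit 398) (nat_lit 5) (nat_lit 420) (nat_lit 5) (nat_lit 421) (nat_lit 5) (nat_lit 447) (nat_lit 440) (nat_lit 253))) (XT.nd (nat_lit 78) (nat_lit 0) (nat_lit 76) (XT.lf (nat_lit 76) (nat_lit 3902479185) (nat_lit 0) (nat_lit 1002054076) (nat_lit 1748) (nat_lit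 9834645176) (nat_lit 399) (nat_lit 5) (nat_lit 398) (nat_lit 5) (nat_lit 421) (nat_lit 5) (nat_lit 448) (nat_lit 440) (nat_lit 252)) (XT.lf (nat_lit 0) (nat_lit 5607027879) (nat_lit 1672) (nat_lit 3903590911) (nat_lit 1748) (nat_lit 5374398893) (nat_lit 399) (nat_lit 5) (nat_lit 421) (nat_lit 5) (nat_lit 422) (nat_lit 5) (nat_lit 449) (nat_lit 440) (nat_lit 251)))) (XT.nd (nat_lit 156) (nat_lit 0) (nat_lit 76) (XT.nd (nat_lit 78) (nat_lit 0) (nat_lit 76) (XT.lf (nat_lit 76) (nat_lit 3198533496) (nat_lit 0) (nat_lit 3144600646) (nat_lit 1748) (nat_lit 8690253744) (nat_lit 400) (nat_lit 5) (nat_lit 399) (nat_lit 5) (nat_lit 422) (nat_lit 5) (nat_lit 450) (nat_lit 440) (nat_lit 250)) (XT.lf (nat_lit 0) (nat_lit 7134371918) (nat_lit 1672) (nat_lit 4715607229) (nat_lit 1748) (nat_lit 3333943462) (nat_lit 400) (nat_lit 5) (nat_lit 422) (nat_lit 5) (nat_lit 423) (nat_lit 5) (nat_lit 451) (nat_lit 440) (nat_lit 249)))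 (XT.nd (nat_lit 78) (nat_lit 0) (nat_lit 76) (XT.lf (nat_lit 76) (nat_lit 2553687338) (nat_lit 0) (nat_lit 5417602055) (nat_lit 1748) (nat_lit 7365586733) (nat_lit 401) (nat_lit 5) (nat_lit 400) (nat_lit 5) (nat_lit 423) (nat_lit 5) (nat_lit 452) (nat_lit 440) (nat_lit 248)) (XT.lf (nat_lit 0) (nat_lit 8856804150) (nat_lit 1672) (nat_lit 5472741455) (nat_lit 1748) (nat_lit 1162711026) (nat_lit 401) (nat_lit 5) (nat_lit 423) (nat_lit 5) (nat_lit 424) (nat_lit 5) (nat_lit 453) (nat_lit 440) (nat_lit 247))))))))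
noncomputable def xc222 : XT := (XT.nd (nat_lit 2184) (nat_lit 9044) (nat_lit 0) (XT.nd (nat_lit 1092) (nat_lit 5700) (nat_lit 0) (XT.nd (nat_lit 546) (nat_lit 2812) (nat_lit 0) (XT.nd (nat_lit 234) (nat_lit 0) (nat_lit 76) (XT.nd (nat_lit 78) (nat_lit 0) (nat_lit 0) (XT.lf (nat_lit 76) (nat_lit 1968817576) (nat_lit 0) (nat_lit 7832599424) (nat_lit 1748) (nat_lit 5848504989) (nat_lit 402) (nat_lit 5) (nat_lit 401) (nat_lit 5) (nat_lit 424) (nat_lit 5) (nat_lit 454) (nat_lit 440) (nat_lit 246)) (XT.nd (nat_lit 78) (nat_lit 0) (nat_lit 76) (XT.lf (nat_lit 76) (nat_lit 9628384913) (nat_lit 0) (nat_lit 1166099039) (nat_lit 1748) (nat_lit 5015670362) (nat_lit 402) (nat_lit 5) (nat_lit 401) (nat_lit 5) (nat_lit 424) (nat_lit 5) (nat_lit 455) (nat_lit 440) (nat_lit 245)) (XT.lf (nat_lit 76) (nat_lit 1444855810) (nat_lit 0) (nat_lit 10401506362) (nat_lit 1748) (nat_lit 4126454919) (nat_lit 403) (nat_lit 5) (nat_lit 402)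 (nat_lit 5) (nat_lit 425) (nat_lit 5) (nat_lit 456) (nat_lit 440) (nat_lit 244)))) (XT.nd (nat_lit 156) (nat_lit 0) (nat_lit 76) (XT.nd (nat_lit 78) (nat_lit 0) (nat_lit 76) (XT.lf (nat_lit 76) (nat_lit 9294949122) (nat_lit 0) (nat_lit 3666579253) (nat_lit 1748) (nat_lit 3176364449) (nat_lit 403) (nat_lit 5) (nat_lit 402) (nat_lit 5) (nat_lit 425) (nat_lit 5) (nat_lit 457) (nat_lit 440) (nat_lit 243)) (XT.lf (nat_lit 76) (nat_lit 982779302) (nat_lit 0) (nat_lit 13136638820) (nat_lit 1748) (nat_lit 2186448161) (nat_lit 404) (nat_lit 5) (nat_lit 403) (nat_lit 5) (nat_lit 426) (nat_lit 5) (nat_lit 458) (nat_lit 440) (nat_lit 242))) (XT.nd (nat_lit 78) (nat_lit 0) (nat_lit 76) (XT.lf (nat_lit 76) (nat_lit 9028115517) (nat_lit 0) (nat_lit 6335734869) (nat_lit 1748) (nat_lit 1112085657) (nat_lit 404) (nat_lit 5) (nat_lit 403) (nat_lit 5) (nat_lit 426) (nat_lit 5) (nat_lit 459) (nat_lit 440) (nat_lit 241)) (XT.lf (nat_lit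 76) (nat_lit 583601445) (nat_lit 0) (nat_lit 16050745756) (nat_lit 1748) (nat_lit 15040917) (nat_lit 405) (nat_lit 5) (nat_lit 404) (nat_lit 5) (nat_lit 427) (nat_lit 5) (nat_lit 460) (nat_lit 440) (nat_lit 240))))) (XT.nd (nat_lit 234) (nat_lit 1292) (nat_lit 0) (XT.nd (nat_lit 78) (nat_lit 0) (nat_lit 0) (XT.lf (nat_lit 0) (nat_lit 1175266103) (nat_lit 1748) (nat_lit 8003314885) (nat_lit 1824) (nat_lit 7645873163) (nat_lit 381) (nat_lit 5) (nat_lit 404) (nat_lit 5) (nat_lit 405) (nat_lit 5) (nat_lit 461) (nat_lit 440) (nat_lit 239)) (XT.nd (nat_lit 78) (nat_lit 0) (nat_lit 76) (XT.lf (nat_lit 76) (nat_lit 218111205) (nat_lit 0) (nat_lit 2166141334) (nat_lit 1824) (nat_lit 14618869666) (nat_lit 382) (nat_lit 5) (nat_lit 381) (nat_lit 5) (nat_lit 405) (nat_lit 5) (nat_lit 462) (nat_lit 440) (nat_lit 238)) (XT.lf (nat_lit 0) (nat_lit 3697614865) (nat_lit 1748) (nat_lit 8509728171) (nat_lit 1824) (nat_lit 4976420760)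 (nat_lit 382) (nat_lit 5) (nat_lit 405) (nat_lit 5) (nat_lit 406) (nat_lit 5) (nat_lit 463) (nat_lit 440) (nat_lit 237)))) (XT.nd (nat_lit 156) (nat_lit 1368) (nat_lit 0) (XT.nd (nat_lit 78) (nat_lit 0) (nat_lit 76) (XT.lf (nat_lit 0) (nat_lit 5045470199) (nat_lit 1748) (nat_lit 88343710) (nat_lit 1824) (nat_lit 12234043813) (nat_lit 382) (nat_lit 5) (nat_lit 405) (nat_lit 5) (nat_lit 406) (nat_lit 5) (nat_lit 464) (nat_lit 440) (nat_lit 236)) (XT.lf (nat_lit 0) (nat_lit 6484070545) (nat_lit 1748) (nat_lit 8959105832) (nat_lit 76) (nat_lit 2111185331) (nat_lit 383) (nat_lit 5) (nat_lit 406) (nat_lit 5) (nat_lit 384) (nat_lit 5) (nat_lit 465) (nat_lit 440) (nat_lit 235))) (XT.nd (nat_lit 78) (nat_lit 1444) (nat_lit 0) (XT.lf (nat_lit 0) (nat_lit 7980130929) (nat_lit 1748) (nat_lit 329917083) (nat_lit 76) (nat_lit 9433977866) (nat_lit 383) (nat_lit 5) (nat_lit 406) (nat_lit 5) (nat_lit 384) (nat_lit 5) (nat_lit 466)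 (nat_lit 440) (nat_lit 234)) (XT.lf (nat_lit 0) (nat_lit 8579419751) (nat_lit 1444) (nat_lit 976604388) (nat_lit 1520) (nat_lit 8380464745) (nat_lit 364) (nat_lit 5) (nat_lit 383) (nat_lit 5) (nat_lit 384) (nat_lit 5) (nat_lit 467) (nat_lit 440) (nat_lit 233)))))) (XT.nd (nat_lit 546) (nat_lit 3040) (nat_lit 0) (XT.nd (nat_lit 234) (nat_lit 1824) (nat_lit 0) (XT.nd (nat_lit 78) (nat_lit 836) (nat_lit 0) (XT.lf (nat_lit 0) (nat_lit 11202183917) (nat_lit 1520) (nat_lit 508627922) (nat_lit 76) (nat_lit 6421218050) (nat_lit 364) (nat_lit 5) (nat_lit 384) (nat_lit 5) (nat_lit 365) (nat_lit 5) (nat_lit 468) (nat_lit 440) (nat_lit 232)) (XT.nd (nat_lit 78) (nat_lit 0) (nat_lit 0) (XT.lf (nat_lit 0) (nat_lit 8618398601) (nat_lit 836) (nat_lit 4319699125) (nat_lit 912) (nat_lit 5392251012) (nat_lit 353) (nat_lit 5) (nat_lit 364) (nat_lit 5) (nat_lit 365) (nat_lit 5) (nat_lit 469) (nat_lit 440) (nat_lit 231)) (XT.lf (nat_lit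 0) (nat_lit 14727555542) (nat_lit 912) (nat_lit 623662478) (nat_lit 76) (nat_lit 3181042998) (nat_lit 353) (nat_lit 5) (nat_lit 365) (nat_lit 5) (nat_lit 354) (nat_lit 5) (nat_lit 470) (nat_lit 440) (nat_lit 230)))) (XT.nd (nat_lit 156) (nat_lit 912) (nat_lit 0) (XT.nd (nat_lit 78) (nat_lit 0) (nat_lit 0) (XT.lf (nat_lit 0) (nat_lit 8727309575) (nat_lit 912) (nat_lit 7905360317) (nat_lit 988) (nat_lit 2103947803) (nat_lit 341) (nat_lit 5) (nat_lit 353) (nat_lit 5) (nat_lit 354) (nat_lit 5) (nat_lit 471) (nat_lit 440) (nat_lit 229)) (XT.lf (nat_lit 0) (nat_lit 18268853127) (nat_lit 912) (nat_lit 305889245) (nat_lit 988) (nat_lit 370345445) (nat_lit 341) (nat_lit 5) (nat_lit 353) (nat_lit 5) (nat_lit 354) (nat_lit 5) (nat_lit 472) (nat_lit 440) (nat_lit 228))) (XT.nd (nat_lit 78) (nat_lit 0) (nat_lit 0) (XT.lf (nat_lit 0) (nat_lit 1481210178) (nat_lit 912) (nat_lit 10258396512) (nat_lit 76) (nat_lit 7415910119) (nat_lit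 329) (nat_lit 5) (nat_lit 341) (nat_lit 5) (nat_lit 330) (nat_lit 5) (nat_lit 473) (nat_lit 440) (nat_lit 227)) (XT.lf (nat_lit 0) (nat_lit 3366247595) (nat_lit 912) (nat_lit 708419283) (nat_lit 76) (nat_lit 15295413582) (nat_lit 329) (nat_lit 5) (nat_lit 341) (nat_lit 5) (nat_lit 330) (nat_lit 5) (nat_lit 474) (nat_lit 440) (nat_lit 226))))) (XT.nd (nat_lit 234) (nat_lit 1444) (nat_lit 0) (XT.nd (nat_lit 78) (nat_lit 760) (nat_lit 0) (XT.lf (nat_lit 0) (nat_lit 5367992084) (nat_lit 912) (nat_lit 10464881127) (nat_lit 76) (nat_lit 3754485215) (nat_lit 318) (nat_lit 5) (nat_lit 330) (nat_lit 5) (nat_lit 319) (nat_lit 5) (nat_lit 475) (nat_lit 440) (nat_lit 225)) (XT.nd (nat_lit 78) (nat_lit 760) (nat_lit 0) (XT.lf (nat_lit 0) (nat_lit 7436524020) (nat_lit 912) (nat_lit 681240017) (nat_lit 76) (nat_lit 11690685972) (nat_lit 318) (nat_lit 5) (nat_lit 330) (nat_lit 5) (nat_lit 319) (nat_lit 5) (nat_lit 476) (nat_lit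 440) (nat_lit 224)) (XT.lf (nat_lit 0) (nat_lit 9416741135) (nat_lit 760) (nat_lit 185906226) (nat_lit 836) (nat_lit 10430194690) (nat_lit 308) (nat_lit 5) (nat_lit 318) (nat_lit 5) (nat_lit 319) (nat_lit 5) (nat_lit 477) (nat_lit 440) (nat_lit 223)))) (XT.nd (nat_lit 156) (nat_lit 684) (nat_lit 0) (XT.nd (nat_lit 78) (nat_lit 760) (nat_lit 0) (XT.lf (nat_lit 0) (nat_lit 11863163387) (nat_lit 836) (nat_lit 591969928) (nat_lit 76) (nat_lit 7805570202) (nat_lit 308) (nat_lit 5) (nat_lit 319) (nat_lit 5) (nat_lit 309) (nat_lit 5) (nat_lit 478) (nat_lit 440) (nat_lit 222)) (XT.lf (nat_lit 0) (nat_lit 9754537563) (nat_lit 760) (nat_lit 4474158059) (nat_lit 836) (nat_lit 6263233401) (nat_lit 298) (nat_lit 5) (nat_lit 308) (nat_lit 5) (nat_lit 309) (nat_lit 5) (nat_lit 479) (nat_lit 440) (nat_lit 221))) (XT.nd (nat_lit 78) (nat_lit 684) (nat_lit 0) (XT.lf (nat_lit 0) (nat_lit 16664645745) (nat_lit 836) (nat_lit 440403427)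 (nat_lit 76) (nat_lit 3622270591) (nat_lit 298) (nat_lit 5) (nat_lit 309) (nat_lit 5) (nat_lit 299) (nat_lit 5) (nat_lit 480) (nat_lit 440) (nat_lit 220)) (XT.lf (nat_lit 0) (nat_lit 10161386012) (nat_lit 684) (nat_lit 9078929154) (nat_lit 760) (nat_lit 1725285961) (nat_lit 289) (nat_lit 5) (nat_lit 298) (nat_lit 5) (nat_lit 299) (nat_lit 5) (nat_lit 481) (nat_lit 440) (nat_lit 219))))))) (XT.nd (nat_lit 1092) (nat_lit 4256) (nat_lit 0) (XT.nd (nat_lit 546) (nat_lit 1976) (nat_lit 0) (XT.nd (nat_lit 234) (nat_lit 1976) (nat_lit 0) (XT.nd (nat_lit 78) (nat_lit 760) (nat_lit 0) (XT.lf (nat_lit 0) (nat_lit 648606137) (nat_lit 760) (nat_lit 236513936) (nat_lit 76) (nat_lit 20323477251) (nat_lit 288) (nat_lit 5) (nat_lit 298) (nat_lit 5) (nat_lit 289) (nat_lit 5) (nat_lit 482) (nat_lit 440) (nat_lit 218)) (XT.nd (nat_lit 78) (nat_lit 0) (nat_lit 0) (XT.lf (nat_lit 0) (nat_lit 3160710469) (nat_lit 836) (nat_lit 10837690500)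 (nat_lit 76) (nat_lit 7455550325) (nat_lit 278) (nat_lit 5) (nat_lit 289) (nat_lit 5) (nat_lit 279) (nat_lit 5) (nat_lit 483) (nat_lit 440) (nat_lit 217)) (XT.lf (nat_lit 0) (nat_lit 5726084266) (nat_lit 836) (nat_lit 25528753) (nat_lit 76) (nat_lit 15952541378) (nat_lit 278) (nat_lit 5) (nat_lit 289) (nat_lit 5) (nat_lit 279) (nat_lit 5) (nat_lit 484) (nat_lit 440) (nat_lit 216)))) (XT.nd (nat_lit 156) (nat_lit 608) (nat_lit 0) (XT.nd (nat_lit 78) (nat_lit 684) (nat_lit 0) (XT.lf (nat_lit 0) (nat_lit 8428525224) (nat_lit 760) (nat_lit 10831394979) (nat_lit 76) (nat_lit 2697728711) (nat_lit 269) (nat_lit 5) (nat_lit 279) (nat_lit 5) (nat_lit 270) (nat_lit 5) (nat_lit 485) (nat_lit 440) (nat_lit 215)) (XT.lf (nat_lit 0) (nat_lit 245603732) (nat_lit 684) (nat_lit 10974976092) (nat_lit 760) (nat_lit 10994924702) (nat_lit 260) (nat_lit 5) (nat_lit 269) (nat_lit 5) (nat_lit 270) (nat_lit 5) (nat_lit 486) (nat_lit 440)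 (nat_lit 214))) (XT.nd (nat_lit 78) (nat_lit 608) (nat_lit 0) (XT.lf (nat_lit 0) (nat_lit 11686261429) (nat_lit 684) (nat_lit 2450659677) (nat_lit 760) (nat_lit 8340229682) (nat_lit 260) (nat_lit 5) (nat_lit 269) (nat_lit 5) (nat_lit 270) (nat_lit 5) (nat_lit 487) (nat_lit 440) (nat_lit 213)) (XT.lf (nat_lit 0) (nat_lit 573995507) (nat_lit 608) (nat_lit 16577702969) (nat_lit 684) (nat_lit 5591531715) (nat_lit 252) (nat_lit 5) (nat_lit 260) (nat_lit 5) (nat_lit 261) (nat_lit 5) (nat_lit 488) (nat_lit 440) (nat_lit 212))))) (XT.nd (nat_lit 234) (nat_lit 1216) (nat_lit 0) (XT.nd (nat_lit 78) (nat_lit 760) (nat_lit 0) (XT.lf (nat_lit 0) (nat_lit 12291343346) (nat_lit 608) (nat_lit 8019856006) (nat_lit 684) (nat_lit 2701745625) (nat_lit 252) (nat_lit 5) (nat_lit 260) (nat_lit 5) (nat_lit 261) (nat_lit 5) (nat_lit 489) (nat_lit 440) (nat_lit 211)) (XT.nd (nat_lit 78) (nat_lit 0) (nat_lit 0) (XT.lf (nat_lit 0) (nat_lit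 249450540) (nat_lit 760) (nat_lit 22331264241) (nat_lit 76) (nat_lit 707172848) (nat_lit 242) (nat_lit 5) (nat_lit 252) (nat_lit 5) (nat_lit 243) (nat_lit 5) (nat_lit 490) (nat_lit 440) (nat_lit 210)) (XT.lf (nat_lit 0) (nat_lit 3345053846) (nat_lit 760) (nat_lit 10629299245) (nat_lit 76) (nat_lit 9591189898) (nat_lit 242) (nat_lit 5) (nat_lit 252) (nat_lit 5) (nat_lit 243) (nat_lit 5) (nat_lit 491) (nat_lit 440) (nat_lit 209)))) (XT.nd (nat_lit 156) (nat_lit 608) (nat_lit 0) (XT.nd (nat_lit 78) (nat_lit 0) (nat_lit 0) (XT.lf (nat_lit 0) (nat_lit 1319425588) (nat_lit 608) (nat_lit 5187778923) (nat_lit 684) (nat_lit 17341456416) (nat_lit 234) (nat_lit 5) (nat_lit 242) (nat_lit 5) (nat_lit 243) (nat_lit 5) (nat_lit 492) (nat_lit 440) (nat_lit 208)) (XT.lf (nat_lit 0) (nat_lit 9825017361) (nat_lit 684) (nat_lit 10514415161) (nat_lit 76) (nat_lit 3796162451) (nat_lit 234) (nat_lit 5) (nat_lit 243) (nat_lit 5) (nat_lit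 235) (nat_lit 5) (nat_lit 493) (nat_lit 440) (nat_lit 207))) (XT.nd (nat_lit 78) (nat_lit 0) (nat_lit 0) (XT.lf (nat_lit 0) (nat_lit 1724422889) (nat_lit 608) (nat_lit 11526503939) (nat_lit 684) (nat_lit 11176508154) (nat_lit 226) (nat_lit 5) (nat_lit 234) (nat_lit 5) (nat_lit 235) (nat_lit 5) (nat_lit 494) (nat_lit 440) (nat_lit 206)) (XT.lf (nat_lit 0) (nat_lit 14346054728) (nat_lit 608) (nat_lit 2466090599) (nat_lit 684) (nat_lit 7911632698) (nat_lit 226) (nat_lit 5) (nat_lit 234) (nat_lit 5) (nat_lit 235) (nat_lit 5) (nat_lit 495) (nat_lit 440) (nat_lit 205)))))) (XT.nd (nat_lit 546) (nat_lit 1976) (nat_lit 0) (XT.nd (nat_lit 234) (nat_lit 1064) (nat_lit 0) (XT.nd (nat_lit 78) (nat_lit 684) (nat_lit 0) (XT.lf (nat_lit 0) (nat_lit 2174102408) (nat_lit 532) (nat_lit 18324895454) (nat_lit 608) (nat_lit 4525963883) (nat_lit 219) (nat_lit 5) (nat_lit 226) (nat_lit 5) (nat_lit 227) (nat_lit 5) (nat_lit 496) (nat_lit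 440) (nat_lit 204)) (XT.nd (nat_lit 78) (nat_lit 684) (nat_lit 0) (XT.lf (nat_lit 0) (nat_lit 15096626812) (nat_lit 532) (nat_lit 9245171136) (nat_lit 608) (nat_lit 988728951) (nat_lit 219) (nat_lit 5) (nat_lit 226) (nat_lit 5) (nat_lit 227) (nat_lit 5) (nat_lit 497) (nat_lit 440) (nat_lit 203)) (XT.lf (nat_lit 0) (nat_lit 2598814196) (nat_lit 684) (nat_lit 22993212871) (nat_lit 76) (nat_lit 49559755) (nat_lit 210) (nat_lit 5) (nat_lit 219) (nat_lit 5) (nat_lit 211) (nat_lit 5) (nat_lit 498) (nat_lit 440) (nat_lit 202)))) (XT.nd (nat_lit 156) (nat_lit 532) (nat_lit 0) (XT.nd (nat_lit 78) (nat_lit 532) (nat_lit 0) (XT.lf (nat_lit 0) (nat_lit 6371666525) (nat_lit 684) (nat_lit 10103169588) (nat_lit 76) (nat_lit 9481367031) (nat_lit 210) (nat_lit 5) (nat_lit 219) (nat_lit 5) (nat_lit 211) (nat_lit 5) (nat_lit 499) (nat_lit 440) (nat_lit 201)) (XT.lf (nat_lit 0) (nat_lit 3080703196) (nat_lit 532) (nat_lit 7155773758)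 (nat_lit 608) (nat_lit 16040306635) (nat_lit 203) (nat_lit 5) (nat_lit 210) (nat_lit 5) (nat_lit 211) (nat_lit 5) (nat_lit 500) (nat_lit 440) (nat_lit 200))) (XT.nd (nat_lit 78) (nat_lit 532) (nat_lit 0) (XT.lf (nat_lit 0) (nat_lit 14258619543) (nat_lit 608) (nat_lit 9957331537) (nat_lit 76) (nat_lit 2386225630) (nat_lit 203) (nat_lit 5) (nat_lit 211) (nat_lit 5) (nat_lit 204) (nat_lit 5) (nat_lit 501) (nat_lit 440) (nat_lit 199)) (XT.lf (nat_lit 0) (nat_lit 3540917546) (nat_lit 532) (nat_lit 14887268377) (nat_lit 608) (nat_lit 8504553901) (nat_lit 196) (nat_lit 5) (nat_lit 203) (nat_lit 5) (nat_lit 204) (nat_lit 5) (nat_lit 502) (nat_lit 440) (nat_lit 198))))) (XT.nd (nat_lit 312) (nat_lit 912) (nat_lit 0) (XT.nd (nat_lit 156) (nat_lit 608) (nat_lit 0) (XT.nd (nat_lit 78) (nat_lit 456) (nat_lit 0) (XT.lf (nat_lit 0) (nat_lit 17439809025) (nat_lit 532) (nat_lit 5304793999) (nat_lit 608) (nat_lit 4524043703) (nat_lit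 196) (nat_lit 5) (nat_lit 203) (nat_lit 5) (nat_lit 204) (nat_lit 5) (nat_lit 503) (nat_lit 440) (nat_lit 197)) (XT.lf (nat_lit 0) (nat_lit 4024901850) (nat_lit 456) (nat_lit 23174297169) (nat_lit 532) (nat_lit 411037419) (nat_lit 190) (nat_lit 5) (nat_lit 196) (nat_lit 5) (nat_lit 197) (nat_lit 5) (nat_lit 504) (nat_lit 440) (nat_lit 196))) (XT.nd (nat_lit 78) (nat_lit 532) (nat_lit 0) (XT.lf (nat_lit 0) (nat_lit 3832836969) (nat_lit 532) (nat_lit 9732819080) (nat_lit 76) (nat_lit 14390547340) (nat_lit 189) (nat_lit 5) (nat_lit 196) (nat_lit 5) (nat_lit 190) (nat_lit 5) (nat_lit 505) (nat_lit 440) (nat_lit 195)) (XT.lf (nat_lit 0) (nat_lit 4448155808) (nat_lit 532) (nat_lit 3733593458) (nat_lit 608) (nat_lit 20126774374) (nat_lit 182) (nat_lit 5) (nat_lit 189) (nat_lit 5) (nat_lit 190) (nat_lit 5) (nat_lit 506) (nat_lit 440) (nat_lit 194)))) (XT.nd (nat_lit 156) (nat_lit 456) (nat_lit 0) (XT.nd (nat_lit 78) (nat_lit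 456) (nat_lit 0) (XT.lf (nat_lit 0) (nat_lit 12721064974) (nat_lit 608) (nat_lit 9667445811) (nat_lit 76) (nat_lit 6277312561) (nat_lit 182) (nat_lit 5) (nat_lit 190) (nat_lit 5) (nat_lit 183) (nat_lit 5) (nat_lit 507) (nat_lit 440) (nat_lit 193)) (XT.lf (nat_lit 0) (nat_lit 4843983367) (nat_lit 456) (nat_lit 12560230611) (nat_lit 532) (nat_lit 11624995653) (nat_lit 176) (nat_lit 5) (nat_lit 182) (nat_lit 5) (nat_lit 183) (nat_lit 5) (nat_lit 508) (nat_lit 440) (nat_lit 192))) (XT.nd (nat_lit 78) (nat_lit 456) (nat_lit 0) (XT.lf (nat_lit 0) (nat_lit 19772558026) (nat_lit 456) (nat_lit 2470246985) (nat_lit 532) (nat_lit 7155824541) (nat_lit 176) (nat_lit 5) (nat_lit 182) (nat_lit 5) (nat_lit 183) (nat_lit 5) (nat_lit 509) (nat_lit 440) (nat_lit 191)) (XT.lf (nat_lit 0) (nat_lit 5238079558) (nat_lit 456) (nat_lit 22021839496) (nat_lit 532) (nat_lit 2513885258) (nat_lit 170) (nat_lit 5) (nat_lit 176) (nat_lit 5) (nat_lit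 177) (nat_lit 5) (nat_lit 510) (nat_lit 440) (nat_lit 190))))))))
noncomputable def xc223 : XT := (XT.nd (nat_lit 55692) (nat_lit 0) (nat_lit 6460) (XT.nd (nat_lit 54600) (nat_lit 0) (nat_lit 17024) (XT.nd (nat_lit 54054) (nat_lit 0) (nat_lit 18164) (XT.nd (nat_lit 234) (nat_lit 456) (nat_lit 0) (XT.nd (nat_lit 78) (nat_lit 456) (nat_lit 0) (XT.lf (nat_lit 0) (nat_lit 2270119771) (nat_lit 532) (nat_lit 9660516766) (nat_lit 76) (nat_lit 18223991959) (nat_lit 169) (nat_lit 5) (nat_lit 176) (nat_lit 5) (nat_lit 170) (nat_lit 5) (nat_lit 511) (nat_lit 440) (nat_lit 189)) (XT.nd (nat_lit 78) (nat_lit 0) (nat_lit 0) (XT.lf (nat_lit 0) (nat_lit 5564489982) (nat_lit 456) (nat_lit 1584844533) (nat_lit 532) (nat_lit 23392739884) (nat_lit 163) (nat_lit 5) (nat_lit 169) (nat_lit 5) (nat_lit 170) (nat_lit 5) (nat_lit 512) (nat_lit 440) (nat_lit 188)) (XT.lf (nat_lit 0) (nat_lit 12246671274) (nat_lit 532) (nat_lit 9773742611)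 (nat_lit 76) (nat_lit 8914445932) (nat_lit 163) (nat_lit 5) (nat_lit 170) (nat_lit 5) (nat_lit 164) (nat_lit 5) (nat_lit 513) (nat_lit 440) (nat_lit 187)))) (XT.nd (nat_lit 53664) (nat_lit 0) (nat_lit 18088) (XT.nd (nat_lit 78) (nat_lit 0) (nat_lit 0) (XT.lf (nat_lit 0) (nat_lit 5795708790) (nat_lit 456) (nat_lit 11695484881) (nat_lit 532) (nat_lit 13843403819) (nat_lit 157) (nat_lit 5) (nat_lit 163) (nat_lit 5) (nat_lit 164) (nat_lit 5) (nat_lit 514) (nat_lit 440) (nat_lit 186)) (XT.lf (nat_lit 0) (nat_lit 21805077733) (nat_lit 456) (nat_lit 1098260302) (nat_lit 532) (nat_lit 8837738552) (nat_lit 157) (nat_lit 5) (nat_lit 163) (nat_lit 5) (nat_lit 164) (nat_lit 5) (nat_lit 515) (nat_lit 440) (nat_lit 185))) (XT.nd (nat_lit 78) (nat_lit 0) (nat_lit 0) (XT.lf (nat_lit 0) (nat_lit 782014358) (nat_lit 1748) (nat_lit 3085933496) (nat_lit 1748) (nat_lit 3085933496) (nat_lit 395) (nat_lit 3) (nat_lit 418) (nat_lit 3)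 (nat_lit 418) (nat_lit 5) (nat_lit 441) (nat_lit 441) (nat_lit 258)) (XT.lf (nat_lit 76) (nat_lit 227117490) (nat_lit 0) (nat_lit 1689606081) (nat_lit 1748) (nat_lit 12123143446) (nat_lit 396) (nat_lit 5) (nat_lit 395) (nat_lit 3) (nat_lit 418) (nat_lit 5) (nat_lit 442) (nat_lit 441) (nat_lit 257))))) (XT.nd (nat_lit 234) (nat_lit 0) (nat_lit 76) (XT.nd (nat_lit 78) (nat_lit 0) (nat_lit 0) (XT.lf (nat_lit 0) (nat_lit 2338430540) (nat_lit 1672) (nat_lit 7370150513) (nat_lit 1748) (nat_lit 4464799291) (nat_lit 396) (nat_lit 5) (nat_lit 418) (nat_lit 5) (nat_lit 419) (nat_lit 5) (nat_lit 443) (nat_lit 441) (nat_lit 256)) (XT.nd (nat_lit 78) (nat_lit 0) (nat_lit 76) (XT.lf (nat_lit 0) (nat_lit 2771129573) (nat_lit 1672) (nat_lit 814558061) (nat_lit 1748) (nat_lit 10723831116) (nat_lit 396) (nat_lit 5) (nat_lit 418) (nat_lit 5) (nat_lit 419) (nat_lit 5) (nat_lit 444) (nat_lit 441) (nat_lit 255)) (XT.lf (nat_lit 0) (nat_lit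 3260171908) (nat_lit 1672) (nat_lit 8519786552) (nat_lit 1748) (nat_lit 2667473534) (nat_lit 397) (nat_lit 5) (nat_lit 419) (nat_lit 5) (nat_lit 420) (nat_lit 5) (nat_lit 445) (nat_lit 441) (nat_lit 254)))) (XT.nd (nat_lit 156) (nat_lit 0) (nat_lit 76) (XT.nd (nat_lit 78) (nat_lit 0) (nat_lit 76) (XT.lf (nat_lit 0) (nat_lit 3779942338) (nat_lit 1672) (nat_lit 1800786310) (nat_lit 1748) (nat_lit 9006961648) (nat_lit 397) (nat_lit 5) (nat_lit 419) (nat_lit 5) (nat_lit 420) (nat_lit 5) (nat_lit 446) (nat_lit 441) (nat_lit 253)) (XT.lf (nat_lit 0) (nat_lit 4340243046) (nat_lit 1672) (nat_lit 9620294008) (nat_lit 1748) (nat_lit 769619641) (nat_lit 398) (nat_lit 5) (nat_lit 420) (nat_lit 5) (nat_lit 421) (nat_lit 5) (nat_lit 447) (nat_lit 441) (nat_lit 252))) (XT.nd (nat_lit 78) (nat_lit 0) (nat_lit 0) (XT.lf (nat_lit 0) (nat_lit 4952885499) (nat_lit 1672) (nat_lit 2733942728) (nat_lit 1748) (nat_lit 7187826997) (nat_lit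 398) (nat_lit 5) (nat_lit 420) (nat_lit 5) (nat_lit 421) (nat_lit 5) (nat_lit 448) (nat_lit 441) (nat_lit 251)) (XT.lf (nat_lit 76) (nat_lit 4342372561) (nat_lit 0) (nat_lit 1255771422) (nat_lit 1748) (nat_lit 9423497886) (nat_lit 399) (nat_lit 5) (nat_lit 398) (nat_lit 5) (nat_lit 421) (nat_lit 5) (nat_lit 449) (nat_lit 441) (nat_lit 250)))))) (XT.nd (nat_lit 546) (nat_lit 1368) (nat_lit 0) (XT.nd (nat_lit 234) (nat_lit 0) (nat_lit 76) (XT.nd (nat_lit 78) (nat_lit 0) (nat_lit 0) (XT.lf (nat_lit 0) (nat_lit 6301524196) (nat_lit 1672) (nat_lit 3613347915) (nat_lit 1748) (nat_lit 5255797108) (nat_lit 399) (nat_lit 5) (nat_lit 421) (nat_lit 5) (nat_lit 422) (nat_lit 5) (nat_lit 450) (nat_lit 441) (nat_lit 249)) (XT.nd (nat_lit 78) (nat_lit 0) (nat_lit 76) (XT.lf (nat_lit 76) (nat_lit 3628395856) (nat_lit 0) (nat_lit 3414913600) (nat_lit 1748) (nat_lit 8278886110) (nat_lit 400) (nat_lit 5) (nat_lit 399) (nat_lit 5)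 (nat_lit 422) (nat_lit 5) (nat_lit 451) (nat_lit 441) (nat_lit 248)) (XT.lf (nat_lit 0) (nat_lit 7837810256) (nat_lit 1672) (nat_lit 4438254195) (nat_lit 1748) (nat_lit 3199935490) (nat_lit 400) (nat_lit 5) (nat_lit 422) (nat_lit 5) (nat_lit 423) (nat_lit 5) (nat_lit 452) (nat_lit 441) (nat_lit 247)))) (XT.nd (nat_lit 156) (nat_lit 0) (nat_lit 76) (XT.nd (nat_lit 78) (nat_lit 0) (nat_lit 76) (XT.lf (nat_lit 76) (nat_lit 2973981097) (nat_lit 0) (nat_lit 5708887088) (nat_lit 1748) (nat_lit 6949323870) (nat_lit 401) (nat_lit 5) (nat_lit 400) (nat_lit 5) (nat_lit 423) (nat_lit 5) (nat_lit 453) (nat_lit 441) (nat_lit 246)) (XT.lf (nat_lit 0) (nat_lit 9574102275) (nat_lit 1672) (nat_lit 5207853805) (nat_lit 1748) (nat_lit 1008971333) (nat_lit 401) (nat_lit 5) (nat_lit 423) (nat_lit 5) (nat_lit 424) (nat_lit 5) (nat_lit 454) (nat_lit 441) (nat_lit 245))) (XT.nd (nat_lit 78) (nat_lit 0) (nat_lit 0) (XT.lf (nat_lit 76)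 (nat_lit 2380073626) (nat_lit 0) (nat_lit 8149356832) (nat_lit 1748) (nat_lit 5422486434) (nat_lit 402) (nat_lit 5) (nat_lit 401) (nat_lit 5) (nat_lit 424) (nat_lit 5) (nat_lit 455) (nat_lit 441) (nat_lit 244)) (XT.lf (nat_lit 76) (nat_lit 10185540551) (nat_lit 0) (nat_lit 1346387117) (nat_lit 1748) (nat_lit 4583641952) (nat_lit 402) (nat_lit 5) (nat_lit 401) (nat_lit 5) (nat_lit 424) (nat_lit 5) (nat_lit 456) (nat_lit 441) (nat_lit 243))))) (XT.nd (nat_lit 234) (nat_lit 1596) (nat_lit 0) (XT.nd (nat_lit 78) (nat_lit 0) (nat_lit 0) (XT.lf (nat_lit 76) (nat_lit 1847671493) (nat_lit 0) (nat_lit 10748373993) (nat_lit 1748) (nat_lit 3685623120) (nat_lit 403) (nat_lit 5) (nat_lit 402) (nat_lit 5) (nat_lit 425) (nat_lit 5) (nat_lit 457) (nat_lit 441) (nat_lit 242)) (XT.nd (nat_lit 78) (nat_lit 0) (nat_lit 76) (XT.lf (nat_lit 76) (nat_lit 9847434934) (nat_lit 0) (nat_lit 3876026038) (nat_lit 1748) (nat_lit 2726792819)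 (nat_lit 403) (nat_lit 5) (nat_lit 402) (nat_lit 5) (nat_lit 425) (nat_lit 5) (nat_lit 458) (nat_lit 441) (nat_lit 241)) (XT.lf (nat_lit 76) (nat_lit 1377816387) (nat_lit 0) (nat_lit 13518406029) (nat_lit 1748) (nat_lit 1725536749) (nat_lit 404) (nat_lit 5) (nat_lit 403) (nat_lit 5) (nat_lit 426) (nat_lit 5) (nat_lit 459) (nat_lit 441) (nat_lit 240)))) (XT.nd (nat_lit 156) (nat_lit 0) (nat_lit 0) (XT.nd (nat_lit 78) (nat_lit 1672) (nat_lit 0) (XT.lf (nat_lit 76) (nat_lit 9576698905) (nat_lit 0) (nat_lit 6579149990) (nat_lit 1748) (nat_lit 639581904) (nat_lit 404) (nat_lit 5) (nat_lit 403) (nat_lit 5) (nat_lit 426) (nat_lit 5) (nat_lit 460) (nat_lit 441) (nat_lit 239)) (XT.lf (nat_lit 0) (nat_lit 465254281) (nat_lit 1748) (nat_lit 16003991249) (nat_lit 1824) (nat_lit 503207707) (nat_lit 381) (nat_lit 5) (nat_lit 404) (nat_lit 5) (nat_lit 405) (nat_lit 5) (nat_lit 461) (nat_lit 441) (nat_lit 238))) (XT.nd (nat_lit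 78) (nat_lit 0) (nat_lit 0) (XT.lf (nat_lit 0) (nat_lit 1669746727) (nat_lit 1748) (nat_lit 7787879663) (nat_lit 1824) (nat_lit 7693586810) (nat_lit 381) (nat_lit 5) (nat_lit 404) (nat_lit 5) (nat_lit 405) (nat_lit 5) (nat_lit 462) (nat_lit 441) (nat_lit 237)) (XT.lf (nat_lit 76) (nat_lit 595504543) (nat_lit 0) (nat_lit 2300595503) (nat_lit 1824) (nat_lit 14437496914) (nat_lit 382) (nat_lit 5) (nat_lit 381) (nat_lit 5) (nat_lit 405) (nat_lit 5) (nat_lit 463) (nat_lit 441) (nat_lit 236))))))) (XT.nd (nat_lit 1092) (nat_lit 5776) (nat_lit 0) (XT.nd (nat_lit 546) (nat_lit 2660) (nat_lit 0) (XT.nd (nat_lit 234) (nat_lit 2204) (nat_lit 0) (XT.nd (nat_lit 78) (nat_lit 0) (nat_lit 0) (XT.lf (nat_lit 0) (nat_lit 4226048311) (nat_lit 1748) (nat_lit 8304226177) (nat_lit 1824) (nat_lit 4987776490) (nat_lit 382) (nat_lit 5) (nat_lit 405) (nat_lit 5) (nat_lit 406) (nat_lit 5) (nat_lit 464) (nat_lit 441) (nat_lit 235)) (XT.nd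 (nat_lit 78) (nat_lit 0) (nat_lit 76) (XT.lf (nat_lit 76) (nat_lit 281916761) (nat_lit 0) (nat_lit 5311862985) (nat_lit 1824) (nat_lit 12112194509) (nat_lit 383) (nat_lit 5) (nat_lit 382) (nat_lit 5) (nat_lit 406) (nat_lit 5) (nat_lit 465) (nat_lit 441) (nat_lit 234)) (XT.lf (nat_lit 0) (nat_lit 7052484832) (nat_lit 1748) (nat_lit 8762834233) (nat_lit 76) (nat_lit 2081068340) (nat_lit 383) (nat_lit 5) (nat_lit 406) (nat_lit 5) (nat_lit 384) (nat_lit 5) (nat_lit 466) (nat_lit 441) (nat_lit 233)))) (XT.nd (nat_lit 156) (nat_lit 836) (nat_lit 0) (XT.nd (nat_lit 78) (nat_lit 0) (nat_lit 0) (XT.lf (nat_lit 0) (nat_lit 31996088) (nat_lit 1444) (nat_lit 8538075469) (nat_lit 1520) (nat_lit 9519946823) (nat_lit 364) (nat_lit 5) (nat_lit 383) (nat_lit 5) (nat_lit 384) (nat_lit 5) (nat_lit 467) (nat_lit 441) (nat_lit 232)) (XT.lf (nat_lit 0) (nat_lit 9116678368) (nat_lit 1444) (nat_lit 1054536770) (nat_lit 1520) (nat_lit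 8115246372) (nat_lit 364) (nat_lit 5) (nat_lit 383) (nat_lit 5) (nat_lit 384) (nat_lit 5) (nat_lit 468) (nat_lit 441) (nat_lit 231))) (XT.nd (nat_lit 78) (nat_lit 836) (nat_lit 0) (XT.lf (nat_lit 0) (nat_lit 11841611265) (nat_lit 1520) (nat_lit 151343083) (nat_lit 76) (nat_lit 6493138132) (nat_lit 364) (nat_lit 5) (nat_lit 384) (nat_lit 5) (nat_lit 365) (nat_lit 5) (nat_lit 469) (nat_lit 441) (nat_lit 230)) (XT.lf (nat_lit 0) (nat_lit 9155806488) (nat_lit 836) (nat_lit 4450662166) (nat_lit 912) (nat_lit 5082029846) (nat_lit 353) (nat_lit 5) (nat_lit 364) (nat_lit 5) (nat_lit 365) (nat_lit 5) (nat_lit 470) (nat_lit 441) (nat_lit 229))))) (XT.nd (nat_lit 234) (nat_lit 1672) (nat_lit 0) (XT.nd (nat_lit 78) (nat_lit 988) (nat_lit 0) (XT.lf (nat_lit 0) (nat_lit 15423400380) (nat_lit 912) (nat_lit 269678376) (nat_lit 76) (nat_lit 3201541772) (nat_lit 353) (nat_lit 5) (nat_lit 365) (nat_lit 5) (nat_lit 354) (nat_lit 5)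 (nat_lit 471) (nat_lit 441) (nat_lit 228)) (XT.nd (nat_lit 78) (nat_lit 76) (nat_lit 0) (XT.lf (nat_lit 0) (nat_lit 9265902215) (nat_lit 912) (nat_lit 8095209928) (nat_lit 988) (nat_lit 1742067387) (nat_lit 341) (nat_lit 5) (nat_lit 353) (nat_lit 5) (nat_lit 354) (nat_lit 5) (nat_lit 472) (nat_lit 441) (nat_lit 227)) (XT.lf (nat_lit 0) (nat_lit 18046417) (nat_lit 988) (nat_lit 324959516) (nat_lit 76) (nat_lit 18972970954) (nat_lit 340) (nat_lit 5) (nat_lit 353) (nat_lit 5) (nat_lit 341) (nat_lit 5) (nat_lit 473) (nat_lit 441) (nat_lit 226)))) (XT.nd (nat_lit 156) (nat_lit 836) (nat_lit 0) (XT.nd (nat_lit 78) (nat_lit 0) (nat_lit 0) (XT.lf (nat_lit 0) (nat_lit 1896186451) (nat_lit 912) (nat_lit 10095484730) (nat_lit 76) (nat_lit 7539008874) (nat_lit 329) (nat_lit 5) (nat_lit 341) (nat_lit 5) (nat_lit 330) (nat_lit 5) (nat_lit 474) (nat_lit 441) (nat_lit 225)) (XT.lf (nat_lit 0) (nat_lit 3811368693) (nat_lit 912)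 (nat_lit 361725206) (nat_lit 76) (nat_lit 15576596906) (nat_lit 329) (nat_lit 5) (nat_lit 341) (nat_lit 5) (nat_lit 330) (nat_lit 5) (nat_lit 475) (nat_lit 441) (nat_lit 224))) (XT.nd (nat_lit 78) (nat_lit 0) (nat_lit 0) (XT.lf (nat_lit 0) (nat_lit 5847975474) (nat_lit 912) (nat_lit 10307912962) (nat_lit 76) (nat_lit 3815533961) (nat_lit 318) (nat_lit 5) (nat_lit 330) (nat_lit 5) (nat_lit 319) (nat_lit 5) (nat_lit 476) (nat_lit 441) (nat_lit 223)) (XT.lf (nat_lit 0) (nat_lit 7950571704) (nat_lit 912) (nat_lit 335780711) (nat_lit 76) (nat_lit 11910734046) (nat_lit 318) (nat_lit 5) (nat_lit 330) (nat_lit 5) (nat_lit 319) (nat_lit 5) (nat_lit 477) (nat_lit 441) (nat_lit 222)))))) (XT.nd (nat_lit 546) (nat_lit 2736) (nat_lit 0) (XT.nd (nat_lit 234) (nat_lit 1520) (nat_lit 0) (XT.nd (nat_lit 78) (nat_lit 760) (nat_lit 0) (XT.lf (nat_lit 0) (nat_lit 9961797669) (nat_lit 760) (nat_lit 193372835) (nat_lit 836) (nat_lit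 10270897217) (nat_lit 308) (nat_lit 5) (nat_lit 318) (nat_lit 5) (nat_lit 319) (nat_lit 5) (nat_lit 478) (nat_lit 441) (nat_lit 221)) (XT.nd (nat_lit 78) (nat_lit 760) (nat_lit 0) (XT.lf (nat_lit 0) (nat_lit 12453804947) (nat_lit 836) (nat_lit 246772837) (nat_lit 76) (nat_lit 7958054819) (nat_lit 308) (nat_lit 5) (nat_lit 319) (nat_lit 5) (nat_lit 309) (nat_lit 5) (nat_lit 479) (nat_lit 441) (nat_lit 220)) (XT.lf (nat_lit 0) (nat_lit 10304315881) (nat_lit 760) (nat_lit 4557705827) (nat_lit 836) (nat_lit 6032557696) (nat_lit 298) (nat_lit 5) (nat_lit 308) (nat_lit 5) (nat_lit 309) (nat_lit 5) (nat_lit 480) (nat_lit 441) (nat_lit 219)))) (XT.nd (nat_lit 156) (nat_lit 836) (nat_lit 0) (XT.nd (nat_lit 78) (nat_lit 684) (nat_lit 0) (XT.lf (nat_lit 0) (nat_lit 17339890336) (nat_lit 836) (nat_lit 94469114) (nat_lit 76) (nat_lit 3700458699) (nat_lit 298) (nat_lit 5) (nat_lit 309) (nat_lit 5) (nat_lit 299) (nat_lit 5) (nat_lit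 481) (nat_lit 441) (nat_lit 218)) (XT.lf (nat_lit 0) (nat_lit 10717022282) (nat_lit 684) (nat_lit 9245633998) (nat_lit 760) (nat_lit 1415301294) (nat_lit 289) (nat_lit 5) (nat_lit 298) (nat_lit 5) (nat_lit 299) (nat_lit 5) (nat_lit 482) (nat_lit 441) (nat_lit 217))) (XT.nd (nat_lit 78) (nat_lit 0) (nat_lit 0) (XT.lf (nat_lit 0) (nat_lit 110327718) (nat_lit 760) (nat_lit 885273071) (nat_lit 836) (nat_lit 20630291108) (nat_lit 278) (nat_lit 5) (nat_lit 288) (nat_lit 5) (nat_lit 289) (nat_lit 5) (nat_lit 483) (nat_lit 441) (nat_lit 216)) (XT.lf (nat_lit 0) (nat_lit 3553075773) (nat_lit 836) (nat_lit 10699971167) (nat_lit 76) (nat_lit 7623207297) (nat_lit 278) (nat_lit 5) (nat_lit 289) (nat_lit 5) (nat_lit 279) (nat_lit 5) (nat_lit 484) (nat_lit 441) (nat_lit 215))))) (XT.nd (nat_lit 312) (nat_lit 1368) (nat_lit 0) (XT.nd (nat_lit 156) (nat_lit 684) (nat_lit 0) (XT.nd (nat_lit 78) (nat_lit 0) (nat_lit 0) (XT.lf (nat_lit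 0) (nat_lit 325755705) (nat_lit 684) (nat_lit 5839662418) (nat_lit 760) (nat_lit 15966133841) (nat_lit 269) (nat_lit 5) (nat_lit 278) (nat_lit 5) (nat_lit 279) (nat_lit 5) (nat_lit 485) (nat_lit 441) (nat_lit 214)) (XT.lf (nat_lit 0) (nat_lit 8915879856) (nat_lit 760) (nat_lit 10696401600) (nat_lit 76) (nat_lit 2777959190) (nat_lit 269) (nat_lit 5) (nat_lit 279) (nat_lit 5) (nat_lit 270) (nat_lit 5) (nat_lit 486) (nat_lit 441) (nat_lit 213))) (XT.nd (nat_lit 78) (nat_lit 0) (nat_lit 0) (XT.lf (nat_lit 0) (nat_lit 599823788) (nat_lit 684) (nat_lit 11159969030) (nat_lit 760) (nat_lit 10893543845) (nat_lit 260) (nat_lit 5) (nat_lit 269) (nat_lit 5) (nat_lit 270) (nat_lit 5) (nat_lit 487) (nat_lit 441) (nat_lit 212)) (XT.lf (nat_lit 0) (nat_lit 12262445462) (nat_lit 684) (nat_lit 2465842886) (nat_lit 760) (nat_lit 8192054519) (nat_lit 260) (nat_lit 5) (nat_lit 269) (nat_lit 5) (nat_lit 270) (nat_lit 5) (nat_lit 488)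 (nat_lit 441) (nat_lit 211)))) (XT.nd (nat_lit 156) (nat_lit 760) (nat_lit 0) (XT.nd (nat_lit 78) (nat_lit 0) (nat_lit 0) (XT.lf (nat_lit 0) (nat_lit 931772155) (nat_lit 608) (nat_lit 16868001293) (nat_lit 684) (nat_lit 5392045664) (nat_lit 252) (nat_lit 5) (nat_lit 260) (nat_lit 5) (nat_lit 261) (nat_lit 5) (nat_lit 489) (nat_lit 441) (nat_lit 210)) (XT.lf (nat_lit 0) (nat_lit 12876676820) (nat_lit 608) (nat_lit 8139806327) (nat_lit 684) (nat_lit 2450568101) (nat_lit 252) (nat_lit 5) (nat_lit 260) (nat_lit 5) (nat_lit 261) (nat_lit 5) (nat_lit 490) (nat_lit 441) (nat_lit 209))) (XT.nd (nat_lit 78) (nat_lit 0) (nat_lit 0) (XT.lf (nat_lit 0) (nat_lit 552244710) (nat_lit 760) (nat_lit 22430642793) (nat_lit 76) (nat_lit 764636999) (nat_lit 242) (nat_lit 5) (nat_lit 252) (nat_lit 5) (nat_lit 243) (nat_lit 5) (nat_lit 491) (nat_lit 441) (nat_lit 208)) (XT.lf (nat_lit 0) (nat_lit 3703920765) (nat_lit 760) (nat_lit 10501447257)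 (nat_lit 76) (nat_lit 9825484965) (nat_lit 242) (nat_lit 5) (nat_lit 252) (nat_lit 5) (nat_lit 243) (nat_lit 5) (nat_lit 492) (nat_lit 441) (nat_lit 207))))))))
noncomputable def xc224 : XT := (XT.nd (nat_lit 55770) (nat_lit 0) (nat_lit 13072) (XT.nd (nat_lit 1092) (nat_lit 2432) (nat_lit 0) (XT.nd (nat_lit 546) (nat_lit 1596) (nat_lit 0) (XT.nd (nat_lit 234) (nat_lit 1216) (nat_lit 0) (XT.nd (nat_lit 78) (nat_lit 608) (nat_lit 0) (XT.lf (nat_lit 0) (nat_lit 1684012350) (nat_lit 608) (nat_lit 5241773081) (nat_lit 684) (nat_lit 17393921600) (nat_lit 234) (nat_lit 5) (nat_lit 242) (nat_lit 5) (nat_lit 243) (nat_lit 5) (nat_lit 493) (nat_lit 441) (nat_lit 206)) (XT.nd (nat_lit 78) (nat_lit 608) (nat_lit 0) (XT.lf (nat_lit 0) (nat_lit 10304615662) (nat_lit 684) (nat_lit 10387642405) (nat_lit 76) (nat_lit 3920231573) (nat_lit 234) (nat_lit 5) (nat_lit 243) (nat_lit 5) (nat_lit 235) (nat_lit 5) (nat_lit 494) (nat_lit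 441) (nat_lit 205)) (XT.lf (nat_lit 0) (nat_lit 2093754899) (nat_lit 608) (nat_lit 11701911506) (nat_lit 684) (nat_lit 11114570628) (nat_lit 226) (nat_lit 5) (nat_lit 234) (nat_lit 5) (nat_lit 235) (nat_lit 5) (nat_lit 495) (nat_lit 441) (nat_lit 204)))) (XT.nd (nat_lit 156) (nat_lit 684) (nat_lit 0) (XT.nd (nat_lit 78) (nat_lit 532) (nat_lit 0) (XT.lf (nat_lit 0) (nat_lit 14961253815) (nat_lit 608) (nat_lit 2461370733) (nat_lit 684) (nat_lit 7789995068) (nat_lit 226) (nat_lit 5) (nat_lit 234) (nat_lit 5) (nat_lit 235) (nat_lit 5) (nat_lit 496) (nat_lit 441) (nat_lit 203)) (XT.lf (nat_lit 0) (nat_lit 2548951063) (nat_lit 532) (nat_lit 18631381334) (nat_lit 608) (nat_lit 4339555174) (nat_lit 219) (nat_lit 5) (nat_lit 226) (nat_lit 5) (nat_lit 227) (nat_lit 5) (nat_lit 497) (nat_lit 441) (nat_lit 202))) (XT.nd (nat_lit 78) (nat_lit 684) (nat_lit 0) (XT.lf (nat_lit 0) (nat_lit 15723428571) (nat_lit 532) (nat_lit 9371239236)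 (nat_lit 608) (nat_lit 737005504) (nat_lit 219) (nat_lit 5) (nat_lit 226) (nat_lit 5) (nat_lit 227) (nat_lit 5) (nat_lit 498) (nat_lit 441) (nat_lit 201)) (XT.lf (nat_lit 0) (nat_lit 2915993339) (nat_lit 684) (nat_lit 23121634227) (nat_lit 76) (nat_lit 111349058) (nat_lit 210) (nat_lit 5) (nat_lit 219) (nat_lit 5) (nat_lit 211) (nat_lit 5) (nat_lit 499) (nat_lit 441) (nat_lit 200))))) (XT.nd (nat_lit 234) (nat_lit 1064) (nat_lit 0) (XT.nd (nat_lit 78) (nat_lit 532) (nat_lit 0) (XT.lf (nat_lit 0) (nat_lit 6759102658) (nat_lit 684) (nat_lit 9980288958) (nat_lit 76) (nat_lit 9730600360) (nat_lit 210) (nat_lit 5) (nat_lit 219) (nat_lit 5) (nat_lit 211) (nat_lit 5) (nat_lit 500) (nat_lit 441) (nat_lit 199)) (XT.nd (nat_lit 78) (nat_lit 0) (nat_lit 0) (XT.lf (nat_lit 0) (nat_lit 3465123492) (nat_lit 532) (nat_lit 7233083582) (nat_lit 608) (nat_lit 16098839651) (nat_lit 203) (nat_lit 5) (nat_lit 210) (nat_lit 5) (nat_lit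 211) (nat_lit 5) (nat_lit 501) (nat_lit 441) (nat_lit 198)) (XT.lf (nat_lit 0) (nat_lit 14796172165) (nat_lit 608) (nat_lit 9835251193) (nat_lit 76) (nat_lit 2497619356) (nat_lit 203) (nat_lit 5) (nat_lit 211) (nat_lit 5) (nat_lit 204) (nat_lit 5) (nat_lit 502) (nat_lit 441) (nat_lit 197)))) (XT.nd (nat_lit 156) (nat_lit 532) (nat_lit 0) (XT.nd (nat_lit 78) (nat_lit 0) (nat_lit 0) (XT.lf (nat_lit 0) (nat_lit 3930849536) (nat_lit 532) (nat_lit 15115403601) (nat_lit 608) (nat_lit 8420024035) (nat_lit 196) (nat_lit 5) (nat_lit 203) (nat_lit 5) (nat_lit 204) (nat_lit 5) (nat_lit 503) (nat_lit 441) (nat_lit 196)) (XT.lf (nat_lit 0) (nat_lit 18101461714) (nat_lit 532) (nat_lit 5342644641) (nat_lit 608) (nat_lit 4364896201) (nat_lit 196) (nat_lit 5) (nat_lit 203) (nat_lit 5) (nat_lit 204) (nat_lit 5) (nat_lit 504) (nat_lit 441) (nat_lit 195))) (XT.nd (nat_lit 78) (nat_lit 76) (nat_lit 0) (XT.lf (nat_lit 0) (nat_lit 4420742049)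 (nat_lit 456) (nat_lit 23564737737) (nat_lit 532) (nat_lit 171993013) (nat_lit 190) (nat_lit 5) (nat_lit 196) (nat_lit 5) (nat_lit 197) (nat_lit 5) (nat_lit 505) (nat_lit 441) (nat_lit 194)) (XT.lf (nat_lit 0) (nat_lit 4148731186) (nat_lit 532) (nat_lit 9615019462) (nat_lit 76) (nat_lit 14746674382) (nat_lit 189) (nat_lit 5) (nat_lit 196) (nat_lit 5) (nat_lit 190) (nat_lit 5) (nat_lit 506) (nat_lit 441) (nat_lit 193)))))) (XT.nd (nat_lit 546) (nat_lit 456) (nat_lit 0) (XT.nd (nat_lit 234) (nat_lit 988) (nat_lit 0) (XT.nd (nat_lit 78) (nat_lit 456) (nat_lit 0) (XT.lf (nat_lit 0) (nat_lit 4847519293) (nat_lit 532) (nat_lit 3734426830) (nat_lit 608) (nat_lit 20287901382) (nat_lit 182) (nat_lit 5) (nat_lit 189) (nat_lit 5) (nat_lit 190) (nat_lit 5) (nat_lit 507) (nat_lit 441) (nat_lit 192)) (XT.nd (nat_lit 78) (nat_lit 456) (nat_lit 0) (XT.lf (nat_lit 0) (nat_lit 13207879686) (nat_lit 608) (nat_lit 9552199073) (nat_lit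 76) (nat_lit 6474300079) (nat_lit 182) (nat_lit 5) (nat_lit 190) (nat_lit 5) (nat_lit 183) (nat_lit 5) (nat_lit 508) (nat_lit 441) (nat_lit 191)) (XT.lf (nat_lit 0) (nat_lit 5247428454) (nat_lit 456) (nat_lit 12734696908) (nat_lit 532) (nat_lit 11622961029) (nat_lit 176) (nat_lit 5) (nat_lit 182) (nat_lit 5) (nat_lit 183) (nat_lit 5) (nat_lit 509) (nat_lit 441) (nat_lit 190)))) (XT.nd (nat_lit 156) (nat_lit 532) (nat_lit 0) (XT.nd (nat_lit 78) (nat_lit 456) (nat_lit 0) (XT.lf (nat_lit 0) (nat_lit 20468563520) (nat_lit 456) (nat_lit 2444418282) (nat_lit 532) (nat_lit 7069005212) (nat_lit 176) (nat_lit 5) (nat_lit 182) (nat_lit 5) (nat_lit 183) (nat_lit 5) (nat_lit 510) (nat_lit 441) (nat_lit 189)) (XT.lf (nat_lit 0) (nat_lit 5645517665) (nat_lit 456) (nat_lit 22382946473) (nat_lit 532) (nat_lit 2336242742) (nat_lit 170) (nat_lit 5) (nat_lit 176) (nat_lit 5) (nat_lit 177) (nat_lit 5) (nat_lit 511) (nat_lit 441) (nat_lit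 188))) (XT.nd (nat_lit 78) (nat_lit 456) (nat_lit 0) (XT.lf (nat_lit 0) (nat_lit 2536042762) (nat_lit 532) (nat_lit 9553952372) (nat_lit 76) (nat_lit 18663213076) (nat_lit 169) (nat_lit 5) (nat_lit 176) (nat_lit 5) (nat_lit 170) (nat_lit 5) (nat_lit 512) (nat_lit 441) (nat_lit 187)) (XT.lf (nat_lit 0) (nat_lit 5973582309) (nat_lit 456) (nat_lit 1536869089) (nat_lit 532) (nat_lit 23638001448) (nat_lit 163) (nat_lit 5) (nat_lit 169) (nat_lit 5) (nat_lit 170) (nat_lit 5) (nat_lit 513) (nat_lit 441) (nat_lit 186))))) (XT.nd (nat_lit 53820) (nat_lit 0) (nat_lit 18088) (XT.nd (nat_lit 78) (nat_lit 456) (nat_lit 0) (XT.lf (nat_lit 0) (nat_lit 12705964973) (nat_lit 532) (nat_lit 9673385813) (nat_lit 76) (nat_lit 9169820554) (nat_lit 163) (nat_lit 5) (nat_lit 170) (nat_lit 5) (nat_lit 164) (nat_lit 5) (nat_lit 514) (nat_lit 441) (nat_lit 185)) (XT.nd (nat_lit 53664) (nat_lit 0) (nat_lit 18088) (XT.lf (nat_lit 0) (nat_lit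 6205508354) (nat_lit 456) (nat_lit 11847574420) (nat_lit 532) (nat_lit 13903868825) (nat_lit 157) (nat_lit 5) (nat_lit 163) (nat_lit 5) (nat_lit 164) (nat_lit 5) (nat_lit 515) (nat_lit 441) (nat_lit 184)) (XT.lf (nat_lit 0) (nat_lit 1131055807) (nat_lit 1748) (nat_lit 2977502217) (nat_lit 1748) (nat_lit 2977502217) (nat_lit 395) (nat_lit 3) (nat_lit 418) (nat_lit 3) (nat_lit 418) (nat_lit 5) (nat_lit 442) (nat_lit 442) (nat_lit 256)))) (XT.nd (nat_lit 156) (nat_lit 0) (nat_lit 76) (XT.nd (nat_lit 78) (nat_lit 0) (nat_lit 76) (XT.lf (nat_lit 76) (nat_lit 569720924) (nat_lit 0) (nat_lit 2041259803) (nat_lit 1748) (nat_lit 11696112796) (nat_lit 396) (nat_lit 5) (nat_lit 395) (nat_lit 3) (nat_lit 418) (nat_lit 5) (nat_lit 443) (nat_lit 442) (nat_lit 255)) (XT.lf (nat_lit 0) (nat_lit 3026237304) (nat_lit 1672) (nat_lit 7170793046) (nat_lit 1748) (nat_lit 4246553327) (nat_lit 396) (nat_lit 5) (nat_lit 418) (nat_lit 5)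 (nat_lit 419) (nat_lit 5) (nat_lit 444) (nat_lit 442) (nat_lit 254))) (XT.nd (nat_lit 78) (nat_lit 0) (nat_lit 76) (XT.lf (nat_lit 0) (nat_lit 3455020942) (nat_lit 1672) (nat_lit 490887969) (nat_lit 1748) (nat_lit 10636796024) (nat_lit 396) (nat_lit 5) (nat_lit 418) (nat_lit 5) (nat_lit 419) (nat_lit 5) (nat_lit 445) (nat_lit 442) (nat_lit 253)) (XT.lf (nat_lit 0) (nat_lit 3941892007) (nat_lit 1672) (nat_lit 8337842624) (nat_lit 1748) (nat_lit 2443889380) (nat_lit 397) (nat_lit 5) (nat_lit 419) (nat_lit 5) (nat_lit 420) (nat_lit 5) (nat_lit 446) (nat_lit 442) (nat_lit 252))))))) (XT.nd (nat_lit 1092) (nat_lit 5168) (nat_lit 0) (XT.nd (nat_lit 546) (nat_lit 0) (nat_lit 228) (XT.nd (nat_lit 234) (nat_lit 0) (nat_lit 76) (XT.nd (nat_lit 78) (nat_lit 0) (nat_lit 76) (XT.lf (nat_lit 0) (nat_lit 4459969284) (nat_lit 1672) (nat_lit 1491370999) (nat_lit 1748) (nat_lit 8915597327) (nat_lit 397) (nat_lit 5) (nat_lit 419)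 (nat_lit 5) (nat_lit 420) (nat_lit 5) (nat_lit 447) (nat_lit 442) (nat_lit 251)) (XT.nd (nat_lit 78) (nat_lit 0) (nat_lit 0) (XT.lf (nat_lit 0) (nat_lit 5020218634) (nat_lit 1672) (nat_lit 9455601742) (nat_lit 1748) (nat_lit 536666303) (nat_lit 398) (nat_lit 5) (nat_lit 420) (nat_lit 5) (nat_lit 421) (nat_lit 5) (nat_lit 448) (nat_lit 442) (nat_lit 250)) (XT.lf (nat_lit 0) (nat_lit 5633483137) (nat_lit 1672) (nat_lit 2438525361) (nat_lit 1748) (nat_lit 7088107330) (nat_lit 398) (nat_lit 5) (nat_lit 420) (nat_lit 5) (nat_lit 421) (nat_lit 5) (nat_lit 449) (nat_lit 442) (nat_lit 249)))) (XT.nd (nat_lit 156) (nat_lit 0) (nat_lit 76) (XT.nd (nat_lit 78) (nat_lit 0) (nat_lit 76) (XT.lf (nat_lit 76) (nat_lit 4777012969) (nat_lit 0) (nat_lit 1505489181) (nat_lit 1748) (nat_lit 9027730826) (nat_lit 399) (nat_lit 5) (nat_lit 398) (nat_lit 5) (nat_lit 421) (nat_lit 5) (nat_lit 450) (nat_lit 442) (nat_lit 248)) (XT.lf (nat_lit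 0) (nat_lit 6987296856) (nat_lit 1672) (nat_lit 3331602172) (nat_lit 1748) (nat_lit 5143602629) (nat_lit 399) (nat_lit 5) (nat_lit 421) (nat_lit 5) (nat_lit 422) (nat_lit 5) (nat_lit 451) (nat_lit 442) (nat_lit 247))) (XT.nd (nat_lit 78) (nat_lit 0) (nat_lit 76) (XT.lf (nat_lit 76) (nat_lit 4052647443) (nat_lit 0) (nat_lit 3682578405) (nat_lit 1748) (nat_lit 7882014093) (nat_lit 400) (nat_lit 5) (nat_lit 399) (nat_lit 5) (nat_lit 422) (nat_lit 5) (nat_lit 452) (nat_lit 442) (nat_lit 246)) (XT.lf (nat_lit 0) (nat_lit 8533542719) (nat_lit 1672) (nat_lit 4169786312) (nat_lit 1748) (nat_lit 3071040273) (nat_lit 400) (nat_lit 5) (nat_lit 422) (nat_lit 5) (nat_lit 423) (nat_lit 5) (nat_lit 453) (nat_lit 442) (nat_lit 245))))) (XT.nd (nat_lit 234) (nat_lit 0) (nat_lit 76) (XT.nd (nat_lit 78) (nat_lit 0) (nat_lit 76) (XT.lf (nat_lit 76) (nat_lit 3388343469) (nat_lit 0) (nat_lit 5998894310) (nat_lit 1748) (nat_lit 6546620039)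 (nat_lit 401) (nat_lit 5) (nat_lit 400) (nat_lit 5) (nat_lit 423) (nat_lit 5) (nat_lit 454) (nat_lit 442) (nat_lit 244)) (XT.nd (nat_lit 78) (nat_lit 0) (nat_lit 0) (XT.lf (nat_lit 0) (nat_lit 10284771211) (nat_lit 1672) (nat_lit 4952204578) (nat_lit 1748) (nat_lit 859029735) (nat_lit 401) (nat_lit 5) (nat_lit 423) (nat_lit 5) (nat_lit 424) (nat_lit 5) (nat_lit 455) (nat_lit 442) (nat_lit 243)) (XT.lf (nat_lit 76) (nat_lit 2785114256) (nat_lit 0) (nat_lit 8466232299) (nat_lit 1748) (nat_lit 5009032420) (nat_lit 402) (nat_lit 5) (nat_lit 401) (nat_lit 5) (nat_lit 424) (nat_lit 5) (nat_lit 456) (nat_lit 442) (nat_lit 242)))) (XT.nd (nat_lit 156) (nat_lit 0) (nat_lit 76) (XT.nd (nat_lit 78) (nat_lit 0) (nat_lit 76) (XT.lf (nat_lit 76) (nat_lit 10739681908) (nat_lit 0) (nat_lit 1524185772) (nat_lit 1748) (nat_lit 4163644454) (nat_lit 402) (nat_lit 5) (nat_lit 401) (nat_lit 5) (nat_lit 424) (nat_lit 5) (nat_lit 457)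 (nat_lit 442) (nat_lit 241)) (XT.lf (nat_lit 76) (nat_lit 2244023776) (nat_lit 0) (nat_lit 11096787747) (nat_lit 1748) (nat_lit 3256297427) (nat_lit 403) (nat_lit 5) (nat_lit 402) (nat_lit 5) (nat_lit 425) (nat_lit 5) (nat_lit 458) (nat_lit 442) (nat_lit 240))) (XT.nd (nat_lit 78) (nat_lit 0) (nat_lit 76) (XT.lf (nat_lit 76) (nat_lit 10396735450) (nat_lit 0) (nat_lit 4084376239) (nat_lit 1748) (nat_lit 2288154013) (nat_lit 403) (nat_lit 5) (nat_lit 402) (nat_lit 5) (nat_lit 425) (nat_lit 5) (nat_lit 459) (nat_lit 442) (nat_lit 239)) (XT.lf (nat_lit 76) (nat_lit 1766177693) (nat_lit 0) (nat_lit 13903186329) (nat_lit 1748) (nat_lit 1275002909) (nat_lit 404) (nat_lit 5) (nat_lit 403) (nat_lit 5) (nat_lit 426) (nat_lit 5) (nat_lit 460) (nat_lit 442) (nat_lit 238)))))) (XT.nd (nat_lit 546) (nat_lit 3952) (nat_lit 0) (XT.nd (nat_lit 234) (nat_lit 0) (nat_lit 0) (XT.nd (nat_lit 78) (nat_lit 1672) (nat_lit 0) (XT.lf (nat_lit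 76) (nat_lit 10121963254) (nat_lit 0) (nat_lit 6822901793) (nat_lit 1748) (nat_lit 176839646) (nat_lit 404) (nat_lit 5) (nat_lit 403) (nat_lit 5) (nat_lit 426) (nat_lit 5) (nat_lit 461) (nat_lit 442) (nat_lit 237)) (XT.nd (nat_lit 78) (nat_lit 0) (nat_lit 0) (XT.lf (nat_lit 0) (nat_lit 936299858) (nat_lit 1748) (nat_lit 15955932330) (nat_lit 1824) (nat_lit 410130865) (nat_lit 381) (nat_lit 5) (nat_lit 404) (nat_lit 5) (nat_lit 405) (nat_lit 5) (nat_lit 462) (nat_lit 442) (nat_lit 236)) (XT.lf (nat_lit 0) (nat_lit 2155828418) (nat_lit 1748) (nat_lit 7582716919) (nat_lit 1824) (nat_lit 7746339922) (nat_lit 381) (nat_lit 5) (nat_lit 404) (nat_lit 5) (nat_lit 405) (nat_lit 5) (nat_lit 463) (nat_lit 442) (nat_lit 235)))) (XT.nd (nat_lit 156) (nat_lit 0) (nat_lit 76) (XT.nd (nat_lit 78) (nat_lit 0) (nat_lit 76) (XT.lf (nat_lit 76) (nat_lit 965960496) (nat_lit 0) (nat_lit 2434200015) (nat_lit 1824) (nat_lit 14270893002)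 (nat_lit 382) (nat_lit 5) (nat_lit 381) (nat_lit 5) (nat_lit 405) (nat_lit 5) (nat_lit 464) (nat_lit 442) (nat_lit 234)) (XT.lf (nat_lit 0) (nat_lit 4747402370) (nat_lit 1748) (nat_lit 8109202899) (nat_lit 1824) (nat_lit 5002783187) (nat_lit 382) (nat_lit 5) (nat_lit 405) (nat_lit 5) (nat_lit 406) (nat_lit 5) (nat_lit 465) (nat_lit 442) (nat_lit 233))) (XT.nd (nat_lit 78) (nat_lit 0) (nat_lit 76) (XT.lf (nat_lit 76) (nat_lit 646287189) (nat_lit 0) (nat_lit 5489965016) (nat_lit 1824) (nat_lit 11914948343) (nat_lit 383) (nat_lit 5) (nat_lit 382) (nat_lit 5) (nat_lit 406) (nat_lit 5) (nat_lit 466) (nat_lit 442) (nat_lit 232)) (XT.lf (nat_lit 0) (nat_lit 7615230872) (nat_lit 1748) (nat_lit 8577216526) (nat_lit 76) (nat_lit 2053158088) (nat_lit 383) (nat_lit 5) (nat_lit 406) (nat_lit 5) (nat_lit 384) (nat_lit 5) (nat_lit 467) (nat_lit 442) (nat_lit 231))))) (XT.nd (nat_lit 312) (nat_lit 1824) (nat_lit 0) (XT.nd (nat_lit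 156) (nat_lit 836) (nat_lit 0) (XT.nd (nat_lit 78) (nat_lit 0) (nat_lit 0) (XT.lf (nat_lit 0) (nat_lit 391136227) (nat_lit 1444) (nat_lit 8766092169) (nat_lit 1520) (nat_lit 9286004909) (nat_lit 364) (nat_lit 5) (nat_lit 383) (nat_lit 5) (nat_lit 384) (nat_lit 5) (nat_lit 468) (nat_lit 442) (nat_lit 230)) (XT.lf (nat_lit 0) (nat_lit 9650482736) (nat_lit 1444) (nat_lit 1131760046) (nat_lit 1520) (nat_lit 7861530858) (nat_lit 364) (nat_lit 5) (nat_lit 383) (nat_lit 5) (nat_lit 384) (nat_lit 5) (nat_lit 469) (nat_lit 442) (nat_lit 229))) (XT.nd (nat_lit 78) (nat_lit 0) (nat_lit 0) (XT.lf (nat_lit 0) (nat_lit 201460829) (nat_lit 836) (nat_lit 12277544494) (nat_lit 912) (nat_lit 6368537933) (nat_lit 353) (nat_lit 5) (nat_lit 364) (nat_lit 5) (nat_lit 365) (nat_lit 5) (nat_lit 470) (nat_lit 442) (nat_lit 228)) (XT.lf (nat_lit 0) (nat_lit 9689787588) (nat_lit 836) (nat_lit 4582513797) (nat_lit 912) (nat_lit 4781838277)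 (nat_lit 353) (nat_lit 5) (nat_lit 364) (nat_lit 5) (nat_lit 365) (nat_lit 5) (nat_lit 471) (nat_lit 442) (nat_lit 227)))) (XT.nd (nat_lit 156) (nat_lit 912) (nat_lit 0) (XT.nd (nat_lit 78) (nat_lit 0) (nat_lit 0) (XT.lf (nat_lit 0) (nat_lit 78180778) (nat_lit 912) (nat_lit 16039906213) (nat_lit 988) (nat_lit 3146451829) (nat_lit 341) (nat_lit 5) (nat_lit 353) (nat_lit 5) (nat_lit 354) (nat_lit 5) (nat_lit 472) (nat_lit 442) (nat_lit 226)) (XT.lf (nat_lit 0) (nat_lit 9801130341) (nat_lit 912) (nat_lit 8287623935) (nat_lit 988) (nat_lit 1388635597) (nat_lit 341) (nat_lit 5) (nat_lit 353) (nat_lit 5) (nat_lit 354) (nat_lit 5) (nat_lit 473) (nat_lit 442) (nat_lit 225))) (XT.nd (nat_lit 78) (nat_lit 0) (nat_lit 0) (XT.lf (nat_lit 0) (nat_lit 17041662) (nat_lit 836) (nat_lit 377143844) (nat_lit 912) (nat_lit 19300360014) (nat_lit 329) (nat_lit 5) (nat_lit 340) (nat_lit 5) (nat_lit 341) (nat_lit 5) (nat_lit 474) (nat_lit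 442) (nat_lit 224)) (XT.lf (nat_lit 0) (nat_lit 2304498558) (nat_lit 912) (nat_lit 9943607696) (nat_lit 76) (nat_lit 7665548907) (nat_lit 329) (nat_lit 5) (nat_lit 341) (nat_lit 5) (nat_lit 330) (nat_lit 5) (nat_lit 475) (nat_lit 442) (nat_lit 223))))))))
noncomputable def xc225 : XT := (XT.nd (nat_lit 2184) (nat_lit 3040) (nat_lit 0) (XT.nd (nat_lit 1092) (nat_lit 4332) (nat_lit 0) (XT.nd (nat_lit 546) (nat_lit 2204) (nat_lit 0) (XT.nd (nat_lit 234) (nat_lit 1444) (nat_lit 0) (XT.nd (nat_lit 78) (nat_lit 1596) (nat_lit 0) (XT.lf (nat_lit 0) (nat_lit 4250721928) (nat_lit 912) (nat_lit 22109976) (nat_lit 76) (nat_lit 15864363996) (nat_lit 329) (nat_lit 5) (nat_lit 341) (nat_lit 5) (nat_lit 330) (nat_lit 5) (nat_lit 476) (nat_lit 442) (nat_lit 222)) (XT.nd (nat_lit 78) (nat_lit 760) (nat_lit 0) (XT.lf (nat_lit 0) (nat_lit 6323089105) (nat_lit 912) (nat_lit 10162027980) (nat_lit 76) (nat_lit 3878348910) (nat_lit 318)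 (nat_lit 5) (nat_lit 330) (nat_lit 5) (nat_lit 319) (nat_lit 5) (nat_lit 477) (nat_lit 442) (nat_lit 221)) (XT.lf (nat_lit 0) (nat_lit 2679246) (nat_lit 760) (nat_lit 8458052779) (nat_lit 836) (nat_lit 12133055768) (nat_lit 308) (nat_lit 5) (nat_lit 318) (nat_lit 5) (nat_lit 319) (nat_lit 5) (nat_lit 478) (nat_lit 442) (nat_lit 220)))) (XT.nd (nat_lit 156) (nat_lit 684) (nat_lit 0) (XT.nd (nat_lit 78) (nat_lit 760) (nat_lit 0) (XT.lf (nat_lit 0) (nat_lit 10503903394) (nat_lit 760) (nat_lit 200843218) (nat_lit 836) (nat_lit 10122699853) (nat_lit 308) (nat_lit 5) (nat_lit 318) (nat_lit 5) (nat_lit 319) (nat_lit 5) (nat_lit 479) (nat_lit 442) (nat_lit 219)) (XT.lf (nat_lit 0) (nat_lit 92679543) (nat_lit 760) (nat_lit 12950459422) (nat_lit 836) (nat_lit 8021652155) (nat_lit 298) (nat_lit 5) (nat_lit 308) (nat_lit 5) (nat_lit 309) (nat_lit 5) (nat_lit 480) (nat_lit 442) (nat_lit 218))) (XT.nd (nat_lit 78) (nat_lit 684)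 (nat_lit 0) (XT.lf (nat_lit 0) (nat_lit 10851316814) (nat_lit 760) (nat_lit 4643155029) (nat_lit 836) (nat_lit 5811090076) (nat_lit 298) (nat_lit 5) (nat_lit 308) (nat_lit 5) (nat_lit 309) (nat_lit 5) (nat_lit 481) (nat_lit 442) (nat_lit 217)) (XT.lf (nat_lit 0) (nat_lit 247859528) (nat_lit 684) (nat_lit 17769111158) (nat_lit 760) (nat_lit 3533737313) (nat_lit 289) (nat_lit 5) (nat_lit 298) (nat_lit 5) (nat_lit 299) (nat_lit 5) (nat_lit 482) (nat_lit 442) (nat_lit 216))))) (XT.nd (nat_lit 234) (nat_lit 1368) (nat_lit 0) (XT.nd (nat_lit 78) (nat_lit 836) (nat_lit 0) (XT.lf (nat_lit 0) (nat_lit 11270086825) (nat_lit 684) (nat_lit 9416250504) (nat_lit 760) (nat_lit 1112493915) (nat_lit 289) (nat_lit 5) (nat_lit 298) (nat_lit 5) (nat_lit 299) (nat_lit 5) (nat_lit 483) (nat_lit 442) (nat_lit 215)) (XT.nd (nat_lit 78) (nat_lit 0) (nat_lit 0) (XT.lf (nat_lit 0) (nat_lit 453535755) (nat_lit 760) (nat_lit 884554580) (nat_lit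 836) (nat_lit 20713678572) (nat_lit 278) (nat_lit 5) (nat_lit 288) (nat_lit 5) (nat_lit 289) (nat_lit 5) (nat_lit 484) (nat_lit 442) (nat_lit 214)) (XT.lf (nat_lit 0) (nat_lit 3940507044) (nat_lit 836) (nat_lit 10573262071) (nat_lit 76) (nat_lit 7793497246) (nat_lit 278) (nat_lit 5) (nat_lit 289) (nat_lit 5) (nat_lit 279) (nat_lit 5) (nat_lit 485) (nat_lit 442) (nat_lit 213)))) (XT.nd (nat_lit 156) (nat_lit 684) (nat_lit 0) (XT.nd (nat_lit 78) (nat_lit 0) (nat_lit 0) (XT.lf (nat_lit 0) (nat_lit 670737835) (nat_lit 684) (nat_lit 5930352630) (nat_lit 760) (nat_lit 15966663332) (nat_lit 269) (nat_lit 5) (nat_lit 278) (nat_lit 5) (nat_lit 279) (nat_lit 5) (nat_lit 486) (nat_lit 442) (nat_lit 212)) (XT.lf (nat_lit 0) (nat_lit 9400602804) (nat_lit 760) (nat_lit 10572362236) (nat_lit 76) (nat_lit 2858773952) (nat_lit 269) (nat_lit 5) (nat_lit 279) (nat_lit 5) (nat_lit 270) (nat_lit 5) (nat_lit 487) (nat_lit 442) (nat_lit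 211))) (XT.nd (nat_lit 78) (nat_lit 0) (nat_lit 0) (XT.lf (nat_lit 0) (nat_lit 947564190) (nat_lit 684) (nat_lit 11350001759) (nat_lit 760) (nat_lit 10802611039) (nat_lit 260) (nat_lit 5) (nat_lit 269) (nat_lit 5) (nat_lit 270) (nat_lit 5) (nat_lit 488) (nat_lit 442) (nat_lit 210)) (XT.lf (nat_lit 0) (nat_lit 12836855084) (nat_lit 684) (nat_lit 2482643419) (nat_lit 760) (nat_lit 8053146901) (nat_lit 260) (nat_lit 5) (nat_lit 269) (nat_lit 5) (nat_lit 270) (nat_lit 5) (nat_lit 489) (nat_lit 442) (nat_lit 209)))))) (XT.nd (nat_lit 546) (nat_lit 1748) (nat_lit 0) (XT.nd (nat_lit 234) (nat_lit 1216) (nat_lit 0) (XT.nd (nat_lit 78) (nat_lit 760) (nat_lit 0) (XT.lf (nat_lit 0) (nat_lit 1283257212) (nat_lit 608) (nat_lit 17165707594) (nat_lit 684) (nat_lit 5200658698) (nat_lit 252) (nat_lit 5) (nat_lit 260) (nat_lit 5) (nat_lit 261) (nat_lit 5) (nat_lit 490) (nat_lit 442) (nat_lit 208)) (XT.nd (nat_lit 78) (nat_lit 760)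 (nat_lit 0) (XT.lf (nat_lit 0) (nat_lit 13460533507) (nat_lit 608) (nat_lit 8263726252) (nat_lit 684) (nat_lit 2206218797) (nat_lit 252) (nat_lit 5) (nat_lit 260) (nat_lit 5) (nat_lit 261) (nat_lit 5) (nat_lit 491) (nat_lit 442) (nat_lit 207)) (XT.lf (nat_lit 0) (nat_lit 849530626) (nat_lit 760) (nat_lit 22545492930) (nat_lit 76) (nat_lit 821568237) (nat_lit 242) (nat_lit 5) (nat_lit 252) (nat_lit 5) (nat_lit 243) (nat_lit 5) (nat_lit 492) (nat_lit 442) (nat_lit 206)))) (XT.nd (nat_lit 156) (nat_lit 608) (nat_lit 0) (XT.nd (nat_lit 78) (nat_lit 608) (nat_lit 0) (XT.lf (nat_lit 0) (nat_lit 4058627633) (nat_lit 760) (nat_lit 10384257850) (nat_lit 76) (nat_lit 10062816722) (nat_lit 242) (nat_lit 5) (nat_lit 252) (nat_lit 5) (nat_lit 243) (nat_lit 5) (nat_lit 493) (nat_lit 442) (nat_lit 205)) (XT.lf (nat_lit 0) (nat_lit 2042758197) (nat_lit 608) (nat_lit 5298779418) (nat_lit 684) (nat_lit 17458866599) (nat_lit 234)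 (nat_lit 5) (nat_lit 242) (nat_lit 5) (nat_lit 243) (nat_lit 5) (nat_lit 494) (nat_lit 442) (nat_lit 204))) (XT.nd (nat_lit 78) (nat_lit 608) (nat_lit 0) (XT.lf (nat_lit 0) (nat_lit 10782812891) (nat_lit 684) (nat_lit 10271422685) (nat_lit 76) (nat_lit 4044912515) (nat_lit 234) (nat_lit 5) (nat_lit 243) (nat_lit 5) (nat_lit 235) (nat_lit 5) (nat_lit 495) (nat_lit 442) (nat_lit 203)) (XT.lf (nat_lit 0) (nat_lit 2457471166) (nat_lit 608) (nat_lit 11882967698) (nat_lit 684) (nat_lit 11062479409) (nat_lit 226) (nat_lit 5) (nat_lit 234) (nat_lit 5) (nat_lit 235) (nat_lit 5) (nat_lit 496) (nat_lit 442) (nat_lit 202))))) (XT.nd (nat_lit 234) (nat_lit 1216) (nat_lit 0) (XT.nd (nat_lit 78) (nat_lit 532) (nat_lit 0) (XT.lf (nat_lit 0) (nat_lit 15576009450) (nat_lit 608) (nat_lit 2458654973) (nat_lit 684) (nat_lit 7676792390) (nat_lit 226) (nat_lit 5) (nat_lit 234) (nat_lit 5) (nat_lit 235) (nat_lit 5) (nat_lit 497) (nat_lit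 442) (nat_lit 201)) (XT.nd (nat_lit 78) (nat_lit 0) (nat_lit 0) (XT.lf (nat_lit 0) (nat_lit 2918429322) (nat_lit 532) (nat_lit 18946327271) (nat_lit 608) (nat_lit 4160171743) (nat_lit 219) (nat_lit 5) (nat_lit 226) (nat_lit 5) (nat_lit 227) (nat_lit 5) (nat_lit 498) (nat_lit 442) (nat_lit 200)) (XT.lf (nat_lit 0) (nat_lit 16350151297) (nat_lit 532) (nat_lit 9502113346) (nat_lit 608) (nat_lit 490790187) (nat_lit 219) (nat_lit 5) (nat_lit 226) (nat_lit 5) (nat_lit 227) (nat_lit 5) (nat_lit 499) (nat_lit 442) (nat_lit 199)))) (XT.nd (nat_lit 156) (nat_lit 532) (nat_lit 0) (XT.nd (nat_lit 78) (nat_lit 0) (nat_lit 0) (XT.lf (nat_lit 0) (nat_lit 3229217915) (nat_lit 684) (nat_lit 23265494341) (nat_lit 76) (nat_lit 172013283) (nat_lit 210) (nat_lit 5) (nat_lit 219) (nat_lit 5) (nat_lit 211) (nat_lit 5) (nat_lit 500) (nat_lit 442) (nat_lit 198)) (XT.lf (nat_lit 0) (nat_lit 7144191289) (nat_lit 684) (nat_lit 9867568687)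 (nat_lit 76) (nat_lit 9982503782) (nat_lit 210) (nat_lit 5) (nat_lit 219) (nat_lit 5) (nat_lit 211) (nat_lit 5) (nat_lit 501) (nat_lit 442) (nat_lit 197))) (XT.nd (nat_lit 78) (nat_lit 0) (nat_lit 0) (XT.lf (nat_lit 0) (nat_lit 3844697235) (nat_lit 532) (nat_lit 7314494917) (nat_lit 608) (nat_lit 16168727712) (nat_lit 203) (nat_lit 5) (nat_lit 210) (nat_lit 5) (nat_lit 211) (nat_lit 5) (nat_lit 502) (nat_lit 442) (nat_lit 196)) (XT.lf (nat_lit 0) (nat_lit 15334675607) (nat_lit 608) (nat_lit 9723202877) (nat_lit 76) (nat_lit 2608768604) (nat_lit 203) (nat_lit 5) (nat_lit 211) (nat_lit 5) (nat_lit 204) (nat_lit 5) (nat_lit 503) (nat_lit 442) (nat_lit 195))))))) (XT.nd (nat_lit 54756) (nat_lit 0) (nat_lit 17708) (XT.nd (nat_lit 546) (nat_lit 988) (nat_lit 0) (XT.nd (nat_lit 234) (nat_lit 988) (nat_lit 0) (XT.nd (nat_lit 78) (nat_lit 532) (nat_lit 0) (XT.lf (nat_lit 0) (nat_lit 4316188594) (nat_lit 532) (nat_lit 15350804577)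 (nat_lit 608) (nat_lit 8343690814) (nat_lit 196) (nat_lit 5) (nat_lit 203) (nat_lit 5) (nat_lit 204) (nat_lit 5) (nat_lit 504) (nat_lit 442) (nat_lit 194)) (XT.nd (nat_lit 78) (nat_lit 532) (nat_lit 0) (XT.lf (nat_lit 0) (nat_lit 18764198858) (nat_lit 532) (nat_lit 5383902341) (nat_lit 608) (nat_lit 4212259123) (nat_lit 196) (nat_lit 5) (nat_lit 203) (nat_lit 5) (nat_lit 204) (nat_lit 5) (nat_lit 505) (nat_lit 442) (nat_lit 193)) (XT.lf (nat_lit 0) (nat_lit 61414506) (nat_lit 532) (nat_lit 23903996927) (nat_lit 76) (nat_lit 4750427302) (nat_lit 189) (nat_lit 5) (nat_lit 196) (nat_lit 5) (nat_lit 190) (nat_lit 5) (nat_lit 506) (nat_lit 442) (nat_lit 192)))) (XT.nd (nat_lit 156) (nat_lit 456) (nat_lit 0) (XT.nd (nat_lit 78) (nat_lit 532) (nat_lit 0) (XT.lf (nat_lit 0) (nat_lit 4461653404) (nat_lit 532) (nat_lit 9506996898) (nat_lit 76) (nat_lit 15107271169) (nat_lit 189) (nat_lit 5) (nat_lit 196) (nat_lit 5) (nat_lit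 190) (nat_lit 5) (nat_lit 507) (nat_lit 442) (nat_lit 191)) (XT.lf (nat_lit 0) (nat_lit 5242816823) (nat_lit 532) (nat_lit 3738144109) (nat_lit 608) (nat_lit 20461625116) (nat_lit 182) (nat_lit 5) (nat_lit 189) (nat_lit 5) (nat_lit 190) (nat_lit 5) (nat_lit 508) (nat_lit 442) (nat_lit 190))) (XT.nd (nat_lit 78) (nat_lit 456) (nat_lit 0) (XT.lf (nat_lit 0) (nat_lit 13695406572) (nat_lit 608) (nat_lit 9446630545) (nat_lit 76) (nat_lit 6672453195) (nat_lit 182) (nat_lit 5) (nat_lit 190) (nat_lit 5) (nat_lit 183) (nat_lit 5) (nat_lit 509) (nat_lit 442) (nat_lit 189)) (XT.lf (nat_lit 0) (nat_lit 5647038134) (nat_lit 456) (nat_lit 12915632373) (nat_lit 532) (nat_lit 11629992975) (nat_lit 176) (nat_lit 5) (nat_lit 182) (nat_lit 5) (nat_lit 183) (nat_lit 5) (nat_lit 510) (nat_lit 442) (nat_lit 188))))) (XT.nd (nat_lit 234) (nat_lit 456) (nat_lit 0) (XT.nd (nat_lit 78) (nat_lit 532) (nat_lit 0) (XT.lf (nat_lit 0) (nat_lit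 21166818233) (nat_lit 456) (nat_lit 2420994419) (nat_lit 532) (nat_lit 6989378184) (nat_lit 176) (nat_lit 5) (nat_lit 182) (nat_lit 5) (nat_lit 183) (nat_lit 5) (nat_lit 511) (nat_lit 442) (nat_lit 187)) (XT.nd (nat_lit 78) (nat_lit 76) (nat_lit 0) (XT.lf (nat_lit 0) (nat_lit 6049351236) (nat_lit 456) (nat_lit 22754356064) (nat_lit 532) (nat_lit 2163897795) (nat_lit 170) (nat_lit 5) (nat_lit 176) (nat_lit 5) (nat_lit 177) (nat_lit 5) (nat_lit 512) (nat_lit 442) (nat_lit 186)) (XT.lf (nat_lit 0) (nat_lit 2798721129) (nat_lit 532) (nat_lit 9456897307) (nat_lit 76) (nat_lit 19108316321) (nat_lit 169) (nat_lit 5) (nat_lit 176) (nat_lit 5) (nat_lit 170) (nat_lit 5) (nat_lit 513) (nat_lit 442) (nat_lit 185)))) (XT.nd (nat_lit 53820) (nat_lit 0) (nat_lit 17632) (XT.nd (nat_lit 78) (nat_lit 0) (nat_lit 0) (XT.lf (nat_lit 0) (nat_lit 6379292448) (nat_lit 456) (nat_lit 1491027910) (nat_lit 532) (nat_lit 23896811810) (nat_lit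 163) (nat_lit 5) (nat_lit 169) (nat_lit 5) (nat_lit 170) (nat_lit 5) (nat_lit 514) (nat_lit 442) (nat_lit 184)) (XT.lf (nat_lit 0) (nat_lit 13166120675) (nat_lit 532) (nat_lit 9582509383) (nat_lit 76) (nat_lit 9427309337) (nat_lit 163) (nat_lit 5) (nat_lit 170) (nat_lit 5) (nat_lit 164) (nat_lit 5) (nat_lit 515) (nat_lit 442) (nat_lit 183))) (XT.nd (nat_lit 78) (nat_lit 0) (nat_lit 0) (XT.lf (nat_lit 0) (nat_lit 1474131711) (nat_lit 1748) (nat_lit 2873509441) (nat_lit 1748) (nat_lit 2873509441) (nat_lit 395) (nat_lit 3) (nat_lit 418) (nat_lit 3) (nat_lit 418) (nat_lit 5) (nat_lit 443) (nat_lit 443) (nat_lit 254)) (XT.lf (nat_lit 76) (nat_lit 906049103) (nat_lit 0) (nat_lit 2387603646) (nat_lit 1748) (nat_lit 11286538782) (nat_lit 396) (nat_lit 5) (nat_lit 395) (nat_lit 3) (nat_lit 418) (nat_lit 5) (nat_lit 444) (nat_lit 443) (nat_lit 253)))))) (XT.nd (nat_lit 546) (nat_lit 0) (nat_lit 228) (XT.nd (nat_lit 234)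 (nat_lit 0) (nat_lit 76) (XT.nd (nat_lit 78) (nat_lit 0) (nat_lit 0) (XT.lf (nat_lit 0) (nat_lit 3702907910) (nat_lit 1672) (nat_lit 6980913561) (nat_lit 1748) (nat_lit 4035884673) (nat_lit 396) (nat_lit 5) (nat_lit 418) (nat_lit 5) (nat_lit 419) (nat_lit 5) (nat_lit 445) (nat_lit 443) (nat_lit 252)) (XT.nd (nat_lit 78) (nat_lit 0) (nat_lit 76) (XT.lf (nat_lit 0) (nat_lit 4128185930) (nat_lit 1672) (nat_lit 173945585) (nat_lit 1748) (nat_lit 10559728297) (nat_lit 396) (nat_lit 5) (nat_lit 418) (nat_lit 5) (nat_lit 419) (nat_lit 5) (nat_lit 446) (nat_lit 443) (nat_lit 251)) (XT.lf (nat_lit 0) (nat_lit 4613306415) (nat_lit 1672) (nat_lit 8165941597) (nat_lit 1748) (nat_lit 2226587212) (nat_lit 397) (nat_lit 5) (nat_lit 419) (nat_lit 5) (nat_lit 420) (nat_lit 5) (nat_lit 447) (nat_lit 443) (nat_lit 250)))) (XT.nd (nat_lit 156) (nat_lit 0) (nat_lit 76) (XT.nd (nat_lit 78) (nat_lit 0) (nat_lit 76) (XT.lf (nat_lit 0)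 (nat_lit 5130126089) (nat_lit 1672) (nat_lit 1189180889) (nat_lit 1748) (nat_lit 8832948533) (nat_lit 397) (nat_lit 5) (nat_lit 419) (nat_lit 5) (nat_lit 420) (nat_lit 5) (nat_lit 448) (nat_lit 443) (nat_lit 249)) (XT.lf (nat_lit 0) (nat_lit 5690760191) (nat_lit 1672) (nat_lit 9301482188) (nat_lit 1748) (nat_lit 308697465) (nat_lit 398) (nat_lit 5) (nat_lit 420) (nat_lit 5) (nat_lit 421) (nat_lit 5) (nat_lit 449) (nat_lit 443) (nat_lit 248))) (XT.nd (nat_lit 78) (nat_lit 0) (nat_lit 0) (XT.lf (nat_lit 0) (nat_lit 6305110824) (nat_lit 1672) (nat_lit 2150794310) (nat_lit 1748) (nat_lit 6995847748) (nat_lit 398) (nat_lit 5) (nat_lit 420) (nat_lit 5) (nat_lit 421) (nat_lit 5) (nat_lit 450) (nat_lit 443) (nat_lit 247)) (XT.lf (nat_lit 76) (nat_lit 5206840961) (nat_lit 0) (nat_lit 1751479713) (nat_lit 1748) (nat_lit 8646735060) (nat_lit 399) (nat_lit 5) (nat_lit 398) (nat_lit 5) (nat_lit 421) (nat_lit 5) (nat_lit 451)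 (nat_lit 443) (nat_lit 246))))) (XT.nd (nat_lit 312) (nat_lit 0) (nat_lit 152) (XT.nd (nat_lit 156) (nat_lit 0) (nat_lit 76) (XT.nd (nat_lit 78) (nat_lit 0) (nat_lit 0) (XT.lf (nat_lit 0) (nat_lit 7665049499) (nat_lit 1672) (nat_lit 3057968259) (nat_lit 1748) (nat_lit 5037602688) (nat_lit 399) (nat_lit 5) (nat_lit 421) (nat_lit 5) (nat_lit 422) (nat_lit 5) (nat_lit 452) (nat_lit 443) (nat_lit 245)) (XT.lf (nat_lit 76) (nat_lit 4471727756) (nat_lit 0) (nat_lit 3947854861) (nat_lit 1748) (nat_lit 7499045244) (nat_lit 400) (nat_lit 5) (nat_lit 399) (nat_lit 5) (nat_lit 422) (nat_lit 5) (nat_lit 453) (nat_lit 443) (nat_lit 244))) (XT.nd (nat_lit 78) (nat_lit 0) (nat_lit 0) (XT.lf (nat_lit 0) (nat_lit 9222260726) (nat_lit 1672) (nat_lit 3909820862) (nat_lit 1748) (nat_lit 2947057458) (nat_lit 400) (nat_lit 5) (nat_lit 422) (nat_lit 5) (nat_lit 423) (nat_lit 5) (nat_lit 454) (nat_lit 443) (nat_lit 243)) (XT.lf (nat_lit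 76) (nat_lit 3797212559) (nat_lit 0) (nat_lit 6287874004) (nat_lit 1748) (nat_lit 6156896626) (nat_lit 401) (nat_lit 5) (nat_lit 400) (nat_lit 5) (nat_lit 423) (nat_lit 5) (nat_lit 455) (nat_lit 443) (nat_lit 242)))) (XT.nd (nat_lit 156) (nat_lit 0) (nat_lit 0) (XT.nd (nat_lit 78) (nat_lit 0) (nat_lit 0) (XT.lf (nat_lit 0) (nat_lit 10989492867) (nat_lit 1672) (nat_lit 4705414083) (nat_lit 1748) (nat_lit 712695312) (nat_lit 401) (nat_lit 5) (nat_lit 423) (nat_lit 5) (nat_lit 424) (nat_lit 5) (nat_lit 456) (nat_lit 443) (nat_lit 241)) (XT.lf (nat_lit 76) (nat_lit 3184375900) (nat_lit 0) (nat_lit 8783469605) (nat_lit 1748) (nat_lit 4607575483) (nat_lit 402) (nat_lit 5) (nat_lit 401) (nat_lit 5) (nat_lit 424) (nat_lit 5) (nat_lit 457) (nat_lit 443) (nat_lit 240))) (XT.nd (nat_lit 78) (nat_lit 0) (nat_lit 76) (XT.lf (nat_lit 76) (nat_lit 11291298448) (nat_lit 0) (nat_lit 1699681899) (nat_lit 1748) (nat_lit 3755115790)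 (nat_lit 402) (nat_lit 5) (nat_lit 401) (nat_lit 5) (nat_lit 424) (nat_lit 5) (nat_lit 458) (nat_lit 443) (nat_lit 239)) (XT.lf (nat_lit 76) (nat_lit 2634347209) (nat_lit 0) (nat_lit 11446987894) (nat_lit 1748) (nat_lit 2837918805) (nat_lit 403) (nat_lit 5) (nat_lit 402) (nat_lit 5) (nat_lit 425) (nat_lit 5) (nat_lit 459) (nat_lit 443) (nat_lit 238))))))))
noncomputable def xc226 : XT := (XT.nd (nat_lit 2184) (nat_lit 7600) (nat_lit 0) (XT.nd (nat_lit 1092) (nat_lit 5472) (nat_lit 0) (XT.nd (nat_lit 546) (nat_lit 2964) (nat_lit 0) (XT.nd (nat_lit 234) (nat_lit 0) (nat_lit 76) (XT.nd (nat_lit 78) (nat_lit 1672) (nat_lit 0) (XT.lf (nat_lit 76) (nat_lit 10943339725) (nat_lit 0) (nat_lit 4291813168) (nat_lit 1748) (nat_lit 1859893005) (nat_lit 403) (nat_lit 5) (nat_lit 402) (nat_lit 5) (nat_lit 425) (nat_lit 5) (nat_lit 460) (nat_lit 443) (nat_lit 237)) (XT.nd (nat_lit 78) (nat_lit 1748) (nat_lit 0) (XT.lf (nat_lit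 76) (nat_lit 2148295728) (nat_lit 0) (nat_lit 14291219471) (nat_lit 1748) (nat_lit 834293264) (nat_lit 404) (nat_lit 5) (nat_lit 403) (nat_lit 5) (nat_lit 426) (nat_lit 5) (nat_lit 461) (nat_lit 443) (nat_lit 236)) (XT.lf (nat_lit 0) (nat_lit 273063033) (nat_lit 1748) (nat_lit 6792277552) (nat_lit 1824) (nat_lit 10389501678) (nat_lit 380) (nat_lit 5) (nat_lit 403) (nat_lit 5) (nat_lit 404) (nat_lit 5) (nat_lit 462) (nat_lit 443) (nat_lit 235)))) (XT.nd (nat_lit 156) (nat_lit 0) (nat_lit 0) (XT.nd (nat_lit 78) (nat_lit 0) (nat_lit 0) (XT.lf (nat_lit 0) (nat_lit 1398836401) (nat_lit 1748) (nat_lit 15921207509) (nat_lit 1824) (nat_lit 319197575) (nat_lit 381) (nat_lit 5) (nat_lit 404) (nat_lit 5) (nat_lit 405) (nat_lit 5) (nat_lit 463) (nat_lit 443) (nat_lit 234)) (XT.lf (nat_lit 0) (nat_lit 2634053364) (nat_lit 1748) (nat_lit 7387465897) (nat_lit 1824) (nat_lit 7804074655) (nat_lit 381) (nat_lit 5) (nat_lit 404)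 (nat_lit 5) (nat_lit 405) (nat_lit 5) (nat_lit 464) (nat_lit 443) (nat_lit 233))) (XT.nd (nat_lit 78) (nat_lit 0) (nat_lit 76) (XT.lf (nat_lit 76) (nat_lit 1329902794) (nat_lit 0) (nat_lit 2567075289) (nat_lit 1824) (nat_lit 14118638957) (nat_lit 382) (nat_lit 5) (nat_lit 381) (nat_lit 5) (nat_lit 405) (nat_lit 5) (nat_lit 465) (nat_lit 443) (nat_lit 232)) (XT.lf (nat_lit 0) (nat_lit 5262220748) (nat_lit 1748) (nat_lit 7924301411) (nat_lit 1824) (nat_lit 5021380919) (nat_lit 382) (nat_lit 5) (nat_lit 405) (nat_lit 5) (nat_lit 406) (nat_lit 5) (nat_lit 466) (nat_lit 443) (nat_lit 231))))) (XT.nd (nat_lit 234) (nat_lit 1748) (nat_lit 0) (XT.nd (nat_lit 78) (nat_lit 1368) (nat_lit 0) (XT.lf (nat_lit 76) (nat_lit 1004015021) (nat_lit 0) (nat_lit 5668838491) (nat_lit 1824) (nat_lit 11730823188) (nat_lit 383) (nat_lit 5) (nat_lit 382) (nat_lit 5) (nat_lit 406) (nat_lit 5) (nat_lit 467) (nat_lit 443) (nat_lit 230)) (XT.nd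 (nat_lit 78) (nat_lit 1444) (nat_lit 0) (XT.lf (nat_lit 0) (nat_lit 8172856849) (nat_lit 1748) (nat_lit 8401899658) (nat_lit 76) (nat_lit 2027389628) (nat_lit 383) (nat_lit 5) (nat_lit 406) (nat_lit 5) (nat_lit 384) (nat_lit 5) (nat_lit 468) (nat_lit 443) (nat_lit 229)) (XT.lf (nat_lit 0) (nat_lit 743538168) (nat_lit 1444) (nat_lit 8996445915) (nat_lit 1520) (nat_lit 9063861829) (nat_lit 364) (nat_lit 5) (nat_lit 383) (nat_lit 5) (nat_lit 384) (nat_lit 5) (nat_lit 469) (nat_lit 443) (nat_lit 228)))) (XT.nd (nat_lit 156) (nat_lit 912) (nat_lit 0) (XT.nd (nat_lit 78) (nat_lit 836) (nat_lit 0) (XT.lf (nat_lit 0) (nat_lit 10181315153) (nat_lit 1444) (nat_lit 1208348093) (nat_lit 1520) (nat_lit 7618895614) (nat_lit 364) (nat_lit 5) (nat_lit 383) (nat_lit 5) (nat_lit 384) (nat_lit 5) (nat_lit 470) (nat_lit 443) (nat_lit 227)) (XT.lf (nat_lit 0) (nat_lit 549475310) (nat_lit 836) (nat_lit 12565093803) (nat_lit 912) (nat_lit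 6101955588) (nat_lit 353) (nat_lit 5) (nat_lit 364) (nat_lit 5) (nat_lit 365) (nat_lit 5) (nat_lit 471) (nat_lit 443) (nat_lit 226))) (XT.nd (nat_lit 78) (nat_lit 912) (nat_lit 0) (XT.lf (nat_lit 0) (nat_lit 10220823796) (nat_lit 836) (nat_lit 4715338994) (nat_lit 912) (nat_lit 4491246509) (nat_lit 353) (nat_lit 5) (nat_lit 364) (nat_lit 5) (nat_lit 365) (nat_lit 5) (nat_lit 472) (nat_lit 443) (nat_lit 225)) (XT.lf (nat_lit 0) (nat_lit 422793493) (nat_lit 912) (nat_lit 16390615914) (nat_lit 988) (nat_lit 2828720927) (nat_lit 341) (nat_lit 5) (nat_lit 353) (nat_lit 5) (nat_lit 354) (nat_lit 5) (nat_lit 473) (nat_lit 443) (nat_lit 224)))))) (XT.nd (nat_lit 546) (nat_lit 2964) (nat_lit 0) (XT.nd (nat_lit 234) (nat_lit 1596) (nat_lit 0) (XT.nd (nat_lit 78) (nat_lit 912) (nat_lit 0) (XT.lf (nat_lit 0) (nat_lit 10333475594) (nat_lit 912) (nat_lit 8482701490) (nat_lit 988) (nat_lit 1043212291) (nat_lit 341) (nat_lit 5)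 (nat_lit 353) (nat_lit 5) (nat_lit 354) (nat_lit 5) (nat_lit 474) (nat_lit 443) (nat_lit 223)) (XT.nd (nat_lit 78) (nat_lit 0) (nat_lit 0) (XT.lf (nat_lit 0) (nat_lit 356584034) (nat_lit 836) (nat_lit 408767391) (nat_lit 912) (nat_lit 19315593158) (nat_lit 329) (nat_lit 5) (nat_lit 340) (nat_lit 5) (nat_lit 341) (nat_lit 5) (nat_lit 475) (nat_lit 443) (nat_lit 222)) (XT.lf (nat_lit 0) (nat_lit 2706594276) (nat_lit 912) (nat_lit 9802431091) (nat_lit 76) (nat_lit 7795561015) (nat_lit 329) (nat_lit 5) (nat_lit 341) (nat_lit 5) (nat_lit 330) (nat_lit 5) (nat_lit 476) (nat_lit 443) (nat_lit 221)))) (XT.nd (nat_lit 156) (nat_lit 760) (nat_lit 0) (XT.nd (nat_lit 78) (nat_lit 0) (nat_lit 0) (XT.lf (nat_lit 0) (nat_lit 314959712) (nat_lit 836) (nat_lit 4371846823) (nat_lit 912) (nat_lit 15845894461) (nat_lit 318) (nat_lit 5) (nat_lit 329) (nat_lit 5) (nat_lit 330) (nat_lit 5) (nat_lit 477) (nat_lit 443) (nat_lit 220)) (XT.lf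 (nat_lit 0) (nat_lit 6793797448) (nat_lit 912) (nat_lit 10026895566) (nat_lit 76) (nat_lit 3942944214) (nat_lit 318) (nat_lit 5) (nat_lit 330) (nat_lit 5) (nat_lit 319) (nat_lit 5) (nat_lit 478) (nat_lit 443) (nat_lit 219))) (XT.nd (nat_lit 78) (nat_lit 0) (nat_lit 0) (XT.lf (nat_lit 0) (nat_lit 338879666) (nat_lit 760) (nat_lit 8630746116) (nat_lit 836) (nat_lit 12029035208) (nat_lit 308) (nat_lit 5) (nat_lit 318) (nat_lit 5) (nat_lit 319) (nat_lit 5) (nat_lit 479) (nat_lit 443) (nat_lit 218)) (XT.lf (nat_lit 0) (nat_lit 11043537183) (nat_lit 760) (nat_lit 208323103) (nat_lit 836) (nat_lit 9985269854) (nat_lit 308) (nat_lit 5) (nat_lit 318) (nat_lit 5) (nat_lit 319) (nat_lit 5) (nat_lit 480) (nat_lit 443) (nat_lit 217))))) (XT.nd (nat_lit 234) (nat_lit 1520) (nat_lit 0) (XT.nd (nat_lit 78) (nat_lit 684) (nat_lit 0) (XT.lf (nat_lit 0) (nat_lit 428763149) (nat_lit 760) (nat_lit 13203875557) (nat_lit 836) (nat_lit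 7846674635) (nat_lit 298) (nat_lit 5) (nat_lit 308) (nat_lit 5) (nat_lit 309) (nat_lit 5) (nat_lit 481) (nat_lit 443) (nat_lit 216)) (XT.nd (nat_lit 78) (nat_lit 684) (nat_lit 0) (XT.lf (nat_lit 0) (nat_lit 11396019636) (nat_lit 760) (nat_lit 4730534744) (nat_lit 836) (nat_lit 5598477992) (nat_lit 298) (nat_lit 5) (nat_lit 308) (nat_lit 5) (nat_lit 309) (nat_lit 5) (nat_lit 482) (nat_lit 443) (nat_lit 215)) (XT.lf (nat_lit 0) (nat_lit 584899166) (nat_lit 684) (nat_lit 18110477525) (nat_lit 760) (nat_lit 3279791074) (nat_lit 289) (nat_lit 5) (nat_lit 298) (nat_lit 5) (nat_lit 299) (nat_lit 5) (nat_lit 483) (nat_lit 443) (nat_lit 214)))) (XT.nd (nat_lit 156) (nat_lit 684) (nat_lit 0) (XT.nd (nat_lit 78) (nat_lit 836) (nat_lit 0) (XT.lf (nat_lit 0) (nat_lit 11821059588) (nat_lit 684) (nat_lit 9590834478) (nat_lit 760) (nat_lit 816487926) (nat_lit 289) (nat_lit 5) (nat_lit 298) (nat_lit 5) (nat_lit 299) (nat_lit 5)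 (nat_lit 484) (nat_lit 443) (nat_lit 213)) (XT.lf (nat_lit 0) (nat_lit 790366450) (nat_lit 760) (nat_lit 884537144) (nat_lit 836) (nat_lit 20811517736) (nat_lit 278) (nat_lit 5) (nat_lit 288) (nat_lit 5) (nat_lit 289) (nat_lit 5) (nat_lit 485) (nat_lit 443) (nat_lit 212))) (XT.nd (nat_lit 78) (nat_lit 684) (nat_lit 0) (XT.lf (nat_lit 0) (nat_lit 4323401917) (nat_lit 836) (nat_lit 10457248921) (nat_lit 76) (nat_lit 7966500796) (nat_lit 278) (nat_lit 5) (nat_lit 289) (nat_lit 5) (nat_lit 279) (nat_lit 5) (nat_lit 486) (nat_lit 443) (nat_lit 211)) (XT.lf (nat_lit 0) (nat_lit 1009476521) (nat_lit 684) (nat_lit 6023870260) (nat_lit 760) (nat_lit 15979582540) (nat_lit 269) (nat_lit 5) (nat_lit 278) (nat_lit 5) (nat_lit 279) (nat_lit 5) (nat_lit 487) (nat_lit 443) (nat_lit 210))))))) (XT.nd (nat_lit 1092) (nat_lit 3116) (nat_lit 0) (XT.nd (nat_lit 546) (nat_lit 2432) (nat_lit 0) (XT.nd (nat_lit 234) (nat_lit 1368) (nat_lit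 0) (XT.nd (nat_lit 78) (nat_lit 684) (nat_lit 0) (XT.lf (nat_lit 0) (nat_lit 9883122117) (nat_lit 760) (nat_lit 10458965771) (nat_lit 76) (nat_lit 2940224305) (nat_lit 269) (nat_lit 5) (nat_lit 279) (nat_lit 5) (nat_lit 270) (nat_lit 5) (nat_lit 488) (nat_lit 443) (nat_lit 209)) (XT.nd (nat_lit 78) (nat_lit 0) (nat_lit 0) (XT.lf (nat_lit 0) (nat_lit 1289222054) (nat_lit 684) (nat_lit 11545123044) (nat_lit 760) (nat_lit 10721850800) (nat_lit 260) (nat_lit 5) (nat_lit 269) (nat_lit 5) (nat_lit 270) (nat_lit 5) (nat_lit 489) (nat_lit 443) (nat_lit 208)) (XT.lf (nat_lit 0) (nat_lit 13409971186) (nat_lit 684) (nat_lit 2501042611) (nat_lit 760) (nat_lit 7923217231) (nat_lit 260) (nat_lit 5) (nat_lit 269) (nat_lit 5) (nat_lit 270) (nat_lit 5) (nat_lit 490) (nat_lit 443) (nat_lit 207)))) (XT.nd (nat_lit 156) (nat_lit 760) (nat_lit 0) (XT.nd (nat_lit 78) (nat_lit 0) (nat_lit 0) (XT.lf (nat_lit 0) (nat_lit 1628847014) (nat_lit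 608) (nat_lit 17470907824) (nat_lit 684) (nat_lit 5017063376) (nat_lit 252) (nat_lit 5) (nat_lit 260) (nat_lit 5) (nat_lit 261) (nat_lit 5) (nat_lit 491) (nat_lit 443) (nat_lit 206)) (XT.lf (nat_lit 0) (nat_lit 14043395802) (nat_lit 608) (nat_lit 8391634187) (nat_lit 684) (nat_lit 1968374059) (nat_lit 252) (nat_lit 5) (nat_lit 260) (nat_lit 5) (nat_lit 261) (nat_lit 5) (nat_lit 492) (nat_lit 443) (nat_lit 205))) (XT.nd (nat_lit 78) (nat_lit 0) (nat_lit 0) (XT.lf (nat_lit 0) (nat_lit 1141647172) (nat_lit 760) (nat_lit 22675600483) (nat_lit 76) (nat_lit 878021227) (nat_lit 242) (nat_lit 5) (nat_lit 252) (nat_lit 5) (nat_lit 243) (nat_lit 5) (nat_lit 493) (nat_lit 443) (nat_lit 204)) (XT.lf (nat_lit 0) (nat_lit 4409531494) (nat_lit 760) (nat_lit 10277430942) (nat_lit 76) (nat_lit 10303309943) (nat_lit 242) (nat_lit 5) (nat_lit 252) (nat_lit 5) (nat_lit 243) (nat_lit 5) (nat_lit 494) (nat_lit 443) (nat_lit 203)))))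 (XT.nd (nat_lit 234) (nat_lit 1216) (nat_lit 0) (XT.nd (nat_lit 78) (nat_lit 608) (nat_lit 0) (XT.lf (nat_lit 0) (nat_lit 2396056267) (nat_lit 608) (nat_lit 5358783145) (nat_lit 684) (nat_lit 17536097148) (nat_lit 234) (nat_lit 5) (nat_lit 242) (nat_lit 5) (nat_lit 243) (nat_lit 5) (nat_lit 495) (nat_lit 443) (nat_lit 202)) (XT.nd (nat_lit 78) (nat_lit 608) (nat_lit 0) (XT.lf (nat_lit 0) (nat_lit 11260007899) (nat_lit 684) (nat_lit 10165458821) (nat_lit 76) (nat_lit 4170290110) (nat_lit 234) (nat_lit 5) (nat_lit 243) (nat_lit 5) (nat_lit 235) (nat_lit 5) (nat_lit 496) (nat_lit 443) (nat_lit 201)) (XT.lf (nat_lit 0) (nat_lit 2815964274) (nat_lit 608) (nat_lit 12069702371) (nat_lit 684) (nat_lit 11020000978) (nat_lit 226) (nat_lit 5) (nat_lit 234) (nat_lit 5) (nat_lit 235) (nat_lit 5) (nat_lit 497) (nat_lit 443) (nat_lit 200)))) (XT.nd (nat_lit 156) (nat_lit 684) (nat_lit 0) (XT.nd (nat_lit 78) (nat_lit 532) (nat_lit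 0) (XT.lf (nat_lit 0) (nat_lit 16190807761) (nat_lit 608) (nat_lit 2457901915) (nat_lit 684) (nat_lit 7571771356) (nat_lit 226) (nat_lit 5) (nat_lit 234) (nat_lit 5) (nat_lit 235) (nat_lit 5) (nat_lit 498) (nat_lit 443) (nat_lit 199)) (XT.lf (nat_lit 0) (nat_lit 3282929433) (nat_lit 532) (nat_lit 19269811978) (nat_lit 608) (nat_lit 3987536524) (nat_lit 219) (nat_lit 5) (nat_lit 226) (nat_lit 5) (nat_lit 227) (nat_lit 5) (nat_lit 499) (nat_lit 443) (nat_lit 198))) (XT.nd (nat_lit 78) (nat_lit 684) (nat_lit 0) (XT.lf (nat_lit 0) (nat_lit 16977283268) (nat_lit 532) (nat_lit 9637800869) (nat_lit 608) (nat_lit 249783782) (nat_lit 219) (nat_lit 5) (nat_lit 226) (nat_lit 5) (nat_lit 227) (nat_lit 5) (nat_lit 500) (nat_lit 443) (nat_lit 197)) (XT.lf (nat_lit 0) (nat_lit 3538808722) (nat_lit 684) (nat_lit 23424602218) (nat_lit 76) (nat_lit 231621603) (nat_lit 210) (nat_lit 5) (nat_lit 219) (nat_lit 5) (nat_lit 211) (nat_lit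 5) (nat_lit 501) (nat_lit 443) (nat_lit 196)))))) (XT.nd (nat_lit 546) (nat_lit 1520) (nat_lit 0) (XT.nd (nat_lit 234) (nat_lit 1064) (nat_lit 0) (XT.nd (nat_lit 78) (nat_lit 532) (nat_lit 0) (XT.lf (nat_lit 0) (nat_lit 7527277515) (nat_lit 684) (nat_lit 9764722013) (nat_lit 76) (nat_lit 10237220578) (nat_lit 210) (nat_lit 5) (nat_lit 219) (nat_lit 5) (nat_lit 211) (nat_lit 5) (nat_lit 502) (nat_lit 443) (nat_lit 195)) (XT.nd (nat_lit 78) (nat_lit 0) (nat_lit 0) (XT.lf (nat_lit 0) (nat_lit 4219814241) (nat_lit 532) (nat_lit 7399990565) (nat_lit 608) (nat_lit 16249802447) (nat_lit 203) (nat_lit 5) (nat_lit 210) (nat_lit 5) (nat_lit 211) (nat_lit 5) (nat_lit 503) (nat_lit 443) (nat_lit 194)) (XT.lf (nat_lit 0) (nat_lit 15874529440) (nat_lit 608) (nat_lit 9620902864) (nat_lit 76) (nat_lit 2719764488) (nat_lit 203) (nat_lit 5) (nat_lit 211) (nat_lit 5) (nat_lit 204) (nat_lit 5) (nat_lit 504) (nat_lit 443) (nat_lit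 193)))) (XT.nd (nat_lit 156) (nat_lit 532) (nat_lit 0) (XT.nd (nat_lit 78) (nat_lit 0) (nat_lit 0) (XT.lf (nat_lit 0) (nat_lit 4697324041) (nat_lit 532) (nat_lit 15593511656) (nat_lit 608) (nat_lit 8275334236) (nat_lit 196) (nat_lit 5) (nat_lit 203) (nat_lit 5) (nat_lit 204) (nat_lit 5) (nat_lit 505) (nat_lit 443) (nat_lit 192)) (XT.lf (nat_lit 0) (nat_lit 19428513889) (nat_lit 532) (nat_lit 5428532336) (nat_lit 608) (nat_lit 4065886272) (nat_lit 196) (nat_lit 5) (nat_lit 203) (nat_lit 5) (nat_lit 204) (nat_lit 5) (nat_lit 506) (nat_lit 443) (nat_lit 191))) (XT.nd (nat_lit 78) (nat_lit 0) (nat_lit 0) (XT.lf (nat_lit 0) (nat_lit 288081614) (nat_lit 532) (nat_lit 24087642598) (nat_lit 76) (nat_lit 4909811631) (nat_lit 189) (nat_lit 5) (nat_lit 196) (nat_lit 5) (nat_lit 190) (nat_lit 5) (nat_lit 507) (nat_lit 443) (nat_lit 190)) (XT.lf (nat_lit 0) (nat_lit 4771904922) (nat_lit 532) (nat_lit 9408475789) (nat_lit 76)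 (nat_lit 15472530105) (nat_lit 189) (nat_lit 5) (nat_lit 196) (nat_lit 5) (nat_lit 190) (nat_lit 5) (nat_lit 508) (nat_lit 443) (nat_lit 189))))) (XT.nd (nat_lit 312) (nat_lit 532) (nat_lit 0) (XT.nd (nat_lit 156) (nat_lit 456) (nat_lit 0) (XT.nd (nat_lit 78) (nat_lit 0) (nat_lit 0) (XT.lf (nat_lit 0) (nat_lit 5634435120) (nat_lit 532) (nat_lit 3744691633) (nat_lit 608) (nat_lit 20647833499) (nat_lit 182) (nat_lit 5) (nat_lit 189) (nat_lit 5) (nat_lit 190) (nat_lit 5) (nat_lit 509) (nat_lit 443) (nat_lit 188)) (XT.lf (nat_lit 0) (nat_lit 14184010294) (nat_lit 608) (nat_lit 9350468472) (nat_lit 76) (nat_lit 6871902946) (nat_lit 182) (nat_lit 5) (nat_lit 190) (nat_lit 5) (nat_lit 183) (nat_lit 5) (nat_lit 510) (nat_lit 443) (nat_lit 187))) (XT.nd (nat_lit 78) (nat_lit 0) (nat_lit 0) (XT.lf (nat_lit 0) (nat_lit 6043197958) (nat_lit 456) (nat_lit 13103050679) (nat_lit 532) (nat_lit 11645919176) (nat_lit 176) (nat_lit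 5) (nat_lit 182) (nat_lit 5) (nat_lit 183) (nat_lit 5) (nat_lit 511) (nat_lit 443) (nat_lit 186)) (XT.lf (nat_lit 0) (nat_lit 21867820343) (nat_lit 456) (nat_lit 2399910051) (nat_lit 532) (nat_lit 6916740592) (nat_lit 176) (nat_lit 5) (nat_lit 182) (nat_lit 5) (nat_lit 183) (nat_lit 5) (nat_lit 512) (nat_lit 443) (nat_lit 185)))) (XT.nd (nat_lit 53976) (nat_lit 0) (nat_lit 17176) (XT.nd (nat_lit 78) (nat_lit 76) (nat_lit 0) (XT.lf (nat_lit 0) (nat_lit 6449964576) (nat_lit 456) (nat_lit 23136154701) (nat_lit 532) (nat_lit 1996612697) (nat_lit 170) (nat_lit 5) (nat_lit 176) (nat_lit 5) (nat_lit 177) (nat_lit 5) (nat_lit 513) (nat_lit 443) (nat_lit 184)) (XT.lf (nat_lit 0) (nat_lit 3058422494) (nat_lit 532) (nat_lit 9369089740) (nat_lit 76) (nat_lit 19559532035) (nat_lit 169) (nat_lit 5) (nat_lit 176) (nat_lit 5) (nat_lit 170) (nat_lit 5) (nat_lit 514) (nat_lit 443) (nat_lit 183))) (XT.nd (nat_lit 78) (nat_lit 0)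 (nat_lit 0) (XT.lf (nat_lit 0) (nat_lit 1811625484) (nat_lit 1748) (nat_lit 2773787377) (nat_lit 1748) (nat_lit 2773787377) (nat_lit 395) (nat_lit 3) (nat_lit 418) (nat_lit 3) (nat_lit 418) (nat_lit 5) (nat_lit 444) (nat_lit 444) (nat_lit 252)) (XT.lf (nat_lit 76) (nat_lit 1236486271) (nat_lit 0) (nat_lit 2729010704) (nat_lit 1748) (nat_lit 10893761031) (nat_lit 396) (nat_lit 5) (nat_lit 395) (nat_lit 3) (nat_lit 418) (nat_lit 5) (nat_lit 445) (nat_lit 444) (nat_lit 251))))))))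
noncomputable def xc227 : XT := (XT.nd (nat_lit 2184) (nat_lit 10868) (nat_lit 0) (XT.nd (nat_lit 1092) (nat_lit 3268) (nat_lit 0) (XT.nd (nat_lit 546) (nat_lit 0) (nat_lit 228) (XT.nd (nat_lit 234) (nat_lit 0) (nat_lit 76) (XT.nd (nat_lit 78) (nat_lit 0) (nat_lit 0) (XT.lf (nat_lit 0) (nat_lit 4369186234) (nat_lit 1672) (nat_lit 6800178751) (nat_lit 1748) (nat_lit 3832481143) (nat_lit 396) (nat_lit 5) (nat_lit 418) (nat_lit 5) (nat_lit 419) (nat_lit 5) (nat_lit 446) (nat_lit 444) (nat_lit 250)) (XT.nd (nat_lit 78) (nat_lit 0) (nat_lit 76) (XT.lf (nat_lit 76) (nat_lit 138463119) (nat_lit 0) (nat_lit 4653793529) (nat_lit 1748) (nat_lit 10354808518) (nat_lit 397) (nat_lit 5) (nat_lit 396) (nat_lit 5) (nat_lit 419) (nat_lit 5) (nat_lit 447) (nat_lit 444) (nat_lit 249)) (XT.lf (nat_lit 0) (nat_lit 5275138641) (nat_lit 1672) (nat_lit 8003753047) (nat_lit 1748) (nat_lit 2015275094) (nat_lit 397) (nat_lit 5) (nat_lit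 419) (nat_lit 5) (nat_lit 420) (nat_lit 5) (nat_lit 448) (nat_lit 444) (nat_lit 248)))) (XT.nd (nat_lit 156) (nat_lit 0) (nat_lit 76) (XT.nd (nat_lit 78) (nat_lit 0) (nat_lit 76) (XT.lf (nat_lit 0) (nat_lit 5791126746) (nat_lit 1672) (nat_lit 893839623) (nat_lit 1748) (nat_lit 8758780188) (nat_lit 397) (nat_lit 5) (nat_lit 419) (nat_lit 5) (nat_lit 420) (nat_lit 5) (nat_lit 449) (nat_lit 444) (nat_lit 247)) (XT.lf (nat_lit 0) (nat_lit 6352573457) (nat_lit 1672) (nat_lit 9157608343) (nat_lit 1748) (nat_lit 85438347) (nat_lit 398) (nat_lit 5) (nat_lit 420) (nat_lit 5) (nat_lit 421) (nat_lit 5) (nat_lit 450) (nat_lit 444) (nat_lit 246))) (XT.nd (nat_lit 78) (nat_lit 0) (nat_lit 0) (XT.lf (nat_lit 0) (nat_lit 6968466043) (nat_lit 1672) (nat_lit 1870375403) (nat_lit 1748) (nat_lit 6910830322) (nat_lit 398) (nat_lit 5) (nat_lit 420) (nat_lit 5) (nat_lit 421) (nat_lit 5) (nat_lit 451) (nat_lit 444) (nat_lit 245)) (XT.lf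 (nat_lit 76) (nat_lit 5632284712) (nat_lit 0) (nat_lit 1994007143) (nat_lit 1748) (nat_lit 8279925065) (nat_lit 399) (nat_lit 5) (nat_lit 398) (nat_lit 5) (nat_lit 421) (nat_lit 5) (nat_lit 452) (nat_lit 444) (nat_lit 244))))) (XT.nd (nat_lit 234) (nat_lit 0) (nat_lit 76) (XT.nd (nat_lit 78) (nat_lit 0) (nat_lit 0) (XT.lf (nat_lit 0) (nat_lit 8335465738) (nat_lit 1672) (nat_lit 2792074610) (nat_lit 1748) (nat_lit 4937593502) (nat_lit 399) (nat_lit 5) (nat_lit 421) (nat_lit 5) (nat_lit 422) (nat_lit 5) (nat_lit 453) (nat_lit 444) (nat_lit 243)) (XT.nd (nat_lit 78) (nat_lit 0) (nat_lit 76) (XT.lf (nat_lit 76) (nat_lit 4886063661) (nat_lit 0) (nat_lit 4210995818) (nat_lit 1748) (nat_lit 7129409530) (nat_lit 400) (nat_lit 5) (nat_lit 399) (nat_lit 5) (nat_lit 422) (nat_lit 5) (nat_lit 454) (nat_lit 444) (nat_lit 242)) (XT.lf (nat_lit 0) (nat_lit 9904636692) (nat_lit 1672) (nat_lit 3657989237) (nat_lit 1748) (nat_lit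 2827794435) (nat_lit 400) (nat_lit 5) (nat_lit 422) (nat_lit 5) (nat_lit 423) (nat_lit 5) (nat_lit 455) (nat_lit 444) (nat_lit 241)))) (XT.nd (nat_lit 156) (nat_lit 0) (nat_lit 76) (XT.nd (nat_lit 78) (nat_lit 0) (nat_lit 76) (XT.lf (nat_lit 76) (nat_lit 4201013616) (nat_lit 0) (nat_lit 6576070745) (nat_lit 1748) (nat_lit 5779596445) (nat_lit 401) (nat_lit 5) (nat_lit 400) (nat_lit 5) (nat_lit 423) (nat_lit 5) (nat_lit 456) (nat_lit 444) (nat_lit 240)) (XT.lf (nat_lit 0) (nat_lit 11688931158) (nat_lit 1672) (nat_lit 4467116957) (nat_lit 1748) (nat_lit 569783687) (nat_lit 401) (nat_lit 5) (nat_lit 423) (nat_lit 5) (nat_lit 424) (nat_lit 5) (nat_lit 457) (nat_lit 444) (nat_lit 239))) (XT.nd (nat_lit 78) (nat_lit 0) (nat_lit 0) (XT.lf (nat_lit 76) (nat_lit 3578281948) (nat_lit 0) (nat_lit 9101308028) (nat_lit 1748) (nat_lit 4217568607) (nat_lit 402) (nat_lit 5) (nat_lit 401) (nat_lit 5) (nat_lit 424) (nat_lit 5) (nat_lit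 458) (nat_lit 444) (nat_lit 238)) (XT.lf (nat_lit 76) (nat_lit 11840868074) (nat_lit 0) (nat_lit 1873056939) (nat_lit 1748) (nat_lit 3357513806) (nat_lit 402) (nat_lit 5) (nat_lit 401) (nat_lit 5) (nat_lit 424) (nat_lit 5) (nat_lit 459) (nat_lit 444) (nat_lit 237)))))) (XT.nd (nat_lit 546) (nat_lit 2052) (nat_lit 0) (XT.nd (nat_lit 234) (nat_lit 1672) (nat_lit 0) (XT.nd (nat_lit 78) (nat_lit 0) (nat_lit 0) (XT.lf (nat_lit 76) (nat_lit 3019063140) (nat_lit 0) (nat_lit 11799211382) (nat_lit 1748) (nat_lit 2429947682) (nat_lit 403) (nat_lit 5) (nat_lit 402) (nat_lit 5) (nat_lit 425) (nat_lit 5) (nat_lit 460) (nat_lit 444) (nat_lit 236)) (XT.nd (nat_lit 78) (nat_lit 0) (nat_lit 76) (XT.lf (nat_lit 76) (nat_lit 11487725133) (nat_lit 0) (nat_lit 4498515833) (nat_lit 1748) (nat_lit 1441473709) (nat_lit 403) (nat_lit 5) (nat_lit 402) (nat_lit 5) (nat_lit 425) (nat_lit 5) (nat_lit 461) (nat_lit 444) (nat_lit 235)) (XT.lf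 (nat_lit 76) (nat_lit 2524589671) (nat_lit 0) (nat_lit 14682743029) (nat_lit 1748) (nat_lit 402872918) (nat_lit 404) (nat_lit 5) (nat_lit 403) (nat_lit 5) (nat_lit 426) (nat_lit 5) (nat_lit 462) (nat_lit 444) (nat_lit 234)))) (XT.nd (nat_lit 156) (nat_lit 0) (nat_lit 76) (XT.nd (nat_lit 78) (nat_lit 0) (nat_lit 76) (XT.lf (nat_lit 0) (nat_lit 712082350) (nat_lit 1748) (nat_lit 6595282279) (nat_lit 1824) (nat_lit 10487616437) (nat_lit 380) (nat_lit 5) (nat_lit 403) (nat_lit 5) (nat_lit 404) (nat_lit 5) (nat_lit 463) (nat_lit 444) (nat_lit 233)) (XT.lf (nat_lit 0) (nat_lit 1853389970) (nat_lit 1748) (nat_lit 15899528364) (nat_lit 1824) (nat_lit 230295189) (nat_lit 381) (nat_lit 5) (nat_lit 404) (nat_lit 5) (nat_lit 405) (nat_lit 5) (nat_lit 464) (nat_lit 444) (nat_lit 232))) (XT.nd (nat_lit 78) (nat_lit 0) (nat_lit 0) (XT.lf (nat_lit 0) (nat_lit 3104947020) (nat_lit 1748) (nat_lit 7201780612) (nat_lit 1824) (nat_lit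 7866738169) (nat_lit 381) (nat_lit 5) (nat_lit 404) (nat_lit 5) (nat_lit 405) (nat_lit 5) (nat_lit 465) (nat_lit 444) (nat_lit 231)) (XT.lf (nat_lit 76) (nat_lit 1687741804) (nat_lit 0) (nat_lit 2699338820) (nat_lit 1824) (nat_lit 13980335164) (nat_lit 382) (nat_lit 5) (nat_lit 381) (nat_lit 5) (nat_lit 405) (nat_lit 5) (nat_lit 466) (nat_lit 444) (nat_lit 230))))) (XT.nd (nat_lit 234) (nat_lit 2204) (nat_lit 0) (XT.nd (nat_lit 78) (nat_lit 0) (nat_lit 0) (XT.lf (nat_lit 0) (nat_lit 5771031416) (nat_lit 1748) (nat_lit 7749179649) (nat_lit 1824) (nat_lit 5043513717) (nat_lit 382) (nat_lit 5) (nat_lit 405) (nat_lit 5) (nat_lit 406) (nat_lit 5) (nat_lit 467) (nat_lit 444) (nat_lit 229)) (XT.nd (nat_lit 78) (nat_lit 0) (nat_lit 76) (XT.lf (nat_lit 76) (nat_lit 1355508324) (nat_lit 0) (nat_lit 5848607201) (nat_lit 1824) (nat_lit 11559418774) (nat_lit 383) (nat_lit 5) (nat_lit 382) (nat_lit 5) (nat_lit 406) (nat_lit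 5) (nat_lit 468) (nat_lit 444) (nat_lit 228)) (XT.lf (nat_lit 0) (nat_lit 8725896224) (nat_lit 1748) (nat_lit 8236545496) (nat_lit 76) (nat_lit 2003700951) (nat_lit 383) (nat_lit 5) (nat_lit 406) (nat_lit 5) (nat_lit 384) (nat_lit 5) (nat_lit 469) (nat_lit 444) (nat_lit 227)))) (XT.nd (nat_lit 156) (nat_lit 836) (nat_lit 0) (XT.nd (nat_lit 78) (nat_lit 0) (nat_lit 0) (XT.lf (nat_lit 0) (nat_lit 1089607718) (nat_lit 1444) (nat_lit 9229269780) (nat_lit 1520) (nat_lit 8853113711) (nat_lit 364) (nat_lit 5) (nat_lit 383) (nat_lit 5) (nat_lit 384) (nat_lit 5) (nat_lit 470) (nat_lit 444) (nat_lit 226)) (XT.lf (nat_lit 0) (nat_lit 10709646148) (nat_lit 1444) (nat_lit 1284372846) (nat_lit 1520) (nat_lit 7386934945) (nat_lit 364) (nat_lit 5) (nat_lit 383) (nat_lit 5) (nat_lit 384) (nat_lit 5) (nat_lit 471) (nat_lit 444) (nat_lit 225))) (XT.nd (nat_lit 78) (nat_lit 0) (nat_lit 0) (XT.lf (nat_lit 0) (nat_lit 891092714) (nat_lit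 836) (nat_lit 12856763249) (nat_lit 912) (nat_lit 5845339274) (nat_lit 353) (nat_lit 5) (nat_lit 364) (nat_lit 5) (nat_lit 365) (nat_lit 5) (nat_lit 472) (nat_lit 444) (nat_lit 224)) (XT.lf (nat_lit 0) (nat_lit 10749385269) (nat_lit 836) (nat_lit 4849221822) (nat_lit 912) (nat_lit 4209840630) (nat_lit 353) (nat_lit 5) (nat_lit 364) (nat_lit 5) (nat_lit 365) (nat_lit 5) (nat_lit 473) (nat_lit 444) (nat_lit 223))))))) (XT.nd (nat_lit 1092) (nat_lit 5168) (nat_lit 0) (XT.nd (nat_lit 546) (nat_lit 2280) (nat_lit 0) (XT.nd (nat_lit 234) (nat_lit 1596) (nat_lit 0) (XT.nd (nat_lit 78) (nat_lit 912) (nat_lit 0) (XT.lf (nat_lit 0) (nat_lit 760977447) (nat_lit 912) (nat_lit 16747178307) (nat_lit 988) (nat_lit 2519416896) (nat_lit 341) (nat_lit 5) (nat_lit 353) (nat_lit 5) (nat_lit 354) (nat_lit 5) (nat_lit 474) (nat_lit 444) (nat_lit 222)) (XT.nd (nat_lit 78) (nat_lit 912) (nat_lit 0) (XT.lf (nat_lit 0) (nat_lit 10863407934)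 (nat_lit 912) (nat_lit 8680541866) (nat_lit 988) (nat_lit 705372175) (nat_lit 341) (nat_lit 5) (nat_lit 353) (nat_lit 5) (nat_lit 354) (nat_lit 5) (nat_lit 475) (nat_lit 444) (nat_lit 221)) (XT.lf (nat_lit 0) (nat_lit 689745644) (nat_lit 836) (nat_lit 440088327) (nat_lit 912) (nat_lit 19345528574) (nat_lit 329) (nat_lit 5) (nat_lit 340) (nat_lit 5) (nat_lit 341) (nat_lit 5) (nat_lit 476) (nat_lit 444) (nat_lit 220)))) (XT.nd (nat_lit 156) (nat_lit 760) (nat_lit 0) (XT.nd (nat_lit 78) (nat_lit 836) (nat_lit 0) (XT.lf (nat_lit 0) (nat_lit 3102907771) (nat_lit 912) (nat_lit 9671635462) (nat_lit 76) (nat_lit 7929078088) (nat_lit 329) (nat_lit 5) (nat_lit 341) (nat_lit 5) (nat_lit 330) (nat_lit 5) (nat_lit 477) (nat_lit 444) (nat_lit 219)) (XT.lf (nat_lit 0) (nat_lit 645952866) (nat_lit 836) (nat_lit 4472170094) (nat_lit 912) (nat_lit 15818271473) (nat_lit 318) (nat_lit 5) (nat_lit 329) (nat_lit 5) (nat_lit 330) (nat_lit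 5) (nat_lit 478) (nat_lit 444) (nat_lit 218))) (XT.nd (nat_lit 78) (nat_lit 760) (nat_lit 0) (XT.lf (nat_lit 0) (nat_lit 7260552444) (nat_lit 912) (nat_lit 9902199939) (nat_lit 76) (nat_lit 4009335129) (nat_lit 318) (nat_lit 5) (nat_lit 330) (nat_lit 5) (nat_lit 319) (nat_lit 5) (nat_lit 479) (nat_lit 444) (nat_lit 217)) (XT.lf (nat_lit 0) (nat_lit 668751103) (nat_lit 760) (nat_lit 8806756156) (nat_lit 836) (nat_lit 11936396309) (nat_lit 308) (nat_lit 5) (nat_lit 318) (nat_lit 5) (nat_lit 319) (nat_lit 5) (nat_lit 480) (nat_lit 444) (nat_lit 216))))) (XT.nd (nat_lit 234) (nat_lit 1520) (nat_lit 0) (XT.nd (nat_lit 78) (nat_lit 760) (nat_lit 0) (XT.lf (nat_lit 0) (nat_lit 11581166597) (nat_lit 760) (nat_lit 215818113) (nat_lit 836) (nat_lit 9858289366) (nat_lit 308) (nat_lit 5) (nat_lit 318) (nat_lit 5) (nat_lit 319) (nat_lit 5) (nat_lit 481) (nat_lit 444) (nat_lit 215)) (XT.nd (nat_lit 78) (nat_lit 0) (nat_lit 0)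 (XT.lf (nat_lit 0) (nat_lit 758589868) (nat_lit 760) (nat_lit 13462577200) (nat_lit 836) (nat_lit 7681221966) (nat_lit 298) (nat_lit 5) (nat_lit 308) (nat_lit 5) (nat_lit 309) (nat_lit 5) (nat_lit 482) (nat_lit 444) (nat_lit 214)) (XT.lf (nat_lit 0) (nat_lit 11938892437) (nat_lit 760) (nat_lit 4819874979) (nat_lit 836) (nat_lit 5394382688) (nat_lit 298) (nat_lit 5) (nat_lit 308) (nat_lit 5) (nat_lit 309) (nat_lit 5) (nat_lit 483) (nat_lit 444) (nat_lit 213)))) (XT.nd (nat_lit 156) (nat_lit 836) (nat_lit 0) (XT.nd (nat_lit 78) (nat_lit 0) (nat_lit 0) (XT.lf (nat_lit 0) (nat_lit 915784431) (nat_lit 684) (nat_lit 18459215472) (nat_lit 760) (nat_lit 3033371339) (nat_lit 289) (nat_lit 5) (nat_lit 298) (nat_lit 5) (nat_lit 299) (nat_lit 5) (nat_lit 484) (nat_lit 444) (nat_lit 212)) (XT.lf (nat_lit 0) (nat_lit 12370409487) (nat_lit 684) (nat_lit 9769443713) (nat_lit 760) (nat_lit 526920080) (nat_lit 289) (nat_lit 5) (nat_lit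 298) (nat_lit 5) (nat_lit 299) (nat_lit 5) (nat_lit 485) (nat_lit 444) (nat_lit 211))) (XT.nd (nat_lit 78) (nat_lit 0) (nat_lit 0) (XT.lf (nat_lit 0) (nat_lit 1121206439) (nat_lit 760) (nat_lit 885207003) (nat_lit 836) (nat_lit 20923601217) (nat_lit 278) (nat_lit 5) (nat_lit 288) (nat_lit 5) (nat_lit 289) (nat_lit 5) (nat_lit 486) (nat_lit 444) (nat_lit 210)) (XT.lf (nat_lit 0) (nat_lit 4702146707) (nat_lit 836) (nat_lit 10351631892) (nat_lit 76) (nat_lit 8142299098) (nat_lit 278) (nat_lit 5) (nat_lit 289) (nat_lit 5) (nat_lit 279) (nat_lit 5) (nat_lit 487) (nat_lit 444) (nat_lit 209)))))) (XT.nd (nat_lit 546) (nat_lit 2432) (nat_lit 0) (XT.nd (nat_lit 234) (nat_lit 1368) (nat_lit 0) (XT.nd (nat_lit 78) (nat_lit 684) (nat_lit 0) (XT.lf (nat_lit 0) (nat_lit 1342357256) (nat_lit 684) (nat_lit 6120232494) (nat_lit 760) (nat_lit 16004658564) (nat_lit 269) (nat_lit 5) (nat_lit 278) (nat_lit 5) (nat_lit 279) (nat_lit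 5) (nat_lit 488) (nat_lit 444) (nat_lit 208)) (XT.nd (nat_lit 78) (nat_lit 684) (nat_lit 0) (XT.lf (nat_lit 0) (nat_lit 10363855742) (nat_lit 760) (nat_lit 10355915453) (nat_lit 76) (nat_lit 3022361041) (nat_lit 269) (nat_lit 5) (nat_lit 279) (nat_lit 5) (nat_lit 270) (nat_lit 5) (nat_lit 489) (nat_lit 444) (nat_lit 207)) (XT.lf (nat_lit 0) (nat_lit 1625181986) (nat_lit 684) (nat_lit 11745384646) (nat_lit 760) (nat_lit 10651000946) (nat_lit 260) (nat_lit 5) (nat_lit 269) (nat_lit 5) (nat_lit 270) (nat_lit 5) (nat_lit 490) (nat_lit 444) (nat_lit 206)))) (XT.nd (nat_lit 156) (nat_lit 760) (nat_lit 0) (XT.nd (nat_lit 78) (nat_lit 608) (nat_lit 0) (XT.lf (nat_lit 0) (nat_lit 13982264228) (nat_lit 684) (nat_lit 2521023405) (nat_lit 760) (nat_lit 7801988566) (nat_lit 260) (nat_lit 5) (nat_lit 269) (nat_lit 5) (nat_lit 270) (nat_lit 5) (nat_lit 491) (nat_lit 444) (nat_lit 205)) (XT.lf (nat_lit 0) (nat_lit 1968925548)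 (nat_lit 608) (nat_lit 17783692068) (nat_lit 684) (nat_lit 4840964336) (nat_lit 252) (nat_lit 5) (nat_lit 260) (nat_lit 5) (nat_lit 261) (nat_lit 5) (nat_lit 492) (nat_lit 444) (nat_lit 204))) (XT.nd (nat_lit 78) (nat_lit 760) (nat_lit 0) (XT.lf (nat_lit 0) (nat_lit 14625735869) (nat_lit 608) (nat_lit 8523551270) (nat_lit 684) (nat_lit 1736721631) (nat_lit 252) (nat_lit 5) (nat_lit 260) (nat_lit 5) (nat_lit 261) (nat_lit 5) (nat_lit 493) (nat_lit 444) (nat_lit 203)) (XT.lf (nat_lit 0) (nat_lit 1428922574) (nat_lit 760) (nat_lit 22820767331) (nat_lit 76) (nat_lit 934049188) (nat_lit 242) (nat_lit 5) (nat_lit 252) (nat_lit 5) (nat_lit 243) (nat_lit 5) (nat_lit 494) (nat_lit 444) (nat_lit 202))))) (XT.nd (nat_lit 312) (nat_lit 1216) (nat_lit 0) (XT.nd (nat_lit 156) (nat_lit 608) (nat_lit 0) (XT.nd (nat_lit 78) (nat_lit 608) (nat_lit 0) (XT.lf (nat_lit 0) (nat_lit 4756979436) (nat_lit 760) (nat_lit 10180680383) (nat_lit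 76) (nat_lit 10547089413) (nat_lit 242) (nat_lit 5) (nat_lit 252) (nat_lit 5) (nat_lit 243) (nat_lit 5) (nat_lit 495) (nat_lit 444) (nat_lit 201)) (XT.lf (nat_lit 0) (nat_lit 2744287760) (nat_lit 608) (nat_lit 5421772091) (nat_lit 684) (nat_lit 17625432333) (nat_lit 234) (nat_lit 5) (nat_lit 242) (nat_lit 5) (nat_lit 243) (nat_lit 5) (nat_lit 496) (nat_lit 444) (nat_lit 200))) (XT.nd (nat_lit 78) (nat_lit 608) (nat_lit 0) (XT.lf (nat_lit 0) (nat_lit 11736590939) (nat_lit 684) (nat_lit 10069467422) (nat_lit 76) (nat_lit 4296448070) (nat_lit 234) (nat_lit 5) (nat_lit 243) (nat_lit 5) (nat_lit 235) (nat_lit 5) (nat_lit 497) (nat_lit 444) (nat_lit 199)) (XT.lf (nat_lit 0) (nat_lit 3169615052) (nat_lit 608) (nat_lit 12262149206) (nat_lit 684) (nat_lit 10986913859) (nat_lit 226) (nat_lit 5) (nat_lit 234) (nat_lit 5) (nat_lit 235) (nat_lit 5) (nat_lit 498) (nat_lit 444) (nat_lit 198)))) (XT.nd (nat_lit 156) (nat_lit 684)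 (nat_lit 0) (XT.nd (nat_lit 78) (nat_lit 532) (nat_lit 0) (XT.lf (nat_lit 0) (nat_lit 16806125379) (nat_lit 608) (nat_lit 2459072489) (nat_lit 684) (nat_lit 7474689980) (nat_lit 226) (nat_lit 5) (nat_lit 234) (nat_lit 5) (nat_lit 235) (nat_lit 5) (nat_lit 499) (nat_lit 444) (nat_lit 197)) (XT.lf (nat_lit 0) (nat_lit 3642832086) (nat_lit 532) (nat_lit 19601919253) (nat_lit 608) (nat_lit 3821383128) (nat_lit 219) (nat_lit 5) (nat_lit 226) (nat_lit 5) (nat_lit 227) (nat_lit 5) (nat_lit 500) (nat_lit 444) (nat_lit 196))) (XT.nd (nat_lit 78) (nat_lit 684) (nat_lit 0) (XT.lf (nat_lit 0) (nat_lit 17605303506) (nat_lit 532) (nat_lit 9778312803) (nat_lit 608) (nat_lit 13696980) (nat_lit 219) (nat_lit 5) (nat_lit 226) (nat_lit 5) (nat_lit 227) (nat_lit 5) (nat_lit 501) (nat_lit 444) (nat_lit 195)) (XT.lf (nat_lit 0) (nat_lit 3845077446) (nat_lit 684) (nat_lit 23598782450) (nat_lit 76) (nat_lit 290241015) (nat_lit 210) (nat_lit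 5) (nat_lit 219) (nat_lit 5) (nat_lit 211) (nat_lit 5) (nat_lit 502) (nat_lit 444) (nat_lit 194))))))))
noncomputable def xc228 : XT := (XT.nd (nat_lit 56082) (nat_lit 0) (nat_lit 7524) (XT.nd (nat_lit 54990) (nat_lit 0) (nat_lit 17176) (XT.nd (nat_lit 546) (nat_lit 1444) (nat_lit 0) (XT.nd (nat_lit 234) (nat_lit 1064) (nat_lit 0) (XT.nd (nat_lit 78) (nat_lit 532) (nat_lit 0) (XT.lf (nat_lit 0) (nat_lit 7908698114) (nat_lit 684) (nat_lit 9671475461) (nat_lit 76) (nat_lit 10494893401) (nat_lit 210) (nat_lit 5) (nat_lit 219) (nat_lit 5) (nat_lit 211) (nat_lit 5) (nat_lit 503) (nat_lit 444) (nat_lit 193)) (XT.nd (nat_lit 78) (nat_lit 0) (nat_lit 0) (XT.lf (nat_lit 0) (nat_lit 4590853222) (nat_lit 532) (nat_lit 7489556841) (nat_lit 608) (nat_lit 16341907474) (nat_lit 203) (nat_lit 5) (nat_lit 210) (nat_lit 5) (nat_lit 211) (nat_lit 5) (nat_lit 504) (nat_lit 444) (nat_lit 192)) (XT.lf (nat_lit 0) (nat_lit 16416126451)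 (nat_lit 608) (nat_lit 9528080561) (nat_lit 76) (nat_lit 2830696218) (nat_lit 203) (nat_lit 5) (nat_lit 211) (nat_lit 5) (nat_lit 204) (nat_lit 5) (nat_lit 505) (nat_lit 444) (nat_lit 191)))) (XT.nd (nat_lit 156) (nat_lit 532) (nat_lit 0) (XT.nd (nat_lit 78) (nat_lit 0) (nat_lit 0) (XT.lf (nat_lit 0) (nat_lit 5074634301) (nat_lit 532) (nat_lit 15843570074) (nat_lit 608) (nat_lit 8214744810) (nat_lit 196) (nat_lit 5) (nat_lit 203) (nat_lit 5) (nat_lit 204) (nat_lit 5) (nat_lit 506) (nat_lit 444) (nat_lit 190)) (XT.lf (nat_lit 0) (nat_lit 20094891794) (nat_lit 532) (nat_lit 5476503165) (nat_lit 608) (nat_lit 3925541143) (nat_lit 196) (nat_lit 5) (nat_lit 203) (nat_lit 5) (nat_lit 204) (nat_lit 5) (nat_lit 507) (nat_lit 444) (nat_lit 189))) (XT.nd (nat_lit 78) (nat_lit 0) (nat_lit 0) (XT.lf (nat_lit 0) (nat_lit 510528001) (nat_lit 532) (nat_lit 24286394424) (nat_lit 76) (nat_lit 5069883856) (nat_lit 189) (nat_lit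 5) (nat_lit 196) (nat_lit 5) (nat_lit 190) (nat_lit 5) (nat_lit 508) (nat_lit 444) (nat_lit 188)) (XT.lf (nat_lit 0) (nat_lit 5079779054) (nat_lit 532) (nat_lit 9319193319) (nat_lit 76) (nat_lit 15842643445) (nat_lit 189) (nat_lit 5) (nat_lit 196) (nat_lit 5) (nat_lit 190) (nat_lit 5) (nat_lit 509) (nat_lit 444) (nat_lit 187))))) (XT.nd (nat_lit 234) (nat_lit 456) (nat_lit 0) (XT.nd (nat_lit 78) (nat_lit 456) (nat_lit 0) (XT.lf (nat_lit 0) (nat_lit 6022750467) (nat_lit 532) (nat_lit 3754018994) (nat_lit 608) (nat_lit 20846426349) (nat_lit 182) (nat_lit 5) (nat_lit 189) (nat_lit 5) (nat_lit 190) (nat_lit 5) (nat_lit 510) (nat_lit 444) (nat_lit 186)) (XT.nd (nat_lit 78) (nat_lit 456) (nat_lit 0) (XT.lf (nat_lit 0) (nat_lit 14674049200) (nat_lit 608) (nat_lit 9263453732) (nat_lit 76) (nat_lit 7072778805) (nat_lit 182) (nat_lit 5) (nat_lit 190) (nat_lit 5) (nat_lit 183) (nat_lit 5) (nat_lit 511) (nat_lit 444) (nat_lit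 185)) (XT.lf (nat_lit 0) (nat_lit 6436283236) (nat_lit 456) (nat_lit 13296970264) (nat_lit 532) (nat_lit 11670577602) (nat_lit 176) (nat_lit 5) (nat_lit 182) (nat_lit 5) (nat_lit 183) (nat_lit 5) (nat_lit 512) (nat_lit 444) (nat_lit 184)))) (XT.nd (nat_lit 54054) (nat_lit 0) (nat_lit 17100) (XT.nd (nat_lit 78) (nat_lit 456) (nat_lit 0) (XT.lf (nat_lit 0) (nat_lit 22572060397) (nat_lit 456) (nat_lit 2381102930) (nat_lit 532) (nat_lit 6850898976) (nat_lit 176) (nat_lit 5) (nat_lit 182) (nat_lit 5) (nat_lit 183) (nat_lit 5) (nat_lit 513) (nat_lit 444) (nat_lit 183)) (XT.lf (nat_lit 0) (nat_lit 6847731951) (nat_lit 456) (nat_lit 23528435192) (nat_lit 532) (nat_lit 1834158317) (nat_lit 170) (nat_lit 5) (nat_lit 176) (nat_lit 5) (nat_lit 177) (nat_lit 5) (nat_lit 514) (nat_lit 444) (nat_lit 182))) (XT.nd (nat_lit 78) (nat_lit 0) (nat_lit 0) (XT.lf (nat_lit 0) (nat_lit 2143908684) (nat_lit 1748) (nat_lit 2678174839) (nat_lit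 1748) (nat_lit 2678174839) (nat_lit 395) (nat_lit 3) (nat_lit 418) (nat_lit 3) (nat_lit 418) (nat_lit 5) (nat_lit 445) (nat_lit 445) (nat_lit 250)) (XT.lf (nat_lit 76) (nat_lit 1561404564) (nat_lit 0) (nat_lit 3065842923) (nat_lit 1748) (nat_lit 10517145166) (nat_lit 396) (nat_lit 5) (nat_lit 395) (nat_lit 3) (nat_lit 418) (nat_lit 5) (nat_lit 446) (nat_lit 445) (nat_lit 249)))))) (XT.nd (nat_lit 546) (nat_lit 0) (nat_lit 228) (XT.nd (nat_lit 234) (nat_lit 0) (nat_lit 76) (XT.nd (nat_lit 78) (nat_lit 0) (nat_lit 0) (XT.lf (nat_lit 0) (nat_lit 5025793494) (nat_lit 1672) (nat_lit 6628268945) (nat_lit 1748) (nat_lit 3636042316) (nat_lit 396) (nat_lit 5) (nat_lit 418) (nat_lit 5) (nat_lit 419) (nat_lit 5) (nat_lit 447) (nat_lit 445) (nat_lit 248)) (XT.nd (nat_lit 78) (nat_lit 0) (nat_lit 76) (XT.lf (nat_lit 76) (nat_lit 447120017) (nat_lit 0) (nat_lit 5001030079) (nat_lit 1748) (nat_lit 9990269305) (nat_lit 397) (nat_lit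 5) (nat_lit 396) (nat_lit 5) (nat_lit 419) (nat_lit 5) (nat_lit 448) (nat_lit 445) (nat_lit 247)) (XT.lf (nat_lit 0) (nat_lit 5928090565) (nat_lit 1672) (nat_lit 7850960575) (nat_lit 1748) (nat_lit 1809671462) (nat_lit 397) (nat_lit 5) (nat_lit 419) (nat_lit 5) (nat_lit 420) (nat_lit 5) (nat_lit 449) (nat_lit 445) (nat_lit 246)))) (XT.nd (nat_lit 156) (nat_lit 0) (nat_lit 76) (XT.nd (nat_lit 78) (nat_lit 0) (nat_lit 0) (XT.lf (nat_lit 0) (nat_lit 6443664135) (nat_lit 1672) (nat_lit 604983540) (nat_lit 1748) (nat_lit 8692868405) (nat_lit 397) (nat_lit 5) (nat_lit 419) (nat_lit 5) (nat_lit 420) (nat_lit 5) (nat_lit 450) (nat_lit 445) (nat_lit 245)) (XT.lf (nat_lit 76) (nat_lit 6872071740) (nat_lit 0) (nat_lit 135149295) (nat_lit 1748) (nat_lit 8889395759) (nat_lit 398) (nat_lit 5) (nat_lit 397) (nat_lit 5) (nat_lit 420) (nat_lit 5) (nat_lit 451) (nat_lit 445) (nat_lit 244))) (XT.nd (nat_lit 78) (nat_lit 0) (nat_lit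 0) (XT.lf (nat_lit 0) (nat_lit 7624226178) (nat_lit 1672) (nat_lit 1596907486) (nat_lit 1748) (nat_lit 6832847025) (nat_lit 398) (nat_lit 5) (nat_lit 420) (nat_lit 5) (nat_lit 421) (nat_lit 5) (nat_lit 452) (nat_lit 445) (nat_lit 243)) (XT.lf (nat_lit 76) (nat_lit 6053760599) (nat_lit 0) (nat_lit 2233327727) (nat_lit 1748) (nat_lit 7926737814) (nat_lit 399) (nat_lit 5) (nat_lit 398) (nat_lit 5) (nat_lit 421) (nat_lit 5) (nat_lit 453) (nat_lit 445) (nat_lit 242))))) (XT.nd (nat_lit 234) (nat_lit 0) (nat_lit 76) (XT.nd (nat_lit 78) (nat_lit 0) (nat_lit 0) (XT.lf (nat_lit 0) (nat_lit 8999210087) (nat_lit 1672) (nat_lit 2533562955) (nat_lit 1748) (nat_lit 4843379937) (nat_lit 399) (nat_lit 5) (nat_lit 421) (nat_lit 5) (nat_lit 422) (nat_lit 5) (nat_lit 454) (nat_lit 445) (nat_lit 241)) (XT.nd (nat_lit 78) (nat_lit 0) (nat_lit 76) (XT.lf (nat_lit 76) (nat_lit 5296069969) (nat_lit 0) (nat_lit 4472247510) (nat_lit 1748)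 (nat_lit 6772558448) (nat_lit 400) (nat_lit 5) (nat_lit 399) (nat_lit 5) (nat_lit 422) (nat_lit 5) (nat_lit 455) (nat_lit 445) (nat_lit 240)) (XT.lf (nat_lit 0) (nat_lit 10581324918) (nat_lit 1672) (nat_lit 3413936370) (nat_lit 1748) (nat_lit 2713066037) (nat_lit 400) (nat_lit 5) (nat_lit 422) (nat_lit 5) (nat_lit 423) (nat_lit 5) (nat_lit 456) (nat_lit 445) (nat_lit 239)))) (XT.nd (nat_lit 156) (nat_lit 0) (nat_lit 76) (XT.nd (nat_lit 78) (nat_lit 0) (nat_lit 76) (XT.lf (nat_lit 76) (nat_lit 4600159614) (nat_lit 0) (nat_lit 6863723706) (nat_lit 1748) (nat_lit 5414182882) (nat_lit 401) (nat_lit 5) (nat_lit 400) (nat_lit 5) (nat_lit 423) (nat_lit 5) (nat_lit 457) (nat_lit 445) (nat_lit 238)) (XT.lf (nat_lit 0) (nat_lit 12383732883) (nat_lit 1672) (nat_lit 4236961595) (nat_lit 1748) (nat_lit 430116760) (nat_lit 401) (nat_lit 5) (nat_lit 423) (nat_lit 5) (nat_lit 424) (nat_lit 5) (nat_lit 458) (nat_lit 445) (nat_lit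 237))) (XT.nd (nat_lit 78) (nat_lit 0) (nat_lit 0) (XT.lf (nat_lit 76) (nat_lit 3967243329) (nat_lit 0) (nat_lit 9419982622) (nat_lit 1748) (nat_lit 3838484391) (nat_lit 402) (nat_lit 5) (nat_lit 401) (nat_lit 5) (nat_lit 424) (nat_lit 5) (nat_lit 459) (nat_lit 445) (nat_lit 236)) (XT.lf (nat_lit 76) (nat_lit 12388857732) (nat_lit 0) (nat_lit 2044487131) (nat_lit 1748) (nat_lit 2970315466) (nat_lit 402) (nat_lit 5) (nat_lit 401) (nat_lit 5) (nat_lit 424) (nat_lit 5) (nat_lit 460) (nat_lit 445) (nat_lit 235))))))) (XT.nd (nat_lit 1092) (nat_lit 6384) (nat_lit 0) (XT.nd (nat_lit 546) (nat_lit 2052) (nat_lit 0) (XT.nd (nat_lit 234) (nat_lit 0) (nat_lit 0) (XT.nd (nat_lit 78) (nat_lit 1672) (nat_lit 0) (XT.lf (nat_lit 76) (nat_lit 3398580299) (nat_lit 0) (nat_lit 12153692082) (nat_lit 1748) (nat_lit 2031863149) (nat_lit 403) (nat_lit 5) (nat_lit 402) (nat_lit 5) (nat_lit 425) (nat_lit 5) (nat_lit 461) (nat_lit 445)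 (nat_lit 234)) (XT.nd (nat_lit 78) (nat_lit 1672) (nat_lit 0) (XT.lf (nat_lit 76) (nat_lit 12030357966) (nat_lit 0) (nat_lit 4704659162) (nat_lit 1748) (nat_lit 1032378196) (nat_lit 403) (nat_lit 5) (nat_lit 402) (nat_lit 5) (nat_lit 425) (nat_lit 5) (nat_lit 462) (nat_lit 445) (nat_lit 233)) (XT.lf (nat_lit 0) (nat_lit 19515967) (nat_lit 1748) (nat_lit 15058345701) (nat_lit 1824) (nat_lit 2875819029) (nat_lit 380) (nat_lit 5) (nat_lit 403) (nat_lit 5) (nat_lit 404) (nat_lit 5) (nat_lit 463) (nat_lit 445) (nat_lit 232)))) (XT.nd (nat_lit 156) (nat_lit 0) (nat_lit 76) (XT.nd (nat_lit 78) (nat_lit 0) (nat_lit 76) (XT.lf (nat_lit 0) (nat_lit 1143046467) (nat_lit 1748) (nat_lit 6407271716) (nat_lit 1824) (nat_lit 10591952315) (nat_lit 380) (nat_lit 5) (nat_lit 403) (nat_lit 5) (nat_lit 404) (nat_lit 5) (nat_lit 464) (nat_lit 445) (nat_lit 231)) (XT.lf (nat_lit 0) (nat_lit 2300470112) (nat_lit 1748) (nat_lit 15890622262)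 (nat_lit 1824) (nat_lit 143314839) (nat_lit 381) (nat_lit 5) (nat_lit 404) (nat_lit 5) (nat_lit 405) (nat_lit 5) (nat_lit 465) (nat_lit 445) (nat_lit 230))) (XT.nd (nat_lit 78) (nat_lit 0) (nat_lit 0) (XT.lf (nat_lit 0) (nat_lit 3569018846) (nat_lit 1748) (nat_lit 7025329294) (nat_lit 1824) (nat_lit 7934282488) (nat_lit 381) (nat_lit 5) (nat_lit 404) (nat_lit 5) (nat_lit 405) (nat_lit 5) (nat_lit 466) (nat_lit 445) (nat_lit 229)) (XT.lf (nat_lit 76) (nat_lit 2039875104) (nat_lit 0) (nat_lit 2831105320) (nat_lit 1824) (nat_lit 13855600680) (nat_lit 382) (nat_lit 5) (nat_lit 381) (nat_lit 5) (nat_lit 405) (nat_lit 5) (nat_lit 467) (nat_lit 445) (nat_lit 228))))) (XT.nd (nat_lit 234) (nat_lit 2204) (nat_lit 0) (XT.nd (nat_lit 78) (nat_lit 0) (nat_lit 0) (XT.lf (nat_lit 0) (nat_lit 6274347329) (nat_lit 1748) (nat_lit 7583509848) (nat_lit 1824) (nat_lit 5069129453) (nat_lit 382) (nat_lit 5) (nat_lit 405) (nat_lit 5)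 (nat_lit 406) (nat_lit 5) (nat_lit 468) (nat_lit 445) (nat_lit 227)) (XT.nd (nat_lit 78) (nat_lit 0) (nat_lit 76) (XT.lf (nat_lit 76) (nat_lit 1701162323) (nat_lit 0) (nat_lit 6029393206) (nat_lit 1824) (nat_lit 11400352556) (nat_lit 383) (nat_lit 5) (nat_lit 382) (nat_lit 5) (nat_lit 406) (nat_lit 5) (nat_lit 469) (nat_lit 445) (nat_lit 226)) (XT.lf (nat_lit 0) (nat_lit 9274868433) (nat_lit 1748) (nat_lit 8080830274) (nat_lit 76) (nat_lit 1982032882) (nat_lit 383) (nat_lit 5) (nat_lit 406) (nat_lit 5) (nat_lit 384) (nat_lit 5) (nat_lit 470) (nat_lit 445) (nat_lit 225)))) (XT.nd (nat_lit 156) (nat_lit 836) (nat_lit 0) (XT.nd (nat_lit 78) (nat_lit 0) (nat_lit 0) (XT.lf (nat_lit 0) (nat_lit 1429737806) (nat_lit 1444) (nat_lit 9464696147) (nat_lit 1520) (nat_lit 8653373454) (nat_lit 364) (nat_lit 5) (nat_lit 383) (nat_lit 5) (nat_lit 384) (nat_lit 5) (nat_lit 471) (nat_lit 445) (nat_lit 224)) (XT.lf (nat_lit 0) (nat_lit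 11235935084) (nat_lit 1444) (nat_lit 1359904392) (nat_lit 1520) (nat_lit 7165259397) (nat_lit 364) (nat_lit 5) (nat_lit 383) (nat_lit 5) (nat_lit 384) (nat_lit 5) (nat_lit 472) (nat_lit 445) (nat_lit 223))) (XT.nd (nat_lit 78) (nat_lit 0) (nat_lit 0) (XT.lf (nat_lit 0) (nat_lit 1226703782) (nat_lit 836) (nat_lit 13152698561) (nat_lit 912) (nat_lit 5598294286) (nat_lit 353) (nat_lit 5) (nat_lit 364) (nat_lit 5) (nat_lit 365) (nat_lit 5) (nat_lit 473) (nat_lit 445) (nat_lit 222)) (XT.lf (nat_lit 0) (nat_lit 11275931027) (nat_lit 836) (nat_lit 4984245521) (nat_lit 912) (nat_lit 3937221978) (nat_lit 353) (nat_lit 5) (nat_lit 364) (nat_lit 5) (nat_lit 365) (nat_lit 5) (nat_lit 474) (nat_lit 445) (nat_lit 221)))))) (XT.nd (nat_lit 546) (nat_lit 2964) (nat_lit 0) (XT.nd (nat_lit 234) (nat_lit 1596) (nat_lit 0) (XT.nd (nat_lit 78) (nat_lit 912) (nat_lit 0) (XT.lf (nat_lit 0) (nat_lit 1093121338) (nat_lit 912) (nat_lit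 17109755546) (nat_lit 988) (nat_lit 2218134291) (nat_lit 341) (nat_lit 5) (nat_lit 353) (nat_lit 5) (nat_lit 354) (nat_lit 5) (nat_lit 475) (nat_lit 445) (nat_lit 220)) (XT.nd (nat_lit 78) (nat_lit 912) (nat_lit 0) (XT.lf (nat_lit 0) (nat_lit 11391386231) (nat_lit 912) (nat_lit 8881244541) (nat_lit 988) (nat_lit 374704184) (nat_lit 341) (nat_lit 5) (nat_lit 353) (nat_lit 5) (nat_lit 354) (nat_lit 5) (nat_lit 476) (nat_lit 445) (nat_lit 219)) (XT.lf (nat_lit 0) (nat_lit 1016910347) (nat_lit 836) (nat_lit 471136911) (nat_lit 912) (nat_lit 19389901229) (nat_lit 329) (nat_lit 5) (nat_lit 340) (nat_lit 5) (nat_lit 341) (nat_lit 5) (nat_lit 477) (nat_lit 445) (nat_lit 218)))) (XT.nd (nat_lit 156) (nat_lit 760) (nat_lit 0) (XT.nd (nat_lit 78) (nat_lit 836) (nat_lit 0) (XT.lf (nat_lit 0) (nat_lit 3493860206) (nat_lit 912) (nat_lit 9550915681) (nat_lit 76) (nat_lit 8066135095) (nat_lit 329) (nat_lit 5) (nat_lit 341) (nat_lit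 5) (nat_lit 330) (nat_lit 5) (nat_lit 478) (nat_lit 445) (nat_lit 217)) (XT.lf (nat_lit 0) (nat_lit 970957621) (nat_lit 836) (nat_lit 4573999438) (nat_lit 912) (nat_lit 15803474967) (nat_lit 318) (nat_lit 5) (nat_lit 329) (nat_lit 5) (nat_lit 330) (nat_lit 5) (nat_lit 479) (nat_lit 445) (nat_lit 216))) (XT.nd (nat_lit 78) (nat_lit 760) (nat_lit 0) (XT.lf (nat_lit 0) (nat_lit 7723794103) (nat_lit 912) (nat_lit 9787639614) (nat_lit 76) (nat_lit 4077538009) (nat_lit 318) (nat_lit 5) (nat_lit 330) (nat_lit 5) (nat_lit 319) (nat_lit 5) (nat_lit 480) (nat_lit 445) (nat_lit 215)) (XT.lf (nat_lit 0) (nat_lit 992673841) (nat_lit 760) (nat_lit 8986154561) (nat_lit 836) (nat_lit 11854843955) (nat_lit 308) (nat_lit 5) (nat_lit 318) (nat_lit 5) (nat_lit 319) (nat_lit 5) (nat_lit 481) (nat_lit 445) (nat_lit 214))))) (XT.nd (nat_lit 312) (nat_lit 1520) (nat_lit 0) (XT.nd (nat_lit 156) (nat_lit 684) (nat_lit 0) (XT.nd (nat_lit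 78) (nat_lit 760) (nat_lit 0) (XT.lf (nat_lit 0) (nat_lit 12117248474) (nat_lit 760) (nat_lit 223333770) (nat_lit 836) (nat_lit 9741454879) (nat_lit 308) (nat_lit 5) (nat_lit 318) (nat_lit 5) (nat_lit 319) (nat_lit 5) (nat_lit 482) (nat_lit 445) (nat_lit 213)) (XT.lf (nat_lit 0) (nat_lit 1082538536) (nat_lit 760) (nat_lit 13726661627) (nat_lit 836) (nat_lit 7524978891) (nat_lit 298) (nat_lit 5) (nat_lit 308) (nat_lit 5) (nat_lit 309) (nat_lit 5) (nat_lit 483) (nat_lit 445) (nat_lit 212))) (XT.nd (nat_lit 78) (nat_lit 684) (nat_lit 0) (XT.lf (nat_lit 0) (nat_lit 12480392708) (nat_lit 760) (nat_lit 4911206678) (nat_lit 836) (nat_lit 5198478661) (nat_lit 298) (nat_lit 5) (nat_lit 308) (nat_lit 5) (nat_lit 309) (nat_lit 5) (nat_lit 484) (nat_lit 445) (nat_lit 211)) (XT.lf (nat_lit 0) (nat_lit 1240892970) (nat_lit 684) (nat_lit 18815451296) (nat_lit 760) (nat_lit 2794139153) (nat_lit 289) (nat_lit 5) (nat_lit 298) (nat_lit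 5) (nat_lit 299) (nat_lit 5) (nat_lit 485) (nat_lit 445) (nat_lit 210)))) (XT.nd (nat_lit 156) (nat_lit 684) (nat_lit 0) (XT.nd (nat_lit 78) (nat_lit 836) (nat_lit 0) (XT.lf (nat_lit 0) (nat_lit 12918594981) (nat_lit 684) (nat_lit 9952137994) (nat_lit 760) (nat_lit 243439253) (nat_lit 289) (nat_lit 5) (nat_lit 298) (nat_lit 5) (nat_lit 299) (nat_lit 5) (nat_lit 486) (nat_lit 445) (nat_lit 209)) (XT.lf (nat_lit 0) (nat_lit 1446430126) (nat_lit 760) (nat_lit 886551200) (nat_lit 836) (nat_lit 21049736761) (nat_lit 278) (nat_lit 5) (nat_lit 288) (nat_lit 5) (nat_lit 289) (nat_lit 5) (nat_lit 487) (nat_lit 445) (nat_lit 208))) (XT.nd (nat_lit 78) (nat_lit 684) (nat_lit 0) (XT.lf (nat_lit 0) (nat_lit 5077116931) (nat_lit 836) (nat_lit 10256125115) (nat_lit 76) (nat_lit 8320973883) (nat_lit 278) (nat_lit 5) (nat_lit 289) (nat_lit 5) (nat_lit 279) (nat_lit 5) (nat_lit 488) (nat_lit 445) (nat_lit 207)) (XT.lf (nat_lit 0)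 (nat_lit 1669753424) (nat_lit 684) (nat_lit 6219458395) (nat_lit 760) (nat_lit 16041672510) (nat_lit 269) (nat_lit 5) (nat_lit 278) (nat_lit 5) (nat_lit 279) (nat_lit 5) (nat_lit 489) (nat_lit 445) (nat_lit 206))))))))
noncomputable def xc229 : XT := (XT.nd (nat_lit 56238) (nat_lit 0) (nat_lit 11628) (XT.nd (nat_lit 1092) (nat_lit 2584) (nat_lit 0) (XT.nd (nat_lit 546) (nat_lit 2432) (nat_lit 0) (XT.nd (nat_lit 234) (nat_lit 1368) (nat_lit 0) (XT.nd (nat_lit 78) (nat_lit 684) (nat_lit 0) (XT.lf (nat_lit 0) (nat_lit 10843212039) (nat_lit 760) (nat_lit 10262928387) (nat_lit 76) (nat_lit 3105234493) (nat_lit 269) (nat_lit 5) (nat_lit 279) (nat_lit 5) (nat_lit 270) (nat_lit 5) (nat_lit 490) (nat_lit 445) (nat_lit 205)) (XT.nd (nat_lit 78) (nat_lit 0) (nat_lit 0) (XT.lf (nat_lit 0) (nat_lit 1955816624) (nat_lit 684) (nat_lit 11950841302) (nat_lit 760) (nat_lit 10589812132) (nat_lit 260) (nat_lit 5) (nat_lit 269) (nat_lit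 5) (nat_lit 270) (nat_lit 5) (nat_lit 491) (nat_lit 445) (nat_lit 204)) (XT.lf (nat_lit 0) (nat_lit 14554194805) (nat_lit 684) (nat_lit 2542570308) (nat_lit 760) (nat_lit 7689196148) (nat_lit 260) (nat_lit 5) (nat_lit 269) (nat_lit 5) (nat_lit 270) (nat_lit 5) (nat_lit 492) (nat_lit 445) (nat_lit 203)))) (XT.nd (nat_lit 156) (nat_lit 760) (nat_lit 0) (XT.nd (nat_lit 78) (nat_lit 0) (nat_lit 0) (XT.lf (nat_lit 0) (nat_lit 2303864990) (nat_lit 608) (nat_lit 18104154536) (nat_lit 684) (nat_lit 4672077829) (nat_lit 252) (nat_lit 5) (nat_lit 260) (nat_lit 5) (nat_lit 261) (nat_lit 5) (nat_lit 493) (nat_lit 445) (nat_lit 202)) (XT.lf (nat_lit 0) (nat_lit 15208016205) (nat_lit 608) (nat_lit 8659501342) (nat_lit 684) (nat_lit 1510960188) (nat_lit 252) (nat_lit 5) (nat_lit 260) (nat_lit 5) (nat_lit 261) (nat_lit 5) (nat_lit 494) (nat_lit 445) (nat_lit 201))) (XT.nd (nat_lit 78) (nat_lit 0) (nat_lit 0) (XT.lf (nat_lit 0)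 (nat_lit 1711674862) (nat_lit 760) (nat_lit 22980810934) (nat_lit 76) (nat_lit 989703967) (nat_lit 242) (nat_lit 5) (nat_lit 252) (nat_lit 5) (nat_lit 243) (nat_lit 5) (nat_lit 495) (nat_lit 445) (nat_lit 200)) (XT.lf (nat_lit 0) (nat_lit 5101309060) (nat_lit 760) (nat_lit 10093733458) (nat_lit 76) (nat_lit 10794280020) (nat_lit 242) (nat_lit 5) (nat_lit 252) (nat_lit 5) (nat_lit 243) (nat_lit 5) (nat_lit 496) (nat_lit 445) (nat_lit 199))))) (XT.nd (nat_lit 234) (nat_lit 1216) (nat_lit 0) (XT.nd (nat_lit 78) (nat_lit 608) (nat_lit 0) (XT.lf (nat_lit 0) (nat_lit 3087822465) (nat_lit 608) (nat_lit 5487736639) (nat_lit 684) (nat_lit 17726704187) (nat_lit 234) (nat_lit 5) (nat_lit 242) (nat_lit 5) (nat_lit 243) (nat_lit 5) (nat_lit 497) (nat_lit 445) (nat_lit 198)) (XT.nd (nat_lit 78) (nat_lit 608) (nat_lit 0) (XT.lf (nat_lit 0) (nat_lit 12212944135) (nat_lit 684) (nat_lit 9983178402) (nat_lit 76) (nat_lit 4423469071)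 (nat_lit 234) (nat_lit 5) (nat_lit 243) (nat_lit 5) (nat_lit 235) (nat_lit 5) (nat_lit 498) (nat_lit 445) (nat_lit 197)) (XT.lf (nat_lit 0) (nat_lit 3518793101) (nat_lit 608) (nat_lit 12460345656) (nat_lit 684) (nat_lit 10963008212) (nat_lit 226) (nat_lit 5) (nat_lit 234) (nat_lit 5) (nat_lit 235) (nat_lit 5) (nat_lit 499) (nat_lit 445) (nat_lit 196)))) (XT.nd (nat_lit 156) (nat_lit 684) (nat_lit 0) (XT.nd (nat_lit 78) (nat_lit 532) (nat_lit 0) (XT.lf (nat_lit 0) (nat_lit 17422429992) (nat_lit 608) (nat_lit 2462129887) (nat_lit 684) (nat_lit 7385317188) (nat_lit 226) (nat_lit 5) (nat_lit 234) (nat_lit 5) (nat_lit 235) (nat_lit 5) (nat_lit 500) (nat_lit 445) (nat_lit 195)) (XT.lf (nat_lit 0) (nat_lit 3998506936) (nat_lit 532) (nat_lit 19942737949) (nat_lit 608) (nat_lit 3661455420) (nat_lit 219) (nat_lit 5) (nat_lit 226) (nat_lit 5) (nat_lit 227) (nat_lit 5) (nat_lit 501) (nat_lit 445) (nat_lit 194))) (XT.nd (nat_lit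 78) (nat_lit 608) (nat_lit 0) (XT.lf (nat_lit 0) (nat_lit 214894200) (nat_lit 608) (nat_lit 9707327425) (nat_lit 76) (nat_lit 18018346077) (nat_lit 218) (nat_lit 5) (nat_lit 226) (nat_lit 5) (nat_lit 219) (nat_lit 5) (nat_lit 502) (nat_lit 445) (nat_lit 193)) (XT.lf (nat_lit 0) (nat_lit 4148327081) (nat_lit 684) (nat_lit 23787874774) (nat_lit 76) (nat_lit 347936435) (nat_lit 210) (nat_lit 5) (nat_lit 219) (nat_lit 5) (nat_lit 211) (nat_lit 5) (nat_lit 503) (nat_lit 445) (nat_lit 192)))))) (XT.nd (nat_lit 546) (nat_lit 988) (nat_lit 0) (XT.nd (nat_lit 234) (nat_lit 1064) (nat_lit 0) (XT.nd (nat_lit 78) (nat_lit 532) (nat_lit 0) (XT.lf (nat_lit 0) (nat_lit 8288781965) (nat_lit 684) (nat_lit 9587568376) (nat_lit 76) (nat_lit 10755664406) (nat_lit 210) (nat_lit 5) (nat_lit 219) (nat_lit 5) (nat_lit 211) (nat_lit 5) (nat_lit 504) (nat_lit 445) (nat_lit 191)) (XT.nd (nat_lit 78) (nat_lit 0) (nat_lit 0) (XT.lf (nat_lit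 0) (nat_lit 4958182298) (nat_lit 532) (nat_lit 7583183489) (nat_lit 608) (nat_lit 16444898044) (nat_lit 203) (nat_lit 5) (nat_lit 210) (nat_lit 5) (nat_lit 211) (nat_lit 5) (nat_lit 505) (nat_lit 445) (nat_lit 190)) (XT.lf (nat_lit 0) (nat_lit 16959853077) (nat_lit 608) (nat_lit 9444478043) (nat_lit 76) (nat_lit 2941651203) (nat_lit 203) (nat_lit 5) (nat_lit 211) (nat_lit 5) (nat_lit 204) (nat_lit 5) (nat_lit 506) (nat_lit 445) (nat_lit 189)))) (XT.nd (nat_lit 156) (nat_lit 532) (nat_lit 0) (XT.nd (nat_lit 78) (nat_lit 0) (nat_lit 0) (XT.lf (nat_lit 0) (nat_lit 5448487406) (nat_lit 532) (nat_lit 16101029889) (nat_lit 608) (nat_lit 8161723182) (nat_lit 196) (nat_lit 5) (nat_lit 203) (nat_lit 5) (nat_lit 204) (nat_lit 5) (nat_lit 507) (nat_lit 445) (nat_lit 188)) (XT.lf (nat_lit 0) (nat_lit 20763809647) (nat_lit 532) (nat_lit 5527786574) (nat_lit 608) (nat_lit 3790996551) (nat_lit 196) (nat_lit 5) (nat_lit 203) (nat_lit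 5) (nat_lit 204) (nat_lit 5) (nat_lit 508) (nat_lit 445) (nat_lit 187))) (XT.nd (nat_lit 78) (nat_lit 0) (nat_lit 0) (XT.lf (nat_lit 0) (nat_lit 729009182) (nat_lit 532) (nat_lit 24500110561) (nat_lit 76) (nat_lit 5230754805) (nat_lit 189) (nat_lit 5) (nat_lit 196) (nat_lit 5) (nat_lit 190) (nat_lit 5) (nat_lit 509) (nat_lit 445) (nat_lit 186)) (XT.lf (nat_lit 0) (nat_lit 5385561519) (nat_lit 532) (nat_lit 9238898997) (nat_lit 76) (nat_lit 16217803443) (nat_lit 189) (nat_lit 5) (nat_lit 196) (nat_lit 5) (nat_lit 190) (nat_lit 5) (nat_lit 510) (nat_lit 445) (nat_lit 185))))) (XT.nd (nat_lit 54288) (nat_lit 0) (nat_lit 16644) (XT.nd (nat_lit 78) (nat_lit 456) (nat_lit 0) (XT.lf (nat_lit 0) (nat_lit 6408129202) (nat_lit 532) (nat_lit 3766078928) (nat_lit 608) (nat_lit 21057315063) (nat_lit 182) (nat_lit 5) (nat_lit 189) (nat_lit 5) (nat_lit 190) (nat_lit 5) (nat_lit 511) (nat_lit 445) (nat_lit 184)) (XT.nd (nat_lit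 78) (nat_lit 456) (nat_lit 0) (XT.lf (nat_lit 0) (nat_lit 15165875723) (nat_lit 608) (nat_lit 9185339387) (nat_lit 76) (nat_lit 7275208814) (nat_lit 182) (nat_lit 5) (nat_lit 190) (nat_lit 5) (nat_lit 183) (nat_lit 5) (nat_lit 512) (nat_lit 445) (nat_lit 183)) (XT.lf (nat_lit 0) (nat_lit 6826659535) (nat_lit 456) (nat_lit 13497414256) (nat_lit 532) (nat_lit 11703816186) (nat_lit 176) (nat_lit 5) (nat_lit 182) (nat_lit 5) (nat_lit 183) (nat_lit 5) (nat_lit 513) (nat_lit 445) (nat_lit 182)))) (XT.nd (nat_lit 156) (nat_lit 0) (nat_lit 76) (XT.nd (nat_lit 78) (nat_lit 0) (nat_lit 0) (XT.lf (nat_lit 0) (nat_lit 2471341538) (nat_lit 1748) (nat_lit 2586516992) (nat_lit 1748) (nat_lit 2586516992) (nat_lit 395) (nat_lit 3) (nat_lit 418) (nat_lit 3) (nat_lit 418) (nat_lit 5) (nat_lit 446) (nat_lit 446) (nat_lit 248)) (XT.lf (nat_lit 76) (nat_lit 1881164536) (nat_lit 0) (nat_lit 3398451597) (nat_lit 1748) (nat_lit 10156081797)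 (nat_lit 396) (nat_lit 5) (nat_lit 395) (nat_lit 3) (nat_lit 418) (nat_lit 5) (nat_lit 447) (nat_lit 446) (nat_lit 247))) (XT.nd (nat_lit 78) (nat_lit 0) (nat_lit 0) (XT.lf (nat_lit 0) (nat_lit 5673429255) (nat_lit 1672) (nat_lit 6464877595) (nat_lit 1748) (nat_lit 3446279070) (nat_lit 396) (nat_lit 5) (nat_lit 418) (nat_lit 5) (nat_lit 419) (nat_lit 5) (nat_lit 448) (nat_lit 446) (nat_lit 246)) (XT.lf (nat_lit 76) (nat_lit 750072062) (nat_lit 0) (nat_lit 5345341991) (nat_lit 1748) (nat_lit 9640636606) (nat_lit 397) (nat_lit 5) (nat_lit 396) (nat_lit 5) (nat_lit 419) (nat_lit 5) (nat_lit 449) (nat_lit 446) (nat_lit 245))))))) (XT.nd (nat_lit 1092) (nat_lit 5168) (nat_lit 0) (XT.nd (nat_lit 546) (nat_lit 0) (nat_lit 228) (XT.nd (nat_lit 234) (nat_lit 0) (nat_lit 76) (XT.nd (nat_lit 78) (nat_lit 0) (nat_lit 0) (XT.lf (nat_lit 0) (nat_lit 6572843411) (nat_lit 1672) (nat_lit 7707261280) (nat_lit 1748) (nat_lit 1609504708)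 (nat_lit 397) (nat_lit 5) (nat_lit 419) (nat_lit 5) (nat_lit 420) (nat_lit 5) (nat_lit 450) (nat_lit 446) (nat_lit 244)) (XT.nd (nat_lit 78) (nat_lit 0) (nat_lit 0) (XT.lf (nat_lit 0) (nat_lit 7088410981) (nat_lit 1672) (nat_lit 322261146) (nat_lit 1748) (nat_lit 8635000104) (nat_lit 397) (nat_lit 5) (nat_lit 419) (nat_lit 5) (nat_lit 420) (nat_lit 5) (nat_lit 451) (nat_lit 446) (nat_lit 243)) (XT.lf (nat_lit 76) (nat_lit 7302395621) (nat_lit 0) (nat_lit 352629817) (nat_lit 1748) (nat_lit 8549020787) (nat_lit 398) (nat_lit 5) (nat_lit 397) (nat_lit 5) (nat_lit 420) (nat_lit 5) (nat_lit 452) (nat_lit 446) (nat_lit 242)))) (XT.nd (nat_lit 156) (nat_lit 0) (nat_lit 76) (XT.nd (nat_lit 78) (nat_lit 0) (nat_lit 0) (XT.lf (nat_lit 0) (nat_lit 8273049431) (nat_lit 1672) (nat_lit 1330041882) (nat_lit 1748) (nat_lit 6761699367) (nat_lit 398) (nat_lit 5) (nat_lit 420) (nat_lit 5) (nat_lit 421) (nat_lit 5) (nat_lit 453) (nat_lit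 446) (nat_lit 241)) (XT.lf (nat_lit 76) (nat_lit 6471673750) (nat_lit 0) (nat_lit 2469690208) (nat_lit 1748) (nat_lit 7586631901) (nat_lit 399) (nat_lit 5) (nat_lit 398) (nat_lit 5) (nat_lit 421) (nat_lit 5) (nat_lit 454) (nat_lit 446) (nat_lit 240))) (XT.nd (nat_lit 78) (nat_lit 0) (nat_lit 0) (XT.lf (nat_lit 0) (nat_lit 9656928846) (nat_lit 1672) (nat_lit 2282087783) (nat_lit 1748) (nat_lit 4754775183) (nat_lit 399) (nat_lit 5) (nat_lit 421) (nat_lit 5) (nat_lit 422) (nat_lit 5) (nat_lit 455) (nat_lit 446) (nat_lit 239)) (XT.lf (nat_lit 76) (nat_lit 5702149994) (nat_lit 0) (nat_lit 4731849877) (nat_lit 1748) (nat_lit 6427964180) (nat_lit 400) (nat_lit 5) (nat_lit 399) (nat_lit 5) (nat_lit 422) (nat_lit 5) (nat_lit 456) (nat_lit 446) (nat_lit 238))))) (XT.nd (nat_lit 234) (nat_lit 0) (nat_lit 76) (XT.nd (nat_lit 78) (nat_lit 0) (nat_lit 0) (XT.lf (nat_lit 0) (nat_lit 11252962463) (nat_lit 1672) (nat_lit 3177320200)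 (nat_lit 1748) (nat_lit 2602694249) (nat_lit 400) (nat_lit 5) (nat_lit 422) (nat_lit 5) (nat_lit 423) (nat_lit 5) (nat_lit 457) (nat_lit 446) (nat_lit 237)) (XT.nd (nat_lit 78) (nat_lit 0) (nat_lit 76) (XT.lf (nat_lit 76) (nat_lit 4995051816) (nat_lit 0) (nat_lit 7151066949) (nat_lit 1748) (nat_lit 5060139077) (nat_lit 401) (nat_lit 5) (nat_lit 400) (nat_lit 5) (nat_lit 423) (nat_lit 5) (nat_lit 458) (nat_lit 446) (nat_lit 236)) (XT.lf (nat_lit 0) (nat_lit 13074528553) (nat_lit 1672) (nat_lit 4014609611) (nat_lit 1748) (nat_lit 293522439) (nat_lit 401) (nat_lit 5) (nat_lit 423) (nat_lit 5) (nat_lit 424) (nat_lit 5) (nat_lit 459) (nat_lit 446) (nat_lit 235)))) (XT.nd (nat_lit 156) (nat_lit 0) (nat_lit 76) (XT.nd (nat_lit 78) (nat_lit 0) (nat_lit 0) (XT.lf (nat_lit 76) (nat_lit 4351659075) (nat_lit 0) (nat_lit 9739724483) (nat_lit 1748) (nat_lit 3469814259) (nat_lit 402) (nat_lit 5) (nat_lit 401) (nat_lit 5) (nat_lit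 424) (nat_lit 5) (nat_lit 460) (nat_lit 446) (nat_lit 234)) (XT.lf (nat_lit 76) (nat_lit 12935723983) (nat_lit 0) (nat_lit 2214143745) (nat_lit 1748) (nat_lit 2593016070) (nat_lit 402) (nat_lit 5) (nat_lit 401) (nat_lit 5) (nat_lit 424) (nat_lit 5) (nat_lit 461) (nat_lit 446) (nat_lit 233))) (XT.nd (nat_lit 78) (nat_lit 0) (nat_lit 0) (XT.lf (nat_lit 76) (nat_lit 3773295365) (nat_lit 0) (nat_lit 12510661034) (nat_lit 1748) (nat_lit 1643162190) (nat_lit 403) (nat_lit 5) (nat_lit 402) (nat_lit 5) (nat_lit 425) (nat_lit 5) (nat_lit 462) (nat_lit 446) (nat_lit 232)) (XT.lf (nat_lit 76) (nat_lit 12571694008) (nat_lit 0) (nat_lit 4910414218) (nat_lit 1748) (nat_lit 632105935) (nat_lit 403) (nat_lit 5) (nat_lit 402) (nat_lit 5) (nat_lit 425) (nat_lit 5) (nat_lit 463) (nat_lit 446) (nat_lit 231)))))) (XT.nd (nat_lit 546) (nat_lit 3876) (nat_lit 0) (XT.nd (nat_lit 234) (nat_lit 0) (nat_lit 76) (XT.nd (nat_lit 78) (nat_lit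 0) (nat_lit 0) (XT.lf (nat_lit 0) (nat_lit 428457727) (nat_lit 1748) (nat_lit 15045869273) (nat_lit 1824) (nat_lit 2829985949) (nat_lit 380) (nat_lit 5) (nat_lit 403) (nat_lit 5) (nat_lit 404) (nat_lit 5) (nat_lit 464) (nat_lit 446) (nat_lit 230)) (XT.nd (nat_lit 78) (nat_lit 0) (nat_lit 76) (XT.lf (nat_lit 0) (nat_lit 1566448024) (nat_lit 1748) (nat_lit 6227923678) (nat_lit 1824) (nat_lit 10702468360) (nat_lit 380) (nat_lit 5) (nat_lit 403) (nat_lit 5) (nat_lit 404) (nat_lit 5) (nat_lit 465) (nat_lit 446) (nat_lit 229)) (XT.lf (nat_lit 0) (nat_lit 2740570577) (nat_lit 1748) (nat_lit 15894231834) (nat_lit 1824) (nat_lit 58151288) (nat_lit 381) (nat_lit 5) (nat_lit 404) (nat_lit 5) (nat_lit 405) (nat_lit 5) (nat_lit 466) (nat_lit 446) (nat_lit 228)))) (XT.nd (nat_lit 156) (nat_lit 0) (nat_lit 76) (XT.nd (nat_lit 78) (nat_lit 0) (nat_lit 0) (XT.lf (nat_lit 0) (nat_lit 4026763010) (nat_lit 1748) (nat_lit 6857793847)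 (nat_lit 1824) (nat_lit 8006664365) (nat_lit 381) (nat_lit 5) (nat_lit 404) (nat_lit 5) (nat_lit 405) (nat_lit 5) (nat_lit 467) (nat_lit 446) (nat_lit 227)) (XT.lf (nat_lit 76) (nat_lit 2386688047) (nat_lit 0) (nat_lit 2962486868) (nat_lit 1824) (nat_lit 13744072567) (nat_lit 382) (nat_lit 5) (nat_lit 381) (nat_lit 5) (nat_lit 405) (nat_lit 5) (nat_lit 468) (nat_lit 446) (nat_lit 226))) (XT.nd (nat_lit 78) (nat_lit 0) (nat_lit 0) (XT.lf (nat_lit 0) (nat_lit 6772667113) (nat_lit 1748) (nat_lit 7426978013) (nat_lit 1824) (nat_lit 5098179730) (nat_lit 382) (nat_lit 5) (nat_lit 405) (nat_lit 5) (nat_lit 406) (nat_lit 5) (nat_lit 469) (nat_lit 446) (nat_lit 225)) (XT.lf (nat_lit 76) (nat_lit 2041359956) (nat_lit 0) (nat_lit 6211316960) (nat_lit 1824) (nat_lit 11253259076) (nat_lit 383) (nat_lit 5) (nat_lit 382) (nat_lit 5) (nat_lit 406) (nat_lit 5) (nat_lit 470) (nat_lit 446) (nat_lit 224))))) (XT.nd (nat_lit 312) (nat_lit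 1824) (nat_lit 0) (XT.nd (nat_lit 156) (nat_lit 836) (nat_lit 0) (XT.nd (nat_lit 78) (nat_lit 1444) (nat_lit 0) (XT.lf (nat_lit 0) (nat_lit 9820279571) (nat_lit 1748) (nat_lit 7934444062) (nat_lit 76) (nat_lit 1962328972) (nat_lit 383) (nat_lit 5) (nat_lit 406) (nat_lit 5) (nat_lit 384) (nat_lit 5) (nat_lit 471) (nat_lit 446) (nat_lit 223)) (XT.lf (nat_lit 0) (nat_lit 1764309045) (nat_lit 1444) (nat_lit 9702856825) (nat_lit 1520) (nat_lit 8464270093) (nat_lit 364) (nat_lit 5) (nat_lit 383) (nat_lit 5) (nat_lit 384) (nat_lit 5) (nat_lit 472) (nat_lit 446) (nat_lit 222))) (XT.nd (nat_lit 78) (nat_lit 836) (nat_lit 0) (XT.lf (nat_lit 0) (nat_lit 11760630731) (nat_lit 1444) (nat_lit 1435011063) (nat_lit 1520) (nat_lit 6953495143) (nat_lit 364) (nat_lit 5) (nat_lit 383) (nat_lit 5) (nat_lit 384) (nat_lit 5) (nat_lit 473) (nat_lit 446) (nat_lit 221)) (XT.lf (nat_lit 0) (nat_lit 1556686929) (nat_lit 836) (nat_lit 13453045927)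 (nat_lit 912) (nat_lit 5360441090) (nat_lit 353) (nat_lit 5) (nat_lit 364) (nat_lit 5) (nat_lit 365) (nat_lit 5) (nat_lit 474) (nat_lit 446) (nat_lit 220)))) (XT.nd (nat_lit 156) (nat_lit 912) (nat_lit 0) (XT.nd (nat_lit 78) (nat_lit 912) (nat_lit 0) (XT.lf (nat_lit 0) (nat_lit 11800909522) (nat_lit 836) (nat_lit 5120492582) (nat_lit 912) (nat_lit 3673006533) (nat_lit 353) (nat_lit 5) (nat_lit 364) (nat_lit 5) (nat_lit 365) (nat_lit 5) (nat_lit 475) (nat_lit 446) (nat_lit 219)) (XT.lf (nat_lit 0) (nat_lit 1419601547) (nat_lit 912) (nat_lit 17478511282) (nat_lit 988) (nat_lit 1924481845) (nat_lit 341) (nat_lit 5) (nat_lit 353) (nat_lit 5) (nat_lit 354) (nat_lit 5) (nat_lit 476) (nat_lit 446) (nat_lit 218))) (XT.nd (nat_lit 78) (nat_lit 912) (nat_lit 0) (XT.lf (nat_lit 0) (nat_lit 11917858841) (nat_lit 912) (nat_lit 9084909259) (nat_lit 988) (nat_lit 50810883) (nat_lit 341) (nat_lit 5) (nat_lit 353) (nat_lit 5) (nat_lit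 354) (nat_lit 5) (nat_lit 477) (nat_lit 446) (nat_lit 217)) (XT.lf (nat_lit 0) (nat_lit 1338449814) (nat_lit 836) (nat_lit 501942595) (nat_lit 912) (nat_lit 19448462502) (nat_lit 329) (nat_lit 5) (nat_lit 340) (nat_lit 5) (nat_lit 341) (nat_lit 5) (nat_lit 478) (nat_lit 446) (nat_lit 216))))))))
noncomputable def xc230 : XT := (XT.nd (nat_lit 2184) (nat_lit 1596) (nat_lit 0) (XT.nd (nat_lit 1092) (nat_lit 4332) (nat_lit 0) (XT.nd (nat_lit 546) (nat_lit 2888) (nat_lit 0) (XT.nd (nat_lit 234) (nat_lit 1520) (nat_lit 0) (XT.nd (nat_lit 78) (nat_lit 836) (nat_lit 0) (XT.lf (nat_lit 0) (nat_lit 3879860325) (nat_lit 912) (nat_lit 9439980429) (nat_lit 76) (nat_lit 8206769067) (nat_lit 329) (nat_lit 5) (nat_lit 341) (nat_lit 5) (nat_lit 330) (nat_lit 5) (nat_lit 479) (nat_lit 446) (nat_lit 215)) (XT.nd (nat_lit 78) (nat_lit 0) (nat_lit 0) (XT.lf (nat_lit 0) (nat_lit 1290343803) (nat_lit 836) (nat_lit 4677384409) (nat_lit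 912) (nat_lit 15801241953) (nat_lit 318) (nat_lit 5) (nat_lit 329) (nat_lit 5) (nat_lit 330) (nat_lit 5) (nat_lit 480) (nat_lit 446) (nat_lit 214)) (XT.lf (nat_lit 0) (nat_lit 8183951079) (nat_lit 912) (nat_lit 9682926890) (nat_lit 76) (nat_lit 4147570294) (nat_lit 318) (nat_lit 5) (nat_lit 330) (nat_lit 5) (nat_lit 319) (nat_lit 5) (nat_lit 481) (nat_lit 446) (nat_lit 213)))) (XT.nd (nat_lit 156) (nat_lit 760) (nat_lit 0) (XT.nd (nat_lit 78) (nat_lit 0) (nat_lit 0) (XT.lf (nat_lit 0) (nat_lit 1311016088) (nat_lit 760) (nat_lit 9169014217) (nat_lit 836) (nat_lit 11784097428) (nat_lit 308) (nat_lit 5) (nat_lit 318) (nat_lit 5) (nat_lit 319) (nat_lit 5) (nat_lit 482) (nat_lit 446) (nat_lit 212)) (XT.lf (nat_lit 0) (nat_lit 12652229493) (nat_lit 760) (nat_lit 230875509) (nat_lit 836) (nat_lit 9634476715) (nat_lit 308) (nat_lit 5) (nat_lit 318) (nat_lit 5) (nat_lit 319) (nat_lit 5) (nat_lit 483) (nat_lit 446) (nat_lit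 211))) (XT.nd (nat_lit 78) (nat_lit 0) (nat_lit 0) (XT.lf (nat_lit 0) (nat_lit 1400975996) (nat_lit 760) (nat_lit 13996228388) (nat_lit 836) (nat_lit 7377643488) (nat_lit 298) (nat_lit 5) (nat_lit 308) (nat_lit 5) (nat_lit 309) (nat_lit 5) (nat_lit 484) (nat_lit 446) (nat_lit 210)) (XT.lf (nat_lit 0) (nat_lit 13020967904) (nat_lit 760) (nat_lit 5004561722) (nat_lit 836) (nat_lit 5010453154) (nat_lit 298) (nat_lit 5) (nat_lit 308) (nat_lit 5) (nat_lit 309) (nat_lit 5) (nat_lit 485) (nat_lit 446) (nat_lit 209))))) (XT.nd (nat_lit 234) (nat_lit 1368) (nat_lit 0) (XT.nd (nat_lit 78) (nat_lit 836) (nat_lit 0) (XT.lf (nat_lit 0) (nat_lit 1560590539) (nat_lit 684) (nat_lit 19179314643) (nat_lit 760) (nat_lit 2561767791) (nat_lit 289) (nat_lit 5) (nat_lit 298) (nat_lit 5) (nat_lit 299) (nat_lit 5) (nat_lit 486) (nat_lit 446) (nat_lit 208)) (XT.nd (nat_lit 78) (nat_lit 760) (nat_lit 0) (XT.lf (nat_lit 0) (nat_lit 33844290)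 (nat_lit 760) (nat_lit 10104907704) (nat_lit 76) (nat_lit 13431993232) (nat_lit 288) (nat_lit 5) (nat_lit 298) (nat_lit 5) (nat_lit 289) (nat_lit 5) (nat_lit 487) (nat_lit 446) (nat_lit 207)) (XT.lf (nat_lit 0) (nat_lit 1766400210) (nat_lit 760) (nat_lit 888557558) (nat_lit 836) (nat_lit 21189746798) (nat_lit 278) (nat_lit 5) (nat_lit 288) (nat_lit 5) (nat_lit 289) (nat_lit 5) (nat_lit 488) (nat_lit 446) (nat_lit 206)))) (XT.nd (nat_lit 156) (nat_lit 684) (nat_lit 0) (XT.nd (nat_lit 78) (nat_lit 684) (nat_lit 0) (XT.lf (nat_lit 0) (nat_lit 5448677810) (nat_lit 836) (nat_lit 10170456177) (nat_lit 76) (nat_lit 8502607512) (nat_lit 278) (nat_lit 5) (nat_lit 289) (nat_lit 5) (nat_lit 279) (nat_lit 5) (nat_lit 489) (nat_lit 446) (nat_lit 205)) (XT.lf (nat_lit 0) (nat_lit 1992026832) (nat_lit 684) (nat_lit 6321568873) (nat_lit 760) (nat_lit 16090419045) (nat_lit 269) (nat_lit 5) (nat_lit 278) (nat_lit 5) (nat_lit 279)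 (nat_lit 5) (nat_lit 490) (nat_lit 446) (nat_lit 204))) (XT.nd (nat_lit 78) (nat_lit 684) (nat_lit 0) (XT.lf (nat_lit 0) (nat_lit 11321590297) (nat_lit 760) (nat_lit 10179735036) (nat_lit 76) (nat_lit 3188894576) (nat_lit 269) (nat_lit 5) (nat_lit 279) (nat_lit 5) (nat_lit 270) (nat_lit 5) (nat_lit 491) (nat_lit 446) (nat_lit 203)) (XT.lf (nat_lit 0) (nat_lit 2281487165) (nat_lit 684) (nat_lit 12161550710) (nat_lit 760) (nat_lit 10538047405) (nat_lit 260) (nat_lit 5) (nat_lit 269) (nat_lit 5) (nat_lit 270) (nat_lit 5) (nat_lit 492) (nat_lit 446) (nat_lit 202)))))) (XT.nd (nat_lit 546) (nat_lit 2356) (nat_lit 0) (XT.nd (nat_lit 234) (nat_lit 1368) (nat_lit 0) (XT.nd (nat_lit 78) (nat_lit 608) (nat_lit 0) (XT.lf (nat_lit 0) (nat_lit 15126214199) (nat_lit 684) (nat_lit 2565669344) (nat_lit 760) (nat_lit 7584586963) (nat_lit 260) (nat_lit 5) (nat_lit 269) (nat_lit 5) (nat_lit 270) (nat_lit 5) (nat_lit 493) (nat_lit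 446) (nat_lit 201)) (XT.nd (nat_lit 78) (nat_lit 0) (nat_lit 0) (XT.lf (nat_lit 0) (nat_lit 2634026231) (nat_lit 608) (nat_lit 18432393555) (nat_lit 684) (nat_lit 4510131272) (nat_lit 252) (nat_lit 5) (nat_lit 260) (nat_lit 5) (nat_lit 261) (nat_lit 5) (nat_lit 494) (nat_lit 446) (nat_lit 200)) (XT.lf (nat_lit 0) (nat_lit 15790690197) (nat_lit 608) (nat_lit 8799510906) (nat_lit 684) (nat_lit 1290798888) (nat_lit 252) (nat_lit 5) (nat_lit 260) (nat_lit 5) (nat_lit 261) (nat_lit 5) (nat_lit 495) (nat_lit 446) (nat_lit 199)))) (XT.nd (nat_lit 156) (nat_lit 608) (nat_lit 0) (XT.nd (nat_lit 78) (nat_lit 0) (nat_lit 0) (XT.lf (nat_lit 0) (nat_lit 1990212315) (nat_lit 760) (nat_lit 23155563886) (nat_lit 76) (nat_lit 1045036104) (nat_lit 242) (nat_lit 5) (nat_lit 252) (nat_lit 5) (nat_lit 243) (nat_lit 5) (nat_lit 496) (nat_lit 446) (nat_lit 198)) (XT.lf (nat_lit 0) (nat_lit 5442848923) (nat_lit 760) (nat_lit 10016330415)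 (nat_lit 76) (nat_lit 11045006854) (nat_lit 242) (nat_lit 5) (nat_lit 252) (nat_lit 5) (nat_lit 243) (nat_lit 5) (nat_lit 497) (nat_lit 446) (nat_lit 197))) (XT.nd (nat_lit 78) (nat_lit 0) (nat_lit 0) (XT.lf (nat_lit 0) (nat_lit 3427019273) (nat_lit 608) (nat_lit 5556669675) (nat_lit 684) (nat_lit 17839757310) (nat_lit 234) (nat_lit 5) (nat_lit 242) (nat_lit 5) (nat_lit 243) (nat_lit 5) (nat_lit 498) (nat_lit 446) (nat_lit 196)) (XT.lf (nat_lit 0) (nat_lit 12689441944) (nat_lit 684) (nat_lit 9906334503) (nat_lit 76) (nat_lit 4551434837) (nat_lit 234) (nat_lit 5) (nat_lit 243) (nat_lit 5) (nat_lit 235) (nat_lit 5) (nat_lit 499) (nat_lit 446) (nat_lit 195))))) (XT.nd (nat_lit 234) (nat_lit 1216) (nat_lit 0) (XT.nd (nat_lit 78) (nat_lit 532) (nat_lit 0) (XT.lf (nat_lit 0) (nat_lit 3863857302) (nat_lit 608) (nat_lit 12664332910) (nat_lit 684) (nat_lit 10948085442) (nat_lit 226) (nat_lit 5) (nat_lit 234) (nat_lit 5)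 (nat_lit 235) (nat_lit 5) (nat_lit 500) (nat_lit 446) (nat_lit 194)) (XT.nd (nat_lit 78) (nat_lit 532) (nat_lit 0) (XT.lf (nat_lit 0) (nat_lit 18040180885) (nat_lit 608) (nat_lit 2467039485) (nat_lit 684) (nat_lit 7303432420) (nat_lit 226) (nat_lit 5) (nat_lit 234) (nat_lit 5) (nat_lit 235) (nat_lit 5) (nat_lit 501) (nat_lit 446) (nat_lit 193)) (XT.lf (nat_lit 0) (nat_lit 4350313107) (nat_lit 532) (nat_lit 20292361942) (nat_lit 608) (nat_lit 3507507126) (nat_lit 219) (nat_lit 5) (nat_lit 226) (nat_lit 5) (nat_lit 227) (nat_lit 5) (nat_lit 502) (nat_lit 446) (nat_lit 192)))) (XT.nd (nat_lit 156) (nat_lit 532) (nat_lit 0) (XT.nd (nat_lit 78) (nat_lit 608) (nat_lit 0) (XT.lf (nat_lit 0) (nat_lit 438993976) (nat_lit 608) (nat_lit 9631931637) (nat_lit 76) (nat_lit 18423942034) (nat_lit 218) (nat_lit 5) (nat_lit 226) (nat_lit 5) (nat_lit 219) (nat_lit 5) (nat_lit 503) (nat_lit 446) (nat_lit 191)) (XT.lf (nat_lit 0) (nat_lit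 4448852338) (nat_lit 684) (nat_lit 23991733648) (nat_lit 76) (nat_lit 404770788) (nat_lit 210) (nat_lit 5) (nat_lit 219) (nat_lit 5) (nat_lit 211) (nat_lit 5) (nat_lit 504) (nat_lit 446) (nat_lit 190))) (XT.nd (nat_lit 78) (nat_lit 532) (nat_lit 0) (XT.lf (nat_lit 0) (nat_lit 8667850462) (nat_lit 684) (nat_lit 9512752468) (nat_lit 76) (nat_lit 11019675365) (nat_lit 210) (nat_lit 5) (nat_lit 219) (nat_lit 5) (nat_lit 211) (nat_lit 5) (nat_lit 505) (nat_lit 446) (nat_lit 189)) (XT.lf (nat_lit 0) (nat_lit 5322159487) (nat_lit 532) (nat_lit 7680863604) (nat_lit 608) (nat_lit 16558640700) (nat_lit 203) (nat_lit 5) (nat_lit 210) (nat_lit 5) (nat_lit 211) (nat_lit 5) (nat_lit 506) (nat_lit 446) (nat_lit 188))))))) (XT.nd (nat_lit 55224) (nat_lit 0) (nat_lit 15048) (XT.nd (nat_lit 54678) (nat_lit 0) (nat_lit 16188) (XT.nd (nat_lit 234) (nat_lit 1064) (nat_lit 0) (XT.nd (nat_lit 78) (nat_lit 532) (nat_lit 0) (XT.lf (nat_lit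 0) (nat_lit 17506089831) (nat_lit 608) (nat_lit 9369849601) (nat_lit 76) (nat_lit 3052715159) (nat_lit 203) (nat_lit 5) (nat_lit 211) (nat_lit 5) (nat_lit 204) (nat_lit 5) (nat_lit 507) (nat_lit 446) (nat_lit 187)) (XT.nd (nat_lit 78) (nat_lit 0) (nat_lit 0) (XT.lf (nat_lit 0) (nat_lit 5819241485) (nat_lit 532) (nat_lit 16365945924) (nat_lit 608) (nat_lit 8116079788) (nat_lit 196) (nat_lit 5) (nat_lit 203) (nat_lit 5) (nat_lit 204) (nat_lit 5) (nat_lit 508) (nat_lit 446) (nat_lit 186)) (XT.lf (nat_lit 0) (nat_lit 21435737145) (nat_lit 532) (nat_lit 5582357441) (nat_lit 608) (nat_lit 3662034268) (nat_lit 196) (nat_lit 5) (nat_lit 203) (nat_lit 5) (nat_lit 204) (nat_lit 5) (nat_lit 509) (nat_lit 446) (nat_lit 185)))) (XT.nd (nat_lit 156) (nat_lit 532) (nat_lit 0) (XT.nd (nat_lit 78) (nat_lit 0) (nat_lit 0) (XT.lf (nat_lit 0) (nat_lit 943772585) (nat_lit 532) (nat_lit 24728663569) (nat_lit 76) (nat_lit 5392533754)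 (nat_lit 189) (nat_lit 5) (nat_lit 196) (nat_lit 5) (nat_lit 190) (nat_lit 5) (nat_lit 510) (nat_lit 446) (nat_lit 184)) (XT.lf (nat_lit 0) (nat_lit 5689530807) (nat_lit 532) (nat_lit 9167354229) (nat_lit 76) (nat_lit 16598202505) (nat_lit 189) (nat_lit 5) (nat_lit 196) (nat_lit 5) (nat_lit 190) (nat_lit 5) (nat_lit 511) (nat_lit 446) (nat_lit 183))) (XT.nd (nat_lit 78) (nat_lit 0) (nat_lit 0) (XT.lf (nat_lit 0) (nat_lit 6790928201) (nat_lit 532) (nat_lit 3780827221) (nat_lit 608) (nat_lit 21280422329) (nat_lit 182) (nat_lit 5) (nat_lit 189) (nat_lit 5) (nat_lit 190) (nat_lit 5) (nat_lit 512) (nat_lit 446) (nat_lit 182)) (XT.lf (nat_lit 0) (nat_lit 15659836778) (nat_lit 608) (nat_lit 9115890254) (nat_lit 76) (nat_lit 7479319712) (nat_lit 182) (nat_lit 5) (nat_lit 190) (nat_lit 5) (nat_lit 183) (nat_lit 5) (nat_lit 513) (nat_lit 446) (nat_lit 181))))) (XT.nd (nat_lit 234) (nat_lit 0) (nat_lit 76) (XT.nd (nat_lit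 78) (nat_lit 0) (nat_lit 0) (XT.lf (nat_lit 0) (nat_lit 2794273445) (nat_lit 1748) (nat_lit 2498665110) (nat_lit 1748) (nat_lit 2498665110) (nat_lit 395) (nat_lit 3) (nat_lit 418) (nat_lit 3) (nat_lit 418) (nat_lit 5) (nat_lit 447) (nat_lit 447) (nat_lit 246)) (XT.nd (nat_lit 78) (nat_lit 0) (nat_lit 76) (XT.lf (nat_lit 76) (nat_lit 2196115662) (nat_lit 0) (nat_lit 3727177852) (nat_lit 1748) (nat_lit 9809985562) (nat_lit 396) (nat_lit 5) (nat_lit 395) (nat_lit 3) (nat_lit 418) (nat_lit 5) (nat_lit 448) (nat_lit 447) (nat_lit 245)) (XT.lf (nat_lit 0) (nat_lit 6312772399) (nat_lit 1672) (nat_lit 6309710778) (nat_lit 1748) (nat_lit 3262913136) (nat_lit 396) (nat_lit 5) (nat_lit 418) (nat_lit 5) (nat_lit 419) (nat_lit 5) (nat_lit 449) (nat_lit 447) (nat_lit 244)))) (XT.nd (nat_lit 156) (nat_lit 0) (nat_lit 76) (XT.nd (nat_lit 78) (nat_lit 0) (nat_lit 76) (XT.lf (nat_lit 76) (nat_lit 1047666396) (nat_lit 0) (nat_lit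 5687054013) (nat_lit 1748) (nat_lit 9305346603) (nat_lit 397) (nat_lit 5) (nat_lit 396) (nat_lit 5) (nat_lit 419) (nat_lit 5) (nat_lit 450) (nat_lit 447) (nat_lit 243)) (XT.lf (nat_lit 0) (nat_lit 7210058674) (nat_lit 1672) (nat_lit 7572365266) (nat_lit 1748) (nat_lit 1414512774) (nat_lit 397) (nat_lit 5) (nat_lit 419) (nat_lit 5) (nat_lit 420) (nat_lit 5) (nat_lit 451) (nat_lit 447) (nat_lit 242))) (XT.nd (nat_lit 78) (nat_lit 0) (nat_lit 0) (XT.lf (nat_lit 0) (nat_lit 7726020764) (nat_lit 1672) (nat_lit 45332605) (nat_lit 1748) (nat_lit 8584972627) (nat_lit 397) (nat_lit 5) (nat_lit 419) (nat_lit 5) (nat_lit 420) (nat_lit 5) (nat_lit 452) (nat_lit 447) (nat_lit 241)) (XT.lf (nat_lit 76) (nat_lit 7729952996) (nat_lit 0) (nat_lit 566119876) (nat_lit 1748) (nat_lit 8221959213) (nat_lit 398) (nat_lit 5) (nat_lit 397) (nat_lit 5) (nat_lit 420) (nat_lit 5) (nat_lit 453) (nat_lit 447) (nat_lit 240)))))) (XT.nd (nat_lit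 546) (nat_lit 1368) (nat_lit 0) (XT.nd (nat_lit 234) (nat_lit 0) (nat_lit 76) (XT.nd (nat_lit 78) (nat_lit 0) (nat_lit 0) (XT.lf (nat_lit 0) (nat_lit 8915575711) (nat_lit 1672) (nat_lit 1069441880) (nat_lit 1748) (nat_lit 6697198062) (nat_lit 398) (nat_lit 5) (nat_lit 420) (nat_lit 5) (nat_lit 421) (nat_lit 5) (nat_lit 454) (nat_lit 447) (nat_lit 239)) (XT.nd (nat_lit 78) (nat_lit 0) (nat_lit 76) (XT.lf (nat_lit 76) (nat_lit 6886418586) (nat_lit 0) (nat_lit 2703336152) (nat_lit 1748) (nat_lit 7259086694) (nat_lit 399) (nat_lit 5) (nat_lit 398) (nat_lit 5) (nat_lit 421) (nat_lit 5) (nat_lit 455) (nat_lit 447) (nat_lit 238)) (XT.lf (nat_lit 0) (nat_lit 10309250965) (nat_lit 1672) (nat_lit 2037315821) (nat_lit 1748) (nat_lit 4671600451) (nat_lit 399) (nat_lit 5) (nat_lit 421) (nat_lit 5) (nat_lit 422) (nat_lit 5) (nat_lit 456) (nat_lit 447) (nat_lit 237)))) (XT.nd (nat_lit 156) (nat_lit 0) (nat_lit 76) (XT.nd (nat_lit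 78) (nat_lit 0) (nat_lit 76) (XT.lf (nat_lit 76) (nat_lit 6104696095) (nat_lit 0) (nat_lit 4990036871) (nat_lit 1748) (nat_lit 6095118776) (nat_lit 400) (nat_lit 5) (nat_lit 399) (nat_lit 5) (nat_lit 422) (nat_lit 5) (nat_lit 457) (nat_lit 447) (nat_lit 236)) (XT.lf (nat_lit 0) (nat_lit 11920169970) (nat_lit 1672) (nat_lit 2947811147) (nat_lit 1748) (nat_lit 2496507929) (nat_lit 400) (nat_lit 5) (nat_lit 422) (nat_lit 5) (nat_lit 423) (nat_lit 5) (nat_lit 458) (nat_lit 447) (nat_lit 235))) (XT.nd (nat_lit 78) (nat_lit 0) (nat_lit 76) (XT.lf (nat_lit 76) (nat_lit 5386080313) (nat_lit 0) (nat_lit 7438329703) (nat_lit 1748) (nat_lit 4716967135) (nat_lit 401) (nat_lit 5) (nat_lit 400) (nat_lit 5) (nat_lit 423) (nat_lit 5) (nat_lit 459) (nat_lit 447) (nat_lit 234)) (XT.lf (nat_lit 0) (nat_lit 13761933207) (nat_lit 1672) (nat_lit 3799735314) (nat_lit 1748) (nat_lit 159834394) (nat_lit 401) (nat_lit 5) (nat_lit 423) (nat_lit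 5) (nat_lit 424) (nat_lit 5) (nat_lit 460) (nat_lit 447) (nat_lit 233))))) (XT.nd (nat_lit 312) (nat_lit 1596) (nat_lit 0) (XT.nd (nat_lit 156) (nat_lit 0) (nat_lit 76) (XT.nd (nat_lit 78) (nat_lit 0) (nat_lit 0) (XT.lf (nat_lit 76) (nat_lit 4731916861) (nat_lit 0) (nat_lit 10060761003) (nat_lit 1748) (nat_lit 3111067696) (nat_lit 402) (nat_lit 5) (nat_lit 401) (nat_lit 5) (nat_lit 424) (nat_lit 5) (nat_lit 461) (nat_lit 447) (nat_lit 232)) (XT.lf (nat_lit 76) (nat_lit 13481913565) (nat_lit 0) (nat_lit 2382193317) (nat_lit 1748) (nat_lit 2225128501) (nat_lit 402) (nat_lit 5) (nat_lit 401) (nat_lit 5) (nat_lit 424) (nat_lit 5) (nat_lit 462) (nat_lit 447) (nat_lit 231))) (XT.nd (nat_lit 78) (nat_lit 0) (nat_lit 0) (XT.lf (nat_lit 76) (nat_lit 4143593510) (nat_lit 0) (nat_lit 12870346678) (nat_lit 1748) (nat_lit 1263358938) (nat_lit 403) (nat_lit 5) (nat_lit 402) (nat_lit 5) (nat_lit 425) (nat_lit 5) (nat_lit 463)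 (nat_lit 447) (nat_lit 230)) (XT.lf (nat_lit 76) (nat_lit 13112179102) (nat_lit 0) (nat_lit 5115948408) (nat_lit 1748) (nat_lit 240173058) (nat_lit 403) (nat_lit 5) (nat_lit 402) (nat_lit 5) (nat_lit 425) (nat_lit 5) (nat_lit 464) (nat_lit 447) (nat_lit 229)))) (XT.nd (nat_lit 156) (nat_lit 0) (nat_lit 0) (XT.nd (nat_lit 78) (nat_lit 0) (nat_lit 0) (XT.lf (nat_lit 0) (nat_lit 829713772) (nat_lit 1748) (nat_lit 15045322470) (nat_lit 1824) (nat_lit 2787249392) (nat_lit 380) (nat_lit 5) (nat_lit 403) (nat_lit 5) (nat_lit 404) (nat_lit 5) (nat_lit 465) (nat_lit 447) (nat_lit 228)) (XT.lf (nat_lit 0) (nat_lit 1982764132) (nat_lit 1748) (nat_lit 6056929025) (nat_lit 1824) (nat_lit 10819129222) (nat_lit 380) (nat_lit 5) (nat_lit 403) (nat_lit 5) (nat_lit 404) (nat_lit 5) (nat_lit 466) (nat_lit 447) (nat_lit 227))) (XT.nd (nat_lit 78) (nat_lit 0) (nat_lit 76) (XT.lf (nat_lit 76) (nat_lit 3148703031) (nat_lit 0) (nat_lit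 25633414) (nat_lit 1824) (nat_lit 15884647493) (nat_lit 381) (nat_lit 5) (nat_lit 380) (nat_lit 5) (nat_lit 404) (nat_lit 5) (nat_lit 467) (nat_lit 447) (nat_lit 226)) (XT.lf (nat_lit 0) (nat_lit 4478659081) (nat_lit 1748) (nat_lit 6698869339) (nat_lit 1824) (nat_lit 8083845161) (nat_lit 381) (nat_lit 5) (nat_lit 404) (nat_lit 5) (nat_lit 405) (nat_lit 5) (nat_lit 468) (nat_lit 447) (nat_lit 225))))))))
noncomputable def xc231 : XT := (XT.nd (nat_lit 2184) (nat_lit 5320) (nat_lit 0) (XT.nd (nat_lit 1092) (nat_lit 5016) (nat_lit 0) (XT.nd (nat_lit 546) (nat_lit 2660) (nat_lit 0) (XT.nd (nat_lit 234) (nat_lit 2128) (nat_lit 0) (XT.nd (nat_lit 78) (nat_lit 0) (nat_lit 76) (XT.lf (nat_lit 76) (nat_lit 2728554295) (nat_lit 0) (nat_lit 3093593047) (nat_lit 1824) (nat_lit 13645405261) (nat_lit 382) (nat_lit 5) (nat_lit 381) (nat_lit 5) (nat_lit 405) (nat_lit 5) (nat_lit 469) (nat_lit 447) (nat_lit 224)) (XT.nd (nat_lit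 78) (nat_lit 0) (nat_lit 0) (XT.lf (nat_lit 0) (nat_lit 7266475740) (nat_lit 1748) (nat_lit 7279283402) (nat_lit 1824) (nat_lit 5130619764) (nat_lit 382) (nat_lit 5) (nat_lit 405) (nat_lit 5) (nat_lit 406) (nat_lit 5) (nat_lit 470) (nat_lit 447) (nat_lit 223)) (XT.lf (nat_lit 76) (nat_lit 2376472417) (nat_lit 0) (nat_lit 6394497442) (nat_lit 1824) (nat_lit 11117789337) (nat_lit 383) (nat_lit 5) (nat_lit 382) (nat_lit 5) (nat_lit 406) (nat_lit 5) (nat_lit 471) (nat_lit 447) (nat_lit 222)))) (XT.nd (nat_lit 156) (nat_lit 836) (nat_lit 0) (XT.nd (nat_lit 78) (nat_lit 1444) (nat_lit 0) (XT.lf (nat_lit 0) (nat_lit 10362623040) (nat_lit 1748) (nat_lit 7797090250) (nat_lit 76) (nat_lit 1944535406) (nat_lit 383) (nat_lit 5) (nat_lit 406) (nat_lit 5) (nat_lit 384) (nat_lit 5) (nat_lit 472) (nat_lit 447) (nat_lit 221)) (XT.lf (nat_lit 0) (nat_lit 2093690270) (nat_lit 1444) (nat_lit 9943883160) (nat_lit 1520) (nat_lit 8285448200)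 (nat_lit 364) (nat_lit 5) (nat_lit 383) (nat_lit 5) (nat_lit 384) (nat_lit 5) (nat_lit 473) (nat_lit 447) (nat_lit 220))) (XT.nd (nat_lit 78) (nat_lit 836) (nat_lit 0) (XT.lf (nat_lit 0) (nat_lit 12284171819) (nat_lit 1444) (nat_lit 1509759518) (nat_lit 1520) (nat_lit 6751283384) (nat_lit 364) (nat_lit 5) (nat_lit 383) (nat_lit 5) (nat_lit 384) (nat_lit 5) (nat_lit 474) (nat_lit 447) (nat_lit 219)) (XT.lf (nat_lit 0) (nat_lit 1881408779) (nat_lit 836) (nat_lit 13757952092) (nat_lit 912) (nat_lit 5131414730) (nat_lit 353) (nat_lit 5) (nat_lit 364) (nat_lit 5) (nat_lit 365) (nat_lit 5) (nat_lit 475) (nat_lit 447) (nat_lit 218))))) (XT.nd (nat_lit 234) (nat_lit 1672) (nat_lit 0) (XT.nd (nat_lit 78) (nat_lit 988) (nat_lit 0) (XT.lf (nat_lit 0) (nat_lit 12324759194) (nat_lit 836) (nat_lit 5258044832) (nat_lit 912) (nat_lit 3416824329) (nat_lit 353) (nat_lit 5) (nat_lit 364) (nat_lit 5) (nat_lit 365) (nat_lit 5) (nat_lit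 476) (nat_lit 447) (nat_lit 217)) (XT.nd (nat_lit 78) (nat_lit 76) (nat_lit 0) (XT.lf (nat_lit 0) (nat_lit 1740782682) (nat_lit 912) (nat_lit 17853610750) (nat_lit 988) (nat_lit 1638081890) (nat_lit 341) (nat_lit 5) (nat_lit 353) (nat_lit 5) (nat_lit 354) (nat_lit 5) (nat_lit 477) (nat_lit 447) (nat_lit 216)) (XT.lf (nat_lit 0) (nat_lit 263194391) (nat_lit 988) (nat_lit 9026675550) (nat_lit 76) (nat_lit 12178303594) (nat_lit 340) (nat_lit 5) (nat_lit 353) (nat_lit 5) (nat_lit 341) (nat_lit 5) (nat_lit 478) (nat_lit 447) (nat_lit 215)))) (XT.nd (nat_lit 156) (nat_lit 836) (nat_lit 0) (XT.nd (nat_lit 78) (nat_lit 0) (nat_lit 0) (XT.lf (nat_lit 0) (nat_lit 1654724057) (nat_lit 836) (nat_lit 532534067) (nat_lit 912) (nat_lit 19520979666) (nat_lit 329) (nat_lit 5) (nat_lit 340) (nat_lit 5) (nat_lit 341) (nat_lit 5) (nat_lit 479) (nat_lit 447) (nat_lit 214)) (XT.lf (nat_lit 0) (nat_lit 4261305008) (nat_lit 912) (nat_lit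 9338551696) (nat_lit 76) (nat_lit 8351019087) (nat_lit 329) (nat_lit 5) (nat_lit 341) (nat_lit 5) (nat_lit 330) (nat_lit 5) (nat_lit 480) (nat_lit 447) (nat_lit 213))) (XT.nd (nat_lit 78) (nat_lit 0) (nat_lit 0) (XT.lf (nat_lit 0) (nat_lit 1604469624) (nat_lit 836) (nat_lit 4782374793) (nat_lit 912) (nat_lit 15811324353) (nat_lit 318) (nat_lit 5) (nat_lit 329) (nat_lit 5) (nat_lit 330) (nat_lit 5) (nat_lit 481) (nat_lit 447) (nat_lit 212)) (XT.lf (nat_lit 0) (nat_lit 8641441225) (nat_lit 912) (nat_lit 9587787353) (nat_lit 76) (nat_lit 4219450500) (nat_lit 318) (nat_lit 5) (nat_lit 330) (nat_lit 5) (nat_lit 319) (nat_lit 5) (nat_lit 482) (nat_lit 447) (nat_lit 211)))))) (XT.nd (nat_lit 546) (nat_lit 1976) (nat_lit 0) (XT.nd (nat_lit 234) (nat_lit 1520) (nat_lit 0) (XT.nd (nat_lit 78) (nat_lit 760) (nat_lit 0) (XT.lf (nat_lit 0) (nat_lit 1624134497) (nat_lit 760) (nat_lit 9355409269) (nat_lit 836) (nat_lit 11723889905)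 (nat_lit 308) (nat_lit 5) (nat_lit 318) (nat_lit 5) (nat_lit 319) (nat_lit 5) (nat_lit 483) (nat_lit 447) (nat_lit 210)) (XT.nd (nat_lit 78) (nat_lit 760) (nat_lit 0) (XT.lf (nat_lit 0) (nat_lit 13186546717) (nat_lit 760) (nat_lit 238448674) (nat_lit 836) (nat_lit 9537078532) (nat_lit 308) (nat_lit 5) (nat_lit 318) (nat_lit 5) (nat_lit 319) (nat_lit 5) (nat_lit 484) (nat_lit 447) (nat_lit 209)) (XT.lf (nat_lit 0) (nat_lit 1714257615) (nat_lit 760) (nat_lit 14271379338) (nat_lit 836) (nat_lit 7238926672) (nat_lit 298) (nat_lit 5) (nat_lit 308) (nat_lit 5) (nat_lit 309) (nat_lit 5) (nat_lit 485) (nat_lit 447) (nat_lit 208)))) (XT.nd (nat_lit 156) (nat_lit 836) (nat_lit 0) (XT.nd (nat_lit 78) (nat_lit 684) (nat_lit 0) (XT.lf (nat_lit 0) (nat_lit 13561055987) (nat_lit 760) (nat_lit 5099972939) (nat_lit 836) (nat_lit 4830005663) (nat_lit 298) (nat_lit 5) (nat_lit 308) (nat_lit 5) (nat_lit 309) (nat_lit 5) (nat_lit 486)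 (nat_lit 447) (nat_lit 207)) (XT.lf (nat_lit 0) (nat_lit 1875231522) (nat_lit 684) (nat_lit 19550938537) (nat_lit 760) (nat_lit 2335942262) (nat_lit 289) (nat_lit 5) (nat_lit 298) (nat_lit 5) (nat_lit 299) (nat_lit 5) (nat_lit 487) (nat_lit 447) (nat_lit 206))) (XT.nd (nat_lit 78) (nat_lit 760) (nat_lit 0) (XT.lf (nat_lit 0) (nat_lit 302587041) (nat_lit 760) (nat_lit 10025413288) (nat_lit 76) (nat_lit 13708640106) (nat_lit 288) (nat_lit 5) (nat_lit 298) (nat_lit 5) (nat_lit 289) (nat_lit 5) (nat_lit 488) (nat_lit 447) (nat_lit 205)) (XT.lf (nat_lit 0) (nat_lit 2081468201) (nat_lit 760) (nat_lit 891214651) (nat_lit 836) (nat_lit 21343468014) (nat_lit 278) (nat_lit 5) (nat_lit 288) (nat_lit 5) (nat_lit 289) (nat_lit 5) (nat_lit 489) (nat_lit 447) (nat_lit 204))))) (XT.nd (nat_lit 234) (nat_lit 1292) (nat_lit 0) (XT.nd (nat_lit 78) (nat_lit 684) (nat_lit 0) (XT.lf (nat_lit 0) (nat_lit 5817184757) (nat_lit 836) (nat_lit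 10094365646) (nat_lit 76) (nat_lit 8687283029) (nat_lit 278) (nat_lit 5) (nat_lit 289) (nat_lit 5) (nat_lit 279) (nat_lit 5) (nat_lit 490) (nat_lit 447) (nat_lit 203)) (XT.nd (nat_lit 78) (nat_lit 0) (nat_lit 0) (XT.lf (nat_lit 0) (nat_lit 2309528209) (nat_lit 684) (nat_lit 6426586669) (nat_lit 760) (nat_lit 16150705978) (nat_lit 269) (nat_lit 5) (nat_lit 278) (nat_lit 5) (nat_lit 279) (nat_lit 5) (nat_lit 491) (nat_lit 447) (nat_lit 202)) (XT.lf (nat_lit 0) (nat_lit 11799381211) (nat_lit 760) (nat_lit 10106078758) (nat_lit 76) (nat_lit 3273390839) (nat_lit 269) (nat_lit 5) (nat_lit 279) (nat_lit 5) (nat_lit 270) (nat_lit 5) (nat_lit 492) (nat_lit 447) (nat_lit 201)))) (XT.nd (nat_lit 156) (nat_lit 608) (nat_lit 0) (XT.nd (nat_lit 78) (nat_lit 0) (nat_lit 0) (XT.lf (nat_lit 0) (nat_lit 2602543867) (nat_lit 684) (nat_lit 12377573519) (nat_lit 760) (nat_lit 10495481776) (nat_lit 260) (nat_lit 5) (nat_lit 269) (nat_lit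 5) (nat_lit 270) (nat_lit 5) (nat_lit 493) (nat_lit 447) (nat_lit 200)) (XT.lf (nat_lit 0) (nat_lit 15698764914) (nat_lit 684) (nat_lit 2590308019) (nat_lit 760) (nat_lit 7487919314) (nat_lit 260) (nat_lit 5) (nat_lit 269) (nat_lit 5) (nat_lit 270) (nat_lit 5) (nat_lit 494) (nat_lit 447) (nat_lit 199))) (XT.nd (nat_lit 78) (nat_lit 0) (nat_lit 0) (XT.lf (nat_lit 0) (nat_lit 2959759370) (nat_lit 608) (nat_lit 18768511560) (nat_lit 684) (nat_lit 4354862816) (nat_lit 252) (nat_lit 5) (nat_lit 260) (nat_lit 5) (nat_lit 261) (nat_lit 5) (nat_lit 495) (nat_lit 447) (nat_lit 198)) (XT.lf (nat_lit 0) (nat_lit 16374202643) (nat_lit 608) (nat_lit 8943609099) (nat_lit 684) (nat_lit 1075956942) (nat_lit 252) (nat_lit 5) (nat_lit 260) (nat_lit 5) (nat_lit 261) (nat_lit 5) (nat_lit 496) (nat_lit 447) (nat_lit 197))))))) (XT.nd (nat_lit 1092) (nat_lit 1064) (nat_lit 0) (XT.nd (nat_lit 546) (nat_lit 1748) (nat_lit 0) (XT.nd (nat_lit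 234) (nat_lit 1140) (nat_lit 0) (XT.nd (nat_lit 78) (nat_lit 608) (nat_lit 0) (XT.lf (nat_lit 0) (nat_lit 2264833897) (nat_lit 760) (nat_lit 23344873485) (nat_lit 76) (nat_lit 1100094898) (nat_lit 242) (nat_lit 5) (nat_lit 252) (nat_lit 5) (nat_lit 243) (nat_lit 5) (nat_lit 497) (nat_lit 447) (nat_lit 196)) (XT.nd (nat_lit 78) (nat_lit 608) (nat_lit 0) (XT.lf (nat_lit 0) (nat_lit 5781918976) (nat_lit 760) (nat_lit 9948224004) (nat_lit 76) (nat_lit 11299395296) (nat_lit 242) (nat_lit 5) (nat_lit 252) (nat_lit 5) (nat_lit 243) (nat_lit 5) (nat_lit 498) (nat_lit 447) (nat_lit 195)) (XT.lf (nat_lit 0) (nat_lit 3762226671) (nat_lit 608) (nat_lit 5628566527) (nat_lit 684) (nat_lit 17964448495) (nat_lit 234) (nat_lit 5) (nat_lit 242) (nat_lit 5) (nat_lit 243) (nat_lit 5) (nat_lit 499) (nat_lit 447) (nat_lit 194)))) (XT.nd (nat_lit 156) (nat_lit 532) (nat_lit 0) (XT.nd (nat_lit 78) (nat_lit 608) (nat_lit 0) (XT.lf (nat_lit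 0) (nat_lit 13166451587) (nat_lit 684) (nat_lit 9838690848) (nat_lit 76) (nat_lit 4680426227) (nat_lit 234) (nat_lit 5) (nat_lit 243) (nat_lit 5) (nat_lit 235) (nat_lit 5) (nat_lit 500) (nat_lit 447) (nat_lit 193)) (XT.lf (nat_lit 0) (nat_lit 4205156304) (nat_lit 608) (nat_lit 12874155844) (nat_lit 684) (nat_lit 10941957826) (nat_lit 226) (nat_lit 5) (nat_lit 234) (nat_lit 5) (nat_lit 235) (nat_lit 5) (nat_lit 501) (nat_lit 447) (nat_lit 192))) (XT.nd (nat_lit 78) (nat_lit 532) (nat_lit 0) (XT.lf (nat_lit 0) (nat_lit 18659829460) (nat_lit 608) (nat_lit 2473768780) (nat_lit 684) (nat_lit 7228825260) (nat_lit 226) (nat_lit 5) (nat_lit 234) (nat_lit 5) (nat_lit 235) (nat_lit 5) (nat_lit 502) (nat_lit 447) (nat_lit 191)) (XT.lf (nat_lit 0) (nat_lit 4698599677) (nat_lit 532) (nat_lit 20650890105) (nat_lit 608) (nat_lit 3359301441) (nat_lit 219) (nat_lit 5) (nat_lit 226) (nat_lit 5) (nat_lit 227) (nat_lit 5) (nat_lit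 503) (nat_lit 447) (nat_lit 190))))) (XT.nd (nat_lit 234) (nat_lit 1064) (nat_lit 0) (XT.nd (nat_lit 78) (nat_lit 608) (nat_lit 0) (XT.lf (nat_lit 0) (nat_lit 659040573) (nat_lit 608) (nat_lit 9565494592) (nat_lit 76) (nat_lit 18835893611) (nat_lit 218) (nat_lit 5) (nat_lit 226) (nat_lit 5) (nat_lit 219) (nat_lit 5) (nat_lit 504) (nat_lit 447) (nat_lit 189)) (XT.nd (nat_lit 78) (nat_lit 0) (nat_lit 0) (XT.lf (nat_lit 0) (nat_lit 4746940029) (nat_lit 684) (nat_lit 24210227854) (nat_lit 76) (nat_lit 460805098) (nat_lit 210) (nat_lit 5) (nat_lit 219) (nat_lit 5) (nat_lit 211) (nat_lit 5) (nat_lit 505) (nat_lit 447) (nat_lit 188)) (XT.lf (nat_lit 0) (nat_lit 9046217907) (nat_lit 684) (nat_lit 9446791373) (nat_lit 76) (nat_lit 11287067788) (nat_lit 210) (nat_lit 5) (nat_lit 219) (nat_lit 5) (nat_lit 211) (nat_lit 5) (nat_lit 506) (nat_lit 447) (nat_lit 187)))) (XT.nd (nat_lit 156) (nat_lit 532) (nat_lit 0) (XT.nd (nat_lit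 78) (nat_lit 0) (nat_lit 0) (XT.lf (nat_lit 0) (nat_lit 5683133188) (nat_lit 532) (nat_lit 7782593570) (nat_lit 608) (nat_lit 16683012951) (nat_lit 203) (nat_lit 5) (nat_lit 210) (nat_lit 5) (nat_lit 211) (nat_lit 5) (nat_lit 507) (nat_lit 447) (nat_lit 186)) (XT.lf (nat_lit 0) (nat_lit 18055211718) (nat_lit 608) (nat_lit 9303961316) (nat_lit 76) (nat_lit 3163972203) (nat_lit 203) (nat_lit 5) (nat_lit 211) (nat_lit 5) (nat_lit 204) (nat_lit 5) (nat_lit 508) (nat_lit 447) (nat_lit 185))) (XT.nd (nat_lit 78) (nat_lit 0) (nat_lit 0) (XT.lf (nat_lit 0) (nat_lit 6187245241) (nat_lit 532) (nat_lit 16638377720) (nat_lit 608) (nat_lit 8077634507) (nat_lit 196) (nat_lit 5) (nat_lit 203) (nat_lit 5) (nat_lit 204) (nat_lit 5) (nat_lit 509) (nat_lit 447) (nat_lit 184)) (XT.lf (nat_lit 0) (nat_lit 22111137111) (nat_lit 532) (nat_lit 5640193685) (nat_lit 608) (nat_lit 3538444682) (nat_lit 196) (nat_lit 5) (nat_lit 203) (nat_lit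 5) (nat_lit 204) (nat_lit 5) (nat_lit 510) (nat_lit 447) (nat_lit 183)))))) (XT.nd (nat_lit 54756) (nat_lit 0) (nat_lit 16340) (XT.nd (nat_lit 54444) (nat_lit 0) (nat_lit 16188) (XT.nd (nat_lit 78) (nat_lit 532) (nat_lit 0) (XT.lf (nat_lit 0) (nat_lit 1155057898) (nat_lit 532) (nat_lit 24971940028) (nat_lit 76) (nat_lit 5555328540) (nat_lit 189) (nat_lit 5) (nat_lit 196) (nat_lit 5) (nat_lit 190) (nat_lit 5) (nat_lit 511) (nat_lit 447) (nat_lit 182)) (XT.nd (nat_lit 78) (nat_lit 532) (nat_lit 0) (XT.lf (nat_lit 0) (nat_lit 5991958541) (nat_lit 532) (nat_lit 9104331890) (nat_lit 76) (nat_lit 16984033330) (nat_lit 189) (nat_lit 5) (nat_lit 196) (nat_lit 5) (nat_lit 190) (nat_lit 5) (nat_lit 512) (nat_lit 447) (nat_lit 181)) (XT.lf (nat_lit 0) (nat_lit 7171495337) (nat_lit 532) (nat_lit 3798222614) (nat_lit 608) (nat_lit 21515681837) (nat_lit 182) (nat_lit 5) (nat_lit 189) (nat_lit 5) (nat_lit 190) (nat_lit 5) (nat_lit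 513) (nat_lit 447) (nat_lit 180)))) (XT.nd (nat_lit 156) (nat_lit 0) (nat_lit 76) (XT.nd (nat_lit 78) (nat_lit 0) (nat_lit 0) (XT.lf (nat_lit 0) (nat_lit 3113043455) (nat_lit 1748) (nat_lit 2414476338) (nat_lit 1748) (nat_lit 2414476338) (nat_lit 395) (nat_lit 3) (nat_lit 418) (nat_lit 3) (nat_lit 418) (nat_lit 5) (nat_lit 448) (nat_lit 448) (nat_lit 244)) (XT.lf (nat_lit 76) (nat_lit 2506596833) (nat_lit 0) (nat_lit 4052353112) (nat_lit 1748) (nat_lit 9478294203) (nat_lit 396) (nat_lit 5) (nat_lit 395) (nat_lit 3) (nat_lit 418) (nat_lit 5) (nat_lit 449) (nat_lit 448) (nat_lit 243))) (XT.nd (nat_lit 78) (nat_lit 0) (nat_lit 0) (XT.lf (nat_lit 0) (nat_lit 6944482056) (nat_lit 1672) (nat_lit 6162486723) (nat_lit 1748) (nat_lit 3085676671) (nat_lit 396) (nat_lit 5) (nat_lit 418) (nat_lit 5) (nat_lit 419) (nat_lit 5) (nat_lit 450) (nat_lit 448) (nat_lit 242)) (XT.lf (nat_lit 76) (nat_lit 1340239190) (nat_lit 0) (nat_lit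 6026482503) (nat_lit 1748) (nat_lit 8983857673) (nat_lit 397) (nat_lit 5) (nat_lit 396) (nat_lit 5) (nat_lit 419) (nat_lit 5) (nat_lit 451) (nat_lit 448) (nat_lit 241))))) (XT.nd (nat_lit 312) (nat_lit 0) (nat_lit 76) (XT.nd (nat_lit 156) (nat_lit 0) (nat_lit 0) (XT.nd (nat_lit 78) (nat_lit 0) (nat_lit 0) (XT.lf (nat_lit 0) (nat_lit 7840379027) (nat_lit 1672) (nat_lit 7445995156) (nat_lit 1748) (nat_lit 1224442756) (nat_lit 397) (nat_lit 5) (nat_lit 419) (nat_lit 5) (nat_lit 420) (nat_lit 5) (nat_lit 452) (nat_lit 448) (nat_lit 240)) (XT.lf (nat_lit 76) (nat_lit 229135917) (nat_lit 0) (nat_lit 8129480396) (nat_lit 1748) (nat_lit 8314945166) (nat_lit 398) (nat_lit 5) (nat_lit 397) (nat_lit 5) (nat_lit 420) (nat_lit 5) (nat_lit 453) (nat_lit 448) (nat_lit 239))) (XT.nd (nat_lit 78) (nat_lit 0) (nat_lit 76) (XT.lf (nat_lit 76) (nat_lit 8155130164) (nat_lit 0) (nat_lit 775863518) (nat_lit 1748) (nat_lit 7907695984)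 (nat_lit 398) (nat_lit 5) (nat_lit 397) (nat_lit 5) (nat_lit 420) (nat_lit 5) (nat_lit 454) (nat_lit 448) (nat_lit 238)) (XT.lf (nat_lit 0) (nat_lit 9552427489) (nat_lit 1672) (nat_lit 814782236) (nat_lit 1748) (nat_lit 6639162695) (nat_lit 398) (nat_lit 5) (nat_lit 420) (nat_lit 5) (nat_lit 421) (nat_lit 5) (nat_lit 455) (nat_lit 448) (nat_lit 237)))) (XT.nd (nat_lit 156) (nat_lit 0) (nat_lit 76) (XT.nd (nat_lit 78) (nat_lit 0) (nat_lit 76) (XT.lf (nat_lit 76) (nat_lit 7298379331) (nat_lit 0) (nat_lit 2934500280) (nat_lit 1748) (nat_lit 6943601527) (nat_lit 399) (nat_lit 5) (nat_lit 398) (nat_lit 5) (nat_lit 421) (nat_lit 5) (nat_lit 456) (nat_lit 448) (nat_lit 236)) (XT.lf (nat_lit 0) (nat_lit 10956788871) (nat_lit 1672) (nat_lit 1798925539) (nat_lit 1748) (nat_lit 4593684676) (nat_lit 399) (nat_lit 5) (nat_lit 421) (nat_lit 5) (nat_lit 422) (nat_lit 5) (nat_lit 457) (nat_lit 448) (nat_lit 235))) (XT.nd (nat_lit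 78) (nat_lit 0) (nat_lit 76) (XT.lf (nat_lit 76) (nat_lit 6504090191) (nat_lit 0) (nat_lit 5247036759) (nat_lit 1748) (nat_lit 5773533370) (nat_lit 400) (nat_lit 5) (nat_lit 399) (nat_lit 5) (nat_lit 422) (nat_lit 5) (nat_lit 458) (nat_lit 448) (nat_lit 234)) (XT.lf (nat_lit 0) (nat_lit 12583552470) (nat_lit 1672) (nat_lit 2725091614) (nat_lit 1748) (nat_lit 2394342543) (nat_lit 400) (nat_lit 5) (nat_lit 422) (nat_lit 5) (nat_lit 423) (nat_lit 5) (nat_lit 459) (nat_lit 448) (nat_lit 233))))))))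
noncomputable def xc232 : XT := (XT.nd (nat_lit 2184) (nat_lit 8284) (nat_lit 0) (XT.nd (nat_lit 1092) (nat_lit 6156) (nat_lit 0) (XT.nd (nat_lit 546) (nat_lit 0) (nat_lit 76) (XT.nd (nat_lit 234) (nat_lit 1596) (nat_lit 0) (XT.nd (nat_lit 78) (nat_lit 0) (nat_lit 76) (XT.lf (nat_lit 76) (nat_lit 5773624546) (nat_lit 0) (nat_lit 7725736643) (nat_lit 1748) (nat_lit 4384187366) (nat_lit 401) (nat_lit 5) (nat_lit 400) (nat_lit 5) (nat_lit 423) (nat_lit 5) (nat_lit 460) (nat_lit 448) (nat_lit 232)) (XT.nd (nat_lit 78) (nat_lit 0) (nat_lit 0) (XT.lf (nat_lit 0) (nat_lit 14446547192) (nat_lit 1672) (nat_lit 3592025205) (nat_lit 1748) (nat_lit 28891815) (nat_lit 401) (nat_lit 5) (nat_lit 423) (nat_lit 5) (nat_lit 424) (nat_lit 5) (nat_lit 461) (nat_lit 448) (nat_lit 231)) (XT.lf (nat_lit 76) (nat_lit 5108393534) (nat_lit 0) (nat_lit 10383316122) (nat_lit 1748) (nat_lit 2761771510) (nat_lit 402) (nat_lit 5) (nat_lit 401)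 (nat_lit 5) (nat_lit 424) (nat_lit 5) (nat_lit 462) (nat_lit 448) (nat_lit 230)))) (XT.nd (nat_lit 156) (nat_lit 1672) (nat_lit 0) (XT.nd (nat_lit 78) (nat_lit 0) (nat_lit 76) (XT.lf (nat_lit 76) (nat_lit 14027863931) (nat_lit 0) (nat_lit 2548797868) (nat_lit 1748) (nat_lit 1866182502) (nat_lit 402) (nat_lit 5) (nat_lit 401) (nat_lit 5) (nat_lit 424) (nat_lit 5) (nat_lit 463) (nat_lit 448) (nat_lit 229)) (XT.lf (nat_lit 76) (nat_lit 4509848923) (nat_lit 0) (nat_lit 13232975088) (nat_lit 1748) (nat_lit 891983964) (nat_lit 403) (nat_lit 5) (nat_lit 402) (nat_lit 5) (nat_lit 425) (nat_lit 5) (nat_lit 464) (nat_lit 448) (nat_lit 228))) (XT.nd (nat_lit 78) (nat_lit 0) (nat_lit 76) (XT.lf (nat_lit 0) (nat_lit 142001214) (nat_lit 1748) (nat_lit 5178471569) (nat_lit 1824) (nat_lit 13509295569) (nat_lit 379) (nat_lit 5) (nat_lit 402) (nat_lit 5) (nat_lit 403) (nat_lit 5) (nat_lit 465) (nat_lit 448) (nat_lit 227)) (XT.lf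 (nat_lit 0) (nat_lit 1223746427) (nat_lit 1748) (nat_lit 15056470953) (nat_lit 1824) (nat_lit 2747515453) (nat_lit 380) (nat_lit 5) (nat_lit 403) (nat_lit 5) (nat_lit 404) (nat_lit 5) (nat_lit 466) (nat_lit 448) (nat_lit 226))))) (XT.nd (nat_lit 234) (nat_lit 0) (nat_lit 76) (XT.nd (nat_lit 78) (nat_lit 0) (nat_lit 0) (XT.lf (nat_lit 0) (nat_lit 2392457041) (nat_lit 1748) (nat_lit 5893991168) (nat_lit 1824) (nat_lit 10941905015) (nat_lit 380) (nat_lit 5) (nat_lit 403) (nat_lit 5) (nat_lit 404) (nat_lit 5) (nat_lit 467) (nat_lit 448) (nat_lit 225)) (XT.nd (nat_lit 78) (nat_lit 0) (nat_lit 76) (XT.lf (nat_lit 76) (nat_lit 3493884606) (nat_lit 0) (nat_lit 108552834) (nat_lit 1824) (nat_lit 15830193843) (nat_lit 381) (nat_lit 5) (nat_lit 380) (nat_lit 5) (nat_lit 404) (nat_lit 5) (nat_lit 468) (nat_lit 448) (nat_lit 224)) (XT.lf (nat_lit 0) (nat_lit 4925172681) (nat_lit 1748) (nat_lit 6548263503) (nat_lit 1824) (nat_lit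 8165790719) (nat_lit 381) (nat_lit 5) (nat_lit 404) (nat_lit 5) (nat_lit 405) (nat_lit 5) (nat_lit 469) (nat_lit 448) (nat_lit 223)))) (XT.nd (nat_lit 156) (nat_lit 0) (nat_lit 76) (XT.nd (nat_lit 78) (nat_lit 0) (nat_lit 76) (XT.lf (nat_lit 76) (nat_lit 3065836346) (nat_lit 0) (nat_lit 3224531077) (nat_lit 1824) (nat_lit 13559269963) (nat_lit 382) (nat_lit 5) (nat_lit 381) (nat_lit 5) (nat_lit 405) (nat_lit 5) (nat_lit 470) (nat_lit 448) (nat_lit 222)) (XT.lf (nat_lit 0) (nat_lit 7756245167) (nat_lit 1748) (nat_lit 7140138033) (nat_lit 1824) (nat_lit 5166408283) (nat_lit 382) (nat_lit 5) (nat_lit 405) (nat_lit 5) (nat_lit 406) (nat_lit 5) (nat_lit 471) (nat_lit 448) (nat_lit 221))) (XT.nd (nat_lit 78) (nat_lit 0) (nat_lit 76) (XT.lf (nat_lit 76) (nat_lit 2706859673) (nat_lit 0) (nat_lit 6579052273) (nat_lit 1824) (nat_lit 10993610214) (nat_lit 383) (nat_lit 5) (nat_lit 382) (nat_lit 5) (nat_lit 406) (nat_lit 5)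 (nat_lit 472) (nat_lit 448) (nat_lit 220)) (XT.lf (nat_lit 0) (nat_lit 10902380190) (nat_lit 1748) (nat_lit 7668485061) (nat_lit 76) (nat_lit 1928600906) (nat_lit 383) (nat_lit 5) (nat_lit 406) (nat_lit 5) (nat_lit 384) (nat_lit 5) (nat_lit 473) (nat_lit 448) (nat_lit 219)))))) (XT.nd (nat_lit 546) (nat_lit 2356) (nat_lit 0) (XT.nd (nat_lit 234) (nat_lit 1824) (nat_lit 0) (XT.nd (nat_lit 78) (nat_lit 836) (nat_lit 0) (XT.lf (nat_lit 0) (nat_lit 2418239050) (nat_lit 1444) (nat_lit 10187906151) (nat_lit 1520) (nat_lit 8116567299) (nat_lit 364) (nat_lit 5) (nat_lit 383) (nat_lit 5) (nat_lit 384) (nat_lit 5) (nat_lit 474) (nat_lit 448) (nat_lit 218)) (XT.nd (nat_lit 78) (nat_lit 836) (nat_lit 0) (XT.lf (nat_lit 0) (nat_lit 12806987584) (nat_lit 1444) (nat_lit 1584214834) (nat_lit 1520) (nat_lit 6558279773) (nat_lit 364) (nat_lit 5) (nat_lit 383) (nat_lit 5) (nat_lit 384) (nat_lit 5) (nat_lit 475) (nat_lit 448) (nat_lit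 217)) (XT.lf (nat_lit 0) (nat_lit 2201224682) (nat_lit 836) (nat_lit 14067564465) (nat_lit 912) (nat_lit 4910864265) (nat_lit 353) (nat_lit 5) (nat_lit 364) (nat_lit 5) (nat_lit 365) (nat_lit 5) (nat_lit 476) (nat_lit 448) (nat_lit 216)))) (XT.nd (nat_lit 156) (nat_lit 912) (nat_lit 0) (XT.nd (nat_lit 78) (nat_lit 912) (nat_lit 0) (XT.lf (nat_lit 0) (nat_lit 12847909012) (nat_lit 836) (nat_lit 5396983505) (nat_lit 912) (nat_lit 3168318895) (nat_lit 353) (nat_lit 5) (nat_lit 364) (nat_lit 5) (nat_lit 365) (nat_lit 5) (nat_lit 477) (nat_lit 448) (nat_lit 215)) (XT.lf (nat_lit 0) (nat_lit 2057018081) (nat_lit 912) (nat_lit 18235220877) (nat_lit 988) (nat_lit 1358569794) (nat_lit 341) (nat_lit 5) (nat_lit 353) (nat_lit 5) (nat_lit 354) (nat_lit 5) (nat_lit 478) (nat_lit 448) (nat_lit 214))) (XT.nd (nat_lit 78) (nat_lit 836) (nat_lit 0) (XT.lf (nat_lit 0) (nat_lit 570593776) (nat_lit 988) (nat_lit 8927102851) (nat_lit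 76) (nat_lit 12393608392) (nat_lit 340) (nat_lit 5) (nat_lit 353) (nat_lit 5) (nat_lit 341) (nat_lit 5) (nat_lit 479) (nat_lit 448) (nat_lit 213)) (XT.lf (nat_lit 0) (nat_lit 1966081944) (nat_lit 836) (nat_lit 562939285) (nat_lit 912) (nat_lit 19607235392) (nat_lit 329) (nat_lit 5) (nat_lit 340) (nat_lit 5) (nat_lit 341) (nat_lit 5) (nat_lit 480) (nat_lit 448) (nat_lit 212))))) (XT.nd (nat_lit 234) (nat_lit 1520) (nat_lit 0) (XT.nd (nat_lit 78) (nat_lit 836) (nat_lit 0) (XT.lf (nat_lit 0) (nat_lit 4638579817) (nat_lit 912) (nat_lit 9246364309) (nat_lit 76) (nat_lit 8498926280) (nat_lit 329) (nat_lit 5) (nat_lit 341) (nat_lit 5) (nat_lit 330) (nat_lit 5) (nat_lit 481) (nat_lit 448) (nat_lit 211)) (XT.nd (nat_lit 78) (nat_lit 0) (nat_lit 0) (XT.lf (nat_lit 0) (nat_lit 1913682185) (nat_lit 836) (nat_lit 4889020652) (nat_lit 912) (nat_lit 15833488519) (nat_lit 318) (nat_lit 5) (nat_lit 329) (nat_lit 5) (nat_lit 330)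 (nat_lit 5) (nat_lit 482) (nat_lit 448) (nat_lit 210)) (XT.lf (nat_lit 0) (nat_lit 9096672130) (nat_lit 912) (nat_lit 9501959407) (nat_lit 76) (nat_lit 4293198219) (nat_lit 318) (nat_lit 5) (nat_lit 330) (nat_lit 5) (nat_lit 319) (nat_lit 5) (nat_lit 483) (nat_lit 448) (nat_lit 209)))) (XT.nd (nat_lit 156) (nat_lit 760) (nat_lit 0) (XT.nd (nat_lit 78) (nat_lit 0) (nat_lit 0) (XT.lf (nat_lit 0) (nat_lit 1932374672) (nat_lit 760) (nat_lit 9545415155) (nat_lit 836) (nat_lit 11673967980) (nat_lit 308) (nat_lit 5) (nat_lit 318) (nat_lit 5) (nat_lit 319) (nat_lit 5) (nat_lit 484) (nat_lit 448) (nat_lit 208)) (XT.lf (nat_lit 0) (nat_lit 13720628127) (nat_lit 760) (nat_lit 246058530) (nat_lit 836) (nat_lit 9448996845) (nat_lit 308) (nat_lit 5) (nat_lit 318) (nat_lit 5) (nat_lit 319) (nat_lit 5) (nat_lit 485) (nat_lit 448) (nat_lit 207))) (XT.nd (nat_lit 78) (nat_lit 0) (nat_lit 0) (XT.lf (nat_lit 0) (nat_lit 2022727793)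 (nat_lit 760) (nat_lit 14552218673) (nat_lit 836) (nat_lit 7108551720) (nat_lit 298) (nat_lit 5) (nat_lit 308) (nat_lit 5) (nat_lit 309) (nat_lit 5) (nat_lit 486) (nat_lit 448) (nat_lit 206)) (XT.lf (nat_lit 0) (nat_lit 14101085955) (nat_lit 760) (nat_lit 5197474112) (nat_lit 836) (nat_lit 4656847458) (nat_lit 298) (nat_lit 5) (nat_lit 308) (nat_lit 5) (nat_lit 309) (nat_lit 5) (nat_lit 487) (nat_lit 448) (nat_lit 205))))))) (XT.nd (nat_lit 1092) (nat_lit 3420) (nat_lit 0) (XT.nd (nat_lit 546) (nat_lit 1976) (nat_lit 0) (XT.nd (nat_lit 234) (nat_lit 1368) (nat_lit 0) (XT.nd (nat_lit 78) (nat_lit 836) (nat_lit 0) (XT.lf (nat_lit 0) (nat_lit 2185159423) (nat_lit 684) (nat_lit 19930459423) (nat_lit 760) (nat_lit 2116358834) (nat_lit 289) (nat_lit 5) (nat_lit 298) (nat_lit 5) (nat_lit 299) (nat_lit 5) (nat_lit 488) (nat_lit 448) (nat_lit 204)) (XT.nd (nat_lit 78) (nat_lit 760) (nat_lit 0) (XT.lf (nat_lit 0) (nat_lit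 566295322) (nat_lit 760) (nat_lit 9955263567) (nat_lit 76) (nat_lit 13990508996) (nat_lit 288) (nat_lit 5) (nat_lit 298) (nat_lit 5) (nat_lit 289) (nat_lit 5) (nat_lit 489) (nat_lit 448) (nat_lit 203)) (XT.lf (nat_lit 0) (nat_lit 2391974907) (nat_lit 760) (nat_lit 894511784) (nat_lit 836) (nat_lit 21510750946) (nat_lit 278) (nat_lit 5) (nat_lit 288) (nat_lit 5) (nat_lit 289) (nat_lit 5) (nat_lit 490) (nat_lit 448) (nat_lit 202)))) (XT.nd (nat_lit 156) (nat_lit 684) (nat_lit 0) (XT.nd (nat_lit 78) (nat_lit 684) (nat_lit 0) (XT.lf (nat_lit 0) (nat_lit 6182983846) (nat_lit 836) (nat_lit 10027606617) (nat_lit 76) (nat_lit 8875084214) (nat_lit 278) (nat_lit 5) (nat_lit 289) (nat_lit 5) (nat_lit 279) (nat_lit 5) (nat_lit 491) (nat_lit 448) (nat_lit 201)) (XT.lf (nat_lit 0) (nat_lit 2622597706) (nat_lit 684) (nat_lit 6534536337) (nat_lit 760) (nat_lit 16222353846) (nat_lit 269) (nat_lit 5) (nat_lit 278) (nat_lit 5) (nat_lit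 279) (nat_lit 5) (nat_lit 492) (nat_lit 448) (nat_lit 200))) (XT.nd (nat_lit 78) (nat_lit 684) (nat_lit 0) (XT.lf (nat_lit 0) (nat_lit 12276967364) (nat_lit 760) (nat_lit 10041715348) (nat_lit 76) (nat_lit 3358772507) (nat_lit 269) (nat_lit 5) (nat_lit 279) (nat_lit 5) (nat_lit 270) (nat_lit 5) (nat_lit 493) (nat_lit 448) (nat_lit 199)) (XT.lf (nat_lit 0) (nat_lit 2919326539) (nat_lit 684) (nat_lit 12598973311) (nat_lit 760) (nat_lit 10461901815) (nat_lit 260) (nat_lit 5) (nat_lit 269) (nat_lit 5) (nat_lit 270) (nat_lit 5) (nat_lit 494) (nat_lit 448) (nat_lit 198))))) (XT.nd (nat_lit 234) (nat_lit 1368) (nat_lit 0) (XT.nd (nat_lit 78) (nat_lit 608) (nat_lit 0) (XT.lf (nat_lit 0) (nat_lit 16272281187) (nat_lit 684) (nat_lit 2616475279) (nat_lit 760) (nat_lit 7398962410) (nat_lit 260) (nat_lit 5) (nat_lit 269) (nat_lit 5) (nat_lit 270) (nat_lit 5) (nat_lit 495) (nat_lit 448) (nat_lit 197)) (XT.nd (nat_lit 78) (nat_lit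 0) (nat_lit 0) (XT.lf (nat_lit 0) (nat_lit 3281404207) (nat_lit 608) (nat_lit 19112615100) (nat_lit 684) (nat_lit 4206020932) (nat_lit 252) (nat_lit 5) (nat_lit 260) (nat_lit 5) (nat_lit 261) (nat_lit 5) (nat_lit 496) (nat_lit 448) (nat_lit 196)) (XT.lf (nat_lit 0) (nat_lit 16958990273) (nat_lit 608) (nat_lit 9091827662) (nat_lit 684) (nat_lit 866163198) (nat_lit 252) (nat_lit 5) (nat_lit 260) (nat_lit 5) (nat_lit 261) (nat_lit 5) (nat_lit 497) (nat_lit 448) (nat_lit 195)))) (XT.nd (nat_lit 156) (nat_lit 608) (nat_lit 0) (XT.nd (nat_lit 78) (nat_lit 0) (nat_lit 0) (XT.lf (nat_lit 0) (nat_lit 2535829667) (nat_lit 760) (nat_lit 23548601328) (nat_lit 76) (nat_lit 1154928468) (nat_lit 242) (nat_lit 5) (nat_lit 252) (nat_lit 5) (nat_lit 243) (nat_lit 5) (nat_lit 498) (nat_lit 448) (nat_lit 194)) (XT.lf (nat_lit 0) (nat_lit 6118830975) (nat_lit 760) (nat_lit 9889179047) (nat_lit 76) (nat_lit 11557571116) (nat_lit 242)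 (nat_lit 5) (nat_lit 252) (nat_lit 5) (nat_lit 243) (nat_lit 5) (nat_lit 499) (nat_lit 448) (nat_lit 193))) (XT.nd (nat_lit 78) (nat_lit 0) (nat_lit 0) (XT.lf (nat_lit 0) (nat_lit 4093783211) (nat_lit 608) (nat_lit 5703424920) (nat_lit 684) (nat_lit 18100646384) (nat_lit 234) (nat_lit 5) (nat_lit 242) (nat_lit 5) (nat_lit 243) (nat_lit 5) (nat_lit 500) (nat_lit 448) (nat_lit 192)) (XT.lf (nat_lit 0) (nat_lit 13644333488) (nat_lit 684) (nat_lit 9780014506) (nat_lit 76) (nat_lit 4810523306) (nat_lit 234) (nat_lit 5) (nat_lit 243) (nat_lit 5) (nat_lit 235) (nat_lit 5) (nat_lit 501) (nat_lit 448) (nat_lit 191)))))) (XT.nd (nat_lit 546) (nat_lit 1064) (nat_lit 0) (XT.nd (nat_lit 234) (nat_lit 1216) (nat_lit 0) (XT.nd (nat_lit 78) (nat_lit 532) (nat_lit 0) (XT.lf (nat_lit 0) (nat_lit 4543028995) (nat_lit 608) (nat_lit 13089862986) (nat_lit 684) (nat_lit 10944448151) (nat_lit 226) (nat_lit 5) (nat_lit 234) (nat_lit 5)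 (nat_lit 235) (nat_lit 5) (nat_lit 502) (nat_lit 448) (nat_lit 190)) (XT.nd (nat_lit 78) (nat_lit 532) (nat_lit 0) (XT.lf (nat_lit 0) (nat_lit 19281819740) (nat_lit 608) (nat_lit 2482287317) (nat_lit 684) (nat_lit 7161295067) (nat_lit 226) (nat_lit 5) (nat_lit 234) (nat_lit 5) (nat_lit 235) (nat_lit 5) (nat_lit 503) (nat_lit 448) (nat_lit 189)) (XT.lf (nat_lit 0) (nat_lit 5043706146) (nat_lit 532) (nat_lit 21018426289) (nat_lit 608) (nat_lit 3216610665) (nat_lit 219) (nat_lit 5) (nat_lit 226) (nat_lit 5) (nat_lit 227) (nat_lit 5) (nat_lit 504) (nat_lit 448) (nat_lit 188)))) (XT.nd (nat_lit 156) (nat_lit 532) (nat_lit 0) (XT.nd (nat_lit 78) (nat_lit 608) (nat_lit 0) (XT.lf (nat_lit 0) (nat_lit 875284357) (nat_lit 608) (nat_lit 9507789029) (nat_lit 76) (nat_lit 19254396121) (nat_lit 218) (nat_lit 5) (nat_lit 226) (nat_lit 5) (nat_lit 219) (nat_lit 5) (nat_lit 505) (nat_lit 448) (nat_lit 187)) (XT.lf (nat_lit 0) (nat_lit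 5042869453) (nat_lit 684) (nat_lit 24443240113) (nat_lit 76) (nat_lit 516098567) (nat_lit 210) (nat_lit 5) (nat_lit 219) (nat_lit 5) (nat_lit 211) (nat_lit 5) (nat_lit 506) (nat_lit 448) (nat_lit 186))) (XT.nd (nat_lit 78) (nat_lit 532) (nat_lit 0) (XT.lf (nat_lit 0) (nat_lit 9424191896) (nat_lit 684) (nat_lit 9389460242) (nat_lit 76) (nat_lit 11557983033) (nat_lit 210) (nat_lit 5) (nat_lit 219) (nat_lit 5) (nat_lit 211) (nat_lit 5) (nat_lit 507) (nat_lit 448) (nat_lit 185)) (XT.lf (nat_lit 0) (nat_lit 6041442633) (nat_lit 532) (nat_lit 7888372982) (nat_lit 608) (nat_lit 16817902965) (nat_lit 203) (nat_lit 5) (nat_lit 210) (nat_lit 5) (nat_lit 211) (nat_lit 5) (nat_lit 508) (nat_lit 448) (nat_lit 184))))) (XT.nd (nat_lit 54678) (nat_lit 0) (nat_lit 15656) (XT.nd (nat_lit 156) (nat_lit 532) (nat_lit 0) (XT.nd (nat_lit 78) (nat_lit 532) (nat_lit 0) (XT.lf (nat_lit 0) (nat_lit 18607588625) (nat_lit 608) (nat_lit 9246590641)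 (nat_lit 76) (nat_lit 3275504954) (nat_lit 203) (nat_lit 5) (nat_lit 211) (nat_lit 5) (nat_lit 204) (nat_lit 5) (nat_lit 509) (nat_lit 448) (nat_lit 183)) (XT.lf (nat_lit 0) (nat_lit 6552838403) (nat_lit 532) (nat_lit 16918389486) (nat_lit 608) (nat_lit 8046216343) (nat_lit 196) (nat_lit 5) (nat_lit 203) (nat_lit 5) (nat_lit 204) (nat_lit 5) (nat_lit 510) (nat_lit 448) (nat_lit 182))) (XT.nd (nat_lit 78) (nat_lit 532) (nat_lit 0) (XT.lf (nat_lit 0) (nat_lit 22790465987) (nat_lit 532) (nat_lit 5701276197) (nat_lit 608) (nat_lit 3420026464) (nat_lit 196) (nat_lit 5) (nat_lit 203) (nat_lit 5) (nat_lit 204) (nat_lit 5) (nat_lit 511) (nat_lit 448) (nat_lit 181)) (XT.lf (nat_lit 0) (nat_lit 1363097407) (nat_lit 532) (nat_lit 25229840178) (nat_lit 76) (nat_lit 5719245675) (nat_lit 189) (nat_lit 5) (nat_lit 196) (nat_lit 5) (nat_lit 190) (nat_lit 5) (nat_lit 512) (nat_lit 448) (nat_lit 180)))) (XT.nd (nat_lit 156) (nat_lit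 0) (nat_lit 76) (XT.nd (nat_lit 78) (nat_lit 0) (nat_lit 0) (XT.lf (nat_lit 0) (nat_lit 3427980737) (nat_lit 1748) (nat_lit 2333813468) (nat_lit 1748) (nat_lit 2333813468) (nat_lit 395) (nat_lit 3) (nat_lit 418) (nat_lit 3) (nat_lit 418) (nat_lit 5) (nat_lit 449) (nat_lit 449) (nat_lit 242)) (XT.lf (nat_lit 76) (nat_lit 2812936822) (nat_lit 0) (nat_lit 4374299543) (nat_lit 1748) (nat_lit 9160467669) (nat_lit 396) (nat_lit 5) (nat_lit 395) (nat_lit 3) (nat_lit 418) (nat_lit 5) (nat_lit 450) (nat_lit 449) (nat_lit 241))) (XT.nd (nat_lit 78) (nat_lit 0) (nat_lit 0) (XT.lf (nat_lit 0) (nat_lit 7569198503) (nat_lit 1672) (nat_lit 6022935352) (nat_lit 1748) (nat_lit 2914311842) (nat_lit 396) (nat_lit 5) (nat_lit 418) (nat_lit 5) (nat_lit 419) (nat_lit 5) (nat_lit 451) (nat_lit 449) (nat_lit 240)) (XT.lf (nat_lit 76) (nat_lit 1628116125) (nat_lit 0) (nat_lit 6363935845) (nat_lit 1748) (nat_lit 8675649531) (nat_lit 397)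 (nat_lit 5) (nat_lit 396) (nat_lit 5) (nat_lit 419) (nat_lit 5) (nat_lit 452) (nat_lit 449) (nat_lit 239))))))))
noncomputable def xc233 : XT := (XT.nd (nat_lit 2184) (nat_lit 10412) (nat_lit 0) (XT.nd (nat_lit 1092) (nat_lit 2964) (nat_lit 0) (XT.nd (nat_lit 546) (nat_lit 1368) (nat_lit 0) (XT.nd (nat_lit 234) (nat_lit 0) (nat_lit 76) (XT.nd (nat_lit 78) (nat_lit 0) (nat_lit 0) (XT.lf (nat_lit 0) (nat_lit 8464429187) (nat_lit 1672) (nat_lit 7327885632) (nat_lit 1748) (nat_lit 1039050533) (nat_lit 397) (nat_lit 5) (nat_lit 419) (nat_lit 5) (nat_lit 420) (nat_lit 5) (nat_lit 453) (nat_lit 449) (nat_lit 238)) (XT.nd (nat_lit 78) (nat_lit 0) (nat_lit 0) (XT.lf (nat_lit 76) (nat_lit 498991290) (nat_lit 0) (nat_lit 8486600635) (nat_lit 1748) (nat_lit 8011927978) (nat_lit 398) (nat_lit 5) (nat_lit 397) (nat_lit 5) (nat_lit 420) (nat_lit 5) (nat_lit 454) (nat_lit 449) (nat_lit 237)) (XT.lf (nat_lit 76) (nat_lit 8578303997)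 (nat_lit 0) (nat_lit 982097094) (nat_lit 1748) (nat_lit 7605736088) (nat_lit 398) (nat_lit 5) (nat_lit 397) (nat_lit 5) (nat_lit 420) (nat_lit 5) (nat_lit 455) (nat_lit 449) (nat_lit 236)))) (XT.nd (nat_lit 156) (nat_lit 0) (nat_lit 76) (XT.nd (nat_lit 78) (nat_lit 0) (nat_lit 0) (XT.lf (nat_lit 0) (nat_lit 10184210627) (nat_lit 1672) (nat_lit 565748698) (nat_lit 1748) (nat_lit 6587421413) (nat_lit 398) (nat_lit 5) (nat_lit 420) (nat_lit 5) (nat_lit 421) (nat_lit 5) (nat_lit 456) (nat_lit 449) (nat_lit 235)) (XT.lf (nat_lit 76) (nat_lit 7707930513) (nat_lit 0) (nat_lit 3163410782) (nat_lit 1748) (nat_lit 6639694913) (nat_lit 399) (nat_lit 5) (nat_lit 398) (nat_lit 5) (nat_lit 421) (nat_lit 5) (nat_lit 457) (nat_lit 449) (nat_lit 234))) (XT.nd (nat_lit 78) (nat_lit 0) (nat_lit 0) (XT.lf (nat_lit 0) (nat_lit 11600139264) (nat_lit 1672) (nat_lit 1566606665) (nat_lit 1748) (nat_lit 4520864228) (nat_lit 399) (nat_lit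 5) (nat_lit 421) (nat_lit 5) (nat_lit 422) (nat_lit 5) (nat_lit 458) (nat_lit 449) (nat_lit 233)) (XT.lf (nat_lit 76) (nat_lit 6900704265) (nat_lit 0) (nat_lit 5503072410) (nat_lit 1748) (nat_lit 5462737427) (nat_lit 400) (nat_lit 5) (nat_lit 399) (nat_lit 5) (nat_lit 422) (nat_lit 5) (nat_lit 459) (nat_lit 449) (nat_lit 232))))) (XT.nd (nat_lit 234) (nat_lit 1596) (nat_lit 0) (XT.nd (nat_lit 78) (nat_lit 0) (nat_lit 0) (XT.lf (nat_lit 0) (nat_lit 13243700165) (nat_lit 1672) (nat_lit 2508855503) (nat_lit 1748) (nat_lit 2296039905) (nat_lit 400) (nat_lit 5) (nat_lit 422) (nat_lit 5) (nat_lit 423) (nat_lit 5) (nat_lit 460) (nat_lit 449) (nat_lit 231)) (XT.nd (nat_lit 78) (nat_lit 0) (nat_lit 0) (XT.lf (nat_lit 76) (nat_lit 6158053810) (nat_lit 0) (nat_lit 8013508147) (nat_lit 1748) (nat_lit 4061337558) (nat_lit 401) (nat_lit 5) (nat_lit 400) (nat_lit 5) (nat_lit 423) (nat_lit 5) (nat_lit 461) (nat_lit 449) (nat_lit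 230)) (XT.lf (nat_lit 76) (nat_lit 15028828655) (nat_lit 0) (nat_lit 100782605) (nat_lit 1748) (nat_lit 3291049240) (nat_lit 401) (nat_lit 5) (nat_lit 400) (nat_lit 5) (nat_lit 423) (nat_lit 5) (nat_lit 462) (nat_lit 449) (nat_lit 229)))) (XT.nd (nat_lit 156) (nat_lit 1672) (nat_lit 0) (XT.nd (nat_lit 78) (nat_lit 0) (nat_lit 0) (XT.lf (nat_lit 76) (nat_lit 5481455615) (nat_lit 0) (nat_lit 10707610567) (nat_lit 1748) (nat_lit 2421469128) (nat_lit 402) (nat_lit 5) (nat_lit 401) (nat_lit 5) (nat_lit 424) (nat_lit 5) (nat_lit 463) (nat_lit 449) (nat_lit 228)) (XT.lf (nat_lit 76) (nat_lit 14574003768) (nat_lit 0) (nat_lit 2714115122) (nat_lit 1748) (nat_lit 1515723984) (nat_lit 402) (nat_lit 5) (nat_lit 401) (nat_lit 5) (nat_lit 424) (nat_lit 5) (nat_lit 464) (nat_lit 449) (nat_lit 227))) (XT.nd (nat_lit 78) (nat_lit 1748) (nat_lit 0) (XT.lf (nat_lit 76) (nat_lit 4872425316) (nat_lit 0) (nat_lit 13598770188) (nat_lit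 1748) (nat_lit 528583589) (nat_lit 403) (nat_lit 5) (nat_lit 402) (nat_lit 5) (nat_lit 425) (nat_lit 5) (nat_lit 465) (nat_lit 449) (nat_lit 226)) (XT.lf (nat_lit 0) (nat_lit 513704006) (nat_lit 1748) (nat_lit 5009855517) (nat_lit 1824) (nat_lit 13675182091) (nat_lit 379) (nat_lit 5) (nat_lit 402) (nat_lit 5) (nat_lit 403) (nat_lit 5) (nat_lit 466) (nat_lit 449) (nat_lit 225)))))) (XT.nd (nat_lit 546) (nat_lit 3040) (nat_lit 0) (XT.nd (nat_lit 234) (nat_lit 0) (nat_lit 76) (XT.nd (nat_lit 78) (nat_lit 0) (nat_lit 0) (XT.lf (nat_lit 0) (nat_lit 1611003343) (nat_lit 1748) (nat_lit 15079094060) (nat_lit 1824) (nat_lit 2710694398) (nat_lit 380) (nat_lit 5) (nat_lit 403) (nat_lit 5) (nat_lit 404) (nat_lit 5) (nat_lit 467) (nat_lit 449) (nat_lit 224)) (XT.nd (nat_lit 78) (nat_lit 0) (nat_lit 0) (XT.lf (nat_lit 0) (nat_lit 2795974797) (nat_lit 1748) (nat_lit 5738825588) (nat_lit 1824) (nat_lit 11070771190) (nat_lit 380)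 (nat_lit 5) (nat_lit 403) (nat_lit 5) (nat_lit 404) (nat_lit 5) (nat_lit 468) (nat_lit 449) (nat_lit 223)) (XT.lf (nat_lit 76) (nat_lit 3835011350) (nat_lit 0) (nat_lit 189930687) (nat_lit 1824) (nat_lit 15789102026) (nat_lit 381) (nat_lit 5) (nat_lit 380) (nat_lit 5) (nat_lit 404) (nat_lit 5) (nat_lit 469) (nat_lit 449) (nat_lit 222)))) (XT.nd (nat_lit 156) (nat_lit 0) (nat_lit 76) (XT.nd (nat_lit 78) (nat_lit 0) (nat_lit 0) (XT.lf (nat_lit 0) (nat_lit 5366756121) (nat_lit 1748) (nat_lit 6405696264) (nat_lit 1824) (nat_lit 8252471253) (nat_lit 381) (nat_lit 5) (nat_lit 404) (nat_lit 5) (nat_lit 405) (nat_lit 5) (nat_lit 470) (nat_lit 449) (nat_lit 221)) (XT.lf (nat_lit 76) (nat_lit 3398886026) (nat_lit 0) (nat_lit 3355405943) (nat_lit 1824) (nat_lit 13485354052) (nat_lit 382) (nat_lit 5) (nat_lit 381) (nat_lit 5) (nat_lit 405) (nat_lit 5) (nat_lit 471) (nat_lit 449) (nat_lit 220))) (XT.nd (nat_lit 78) (nat_lit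 0) (nat_lit 0) (XT.lf (nat_lit 0) (nat_lit 8242434960) (nat_lit 1748) (nat_lit 7009266209) (nat_lit 1824) (nat_lit 5205507426) (nat_lit 382) (nat_lit 5) (nat_lit 405) (nat_lit 5) (nat_lit 406) (nat_lit 5) (nat_lit 472) (nat_lit 449) (nat_lit 219)) (XT.lf (nat_lit 76) (nat_lit 3032870960) (nat_lit 0) (nat_lit 6765097834) (nat_lit 1824) (nat_lit 10880403881) (nat_lit 383) (nat_lit 5) (nat_lit 382) (nat_lit 5) (nat_lit 406) (nat_lit 5) (nat_lit 473) (nat_lit 449) (nat_lit 218))))) (XT.nd (nat_lit 234) (nat_lit 1824) (nat_lit 0) (XT.nd (nat_lit 78) (nat_lit 1444) (nat_lit 0) (XT.lf (nat_lit 0) (nat_lit 11440020920) (nat_lit 1748) (nat_lit 7548357074) (nat_lit 76) (nat_lit 1914476647) (nat_lit 383) (nat_lit 5) (nat_lit 406) (nat_lit 5) (nat_lit 384) (nat_lit 5) (nat_lit 474) (nat_lit 449) (nat_lit 217)) (XT.nd (nat_lit 78) (nat_lit 0) (nat_lit 0) (XT.lf (nat_lit 0) (nat_lit 2738302192) (nat_lit 1444) (nat_lit 10435056554)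 (nat_lit 1520) (nat_lit 7957301312) (nat_lit 364) (nat_lit 5) (nat_lit 383) (nat_lit 5) (nat_lit 384) (nat_lit 5) (nat_lit 475) (nat_lit 449) (nat_lit 216)) (XT.lf (nat_lit 0) (nat_lit 13329498278) (nat_lit 1444) (nat_lit 1658440581) (nat_lit 1520) (nat_lit 6374153866) (nat_lit 364) (nat_lit 5) (nat_lit 383) (nat_lit 5) (nat_lit 384) (nat_lit 5) (nat_lit 476) (nat_lit 449) (nat_lit 215)))) (XT.nd (nat_lit 156) (nat_lit 988) (nat_lit 0) (XT.nd (nat_lit 78) (nat_lit 0) (nat_lit 0) (XT.lf (nat_lit 0) (nat_lit 2516479209) (nat_lit 836) (nat_lit 14382031222) (nat_lit 912) (nat_lit 4698452217) (nat_lit 353) (nat_lit 5) (nat_lit 364) (nat_lit 5) (nat_lit 365) (nat_lit 5) (nat_lit 477) (nat_lit 449) (nat_lit 214)) (XT.lf (nat_lit 0) (nat_lit 13370778990) (nat_lit 836) (nat_lit 5537389319) (nat_lit 912) (nat_lit 2927146710) (nat_lit 353) (nat_lit 5) (nat_lit 364) (nat_lit 5) (nat_lit 365) (nat_lit 5) (nat_lit 478) (nat_lit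 449) (nat_lit 213))) (XT.nd (nat_lit 78) (nat_lit 76) (nat_lit 0) (XT.lf (nat_lit 0) (nat_lit 2368650316) (nat_lit 912) (nat_lit 18623510369) (nat_lit 988) (nat_lit 1085593426) (nat_lit 341) (nat_lit 5) (nat_lit 353) (nat_lit 5) (nat_lit 354) (nat_lit 5) (nat_lit 479) (nat_lit 449) (nat_lit 212)) (XT.lf (nat_lit 0) (nat_lit 872408859) (nat_lit 988) (nat_lit 8836415564) (nat_lit 76) (nat_lit 12614316705) (nat_lit 340) (nat_lit 5) (nat_lit 353) (nat_lit 5) (nat_lit 341) (nat_lit 5) (nat_lit 480) (nat_lit 449) (nat_lit 211))))))) (XT.nd (nat_lit 1092) (nat_lit 5016) (nat_lit 0) (XT.nd (nat_lit 546) (nat_lit 2204) (nat_lit 0) (XT.nd (nat_lit 234) (nat_lit 1520) (nat_lit 0) (XT.nd (nat_lit 78) (nat_lit 836) (nat_lit 0) (XT.lf (nat_lit 0) (nat_lit 2272861681) (nat_lit 836) (nat_lit 593185515) (nat_lit 912) (nat_lit 19707027287) (nat_lit 329) (nat_lit 5) (nat_lit 340) (nat_lit 5) (nat_lit 341) (nat_lit 5) (nat_lit 481)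 (nat_lit 449) (nat_lit 210)) (XT.nd (nat_lit 78) (nat_lit 836) (nat_lit 0) (XT.lf (nat_lit 0) (nat_lit 5012059515) (nat_lit 912) (nat_lit 9163165470) (nat_lit 76) (nat_lit 8650533805) (nat_lit 329) (nat_lit 5) (nat_lit 341) (nat_lit 5) (nat_lit 330) (nat_lit 5) (nat_lit 482) (nat_lit 449) (nat_lit 209)) (XT.lf (nat_lit 0) (nat_lit 2218317966) (nat_lit 836) (nat_lit 4997372348) (nat_lit 912) (nat_lit 15867514766) (nat_lit 318) (nat_lit 5) (nat_lit 329) (nat_lit 5) (nat_lit 330) (nat_lit 5) (nat_lit 483) (nat_lit 449) (nat_lit 208)))) (XT.nd (nat_lit 156) (nat_lit 760) (nat_lit 0) (XT.nd (nat_lit 78) (nat_lit 760) (nat_lit 0) (XT.lf (nat_lit 0) (nat_lit 9550041637) (nat_lit 912) (nat_lit 9425193815) (nat_lit 76) (nat_lit 4368834106) (nat_lit 318) (nat_lit 5) (nat_lit 330) (nat_lit 5) (nat_lit 319) (nat_lit 5) (nat_lit 484) (nat_lit 449) (nat_lit 207)) (XT.lf (nat_lit 0) (nat_lit 2236071651) (nat_lit 760) (nat_lit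 9739108637) (nat_lit 836) (nat_lit 11634091205) (nat_lit 308) (nat_lit 5) (nat_lit 318) (nat_lit 5) (nat_lit 319) (nat_lit 5) (nat_lit 485) (nat_lit 449) (nat_lit 206))) (XT.nd (nat_lit 78) (nat_lit 760) (nat_lit 0) (XT.lf (nat_lit 0) (nat_lit 14254893126) (nat_lit 760) (nat_lit 253710269) (nat_lit 836) (nat_lit 9369980572) (nat_lit 308) (nat_lit 5) (nat_lit 318) (nat_lit 5) (nat_lit 319) (nat_lit 5) (nat_lit 486) (nat_lit 449) (nat_lit 205)) (XT.lf (nat_lit 0) (nat_lit 2326720435) (nat_lit 760) (nat_lit 14838852962) (nat_lit 836) (nat_lit 6986253815) (nat_lit 298) (nat_lit 5) (nat_lit 308) (nat_lit 5) (nat_lit 309) (nat_lit 5) (nat_lit 487) (nat_lit 449) (nat_lit 204))))) (XT.nd (nat_lit 234) (nat_lit 1444) (nat_lit 0) (XT.nd (nat_lit 78) (nat_lit 760) (nat_lit 0) (XT.lf (nat_lit 0) (nat_lit 14641478346) (nat_lit 760) (nat_lit 5297099981) (nat_lit 836) (nat_lit 4490701132) (nat_lit 298) (nat_lit 5) (nat_lit 308)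 (nat_lit 5) (nat_lit 309) (nat_lit 5) (nat_lit 488) (nat_lit 449) (nat_lit 203)) (XT.nd (nat_lit 78) (nat_lit 76) (nat_lit 0) (XT.lf (nat_lit 0) (nat_lit 2490707356) (nat_lit 684) (nat_lit 20318017205) (nat_lit 760) (nat_lit 1902724579) (nat_lit 289) (nat_lit 5) (nat_lit 298) (nat_lit 5) (nat_lit 299) (nat_lit 5) (nat_lit 489) (nat_lit 449) (nat_lit 202)) (XT.lf (nat_lit 0) (nat_lit 825272651) (nat_lit 760) (nat_lit 9894220832) (nat_lit 76) (nat_lit 14277716414) (nat_lit 288) (nat_lit 5) (nat_lit 298) (nat_lit 5) (nat_lit 289) (nat_lit 5) (nat_lit 490) (nat_lit 449) (nat_lit 201)))) (XT.nd (nat_lit 156) (nat_lit 684) (nat_lit 0) (XT.nd (nat_lit 78) (nat_lit 0) (nat_lit 0) (XT.lf (nat_lit 0) (nat_lit 2698250912) (nat_lit 760) (nat_lit 898438966) (nat_lit 836) (nat_lit 21691459594) (nat_lit 278) (nat_lit 5) (nat_lit 288) (nat_lit 5) (nat_lit 289) (nat_lit 5) (nat_lit 491) (nat_lit 449) (nat_lit 200)) (XT.lf (nat_lit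 0) (nat_lit 6546412259) (nat_lit 836) (nat_lit 9969944272) (nat_lit 76) (nat_lit 9066095629) (nat_lit 278) (nat_lit 5) (nat_lit 289) (nat_lit 5) (nat_lit 279) (nat_lit 5) (nat_lit 492) (nat_lit 449) (nat_lit 199))) (XT.nd (nat_lit 78) (nat_lit 0) (nat_lit 0) (XT.lf (nat_lit 0) (nat_lit 2931565358) (nat_lit 684) (nat_lit 6645444224) (nat_lit 760) (nat_lit 16305195529) (nat_lit 269) (nat_lit 5) (nat_lit 278) (nat_lit 5) (nat_lit 279) (nat_lit 5) (nat_lit 493) (nat_lit 449) (nat_lit 198)) (XT.lf (nat_lit 0) (nat_lit 12754723674) (nat_lit 760) (nat_lit 9986412606) (nat_lit 76) (nat_lit 3445088529) (nat_lit 269) (nat_lit 5) (nat_lit 279) (nat_lit 5) (nat_lit 270) (nat_lit 5) (nat_lit 494) (nat_lit 449) (nat_lit 197)))))) (XT.nd (nat_lit 546) (nat_lit 2356) (nat_lit 0) (XT.nd (nat_lit 234) (nat_lit 1368) (nat_lit 0) (XT.nd (nat_lit 78) (nat_lit 608) (nat_lit 0) (XT.lf (nat_lit 0) (nat_lit 3232165006) (nat_lit 684) (nat_lit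 12825816600) (nat_lit 760) (nat_lit 10437105253) (nat_lit 260) (nat_lit 5) (nat_lit 269) (nat_lit 5) (nat_lit 270) (nat_lit 5) (nat_lit 495) (nat_lit 449) (nat_lit 196)) (XT.nd (nat_lit 78) (nat_lit 608) (nat_lit 0) (XT.lf (nat_lit 0) (nat_lit 16847189494) (nat_lit 684) (nat_lit 2644161474) (nat_lit 760) (nat_lit 7317495973) (nat_lit 260) (nat_lit 5) (nat_lit 269) (nat_lit 5) (nat_lit 270) (nat_lit 5) (nat_lit 496) (nat_lit 449) (nat_lit 195)) (XT.lf (nat_lit 0) (nat_lit 3599290700) (nat_lit 608) (nat_lit 19464814834) (nat_lit 684) (nat_lit 4063364014) (nat_lit 252) (nat_lit 5) (nat_lit 260) (nat_lit 5) (nat_lit 261) (nat_lit 5) (nat_lit 497) (nat_lit 449) (nat_lit 194)))) (XT.nd (nat_lit 156) (nat_lit 608) (nat_lit 0) (XT.nd (nat_lit 78) (nat_lit 760) (nat_lit 0) (XT.lf (nat_lit 0) (nat_lit 17545482244) (nat_lit 608) (nat_lit 9244200913) (nat_lit 684) (nat_lit 661155740) (nat_lit 252) (nat_lit 5) (nat_lit 260)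 (nat_lit 5) (nat_lit 261) (nat_lit 5) (nat_lit 498) (nat_lit 449) (nat_lit 193)) (XT.lf (nat_lit 0) (nat_lit 2803481181) (nat_lit 760) (nat_lit 23766622926) (nat_lit 76) (nat_lit 1209583815) (nat_lit 242) (nat_lit 5) (nat_lit 252) (nat_lit 5) (nat_lit 243) (nat_lit 5) (nat_lit 499) (nat_lit 449) (nat_lit 192))) (XT.nd (nat_lit 78) (nat_lit 608) (nat_lit 0) (XT.lf (nat_lit 0) (nat_lit 6453888890) (nat_lit 760) (nat_lit 9838972011) (nat_lit 76) (nat_lit 11819660556) (nat_lit 242) (nat_lit 5) (nat_lit 252) (nat_lit 5) (nat_lit 243) (nat_lit 5) (nat_lit 500) (nat_lit 449) (nat_lit 191)) (XT.lf (nat_lit 0) (nat_lit 4422017975) (nat_lit 608) (nat_lit 5781244920) (nat_lit 684) (nat_lit 18248231129) (nat_lit 234) (nat_lit 5) (nat_lit 242) (nat_lit 5) (nat_lit 243) (nat_lit 5) (nat_lit 501) (nat_lit 449) (nat_lit 190))))) (XT.nd (nat_lit 312) (nat_lit 1216) (nat_lit 0) (XT.nd (nat_lit 156) (nat_lit 532) (nat_lit 0) (XT.nd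 (nat_lit 78) (nat_lit 608) (nat_lit 0) (XT.lf (nat_lit 0) (nat_lit 14123441678) (nat_lit 684) (nat_lit 9730084079) (nat_lit 76) (nat_lit 4941805432) (nat_lit 234) (nat_lit 5) (nat_lit 243) (nat_lit 5) (nat_lit 235) (nat_lit 5) (nat_lit 502) (nat_lit 449) (nat_lit 189)) (XT.lf (nat_lit 0) (nat_lit 4877804959) (nat_lit 608) (nat_lit 13311506482) (nat_lit 684) (nat_lit 10955389371) (nat_lit 226) (nat_lit 5) (nat_lit 234) (nat_lit 5) (nat_lit 235) (nat_lit 5) (nat_lit 503) (nat_lit 449) (nat_lit 188))) (XT.nd (nat_lit 78) (nat_lit 532) (nat_lit 0) (XT.lf (nat_lit 0) (nat_lit 19906588865) (nat_lit 608) (nat_lit 2492566629) (nat_lit 684) (nat_lit 7100650631) (nat_lit 226) (nat_lit 5) (nat_lit 234) (nat_lit 5) (nat_lit 235) (nat_lit 5) (nat_lit 504) (nat_lit 449) (nat_lit 187)) (XT.lf (nat_lit 0) (nat_lit 5385962887) (nat_lit 532) (nat_lit 21395079304) (nat_lit 608) (nat_lit 3079215846) (nat_lit 219) (nat_lit 5) (nat_lit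 226) (nat_lit 5) (nat_lit 227) (nat_lit 5) (nat_lit 505) (nat_lit 449) (nat_lit 186)))) (XT.nd (nat_lit 156) (nat_lit 532) (nat_lit 0) (XT.nd (nat_lit 78) (nat_lit 608) (nat_lit 0) (XT.lf (nat_lit 0) (nat_lit 1087967834) (nat_lit 608) (nat_lit 9458598929) (nat_lit 76) (nat_lit 19679646133) (nat_lit 218) (nat_lit 5) (nat_lit 226) (nat_lit 5) (nat_lit 219) (nat_lit 5) (nat_lit 506) (nat_lit 449) (nat_lit 185)) (XT.lf (nat_lit 0) (nat_lit 5336912755) (nat_lit 684) (nat_lit 24690666721) (nat_lit 76) (nat_lit 570708666) (nat_lit 210) (nat_lit 5) (nat_lit 219) (nat_lit 5) (nat_lit 211) (nat_lit 5) (nat_lit 507) (nat_lit 449) (nat_lit 184))) (XT.nd (nat_lit 78) (nat_lit 532) (nat_lit 0) (XT.lf (nat_lit 0) (nat_lit 9802073688) (nat_lit 684) (nat_lit 9340545335) (nat_lit 76) (nat_lit 11832562427) (nat_lit 210) (nat_lit 5) (nat_lit 219) (nat_lit 5) (nat_lit 211) (nat_lit 5) (nat_lit 508) (nat_lit 449) (nat_lit 183)) (XT.lf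 (nat_lit 0) (nat_lit 6397418335) (nat_lit 532) (nat_lit 7998204590) (nat_lit 608) (nat_lit 16963209271) (nat_lit 203) (nat_lit 5) (nat_lit 210) (nat_lit 5) (nat_lit 211) (nat_lit 5) (nat_lit 509) (nat_lit 449) (nat_lit 182))))))))
noncomputable def xc234 : XT := (XT.nd (nat_lit 56628) (nat_lit 0) (nat_lit 2888) (XT.nd (nat_lit 55536) (nat_lit 0) (nat_lit 13908) (XT.nd (nat_lit 54990) (nat_lit 0) (nat_lit 15276) (XT.nd (nat_lit 54678) (nat_lit 0) (nat_lit 15124) (XT.nd (nat_lit 78) (nat_lit 532) (nat_lit 0) (XT.lf (nat_lit 0) (nat_lit 19163585720) (nat_lit 608) (nat_lit 9197526010) (nat_lit 76) (nat_lit 3387394625) (nat_lit 203) (nat_lit 5) (nat_lit 211) (nat_lit 5) (nat_lit 204) (nat_lit 5) (nat_lit 510) (nat_lit 449) (nat_lit 181)) (XT.nd (nat_lit 78) (nat_lit 0) (nat_lit 0) (XT.lf (nat_lit 0) (nat_lit 6916352165) (nat_lit 532) (nat_lit 17206050058) (nat_lit 608) (nat_lit 8021663110) (nat_lit 196) (nat_lit 5)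 (nat_lit 203) (nat_lit 5) (nat_lit 204) (nat_lit 5) (nat_lit 511) (nat_lit 449) (nat_lit 180)) (XT.lf (nat_lit 0) (nat_lit 23474174321) (nat_lit 532) (nat_lit 5765588763) (nat_lit 608) (nat_lit 3306586248) (nat_lit 196) (nat_lit 5) (nat_lit 203) (nat_lit 5) (nat_lit 204) (nat_lit 5) (nat_lit 512) (nat_lit 449) (nat_lit 179)))) (XT.nd (nat_lit 156) (nat_lit 0) (nat_lit 76) (XT.nd (nat_lit 78) (nat_lit 0) (nat_lit 0) (XT.lf (nat_lit 0) (nat_lit 3739405033) (nat_lit 1748) (nat_lit 2256544719) (nat_lit 1748) (nat_lit 2256544719) (nat_lit 395) (nat_lit 3) (nat_lit 418) (nat_lit 3) (nat_lit 418) (nat_lit 5) (nat_lit 450) (nat_lit 450) (nat_lit 240)) (XT.lf (nat_lit 76) (nat_lit 3115454740) (nat_lit 0) (nat_lit 4693330486) (nat_lit 1748) (nat_lit 8855987271) (nat_lit 396) (nat_lit 5) (nat_lit 395) (nat_lit 3) (nat_lit 418) (nat_lit 5) (nat_lit 451) (nat_lit 450) (nat_lit 239))) (XT.nd (nat_lit 78) (nat_lit 0) (nat_lit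 0) (XT.lf (nat_lit 0) (nat_lit 8187544032) (nat_lit 1672) (nat_lit 5890797840) (nat_lit 1748) (nat_lit 2748570433) (nat_lit 396) (nat_lit 5) (nat_lit 418) (nat_lit 5) (nat_lit 419) (nat_lit 5) (nat_lit 452) (nat_lit 450) (nat_lit 238)) (XT.lf (nat_lit 76) (nat_lit 1911612848) (nat_lit 0) (nat_lit 6699714844) (nat_lit 1748) (nat_lit 8380222406) (nat_lit 397) (nat_lit 5) (nat_lit 396) (nat_lit 5) (nat_lit 419) (nat_lit 5) (nat_lit 453) (nat_lit 450) (nat_lit 237))))) (XT.nd (nat_lit 234) (nat_lit 0) (nat_lit 76) (XT.nd (nat_lit 78) (nat_lit 0) (nat_lit 0) (XT.lf (nat_lit 0) (nat_lit 9082816752) (nat_lit 1672) (nat_lit 7217782995) (nat_lit 1748) (nat_lit 858100404) (nat_lit 397) (nat_lit 5) (nat_lit 419) (nat_lit 5) (nat_lit 420) (nat_lit 5) (nat_lit 454) (nat_lit 450) (nat_lit 236)) (XT.nd (nat_lit 78) (nat_lit 0) (nat_lit 0) (XT.lf (nat_lit 76) (nat_lit 763942910) (nat_lit 0) (nat_lit 8843309419) (nat_lit 1748)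 (nat_lit 7721074562) (nat_lit 398) (nat_lit 5) (nat_lit 397) (nat_lit 5) (nat_lit 420) (nat_lit 5) (nat_lit 455) (nat_lit 450) (nat_lit 235)) (XT.lf (nat_lit 76) (nat_lit 8999842424) (nat_lit 0) (nat_lit 1185049595) (nat_lit 1748) (nat_lit 7315603775) (nat_lit 398) (nat_lit 5) (nat_lit 397) (nat_lit 5) (nat_lit 420) (nat_lit 5) (nat_lit 456) (nat_lit 450) (nat_lit 234)))) (XT.nd (nat_lit 156) (nat_lit 0) (nat_lit 76) (XT.nd (nat_lit 78) (nat_lit 0) (nat_lit 0) (XT.lf (nat_lit 0) (nat_lit 10811515165) (nat_lit 1672) (nat_lit 322037545) (nat_lit 1748) (nat_lit 6541810617) (nat_lit 398) (nat_lit 5) (nat_lit 420) (nat_lit 5) (nat_lit 421) (nat_lit 5) (nat_lit 457) (nat_lit 450) (nat_lit 233)) (XT.lf (nat_lit 76) (nat_lit 8115437447) (nat_lit 0) (nat_lit 3390289625) (nat_lit 1748) (nat_lit 6346903801) (nat_lit 399) (nat_lit 5) (nat_lit 398) (nat_lit 5) (nat_lit 421) (nat_lit 5) (nat_lit 458) (nat_lit 450) (nat_lit 232)))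 (XT.nd (nat_lit 78) (nat_lit 0) (nat_lit 0) (XT.lf (nat_lit 0) (nat_lit 12239883894) (nat_lit 1672) (nat_lit 1340059728) (nat_lit 1748) (nat_lit 4452982645) (nat_lit 399) (nat_lit 5) (nat_lit 421) (nat_lit 5) (nat_lit 422) (nat_lit 5) (nat_lit 459) (nat_lit 450) (nat_lit 231)) (XT.lf (nat_lit 76) (nat_lit 7294900847) (nat_lit 0) (nat_lit 5758361575) (nat_lit 1748) (nat_lit 5162278017) (nat_lit 400) (nat_lit 5) (nat_lit 399) (nat_lit 5) (nat_lit 422) (nat_lit 5) (nat_lit 460) (nat_lit 450) (nat_lit 230)))))) (XT.nd (nat_lit 546) (nat_lit 0) (nat_lit 76) (XT.nd (nat_lit 234) (nat_lit 1596) (nat_lit 0) (XT.nd (nat_lit 78) (nat_lit 0) (nat_lit 0) (XT.lf (nat_lit 0) (nat_lit 13901189167) (nat_lit 1672) (nat_lit 2298807753) (nat_lit 1748) (nat_lit 2201447930) (nat_lit 400) (nat_lit 5) (nat_lit 422) (nat_lit 5) (nat_lit 423) (nat_lit 5) (nat_lit 461) (nat_lit 450) (nat_lit 229)) (XT.nd (nat_lit 78) (nat_lit 0) (nat_lit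 0) (XT.lf (nat_lit 76) (nat_lit 6539727740) (nat_lit 0) (nat_lit 8301860559) (nat_lit 1748) (nat_lit 3747972271) (nat_lit 401) (nat_lit 5) (nat_lit 400) (nat_lit 5) (nat_lit 423) (nat_lit 5) (nat_lit 462) (nat_lit 450) (nat_lit 228)) (XT.lf (nat_lit 76) (nat_lit 15582849202) (nat_lit 0) (nat_lit 228369090) (nat_lit 1748) (nat_lit 2970015286) (nat_lit 401) (nat_lit 5) (nat_lit 400) (nat_lit 5) (nat_lit 423) (nat_lit 5) (nat_lit 463) (nat_lit 450) (nat_lit 227)))) (XT.nd (nat_lit 156) (nat_lit 1672) (nat_lit 0) (XT.nd (nat_lit 78) (nat_lit 0) (nat_lit 0) (XT.lf (nat_lit 76) (nat_lit 5851459785) (nat_lit 0) (nat_lit 11033862089) (nat_lit 1748) (nat_lit 2089719914) (nat_lit 402) (nat_lit 5) (nat_lit 401) (nat_lit 5) (nat_lit 424) (nat_lit 5) (nat_lit 464) (nat_lit 450) (nat_lit 226)) (XT.lf (nat_lit 76) (nat_lit 15120753508) (nat_lit 0) (nat_lit 2878298709) (nat_lit 1748) (nat_lit 1173314349) (nat_lit 402) (nat_lit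 5) (nat_lit 401) (nat_lit 5) (nat_lit 424) (nat_lit 5) (nat_lit 465) (nat_lit 450) (nat_lit 225))) (XT.nd (nat_lit 78) (nat_lit 1748) (nat_lit 0) (XT.lf (nat_lit 76) (nat_lit 5231676413) (nat_lit 0) (nat_lit 13967953972) (nat_lit 1748) (nat_lit 172719222) (nat_lit 403) (nat_lit 5) (nat_lit 402) (nat_lit 5) (nat_lit 425) (nat_lit 5) (nat_lit 466) (nat_lit 450) (nat_lit 224)) (XT.lf (nat_lit 0) (nat_lit 878517463) (nat_lit 1748) (nat_lit 4848436438) (nat_lit 1824) (nat_lit 13848436417) (nat_lit 379) (nat_lit 5) (nat_lit 402) (nat_lit 5) (nat_lit 403) (nat_lit 5) (nat_lit 467) (nat_lit 450) (nat_lit 223))))) (XT.nd (nat_lit 234) (nat_lit 0) (nat_lit 76) (XT.nd (nat_lit 78) (nat_lit 0) (nat_lit 0) (XT.lf (nat_lit 0) (nat_lit 1991918130) (nat_lit 1748) (nat_lit 15112984369) (nat_lit 1824) (nat_lit 2676700516) (nat_lit 380) (nat_lit 5) (nat_lit 403) (nat_lit 5) (nat_lit 404) (nat_lit 5) (nat_lit 468) (nat_lit 450) (nat_lit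 222)) (XT.nd (nat_lit 78) (nat_lit 0) (nat_lit 0) (XT.lf (nat_lit 0) (nat_lit 3193751863) (nat_lit 1748) (nat_lit 5591159381) (nat_lit 1824) (nat_lit 11205708408) (nat_lit 380) (nat_lit 5) (nat_lit 403) (nat_lit 5) (nat_lit 404) (nat_lit 5) (nat_lit 469) (nat_lit 450) (nat_lit 221)) (XT.lf (nat_lit 76) (nat_lit 4172427698) (nat_lit 0) (nat_lit 269860402) (nat_lit 1824) (nat_lit 15761078133) (nat_lit 381) (nat_lit 5) (nat_lit 380) (nat_lit 5) (nat_lit 404) (nat_lit 5) (nat_lit 470) (nat_lit 450) (nat_lit 220)))) (XT.nd (nat_lit 156) (nat_lit 0) (nat_lit 76) (XT.nd (nat_lit 78) (nat_lit 0) (nat_lit 0) (XT.lf (nat_lit 0) (nat_lit 5803849016) (nat_lit 1748) (nat_lit 6270899280) (nat_lit 1824) (nat_lit 8343861240) (nat_lit 381) (nat_lit 5) (nat_lit 404) (nat_lit 5) (nat_lit 405) (nat_lit 5) (nat_lit 471) (nat_lit 450) (nat_lit 219)) (XT.lf (nat_lit 76) (nat_lit 3728044979) (nat_lit 0) (nat_lit 3486320526) (nat_lit 1824)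 (nat_lit 13423360527) (nat_lit 382) (nat_lit 5) (nat_lit 381) (nat_lit 5) (nat_lit 405) (nat_lit 5) (nat_lit 472) (nat_lit 450) (nat_lit 218))) (XT.nd (nat_lit 78) (nat_lit 0) (nat_lit 0) (XT.lf (nat_lit 0) (nat_lit 8725492897) (nat_lit 1748) (nat_lit 6886404067) (nat_lit 1824) (nat_lit 5247882642) (nat_lit 382) (nat_lit 5) (nat_lit 405) (nat_lit 5) (nat_lit 406) (nat_lit 5) (nat_lit 473) (nat_lit 450) (nat_lit 217)) (XT.lf (nat_lit 76) (nat_lit 3354845270) (nat_lit 0) (nat_lit 6952749382) (nat_lit 1824) (nat_lit 10777867267) (nat_lit 383) (nat_lit 5) (nat_lit 382) (nat_lit 5) (nat_lit 406) (nat_lit 5) (nat_lit 474) (nat_lit 450) (nat_lit 216))))))) (XT.nd (nat_lit 1092) (nat_lit 4864) (nat_lit 0) (XT.nd (nat_lit 546) (nat_lit 3192) (nat_lit 0) (XT.nd (nat_lit 234) (nat_lit 1824) (nat_lit 0) (XT.nd (nat_lit 78) (nat_lit 1444) (nat_lit 0) (XT.lf (nat_lit 0) (nat_lit 11976004274) (nat_lit 1748) (nat_lit 7436446776)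 (nat_lit 76) (nat_lit 1902116162) (nat_lit 383) (nat_lit 5) (nat_lit 406) (nat_lit 5) (nat_lit 384) (nat_lit 5) (nat_lit 475) (nat_lit 450) (nat_lit 215)) (XT.nd (nat_lit 78) (nat_lit 0) (nat_lit 0) (XT.lf (nat_lit 0) (nat_lit 3054216219) (nat_lit 1444) (nat_lit 10685464989) (nat_lit 1520) (nat_lit 7807338022) (nat_lit 364) (nat_lit 5) (nat_lit 383) (nat_lit 5) (nat_lit 384) (nat_lit 5) (nat_lit 476) (nat_lit 450) (nat_lit 214)) (XT.lf (nat_lit 0) (nat_lit 13852115677) (nat_lit 1444) (nat_lit 1732498907) (nat_lit 1520) (nat_lit 6198588594) (nat_lit 364) (nat_lit 5) (nat_lit 383) (nat_lit 5) (nat_lit 384) (nat_lit 5) (nat_lit 477) (nat_lit 450) (nat_lit 213)))) (XT.nd (nat_lit 156) (nat_lit 988) (nat_lit 0) (XT.nd (nat_lit 78) (nat_lit 0) (nat_lit 0) (XT.lf (nat_lit 0) (nat_lit 2827506635) (nat_lit 836) (nat_lit 14701501399) (nat_lit 912) (nat_lit 4493854042) (nat_lit 353) (nat_lit 5) (nat_lit 364) (nat_lit 5) (nat_lit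 365) (nat_lit 5) (nat_lit 478) (nat_lit 450) (nat_lit 212)) (XT.lf (nat_lit 0) (nat_lit 13893780689) (nat_lit 836) (nat_lit 5679342550) (nat_lit 912) (nat_lit 2692976684) (nat_lit 353) (nat_lit 5) (nat_lit 364) (nat_lit 5) (nat_lit 365) (nat_lit 5) (nat_lit 479) (nat_lit 450) (nat_lit 211))) (XT.nd (nat_lit 78) (nat_lit 76) (nat_lit 0) (XT.lf (nat_lit 0) (nat_lit 2676011667) (nat_lit 912) (nat_lit 19018649813) (nat_lit 988) (nat_lit 818812634) (nat_lit 341) (nat_lit 5) (nat_lit 353) (nat_lit 5) (nat_lit 354) (nat_lit 5) (nat_lit 480) (nat_lit 450) (nat_lit 210)) (XT.lf (nat_lit 0) (nat_lit 1168983534) (nat_lit 988) (nat_lit 8754369034) (nat_lit 76) (nat_lit 12840493990) (nat_lit 340) (nat_lit 5) (nat_lit 353) (nat_lit 5) (nat_lit 341) (nat_lit 5) (nat_lit 481) (nat_lit 450) (nat_lit 209))))) (XT.nd (nat_lit 234) (nat_lit 1520) (nat_lit 0) (XT.nd (nat_lit 78) (nat_lit 836) (nat_lit 0) (XT.lf (nat_lit 0) (nat_lit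 2575391290) (nat_lit 836) (nat_lit 623299364) (nat_lit 912) (nat_lit 19820167436) (nat_lit 329) (nat_lit 5) (nat_lit 340) (nat_lit 5) (nat_lit 341) (nat_lit 5) (nat_lit 482) (nat_lit 450) (nat_lit 208)) (XT.nd (nat_lit 78) (nat_lit 836) (nat_lit 0) (XT.lf (nat_lit 0) (nat_lit 5382108569) (nat_lit 912) (nat_lit 9088714318) (nat_lit 76) (nat_lit 8805886849) (nat_lit 329) (nat_lit 5) (nat_lit 341) (nat_lit 5) (nat_lit 330) (nat_lit 5) (nat_lit 483) (nat_lit 450) (nat_lit 207)) (XT.lf (nat_lit 0) (nat_lit 2518703297) (nat_lit 836) (nat_lit 5107480582) (nat_lit 912) (nat_lit 15913196931) (nat_lit 318) (nat_lit 5) (nat_lit 329) (nat_lit 5) (nat_lit 330) (nat_lit 5) (nat_lit 484) (nat_lit 450) (nat_lit 206)))) (XT.nd (nat_lit 156) (nat_lit 760) (nat_lit 0) (XT.nd (nat_lit 78) (nat_lit 760) (nat_lit 0) (XT.lf (nat_lit 0) (nat_lit 10001938340) (nat_lit 912) (nat_lit 9357253265) (nat_lit 76) (nat_lit 4446379880) (nat_lit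 318) (nat_lit 5) (nat_lit 330) (nat_lit 5) (nat_lit 319) (nat_lit 5) (nat_lit 485) (nat_lit 450) (nat_lit 205)) (XT.lf (nat_lit 0) (nat_lit 2535550375) (nat_lit 760) (nat_lit 9936567837) (nat_lit 836) (nat_lit 11604031646) (nat_lit 308) (nat_lit 5) (nat_lit 318) (nat_lit 5) (nat_lit 319) (nat_lit 5) (nat_lit 486) (nat_lit 450) (nat_lit 204))) (XT.nd (nat_lit 78) (nat_lit 760) (nat_lit 0) (XT.lf (nat_lit 0) (nat_lit 14789753039) (nat_lit 760) (nat_lit 261409011) (nat_lit 836) (nat_lit 9299790592) (nat_lit 308) (nat_lit 5) (nat_lit 318) (nat_lit 5) (nat_lit 319) (nat_lit 5) (nat_lit 487) (nat_lit 450) (nat_lit 203)) (XT.lf (nat_lit 0) (nat_lit 2626559424) (nat_lit 760) (nat_lit 15131391185) (nat_lit 836) (nat_lit 6871779603) (nat_lit 298) (nat_lit 5) (nat_lit 308) (nat_lit 5) (nat_lit 309) (nat_lit 5) (nat_lit 488) (nat_lit 450) (nat_lit 202)))))) (XT.nd (nat_lit 546) (nat_lit 2660) (nat_lit 0) (XT.nd (nat_lit 234)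 (nat_lit 1444) (nat_lit 0) (XT.nd (nat_lit 78) (nat_lit 760) (nat_lit 0) (XT.lf (nat_lit 0) (nat_lit 15182645738) (nat_lit 760) (nat_lit 5398886260) (nat_lit 836) (nat_lit 4331300166) (nat_lit 298) (nat_lit 5) (nat_lit 308) (nat_lit 5) (nat_lit 309) (nat_lit 5) (nat_lit 489) (nat_lit 450) (nat_lit 201)) (XT.nd (nat_lit 78) (nat_lit 76) (nat_lit 0) (XT.lf (nat_lit 0) (nat_lit 2792198496) (nat_lit 684) (nat_lit 20713755281) (nat_lit 760) (nat_lit 1694756934) (nat_lit 289) (nat_lit 5) (nat_lit 298) (nat_lit 5) (nat_lit 299) (nat_lit 5) (nat_lit 490) (nat_lit 450) (nat_lit 200)) (XT.lf (nat_lit 0) (nat_lit 1079812920) (nat_lit 760) (nat_lit 9842059105) (nat_lit 76) (nat_lit 14570380738) (nat_lit 288) (nat_lit 5) (nat_lit 298) (nat_lit 5) (nat_lit 289) (nat_lit 5) (nat_lit 491) (nat_lit 450) (nat_lit 199)))) (XT.nd (nat_lit 156) (nat_lit 684) (nat_lit 0) (XT.nd (nat_lit 78) (nat_lit 0) (nat_lit 0) (XT.lf (nat_lit 0)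 (nat_lit 3000617033) (nat_lit 760) (nat_lit 902986894) (nat_lit 836) (nat_lit 21885471052) (nat_lit 278) (nat_lit 5) (nat_lit 288) (nat_lit 5) (nat_lit 289) (nat_lit 5) (nat_lit 492) (nat_lit 450) (nat_lit 198)) (XT.lf (nat_lit 0) (nat_lit 6907798729) (nat_lit 836) (nat_lit 9921155463) (nat_lit 76) (nat_lit 9260402673) (nat_lit 278) (nat_lit 5) (nat_lit 289) (nat_lit 5) (nat_lit 279) (nat_lit 5) (nat_lit 493) (nat_lit 450) (nat_lit 197))) (XT.nd (nat_lit 78) (nat_lit 0) (nat_lit 0) (XT.lf (nat_lit 0) (nat_lit 3236751546) (nat_lit 684) (nat_lit 6759338461) (nat_lit 760) (nat_lit 16399075878) (nat_lit 269) (nat_lit 5) (nat_lit 278) (nat_lit 5) (nat_lit 279) (nat_lit 5) (nat_lit 494) (nat_lit 450) (nat_lit 196)) (XT.lf (nat_lit 0) (nat_lit 13233017842) (nat_lit 760) (nat_lit 9939949924) (nat_lit 76) (nat_lit 3532387620) (nat_lit 269) (nat_lit 5) (nat_lit 279) (nat_lit 5) (nat_lit 270) (nat_lit 5) (nat_lit 495) (nat_lit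 450) (nat_lit 195))))) (XT.nd (nat_lit 312) (nat_lit 1368) (nat_lit 0) (XT.nd (nat_lit 156) (nat_lit 608) (nat_lit 0) (XT.nd (nat_lit 78) (nat_lit 0) (nat_lit 0) (XT.lf (nat_lit 0) (nat_lit 3541379564) (nat_lit 684) (nat_lit 13058172824) (nat_lit 760) (nat_lit 10420900608) (nat_lit 260) (nat_lit 5) (nat_lit 269) (nat_lit 5) (nat_lit 270) (nat_lit 5) (nat_lit 496) (nat_lit 450) (nat_lit 194)) (XT.lf (nat_lit 0) (nat_lit 17423909026) (nat_lit 684) (nat_lit 2673358323) (nat_lit 760) (nat_lit 7243309863) (nat_lit 260) (nat_lit 5) (nat_lit 269) (nat_lit 5) (nat_lit 270) (nat_lit 5) (nat_lit 497) (nat_lit 450) (nat_lit 193))) (XT.nd (nat_lit 78) (nat_lit 0) (nat_lit 0) (XT.lf (nat_lit 0) (nat_lit 3913739422) (nat_lit 608) (nat_lit 19825225541) (nat_lit 684) (nat_lit 3926659998) (nat_lit 252) (nat_lit 5) (nat_lit 260) (nat_lit 5) (nat_lit 261) (nat_lit 5) (nat_lit 498) (nat_lit 450) (nat_lit 192)) (XT.lf (nat_lit 0) (nat_lit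 18134100623) (nat_lit 608) (nat_lit 9400765726) (nat_lit 684) (nat_lit 460681506) (nat_lit 252) (nat_lit 5) (nat_lit 260) (nat_lit 5) (nat_lit 261) (nat_lit 5) (nat_lit 499) (nat_lit 450) (nat_lit 191)))) (XT.nd (nat_lit 156) (nat_lit 608) (nat_lit 0) (XT.nd (nat_lit 78) (nat_lit 0) (nat_lit 0) (XT.lf (nat_lit 0) (nat_lit 3068061879) (nat_lit 760) (nat_lit 23998827329) (nat_lit 76) (nat_lit 1264106881) (nat_lit 242) (nat_lit 5) (nat_lit 252) (nat_lit 5) (nat_lit 243) (nat_lit 5) (nat_lit 500) (nat_lit 450) (nat_lit 190)) (XT.lf (nat_lit 0) (nat_lit 6787389290) (nat_lit 760) (nat_lit 9797390613) (nat_lit 76) (nat_lit 12085790424) (nat_lit 242) (nat_lit 5) (nat_lit 252) (nat_lit 5) (nat_lit 243) (nat_lit 5) (nat_lit 501) (nat_lit 450) (nat_lit 189))) (XT.nd (nat_lit 78) (nat_lit 0) (nat_lit 0) (XT.lf (nat_lit 0) (nat_lit 4747251010) (nat_lit 608) (nat_lit 5862028893) (nat_lit 684) (nat_lit 18407094077) (nat_lit 234)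 (nat_lit 5) (nat_lit 242) (nat_lit 5) (nat_lit 243) (nat_lit 5) (nat_lit 502) (nat_lit 450) (nat_lit 188)) (XT.lf (nat_lit 0) (nat_lit 14604124198) (nat_lit 684) (nat_lit 9688689299) (nat_lit 76) (nat_lit 5074351326) (nat_lit 234) (nat_lit 5) (nat_lit 243) (nat_lit 5) (nat_lit 235) (nat_lit 5) (nat_lit 503) (nat_lit 450) (nat_lit 187))))))))
noncomputable def xc235 : XT := (XT.nd (nat_lit 56784) (nat_lit 0) (nat_lit 3724) (XT.nd (nat_lit 55692) (nat_lit 0) (nat_lit 13376) (XT.nd (nat_lit 546) (nat_lit 0) (nat_lit 0) (XT.nd (nat_lit 234) (nat_lit 1216) (nat_lit 0) (XT.nd (nat_lit 78) (nat_lit 532) (nat_lit 0) (XT.lf (nat_lit 0) (nat_lit 5209804911) (nat_lit 608) (nat_lit 13539142068) (nat_lit 684) (nat_lit 10974624279) (nat_lit 226) (nat_lit 5) (nat_lit 234) (nat_lit 5) (nat_lit 235) (nat_lit 5) (nat_lit 504) (nat_lit 450) (nat_lit 186)) (XT.nd (nat_lit 78) (nat_lit 532) (nat_lit 0) (XT.lf (nat_lit 0) (nat_lit 20534567556)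 (nat_lit 608) (nat_lit 2504580174) (nat_lit 684) (nat_lit 7046709841) (nat_lit 226) (nat_lit 5) (nat_lit 234) (nat_lit 5) (nat_lit 235) (nat_lit 5) (nat_lit 505) (nat_lit 450) (nat_lit 185)) (XT.lf (nat_lit 0) (nat_lit 5725691581) (nat_lit 532) (nat_lit 21780962905) (nat_lit 608) (nat_lit 2946906437) (nat_lit 219) (nat_lit 5) (nat_lit 226) (nat_lit 5) (nat_lit 227) (nat_lit 5) (nat_lit 506) (nat_lit 450) (nat_lit 184)))) (XT.nd (nat_lit 156) (nat_lit 532) (nat_lit 0) (XT.nd (nat_lit 78) (nat_lit 608) (nat_lit 0) (XT.lf (nat_lit 0) (nat_lit 1297325990) (nat_lit 608) (nat_lit 9417719120) (nat_lit 76) (nat_lit 20111841602) (nat_lit 218) (nat_lit 5) (nat_lit 226) (nat_lit 5) (nat_lit 219) (nat_lit 5) (nat_lit 507) (nat_lit 450) (nat_lit 183)) (XT.lf (nat_lit 0) (nat_lit 5629335278) (nat_lit 684) (nat_lit 24952417200) (nat_lit 76) (nat_lit 624691205) (nat_lit 210) (nat_lit 5) (nat_lit 219) (nat_lit 5) (nat_lit 211)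 (nat_lit 5) (nat_lit 508) (nat_lit 450) (nat_lit 182))) (XT.nd (nat_lit 78) (nat_lit 532) (nat_lit 0) (XT.lf (nat_lit 0) (nat_lit 10180158562) (nat_lit 684) (nat_lit 9299843638) (nat_lit 76) (nat_lit 12110947367) (nat_lit 210) (nat_lit 5) (nat_lit 219) (nat_lit 5) (nat_lit 211) (nat_lit 5) (nat_lit 509) (nat_lit 450) (nat_lit 181)) (XT.lf (nat_lit 0) (nat_lit 6751382511) (nat_lit 532) (nat_lit 8112094238) (nat_lit 608) (nat_lit 17118840475) (nat_lit 203) (nat_lit 5) (nat_lit 210) (nat_lit 5) (nat_lit 211) (nat_lit 5) (nat_lit 510) (nat_lit 450) (nat_lit 180))))) (XT.nd (nat_lit 54834) (nat_lit 0) (nat_lit 14668) (XT.nd (nat_lit 54678) (nat_lit 0) (nat_lit 14592) (XT.lf (nat_lit 0) (nat_lit 19723563819) (nat_lit 608) (nat_lit 9156566452) (nat_lit 76) (nat_lit 3499721115) (nat_lit 203) (nat_lit 5) (nat_lit 211) (nat_lit 5) (nat_lit 204) (nat_lit 5) (nat_lit 511) (nat_lit 450) (nat_lit 179)) (XT.nd (nat_lit 78) (nat_lit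 0) (nat_lit 0) (XT.lf (nat_lit 0) (nat_lit 4047627082) (nat_lit 1748) (nat_lit 2182543531) (nat_lit 1748) (nat_lit 2182543531) (nat_lit 395) (nat_lit 3) (nat_lit 418) (nat_lit 3) (nat_lit 418) (nat_lit 5) (nat_lit 451) (nat_lit 451) (nat_lit 238)) (XT.lf (nat_lit 76) (nat_lit 3414460473) (nat_lit 0) (nat_lit 5009750875) (nat_lit 1748) (nat_lit 8564354852) (nat_lit 396) (nat_lit 5) (nat_lit 395) (nat_lit 3) (nat_lit 418) (nat_lit 5) (nat_lit 452) (nat_lit 451) (nat_lit 237)))) (XT.nd (nat_lit 156) (nat_lit 0) (nat_lit 76) (XT.nd (nat_lit 78) (nat_lit 0) (nat_lit 0) (XT.lf (nat_lit 0) (nat_lit 8800123786) (nat_lit 1672) (nat_lit 5765826198) (nat_lit 1748) (nat_lit 2588213462) (nat_lit 396) (nat_lit 5) (nat_lit 418) (nat_lit 5) (nat_lit 419) (nat_lit 5) (nat_lit 453) (nat_lit 451) (nat_lit 236)) (XT.lf (nat_lit 76) (nat_lit 2191035418) (nat_lit 0) (nat_lit 7034113102) (nat_lit 1748) (nat_lit 8097096255) (nat_lit 397)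 (nat_lit 5) (nat_lit 396) (nat_lit 5) (nat_lit 419) (nat_lit 5) (nat_lit 454) (nat_lit 451) (nat_lit 235))) (XT.nd (nat_lit 78) (nat_lit 0) (nat_lit 0) (XT.lf (nat_lit 0) (nat_lit 9696133007) (nat_lit 1672) (nat_lit 7115444740) (nat_lit 1748) (nat_lit 681364738) (nat_lit 397) (nat_lit 5) (nat_lit 419) (nat_lit 5) (nat_lit 420) (nat_lit 5) (nat_lit 455) (nat_lit 451) (nat_lit 234)) (XT.lf (nat_lit 76) (nat_lit 1024292697) (nat_lit 0) (nat_lit 9199891841) (nat_lit 1748) (nat_lit 7441920529) (nat_lit 398) (nat_lit 5) (nat_lit 397) (nat_lit 5) (nat_lit 420) (nat_lit 5) (nat_lit 456) (nat_lit 451) (nat_lit 233)))))) (XT.nd (nat_lit 546) (nat_lit 1368) (nat_lit 0) (XT.nd (nat_lit 234) (nat_lit 0) (nat_lit 152) (XT.nd (nat_lit 78) (nat_lit 0) (nat_lit 76) (XT.lf (nat_lit 76) (nat_lit 9420104889) (nat_lit 0) (nat_lit 1384942974) (nat_lit 1748) (nat_lit 7036841807) (nat_lit 398) (nat_lit 5) (nat_lit 397) (nat_lit 5) (nat_lit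 420) (nat_lit 5) (nat_lit 457) (nat_lit 451) (nat_lit 232)) (XT.nd (nat_lit 78) (nat_lit 0) (nat_lit 0) (XT.lf (nat_lit 0) (nat_lit 11434916101) (nat_lit 1672) (nat_lit 83355145) (nat_lit 1748) (nat_lit 6502174681) (nat_lit 398) (nat_lit 5) (nat_lit 420) (nat_lit 5) (nat_lit 421) (nat_lit 5) (nat_lit 458) (nat_lit 451) (nat_lit 231)) (XT.lf (nat_lit 76) (nat_lit 8521256695) (nat_lit 0) (nat_lit 3615352845) (nat_lit 1748) (nat_lit 6064782852) (nat_lit 399) (nat_lit 5) (nat_lit 398) (nat_lit 5) (nat_lit 421) (nat_lit 5) (nat_lit 459) (nat_lit 451) (nat_lit 230)))) (XT.nd (nat_lit 156) (nat_lit 0) (nat_lit 76) (XT.nd (nat_lit 78) (nat_lit 0) (nat_lit 0) (XT.lf (nat_lit 0) (nat_lit 12876590304) (nat_lit 1672) (nat_lit 1118995612) (nat_lit 1748) (nat_lit 4389890369) (nat_lit 399) (nat_lit 5) (nat_lit 421) (nat_lit 5) (nat_lit 422) (nat_lit 5) (nat_lit 460) (nat_lit 451) (nat_lit 229)) (XT.lf (nat_lit 76) (nat_lit 7687033482)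 (nat_lit 0) (nat_lit 6013117153) (nat_lit 1748) (nat_lit 4871719120) (nat_lit 400) (nat_lit 5) (nat_lit 399) (nat_lit 5) (nat_lit 422) (nat_lit 5) (nat_lit 461) (nat_lit 451) (nat_lit 228))) (XT.nd (nat_lit 78) (nat_lit 0) (nat_lit 0) (XT.lf (nat_lit 0) (nat_lit 14556582230) (nat_lit 1672) (nat_lit 2094663898) (nat_lit 1748) (nat_lit 2110420397) (nat_lit 400) (nat_lit 5) (nat_lit 422) (nat_lit 5) (nat_lit 423) (nat_lit 5) (nat_lit 462) (nat_lit 451) (nat_lit 227)) (XT.lf (nat_lit 76) (nat_lit 6918996779) (nat_lit 0) (nat_lit 8591006429) (nat_lit 1748) (nat_lit 3443662169) (nat_lit 401) (nat_lit 5) (nat_lit 400) (nat_lit 5) (nat_lit 423) (nat_lit 5) (nat_lit 463) (nat_lit 451) (nat_lit 226))))) (XT.nd (nat_lit 234) (nat_lit 1596) (nat_lit 0) (XT.nd (nat_lit 78) (nat_lit 0) (nat_lit 76) (XT.lf (nat_lit 76) (nat_lit 16138108622) (nat_lit 0) (nat_lit 353631235) (nat_lit 1748) (nat_lit 2657582701) (nat_lit 401) (nat_lit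 5) (nat_lit 400) (nat_lit 5) (nat_lit 423) (nat_lit 5) (nat_lit 464) (nat_lit 451) (nat_lit 225)) (XT.nd (nat_lit 78) (nat_lit 0) (nat_lit 0) (XT.lf (nat_lit 76) (nat_lit 6218753357) (nat_lit 0) (nat_lit 11362285688) (nat_lit 1748) (nat_lit 1766098514) (nat_lit 402) (nat_lit 5) (nat_lit 401) (nat_lit 5) (nat_lit 424) (nat_lit 5) (nat_lit 465) (nat_lit 451) (nat_lit 224)) (XT.lf (nat_lit 76) (nat_lit 15668525810) (nat_lit 0) (nat_lit 3041498367) (nat_lit 1748) (nat_lit 838529853) (nat_lit 402) (nat_lit 5) (nat_lit 401) (nat_lit 5) (nat_lit 424) (nat_lit 5) (nat_lit 466) (nat_lit 451) (nat_lit 223)))) (XT.nd (nat_lit 156) (nat_lit 0) (nat_lit 76) (XT.nd (nat_lit 78) (nat_lit 0) (nat_lit 0) (XT.lf (nat_lit 0) (nat_lit 173724565) (nat_lit 1748) (nat_lit 14165856363) (nat_lit 1824) (nat_lit 5413056068) (nat_lit 379) (nat_lit 5) (nat_lit 402) (nat_lit 5) (nat_lit 403) (nat_lit 5) (nat_lit 467) (nat_lit 451) (nat_lit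 222)) (XT.lf (nat_lit 0) (nat_lit 1236859992) (nat_lit 1748) (nat_lit 4693947853) (nat_lit 1824) (nat_lit 14029048631) (nat_lit 379) (nat_lit 5) (nat_lit 402) (nat_lit 5) (nat_lit 403) (nat_lit 5) (nat_lit 468) (nat_lit 451) (nat_lit 221))) (XT.nd (nat_lit 78) (nat_lit 0) (nat_lit 0) (XT.lf (nat_lit 0) (nat_lit 2366910973) (nat_lit 1748) (nat_lit 15157947274) (nat_lit 1824) (nat_lit 2645451971) (nat_lit 380) (nat_lit 5) (nat_lit 403) (nat_lit 5) (nat_lit 404) (nat_lit 5) (nat_lit 469) (nat_lit 451) (nat_lit 220)) (XT.lf (nat_lit 0) (nat_lit 3586209723) (nat_lit 1748) (nat_lit 5450730822) (nat_lit 1824) (nat_lit 11346702425) (nat_lit 380) (nat_lit 5) (nat_lit 403) (nat_lit 5) (nat_lit 404) (nat_lit 5) (nat_lit 470) (nat_lit 451) (nat_lit 219))))))) (XT.nd (nat_lit 1092) (nat_lit 5852) (nat_lit 0) (XT.nd (nat_lit 546) (nat_lit 2660) (nat_lit 0) (XT.nd (nat_lit 234) (nat_lit 1216) (nat_lit 0) (XT.nd (nat_lit 78) (nat_lit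 0) (nat_lit 76) (XT.lf (nat_lit 76) (nat_lit 4506468449) (nat_lit 0) (nat_lit 348432447) (nat_lit 1824) (nat_lit 15745844165) (nat_lit 381) (nat_lit 5) (nat_lit 380) (nat_lit 5) (nat_lit 404) (nat_lit 5) (nat_lit 471) (nat_lit 451) (nat_lit 218)) (XT.nd (nat_lit 78) (nat_lit 0) (nat_lit 0) (XT.lf (nat_lit 0) (nat_lit 6236878873) (nat_lit 1748) (nat_lit 6143615508) (nat_lit 1824) (nat_lit 8439939312) (nat_lit 381) (nat_lit 5) (nat_lit 404) (nat_lit 5) (nat_lit 405) (nat_lit 5) (nat_lit 472) (nat_lit 451) (nat_lit 217)) (XT.lf (nat_lit 76) (nat_lit 4053645125) (nat_lit 0) (nat_lit 3617375718) (nat_lit 1824) (nat_lit 13373007471) (nat_lit 382) (nat_lit 5) (nat_lit 381) (nat_lit 5) (nat_lit 405) (nat_lit 5) (nat_lit 473) (nat_lit 451) (nat_lit 216)))) (XT.nd (nat_lit 156) (nat_lit 1368) (nat_lit 0) (XT.nd (nat_lit 78) (nat_lit 0) (nat_lit 0) (XT.lf (nat_lit 0) (nat_lit 9205855539) (nat_lit 1748) (nat_lit 6771299135)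 (nat_lit 1824) (nat_lit 5293502606) (nat_lit 382) (nat_lit 5) (nat_lit 405) (nat_lit 5) (nat_lit 406) (nat_lit 5) (nat_lit 474) (nat_lit 451) (nat_lit 215)) (XT.lf (nat_lit 76) (nat_lit 3673111813) (nat_lit 0) (nat_lit 7142121163) (nat_lit 1824) (nat_lit 10685711529) (nat_lit 383) (nat_lit 5) (nat_lit 382) (nat_lit 5) (nat_lit 406) (nat_lit 5) (nat_lit 475) (nat_lit 451) (nat_lit 214))) (XT.nd (nat_lit 78) (nat_lit 1444) (nat_lit 0) (XT.lf (nat_lit 0) (nat_lit 12510779008) (nat_lit 1748) (nat_lit 7332506123) (nat_lit 76) (nat_lit 1891475270) (nat_lit 383) (nat_lit 5) (nat_lit 406) (nat_lit 5) (nat_lit 384) (nat_lit 5) (nat_lit 476) (nat_lit 451) (nat_lit 213)) (XT.lf (nat_lit 0) (nat_lit 3366307831) (nat_lit 1444) (nat_lit 10939262048) (nat_lit 1520) (nat_lit 7666378558) (nat_lit 364) (nat_lit 5) (nat_lit 383) (nat_lit 5) (nat_lit 384) (nat_lit 5) (nat_lit 477) (nat_lit 451) (nat_lit 212))))) (XT.nd (nat_lit 234)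 (nat_lit 1824) (nat_lit 0) (XT.nd (nat_lit 78) (nat_lit 836) (nat_lit 0) (XT.lf (nat_lit 0) (nat_lit 14375243568) (nat_lit 1444) (nat_lit 1806450610) (nat_lit 1520) (nat_lit 6031279753) (nat_lit 364) (nat_lit 5) (nat_lit 383) (nat_lit 5) (nat_lit 384) (nat_lit 5) (nat_lit 478) (nat_lit 451) (nat_lit 211)) (XT.nd (nat_lit 78) (nat_lit 0) (nat_lit 0) (XT.lf (nat_lit 0) (nat_lit 3134631393) (nat_lit 836) (nat_lit 15026125000) (nat_lit 912) (nat_lit 4296757633) (nat_lit 353) (nat_lit 5) (nat_lit 364) (nat_lit 5) (nat_lit 365) (nat_lit 5) (nat_lit 479) (nat_lit 451) (nat_lit 210)) (XT.lf (nat_lit 0) (nat_lit 14417317701) (nat_lit 836) (nat_lit 5822923100) (nat_lit 912) (nat_lit 2465489660) (nat_lit 353) (nat_lit 5) (nat_lit 364) (nat_lit 5) (nat_lit 365) (nat_lit 5) (nat_lit 480) (nat_lit 451) (nat_lit 209)))) (XT.nd (nat_lit 156) (nat_lit 836) (nat_lit 0) (XT.nd (nat_lit 78) (nat_lit 76) (nat_lit 0) (XT.lf (nat_lit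 0) (nat_lit 2979424581) (nat_lit 912) (nat_lit 19420811773) (nat_lit 988) (nat_lit 557898748) (nat_lit 341) (nat_lit 5) (nat_lit 353) (nat_lit 5) (nat_lit 354) (nat_lit 5) (nat_lit 481) (nat_lit 451) (nat_lit 208)) (XT.lf (nat_lit 0) (nat_lit 1460650880) (nat_lit 988) (nat_lit 8680730117) (nat_lit 76) (nat_lit 13072208667) (nat_lit 340) (nat_lit 5) (nat_lit 353) (nat_lit 5) (nat_lit 341) (nat_lit 5) (nat_lit 482) (nat_lit 451) (nat_lit 207))) (XT.nd (nat_lit 78) (nat_lit 0) (nat_lit 0) (XT.lf (nat_lit 0) (nat_lit 2873989056) (nat_lit 836) (nat_lit 653306814) (nat_lit 912) (nat_lit 19946481975) (nat_lit 329) (nat_lit 5) (nat_lit 340) (nat_lit 5) (nat_lit 341) (nat_lit 5) (nat_lit 483) (nat_lit 451) (nat_lit 206)) (XT.lf (nat_lit 0) (nat_lit 5749081636) (nat_lit 912) (nat_lit 9022781509) (nat_lit 76) (nat_lit 8965032622) (nat_lit 329) (nat_lit 5) (nat_lit 341) (nat_lit 5) (nat_lit 330) (nat_lit 5) (nat_lit 484) (nat_lit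 451) (nat_lit 205)))))) (XT.nd (nat_lit 546) (nat_lit 2812) (nat_lit 0) (XT.nd (nat_lit 234) (nat_lit 1444) (nat_lit 0) (XT.nd (nat_lit 78) (nat_lit 760) (nat_lit 0) (XT.lf (nat_lit 0) (nat_lit 2815154806) (nat_lit 836) (nat_lit 5219396424) (nat_lit 912) (nat_lit 15970341944) (nat_lit 318) (nat_lit 5) (nat_lit 329) (nat_lit 5) (nat_lit 330) (nat_lit 5) (nat_lit 485) (nat_lit 451) (nat_lit 204)) (XT.nd (nat_lit 78) (nat_lit 760) (nat_lit 0) (XT.lf (nat_lit 0) (nat_lit 10452742073) (nat_lit 912) (nat_lit 9297911955) (nat_lit 76) (nat_lit 4525858315) (nat_lit 318) (nat_lit 5) (nat_lit 330) (nat_lit 5) (nat_lit 319) (nat_lit 5) (nat_lit 486) (nat_lit 451) (nat_lit 203)) (XT.lf (nat_lit 0) (nat_lit 2831126137) (nat_lit 760) (nat_lit 10137872269) (nat_lit 836) (nat_lit 11583573464) (nat_lit 308) (nat_lit 5) (nat_lit 318) (nat_lit 5) (nat_lit 319) (nat_lit 5) (nat_lit 487) (nat_lit 451) (nat_lit 202)))) (XT.nd (nat_lit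 156) (nat_lit 684) (nat_lit 0) (XT.nd (nat_lit 78) (nat_lit 760) (nat_lit 0) (XT.lf (nat_lit 0) (nat_lit 15325611585) (nat_lit 760) (nat_lit 269159814) (nat_lit 836) (nat_lit 9238199330) (nat_lit 308) (nat_lit 5) (nat_lit 318) (nat_lit 5) (nat_lit 319) (nat_lit 5) (nat_lit 488) (nat_lit 451) (nat_lit 201)) (XT.lf (nat_lit 0) (nat_lit 2922559068) (nat_lit 760) (nat_lit 15429944773) (nat_lit 836) (nat_lit 6764886775) (nat_lit 298) (nat_lit 5) (nat_lit 308) (nat_lit 5) (nat_lit 309) (nat_lit 5) (nat_lit 489) (nat_lit 451) (nat_lit 200))) (XT.nd (nat_lit 78) (nat_lit 684) (nat_lit 0) (XT.lf (nat_lit 0) (nat_lit 15724993217) (nat_lit 760) (nat_lit 5502869636) (nat_lit 836) (nat_lit 4178388503) (nat_lit 298) (nat_lit 5) (nat_lit 308) (nat_lit 5) (nat_lit 309) (nat_lit 5) (nat_lit 490) (nat_lit 451) (nat_lit 199)) (XT.lf (nat_lit 0) (nat_lit 3089946535) (nat_lit 684) (nat_lit 21117820595) (nat_lit 760) (nat_lit 1492183275)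 (nat_lit 289) (nat_lit 5) (nat_lit 298) (nat_lit 5) (nat_lit 299) (nat_lit 5) (nat_lit 491) (nat_lit 451) (nat_lit 198))))) (XT.nd (nat_lit 312) (nat_lit 1292) (nat_lit 0) (XT.nd (nat_lit 156) (nat_lit 684) (nat_lit 0) (XT.nd (nat_lit 78) (nat_lit 760) (nat_lit 0) (XT.lf (nat_lit 0) (nat_lit 1330200813) (nat_lit 760) (nat_lit 9798563741) (nat_lit 76) (nat_lit 14868622258) (nat_lit 288) (nat_lit 5) (nat_lit 298) (nat_lit 5) (nat_lit 289) (nat_lit 5) (nat_lit 492) (nat_lit 451) (nat_lit 197)) (XT.lf (nat_lit 0) (nat_lit 3299384759) (nat_lit 760) (nat_lit 908146929) (nat_lit 836) (nat_lit 22092675153) (nat_lit 278) (nat_lit 5) (nat_lit 288) (nat_lit 5) (nat_lit 289) (nat_lit 5) (nat_lit 493) (nat_lit 451) (nat_lit 196))) (XT.nd (nat_lit 78) (nat_lit 684) (nat_lit 0) (XT.lf (nat_lit 0) (nat_lit 7267463954) (nat_lit 836) (nat_lit 9881028308) (nat_lit 76) (nat_lit 9458091629) (nat_lit 278) (nat_lit 5) (nat_lit 289) (nat_lit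 5) (nat_lit 279) (nat_lit 5) (nat_lit 494) (nat_lit 451) (nat_lit 195)) (XT.lf (nat_lit 0) (nat_lit 3538467431) (nat_lit 684) (nat_lit 6876248945) (nat_lit 760) (nat_lit 16503851358) (nat_lit 269) (nat_lit 5) (nat_lit 278) (nat_lit 5) (nat_lit 279) (nat_lit 5) (nat_lit 495) (nat_lit 451) (nat_lit 194)))) (XT.nd (nat_lit 156) (nat_lit 608) (nat_lit 0) (XT.nd (nat_lit 78) (nat_lit 684) (nat_lit 0) (XT.lf (nat_lit 0) (nat_lit 13712210778) (nat_lit 760) (nat_lit 9902117881) (nat_lit 76) (nat_lit 3620718303) (nat_lit 269) (nat_lit 5) (nat_lit 279) (nat_lit 5) (nat_lit 270) (nat_lit 5) (nat_lit 496) (nat_lit 451) (nat_lit 193)) (XT.lf (nat_lit 0) (nat_lit 3847281413) (nat_lit 684) (nat_lit 13296114339) (nat_lit 760) (nat_lit 10413106826) (nat_lit 260) (nat_lit 5) (nat_lit 269) (nat_lit 5) (nat_lit 270) (nat_lit 5) (nat_lit 497) (nat_lit 451) (nat_lit 192))) (XT.nd (nat_lit 78) (nat_lit 608) (nat_lit 0) (XT.lf (nat_lit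 0) (nat_lit 18002852165) (nat_lit 684) (nat_lit 2704058880) (nat_lit 760) (nat_lit 7176203713) (nat_lit 260) (nat_lit 5) (nat_lit 269) (nat_lit 5) (nat_lit 270) (nat_lit 5) (nat_lit 498) (nat_lit 451) (nat_lit 191)) (XT.lf (nat_lit 0) (nat_lit 4225061988) (nat_lit 608) (nat_lit 20193966125) (nat_lit 684) (nat_lit 3795685993) (nat_lit 252) (nat_lit 5) (nat_lit 260) (nat_lit 5) (nat_lit 261) (nat_lit 5) (nat_lit 499) (nat_lit 451) (nat_lit 190))))))))
noncomputable def xc236 : XT := (XT.nd (nat_lit 56862) (nat_lit 0) (nat_lit 5016) (XT.nd (nat_lit 55770) (nat_lit 0) (nat_lit 14668) (XT.nd (nat_lit 546) (nat_lit 1748) (nat_lit 0) (XT.nd (nat_lit 234) (nat_lit 1216) (nat_lit 0) (XT.nd (nat_lit 78) (nat_lit 760) (nat_lit 0) (XT.lf (nat_lit 0) (nat_lit 18725260848) (nat_lit 608) (nat_lit 9561561504) (nat_lit 684) (nat_lit 264495916) (nat_lit 252) (nat_lit 5) (nat_lit 260) (nat_lit 5) (nat_lit 261) (nat_lit 5) (nat_lit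 500) (nat_lit 451) (nat_lit 189)) (XT.nd (nat_lit 78) (nat_lit 0) (nat_lit 0) (XT.lf (nat_lit 0) (nat_lit 3329837452) (nat_lit 760) (nat_lit 24245116779) (nat_lit 76) (nat_lit 1318542604) (nat_lit 242) (nat_lit 5) (nat_lit 252) (nat_lit 5) (nat_lit 243) (nat_lit 5) (nat_lit 501) (nat_lit 451) (nat_lit 188)) (XT.lf (nat_lit 0) (nat_lit 7119621717) (nat_lit 760) (nat_lit 9764233428) (nat_lit 76) (nat_lit 12356088179) (nat_lit 242) (nat_lit 5) (nat_lit 252) (nat_lit 5) (nat_lit 243) (nat_lit 5) (nat_lit 502) (nat_lit 451) (nat_lit 187)))) (XT.nd (nat_lit 156) (nat_lit 608) (nat_lit 0) (XT.nd (nat_lit 78) (nat_lit 0) (nat_lit 0) (XT.lf (nat_lit 0) (nat_lit 5069793757) (nat_lit 608) (nat_lit 5945781461) (nat_lit 684) (nat_lit 18577137462) (nat_lit 234) (nat_lit 5) (nat_lit 242) (nat_lit 5) (nat_lit 243) (nat_lit 5) (nat_lit 503) (nat_lit 451) (nat_lit 186)) (XT.lf (nat_lit 0) (nat_lit 15086723489) (nat_lit 684) (nat_lit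 9655630655) (nat_lit 76) (nat_lit 5208239145) (nat_lit 234) (nat_lit 5) (nat_lit 243) (nat_lit 5) (nat_lit 235) (nat_lit 5) (nat_lit 504) (nat_lit 451) (nat_lit 185))) (XT.nd (nat_lit 78) (nat_lit 0) (nat_lit 0) (XT.lf (nat_lit 0) (nat_lit 5539341121) (nat_lit 608) (nat_lit 13772829039) (nat_lit 684) (nat_lit 11002005193) (nat_lit 226) (nat_lit 5) (nat_lit 234) (nat_lit 5) (nat_lit 235) (nat_lit 5) (nat_lit 505) (nat_lit 451) (nat_lit 184)) (XT.lf (nat_lit 0) (nat_lit 21166180586) (nat_lit 608) (nat_lit 2518303277) (nat_lit 684) (nat_lit 6999299360) (nat_lit 226) (nat_lit 5) (nat_lit 234) (nat_lit 5) (nat_lit 235) (nat_lit 5) (nat_lit 506) (nat_lit 451) (nat_lit 183))))) (XT.nd (nat_lit 234) (nat_lit 532) (nat_lit 0) (XT.nd (nat_lit 78) (nat_lit 684) (nat_lit 0) (XT.lf (nat_lit 0) (nat_lit 6063205640) (nat_lit 532) (nat_lit 22176195788) (nat_lit 608) (nat_lit 2819479970) (nat_lit 219) (nat_lit 5) (nat_lit 226)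 (nat_lit 5) (nat_lit 227) (nat_lit 5) (nat_lit 507) (nat_lit 451) (nat_lit 182)) (XT.nd (nat_lit 78) (nat_lit 608) (nat_lit 0) (XT.lf (nat_lit 0) (nat_lit 1503586619) (nat_lit 608) (nat_lit 9384954905) (nat_lit 76) (nat_lit 20551181996) (nat_lit 218) (nat_lit 5) (nat_lit 226) (nat_lit 5) (nat_lit 219) (nat_lit 5) (nat_lit 508) (nat_lit 451) (nat_lit 181)) (XT.lf (nat_lit 0) (nat_lit 5920395905) (nat_lit 684) (nat_lit 25228413972) (nat_lit 76) (nat_lit 678100413) (nat_lit 210) (nat_lit 5) (nat_lit 219) (nat_lit 5) (nat_lit 211) (nat_lit 5) (nat_lit 509) (nat_lit 451) (nat_lit 180)))) (XT.nd (nat_lit 54834) (nat_lit 0) (nat_lit 14592) (XT.nd (nat_lit 78) (nat_lit 532) (nat_lit 0) (XT.lf (nat_lit 0) (nat_lit 10558736166) (nat_lit 684) (nat_lit 9267162499) (nat_lit 76) (nat_lit 12393279436) (nat_lit 210) (nat_lit 5) (nat_lit 219) (nat_lit 5) (nat_lit 211) (nat_lit 5) (nat_lit 510) (nat_lit 451) (nat_lit 179)) (XT.lf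 (nat_lit 0) (nat_lit 7103649502) (nat_lit 532) (nat_lit 8230050807) (nat_lit 608) (nat_lit 17284714995) (nat_lit 203) (nat_lit 5) (nat_lit 210) (nat_lit 5) (nat_lit 211) (nat_lit 5) (nat_lit 511) (nat_lit 451) (nat_lit 178))) (XT.nd (nat_lit 78) (nat_lit 0) (nat_lit 0) (XT.lf (nat_lit 0) (nat_lit 4352949048) (nat_lit 1748) (nat_lit 2111688363) (nat_lit 1748) (nat_lit 2111688363) (nat_lit 395) (nat_lit 3) (nat_lit 418) (nat_lit 3) (nat_lit 418) (nat_lit 5) (nat_lit 452) (nat_lit 452) (nat_lit 236)) (XT.lf (nat_lit 76) (nat_lit 3710255100) (nat_lit 0) (nat_lit 5323857637) (nat_lit 1748) (nat_lit 8285092003) (nat_lit 396) (nat_lit 5) (nat_lit 395) (nat_lit 3) (nat_lit 418) (nat_lit 5) (nat_lit 453) (nat_lit 452) (nat_lit 235)))))) (XT.nd (nat_lit 546) (nat_lit 0) (nat_lit 228) (XT.nd (nat_lit 234) (nat_lit 0) (nat_lit 76) (XT.nd (nat_lit 78) (nat_lit 0) (nat_lit 0) (XT.lf (nat_lit 0) (nat_lit 9407526562) (nat_lit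 1672) (nat_lit 5647782861) (nat_lit 1748) (nat_lit 2433010816) (nat_lit 396) (nat_lit 5) (nat_lit 418) (nat_lit 5) (nat_lit 419) (nat_lit 5) (nat_lit 454) (nat_lit 452) (nat_lit 234)) (XT.nd (nat_lit 78) (nat_lit 0) (nat_lit 76) (XT.lf (nat_lit 76) (nat_lit 2466680725) (nat_lit 0) (nat_lit 7367417395) (nat_lit 1748) (nat_lit 7825809999) (nat_lit 397) (nat_lit 5) (nat_lit 396) (nat_lit 5) (nat_lit 419) (nat_lit 5) (nat_lit 455) (nat_lit 452) (nat_lit 233)) (XT.lf (nat_lit 0) (nat_lit 10304953707) (nat_lit 1672) (nat_lit 7020639145) (nat_lit 1748) (nat_lit 508623642) (nat_lit 397) (nat_lit 5) (nat_lit 419) (nat_lit 5) (nat_lit 420) (nat_lit 5) (nat_lit 456) (nat_lit 452) (nat_lit 232)))) (XT.nd (nat_lit 156) (nat_lit 0) (nat_lit 76) (XT.nd (nat_lit 78) (nat_lit 0) (nat_lit 0) (XT.lf (nat_lit 76) (nat_lit 1280333076) (nat_lit 0) (nat_lit 9556627312) (nat_lit 1748) (nat_lit 7174019681) (nat_lit 398) (nat_lit 5) (nat_lit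 397) (nat_lit 5) (nat_lit 420) (nat_lit 5) (nat_lit 457) (nat_lit 452) (nat_lit 231)) (XT.lf (nat_lit 76) (nat_lit 9839442797) (nat_lit 0) (nat_lit 1581992455) (nat_lit 1748) (nat_lit 6769010743) (nat_lit 398) (nat_lit 5) (nat_lit 397) (nat_lit 5) (nat_lit 420) (nat_lit 5) (nat_lit 458) (nat_lit 452) (nat_lit 230))) (XT.nd (nat_lit 78) (nat_lit 0) (nat_lit 0) (XT.lf (nat_lit 76) (nat_lit 152583634) (nat_lit 0) (nat_lit 11903381164) (nat_lit 1748) (nat_lit 6316772707) (nat_lit 399) (nat_lit 5) (nat_lit 398) (nat_lit 5) (nat_lit 421) (nat_lit 5) (nat_lit 459) (nat_lit 452) (nat_lit 229)) (XT.lf (nat_lit 76) (nat_lit 8925736518) (nat_lit 0) (nat_lit 3838810831) (nat_lit 1748) (nat_lit 5792903744) (nat_lit 399) (nat_lit 5) (nat_lit 398) (nat_lit 5) (nat_lit 421) (nat_lit 5) (nat_lit 460) (nat_lit 452) (nat_lit 228))))) (XT.nd (nat_lit 234) (nat_lit 0) (nat_lit 76) (XT.nd (nat_lit 78) (nat_lit 0) (nat_lit 0) (XT.lf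 (nat_lit 0) (nat_lit 13510812549) (nat_lit 1672) (nat_lit 903135125) (nat_lit 1748) (nat_lit 4331444492) (nat_lit 399) (nat_lit 5) (nat_lit 421) (nat_lit 5) (nat_lit 422) (nat_lit 5) (nat_lit 461) (nat_lit 452) (nat_lit 227)) (XT.nd (nat_lit 78) (nat_lit 0) (nat_lit 76) (XT.lf (nat_lit 76) (nat_lit 8077447180) (nat_lit 0) (nat_lit 6267547458) (nat_lit 1748) (nat_lit 4590640951) (nat_lit 400) (nat_lit 5) (nat_lit 399) (nat_lit 5) (nat_lit 422) (nat_lit 5) (nat_lit 462) (nat_lit 452) (nat_lit 226)) (XT.lf (nat_lit 0) (nat_lit 15210429446) (nat_lit 1672) (nat_lit 1896149630) (nat_lit 1748) (nat_lit 2022816722) (nat_lit 400) (nat_lit 5) (nat_lit 422) (nat_lit 5) (nat_lit 423) (nat_lit 5) (nat_lit 463) (nat_lit 452) (nat_lit 225)))) (XT.nd (nat_lit 156) (nat_lit 0) (nat_lit 76) (XT.nd (nat_lit 78) (nat_lit 0) (nat_lit 0) (XT.lf (nat_lit 76) (nat_lit 7296202632) (nat_lit 0) (nat_lit 8881154758) (nat_lit 1748) (nat_lit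 3147993363) (nat_lit 401) (nat_lit 5) (nat_lit 400) (nat_lit 5) (nat_lit 423) (nat_lit 5) (nat_lit 464) (nat_lit 452) (nat_lit 224)) (XT.lf (nat_lit 76) (nat_lit 16695013851) (nat_lit 0) (nat_lit 476711899) (nat_lit 1748) (nat_lit 2353340189) (nat_lit 401) (nat_lit 5) (nat_lit 400) (nat_lit 5) (nat_lit 423) (nat_lit 5) (nat_lit 465) (nat_lit 452) (nat_lit 223))) (XT.nd (nat_lit 78) (nat_lit 0) (nat_lit 0) (XT.lf (nat_lit 76) (nat_lit 6583674730) (nat_lit 0) (nat_lit 11693093837) (nat_lit 1748) (nat_lit 1450194226) (nat_lit 402) (nat_lit 5) (nat_lit 401) (nat_lit 5) (nat_lit 424) (nat_lit 5) (nat_lit 466) (nat_lit 452) (nat_lit 222)) (XT.lf (nat_lit 76) (nat_lit 16217726038) (nat_lit 0) (nat_lit 3203860134) (nat_lit 1748) (nat_lit 510960981) (nat_lit 402) (nat_lit 5) (nat_lit 401) (nat_lit 5) (nat_lit 424) (nat_lit 5) (nat_lit 467) (nat_lit 452) (nat_lit 221))))))) (XT.nd (nat_lit 1092) (nat_lit 6384) (nat_lit 0)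 (XT.nd (nat_lit 546) (nat_lit 1976) (nat_lit 0) (XT.nd (nat_lit 234) (nat_lit 0) (nat_lit 76) (XT.nd (nat_lit 78) (nat_lit 0) (nat_lit 0) (XT.lf (nat_lit 0) (nat_lit 511289429) (nat_lit 1748) (nat_lit 14202646712) (nat_lit 1824) (nat_lit 5426850020) (nat_lit 379) (nat_lit 5) (nat_lit 402) (nat_lit 5) (nat_lit 403) (nat_lit 5) (nat_lit 468) (nat_lit 452) (nat_lit 220)) (XT.nd (nat_lit 78) (nat_lit 0) (nat_lit 76) (XT.lf (nat_lit 0) (nat_lit 1589136773) (nat_lit 1748) (nat_lit 4546133891) (nat_lit 1824) (nat_lit 14217014732) (nat_lit 379) (nat_lit 5) (nat_lit 402) (nat_lit 5) (nat_lit 403) (nat_lit 5) (nat_lit 469) (nat_lit 452) (nat_lit 219)) (XT.lf (nat_lit 0) (nat_lit 2736389215) (nat_lit 1748) (nat_lit 15213800585) (nat_lit 1824) (nat_lit 2616870666) (nat_lit 380) (nat_lit 5) (nat_lit 403) (nat_lit 5) (nat_lit 404) (nat_lit 5) (nat_lit 470) (nat_lit 452) (nat_lit 218)))) (XT.nd (nat_lit 156) (nat_lit 0) (nat_lit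 76) (XT.nd (nat_lit 78) (nat_lit 0) (nat_lit 0) (XT.lf (nat_lit 0) (nat_lit 3973757469) (nat_lit 1748) (nat_lit 5317288934) (nat_lit 1824) (nat_lit 11493743978) (nat_lit 380) (nat_lit 5) (nat_lit 403) (nat_lit 5) (nat_lit 404) (nat_lit 5) (nat_lit 471) (nat_lit 452) (nat_lit 217)) (XT.lf (nat_lit 76) (nat_lit 4837459214) (nat_lit 0) (nat_lit 425734465) (nat_lit 1824) (nat_lit 15743137509) (nat_lit 381) (nat_lit 5) (nat_lit 380) (nat_lit 5) (nat_lit 404) (nat_lit 5) (nat_lit 472) (nat_lit 452) (nat_lit 216))) (XT.nd (nat_lit 78) (nat_lit 0) (nat_lit 0) (XT.lf (nat_lit 0) (nat_lit 6666261661) (nat_lit 1748) (nat_lit 6023598778) (nat_lit 1824) (nat_lit 8540688162) (nat_lit 381) (nat_lit 5) (nat_lit 404) (nat_lit 5) (nat_lit 405) (nat_lit 5) (nat_lit 473) (nat_lit 452) (nat_lit 215)) (XT.lf (nat_lit 76) (nat_lit 4376009113) (nat_lit 0) (nat_lit 3748670542) (nat_lit 1824) (nat_lit 13334027533) (nat_lit 382) (nat_lit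 5) (nat_lit 381) (nat_lit 5) (nat_lit 405) (nat_lit 5) (nat_lit 474) (nat_lit 452) (nat_lit 214))))) (XT.nd (nat_lit 234) (nat_lit 2204) (nat_lit 0) (XT.nd (nat_lit 78) (nat_lit 0) (nat_lit 0) (XT.lf (nat_lit 0) (nat_lit 9683948798) (nat_lit 1748) (nat_lit 6663709919) (nat_lit 1824) (nat_lit 5342339123) (nat_lit 382) (nat_lit 5) (nat_lit 405) (nat_lit 5) (nat_lit 406) (nat_lit 5) (nat_lit 475) (nat_lit 452) (nat_lit 213)) (XT.nd (nat_lit 78) (nat_lit 0) (nat_lit 76) (XT.lf (nat_lit 76) (nat_lit 3987990464) (nat_lit 0) (nat_lit 7333326517) (nat_lit 1824) (nat_lit 10603661551) (nat_lit 383) (nat_lit 5) (nat_lit 382) (nat_lit 5) (nat_lit 406) (nat_lit 5) (nat_lit 476) (nat_lit 452) (nat_lit 212)) (XT.lf (nat_lit 0) (nat_lit 13044784138) (nat_lit 1748) (nat_lit 7236298126) (nat_lit 76) (nat_lit 1882511989) (nat_lit 383) (nat_lit 5) (nat_lit 406) (nat_lit 5) (nat_lit 384) (nat_lit 5) (nat_lit 477) (nat_lit 452) (nat_lit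 211)))) (XT.nd (nat_lit 156) (nat_lit 836) (nat_lit 0) (XT.nd (nat_lit 78) (nat_lit 0) (nat_lit 0) (XT.lf (nat_lit 0) (nat_lit 3674894357) (nat_lit 1444) (nat_lit 11196578391) (nat_lit 1520) (nat_lit 7534136901) (nat_lit 364) (nat_lit 5) (nat_lit 383) (nat_lit 5) (nat_lit 384) (nat_lit 5) (nat_lit 478) (nat_lit 452) (nat_lit 210)) (XT.lf (nat_lit 0) (nat_lit 14899278213) (nat_lit 1444) (nat_lit 1880355212) (nat_lit 1520) (nat_lit 5871935517) (nat_lit 364) (nat_lit 5) (nat_lit 383) (nat_lit 5) (nat_lit 384) (nat_lit 5) (nat_lit 479) (nat_lit 452) (nat_lit 209))) (XT.nd (nat_lit 78) (nat_lit 0) (nat_lit 0) (XT.lf (nat_lit 0) (nat_lit 3438168529) (nat_lit 836) (nat_lit 15356053087) (nat_lit 912) (nat_lit 4106862827) (nat_lit 353) (nat_lit 5) (nat_lit 364) (nat_lit 5) (nat_lit 365) (nat_lit 5) (nat_lit 480) (nat_lit 452) (nat_lit 208)) (XT.lf (nat_lit 0) (nat_lit 14941786122) (nat_lit 836) (nat_lit 5968210568) (nat_lit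 912) (nat_lit 2244377924) (nat_lit 353) (nat_lit 5) (nat_lit 364) (nat_lit 5) (nat_lit 365) (nat_lit 5) (nat_lit 481) (nat_lit 452) (nat_lit 207)))))) (XT.nd (nat_lit 546) (nat_lit 2964) (nat_lit 0) (XT.nd (nat_lit 234) (nat_lit 1596) (nat_lit 0) (XT.nd (nat_lit 78) (nat_lit 912) (nat_lit 0) (XT.lf (nat_lit 0) (nat_lit 3279202116) (nat_lit 912) (nat_lit 19830170879) (nat_lit 988) (nat_lit 302534099) (nat_lit 341) (nat_lit 5) (nat_lit 353) (nat_lit 5) (nat_lit 354) (nat_lit 5) (nat_lit 482) (nat_lit 452) (nat_lit 206)) (XT.nd (nat_lit 78) (nat_lit 836) (nat_lit 0) (XT.lf (nat_lit 0) (nat_lit 1747733635) (nat_lit 988) (nat_lit 8615276766) (nat_lit 76) (nat_lit 13309532115) (nat_lit 340) (nat_lit 5) (nat_lit 353) (nat_lit 5) (nat_lit 341) (nat_lit 5) (nat_lit 483) (nat_lit 452) (nat_lit 205)) (XT.lf (nat_lit 0) (nat_lit 3168963975) (nat_lit 836) (nat_lit 683233258) (nat_lit 912) (nat_lit 20085810683) (nat_lit 329)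 (nat_lit 5) (nat_lit 340) (nat_lit 5) (nat_lit 341) (nat_lit 5) (nat_lit 484) (nat_lit 452) (nat_lit 204)))) (XT.nd (nat_lit 156) (nat_lit 760) (nat_lit 0) (XT.nd (nat_lit 78) (nat_lit 836) (nat_lit 0) (XT.lf (nat_lit 0) (nat_lit 6113324030) (nat_lit 912) (nat_lit 8965148813) (nat_lit 76) (nat_lit 9128020352) (nat_lit 329) (nat_lit 5) (nat_lit 341) (nat_lit 5) (nat_lit 330) (nat_lit 5) (nat_lit 485) (nat_lit 452) (nat_lit 203)) (XT.lf (nat_lit 0) (nat_lit 3107979858) (nat_lit 836) (nat_lit 5333171350) (nat_lit 912) (nat_lit 16038769424) (nat_lit 318) (nat_lit 5) (nat_lit 329) (nat_lit 5) (nat_lit 330) (nat_lit 5) (nat_lit 486) (nat_lit 452) (nat_lit 202))) (XT.nd (nat_lit 78) (nat_lit 760) (nat_lit 0) (XT.lf (nat_lit 0) (nat_lit 10902824371) (nat_lit 912) (nat_lit 9246955185) (nat_lit 76) (nat_lit 4607293242) (nat_lit 318) (nat_lit 5) (nat_lit 330) (nat_lit 5) (nat_lit 319) (nat_lit 5) (nat_lit 487) (nat_lit 452)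 (nat_lit 201)) (XT.lf (nat_lit 0) (nat_lit 3123105018) (nat_lit 760) (nat_lit 10343102874) (nat_lit 836) (nat_lit 11572512508) (nat_lit 308) (nat_lit 5) (nat_lit 318) (nat_lit 5) (nat_lit 319) (nat_lit 5) (nat_lit 488) (nat_lit 452) (nat_lit 200))))) (XT.nd (nat_lit 312) (nat_lit 1520) (nat_lit 0) (XT.nd (nat_lit 156) (nat_lit 684) (nat_lit 0) (XT.nd (nat_lit 78) (nat_lit 760) (nat_lit 0) (XT.lf (nat_lit 0) (nat_lit 15862865344) (nat_lit 760) (nat_lit 276967676) (nat_lit 836) (nat_lit 9184990351) (nat_lit 308) (nat_lit 5) (nat_lit 318) (nat_lit 5) (nat_lit 319) (nat_lit 5) (nat_lit 489) (nat_lit 452) (nat_lit 199)) (XT.lf (nat_lit 0) (nat_lit 3215024528) (nat_lit 760) (nat_lit 15734627639) (nat_lit 836) (nat_lit 6665343660) (nat_lit 298) (nat_lit 5) (nat_lit 308) (nat_lit 5) (nat_lit 309) (nat_lit 5) (nat_lit 490) (nat_lit 452) (nat_lit 198))) (XT.nd (nat_lit 78) (nat_lit 684) (nat_lit 0) (XT.lf (nat_lit 0) (nat_lit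 16268918844) (nat_lit 760) (nat_lit 5609087784) (nat_lit 836) (nat_lit 4031720145) (nat_lit 298) (nat_lit 5) (nat_lit 308) (nat_lit 5) (nat_lit 309) (nat_lit 5) (nat_lit 491) (nat_lit 452) (nat_lit 197)) (XT.lf (nat_lit 0) (nat_lit 3384256105) (nat_lit 684) (nat_lit 21530363673) (nat_lit 760) (nat_lit 1294740514) (nat_lit 289) (nat_lit 5) (nat_lit 298) (nat_lit 5) (nat_lit 299) (nat_lit 5) (nat_lit 492) (nat_lit 452) (nat_lit 196)))) (XT.nd (nat_lit 156) (nat_lit 684) (nat_lit 0) (XT.nd (nat_lit 78) (nat_lit 760) (nat_lit 0) (XT.lf (nat_lit 0) (nat_lit 1576712205) (nat_lit 760) (nat_lit 9763531030) (nat_lit 76) (nat_lit 15172563240) (nat_lit 288) (nat_lit 5) (nat_lit 298) (nat_lit 5) (nat_lit 289) (nat_lit 5) (nat_lit 493) (nat_lit 452) (nat_lit 195)) (XT.lf (nat_lit 0) (nat_lit 3594856677) (nat_lit 760) (nat_lit 913911076) (nat_lit 836) (nat_lit 22312974139) (nat_lit 278) (nat_lit 5) (nat_lit 288) (nat_lit 5)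 (nat_lit 289) (nat_lit 5) (nat_lit 494) (nat_lit 452) (nat_lit 194))) (XT.nd (nat_lit 78) (nat_lit 684) (nat_lit 0) (XT.lf (nat_lit 0) (nat_lit 7625721009) (nat_lit 836) (nat_lit 9849361808) (nat_lit 76) (nat_lit 9659249716) (nat_lit 278) (nat_lit 5) (nat_lit 289) (nat_lit 5) (nat_lit 279) (nat_lit 5) (nat_lit 495) (nat_lit 452) (nat_lit 193)) (XT.lf (nat_lit 0) (nat_lit 3837015378) (nat_lit 684) (nat_lit 6996207329) (nat_lit 760) (nat_lit 16619389709) (nat_lit 269) (nat_lit 5) (nat_lit 278) (nat_lit 5) (nat_lit 279) (nat_lit 5) (nat_lit 496) (nat_lit 452) (nat_lit 192))))))))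
noncomputable def xc237 : XT := (XT.nd (nat_lit 57018) (nat_lit 0) (nat_lit 5168) (XT.nd (nat_lit 55926) (nat_lit 0) (nat_lit 14060) (XT.nd (nat_lit 546) (nat_lit 2432) (nat_lit 0) (XT.nd (nat_lit 234) (nat_lit 1368) (nat_lit 0) (XT.nd (nat_lit 78) (nat_lit 684) (nat_lit 0) (XT.lf (nat_lit 0) (nat_lit 14192657011) (nat_lit 760) (nat_lit 9872717870) (nat_lit 76) (nat_lit 3710128949) (nat_lit 269) (nat_lit 5) (nat_lit 279) (nat_lit 5) (nat_lit 270) (nat_lit 5) (nat_lit 497) (nat_lit 452) (nat_lit 191)) (XT.nd (nat_lit 78) (nat_lit 0) (nat_lit 0) (XT.lf (nat_lit 0) (nat_lit 4150173079) (nat_lit 684) (nat_lit 13539716420) (nat_lit 760) (nat_lit 10413552937) (nat_lit 260) (nat_lit 5) (nat_lit 269) (nat_lit 5) (nat_lit 270) (nat_lit 5) (nat_lit 498) (nat_lit 452) (nat_lit 190)) (XT.lf (nat_lit 0) (nat_lit 18584424932) (nat_lit 684) (nat_lit 2736257503) (nat_lit 760) (nat_lit 7115986585) (nat_lit 260) (nat_lit 5) (nat_lit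 269) (nat_lit 5) (nat_lit 270) (nat_lit 5) (nat_lit 499) (nat_lit 452) (nat_lit 189)))) (XT.nd (nat_lit 156) (nat_lit 760) (nat_lit 0) (XT.nd (nat_lit 78) (nat_lit 0) (nat_lit 0) (XT.lf (nat_lit 0) (nat_lit 4533561476) (nat_lit 608) (nat_lit 20571159627) (nat_lit 684) (nat_lit 3670227928) (nat_lit 252) (nat_lit 5) (nat_lit 260) (nat_lit 5) (nat_lit 261) (nat_lit 5) (nat_lit 500) (nat_lit 452) (nat_lit 188)) (XT.lf (nat_lit 0) (nat_lit 19319372191) (nat_lit 608) (nat_lit 9726630165) (nat_lit 684) (nat_lit 72362516) (nat_lit 252) (nat_lit 5) (nat_lit 260) (nat_lit 5) (nat_lit 261) (nat_lit 5) (nat_lit 501) (nat_lit 452) (nat_lit 187))) (XT.nd (nat_lit 78) (nat_lit 0) (nat_lit 0) (XT.lf (nat_lit 0) (nat_lit 3589066203) (nat_lit 760) (nat_lit 24505406372) (nat_lit 76) (nat_lit 1372934972) (nat_lit 242) (nat_lit 5) (nat_lit 252) (nat_lit 5) (nat_lit 243) (nat_lit 5) (nat_lit 502) (nat_lit 452) (nat_lit 186)) (XT.lf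 (nat_lit 0) (nat_lit 7450869056) (nat_lit 760) (nat_lit 9739309526) (nat_lit 76) (nat_lit 12630682017) (nat_lit 242) (nat_lit 5) (nat_lit 252) (nat_lit 5) (nat_lit 243) (nat_lit 5) (nat_lit 503) (nat_lit 452) (nat_lit 185))))) (XT.nd (nat_lit 234) (nat_lit 1216) (nat_lit 0) (XT.nd (nat_lit 78) (nat_lit 608) (nat_lit 0) (XT.lf (nat_lit 0) (nat_lit 5389949462) (nat_lit 608) (nat_lit 6032509461) (nat_lit 684) (nat_lit 18758274122) (nat_lit 234) (nat_lit 5) (nat_lit 242) (nat_lit 5) (nat_lit 243) (nat_lit 5) (nat_lit 504) (nat_lit 452) (nat_lit 184)) (XT.nd (nat_lit 78) (nat_lit 608) (nat_lit 0) (XT.lf (nat_lit 0) (nat_lit 15571576767) (nat_lit 684) (nat_lit 9630719017) (nat_lit 76) (nat_lit 5343546558) (nat_lit 234) (nat_lit 5) (nat_lit 243) (nat_lit 5) (nat_lit 235) (nat_lit 5) (nat_lit 505) (nat_lit 452) (nat_lit 183)) (XT.lf (nat_lit 0) (nat_lit 5866717824) (nat_lit 608) (nat_lit 14012630227) (nat_lit 684) (nat_lit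 11037393652) (nat_lit 226) (nat_lit 5) (nat_lit 234) (nat_lit 5) (nat_lit 235) (nat_lit 5) (nat_lit 506) (nat_lit 452) (nat_lit 182)))) (XT.nd (nat_lit 156) (nat_lit 684) (nat_lit 0) (XT.nd (nat_lit 78) (nat_lit 532) (nat_lit 0) (XT.lf (nat_lit 0) (nat_lit 21801847218) (nat_lit 608) (nat_lit 2533713075) (nat_lit 684) (nat_lit 6958254323) (nat_lit 226) (nat_lit 5) (nat_lit 234) (nat_lit 5) (nat_lit 235) (nat_lit 5) (nat_lit 507) (nat_lit 452) (nat_lit 181)) (XT.lf (nat_lit 0) (nat_lit 6398810610) (nat_lit 532) (nat_lit 22580901580) (nat_lit 608) (nat_lit 2696741738) (nat_lit 219) (nat_lit 5) (nat_lit 226) (nat_lit 5) (nat_lit 227) (nat_lit 5) (nat_lit 508) (nat_lit 452) (nat_lit 180))) (XT.nd (nat_lit 78) (nat_lit 608) (nat_lit 0) (XT.lf (nat_lit 0) (nat_lit 1706970643) (nat_lit 608) (nat_lit 9360121711) (nat_lit 76) (nat_lit 20997868422) (nat_lit 218) (nat_lit 5) (nat_lit 226) (nat_lit 5) (nat_lit 219) (nat_lit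 5) (nat_lit 509) (nat_lit 452) (nat_lit 179)) (XT.lf (nat_lit 0) (nat_lit 6210347385) (nat_lit 684) (nat_lit 25518592044) (nat_lit 76) (nat_lit 730989010) (nat_lit 210) (nat_lit 5) (nat_lit 219) (nat_lit 5) (nat_lit 211) (nat_lit 5) (nat_lit 510) (nat_lit 452) (nat_lit 178)))))) (XT.nd (nat_lit 546) (nat_lit 0) (nat_lit 228) (XT.nd (nat_lit 234) (nat_lit 0) (nat_lit 76) (XT.nd (nat_lit 78) (nat_lit 0) (nat_lit 0) (XT.lf (nat_lit 0) (nat_lit 4655664915) (nat_lit 1748) (nat_lit 2043862501) (nat_lit 1748) (nat_lit 2043862501) (nat_lit 395) (nat_lit 3) (nat_lit 418) (nat_lit 3) (nat_lit 418) (nat_lit 5) (nat_lit 453) (nat_lit 453) (nat_lit 234)) (XT.nd (nat_lit 78) (nat_lit 0) (nat_lit 76) (XT.lf (nat_lit 76) (nat_lit 4003131308) (nat_lit 0) (nat_lit 5635940081) (nat_lit 1748) (nat_lit 8017739300) (nat_lit 396) (nat_lit 5) (nat_lit 395) (nat_lit 3) (nat_lit 418) (nat_lit 5) (nat_lit 454) (nat_lit 453) (nat_lit 233))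 (XT.lf (nat_lit 0) (nat_lit 10010325594) (nat_lit 1672) (nat_lit 5536440305) (nat_lit 1748) (nat_lit 2282740894) (nat_lit 396) (nat_lit 5) (nat_lit 418) (nat_lit 5) (nat_lit 419) (nat_lit 5) (nat_lit 455) (nat_lit 453) (nat_lit 232)))) (XT.nd (nat_lit 156) (nat_lit 0) (nat_lit 76) (XT.nd (nat_lit 78) (nat_lit 0) (nat_lit 76) (XT.lf (nat_lit 76) (nat_lit 2738836907) (nat_lit 0) (nat_lit 7699908026) (nat_lit 1748) (nat_lit 7565920797) (nat_lit 397) (nat_lit 5) (nat_lit 396) (nat_lit 5) (nat_lit 419) (nat_lit 5) (nat_lit 456) (nat_lit 453) (nat_lit 231)) (XT.lf (nat_lit 0) (nat_lit 10909839824) (nat_lit 1672) (nat_lit 6933144883) (nat_lit 1748) (nat_lit 339664636) (nat_lit 397) (nat_lit 5) (nat_lit 419) (nat_lit 5) (nat_lit 420) (nat_lit 5) (nat_lit 457) (nat_lit 453) (nat_lit 230))) (XT.nd (nat_lit 78) (nat_lit 0) (nat_lit 0) (XT.lf (nat_lit 76) (nat_lit 1532347394) (nat_lit 0) (nat_lit 9913789880) (nat_lit 1748)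 (nat_lit 6916943310) (nat_lit 398) (nat_lit 5) (nat_lit 397) (nat_lit 5) (nat_lit 420) (nat_lit 5) (nat_lit 458) (nat_lit 453) (nat_lit 229)) (XT.lf (nat_lit 76) (nat_lit 10258199943) (nat_lit 0) (nat_lit 1776406835) (nat_lit 1748) (nat_lit 6511688247) (nat_lit 398) (nat_lit 5) (nat_lit 397) (nat_lit 5) (nat_lit 420) (nat_lit 5) (nat_lit 459) (nat_lit 453) (nat_lit 228))))) (XT.nd (nat_lit 234) (nat_lit 0) (nat_lit 76) (XT.nd (nat_lit 78) (nat_lit 0) (nat_lit 0) (XT.lf (nat_lit 76) (nat_lit 385100689) (nat_lit 0) (nat_lit 12289635973) (nat_lit 1748) (nat_lit 6057642705) (nat_lit 399) (nat_lit 5) (nat_lit 398) (nat_lit 5) (nat_lit 421) (nat_lit 5) (nat_lit 460) (nat_lit 453) (nat_lit 227)) (XT.nd (nat_lit 78) (nat_lit 0) (nat_lit 76) (XT.lf (nat_lit 76) (nat_lit 9329217310) (nat_lit 0) (nat_lit 4060868603) (nat_lit 1748) (nat_lit 5530854510) (nat_lit 399) (nat_lit 5) (nat_lit 398) (nat_lit 5) (nat_lit 421) (nat_lit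 5) (nat_lit 461) (nat_lit 453) (nat_lit 226)) (XT.lf (nat_lit 0) (nat_lit 14143091889) (nat_lit 1672) (nat_lit 692208593) (nat_lit 1748) (nat_lit 4277508518) (nat_lit 399) (nat_lit 5) (nat_lit 421) (nat_lit 5) (nat_lit 422) (nat_lit 5) (nat_lit 462) (nat_lit 453) (nat_lit 225)))) (XT.nd (nat_lit 156) (nat_lit 0) (nat_lit 76) (XT.nd (nat_lit 78) (nat_lit 0) (nat_lit 76) (XT.lf (nat_lit 76) (nat_lit 8466478850) (nat_lit 0) (nat_lit 6521856463) (nat_lit 1748) (nat_lit 4318639323) (nat_lit 400) (nat_lit 5) (nat_lit 399) (nat_lit 5) (nat_lit 422) (nat_lit 5) (nat_lit 463) (nat_lit 453) (nat_lit 224)) (XT.lf (nat_lit 0) (nat_lit 15863268918) (nat_lit 1672) (nat_lit 1703000394) (nat_lit 1748) (nat_lit 1938501735) (nat_lit 400) (nat_lit 5) (nat_lit 422) (nat_lit 5) (nat_lit 423) (nat_lit 5) (nat_lit 464) (nat_lit 453) (nat_lit 223))) (XT.nd (nat_lit 78) (nat_lit 0) (nat_lit 0) (XT.lf (nat_lit 76) (nat_lit 7671678701) (nat_lit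 0) (nat_lit 9172511225) (nat_lit 1748) (nat_lit 2860566793) (nat_lit 401) (nat_lit 5) (nat_lit 400) (nat_lit 5) (nat_lit 423) (nat_lit 5) (nat_lit 465) (nat_lit 453) (nat_lit 222)) (XT.lf (nat_lit 76) (nat_lit 17253965124) (nat_lit 0) (nat_lit 597749442) (nat_lit 1748) (nat_lit 2056890879) (nat_lit 401) (nat_lit 5) (nat_lit 400) (nat_lit 5) (nat_lit 423) (nat_lit 5) (nat_lit 466) (nat_lit 453) (nat_lit 221))))))) (XT.nd (nat_lit 1092) (nat_lit 6536) (nat_lit 0) (XT.nd (nat_lit 546) (nat_lit 1140) (nat_lit 0) (XT.nd (nat_lit 234) (nat_lit 0) (nat_lit 0) (XT.nd (nat_lit 78) (nat_lit 1672) (nat_lit 0) (XT.lf (nat_lit 76) (nat_lit 6946553825) (nat_lit 0) (nat_lit 12026496694) (nat_lit 1748) (nat_lit 1141610397) (nat_lit 402) (nat_lit 5) (nat_lit 401) (nat_lit 5) (nat_lit 424) (nat_lit 5) (nat_lit 467) (nat_lit 453) (nat_lit 220)) (XT.nd (nat_lit 78) (nat_lit 1672) (nat_lit 0) (XT.lf (nat_lit 76) (nat_lit 16768752715)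 (nat_lit 0) (nat_lit 3365526532) (nat_lit 1748) (nat_lit 190211854) (nat_lit 402) (nat_lit 5) (nat_lit 401) (nat_lit 5) (nat_lit 424) (nat_lit 5) (nat_lit 468) (nat_lit 453) (nat_lit 219)) (XT.lf (nat_lit 0) (nat_lit 842632454) (nat_lit 1748) (nat_lit 14249745803) (nat_lit 1824) (nat_lit 5444588126) (nat_lit 379) (nat_lit 5) (nat_lit 402) (nat_lit 5) (nat_lit 403) (nat_lit 5) (nat_lit 469) (nat_lit 453) (nat_lit 218)))) (XT.nd (nat_lit 156) (nat_lit 0) (nat_lit 76) (XT.nd (nat_lit 78) (nat_lit 0) (nat_lit 76) (XT.lf (nat_lit 0) (nat_lit 1935740329) (nat_lit 1748) (nat_lit 4404748879) (nat_lit 1824) (nat_lit 14412336502) (nat_lit 379) (nat_lit 5) (nat_lit 402) (nat_lit 5) (nat_lit 403) (nat_lit 5) (nat_lit 470) (nat_lit 453) (nat_lit 217)) (XT.lf (nat_lit 0) (nat_lit 3100747932) (nat_lit 1748) (nat_lit 15280374141) (nat_lit 1824) (nat_lit 2590882104) (nat_lit 380) (nat_lit 5) (nat_lit 403) (nat_lit 5) (nat_lit 404)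 (nat_lit 5) (nat_lit 471) (nat_lit 453) (nat_lit 216))) (XT.nd (nat_lit 78) (nat_lit 0) (nat_lit 0) (XT.lf (nat_lit 0) (nat_lit 4356792357) (nat_lit 1748) (nat_lit 5190593089) (nat_lit 1824) (nat_lit 11646828686) (nat_lit 380) (nat_lit 5) (nat_lit 403) (nat_lit 5) (nat_lit 404) (nat_lit 5) (nat_lit 472) (nat_lit 453) (nat_lit 215)) (XT.lf (nat_lit 76) (nat_lit 5165716852) (nat_lit 0) (nat_lit 501851393) (nat_lit 1824) (nat_lit 15752710429) (nat_lit 381) (nat_lit 5) (nat_lit 380) (nat_lit 5) (nat_lit 404) (nat_lit 5) (nat_lit 473) (nat_lit 453) (nat_lit 214))))) (XT.nd (nat_lit 234) (nat_lit 1292) (nat_lit 0) (XT.nd (nat_lit 78) (nat_lit 0) (nat_lit 0) (XT.lf (nat_lit 0) (nat_lit 7092402359) (nat_lit 1748) (nat_lit 5910613390) (nat_lit 1824) (nat_lit 8646094452) (nat_lit 381) (nat_lit 5) (nat_lit 404) (nat_lit 5) (nat_lit 405) (nat_lit 5) (nat_lit 474) (nat_lit 453) (nat_lit 213)) (XT.nd (nat_lit 78) (nat_lit 0)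 (nat_lit 76) (XT.lf (nat_lit 76) (nat_lit 4695450755) (nat_lit 0) (nat_lit 3880302267) (nat_lit 1824) (nat_lit 13306167438) (nat_lit 382) (nat_lit 5) (nat_lit 381) (nat_lit 5) (nat_lit 405) (nat_lit 5) (nat_lit 475) (nat_lit 453) (nat_lit 212)) (XT.lf (nat_lit 0) (nat_lit 10160188470) (nat_lit 1748) (nat_lit 6563405495) (nat_lit 1824) (nat_lit 5394367053) (nat_lit 382) (nat_lit 5) (nat_lit 405) (nat_lit 5) (nat_lit 406) (nat_lit 5) (nat_lit 476) (nat_lit 453) (nat_lit 211)))) (XT.nd (nat_lit 156) (nat_lit 1368) (nat_lit 0) (XT.nd (nat_lit 78) (nat_lit 0) (nat_lit 76) (XT.lf (nat_lit 76) (nat_lit 4299792194) (nat_lit 0) (nat_lit 7526477987) (nat_lit 1824) (nat_lit 10531455457) (nat_lit 383) (nat_lit 5) (nat_lit 382) (nat_lit 5) (nat_lit 406) (nat_lit 5) (nat_lit 477) (nat_lit 453) (nat_lit 210)) (XT.lf (nat_lit 0) (nat_lit 13578449477) (nat_lit 1748) (nat_lit 7147596445) (nat_lit 76) (nat_lit 1875186463) (nat_lit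 383) (nat_lit 5) (nat_lit 406) (nat_lit 5) (nat_lit 384) (nat_lit 5) (nat_lit 478) (nat_lit 453) (nat_lit 209))) (XT.nd (nat_lit 78) (nat_lit 0) (nat_lit 0) (XT.lf (nat_lit 0) (nat_lit 3980284179) (nat_lit 1444) (nat_lit 11457544852) (nat_lit 1520) (nat_lit 7410339413) (nat_lit 364) (nat_lit 5) (nat_lit 383) (nat_lit 5) (nat_lit 384) (nat_lit 5) (nat_lit 479) (nat_lit 453) (nat_lit 208)) (XT.lf (nat_lit 0) (nat_lit 15424608811) (nat_lit 1444) (nat_lit 1954271035) (nat_lit 1520) (nat_lit 5720275966) (nat_lit 364) (nat_lit 5) (nat_lit 383) (nat_lit 5) (nat_lit 384) (nat_lit 5) (nat_lit 480) (nat_lit 453) (nat_lit 207)))))) (XT.nd (nat_lit 546) (nat_lit 3040) (nat_lit 0) (XT.nd (nat_lit 234) (nat_lit 1748) (nat_lit 0) (XT.nd (nat_lit 78) (nat_lit 912) (nat_lit 0) (XT.lf (nat_lit 0) (nat_lit 3738424122) (nat_lit 836) (nat_lit 15691437880) (nat_lit 912) (nat_lit 3923880938) (nat_lit 353) (nat_lit 5) (nat_lit 364) (nat_lit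 5) (nat_lit 365) (nat_lit 5) (nat_lit 481) (nat_lit 453) (nat_lit 206)) (XT.nd (nat_lit 78) (nat_lit 912) (nat_lit 0) (XT.lf (nat_lit 0) (nat_lit 15467575003) (nat_lit 836) (nat_lit 6115284321) (nat_lit 912) (nat_lit 2029344751) (nat_lit 353) (nat_lit 5) (nat_lit 364) (nat_lit 5) (nat_lit 365) (nat_lit 5) (nat_lit 482) (nat_lit 453) (nat_lit 205)) (XT.lf (nat_lit 0) (nat_lit 3575648368) (nat_lit 912) (nat_lit 20246903930) (nat_lit 988) (nat_lit 52411554) (nat_lit 341) (nat_lit 5) (nat_lit 353) (nat_lit 5) (nat_lit 354) (nat_lit 5) (nat_lit 483) (nat_lit 453) (nat_lit 204)))) (XT.nd (nat_lit 156) (nat_lit 836) (nat_lit 0) (XT.nd (nat_lit 78) (nat_lit 836) (nat_lit 0) (XT.lf (nat_lit 0) (nat_lit 2030544649) (nat_lit 988) (nat_lit 8557797649) (nat_lit 76) (nat_lit 13552538669) (nat_lit 340) (nat_lit 5) (nat_lit 353) (nat_lit 5) (nat_lit 341) (nat_lit 5) (nat_lit 484) (nat_lit 453) (nat_lit 203)) (XT.lf (nat_lit 0)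 (nat_lit 3460616166) (nat_lit 836) (nat_lit 713103524) (nat_lit 912) (nat_lit 20238006586) (nat_lit 329) (nat_lit 5) (nat_lit 340) (nat_lit 5) (nat_lit 341) (nat_lit 5) (nat_lit 485) (nat_lit 453) (nat_lit 202))) (XT.nd (nat_lit 78) (nat_lit 836) (nat_lit 0) (XT.lf (nat_lit 0) (nat_lit 6475172172) (nat_lit 912) (nat_lit 8915608723) (nat_lit 76) (nat_lit 9294901287) (nat_lit 329) (nat_lit 5) (nat_lit 341) (nat_lit 5) (nat_lit 330) (nat_lit 5) (nat_lit 486) (nat_lit 453) (nat_lit 201)) (XT.lf (nat_lit 0) (nat_lit 3397476975) (nat_lit 836) (nat_lit 5448857265) (nat_lit 912) (nat_lit 16118311287) (nat_lit 318) (nat_lit 5) (nat_lit 329) (nat_lit 5) (nat_lit 330) (nat_lit 5) (nat_lit 487) (nat_lit 453) (nat_lit 200))))) (XT.nd (nat_lit 312) (nat_lit 1520) (nat_lit 0) (XT.nd (nat_lit 156) (nat_lit 760) (nat_lit 0) (XT.nd (nat_lit 78) (nat_lit 760) (nat_lit 0) (XT.lf (nat_lit 0) (nat_lit 11352548925) (nat_lit 912) (nat_lit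 9204178977) (nat_lit 76) (nat_lit 4690709542) (nat_lit 318) (nat_lit 5) (nat_lit 330) (nat_lit 5) (nat_lit 319) (nat_lit 5) (nat_lit 488) (nat_lit 453) (nat_lit 199)) (XT.lf (nat_lit 0) (nat_lit 3411784302) (nat_lit 760) (nat_lit 10552342055) (nat_lit 836) (nat_lit 11570655929) (nat_lit 308) (nat_lit 5) (nat_lit 318) (nat_lit 5) (nat_lit 319) (nat_lit 5) (nat_lit 489) (nat_lit 453) (nat_lit 198))) (XT.nd (nat_lit 78) (nat_lit 760) (nat_lit 0) (XT.lf (nat_lit 0) (nat_lit 16401904204) (nat_lit 760) (nat_lit 284837543) (nat_lit 836) (nat_lit 9139957973) (nat_lit 308) (nat_lit 5) (nat_lit 318) (nat_lit 5) (nat_lit 319) (nat_lit 5) (nat_lit 490) (nat_lit 453) (nat_lit 197)) (XT.lf (nat_lit 0) (nat_lit 3504252238) (nat_lit 760) (nat_lit 16045556227) (nat_lit 836) (nat_lit 6572928840) (nat_lit 298) (nat_lit 5) (nat_lit 308) (nat_lit 5) (nat_lit 309) (nat_lit 5) (nat_lit 491) (nat_lit 453) (nat_lit 196)))) (XT.nd (nat_lit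 156) (nat_lit 836) (nat_lit 0) (XT.nd (nat_lit 78) (nat_lit 684) (nat_lit 0) (XT.lf (nat_lit 0) (nat_lit 16814814103) (nat_lit 760) (nat_lit 5717579378) (nat_lit 836) (nat_lit 3891058770) (nat_lit 298) (nat_lit 5) (nat_lit 308) (nat_lit 5) (nat_lit 309) (nat_lit 5) (nat_lit 492) (nat_lit 453) (nat_lit 195)) (XT.lf (nat_lit 0) (nat_lit 3675423194) (nat_lit 684) (nat_lit 21951538677) (nat_lit 760) (nat_lit 1102174707) (nat_lit 289) (nat_lit 5) (nat_lit 298) (nat_lit 5) (nat_lit 299) (nat_lit 5) (nat_lit 493) (nat_lit 453) (nat_lit 194))) (XT.nd (nat_lit 78) (nat_lit 760) (nat_lit 0) (XT.lf (nat_lit 0) (nat_lit 1819614554) (nat_lit 760) (nat_lit 9736767832) (nat_lit 76) (nat_lit 15482327977) (nat_lit 288) (nat_lit 5) (nat_lit 298) (nat_lit 5) (nat_lit 289) (nat_lit 5) (nat_lit 494) (nat_lit 453) (nat_lit 193)) (XT.lf (nat_lit 0) (nat_lit 3887326881) (nat_lit 760) (nat_lit 920271966) (nat_lit 836) (nat_lit 22546282337)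 (nat_lit 278) (nat_lit 5) (nat_lit 288) (nat_lit 5) (nat_lit 289) (nat_lit 5) (nat_lit 495) (nat_lit 453) (nat_lit 192))))))))
noncomputable def xc238 : XT := (XT.nd (nat_lit 57096) (nat_lit 0) (nat_lit 5320) (XT.nd (nat_lit 1092) (nat_lit 76) (nat_lit 0) (XT.nd (nat_lit 546) (nat_lit 2432) (nat_lit 0) (XT.nd (nat_lit 234) (nat_lit 1368) (nat_lit 0) (XT.nd (nat_lit 78) (nat_lit 684) (nat_lit 0) (XT.lf (nat_lit 0) (nat_lit 7982875737) (nat_lit 836) (nat_lit 9825965474) (nat_lit 76) (nat_lit 9863965136) (nat_lit 278) (nat_lit 5) (nat_lit 289) (nat_lit 5) (nat_lit 279) (nat_lit 5) (nat_lit 496) (nat_lit 453) (nat_lit 191)) (XT.nd (nat_lit 78) (nat_lit 0) (nat_lit 0) (XT.lf (nat_lit 0) (nat_lit 4132689364) (nat_lit 684) (nat_lit 7119247013) (nat_lit 760) (nat_lit 16745569626) (nat_lit 269) (nat_lit 5) (nat_lit 278) (nat_lit 5) (nat_lit 279) (nat_lit 5) (nat_lit 497) (nat_lit 453) (nat_lit 190)) (XT.lf (nat_lit 0) (nat_lit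 14674705093) (nat_lit 760) (nat_lit 9851561723) (nat_lit 76) (nat_lit 3800667822) (nat_lit 269) (nat_lit 5) (nat_lit 279) (nat_lit 5) (nat_lit 270) (nat_lit 5) (nat_lit 498) (nat_lit 453) (nat_lit 189)))) (XT.nd (nat_lit 156) (nat_lit 684) (nat_lit 0) (XT.nd (nat_lit 78) (nat_lit 0) (nat_lit 0) (XT.lf (nat_lit 0) (nat_lit 4450348818) (nat_lit 684) (nat_lit 13789057264) (nat_lit 760) (nat_lit 10422077719) (nat_lit 260) (nat_lit 5) (nat_lit 269) (nat_lit 5) (nat_lit 270) (nat_lit 5) (nat_lit 499) (nat_lit 453) (nat_lit 188)) (XT.lf (nat_lit 0) (nat_lit 19169027428) (nat_lit 684) (nat_lit 2769949825) (nat_lit 760) (nat_lit 7062476634) (nat_lit 260) (nat_lit 5) (nat_lit 269) (nat_lit 5) (nat_lit 270) (nat_lit 5) (nat_lit 500) (nat_lit 453) (nat_lit 187))) (XT.nd (nat_lit 78) (nat_lit 76) (nat_lit 0) (XT.lf (nat_lit 0) (nat_lit 4839532829) (nat_lit 608) (nat_lit 20956933243) (nat_lit 684) (nat_lit 3550080214) (nat_lit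 252) (nat_lit 5) (nat_lit 260) (nat_lit 5) (nat_lit 261) (nat_lit 5) (nat_lit 501) (nat_lit 453) (nat_lit 186)) (XT.lf (nat_lit 0) (nat_lit 114426693) (nat_lit 684) (nat_lit 9780821568) (nat_lit 76) (nat_lit 19801643631) (nat_lit 251) (nat_lit 5) (nat_lit 260) (nat_lit 5) (nat_lit 252) (nat_lit 5) (nat_lit 502) (nat_lit 453) (nat_lit 185))))) (XT.nd (nat_lit 234) (nat_lit 1140) (nat_lit 0) (XT.nd (nat_lit 78) (nat_lit 608) (nat_lit 0) (XT.lf (nat_lit 0) (nat_lit 3845999393) (nat_lit 760) (nat_lit 24779623744) (nat_lit 76) (nat_lit 1427327078) (nat_lit 242) (nat_lit 5) (nat_lit 252) (nat_lit 5) (nat_lit 243) (nat_lit 5) (nat_lit 503) (nat_lit 453) (nat_lit 184)) (XT.nd (nat_lit 78) (nat_lit 608) (nat_lit 0) (XT.lf (nat_lit 0) (nat_lit 7781407875) (nat_lit 760) (nat_lit 9722438113) (nat_lit 76) (nat_lit 12909700958) (nat_lit 242) (nat_lit 5) (nat_lit 252) (nat_lit 5) (nat_lit 243) (nat_lit 5) (nat_lit 504) (nat_lit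 453) (nat_lit 183)) (XT.lf (nat_lit 0) (nat_lit 5708013571) (nat_lit 608) (nat_lit 6122221905) (nat_lit 684) (nat_lit 18950427215) (nat_lit 234) (nat_lit 5) (nat_lit 242) (nat_lit 5) (nat_lit 243) (nat_lit 5) (nat_lit 505) (nat_lit 453) (nat_lit 182)))) (XT.nd (nat_lit 156) (nat_lit 532) (nat_lit 0) (XT.nd (nat_lit 78) (nat_lit 608) (nat_lit 0) (XT.lf (nat_lit 0) (nat_lit 16059016384) (nat_lit 684) (nat_lit 9613775294) (nat_lit 76) (nat_lit 5480350813) (nat_lit 234) (nat_lit 5) (nat_lit 243) (nat_lit 5) (nat_lit 235) (nat_lit 5) (nat_lit 506) (nat_lit 453) (nat_lit 181)) (XT.lf (nat_lit 0) (nat_lit 6192231612) (nat_lit 608) (nat_lit 14258611982) (nat_lit 684) (nat_lit 11080660128) (nat_lit 226) (nat_lit 5) (nat_lit 234) (nat_lit 5) (nat_lit 235) (nat_lit 5) (nat_lit 507) (nat_lit 453) (nat_lit 180))) (XT.nd (nat_lit 78) (nat_lit 532) (nat_lit 0) (XT.lf (nat_lit 0) (nat_lit 22441981644) (nat_lit 608) (nat_lit 2550788464)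 (nat_lit 684) (nat_lit 6923418040) (nat_lit 226) (nat_lit 5) (nat_lit 234) (nat_lit 5) (nat_lit 235) (nat_lit 5) (nat_lit 508) (nat_lit 453) (nat_lit 179)) (XT.lf (nat_lit 0) (nat_lit 6732804562) (nat_lit 532) (nat_lit 22995208844) (nat_lit 608) (nat_lit 2578504493) (nat_lit 219) (nat_lit 5) (nat_lit 226) (nat_lit 5) (nat_lit 227) (nat_lit 5) (nat_lit 509) (nat_lit 453) (nat_lit 178)))))) (XT.nd (nat_lit 55458) (nat_lit 0) (nat_lit 13604) (XT.nd (nat_lit 55146) (nat_lit 0) (nat_lit 13528) (XT.nd (nat_lit 54990) (nat_lit 0) (nat_lit 13452) (XT.lf (nat_lit 0) (nat_lit 1907692421) (nat_lit 608) (nat_lit 9343044741) (nat_lit 76) (nat_lit 21452103747) (nat_lit 218) (nat_lit 5) (nat_lit 226) (nat_lit 5) (nat_lit 219) (nat_lit 5) (nat_lit 510) (nat_lit 453) (nat_lit 177)) (XT.nd (nat_lit 78) (nat_lit 0) (nat_lit 0) (XT.lf (nat_lit 0) (nat_lit 4956060879) (nat_lit 1748) (nat_lit 1978953871) (nat_lit 1748) (nat_lit 1978953871)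 (nat_lit 395) (nat_lit 3) (nat_lit 418) (nat_lit 3) (nat_lit 418) (nat_lit 5) (nat_lit 454) (nat_lit 454) (nat_lit 232)) (XT.lf (nat_lit 76) (nat_lit 4293373775) (nat_lit 0) (nat_lit 5946280270) (nat_lit 1748) (nat_lit 7761855579) (nat_lit 396) (nat_lit 5) (nat_lit 395) (nat_lit 3) (nat_lit 418) (nat_lit 5) (nat_lit 455) (nat_lit 454) (nat_lit 231)))) (XT.nd (nat_lit 156) (nat_lit 0) (nat_lit 76) (XT.nd (nat_lit 78) (nat_lit 0) (nat_lit 0) (XT.lf (nat_lit 0) (nat_lit 10609079300) (nat_lit 1672) (nat_lit 5431580670) (nat_lit 1748) (nat_lit 2137190274) (nat_lit 396) (nat_lit 5) (nat_lit 418) (nat_lit 5) (nat_lit 419) (nat_lit 5) (nat_lit 456) (nat_lit 454) (nat_lit 230)) (XT.lf (nat_lit 76) (nat_lit 3007783740) (nat_lit 0) (nat_lit 8031859169) (nat_lit 1748) (nat_lit 7317003340) (nat_lit 397) (nat_lit 5) (nat_lit 396) (nat_lit 5) (nat_lit 419) (nat_lit 5) (nat_lit 457) (nat_lit 454) (nat_lit 229))) (XT.nd (nat_lit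 78) (nat_lit 0) (nat_lit 0) (XT.lf (nat_lit 0) (nat_lit 11511338276) (nat_lit 1672) (nat_lit 6852750644) (nat_lit 1748) (nat_lit 174282343) (nat_lit 397) (nat_lit 5) (nat_lit 419) (nat_lit 5) (nat_lit 420) (nat_lit 5) (nat_lit 458) (nat_lit 454) (nat_lit 228)) (XT.lf (nat_lit 76) (nat_lit 1780610313) (nat_lit 0) (nat_lit 10271648551) (nat_lit 1748) (nat_lit 6670279518) (nat_lit 398) (nat_lit 5) (nat_lit 397) (nat_lit 5) (nat_lit 420) (nat_lit 5) (nat_lit 459) (nat_lit 454) (nat_lit 227))))) (XT.nd (nat_lit 234) (nat_lit 0) (nat_lit 152) (XT.nd (nat_lit 78) (nat_lit 0) (nat_lit 76) (XT.lf (nat_lit 76) (nat_lit 10676712934) (nat_lit 0) (nat_lit 1968388769) (nat_lit 1748) (nat_lit 6264468427) (nat_lit 398) (nat_lit 5) (nat_lit 397) (nat_lit 5) (nat_lit 420) (nat_lit 5) (nat_lit 460) (nat_lit 454) (nat_lit 226)) (XT.nd (nat_lit 78) (nat_lit 0) (nat_lit 0) (XT.lf (nat_lit 76) (nat_lit 613357664) (nat_lit 0) (nat_lit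 12677861589) (nat_lit 1748) (nat_lit 5808298197) (nat_lit 399) (nat_lit 5) (nat_lit 398) (nat_lit 5) (nat_lit 421) (nat_lit 5) (nat_lit 461) (nat_lit 454) (nat_lit 225)) (XT.lf (nat_lit 76) (nat_lit 9732032010) (nat_lit 0) (nat_lit 4281726070) (nat_lit 1748) (nat_lit 5278238892) (nat_lit 399) (nat_lit 5) (nat_lit 398) (nat_lit 5) (nat_lit 421) (nat_lit 5) (nat_lit 462) (nat_lit 454) (nat_lit 224)))) (XT.nd (nat_lit 156) (nat_lit 0) (nat_lit 76) (XT.nd (nat_lit 78) (nat_lit 0) (nat_lit 0) (XT.lf (nat_lit 0) (nat_lit 14773957466) (nat_lit 1672) (nat_lit 485955462) (nat_lit 1748) (nat_lit 4227952130) (nat_lit 399) (nat_lit 5) (nat_lit 421) (nat_lit 5) (nat_lit 422) (nat_lit 5) (nat_lit 463) (nat_lit 454) (nat_lit 223)) (XT.lf (nat_lit 76) (nat_lit 8854457722) (nat_lit 0) (nat_lit 6776244050) (nat_lit 1748) (nat_lit 4055325020) (nat_lit 400) (nat_lit 5) (nat_lit 399) (nat_lit 5) (nat_lit 422) (nat_lit 5) (nat_lit 464)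 (nat_lit 454) (nat_lit 222))) (XT.nd (nat_lit 78) (nat_lit 0) (nat_lit 0) (XT.lf (nat_lit 0) (nat_lit 16515627417) (nat_lit 1672) (nat_lit 1514960990) (nat_lit 1748) (nat_lit 1857345471) (nat_lit 400) (nat_lit 5) (nat_lit 422) (nat_lit 5) (nat_lit 423) (nat_lit 5) (nat_lit 465) (nat_lit 454) (nat_lit 221)) (XT.lf (nat_lit 76) (nat_lit 8045750506) (nat_lit 0) (nat_lit 9465278415) (nat_lit 1748) (nat_lit 2580997624) (nat_lit 401) (nat_lit 5) (nat_lit 400) (nat_lit 5) (nat_lit 423) (nat_lit 5) (nat_lit 466) (nat_lit 454) (nat_lit 220))))))) (XT.nd (nat_lit 1092) (nat_lit 5776) (nat_lit 0) (XT.nd (nat_lit 546) (nat_lit 1064) (nat_lit 0) (XT.nd (nat_lit 234) (nat_lit 0) (nat_lit 76) (XT.nd (nat_lit 78) (nat_lit 1672) (nat_lit 0) (XT.lf (nat_lit 76) (nat_lit 17815356418) (nat_lit 0) (nat_lit 716877928) (nat_lit 1748) (nat_lit 1767851731) (nat_lit 401) (nat_lit 5) (nat_lit 400) (nat_lit 5) (nat_lit 423) (nat_lit 5) (nat_lit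 467) (nat_lit 454) (nat_lit 219)) (XT.nd (nat_lit 78) (nat_lit 1748) (nat_lit 0) (XT.lf (nat_lit 76) (nat_lit 7307712506) (nat_lit 0) (nat_lit 12362702310) (nat_lit 1748) (nat_lit 839963833) (nat_lit 402) (nat_lit 5) (nat_lit 401) (nat_lit 5) (nat_lit 424) (nat_lit 5) (nat_lit 468) (nat_lit 454) (nat_lit 218)) (XT.lf (nat_lit 0) (nat_lit 122472753) (nat_lit 1748) (nat_lit 3403342141) (nat_lit 1824) (nat_lit 17198703361) (nat_lit 378) (nat_lit 5) (nat_lit 401) (nat_lit 5) (nat_lit 402) (nat_lit 5) (nat_lit 469) (nat_lit 454) (nat_lit 217)))) (XT.nd (nat_lit 156) (nat_lit 0) (nat_lit 76) (XT.nd (nat_lit 78) (nat_lit 0) (nat_lit 0) (XT.lf (nat_lit 0) (nat_lit 1168132966) (nat_lit 1748) (nat_lit 14306988083) (nat_lit 1824) (nat_lit 5466206825) (nat_lit 379) (nat_lit 5) (nat_lit 402) (nat_lit 5) (nat_lit 403) (nat_lit 5) (nat_lit 470) (nat_lit 454) (nat_lit 216)) (XT.lf (nat_lit 0) (nat_lit 2277051080) (nat_lit 1748)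 (nat_lit 4269556958) (nat_lit 1824) (nat_lit 14615021406) (nat_lit 379) (nat_lit 5) (nat_lit 402) (nat_lit 5) (nat_lit 403) (nat_lit 5) (nat_lit 471) (nat_lit 454) (nat_lit 215))) (XT.nd (nat_lit 78) (nat_lit 0) (nat_lit 0) (XT.lf (nat_lit 0) (nat_lit 3460370478) (nat_lit 1748) (nat_lit 15357509445) (nat_lit 1824) (nat_lit 2567415264) (nat_lit 380) (nat_lit 5) (nat_lit 403) (nat_lit 5) (nat_lit 404) (nat_lit 5) (nat_lit 472) (nat_lit 454) (nat_lit 214)) (XT.lf (nat_lit 0) (nat_lit 4735700348) (nat_lit 1748) (nat_lit 5070412618) (nat_lit 1824) (nat_lit 11805956944) (nat_lit 380) (nat_lit 5) (nat_lit 403) (nat_lit 5) (nat_lit 404) (nat_lit 5) (nat_lit 473) (nat_lit 454) (nat_lit 213))))) (XT.nd (nat_lit 234) (nat_lit 1216) (nat_lit 0) (XT.nd (nat_lit 78) (nat_lit 0) (nat_lit 76) (XT.lf (nat_lit 76) (nat_lit 5491549888) (nat_lit 0) (nat_lit 576865582) (nat_lit 1824) (nat_lit 15774329583) (nat_lit 381) (nat_lit 5)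 (nat_lit 380) (nat_lit 5) (nat_lit 404) (nat_lit 5) (nat_lit 474) (nat_lit 454) (nat_lit 212)) (XT.nd (nat_lit 78) (nat_lit 0) (nat_lit 0) (XT.lf (nat_lit 0) (nat_lit 7515695490) (nat_lit 1748) (nat_lit 5804433729) (nat_lit 1824) (nat_lit 8756148719) (nat_lit 381) (nat_lit 5) (nat_lit 404) (nat_lit 5) (nat_lit 405) (nat_lit 5) (nat_lit 475) (nat_lit 454) (nat_lit 211)) (XT.lf (nat_lit 76) (nat_lit 5012275436) (nat_lit 0) (nat_lit 4012366515) (nat_lit 1824) (nat_lit 13289187513) (nat_lit 382) (nat_lit 5) (nat_lit 381) (nat_lit 5) (nat_lit 405) (nat_lit 5) (nat_lit 476) (nat_lit 454) (nat_lit 210)))) (XT.nd (nat_lit 156) (nat_lit 1368) (nat_lit 0) (XT.nd (nat_lit 78) (nat_lit 0) (nat_lit 0) (XT.lf (nat_lit 0) (nat_lit 10634980759) (nat_lit 1748) (nat_lit 6470165126) (nat_lit 1824) (nat_lit 5449564224) (nat_lit 382) (nat_lit 5) (nat_lit 405) (nat_lit 5) (nat_lit 406) (nat_lit 5) (nat_lit 477) (nat_lit 454) (nat_lit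 209)) (XT.lf (nat_lit 76) (nat_lit 4608819488) (nat_lit 0) (nat_lit 7721687419) (nat_lit 1824) (nat_lit 10468844155) (nat_lit 383) (nat_lit 5) (nat_lit 382) (nat_lit 5) (nat_lit 406) (nat_lit 5) (nat_lit 478) (nat_lit 454) (nat_lit 208))) (XT.nd (nat_lit 78) (nat_lit 1444) (nat_lit 0) (XT.lf (nat_lit 0) (nat_lit 14112196145) (nat_lit 1748) (nat_lit 7066185011) (nat_lit 76) (nat_lit 1869460891) (nat_lit 383) (nat_lit 5) (nat_lit 406) (nat_lit 5) (nat_lit 384) (nat_lit 5) (nat_lit 479) (nat_lit 454) (nat_lit 207)) (XT.lf (nat_lit 0) (nat_lit 4282777151) (nat_lit 1444) (nat_lit 11722292532) (nat_lit 1520) (nat_lit 7294724376) (nat_lit 364) (nat_lit 5) (nat_lit 383) (nat_lit 5) (nat_lit 384) (nat_lit 5) (nat_lit 480) (nat_lit 454) (nat_lit 206)))))) (XT.nd (nat_lit 546) (nat_lit 3116) (nat_lit 0) (XT.nd (nat_lit 234) (nat_lit 1824) (nat_lit 0) (XT.nd (nat_lit 78) (nat_lit 836) (nat_lit 0) (XT.lf (nat_lit 0) (nat_lit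 15951617937) (nat_lit 1444) (nat_lit 2028255262) (nat_lit 1520) (nat_lit 5576032637) (nat_lit 364) (nat_lit 5) (nat_lit 383) (nat_lit 5) (nat_lit 384) (nat_lit 5) (nat_lit 481) (nat_lit 454) (nat_lit 205)) (XT.nd (nat_lit 78) (nat_lit 0) (nat_lit 0) (XT.lf (nat_lit 0) (nat_lit 4035695702) (nat_lit 836) (nat_lit 16032432855) (nat_lit 912) (nat_lit 3747534310) (nat_lit 353) (nat_lit 5) (nat_lit 364) (nat_lit 5) (nat_lit 365) (nat_lit 5) (nat_lit 482) (nat_lit 454) (nat_lit 204)) (XT.lf (nat_lit 0) (nat_lit 15995066795) (nat_lit 836) (nat_lit 6264223554) (nat_lit 912) (nat_lit 1820103954) (nat_lit 353) (nat_lit 5) (nat_lit 364) (nat_lit 5) (nat_lit 365) (nat_lit 5) (nat_lit 483) (nat_lit 454) (nat_lit 203)))) (XT.nd (nat_lit 156) (nat_lit 836) (nat_lit 0) (XT.nd (nat_lit 78) (nat_lit 0) (nat_lit 0) (XT.lf (nat_lit 0) (nat_lit 190237762) (nat_lit 988) (nat_lit 20479675627) (nat_lit 76) (nat_lit 3677544526) (nat_lit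 340) (nat_lit 5) (nat_lit 353) (nat_lit 5) (nat_lit 341) (nat_lit 5) (nat_lit 484) (nat_lit 454) (nat_lit 202)) (XT.lf (nat_lit 0) (nat_lit 2309387320) (nat_lit 988) (nat_lit 8508091767) (nat_lit 76) (nat_lit 13801305621) (nat_lit 340) (nat_lit 5) (nat_lit 353) (nat_lit 5) (nat_lit 341) (nat_lit 5) (nat_lit 485) (nat_lit 454) (nat_lit 201))) (XT.nd (nat_lit 78) (nat_lit 0) (nat_lit 0) (XT.lf (nat_lit 0) (nat_lit 3749237286) (nat_lit 836) (nat_lit 742941911) (nat_lit 912) (nat_lit 20402935585) (nat_lit 329) (nat_lit 5) (nat_lit 340) (nat_lit 5) (nat_lit 341) (nat_lit 5) (nat_lit 486) (nat_lit 454) (nat_lit 200)) (XT.lf (nat_lit 0) (nat_lit 6834954029) (nat_lit 912) (nat_lit 8873964086) (nat_lit 76) (nat_lit 9465728694) (nat_lit 329) (nat_lit 5) (nat_lit 341) (nat_lit 5) (nat_lit 330) (nat_lit 5) (nat_lit 487) (nat_lit 454) (nat_lit 199))))) (XT.nd (nat_lit 312) (nat_lit 1520) (nat_lit 0) (XT.nd (nat_lit 156) (nat_lit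 760) (nat_lit 0) (XT.nd (nat_lit 78) (nat_lit 0) (nat_lit 0) (XT.lf (nat_lit 0) (nat_lit 3683936241) (nat_lit 836) (nat_lit 5566506544) (nat_lit 912) (nat_lit 16208811379) (nat_lit 318) (nat_lit 5) (nat_lit 329) (nat_lit 5) (nat_lit 330) (nat_lit 5) (nat_lit 488) (nat_lit 454) (nat_lit 198)) (XT.lf (nat_lit 0) (nat_lit 11802272017) (nat_lit 912) (nat_lit 9169389709) (nat_lit 76) (nat_lit 4776133147) (nat_lit 318) (nat_lit 5) (nat_lit 330) (nat_lit 5) (nat_lit 319) (nat_lit 5) (nat_lit 489) (nat_lit 454) (nat_lit 197))) (XT.nd (nat_lit 78) (nat_lit 0) (nat_lit 0) (XT.lf (nat_lit 0) (nat_lit 3697452883) (nat_lit 760) (nat_lit 10765673714) (nat_lit 836) (nat_lit 11577821807) (nat_lit 308) (nat_lit 5) (nat_lit 318) (nat_lit 5) (nat_lit 319) (nat_lit 5) (nat_lit 490) (nat_lit 454) (nat_lit 196)) (XT.lf (nat_lit 0) (nat_lit 16943111792) (nat_lit 760) (nat_lit 292774311) (nat_lit 836) (nat_lit 9102906896) (nat_lit 308)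 (nat_lit 5) (nat_lit 318) (nat_lit 5) (nat_lit 319) (nat_lit 5) (nat_lit 491) (nat_lit 454) (nat_lit 195)))) (XT.nd (nat_lit 156) (nat_lit 760) (nat_lit 0) (XT.nd (nat_lit 78) (nat_lit 0) (nat_lit 0) (XT.lf (nat_lit 0) (nat_lit 3790530303) (nat_lit 760) (nat_lit 16362849546) (nat_lit 836) (nat_lit 6487430771) (nat_lit 298) (nat_lit 5) (nat_lit 308) (nat_lit 5) (nat_lit 309) (nat_lit 5) (nat_lit 492) (nat_lit 454) (nat_lit 194)) (XT.lf (nat_lit 0) (nat_lit 17363064327) (nat_lit 760) (nat_lit 5828384098) (nat_lit 836) (nat_lit 3756177352) (nat_lit 298) (nat_lit 5) (nat_lit 308) (nat_lit 5) (nat_lit 309) (nat_lit 5) (nat_lit 493) (nat_lit 454) (nat_lit 193))) (XT.nd (nat_lit 78) (nat_lit 76) (nat_lit 0) (XT.lf (nat_lit 0) (nat_lit 3963735548) (nat_lit 684) (nat_lit 22381503447) (nat_lit 760) (nat_lit 914240677) (nat_lit 289) (nat_lit 5) (nat_lit 298) (nat_lit 5) (nat_lit 299) (nat_lit 5) (nat_lit 494) (nat_lit 454)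 (nat_lit 192)) (XT.lf (nat_lit 0) (nat_lit 2059167269) (nat_lit 760) (nat_lit 9718091213) (nat_lit 76) (nat_lit 15798042848) (nat_lit 288) (nat_lit 5) (nat_lit 298) (nat_lit 5) (nat_lit 289) (nat_lit 5) (nat_lit 495) (nat_lit 454) (nat_lit 191))))))))
noncomputable def xc239 : XT := (XT.nd (nat_lit 57252) (nat_lit 0) (nat_lit 3952) (XT.nd (nat_lit 56160) (nat_lit 0) (nat_lit 12844) (XT.nd (nat_lit 546) (nat_lit 1976) (nat_lit 0) (XT.nd (nat_lit 234) (nat_lit 1292) (nat_lit 0) (XT.nd (nat_lit 78) (nat_lit 684) (nat_lit 0) (XT.lf (nat_lit 0) (nat_lit 4177081367) (nat_lit 760) (nat_lit 927222838) (nat_lit 836) (nat_lit 22792525856) (nat_lit 278) (nat_lit 5) (nat_lit 288) (nat_lit 5) (nat_lit 289) (nat_lit 5) (nat_lit 496) (nat_lit 454) (nat_lit 190)) (XT.nd (nat_lit 78) (nat_lit 684) (nat_lit 0) (XT.lf (nat_lit 0) (nat_lit 8339227127) (nat_lit 836) (nat_lit 9810658976) (nat_lit 76) (nat_lit 10072327123) (nat_lit 278)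 (nat_lit 5) (nat_lit 289) (nat_lit 5) (nat_lit 279) (nat_lit 5) (nat_lit 497) (nat_lit 454) (nat_lit 189)) (XT.lf (nat_lit 0) (nat_lit 4425775368) (nat_lit 684) (nat_lit 7245403135) (nat_lit 760) (nat_lit 16882280445) (nat_lit 269) (nat_lit 5) (nat_lit 278) (nat_lit 5) (nat_lit 279) (nat_lit 5) (nat_lit 498) (nat_lit 454) (nat_lit 188)))) (XT.nd (nat_lit 156) (nat_lit 608) (nat_lit 0) (XT.nd (nat_lit 78) (nat_lit 684) (nat_lit 0) (XT.lf (nat_lit 0) (nat_lit 15158697985) (nat_lit 760) (nat_lit 9838471365) (nat_lit 76) (nat_lit 3892383115) (nat_lit 269) (nat_lit 5) (nat_lit 279) (nat_lit 5) (nat_lit 270) (nat_lit 5) (nat_lit 499) (nat_lit 454) (nat_lit 187)) (XT.lf (nat_lit 0) (nat_lit 4748095008) (nat_lit 684) (nat_lit 14044217989) (nat_lit 760) (nat_lit 10438529388) (nat_lit 260) (nat_lit 5) (nat_lit 269) (nat_lit 5) (nat_lit 270) (nat_lit 5) (nat_lit 500) (nat_lit 454) (nat_lit 186))) (XT.nd (nat_lit 78) (nat_lit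 608) (nat_lit 0) (XT.lf (nat_lit 0) (nat_lit 19757054264) (nat_lit 684) (nat_lit 2805132723) (nat_lit 760) (nat_lit 7015500789) (nat_lit 260) (nat_lit 5) (nat_lit 269) (nat_lit 5) (nat_lit 270) (nat_lit 5) (nat_lit 501) (nat_lit 454) (nat_lit 185)) (XT.lf (nat_lit 0) (nat_lit 5143263243) (nat_lit 608) (nat_lit 21351418335) (nat_lit 684) (nat_lit 3435045416) (nat_lit 252) (nat_lit 5) (nat_lit 260) (nat_lit 5) (nat_lit 261) (nat_lit 5) (nat_lit 502) (nat_lit 454) (nat_lit 184))))) (XT.nd (nat_lit 234) (nat_lit 1216) (nat_lit 0) (XT.nd (nat_lit 78) (nat_lit 684) (nat_lit 0) (XT.lf (nat_lit 0) (nat_lit 296711797) (nat_lit 684) (nat_lit 9771063388) (nat_lit 76) (nat_lit 20219354177) (nat_lit 251) (nat_lit 5) (nat_lit 260) (nat_lit 5) (nat_lit 252) (nat_lit 5) (nat_lit 503) (nat_lit 454) (nat_lit 183)) (XT.nd (nat_lit 78) (nat_lit 0) (nat_lit 0) (XT.lf (nat_lit 0) (nat_lit 4100881575) (nat_lit 760) (nat_lit 25067708765)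 (nat_lit 76) (nat_lit 1481761169) (nat_lit 242) (nat_lit 5) (nat_lit 252) (nat_lit 5) (nat_lit 243) (nat_lit 5) (nat_lit 504) (nat_lit 454) (nat_lit 182)) (XT.lf (nat_lit 0) (nat_lit 8111508771) (nat_lit 760) (nat_lit 9713448195) (nat_lit 76) (nat_lit 13193274927) (nat_lit 242) (nat_lit 5) (nat_lit 252) (nat_lit 5) (nat_lit 243) (nat_lit 5) (nat_lit 505) (nat_lit 454) (nat_lit 181)))) (XT.nd (nat_lit 156) (nat_lit 608) (nat_lit 0) (XT.nd (nat_lit 78) (nat_lit 0) (nat_lit 0) (XT.lf (nat_lit 0) (nat_lit 6024274110) (nat_lit 608) (nat_lit 6214929949) (nat_lit 684) (nat_lit 19153529964) (nat_lit 234) (nat_lit 5) (nat_lit 242) (nat_lit 5) (nat_lit 243) (nat_lit 5) (nat_lit 506) (nat_lit 454) (nat_lit 180)) (XT.lf (nat_lit 0) (nat_lit 16549370184) (nat_lit 684) (nat_lit 9604630093) (nat_lit 76) (nat_lit 5618728806) (nat_lit 234) (nat_lit 5) (nat_lit 243) (nat_lit 5) (nat_lit 235) (nat_lit 5) (nat_lit 507) (nat_lit 454)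 (nat_lit 179))) (XT.nd (nat_lit 78) (nat_lit 0) (nat_lit 0) (XT.lf (nat_lit 0) (nat_lit 6516171815) (nat_lit 608) (nat_lit 14510844150) (nat_lit 684) (nat_lit 11131683753) (nat_lit 226) (nat_lit 5) (nat_lit 234) (nat_lit 5) (nat_lit 235) (nat_lit 5) (nat_lit 508) (nat_lit 454) (nat_lit 178)) (XT.lf (nat_lit 0) (nat_lit 23086993405) (nat_lit 608) (nat_lit 2569510046) (nat_lit 684) (nat_lit 6894641717) (nat_lit 226) (nat_lit 5) (nat_lit 234) (nat_lit 5) (nat_lit 235) (nat_lit 5) (nat_lit 509) (nat_lit 454) (nat_lit 177)))))) (XT.nd (nat_lit 546) (nat_lit 0) (nat_lit 228) (XT.nd (nat_lit 234) (nat_lit 0) (nat_lit 76) (XT.nd (nat_lit 78) (nat_lit 0) (nat_lit 0) (XT.lf (nat_lit 0) (nat_lit 5254415725) (nat_lit 1748) (nat_lit 1916854863) (nat_lit 1748) (nat_lit 1916854863) (nat_lit 395) (nat_lit 3) (nat_lit 418) (nat_lit 3) (nat_lit 418) (nat_lit 5) (nat_lit 455) (nat_lit 455) (nat_lit 230)) (XT.nd (nat_lit 78) (nat_lit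 0) (nat_lit 76) (XT.lf (nat_lit 76) (nat_lit 4581259551) (nat_lit 0) (nat_lit 6255153383) (nat_lit 1748) (nat_lit 7517017232) (nat_lit 396) (nat_lit 5) (nat_lit 395) (nat_lit 3) (nat_lit 418) (nat_lit 5) (nat_lit 456) (nat_lit 455) (nat_lit 229)) (XT.lf (nat_lit 0) (nat_lit 11204332007) (nat_lit 1672) (nat_lit 5332995405) (nat_lit 1748) (nat_lit 1996153381) (nat_lit 396) (nat_lit 5) (nat_lit 418) (nat_lit 5) (nat_lit 419) (nat_lit 5) (nat_lit 457) (nat_lit 455) (nat_lit 228)))) (XT.nd (nat_lit 156) (nat_lit 0) (nat_lit 76) (XT.nd (nat_lit 78) (nat_lit 0) (nat_lit 76) (XT.lf (nat_lit 76) (nat_lit 3273793025) (nat_lit 0) (nat_lit 8363539204) (nat_lit 1748) (nat_lit 7078649180) (nat_lit 397) (nat_lit 5) (nat_lit 396) (nat_lit 5) (nat_lit 419) (nat_lit 5) (nat_lit 458) (nat_lit 455) (nat_lit 227)) (XT.lf (nat_lit 0) (nat_lit 12109982627) (nat_lit 1672) (nat_lit 6779254776) (nat_lit 1748) (nat_lit 12278193) (nat_lit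 397) (nat_lit 5) (nat_lit 419) (nat_lit 5) (nat_lit 420) (nat_lit 5) (nat_lit 459) (nat_lit 455) (nat_lit 226))) (XT.nd (nat_lit 78) (nat_lit 0) (nat_lit 0) (XT.lf (nat_lit 76) (nat_lit 2025388198) (nat_lit 0) (nat_lit 10630467597) (nat_lit 1748) (nat_lit 6433632573) (nat_lit 398) (nat_lit 5) (nat_lit 397) (nat_lit 5) (nat_lit 420) (nat_lit 5) (nat_lit 460) (nat_lit 455) (nat_lit 225)) (XT.lf (nat_lit 76) (nat_lit 11095311582) (nat_lit 0) (nat_lit 2158135050) (nat_lit 1748) (nat_lit 6026961192) (nat_lit 398) (nat_lit 5) (nat_lit 397) (nat_lit 5) (nat_lit 420) (nat_lit 5) (nat_lit 461) (nat_lit 455) (nat_lit 224))))) (XT.nd (nat_lit 234) (nat_lit 0) (nat_lit 76) (XT.nd (nat_lit 78) (nat_lit 0) (nat_lit 0) (XT.lf (nat_lit 76) (nat_lit 837615361) (nat_lit 0) (nat_lit 13068320875) (nat_lit 1748) (nat_lit 5568353663) (nat_lit 399) (nat_lit 5) (nat_lit 398) (nat_lit 5) (nat_lit 421) (nat_lit 5) (nat_lit 462) (nat_lit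 455) (nat_lit 223)) (XT.nd (nat_lit 78) (nat_lit 0) (nat_lit 76) (XT.lf (nat_lit 76) (nat_lit 10134506517) (nat_lit 0) (nat_lit 4501578291) (nat_lit 1748) (nat_lit 5034675730) (nat_lit 399) (nat_lit 5) (nat_lit 398) (nat_lit 5) (nat_lit 421) (nat_lit 5) (nat_lit 463) (nat_lit 455) (nat_lit 222)) (XT.lf (nat_lit 0) (nat_lit 15403926944) (nat_lit 1672) (nat_lit 284123914) (nat_lit 1748) (nat_lit 4182650966) (nat_lit 399) (nat_lit 5) (nat_lit 421) (nat_lit 5) (nat_lit 422) (nat_lit 5) (nat_lit 464) (nat_lit 455) (nat_lit 221)))) (XT.nd (nat_lit 156) (nat_lit 0) (nat_lit 76) (XT.nd (nat_lit 78) (nat_lit 0) (nat_lit 76) (XT.lf (nat_lit 76) (nat_lit 9241705752) (nat_lit 0) (nat_lit 7030906241) (nat_lit 1748) (nat_lit 3800323208) (nat_lit 400) (nat_lit 5) (nat_lit 399) (nat_lit 5) (nat_lit 422) (nat_lit 5) (nat_lit 465) (nat_lit 455) (nat_lit 220)) (XT.lf (nat_lit 0) (nat_lit 17168021013) (nat_lit 1672) (nat_lit 1331785189)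 (nat_lit 1748) (nat_lit 1779222965) (nat_lit 400) (nat_lit 5) (nat_lit 422) (nat_lit 5) (nat_lit 423) (nat_lit 5) (nat_lit 466) (nat_lit 455) (nat_lit 219))) (XT.nd (nat_lit 78) (nat_lit 0) (nat_lit 0) (XT.lf (nat_lit 76) (nat_lit 8418736096) (nat_lit 0) (nat_lit 9759656039) (nat_lit 1748) (nat_lit 2308914670) (nat_lit 401) (nat_lit 5) (nat_lit 400) (nat_lit 5) (nat_lit 423) (nat_lit 5) (nat_lit 467) (nat_lit 455) (nat_lit 218)) (XT.lf (nat_lit 76) (nat_lit 18379575879) (nat_lit 0) (nat_lit 834227305) (nat_lit 1748) (nat_lit 1485852974) (nat_lit 401) (nat_lit 5) (nat_lit 400) (nat_lit 5) (nat_lit 423) (nat_lit 5) (nat_lit 468) (nat_lit 455) (nat_lit 217))))))) (XT.nd (nat_lit 1092) (nat_lit 6536) (nat_lit 0) (XT.nd (nat_lit 546) (nat_lit 1064) (nat_lit 0) (XT.nd (nat_lit 234) (nat_lit 0) (nat_lit 76) (XT.nd (nat_lit 78) (nat_lit 1748) (nat_lit 0) (XT.lf (nat_lit 76) (nat_lit 7667464992) (nat_lit 0) (nat_lit 12701916835)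 (nat_lit 1748) (nat_lit 544884244) (nat_lit 402) (nat_lit 5) (nat_lit 401) (nat_lit 5) (nat_lit 424) (nat_lit 5) (nat_lit 469) (nat_lit 455) (nat_lit 216)) (XT.nd (nat_lit 78) (nat_lit 0) (nat_lit 76) (XT.lf (nat_lit 0) (nat_lit 426675657) (nat_lit 1748) (nat_lit 3257787943) (nat_lit 1824) (nat_lit 17448309089) (nat_lit 378) (nat_lit 5) (nat_lit 401) (nat_lit 5) (nat_lit 402) (nat_lit 5) (nat_lit 470) (nat_lit 455) (nat_lit 215)) (XT.lf (nat_lit 0) (nat_lit 1488158316) (nat_lit 1748) (nat_lit 14374219120) (nat_lit 1824) (nat_lit 5491646818) (nat_lit 379) (nat_lit 5) (nat_lit 402) (nat_lit 5) (nat_lit 403) (nat_lit 5) (nat_lit 471) (nat_lit 455) (nat_lit 214)))) (XT.nd (nat_lit 156) (nat_lit 0) (nat_lit 76) (XT.nd (nat_lit 78) (nat_lit 0) (nat_lit 76) (XT.lf (nat_lit 0) (nat_lit 2613437876) (nat_lit 1748) (nat_lit 4140331701) (nat_lit 1824) (nat_lit 14825082478) (nat_lit 379) (nat_lit 5) (nat_lit 402) (nat_lit 5)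 (nat_lit 403) (nat_lit 5) (nat_lit 472) (nat_lit 455) (nat_lit 213)) (XT.lf (nat_lit 0) (nat_lit 3815629008) (nat_lit 1748) (nat_lit 15445059307) (nat_lit 1824) (nat_lit 2546402475) (nat_lit 380) (nat_lit 5) (nat_lit 403) (nat_lit 5) (nat_lit 404) (nat_lit 5) (nat_lit 473) (nat_lit 455) (nat_lit 212))) (XT.nd (nat_lit 78) (nat_lit 0) (nat_lit 0) (XT.lf (nat_lit 0) (nat_lit 5110856630) (nat_lit 1748) (nat_lit 4956526433) (nat_lit 1824) (nat_lit 11971133833) (nat_lit 380) (nat_lit 5) (nat_lit 403) (nat_lit 5) (nat_lit 404) (nat_lit 5) (nat_lit 474) (nat_lit 455) (nat_lit 211)) (XT.lf (nat_lit 76) (nat_lit 5815258913) (nat_lit 0) (nat_lit 650856912) (nat_lit 1824) (nat_lit 15807775562) (nat_lit 381) (nat_lit 5) (nat_lit 380) (nat_lit 5) (nat_lit 404) (nat_lit 5) (nat_lit 475) (nat_lit 455) (nat_lit 210))))) (XT.nd (nat_lit 234) (nat_lit 1292) (nat_lit 0) (XT.nd (nat_lit 78) (nat_lit 0) (nat_lit 0) (XT.lf (nat_lit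 0) (nat_lit 7936525628) (nat_lit 1748) (nat_lit 5704843886) (nat_lit 1824) (nat_lit 8870845298) (nat_lit 381) (nat_lit 5) (nat_lit 404) (nat_lit 5) (nat_lit 405) (nat_lit 5) (nat_lit 476) (nat_lit 455) (nat_lit 209)) (XT.nd (nat_lit 78) (nat_lit 0) (nat_lit 76) (XT.lf (nat_lit 76) (nat_lit 5326780525) (nat_lit 0) (nat_lit 4144957370) (nat_lit 1824) (nat_lit 13282861235) (nat_lit 382) (nat_lit 5) (nat_lit 381) (nat_lit 5) (nat_lit 405) (nat_lit 5) (nat_lit 477) (nat_lit 455) (nat_lit 208)) (XT.lf (nat_lit 0) (nat_lit 11108722781) (nat_lit 1748) (nat_lit 6383777886) (nat_lit 1824) (nat_lit 5507911361) (nat_lit 382) (nat_lit 5) (nat_lit 405) (nat_lit 5) (nat_lit 406) (nat_lit 5) (nat_lit 478) (nat_lit 455) (nat_lit 207)))) (XT.nd (nat_lit 156) (nat_lit 1368) (nat_lit 0) (XT.nd (nat_lit 78) (nat_lit 0) (nat_lit 76) (XT.lf (nat_lit 76) (nat_lit 4915366745) (nat_lit 0) (nat_lit 7919066066) (nat_lit 1824) (nat_lit 10415590884)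 (nat_lit 383) (nat_lit 5) (nat_lit 382) (nat_lit 5) (nat_lit 406) (nat_lit 5) (nat_lit 479) (nat_lit 455) (nat_lit 206)) (XT.lf (nat_lit 0) (nat_lit 14646437067) (nat_lit 1748) (nat_lit 6991857651) (nat_lit 76) (nat_lit 1865299453) (nat_lit 383) (nat_lit 5) (nat_lit 406) (nat_lit 5) (nat_lit 384) (nat_lit 5) (nat_lit 480) (nat_lit 455) (nat_lit 205))) (XT.nd (nat_lit 78) (nat_lit 0) (nat_lit 0) (XT.lf (nat_lit 0) (nat_lit 4582664998) (nat_lit 1444) (nat_lit 11990952899) (nat_lit 1520) (nat_lit 7187041562) (nat_lit 364) (nat_lit 5) (nat_lit 383) (nat_lit 5) (nat_lit 384) (nat_lit 5) (nat_lit 481) (nat_lit 455) (nat_lit 204)) (XT.lf (nat_lit 0) (nat_lit 16480681966) (nat_lit 1444) (nat_lit 2102364011) (nat_lit 1520) (nat_lit 5438948092) (nat_lit 364) (nat_lit 5) (nat_lit 383) (nat_lit 5) (nat_lit 384) (nat_lit 5) (nat_lit 482) (nat_lit 455) (nat_lit 203)))))) (XT.nd (nat_lit 546) (nat_lit 3040) (nat_lit 0) (XT.nd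 (nat_lit 234) (nat_lit 1672) (nat_lit 0) (XT.nd (nat_lit 78) (nat_lit 988) (nat_lit 0) (XT.lf (nat_lit 0) (nat_lit 4330272647) (nat_lit 836) (nat_lit 16379192832) (nat_lit 912) (nat_lit 3577555886) (nat_lit 353) (nat_lit 5) (nat_lit 364) (nat_lit 5) (nat_lit 365) (nat_lit 5) (nat_lit 483) (nat_lit 455) (nat_lit 202)) (XT.nd (nat_lit 78) (nat_lit 988) (nat_lit 0) (XT.lf (nat_lit 0) (nat_lit 16524637769) (nat_lit 836) (nat_lit 6415107358) (nat_lit 912) (nat_lit 1616379455) (nat_lit 353) (nat_lit 5) (nat_lit 364) (nat_lit 5) (nat_lit 365) (nat_lit 5) (nat_lit 484) (nat_lit 455) (nat_lit 201)) (XT.lf (nat_lit 0) (nat_lit 427603083) (nat_lit 988) (nat_lit 20672737929) (nat_lit 76) (nat_lit 3729248532) (nat_lit 340) (nat_lit 5) (nat_lit 353) (nat_lit 5) (nat_lit 341) (nat_lit 5) (nat_lit 485) (nat_lit 455) (nat_lit 200)))) (XT.nd (nat_lit 156) (nat_lit 836) (nat_lit 0) (XT.nd (nat_lit 78) (nat_lit 836) (nat_lit 0) (XT.lf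 (nat_lit 0) (nat_lit 2584556014) (nat_lit 988) (nat_lit 8465968102) (nat_lit 76) (nat_lit 14055913219) (nat_lit 340) (nat_lit 5) (nat_lit 353) (nat_lit 5) (nat_lit 341) (nat_lit 5) (nat_lit 486) (nat_lit 455) (nat_lit 199)) (XT.lf (nat_lit 0) (nat_lit 4035110917) (nat_lit 836) (nat_lit 772772220) (nat_lit 912) (nat_lit 20580476098) (nat_lit 329) (nat_lit 5) (nat_lit 340) (nat_lit 5) (nat_lit 341) (nat_lit 5) (nat_lit 487) (nat_lit 455) (nat_lit 198))) (XT.nd (nat_lit 78) (nat_lit 836) (nat_lit 0) (XT.lf (nat_lit 0) (nat_lit 7192989532) (nat_lit 912) (nat_lit 8840027748) (nat_lit 76) (nat_lit 9640557859) (nat_lit 329) (nat_lit 5) (nat_lit 341) (nat_lit 5) (nat_lit 330) (nat_lit 5) (nat_lit 488) (nat_lit 455) (nat_lit 197)) (XT.lf (nat_lit 0) (nat_lit 3967639694) (nat_lit 836) (nat_lit 5686172059) (nat_lit 912) (nat_lit 16310125118) (nat_lit 318) (nat_lit 5) (nat_lit 329) (nat_lit 5) (nat_lit 330) (nat_lit 5) (nat_lit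 489) (nat_lit 455) (nat_lit 196))))) (XT.nd (nat_lit 312) (nat_lit 1520) (nat_lit 0) (XT.nd (nat_lit 156) (nat_lit 760) (nat_lit 0) (XT.nd (nat_lit 78) (nat_lit 760) (nat_lit 0) (XT.lf (nat_lit 0) (nat_lit 12252342941) (nat_lit 912) (nat_lit 9142403755) (nat_lit 76) (nat_lit 4863591041) (nat_lit 318) (nat_lit 5) (nat_lit 330) (nat_lit 5) (nat_lit 319) (nat_lit 5) (nat_lit 490) (nat_lit 455) (nat_lit 195)) (XT.lf (nat_lit 0) (nat_lit 3980391652) (nat_lit 760) (nat_lit 10983183283) (nat_lit 836) (nat_lit 11593838797) (nat_lit 308) (nat_lit 5) (nat_lit 318) (nat_lit 5) (nat_lit 319) (nat_lit 5) (nat_lit 491) (nat_lit 455) (nat_lit 194))) (XT.nd (nat_lit 78) (nat_lit 760) (nat_lit 0) (XT.lf (nat_lit 0) (nat_lit 17486865901) (nat_lit 760) (nat_lit 300782832) (nat_lit 836) (nat_lit 9073651851) (nat_lit 308) (nat_lit 5) (nat_lit 318) (nat_lit 5) (nat_lit 319) (nat_lit 5) (nat_lit 492) (nat_lit 455) (nat_lit 193)) (XT.lf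 (nat_lit 0) (nat_lit 4074138892) (nat_lit 760) (nat_lit 16686629216) (nat_lit 836) (nat_lit 6408647433) (nat_lit 298) (nat_lit 5) (nat_lit 308) (nat_lit 5) (nat_lit 309) (nat_lit 5) (nat_lit 493) (nat_lit 455) (nat_lit 192)))) (XT.nd (nat_lit 156) (nat_lit 836) (nat_lit 0) (XT.nd (nat_lit 78) (nat_lit 684) (nat_lit 0) (XT.lf (nat_lit 0) (nat_lit 17914049125) (nat_lit 760) (nat_lit 5941542641) (nat_lit 836) (nat_lit 3626857807) (nat_lit 298) (nat_lit 5) (nat_lit 308) (nat_lit 5) (nat_lit 309) (nat_lit 5) (nat_lit 494) (nat_lit 455) (nat_lit 191)) (XT.lf (nat_lit 0) (nat_lit 4249473053) (nat_lit 684) (nat_lit 22820419557) (nat_lit 760) (nat_lit 730701648) (nat_lit 289) (nat_lit 5) (nat_lit 298) (nat_lit 5) (nat_lit 299) (nat_lit 5) (nat_lit 495) (nat_lit 455) (nat_lit 190))) (XT.nd (nat_lit 78) (nat_lit 760) (nat_lit 0) (XT.lf (nat_lit 0) (nat_lit 2295622071) (nat_lit 760) (nat_lit 9707328109) (nat_lit 76) (nat_lit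 16119836378) (nat_lit 288) (nat_lit 5) (nat_lit 298) (nat_lit 5) (nat_lit 289) (nat_lit 5) (nat_lit 496) (nat_lit 455) (nat_lit 189)) (XT.lf (nat_lit 0) (nat_lit 4464398417) (nat_lit 760) (nat_lit 934757523) (nat_lit 836) (nat_lit 23051642303) (nat_lit 278) (nat_lit 5) (nat_lit 288) (nat_lit 5) (nat_lit 289) (nat_lit 5) (nat_lit 497) (nat_lit 455) (nat_lit 188))))))))
noncomputable def xc240 : XT := (XT.nd (nat_lit 57330) (nat_lit 0) (nat_lit 3268) (XT.nd (nat_lit 56238) (nat_lit 0) (nat_lit 11552) (XT.nd (nat_lit 546) (nat_lit 1900) (nat_lit 0) (XT.nd (nat_lit 234) (nat_lit 1368) (nat_lit 0) (XT.nd (nat_lit 78) (nat_lit 684) (nat_lit 0) (XT.lf (nat_lit 0) (nat_lit 8695067682) (nat_lit 836) (nat_lit 9803271802) (nat_lit 76) (nat_lit 10284425996) (nat_lit 278) (nat_lit 5) (nat_lit 289) (nat_lit 5) (nat_lit 279) (nat_lit 5) (nat_lit 498) (nat_lit 455) (nat_lit 187)) (XT.nd (nat_lit 78) (nat_lit 0) (nat_lit 0) (XT.lf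 (nat_lit 0) (nat_lit 4716551752) (nat_lit 684) (nat_lit 7374712564) (nat_lit 760) (nat_lit 17029421850) (nat_lit 269) (nat_lit 5) (nat_lit 278) (nat_lit 5) (nat_lit 279) (nat_lit 5) (nat_lit 499) (nat_lit 455) (nat_lit 186)) (XT.lf (nat_lit 0) (nat_lit 15644973436) (nat_lit 760) (nat_lit 9833278477) (nat_lit 76) (nat_lit 3985322988) (nat_lit 269) (nat_lit 5) (nat_lit 279) (nat_lit 5) (nat_lit 270) (nat_lit 5) (nat_lit 500) (nat_lit 455) (nat_lit 185)))) (XT.nd (nat_lit 156) (nat_lit 684) (nat_lit 0) (XT.nd (nat_lit 78) (nat_lit 0) (nat_lit 0) (XT.lf (nat_lit 0) (nat_lit 5043690523) (nat_lit 684) (nat_lit 14305282645) (nat_lit 760) (nat_lit 10462765292) (nat_lit 260) (nat_lit 5) (nat_lit 269) (nat_lit 5) (nat_lit 270) (nat_lit 5) (nat_lit 501) (nat_lit 455) (nat_lit 184)) (XT.lf (nat_lit 0) (nat_lit 20348894973) (nat_lit 684) (nat_lit 2841804296) (nat_lit 760) (nat_lit 6974894448) (nat_lit 260) (nat_lit 5) (nat_lit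 269) (nat_lit 5) (nat_lit 270) (nat_lit 5) (nat_lit 502) (nat_lit 455) (nat_lit 183))) (XT.nd (nat_lit 78) (nat_lit 76) (nat_lit 0) (XT.lf (nat_lit 0) (nat_lit 5445032542) (nat_lit 608) (nat_lit 21754750457) (nat_lit 684) (nat_lit 3324933942) (nat_lit 252) (nat_lit 5) (nat_lit 260) (nat_lit 5) (nat_lit 261) (nat_lit 5) (nat_lit 503) (nat_lit 455) (nat_lit 182)) (XT.lf (nat_lit 0) (nat_lit 475653117) (nat_lit 684) (nat_lit 9769084991) (nat_lit 76) (nat_lit 20644577163) (nat_lit 251) (nat_lit 5) (nat_lit 260) (nat_lit 5) (nat_lit 252) (nat_lit 5) (nat_lit 504) (nat_lit 455) (nat_lit 181))))) (XT.nd (nat_lit 234) (nat_lit 608) (nat_lit 0) (XT.nd (nat_lit 78) (nat_lit 608) (nat_lit 0) (XT.lf (nat_lit 0) (nat_lit 4353950912) (nat_lit 760) (nat_lit 25369613253) (nat_lit 76) (nat_lit 1536278697) (nat_lit 242) (nat_lit 5) (nat_lit 252) (nat_lit 5) (nat_lit 243) (nat_lit 5) (nat_lit 505) (nat_lit 455) (nat_lit 180)) (XT.nd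 (nat_lit 78) (nat_lit 608) (nat_lit 0) (XT.lf (nat_lit 0) (nat_lit 8441436697) (nat_lit 760) (nat_lit 9712178250) (nat_lit 76) (nat_lit 13481534842) (nat_lit 242) (nat_lit 5) (nat_lit 252) (nat_lit 5) (nat_lit 243) (nat_lit 5) (nat_lit 506) (nat_lit 455) (nat_lit 179)) (XT.lf (nat_lit 0) (nat_lit 6339012061) (nat_lit 608) (nat_lit 6310646854) (nat_lit 684) (nat_lit 19367525405) (nat_lit 234) (nat_lit 5) (nat_lit 242) (nat_lit 5) (nat_lit 243) (nat_lit 5) (nat_lit 507) (nat_lit 455) (nat_lit 178)))) (XT.nd (nat_lit 55302) (nat_lit 0) (nat_lit 12844) (XT.nd (nat_lit 78) (nat_lit 608) (nat_lit 0) (XT.lf (nat_lit 0) (nat_lit 17042961849) (nat_lit 684) (nat_lit 9603123400) (nat_lit 76) (nat_lit 5758757147) (nat_lit 234) (nat_lit 5) (nat_lit 243) (nat_lit 5) (nat_lit 235) (nat_lit 5) (nat_lit 508) (nat_lit 455) (nat_lit 177)) (XT.lf (nat_lit 0) (nat_lit 6838820867) (nat_lit 608) (nat_lit 14769400065) (nat_lit 684) (nat_lit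 11190352052) (nat_lit 226) (nat_lit 5) (nat_lit 234) (nat_lit 5) (nat_lit 235) (nat_lit 5) (nat_lit 509) (nat_lit 455) (nat_lit 176))) (XT.nd (nat_lit 78) (nat_lit 0) (nat_lit 0) (XT.lf (nat_lit 0) (nat_lit 5551001182) (nat_lit 1748) (nat_lit 1857462159) (nat_lit 1748) (nat_lit 1857462159) (nat_lit 395) (nat_lit 3) (nat_lit 418) (nat_lit 3) (nat_lit 418) (nat_lit 5) (nat_lit 456) (nat_lit 456) (nat_lit 228)) (XT.lf (nat_lit 76) (nat_lit 4867058426) (nat_lit 0) (nat_lit 6562828066) (nat_lit 1748) (nat_lit 7282817536) (nat_lit 396) (nat_lit 5) (nat_lit 395) (nat_lit 3) (nat_lit 418) (nat_lit 5) (nat_lit 457) (nat_lit 456) (nat_lit 227)))))) (XT.nd (nat_lit 546) (nat_lit 1368) (nat_lit 0) (XT.nd (nat_lit 234) (nat_lit 0) (nat_lit 76) (XT.nd (nat_lit 78) (nat_lit 0) (nat_lit 0) (XT.lf (nat_lit 0) (nat_lit 11796614650) (nat_lit 1672) (nat_lit 5240484919) (nat_lit 1748) (nat_lit 1859432179) (nat_lit 396) (nat_lit 5)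 (nat_lit 418) (nat_lit 5) (nat_lit 419) (nat_lit 5) (nat_lit 458) (nat_lit 456) (nat_lit 226)) (XT.nd (nat_lit 78) (nat_lit 0) (nat_lit 0) (XT.lf (nat_lit 76) (nat_lit 3537128948) (nat_lit 0) (nat_lit 8695211037) (nat_lit 1748) (nat_lit 6850466083) (nat_lit 397) (nat_lit 5) (nat_lit 396) (nat_lit 5) (nat_lit 419) (nat_lit 5) (nat_lit 459) (nat_lit 456) (nat_lit 225)) (XT.lf (nat_lit 76) (nat_lit 12558770532) (nat_lit 0) (nat_lit 148487307) (nat_lit 1748) (nat_lit 6564941708) (nat_lit 397) (nat_lit 5) (nat_lit 396) (nat_lit 5) (nat_lit 419) (nat_lit 5) (nat_lit 460) (nat_lit 456) (nat_lit 224)))) (XT.nd (nat_lit 156) (nat_lit 0) (nat_lit 76) (XT.nd (nat_lit 78) (nat_lit 0) (nat_lit 0) (XT.lf (nat_lit 76) (nat_lit 2266939481) (nat_lit 0) (nat_lit 10990506857) (nat_lit 1748) (nat_lit 6206622281) (nat_lit 398) (nat_lit 5) (nat_lit 397) (nat_lit 5) (nat_lit 420) (nat_lit 5) (nat_lit 461) (nat_lit 456) (nat_lit 223))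 (XT.lf (nat_lit 76) (nat_lit 11514319304) (nat_lit 0) (nat_lit 2345836876) (nat_lit 1748) (nat_lit 5798791647) (nat_lit 398) (nat_lit 5) (nat_lit 397) (nat_lit 5) (nat_lit 420) (nat_lit 5) (nat_lit 462) (nat_lit 456) (nat_lit 222))) (XT.nd (nat_lit 78) (nat_lit 0) (nat_lit 0) (XT.lf (nat_lit 76) (nat_lit 1058126361) (nat_lit 0) (nat_lit 13461273273) (nat_lit 1748) (nat_lit 5337438443) (nat_lit 399) (nat_lit 5) (nat_lit 398) (nat_lit 5) (nat_lit 421) (nat_lit 5) (nat_lit 463) (nat_lit 456) (nat_lit 221)) (XT.lf (nat_lit 76) (nat_lit 10536960071) (nat_lit 0) (nat_lit 4720615720) (nat_lit 1748) (nat_lit 4799798369) (nat_lit 399) (nat_lit 5) (nat_lit 398) (nat_lit 5) (nat_lit 421) (nat_lit 5) (nat_lit 464) (nat_lit 456) (nat_lit 220))))) (XT.nd (nat_lit 234) (nat_lit 1596) (nat_lit 0) (XT.nd (nat_lit 78) (nat_lit 0) (nat_lit 0) (XT.lf (nat_lit 0) (nat_lit 16033507145) (nat_lit 1672) (nat_lit 86470506) (nat_lit 1748)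 (nat_lit 4141486409) (nat_lit 399) (nat_lit 5) (nat_lit 421) (nat_lit 5) (nat_lit 422) (nat_lit 5) (nat_lit 465) (nat_lit 456) (nat_lit 219)) (XT.nd (nat_lit 78) (nat_lit 0) (nat_lit 76) (XT.lf (nat_lit 76) (nat_lit 9628538018) (nat_lit 0) (nat_lit 7286035429) (nat_lit 1748) (nat_lit 3553272854) (nat_lit 400) (nat_lit 5) (nat_lit 399) (nat_lit 5) (nat_lit 422) (nat_lit 5) (nat_lit 466) (nat_lit 456) (nat_lit 218)) (XT.lf (nat_lit 0) (nat_lit 17820955680) (nat_lit 1672) (nat_lit 1153235367) (nat_lit 1748) (nat_lit 1704014062) (nat_lit 400) (nat_lit 5) (nat_lit 422) (nat_lit 5) (nat_lit 423) (nat_lit 5) (nat_lit 467) (nat_lit 456) (nat_lit 217)))) (XT.nd (nat_lit 156) (nat_lit 1672) (nat_lit 0) (XT.nd (nat_lit 78) (nat_lit 0) (nat_lit 0) (XT.lf (nat_lit 76) (nat_lit 8790946439) (nat_lit 0) (nat_lit 10055841139) (nat_lit 1748) (nat_lit 2043959834) (nat_lit 401) (nat_lit 5) (nat_lit 400) (nat_lit 5) (nat_lit 423) (nat_lit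 5) (nat_lit 468) (nat_lit 456) (nat_lit 216)) (XT.lf (nat_lit 76) (nat_lit 18947006241) (nat_lit 0) (nat_lit 949923595) (nat_lit 1748) (nat_lit 1210537554) (nat_lit 401) (nat_lit 5) (nat_lit 400) (nat_lit 5) (nat_lit 423) (nat_lit 5) (nat_lit 469) (nat_lit 456) (nat_lit 215))) (XT.nd (nat_lit 78) (nat_lit 1748) (nat_lit 0) (XT.lf (nat_lit 76) (nat_lit 8026118247) (nat_lit 0) (nat_lit 13044344713) (nat_lit 1748) (nat_lit 256013700) (nat_lit 402) (nat_lit 5) (nat_lit 401) (nat_lit 5) (nat_lit 424) (nat_lit 5) (nat_lit 470) (nat_lit 456) (nat_lit 214)) (XT.lf (nat_lit 0) (nat_lit 725245165) (nat_lit 1748) (nat_lit 3117617825) (nat_lit 1824) (nat_lit 17706571370) (nat_lit 378) (nat_lit 5) (nat_lit 401) (nat_lit 5) (nat_lit 402) (nat_lit 5) (nat_lit 471) (nat_lit 456) (nat_lit 213))))))) (XT.nd (nat_lit 1092) (nat_lit 6384) (nat_lit 0) (XT.nd (nat_lit 546) (nat_lit 1976) (nat_lit 0) (XT.nd (nat_lit 234) (nat_lit 0)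 (nat_lit 76) (XT.nd (nat_lit 78) (nat_lit 0) (nat_lit 0) (XT.lf (nat_lit 0) (nat_lit 1803064398) (nat_lit 1748) (nat_lit 14451295271) (nat_lit 1824) (nat_lit 5520852935) (nat_lit 379) (nat_lit 5) (nat_lit 402) (nat_lit 5) (nat_lit 403) (nat_lit 5) (nat_lit 472) (nat_lit 456) (nat_lit 212)) (XT.nd (nat_lit 78) (nat_lit 0) (nat_lit 76) (XT.lf (nat_lit 0) (nat_lit 2945258512) (nat_lit 1748) (nat_lit 4016855756) (nat_lit 1824) (nat_lit 15042538225) (nat_lit 379) (nat_lit 5) (nat_lit 402) (nat_lit 5) (nat_lit 403) (nat_lit 5) (nat_lit 473) (nat_lit 456) (nat_lit 211)) (XT.lf (nat_lit 0) (nat_lit 4166884996) (nat_lit 1748) (nat_lit 15542887516) (nat_lit 1824) (nat_lit 2527779300) (nat_lit 380) (nat_lit 5) (nat_lit 403) (nat_lit 5) (nat_lit 404) (nat_lit 5) (nat_lit 474) (nat_lit 456) (nat_lit 210)))) (XT.nd (nat_lit 156) (nat_lit 0) (nat_lit 76) (XT.nd (nat_lit 78) (nat_lit 0) (nat_lit 0) (XT.lf (nat_lit 0) (nat_lit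 5482626123) (nat_lit 1748) (nat_lit 4848722670) (nat_lit 1824) (nat_lit 12142369035) (nat_lit 380) (nat_lit 5) (nat_lit 403) (nat_lit 5) (nat_lit 404) (nat_lit 5) (nat_lit 475) (nat_lit 456) (nat_lit 209)) (XT.lf (nat_lit 76) (nat_lit 6137136973) (nat_lit 0) (nat_lit 723902904) (nat_lit 1824) (nat_lit 15852842440) (nat_lit 381) (nat_lit 5) (nat_lit 380) (nat_lit 5) (nat_lit 404) (nat_lit 5) (nat_lit 476) (nat_lit 456) (nat_lit 208))) (XT.nd (nat_lit 78) (nat_lit 0) (nat_lit 0) (XT.lf (nat_lit 0) (nat_lit 8355267894) (nat_lit 1748) (nat_lit 5611637307) (nat_lit 1824) (nat_lit 8990182240) (nat_lit 381) (nat_lit 5) (nat_lit 404) (nat_lit 5) (nat_lit 405) (nat_lit 5) (nat_lit 477) (nat_lit 456) (nat_lit 207)) (XT.lf (nat_lit 76) (nat_lit 5639255754) (nat_lit 0) (nat_lit 4278167479) (nat_lit 1824) (nat_lit 13286974796) (nat_lit 382) (nat_lit 5) (nat_lit 381) (nat_lit 5) (nat_lit 405) (nat_lit 5) (nat_lit 478) (nat_lit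 456) (nat_lit 206))))) (XT.nd (nat_lit 234) (nat_lit 2204) (nat_lit 0) (XT.nd (nat_lit 78) (nat_lit 0) (nat_lit 0) (XT.lf (nat_lit 0) (nat_lit 11581803049) (nat_lit 1748) (nat_lit 6304042312) (nat_lit 1824) (nat_lit 5569392016) (nat_lit 382) (nat_lit 5) (nat_lit 405) (nat_lit 5) (nat_lit 406) (nat_lit 5) (nat_lit 479) (nat_lit 456) (nat_lit 205)) (XT.nd (nat_lit 78) (nat_lit 0) (nat_lit 76) (XT.lf (nat_lit 76) (nat_lit 5219720665) (nat_lit 0) (nat_lit 8118724684) (nat_lit 1824) (nat_lit 10371470797) (nat_lit 383) (nat_lit 5) (nat_lit 382) (nat_lit 5) (nat_lit 406) (nat_lit 5) (nat_lit 480) (nat_lit 456) (nat_lit 204)) (XT.lf (nat_lit 0) (nat_lit 15181577457) (nat_lit 1748) (nat_lit 6924417737) (nat_lit 76) (nat_lit 1862668249) (nat_lit 383) (nat_lit 5) (nat_lit 406) (nat_lit 5) (nat_lit 384) (nat_lit 5) (nat_lit 481) (nat_lit 456) (nat_lit 203)))) (XT.nd (nat_lit 156) (nat_lit 836) (nat_lit 0) (XT.nd (nat_lit 78)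 (nat_lit 0) (nat_lit 0) (XT.lf (nat_lit 0) (nat_lit 4880231700) (nat_lit 1444) (nat_lit 12263657882) (nat_lit 1520) (nat_lit 7087051807) (nat_lit 364) (nat_lit 5) (nat_lit 383) (nat_lit 5) (nat_lit 384) (nat_lit 5) (nat_lit 482) (nat_lit 456) (nat_lit 202)) (XT.lf (nat_lit 0) (nat_lit 17012171489) (nat_lit 1444) (nat_lit 2176652394) (nat_lit 1520) (nat_lit 5308775499) (nat_lit 364) (nat_lit 5) (nat_lit 383) (nat_lit 5) (nat_lit 384) (nat_lit 5) (nat_lit 483) (nat_lit 456) (nat_lit 201))) (XT.nd (nat_lit 78) (nat_lit 0) (nat_lit 0) (XT.lf (nat_lit 0) (nat_lit 4622436568) (nat_lit 836) (nat_lit 16731874074) (nat_lit 912) (nat_lit 3413688790) (nat_lit 353) (nat_lit 5) (nat_lit 364) (nat_lit 5) (nat_lit 365) (nat_lit 5) (nat_lit 484) (nat_lit 456) (nat_lit 200)) (XT.lf (nat_lit 0) (nat_lit 17056658434) (nat_lit 836) (nat_lit 6568014784) (nat_lit 912) (nat_lit 1417904873) (nat_lit 353) (nat_lit 5) (nat_lit 364) (nat_lit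 5) (nat_lit 365) (nat_lit 5) (nat_lit 485) (nat_lit 456) (nat_lit 199)))))) (XT.nd (nat_lit 546) (nat_lit 2964) (nat_lit 0) (XT.nd (nat_lit 234) (nat_lit 1596) (nat_lit 0) (XT.nd (nat_lit 78) (nat_lit 836) (nat_lit 0) (XT.lf (nat_lit 0) (nat_lit 660646270) (nat_lit 988) (nat_lit 20878069648) (nat_lit 76) (nat_lit 3782834960) (nat_lit 340) (nat_lit 5) (nat_lit 353) (nat_lit 5) (nat_lit 341) (nat_lit 5) (nat_lit 486) (nat_lit 456) (nat_lit 198)) (XT.nd (nat_lit 78) (nat_lit 836) (nat_lit 0) (XT.lf (nat_lit 0) (nat_lit 2856336472) (nat_lit 988) (nat_lit 8431245268) (nat_lit 76) (nat_lit 14316444677) (nat_lit 340) (nat_lit 5) (nat_lit 353) (nat_lit 5) (nat_lit 341) (nat_lit 5) (nat_lit 487) (nat_lit 456) (nat_lit 197)) (XT.lf (nat_lit 0) (nat_lit 4318512948) (nat_lit 836) (nat_lit 802617774) (nat_lit 912) (nat_lit 20770518725) (nat_lit 329) (nat_lit 5) (nat_lit 340) (nat_lit 5) (nat_lit 341) (nat_lit 5) (nat_lit 488)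 (nat_lit 456) (nat_lit 196)))) (XT.nd (nat_lit 156) (nat_lit 760) (nat_lit 0) (XT.nd (nat_lit 78) (nat_lit 836) (nat_lit 0) (XT.lf (nat_lit 0) (nat_lit 7549590982) (nat_lit 912) (nat_lit 8813622209) (nat_lit 76) (nat_lit 9819446094) (nat_lit 329) (nat_lit 5) (nat_lit 341) (nat_lit 5) (nat_lit 330) (nat_lit 5) (nat_lit 489) (nat_lit 456) (nat_lit 195)) (XT.lf (nat_lit 0) (nat_lit 4248861700) (nat_lit 836) (nat_lit 5807907211) (nat_lit 912) (nat_lit 16422119153) (nat_lit 318) (nat_lit 5) (nat_lit 329) (nat_lit 5) (nat_lit 330) (nat_lit 5) (nat_lit 490) (nat_lit 456) (nat_lit 194))) (XT.nd (nat_lit 78) (nat_lit 760) (nat_lit 0) (XT.lf (nat_lit 0) (nat_lit 12703104413) (nat_lit 912) (nat_lit 9123047151) (nat_lit 76) (nat_lit 4953111258) (nat_lit 318) (nat_lit 5) (nat_lit 330) (nat_lit 5) (nat_lit 319) (nat_lit 5) (nat_lit 491) (nat_lit 456) (nat_lit 193)) (XT.lf (nat_lit 0) (nat_lit 4260873870) (nat_lit 760) (nat_lit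 11204957766) (nat_lit 836) (nat_lit 11618545785) (nat_lit 308) (nat_lit 5) (nat_lit 318) (nat_lit 5) (nat_lit 319) (nat_lit 5) (nat_lit 492) (nat_lit 456) (nat_lit 192))))) (XT.nd (nat_lit 312) (nat_lit 1520) (nat_lit 0) (XT.nd (nat_lit 156) (nat_lit 684) (nat_lit 0) (XT.nd (nat_lit 78) (nat_lit 760) (nat_lit 0) (XT.lf (nat_lit 0) (nat_lit 18033538891) (nat_lit 760) (nat_lit 308867917) (nat_lit 836) (nat_lit 9052017253) (nat_lit 308) (nat_lit 5) (nat_lit 318) (nat_lit 5) (nat_lit 319) (nat_lit 5) (nat_lit 493) (nat_lit 456) (nat_lit 191)) (XT.lf (nat_lit 0) (nat_lit 4355350603) (nat_lit 760) (nat_lit 17017019507) (nat_lit 836) (nat_lit 6336385977) (nat_lit 298) (nat_lit 5) (nat_lit 308) (nat_lit 5) (nat_lit 309) (nat_lit 5) (nat_lit 494) (nat_lit 456) (nat_lit 190))) (XT.nd (nat_lit 78) (nat_lit 684) (nat_lit 0) (XT.lf (nat_lit 0) (nat_lit 18468142788) (nat_lit 760) (nat_lit 6057096736) (nat_lit 836) (nat_lit 3502890645)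 (nat_lit 298) (nat_lit 5) (nat_lit 308) (nat_lit 5) (nat_lit 309) (nat_lit 5) (nat_lit 495) (nat_lit 456) (nat_lit 189)) (XT.lf (nat_lit 0) (nat_lit 4532908106) (nat_lit 684) (nat_lit 23268452363) (nat_lit 760) (nat_lit 551328905) (nat_lit 289) (nat_lit 5) (nat_lit 298) (nat_lit 5) (nat_lit 299) (nat_lit 5) (nat_lit 496) (nat_lit 456) (nat_lit 188)))) (XT.nd (nat_lit 156) (nat_lit 684) (nat_lit 0) (XT.nd (nat_lit 78) (nat_lit 760) (nat_lit 0) (XT.lf (nat_lit 0) (nat_lit 2529223341) (nat_lit 760) (nat_lit 9704314994) (nat_lit 76) (nat_lit 16447839288) (nat_lit 288) (nat_lit 5) (nat_lit 298) (nat_lit 5) (nat_lit 289) (nat_lit 5) (nat_lit 497) (nat_lit 456) (nat_lit 187)) (XT.lf (nat_lit 0) (nat_lit 4749548960) (nat_lit 760) (nat_lit 942870424) (nat_lit 836) (nat_lit 23323580502) (nat_lit 278) (nat_lit 5) (nat_lit 288) (nat_lit 5) (nat_lit 289) (nat_lit 5) (nat_lit 498) (nat_lit 456) (nat_lit 186))) (XT.nd (nat_lit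 78) (nat_lit 684) (nat_lit 0) (XT.lf (nat_lit 0) (nat_lit 9050683773) (nat_lit 836) (nat_lit 9803642935) (nat_lit 76) (nat_lit 10500353204) (nat_lit 278) (nat_lit 5) (nat_lit 289) (nat_lit 5) (nat_lit 279) (nat_lit 5) (nat_lit 499) (nat_lit 456) (nat_lit 185)) (XT.lf (nat_lit 0) (nat_lit 5005289628) (nat_lit 684) (nat_lit 7507213895) (nat_lit 760) (nat_lit 17186903593) (nat_lit 269) (nat_lit 5) (nat_lit 278) (nat_lit 5) (nat_lit 279) (nat_lit 5) (nat_lit 500) (nat_lit 456) (nat_lit 184))))))))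
noncomputable def xc241 : XT := (XT.nd (nat_lit 57486) (nat_lit 0) (nat_lit 1368) (XT.nd (nat_lit 56394) (nat_lit 0) (nat_lit 10944) (XT.nd (nat_lit 546) (nat_lit 608) (nat_lit 0) (XT.nd (nat_lit 234) (nat_lit 1368) (nat_lit 0) (XT.nd (nat_lit 78) (nat_lit 684) (nat_lit 0) (XT.lf (nat_lit 0) (nat_lit 16133864341) (nat_lit 760) (nat_lit 9835824175) (nat_lit 76) (nat_lit 4079535609) (nat_lit 269) (nat_lit 5) (nat_lit 279) (nat_lit 5) (nat_lit 270) (nat_lit 5) (nat_lit 501) (nat_lit 456) (nat_lit 183)) (XT.nd (nat_lit 78) (nat_lit 0) (nat_lit 0) (XT.lf (nat_lit 0) (nat_lit 5337407101) (nat_lit 684) (nat_lit 14572338218) (nat_lit 760) (nat_lit 10494651620) (nat_lit 260) (nat_lit 5) (nat_lit 269) (nat_lit 5) (nat_lit 270) (nat_lit 5) (nat_lit 502) (nat_lit 456) (nat_lit 182)) (XT.lf (nat_lit 0) (nat_lit 20944934409) (nat_lit 684) (nat_lit 2879963832) (nat_lit 760) (nat_lit 6940501183) (nat_lit 260) (nat_lit 5) (nat_lit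 269) (nat_lit 5) (nat_lit 270) (nat_lit 5) (nat_lit 503) (nat_lit 456) (nat_lit 181)))) (XT.nd (nat_lit 156) (nat_lit 684) (nat_lit 0) (XT.nd (nat_lit 78) (nat_lit 76) (nat_lit 0) (XT.lf (nat_lit 0) (nat_lit 5745113541) (nat_lit 608) (nat_lit 22167069376) (nat_lit 684) (nat_lit 3219563742) (nat_lit 252) (nat_lit 5) (nat_lit 260) (nat_lit 5) (nat_lit 261) (nat_lit 5) (nat_lit 504) (nat_lit 456) (nat_lit 180)) (XT.lf (nat_lit 0) (nat_lit 651455187) (nat_lit 684) (nat_lit 9774732296) (nat_lit 76) (nat_lit 21077495525) (nat_lit 251) (nat_lit 5) (nat_lit 260) (nat_lit 5) (nat_lit 252) (nat_lit 5) (nat_lit 505) (nat_lit 456) (nat_lit 179))) (XT.nd (nat_lit 78) (nat_lit 0) (nat_lit 0) (XT.lf (nat_lit 0) (nat_lit 4605439489) (nat_lit 760) (nat_lit 25685300706) (nat_lit 76) (nat_lit 1590920364) (nat_lit 242) (nat_lit 5) (nat_lit 252) (nat_lit 5) (nat_lit 243) (nat_lit 5) (nat_lit 506) (nat_lit 456) (nat_lit 178)) (XT.lf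 (nat_lit 0) (nat_lit 8771451273) (nat_lit 760) (nat_lit 9718475921) (nat_lit 76) (nat_lit 13774612689) (nat_lit 242) (nat_lit 5) (nat_lit 252) (nat_lit 5) (nat_lit 243) (nat_lit 5) (nat_lit 507) (nat_lit 456) (nat_lit 177))))) (XT.nd (nat_lit 55536) (nat_lit 0) (nat_lit 12312) (XT.nd (nat_lit 55380) (nat_lit 0) (nat_lit 12236) (XT.lf (nat_lit 0) (nat_lit 6652501711) (nat_lit 608) (nat_lit 6409387960) (nat_lit 684) (nat_lit 19592366149) (nat_lit 234) (nat_lit 5) (nat_lit 242) (nat_lit 5) (nat_lit 243) (nat_lit 5) (nat_lit 508) (nat_lit 456) (nat_lit 176)) (XT.nd (nat_lit 78) (nat_lit 0) (nat_lit 0) (XT.lf (nat_lit 0) (nat_lit 5846082282) (nat_lit 1748) (nat_lit 1800676568) (nat_lit 1748) (nat_lit 1800676568) (nat_lit 395) (nat_lit 3) (nat_lit 418) (nat_lit 3) (nat_lit 418) (nat_lit 5) (nat_lit 457) (nat_lit 457) (nat_lit 226)) (XT.lf (nat_lit 76) (nat_lit 5151033278) (nat_lit 0) (nat_lit 6869566763) (nat_lit 1748)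 (nat_lit 7058866004) (nat_lit 396) (nat_lit 5) (nat_lit 395) (nat_lit 3) (nat_lit 418) (nat_lit 5) (nat_lit 458) (nat_lit 457) (nat_lit 225)))) (XT.nd (nat_lit 156) (nat_lit 0) (nat_lit 0) (XT.nd (nat_lit 78) (nat_lit 0) (nat_lit 0) (XT.lf (nat_lit 0) (nat_lit 12386445446) (nat_lit 1672) (nat_lit 5153858252) (nat_lit 1748) (nat_lit 1726835865) (nat_lit 396) (nat_lit 5) (nat_lit 418) (nat_lit 5) (nat_lit 419) (nat_lit 5) (nat_lit 459) (nat_lit 457) (nat_lit 224)) (XT.lf (nat_lit 76) (nat_lit 3798048443) (nat_lit 0) (nat_lit 9027132414) (nat_lit 1748) (nat_lit 6632077404) (nat_lit 397) (nat_lit 5) (nat_lit 396) (nat_lit 5) (nat_lit 419) (nat_lit 5) (nat_lit 460) (nat_lit 457) (nat_lit 223))) (XT.nd (nat_lit 78) (nat_lit 0) (nat_lit 76) (XT.lf (nat_lit 76) (nat_lit 12996393899) (nat_lit 0) (nat_lit 306375834) (nat_lit 1748) (nat_lit 6347811129) (nat_lit 397) (nat_lit 5) (nat_lit 396) (nat_lit 5) (nat_lit 419) (nat_lit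 5) (nat_lit 461) (nat_lit 457) (nat_lit 222)) (XT.lf (nat_lit 76) (nat_lit 2505515026) (nat_lit 0) (nat_lit 11352022018) (nat_lit 1748) (nat_lit 5988883384) (nat_lit 398) (nat_lit 5) (nat_lit 397) (nat_lit 5) (nat_lit 420) (nat_lit 5) (nat_lit 462) (nat_lit 457) (nat_lit 221)))))) (XT.nd (nat_lit 546) (nat_lit 1444) (nat_lit 0) (XT.nd (nat_lit 234) (nat_lit 0) (nat_lit 152) (XT.nd (nat_lit 78) (nat_lit 0) (nat_lit 76) (XT.lf (nat_lit 76) (nat_lit 11934053489) (nat_lit 0) (nat_lit 2531680108) (nat_lit 1748) (nat_lit 5579599498) (nat_lit 398) (nat_lit 5) (nat_lit 397) (nat_lit 5) (nat_lit 420) (nat_lit 5) (nat_lit 463) (nat_lit 457) (nat_lit 220)) (XT.nd (nat_lit 78) (nat_lit 0) (nat_lit 0) (XT.lf (nat_lit 76) (nat_lit 1275135382) (nat_lit 0) (nat_lit 13856975075) (nat_lit 1748) (nat_lit 5115196157) (nat_lit 399) (nat_lit 5) (nat_lit 398) (nat_lit 5) (nat_lit 421) (nat_lit 5) (nat_lit 464) (nat_lit 457) (nat_lit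 219)) (XT.lf (nat_lit 76) (nat_lit 10939705639) (nat_lit 0) (nat_lit 4939024442) (nat_lit 1748) (nat_lit 4573254087) (nat_lit 399) (nat_lit 5) (nat_lit 398) (nat_lit 5) (nat_lit 421) (nat_lit 5) (nat_lit 465) (nat_lit 457) (nat_lit 218)))) (XT.nd (nat_lit 156) (nat_lit 0) (nat_lit 76) (XT.nd (nat_lit 78) (nat_lit 0) (nat_lit 0) (XT.lf (nat_lit 76) (nat_lit 108665355) (nat_lit 0) (nat_lit 16555234821) (nat_lit 1748) (nat_lit 3996385551) (nat_lit 400) (nat_lit 5) (nat_lit 399) (nat_lit 5) (nat_lit 422) (nat_lit 5) (nat_lit 466) (nat_lit 457) (nat_lit 217)) (XT.lf (nat_lit 76) (nat_lit 10015263094) (nat_lit 0) (nat_lit 7541820597) (nat_lit 1748) (nat_lit 3313826183) (nat_lit 400) (nat_lit 5) (nat_lit 399) (nat_lit 5) (nat_lit 422) (nat_lit 5) (nat_lit 467) (nat_lit 457) (nat_lit 216))) (XT.nd (nat_lit 78) (nat_lit 0) (nat_lit 0) (XT.lf (nat_lit 0) (nat_lit 18474927896) (nat_lit 1672) (nat_lit 979082153) (nat_lit 1748)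 (nat_lit 1631603221) (nat_lit 400) (nat_lit 5) (nat_lit 422) (nat_lit 5) (nat_lit 423) (nat_lit 5) (nat_lit 468) (nat_lit 457) (nat_lit 215)) (XT.lf (nat_lit 76) (nat_lit 9162685803) (nat_lit 0) (nat_lit 10354028299) (nat_lit 1748) (nat_lit 1785787581) (nat_lit 401) (nat_lit 5) (nat_lit 400) (nat_lit 5) (nat_lit 423) (nat_lit 5) (nat_lit 469) (nat_lit 457) (nat_lit 214))))) (XT.nd (nat_lit 234) (nat_lit 0) (nat_lit 76) (XT.nd (nat_lit 78) (nat_lit 1672) (nat_lit 0) (XT.lf (nat_lit 76) (nat_lit 19518025224) (nat_lit 0) (nat_lit 1064089065) (nat_lit 1748) (nat_lit 941560609) (nat_lit 401) (nat_lit 5) (nat_lit 400) (nat_lit 5) (nat_lit 423) (nat_lit 5) (nat_lit 470) (nat_lit 457) (nat_lit 213)) (XT.nd (nat_lit 78) (nat_lit 0) (nat_lit 0) (XT.lf (nat_lit 0) (nat_lit 26639859) (nat_lit 1748) (nat_lit 13363370248) (nat_lit 1824) (nat_lit 8357153739) (nat_lit 378) (nat_lit 5) (nat_lit 401) (nat_lit 5) (nat_lit 402) (nat_lit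 5) (nat_lit 471) (nat_lit 457) (nat_lit 212)) (XT.lf (nat_lit 0) (nat_lit 1018523612) (nat_lit 1748) (nat_lit 2982617360) (nat_lit 1824) (nat_lit 17973521040) (nat_lit 378) (nat_lit 5) (nat_lit 401) (nat_lit 5) (nat_lit 402) (nat_lit 5) (nat_lit 472) (nat_lit 457) (nat_lit 211)))) (XT.nd (nat_lit 156) (nat_lit 0) (nat_lit 76) (XT.nd (nat_lit 78) (nat_lit 0) (nat_lit 0) (XT.lf (nat_lit 0) (nat_lit 2113196156) (nat_lit 1748) (nat_lit 14538083353) (nat_lit 1824) (nat_lit 5553774011) (nat_lit 379) (nat_lit 5) (nat_lit 402) (nat_lit 5) (nat_lit 403) (nat_lit 5) (nat_lit 473) (nat_lit 457) (nat_lit 210)) (XT.lf (nat_lit 0) (nat_lit 3272860221) (nat_lit 1748) (nat_lit 3898920495) (nat_lit 1824) (nat_lit 15267412536) (nat_lit 379) (nat_lit 5) (nat_lit 402) (nat_lit 5) (nat_lit 403) (nat_lit 5) (nat_lit 474) (nat_lit 457) (nat_lit 209))) (XT.nd (nat_lit 78) (nat_lit 0) (nat_lit 0) (XT.lf (nat_lit 0) (nat_lit 4514489716)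 (nat_lit 1748) (nat_lit 15650868509) (nat_lit 1824) (nat_lit 2511484420) (nat_lit 380) (nat_lit 5) (nat_lit 403) (nat_lit 5) (nat_lit 404) (nat_lit 5) (nat_lit 475) (nat_lit 457) (nat_lit 208)) (XT.lf (nat_lit 0) (nat_lit 5851363960) (nat_lit 1748) (nat_lit 4746798342) (nat_lit 1824) (nat_lit 12319676743) (nat_lit 380) (nat_lit 5) (nat_lit 403) (nat_lit 5) (nat_lit 404) (nat_lit 5) (nat_lit 476) (nat_lit 457) (nat_lit 207))))))) (XT.nd (nat_lit 1092) (nat_lit 5852) (nat_lit 0) (XT.nd (nat_lit 546) (nat_lit 2660) (nat_lit 0) (XT.nd (nat_lit 234) (nat_lit 1216) (nat_lit 0) (XT.nd (nat_lit 78) (nat_lit 0) (nat_lit 76) (XT.lf (nat_lit 76) (nat_lit 6457469950) (nat_lit 0) (nat_lit 796078822) (nat_lit 1824) (nat_lit 15909337359) (nat_lit 381) (nat_lit 5) (nat_lit 380) (nat_lit 5) (nat_lit 404) (nat_lit 5) (nat_lit 477) (nat_lit 457) (nat_lit 206)) (XT.nd (nat_lit 78) (nat_lit 0) (nat_lit 0) (XT.lf (nat_lit 0) (nat_lit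 8772288431) (nat_lit 1748) (nat_lit 5524616442) (nat_lit 1824) (nat_lit 9114161236) (nat_lit 381) (nat_lit 5) (nat_lit 404) (nat_lit 5) (nat_lit 405) (nat_lit 5) (nat_lit 478) (nat_lit 457) (nat_lit 205)) (XT.lf (nat_lit 76) (nat_lit 5949983601) (nat_lit 0) (nat_lit 4412088154) (nat_lit 1824) (nat_lit 13301326687) (nat_lit 382) (nat_lit 5) (nat_lit 381) (nat_lit 5) (nat_lit 405) (nat_lit 5) (nat_lit 479) (nat_lit 457) (nat_lit 204)))) (XT.nd (nat_lit 156) (nat_lit 1368) (nat_lit 0) (XT.nd (nat_lit 78) (nat_lit 0) (nat_lit 0) (XT.lf (nat_lit 0) (nat_lit 12054601943) (nat_lit 1748) (nat_lit 6230766053) (nat_lit 1824) (nat_lit 5633992493) (nat_lit 382) (nat_lit 5) (nat_lit 405) (nat_lit 5) (nat_lit 406) (nat_lit 5) (nat_lit 480) (nat_lit 457) (nat_lit 203)) (XT.lf (nat_lit 76) (nat_lit 5522160624) (nat_lit 0) (nat_lit 8320773625) (nat_lit 1824) (nat_lit 10336270547) (nat_lit 383) (nat_lit 5) (nat_lit 382) (nat_lit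 5) (nat_lit 406) (nat_lit 5) (nat_lit 481) (nat_lit 457) (nat_lit 202))) (XT.nd (nat_lit 78) (nat_lit 1444) (nat_lit 0) (XT.lf (nat_lit 0) (nat_lit 15718015281) (nat_lit 1748) (nat_lit 6863677846) (nat_lit 76) (nat_lit 1861535231) (nat_lit 383) (nat_lit 5) (nat_lit 406) (nat_lit 5) (nat_lit 384) (nat_lit 5) (nat_lit 482) (nat_lit 457) (nat_lit 201)) (XT.lf (nat_lit 0) (nat_lit 5175753867) (nat_lit 1444) (nat_lit 12540539964) (nat_lit 1520) (nat_lit 6994526612) (nat_lit 364) (nat_lit 5) (nat_lit 383) (nat_lit 5) (nat_lit 384) (nat_lit 5) (nat_lit 483) (nat_lit 457) (nat_lit 200))))) (XT.nd (nat_lit 234) (nat_lit 1824) (nat_lit 0) (XT.nd (nat_lit 78) (nat_lit 836) (nat_lit 0) (XT.lf (nat_lit 0) (nat_lit 17546451717) (nat_lit 1444) (nat_lit 2251174584) (nat_lit 1520) (nat_lit 5185278234) (nat_lit 364) (nat_lit 5) (nat_lit 383) (nat_lit 5) (nat_lit 384) (nat_lit 5) (nat_lit 484) (nat_lit 457) (nat_lit 199)) (XT.nd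 (nat_lit 78) (nat_lit 0) (nat_lit 0) (XT.lf (nat_lit 0) (nat_lit 4912461682) (nat_lit 836) (nat_lit 17090634378) (nat_lit 912) (nat_lit 3255685927) (nat_lit 353) (nat_lit 5) (nat_lit 364) (nat_lit 5) (nat_lit 365) (nat_lit 5) (nat_lit 485) (nat_lit 457) (nat_lit 198)) (XT.lf (nat_lit 0) (nat_lit 17591493939) (nat_lit 836) (nat_lit 6723024907) (nat_lit 912) (nat_lit 1224423129) (nat_lit 353) (nat_lit 5) (nat_lit 364) (nat_lit 5) (nat_lit 365) (nat_lit 5) (nat_lit 486) (nat_lit 457) (nat_lit 197)))) (XT.nd (nat_lit 156) (nat_lit 836) (nat_lit 0) (XT.nd (nat_lit 78) (nat_lit 0) (nat_lit 0) (XT.lf (nat_lit 0) (nat_lit 889633056) (nat_lit 988) (nat_lit 21095589672) (nat_lit 76) (nat_lit 3838308515) (nat_lit 340) (nat_lit 5) (nat_lit 353) (nat_lit 5) (nat_lit 341) (nat_lit 5) (nat_lit 487) (nat_lit 457) (nat_lit 196)) (XT.lf (nat_lit 0) (nat_lit 3125006203) (nat_lit 988) (nat_lit 8403751185) (nat_lit 76) (nat_lit 14582986174)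 (nat_lit 340) (nat_lit 5) (nat_lit 353) (nat_lit 5) (nat_lit 341) (nat_lit 5) (nat_lit 488) (nat_lit 457) (nat_lit 195))) (XT.nd (nat_lit 78) (nat_lit 0) (nat_lit 0) (XT.lf (nat_lit 0) (nat_lit 4599711940) (nat_lit 836) (nat_lit 832501453) (nat_lit 912) (nat_lit 20972965917) (nat_lit 329) (nat_lit 5) (nat_lit 340) (nat_lit 5) (nat_lit 341) (nat_lit 5) (nat_lit 489) (nat_lit 457) (nat_lit 194)) (XT.lf (nat_lit 0) (nat_lit 7905063443) (nat_lit 912) (nat_lit 8794579299) (nat_lit 76) (nat_lit 10002452738) (nat_lit 329) (nat_lit 5) (nat_lit 341) (nat_lit 5) (nat_lit 330) (nat_lit 5) (nat_lit 490) (nat_lit 457) (nat_lit 193)))))) (XT.nd (nat_lit 546) (nat_lit 2812) (nat_lit 0) (XT.nd (nat_lit 234) (nat_lit 1444) (nat_lit 0) (XT.nd (nat_lit 78) (nat_lit 760) (nat_lit 0) (XT.lf (nat_lit 0) (nat_lit 4527869318) (nat_lit 836) (nat_lit 5931765962) (nat_lit 912) (nat_lit 16544671046) (nat_lit 318) (nat_lit 5) (nat_lit 329)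 (nat_lit 5) (nat_lit 330) (nat_lit 5) (nat_lit 491) (nat_lit 457) (nat_lit 192)) (XT.nd (nat_lit 78) (nat_lit 760) (nat_lit 0) (XT.lf (nat_lit 0) (nat_lit 13154892966) (nat_lit 912) (nat_lit 9111155268) (nat_lit 76) (nat_lit 5044722883) (nat_lit 318) (nat_lit 5) (nat_lit 330) (nat_lit 5) (nat_lit 319) (nat_lit 5) (nat_lit 492) (nat_lit 457) (nat_lit 191)) (XT.lf (nat_lit 0) (nat_lit 4539165536) (nat_lit 760) (nat_lit 11431085774) (nat_lit 836) (nat_lit 11651791568) (nat_lit 308) (nat_lit 5) (nat_lit 318) (nat_lit 5) (nat_lit 319) (nat_lit 5) (nat_lit 493) (nat_lit 457) (nat_lit 190)))) (XT.nd (nat_lit 156) (nat_lit 684) (nat_lit 0) (XT.nd (nat_lit 78) (nat_lit 760) (nat_lit 0) (XT.lf (nat_lit 0) (nat_lit 18583498089) (nat_lit 760) (nat_lit 317034347) (nat_lit 836) (nat_lit 9037836880) (nat_lit 308) (nat_lit 5) (nat_lit 318) (nat_lit 5) (nat_lit 319) (nat_lit 5) (nat_lit 494) (nat_lit 457) (nat_lit 189)) (XT.lf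 (nat_lit 0) (nat_lit 4634430831) (nat_lit 760) (nat_lit 17354147389) (nat_lit 836) (nat_lit 6270462404) (nat_lit 298) (nat_lit 5) (nat_lit 308) (nat_lit 5) (nat_lit 309) (nat_lit 5) (nat_lit 495) (nat_lit 457) (nat_lit 188))) (XT.nd (nat_lit 78) (nat_lit 684) (nat_lit 0) (XT.lf (nat_lit 0) (nat_lit 19025714679) (nat_lit 760) (nat_lit 6175089154) (nat_lit 836) (nat_lit 3384074642) (nat_lit 298) (nat_lit 5) (nat_lit 308) (nat_lit 5) (nat_lit 309) (nat_lit 5) (nat_lit 496) (nat_lit 457) (nat_lit 187)) (XT.lf (nat_lit 0) (nat_lit 4814305975) (nat_lit 684) (nat_lit 23725771059) (nat_lit 760) (nat_lit 375901450) (nat_lit 289) (nat_lit 5) (nat_lit 298) (nat_lit 5) (nat_lit 299) (nat_lit 5) (nat_lit 497) (nat_lit 457) (nat_lit 186))))) (XT.nd (nat_lit 312) (nat_lit 1292) (nat_lit 0) (XT.nd (nat_lit 156) (nat_lit 684) (nat_lit 0) (XT.nd (nat_lit 78) (nat_lit 760) (nat_lit 0) (XT.lf (nat_lit 0) (nat_lit 2760208450) (nat_lit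 760) (nat_lit 9708897567) (nat_lit 76) (nat_lit 16782184561) (nat_lit 288) (nat_lit 5) (nat_lit 298) (nat_lit 5) (nat_lit 289) (nat_lit 5) (nat_lit 498) (nat_lit 457) (nat_lit 185)) (XT.lf (nat_lit 0) (nat_lit 5032796930) (nat_lit 760) (nat_lit 951556504) (nat_lit 836) (nat_lit 23608300241) (nat_lit 278) (nat_lit 5) (nat_lit 288) (nat_lit 5) (nat_lit 289) (nat_lit 5) (nat_lit 499) (nat_lit 457) (nat_lit 184))) (XT.nd (nat_lit 78) (nat_lit 684) (nat_lit 0) (XT.lf (nat_lit 0) (nat_lit 9406355980) (nat_lit 836) (nat_lit 9811620539) (nat_lit 76) (nat_lit 10720201375) (nat_lit 278) (nat_lit 5) (nat_lit 289) (nat_lit 5) (nat_lit 279) (nat_lit 5) (nat_lit 500) (nat_lit 457) (nat_lit 183)) (XT.lf (nat_lit 0) (nat_lit 5292253207) (nat_lit 684) (nat_lit 7642947447) (nat_lit 760) (nat_lit 17354645227) (nat_lit 269) (nat_lit 5) (nat_lit 278) (nat_lit 5) (nat_lit 279) (nat_lit 5) (nat_lit 501) (nat_lit 457) (nat_lit 182))))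 (XT.nd (nat_lit 156) (nat_lit 608) (nat_lit 0) (XT.nd (nat_lit 78) (nat_lit 684) (nat_lit 0) (XT.lf (nat_lit 0) (nat_lit 16625699102) (nat_lit 760) (nat_lit 9845958698) (nat_lit 76) (nat_lit 4175069191) (nat_lit 269) (nat_lit 5) (nat_lit 279) (nat_lit 5) (nat_lit 270) (nat_lit 5) (nat_lit 502) (nat_lit 457) (nat_lit 181)) (XT.lf (nat_lit 0) (nat_lit 5629509691) (nat_lit 684) (nat_lit 14845474639) (nat_lit 760) (nat_lit 10534063129) (nat_lit 260) (nat_lit 5) (nat_lit 269) (nat_lit 5) (nat_lit 270) (nat_lit 5) (nat_lit 503) (nat_lit 457) (nat_lit 180))) (XT.nd (nat_lit 78) (nat_lit 608) (nat_lit 0) (XT.lf (nat_lit 0) (nat_lit 21545553144) (nat_lit 684) (nat_lit 2919611793) (nat_lit 760) (nat_lit 6912172458) (nat_lit 260) (nat_lit 5) (nat_lit 269) (nat_lit 5) (nat_lit 270) (nat_lit 5) (nat_lit 504) (nat_lit 457) (nat_lit 179)) (XT.lf (nat_lit 0) (nat_lit 6043772394) (nat_lit 608) (nat_lit 22588519096) (nat_lit 684)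 (nat_lit 3118760016) (nat_lit 252) (nat_lit 5) (nat_lit 260) (nat_lit 5) (nat_lit 261) (nat_lit 5) (nat_lit 505) (nat_lit 457) (nat_lit 178))))))))
noncomputable def xc242 : XT := (XT.nd (nat_lit 57564) (nat_lit 0) (nat_lit 684) (XT.nd (nat_lit 56472) (nat_lit 0) (nat_lit 10336) (XT.nd (nat_lit 55926) (nat_lit 0) (nat_lit 11704) (XT.nd (nat_lit 55614) (nat_lit 0) (nat_lit 11628) (XT.nd (nat_lit 78) (nat_lit 684) (nat_lit 0) (XT.lf (nat_lit 0) (nat_lit 824316094) (nat_lit 684) (nat_lit 9787860164) (nat_lit 76) (nat_lit 21518294589) (nat_lit 251) (nat_lit 5) (nat_lit 260) (nat_lit 5) (nat_lit 252) (nat_lit 5) (nat_lit 506) (nat_lit 457) (nat_lit 177)) (XT.nd (nat_lit 78) (nat_lit 0) (nat_lit 0) (XT.lf (nat_lit 0) (nat_lit 4855573614) (nat_lit 760) (nat_lit 26014746039) (nat_lit 76) (nat_lit 1645726175) (nat_lit 242) (nat_lit 5) (nat_lit 252) (nat_lit 5) (nat_lit 243) (nat_lit 5) (nat_lit 507) (nat_lit 457) (nat_lit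 176)) (XT.lf (nat_lit 0) (nat_lit 9101807098) (nat_lit 760) (nat_lit 9732197712) (nat_lit 76) (nat_lit 14072641613) (nat_lit 242) (nat_lit 5) (nat_lit 252) (nat_lit 5) (nat_lit 243) (nat_lit 5) (nat_lit 508) (nat_lit 457) (nat_lit 175)))) (XT.nd (nat_lit 156) (nat_lit 0) (nat_lit 76) (XT.nd (nat_lit 78) (nat_lit 0) (nat_lit 0) (XT.lf (nat_lit 0) (nat_lit 6139917687) (nat_lit 1748) (nat_lit 1746402870) (nat_lit 1748) (nat_lit 1746402870) (nat_lit 395) (nat_lit 3) (nat_lit 418) (nat_lit 3) (nat_lit 418) (nat_lit 5) (nat_lit 458) (nat_lit 458) (nat_lit 224)) (XT.lf (nat_lit 76) (nat_lit 5433440413) (nat_lit 0) (nat_lit 7175626050) (nat_lit 1748) (nat_lit 6844787766) (nat_lit 396) (nat_lit 5) (nat_lit 395) (nat_lit 3) (nat_lit 418) (nat_lit 5) (nat_lit 459) (nat_lit 458) (nat_lit 223))) (XT.nd (nat_lit 78) (nat_lit 0) (nat_lit 0) (XT.lf (nat_lit 0) (nat_lit 12974330548) (nat_lit 1672) (nat_lit 5072932759) (nat_lit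 1748) (nat_lit 1598180582) (nat_lit 396) (nat_lit 5) (nat_lit 418) (nat_lit 5) (nat_lit 419) (nat_lit 5) (nat_lit 460) (nat_lit 458) (nat_lit 222)) (XT.lf (nat_lit 76) (nat_lit 4056801526) (nat_lit 0) (nat_lit 9359556219) (nat_lit 1748) (nat_lit 6423121488) (nat_lit 397) (nat_lit 5) (nat_lit 396) (nat_lit 5) (nat_lit 419) (nat_lit 5) (nat_lit 461) (nat_lit 458) (nat_lit 221))))) (XT.nd (nat_lit 234) (nat_lit 0) (nat_lit 152) (XT.nd (nat_lit 78) (nat_lit 0) (nat_lit 76) (XT.lf (nat_lit 76) (nat_lit 13435529732) (nat_lit 0) (nat_lit 461406446) (nat_lit 1748) (nat_lit 6139867878) (nat_lit 397) (nat_lit 5) (nat_lit 396) (nat_lit 5) (nat_lit 419) (nat_lit 5) (nat_lit 462) (nat_lit 458) (nat_lit 220)) (XT.nd (nat_lit 78) (nat_lit 0) (nat_lit 0) (XT.lf (nat_lit 76) (nat_lit 2741358462) (nat_lit 0) (nat_lit 11715264904) (nat_lit 1748) (nat_lit 5780064991) (nat_lit 398) (nat_lit 5) (nat_lit 397) (nat_lit 5) (nat_lit 420)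 (nat_lit 5) (nat_lit 463) (nat_lit 458) (nat_lit 219)) (XT.lf (nat_lit 76) (nat_lit 12354825868) (nat_lit 0) (nat_lit 2715845519) (nat_lit 1748) (nat_lit 5369038486) (nat_lit 398) (nat_lit 5) (nat_lit 397) (nat_lit 5) (nat_lit 420) (nat_lit 5) (nat_lit 464) (nat_lit 458) (nat_lit 218)))) (XT.nd (nat_lit 156) (nat_lit 0) (nat_lit 76) (XT.nd (nat_lit 78) (nat_lit 0) (nat_lit 0) (XT.lf (nat_lit 76) (nat_lit 1488879626) (nat_lit 0) (nat_lit 14255679682) (nat_lit 1748) (nat_lit 4901284149) (nat_lit 399) (nat_lit 5) (nat_lit 398) (nat_lit 5) (nat_lit 421) (nat_lit 5) (nat_lit 465) (nat_lit 458) (nat_lit 217)) (XT.lf (nat_lit 76) (nat_lit 11343050278) (nat_lit 0) (nat_lit 5156986408) (nat_lit 1748) (nat_lit 4354703550) (nat_lit 399) (nat_lit 5) (nat_lit 398) (nat_lit 5) (nat_lit 421) (nat_lit 5) (nat_lit 466) (nat_lit 458) (nat_lit 216))) (XT.nd (nat_lit 78) (nat_lit 0) (nat_lit 0) (XT.lf (nat_lit 76) (nat_lit 301186031)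 (nat_lit 0) (nat_lit 16994245850) (nat_lit 1748) (nat_lit 3771889607) (nat_lit 400) (nat_lit 5) (nat_lit 399) (nat_lit 5) (nat_lit 422) (nat_lit 5) (nat_lit 467) (nat_lit 458) (nat_lit 215)) (XT.lf (nat_lit 76) (nat_lit 10402183424) (nat_lit 0) (nat_lit 7798447531) (nat_lit 1748) (nat_lit 3081648144) (nat_lit 400) (nat_lit 5) (nat_lit 399) (nat_lit 5) (nat_lit 422) (nat_lit 5) (nat_lit 468) (nat_lit 458) (nat_lit 214)))))) (XT.nd (nat_lit 546) (nat_lit 0) (nat_lit 152) (XT.nd (nat_lit 234) (nat_lit 1672) (nat_lit 0) (XT.nd (nat_lit 78) (nat_lit 0) (nat_lit 0) (XT.lf (nat_lit 0) (nat_lit 19130425206) (nat_lit 1672) (nat_lit 809104087) (nat_lit 1748) (nat_lit 1561879344) (nat_lit 400) (nat_lit 5) (nat_lit 422) (nat_lit 5) (nat_lit 423) (nat_lit 5) (nat_lit 469) (nat_lit 458) (nat_lit 213)) (XT.nd (nat_lit 78) (nat_lit 0) (nat_lit 0) (XT.lf (nat_lit 76) (nat_lit 9534252125) (nat_lit 0) (nat_lit 10654409843) (nat_lit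 1748) (nat_lit 1534064415) (nat_lit 401) (nat_lit 5) (nat_lit 400) (nat_lit 5) (nat_lit 423) (nat_lit 5) (nat_lit 470) (nat_lit 458) (nat_lit 212)) (XT.lf (nat_lit 76) (nat_lit 20093005930) (nat_lit 0) (nat_lit 1176842393) (nat_lit 1748) (nat_lit 678588961) (nat_lit 401) (nat_lit 5) (nat_lit 400) (nat_lit 5) (nat_lit 423) (nat_lit 5) (nat_lit 471) (nat_lit 458) (nat_lit 211)))) (XT.nd (nat_lit 156) (nat_lit 0) (nat_lit 76) (XT.nd (nat_lit 78) (nat_lit 0) (nat_lit 0) (XT.lf (nat_lit 0) (nat_lit 300480052) (nat_lit 1748) (nat_lit 13437154494) (nat_lit 1824) (nat_lit 8438824502) (nat_lit 378) (nat_lit 5) (nat_lit 401) (nat_lit 5) (nat_lit 402) (nat_lit 5) (nat_lit 472) (nat_lit 458) (nat_lit 210)) (XT.lf (nat_lit 0) (nat_lit 1306842512) (nat_lit 1748) (nat_lit 2852580335) (nat_lit 1824) (nat_lit 18249195076) (nat_lit 378) (nat_lit 5) (nat_lit 401) (nat_lit 5) (nat_lit 402) (nat_lit 5) (nat_lit 473) (nat_lit 458) (nat_lit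 209))) (XT.nd (nat_lit 78) (nat_lit 0) (nat_lit 0) (XT.lf (nat_lit 0) (nat_lit 2418888058) (nat_lit 1748) (nat_lit 14634460338) (nat_lit 1824) (nat_lit 5590362773) (nat_lit 379) (nat_lit 5) (nat_lit 402) (nat_lit 5) (nat_lit 403) (nat_lit 5) (nat_lit 474) (nat_lit 458) (nat_lit 208)) (XT.lf (nat_lit 0) (nat_lit 3596580150) (nat_lit 1748) (nat_lit 3786325687) (nat_lit 1824) (nat_lit 15499734592) (nat_lit 379) (nat_lit 5) (nat_lit 402) (nat_lit 5) (nat_lit 403) (nat_lit 5) (nat_lit 475) (nat_lit 458) (nat_lit 207))))) (XT.nd (nat_lit 234) (nat_lit 0) (nat_lit 76) (XT.nd (nat_lit 78) (nat_lit 0) (nat_lit 0) (XT.lf (nat_lit 0) (nat_lit 4858784720) (nat_lit 1748) (nat_lit 15768887074) (nat_lit 1824) (nat_lit 2497459528) (nat_lit 380) (nat_lit 5) (nat_lit 403) (nat_lit 5) (nat_lit 404) (nat_lit 5) (nat_lit 476) (nat_lit 458) (nat_lit 206)) (XT.nd (nat_lit 78) (nat_lit 0) (nat_lit 0) (XT.lf (nat_lit 0) (nat_lit 6217415954)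 (nat_lit 1748) (nat_lit 4650559010) (nat_lit 1824) (nat_lit 12503075591) (nat_lit 380) (nat_lit 5) (nat_lit 403) (nat_lit 5) (nat_lit 404) (nat_lit 5) (nat_lit 477) (nat_lit 458) (nat_lit 205)) (XT.lf (nat_lit 76) (nat_lit 6776536916) (nat_lit 0) (nat_lit 867457779) (nat_lit 1824) (nat_lit 15977080113) (nat_lit 381) (nat_lit 5) (nat_lit 380) (nat_lit 5) (nat_lit 404) (nat_lit 5) (nat_lit 478) (nat_lit 458) (nat_lit 204)))) (XT.nd (nat_lit 156) (nat_lit 0) (nat_lit 76) (XT.nd (nat_lit 78) (nat_lit 0) (nat_lit 0) (XT.lf (nat_lit 0) (nat_lit 9187944869) (nat_lit 1748) (nat_lit 5443592420) (nat_lit 1824) (nat_lit 9242787551) (nat_lit 381) (nat_lit 5) (nat_lit 404) (nat_lit 5) (nat_lit 405) (nat_lit 5) (nat_lit 479) (nat_lit 458) (nat_lit 203)) (XT.lf (nat_lit 76) (nat_lit 6259239648) (nat_lit 0) (nat_lit 4546809468) (nat_lit 1824) (nat_lit 13325727303) (nat_lit 382) (nat_lit 5) (nat_lit 381) (nat_lit 5) (nat_lit 405)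 (nat_lit 5) (nat_lit 480) (nat_lit 458) (nat_lit 202))) (XT.nd (nat_lit 78) (nat_lit 0) (nat_lit 0) (XT.lf (nat_lit 0) (nat_lit 12527492169) (nat_lit 1748) (nat_lit 6163765548) (nat_lit 1824) (nat_lit 5701701790) (nat_lit 382) (nat_lit 5) (nat_lit 405) (nat_lit 5) (nat_lit 406) (nat_lit 5) (nat_lit 481) (nat_lit 458) (nat_lit 201)) (XT.lf (nat_lit 76) (nat_lit 5822959032) (nat_lit 0) (nat_lit 8525322939) (nat_lit 1824) (nat_lit 10309787898) (nat_lit 383) (nat_lit 5) (nat_lit 382) (nat_lit 5) (nat_lit 406) (nat_lit 5) (nat_lit 482) (nat_lit 458) (nat_lit 200))))))) (XT.nd (nat_lit 1092) (nat_lit 3572) (nat_lit 0) (XT.nd (nat_lit 546) (nat_lit 3192) (nat_lit 0) (XT.nd (nat_lit 234) (nat_lit 1824) (nat_lit 0) (XT.nd (nat_lit 78) (nat_lit 1444) (nat_lit 0) (XT.lf (nat_lit 0) (nat_lit 16256141711) (nat_lit 1748) (nat_lit 6809459432) (nat_lit 76) (nat_lit 1861870143) (nat_lit 383) (nat_lit 5) (nat_lit 406) (nat_lit 5)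 (nat_lit 384) (nat_lit 5) (nat_lit 483) (nat_lit 458) (nat_lit 199)) (XT.nd (nat_lit 78) (nat_lit 0) (nat_lit 0) (XT.lf (nat_lit 0) (nat_lit 5469501099) (nat_lit 1444) (nat_lit 12821732274) (nat_lit 1520) (nat_lit 6909247757) (nat_lit 364) (nat_lit 5) (nat_lit 383) (nat_lit 5) (nat_lit 384) (nat_lit 5) (nat_lit 484) (nat_lit 458) (nat_lit 198)) (XT.lf (nat_lit 0) (nat_lit 18083882864) (nat_lit 1444) (nat_lit 2325983871) (nat_lit 1520) (nat_lit 5068229497) (nat_lit 364) (nat_lit 5) (nat_lit 383) (nat_lit 5) (nat_lit 384) (nat_lit 5) (nat_lit 485) (nat_lit 458) (nat_lit 197)))) (XT.nd (nat_lit 156) (nat_lit 988) (nat_lit 0) (XT.nd (nat_lit 78) (nat_lit 0) (nat_lit 0) (XT.lf (nat_lit 0) (nat_lit 5200615167) (nat_lit 836) (nat_lit 17455633171) (nat_lit 912) (nat_lit 3103309605) (nat_lit 353) (nat_lit 5) (nat_lit 364) (nat_lit 5) (nat_lit 365) (nat_lit 5) (nat_lit 486) (nat_lit 458) (nat_lit 196)) (XT.lf (nat_lit 0)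 (nat_lit 18129504456) (nat_lit 836) (nat_lit 6880216880) (nat_lit 912) (nat_lit 1035686062) (nat_lit 353) (nat_lit 5) (nat_lit 364) (nat_lit 5) (nat_lit 365) (nat_lit 5) (nat_lit 487) (nat_lit 458) (nat_lit 195))) (XT.nd (nat_lit 78) (nat_lit 0) (nat_lit 0) (XT.lf (nat_lit 0) (nat_lit 1114820817) (nat_lit 988) (nat_lit 21325227947) (nat_lit 76) (nat_lit 3895675278) (nat_lit 340) (nat_lit 5) (nat_lit 353) (nat_lit 5) (nat_lit 341) (nat_lit 5) (nat_lit 488) (nat_lit 458) (nat_lit 194)) (XT.lf (nat_lit 0) (nat_lit 3390834855) (nat_lit 988) (nat_lit 8383322759) (nat_lit 76) (nat_lit 14855626870) (nat_lit 340) (nat_lit 5) (nat_lit 353) (nat_lit 5) (nat_lit 341) (nat_lit 5) (nat_lit 489) (nat_lit 458) (nat_lit 193))))) (XT.nd (nat_lit 234) (nat_lit 1520) (nat_lit 0) (XT.nd (nat_lit 78) (nat_lit 836) (nat_lit 0) (XT.lf (nat_lit 0) (nat_lit 4878969473) (nat_lit 836) (nat_lit 862445719) (nat_lit 912) (nat_lit 21187731672)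 (nat_lit 329) (nat_lit 5) (nat_lit 340) (nat_lit 5) (nat_lit 341) (nat_lit 5) (nat_lit 490) (nat_lit 458) (nat_lit 192)) (XT.nd (nat_lit 78) (nat_lit 836) (nat_lit 0) (XT.lf (nat_lit 0) (nat_lit 8259705121) (nat_lit 912) (nat_lit 8782739865) (nat_lit 76) (nat_lit 10189639164) (nat_lit 329) (nat_lit 5) (nat_lit 341) (nat_lit 5) (nat_lit 330) (nat_lit 5) (nat_lit 491) (nat_lit 458) (nat_lit 191)) (XT.lf (nat_lit 0) (nat_lit 4804922652) (nat_lit 836) (nat_lit 6057802864) (nat_lit 912) (nat_lit 16677668954) (nat_lit 318) (nat_lit 5) (nat_lit 329) (nat_lit 5) (nat_lit 330) (nat_lit 5) (nat_lit 492) (nat_lit 458) (nat_lit 190)))) (XT.nd (nat_lit 156) (nat_lit 760) (nat_lit 0) (XT.nd (nat_lit 78) (nat_lit 760) (nat_lit 0) (XT.lf (nat_lit 0) (nat_lit 13608039330) (nat_lit 912) (nat_lit 9106572506) (nat_lit 76) (nat_lit 5138456057) (nat_lit 318) (nat_lit 5) (nat_lit 330) (nat_lit 5) (nat_lit 319) (nat_lit 5) (nat_lit 493)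 (nat_lit 458) (nat_lit 189)) (XT.lf (nat_lit 0) (nat_lit 4815525729) (nat_lit 760) (nat_lit 11661657559) (nat_lit 836) (nat_lit 11693434539) (nat_lit 308) (nat_lit 5) (nat_lit 318) (nat_lit 5) (nat_lit 319) (nat_lit 5) (nat_lit 494) (nat_lit 458) (nat_lit 188))) (XT.nd (nat_lit 78) (nat_lit 760) (nat_lit 0) (XT.lf (nat_lit 0) (nat_lit 19137106171) (nat_lit 760) (nat_lit 325286866) (nat_lit 836) (nat_lit 9030953558) (nat_lit 308) (nat_lit 5) (nat_lit 318) (nat_lit 5) (nat_lit 319) (nat_lit 5) (nat_lit 495) (nat_lit 458) (nat_lit 187)) (XT.lf (nat_lit 0) (nat_lit 4911638109) (nat_lit 760) (nat_lit 17698142575) (nat_lit 836) (nat_lit 6210701245) (nat_lit 298) (nat_lit 5) (nat_lit 308) (nat_lit 5) (nat_lit 309) (nat_lit 5) (nat_lit 496) (nat_lit 458) (nat_lit 186)))))) (XT.nd (nat_lit 546) (nat_lit 1368) (nat_lit 0) (XT.nd (nat_lit 234) (nat_lit 1444) (nat_lit 0) (XT.nd (nat_lit 78) (nat_lit 760) (nat_lit 0) (XT.lf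 (nat_lit 0) (nat_lit 19587129621) (nat_lit 760) (nat_lit 6295563719) (nat_lit 836) (nat_lit 3270216520) (nat_lit 298) (nat_lit 5) (nat_lit 308) (nat_lit 5) (nat_lit 309) (nat_lit 5) (nat_lit 497) (nat_lit 458) (nat_lit 185)) (XT.nd (nat_lit 78) (nat_lit 76) (nat_lit 0) (XT.lf (nat_lit 0) (nat_lit 5093925147) (nat_lit 684) (nat_lit 24192548733) (nat_lit 760) (nat_lit 204205683) (nat_lit 289) (nat_lit 5) (nat_lit 298) (nat_lit 5) (nat_lit 299) (nat_lit 5) (nat_lit 498) (nat_lit 458) (nat_lit 184)) (XT.lf (nat_lit 0) (nat_lit 2988808084) (nat_lit 760) (nat_lit 9720930452) (nat_lit 76) (nat_lit 17123007499) (nat_lit 288) (nat_lit 5) (nat_lit 298) (nat_lit 5) (nat_lit 289) (nat_lit 5) (nat_lit 499) (nat_lit 458) (nat_lit 183)))) (XT.nd (nat_lit 156) (nat_lit 684) (nat_lit 0) (XT.nd (nat_lit 78) (nat_lit 0) (nat_lit 0) (XT.lf (nat_lit 0) (nat_lit 5314399612) (nat_lit 760) (nat_lit 960811272) (nat_lit 836) (nat_lit 23905772021)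 (nat_lit 278) (nat_lit 5) (nat_lit 288) (nat_lit 5) (nat_lit 289) (nat_lit 5) (nat_lit 500) (nat_lit 458) (nat_lit 182)) (XT.lf (nat_lit 0) (nat_lit 9762359429) (nat_lit 836) (nat_lit 9827061662) (nat_lit 76) (nat_lit 10944064367) (nat_lit 278) (nat_lit 5) (nat_lit 289) (nat_lit 5) (nat_lit 279) (nat_lit 5) (nat_lit 501) (nat_lit 458) (nat_lit 181))) (XT.nd (nat_lit 78) (nat_lit 0) (nat_lit 0) (XT.lf (nat_lit 0) (nat_lit 5577700142) (nat_lit 684) (nat_lit 7781955255) (nat_lit 760) (nat_lit 17532575850) (nat_lit 269) (nat_lit 5) (nat_lit 278) (nat_lit 5) (nat_lit 279) (nat_lit 5) (nat_lit 502) (nat_lit 458) (nat_lit 180)) (XT.lf (nat_lit 0) (nat_lit 17120801967) (nat_lit 760) (nat_lit 9863541116) (nat_lit 76) (nat_lit 4271972026) (nat_lit 269) (nat_lit 5) (nat_lit 279) (nat_lit 5) (nat_lit 270) (nat_lit 5) (nat_lit 503) (nat_lit 458) (nat_lit 179))))) (XT.nd (nat_lit 55848) (nat_lit 0) (nat_lit 10944) (XT.nd (nat_lit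 156) (nat_lit 684) (nat_lit 0) (XT.nd (nat_lit 78) (nat_lit 0) (nat_lit 0) (XT.lf (nat_lit 0) (nat_lit 5920256794) (nat_lit 684) (nat_lit 15124784802) (nat_lit 760) (nat_lit 10580882873) (nat_lit 260) (nat_lit 5) (nat_lit 269) (nat_lit 5) (nat_lit 270) (nat_lit 5) (nat_lit 504) (nat_lit 458) (nat_lit 178)) (XT.lf (nat_lit 0) (nat_lit 22151127843) (nat_lit 684) (nat_lit 2960749784) (nat_lit 760) (nat_lit 6889767360) (nat_lit 260) (nat_lit 5) (nat_lit 269) (nat_lit 5) (nat_lit 270) (nat_lit 5) (nat_lit 505) (nat_lit 458) (nat_lit 177))) (XT.nd (nat_lit 78) (nat_lit 76) (nat_lit 0) (XT.lf (nat_lit 0) (nat_lit 6341268932) (nat_lit 608) (nat_lit 23019247891) (nat_lit 684) (nat_lit 3022354938) (nat_lit 252) (nat_lit 5) (nat_lit 260) (nat_lit 5) (nat_lit 261) (nat_lit 5) (nat_lit 506) (nat_lit 458) (nat_lit 176)) (XT.lf (nat_lit 0) (nat_lit 994427755) (nat_lit 684) (nat_lit 9808332115) (nat_lit 76) (nat_lit 21967162166)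 (nat_lit 251) (nat_lit 5) (nat_lit 260) (nat_lit 5) (nat_lit 252) (nat_lit 5) (nat_lit 507) (nat_lit 458) (nat_lit 175)))) (XT.nd (nat_lit 156) (nat_lit 0) (nat_lit 76) (XT.nd (nat_lit 78) (nat_lit 0) (nat_lit 0) (XT.lf (nat_lit 0) (nat_lit 6432760024) (nat_lit 1748) (nat_lit 1694549661) (nat_lit 1748) (nat_lit 1694549661) (nat_lit 395) (nat_lit 3) (nat_lit 418) (nat_lit 3) (nat_lit 418) (nat_lit 5) (nat_lit 459) (nat_lit 459) (nat_lit 222)) (XT.lf (nat_lit 76) (nat_lit 5714529896) (nat_lit 0) (nat_lit 7481256940) (nat_lit 1748) (nat_lit 6640222970) (nat_lit 396) (nat_lit 5) (nat_lit 395) (nat_lit 3) (nat_lit 418) (nat_lit 5) (nat_lit 460) (nat_lit 459) (nat_lit 221))) (XT.nd (nat_lit 78) (nat_lit 0) (nat_lit 0) (XT.lf (nat_lit 0) (nat_lit 13560764672) (nat_lit 1672) (nat_lit 4997533804) (nat_lit 1748) (nat_lit 1473289138) (nat_lit 396) (nat_lit 5) (nat_lit 418) (nat_lit 5) (nat_lit 419) (nat_lit 5) (nat_lit 461)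 (nat_lit 459) (nat_lit 220)) (XT.lf (nat_lit 76) (nat_lit 4313631630) (nat_lit 0) (nat_lit 9692730770) (nat_lit 1748) (nat_lit 6223251100) (nat_lit 397) (nat_lit 5) (nat_lit 396) (nat_lit 5) (nat_lit 419) (nat_lit 5) (nat_lit 462) (nat_lit 459) (nat_lit 219))))))))
noncomputable def xc243 : XT := (XT.nd (nat_lit 2184) (nat_lit 6688) (nat_lit 0) (XT.nd (nat_lit 1092) (nat_lit 2888) (nat_lit 0) (XT.nd (nat_lit 546) (nat_lit 1368) (nat_lit 0) (XT.nd (nat_lit 234) (nat_lit 0) (nat_lit 152) (XT.nd (nat_lit 78) (nat_lit 0) (nat_lit 76) (XT.lf (nat_lit 76) (nat_lit 13876489418) (nat_lit 0) (nat_lit 613755581) (nat_lit 1748) (nat_lit 5940770316) (nat_lit 397) (nat_lit 5) (nat_lit 396) (nat_lit 5) (nat_lit 419) (nat_lit 5) (nat_lit 463) (nat_lit 459) (nat_lit 218)) (XT.nd (nat_lit 78) (nat_lit 0) (nat_lit 0) (XT.lf (nat_lit 76) (nat_lit 2974706524) (nat_lit 0) (nat_lit 12080483741) (nat_lit 1748) (nat_lit 5579830015) (nat_lit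 398) (nat_lit 5) (nat_lit 397) (nat_lit 5) (nat_lit 420) (nat_lit 5) (nat_lit 464) (nat_lit 459) (nat_lit 217)) (XT.lf (nat_lit 76) (nat_lit 12776942868) (nat_lit 0) (nat_lit 2898509036) (nat_lit 1748) (nat_lit 5166775849) (nat_lit 398) (nat_lit 5) (nat_lit 397) (nat_lit 5) (nat_lit 420) (nat_lit 5) (nat_lit 465) (nat_lit 459) (nat_lit 216)))) (XT.nd (nat_lit 156) (nat_lit 0) (nat_lit 76) (XT.nd (nat_lit 78) (nat_lit 0) (nat_lit 0) (XT.lf (nat_lit 76) (nat_lit 1699589106) (nat_lit 0) (nat_lit 14657637861) (nat_lit 1748) (nat_lit 4695372950) (nat_lit 399) (nat_lit 5) (nat_lit 398) (nat_lit 5) (nat_lit 421) (nat_lit 5) (nat_lit 466) (nat_lit 459) (nat_lit 215)) (XT.lf (nat_lit 76) (nat_lit 11747295487) (nat_lit 0) (nat_lit 5374679650) (nat_lit 1748) (nat_lit 4143820286) (nat_lit 399) (nat_lit 5) (nat_lit 398) (nat_lit 5) (nat_lit 421) (nat_lit 5) (nat_lit 467) (nat_lit 459) (nat_lit 214))) (XT.nd (nat_lit 78) (nat_lit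 0) (nat_lit 0) (XT.lf (nat_lit 76) (nat_lit 490165701) (nat_lit 0) (nat_lit 17437846965) (nat_lit 1748) (nat_lit 3554724886) (nat_lit 400) (nat_lit 5) (nat_lit 399) (nat_lit 5) (nat_lit 422) (nat_lit 5) (nat_lit 468) (nat_lit 459) (nat_lit 213)) (XT.lf (nat_lit 76) (nat_lit 10789595670) (nat_lit 0) (nat_lit 8056099029) (nat_lit 1748) (nat_lit 2856415898) (nat_lit 400) (nat_lit 5) (nat_lit 399) (nat_lit 5) (nat_lit 422) (nat_lit 5) (nat_lit 469) (nat_lit 459) (nat_lit 212))))) (XT.nd (nat_lit 234) (nat_lit 1672) (nat_lit 0) (XT.nd (nat_lit 78) (nat_lit 0) (nat_lit 0) (XT.lf (nat_lit 0) (nat_lit 19787926782) (nat_lit 1672) (nat_lit 643087294) (nat_lit 1748) (nat_lit 1494735596) (nat_lit 400) (nat_lit 5) (nat_lit 422) (nat_lit 5) (nat_lit 423) (nat_lit 5) (nat_lit 470) (nat_lit 459) (nat_lit 211)) (XT.nd (nat_lit 78) (nat_lit 0) (nat_lit 0) (XT.lf (nat_lit 76) (nat_lit 9905937366) (nat_lit 0) (nat_lit 10957176027)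 (nat_lit 1748) (nat_lit 1288468388) (nat_lit 401) (nat_lit 5) (nat_lit 400) (nat_lit 5) (nat_lit 423) (nat_lit 5) (nat_lit 471) (nat_lit 459) (nat_lit 210)) (XT.lf (nat_lit 76) (nat_lit 20672317223) (nat_lit 0) (nat_lit 1288298836) (nat_lit 1748) (nat_lit 421300628) (nat_lit 401) (nat_lit 5) (nat_lit 400) (nat_lit 5) (nat_lit 423) (nat_lit 5) (nat_lit 472) (nat_lit 459) (nat_lit 209)))) (XT.nd (nat_lit 156) (nat_lit 0) (nat_lit 76) (XT.nd (nat_lit 78) (nat_lit 0) (nat_lit 0) (XT.lf (nat_lit 0) (nat_lit 569184190) (nat_lit 1748) (nat_lit 13519927611) (nat_lit 1824) (nat_lit 8525447674) (nat_lit 378) (nat_lit 5) (nat_lit 401) (nat_lit 5) (nat_lit 402) (nat_lit 5) (nat_lit 473) (nat_lit 459) (nat_lit 208)) (XT.lf (nat_lit 0) (nat_lit 1590523025) (nat_lit 1748) (nat_lit 2727308440) (nat_lit 1824) (nat_lit 18533636510) (nat_lit 378) (nat_lit 5) (nat_lit 401) (nat_lit 5) (nat_lit 402) (nat_lit 5) (nat_lit 474) (nat_lit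 459) (nat_lit 207))) (XT.nd (nat_lit 78) (nat_lit 0) (nat_lit 0) (XT.lf (nat_lit 0) (nat_lit 2720464569) (nat_lit 1748) (nat_lit 14740313057) (nat_lit 1824) (nat_lit 5630575719) (nat_lit 379) (nat_lit 5) (nat_lit 402) (nat_lit 5) (nat_lit 403) (nat_lit 5) (nat_lit 475) (nat_lit 459) (nat_lit 206)) (XT.lf (nat_lit 0) (nat_lit 3916745822) (nat_lit 1748) (nat_lit 3678879173) (nat_lit 1824) (nat_lit 15739538785) (nat_lit 379) (nat_lit 5) (nat_lit 402) (nat_lit 5) (nat_lit 403) (nat_lit 5) (nat_lit 476) (nat_lit 459) (nat_lit 205)))))) (XT.nd (nat_lit 546) (nat_lit 3040) (nat_lit 0) (XT.nd (nat_lit 234) (nat_lit 0) (nat_lit 76) (XT.nd (nat_lit 78) (nat_lit 0) (nat_lit 0) (XT.lf (nat_lit 0) (nat_lit 5200102292) (nat_lit 1748) (nat_lit 15896838051) (nat_lit 1824) (nat_lit 2485649221) (nat_lit 380) (nat_lit 5) (nat_lit 403) (nat_lit 5) (nat_lit 404) (nat_lit 5) (nat_lit 477) (nat_lit 459) (nat_lit 204)) (XT.nd (nat_lit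 78) (nat_lit 0) (nat_lit 0) (XT.lf (nat_lit 0) (nat_lit 6581119055) (nat_lit 1748) (nat_lit 4559818460) (nat_lit 1824) (nat_lit 12692588576) (nat_lit 380) (nat_lit 5) (nat_lit 403) (nat_lit 5) (nat_lit 404) (nat_lit 5) (nat_lit 478) (nat_lit 459) (nat_lit 203)) (XT.lf (nat_lit 76) (nat_lit 7094610490) (nat_lit 0) (nat_lit 938110839) (nat_lit 1824) (nat_lit 16055902767) (nat_lit 381) (nat_lit 5) (nat_lit 380) (nat_lit 5) (nat_lit 404) (nat_lit 5) (nat_lit 479) (nat_lit 459) (nat_lit 202)))) (XT.nd (nat_lit 156) (nat_lit 0) (nat_lit 76) (XT.nd (nat_lit 78) (nat_lit 0) (nat_lit 0) (XT.lf (nat_lit 0) (nat_lit 9602586762) (nat_lit 1748) (nat_lit 5368384730) (nat_lit 1824) (nat_lit 9376069955) (nat_lit 381) (nat_lit 5) (nat_lit 404) (nat_lit 5) (nat_lit 405) (nat_lit 5) (nat_lit 480) (nat_lit 459) (nat_lit 201)) (XT.lf (nat_lit 76) (nat_lit 6567292929) (nat_lit 0) (nat_lit 4682420352) (nat_lit 1824) (nat_lit 13359998560)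 (nat_lit 382) (nat_lit 5) (nat_lit 381) (nat_lit 5) (nat_lit 405) (nat_lit 5) (nat_lit 481) (nat_lit 459) (nat_lit 200))) (XT.nd (nat_lit 78) (nat_lit 0) (nat_lit 0) (XT.lf (nat_lit 0) (nat_lit 13000839193) (nat_lit 1748) (nat_lit 6102865709) (nat_lit 1824) (nat_lit 5772511535) (nat_lit 382) (nat_lit 5) (nat_lit 405) (nat_lit 5) (nat_lit 406) (nat_lit 5) (nat_lit 482) (nat_lit 459) (nat_lit 199)) (XT.lf (nat_lit 76) (nat_lit 6122381684) (nat_lit 0) (nat_lit 8732482455) (nat_lit 1824) (nat_lit 10291831348) (nat_lit 383) (nat_lit 5) (nat_lit 382) (nat_lit 5) (nat_lit 406) (nat_lit 5) (nat_lit 483) (nat_lit 459) (nat_lit 198))))) (XT.nd (nat_lit 234) (nat_lit 1824) (nat_lit 0) (XT.nd (nat_lit 78) (nat_lit 1444) (nat_lit 0) (XT.lf (nat_lit 0) (nat_lit 16796341557) (nat_lit 1748) (nat_lit 6761592518) (nat_lit 76) (nat_lit 1863644461) (nat_lit 383) (nat_lit 5) (nat_lit 406) (nat_lit 5) (nat_lit 384) (nat_lit 5) (nat_lit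 484) (nat_lit 459) (nat_lit 197)) (XT.nd (nat_lit 78) (nat_lit 0) (nat_lit 0) (XT.lf (nat_lit 0) (nat_lit 5761736329) (nat_lit 1444) (nat_lit 13107368680) (nat_lit 1520) (nat_lit 6831006927) (nat_lit 364) (nat_lit 5) (nat_lit 383) (nat_lit 5) (nat_lit 384) (nat_lit 5) (nat_lit 485) (nat_lit 459) (nat_lit 196)) (XT.lf (nat_lit 0) (nat_lit 18624820529) (nat_lit 1444) (nat_lit 2401132725) (nat_lit 1520) (nat_lit 4957411944) (nat_lit 364) (nat_lit 5) (nat_lit 383) (nat_lit 5) (nat_lit 384) (nat_lit 5) (nat_lit 486) (nat_lit 459) (nat_lit 195)))) (XT.nd (nat_lit 156) (nat_lit 988) (nat_lit 0) (XT.nd (nat_lit 78) (nat_lit 0) (nat_lit 0) (XT.lf (nat_lit 0) (nat_lit 5487157508) (nat_lit 836) (nat_lit 17827031594) (nat_lit 912) (nat_lit 2956331160) (nat_lit 353) (nat_lit 5) (nat_lit 364) (nat_lit 5) (nat_lit 365) (nat_lit 5) (nat_lit 487) (nat_lit 459) (nat_lit 194)) (XT.lf (nat_lit 0) (nat_lit 18671045562) (nat_lit 836)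 (nat_lit 7039670002) (nat_lit 912) (nat_lit 851454060) (nat_lit 353) (nat_lit 5) (nat_lit 364) (nat_lit 5) (nat_lit 365) (nat_lit 5) (nat_lit 488) (nat_lit 459) (nat_lit 193))) (XT.nd (nat_lit 78) (nat_lit 0) (nat_lit 0) (XT.lf (nat_lit 0) (nat_lit 1336458927) (nat_lit 988) (nat_lit 21566925203) (nat_lit 76) (nat_lit 3954942678) (nat_lit 340) (nat_lit 5) (nat_lit 353) (nat_lit 5) (nat_lit 341) (nat_lit 5) (nat_lit 489) (nat_lit 459) (nat_lit 192)) (XT.lf (nat_lit 0) (nat_lit 3654084586) (nat_lit 988) (nat_lit 8369805584) (nat_lit 76) (nat_lit 15134458912) (nat_lit 340) (nat_lit 5) (nat_lit 353) (nat_lit 5) (nat_lit 341) (nat_lit 5) (nat_lit 490) (nat_lit 459) (nat_lit 191))))))) (XT.nd (nat_lit 1092) (nat_lit 1292) (nat_lit 0) (XT.nd (nat_lit 546) (nat_lit 2204) (nat_lit 0) (XT.nd (nat_lit 234) (nat_lit 1520) (nat_lit 0) (XT.nd (nat_lit 78) (nat_lit 836) (nat_lit 0) (XT.lf (nat_lit 0) (nat_lit 5156540496) (nat_lit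 836) (nat_lit 892472639) (nat_lit 912) (nat_lit 21414741243) (nat_lit 329) (nat_lit 5) (nat_lit 340) (nat_lit 5) (nat_lit 341) (nat_lit 5) (nat_lit 491) (nat_lit 459) (nat_lit 190)) (XT.nd (nat_lit 78) (nat_lit 836) (nat_lit 0) (XT.lf (nat_lit 0) (nat_lit 8613807728) (nat_lit 912) (nat_lit 8777953466) (nat_lit 76) (nat_lit 10381068791) (nat_lit 329) (nat_lit 5) (nat_lit 341) (nat_lit 5) (nat_lit 330) (nat_lit 5) (nat_lit 492) (nat_lit 459) (nat_lit 189)) (XT.lf (nat_lit 0) (nat_lit 5080275188) (nat_lit 836) (nat_lit 6186073092) (nat_lit 912) (nat_lit 16821011345) (nat_lit 318) (nat_lit 5) (nat_lit 329) (nat_lit 5) (nat_lit 330) (nat_lit 5) (nat_lit 493) (nat_lit 459) (nat_lit 188)))) (XT.nd (nat_lit 156) (nat_lit 760) (nat_lit 0) (XT.nd (nat_lit 78) (nat_lit 760) (nat_lit 0) (XT.lf (nat_lit 0) (nat_lit 14062868806) (nat_lit 912) (nat_lit 9109151987) (nat_lit 76) (nat_lit 5234341975) (nat_lit 318) (nat_lit 5) (nat_lit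 330) (nat_lit 5) (nat_lit 319) (nat_lit 5) (nat_lit 494) (nat_lit 459) (nat_lit 187)) (XT.lf (nat_lit 0) (nat_lit 5090206949) (nat_lit 760) (nat_lit 11896765056) (nat_lit 836) (nat_lit 11743342387) (nat_lit 308) (nat_lit 5) (nat_lit 318) (nat_lit 5) (nat_lit 319) (nat_lit 5) (nat_lit 495) (nat_lit 459) (nat_lit 186))) (XT.nd (nat_lit 78) (nat_lit 760) (nat_lit 0) (XT.lf (nat_lit 0) (nat_lit 19694721535) (nat_lit 760) (nat_lit 333630198) (nat_lit 836) (nat_lit 9031218862) (nat_lit 308) (nat_lit 5) (nat_lit 318) (nat_lit 5) (nat_lit 319) (nat_lit 5) (nat_lit 496) (nat_lit 459) (nat_lit 185)) (XT.lf (nat_lit 0) (nat_lit 5187224448) (nat_lit 760) (nat_lit 18049137566) (nat_lit 836) (nat_lit 6156935255) (nat_lit 298) (nat_lit 5) (nat_lit 308) (nat_lit 5) (nat_lit 309) (nat_lit 5) (nat_lit 497) (nat_lit 459) (nat_lit 184))))) (XT.nd (nat_lit 234) (nat_lit 1444) (nat_lit 0) (XT.nd (nat_lit 78) (nat_lit 760) (nat_lit 0)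 (XT.lf (nat_lit 0) (nat_lit 20152748269) (nat_lit 760) (nat_lit 6418565326) (nat_lit 836) (nat_lit 3161130640) (nat_lit 298) (nat_lit 5) (nat_lit 308) (nat_lit 5) (nat_lit 309) (nat_lit 5) (nat_lit 498) (nat_lit 459) (nat_lit 183)) (XT.nd (nat_lit 78) (nat_lit 76) (nat_lit 0) (XT.lf (nat_lit 0) (nat_lit 5372017656) (nat_lit 684) (nat_lit 24668962428) (nat_lit 760) (nat_lit 36035091) (nat_lit 289) (nat_lit 5) (nat_lit 298) (nat_lit 5) (nat_lit 299) (nat_lit 5) (nat_lit 499) (nat_lit 459) (nat_lit 182)) (XT.lf (nat_lit 0) (nat_lit 3215246554) (nat_lit 760) (nat_lit 9740276910) (nat_lit 76) (nat_lit 17470445779) (nat_lit 288) (nat_lit 5) (nat_lit 298) (nat_lit 5) (nat_lit 289) (nat_lit 5) (nat_lit 500) (nat_lit 459) (nat_lit 181)))) (XT.nd (nat_lit 156) (nat_lit 684) (nat_lit 0) (XT.nd (nat_lit 78) (nat_lit 0) (nat_lit 0) (XT.lf (nat_lit 0) (nat_lit 5594607965) (nat_lit 760) (nat_lit 970630762) (nat_lit 836) (nat_lit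 24215976826) (nat_lit 278) (nat_lit 5) (nat_lit 288) (nat_lit 5) (nat_lit 289) (nat_lit 5) (nat_lit 501) (nat_lit 459) (nat_lit 180)) (XT.lf (nat_lit 0) (nat_lit 10118964104) (nat_lit 836) (nat_lit 9849831955) (nat_lit 76) (nat_lit 11172037316) (nat_lit 278) (nat_lit 5) (nat_lit 289) (nat_lit 5) (nat_lit 279) (nat_lit 5) (nat_lit 502) (nat_lit 459) (nat_lit 179))) (XT.nd (nat_lit 78) (nat_lit 0) (nat_lit 0) (XT.lf (nat_lit 0) (nat_lit 5861881856) (nat_lit 684) (nat_lit 7924281077) (nat_lit 760) (nat_lit 17720633864) (nat_lit 269) (nat_lit 5) (nat_lit 278) (nat_lit 5) (nat_lit 279) (nat_lit 5) (nat_lit 503) (nat_lit 459) (nat_lit 178)) (XT.lf (nat_lit 0) (nat_lit 17619493366) (nat_lit 760) (nat_lit 9888439047) (nat_lit 76) (nat_lit 4370292523) (nat_lit 269) (nat_lit 5) (nat_lit 279) (nat_lit 5) (nat_lit 270) (nat_lit 5) (nat_lit 504) (nat_lit 459) (nat_lit 177)))))) (XT.nd (nat_lit 56160) (nat_lit 0) (nat_lit 10944)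 (XT.nd (nat_lit 55848) (nat_lit 0) (nat_lit 10868) (XT.nd (nat_lit 78) (nat_lit 608) (nat_lit 0) (XT.lf (nat_lit 0) (nat_lit 6209900789) (nat_lit 684) (nat_lit 15410364572) (nat_lit 760) (nat_lit 10635001955) (nat_lit 260) (nat_lit 5) (nat_lit 269) (nat_lit 5) (nat_lit 270) (nat_lit 5) (nat_lit 505) (nat_lit 459) (nat_lit 176)) (XT.nd (nat_lit 78) (nat_lit 608) (nat_lit 0) (XT.lf (nat_lit 0) (nat_lit 22762031634) (nat_lit 684) (nat_lit 3003380538) (nat_lit 760) (nat_lit 6873152338) (nat_lit 260) (nat_lit 5) (nat_lit 269) (nat_lit 5) (nat_lit 270) (nat_lit 5) (nat_lit 506) (nat_lit 459) (nat_lit 175)) (XT.lf (nat_lit 0) (nat_lit 6637856989) (nat_lit 608) (nat_lit 23459408333) (nat_lit 684) (nat_lit 2930187390) (nat_lit 252) (nat_lit 5) (nat_lit 260) (nat_lit 5) (nat_lit 261) (nat_lit 5) (nat_lit 507) (nat_lit 459) (nat_lit 174)))) (XT.nd (nat_lit 156) (nat_lit 0) (nat_lit 76) (XT.nd (nat_lit 78) (nat_lit 0) (nat_lit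 0) (XT.lf (nat_lit 0) (nat_lit 6724856192) (nat_lit 1748) (nat_lit 1645029209) (nat_lit 1748) (nat_lit 1645029209) (nat_lit 395) (nat_lit 3) (nat_lit 418) (nat_lit 3) (nat_lit 418) (nat_lit 5) (nat_lit 460) (nat_lit 460) (nat_lit 220)) (XT.lf (nat_lit 76) (nat_lit 5994545864) (nat_lit 0) (nat_lit 7786705194) (nat_lit 1748) (nat_lit 6444826207) (nat_lit 396) (nat_lit 5) (nat_lit 395) (nat_lit 3) (nat_lit 418) (nat_lit 5) (nat_lit 461) (nat_lit 460) (nat_lit 219))) (XT.nd (nat_lit 78) (nat_lit 0) (nat_lit 0) (XT.lf (nat_lit 0) (nat_lit 14146231709) (nat_lit 1672) (nat_lit 4927494466) (nat_lit 1748) (nat_lit 1351990737) (nat_lit 396) (nat_lit 5) (nat_lit 418) (nat_lit 5) (nat_lit 419) (nat_lit 5) (nat_lit 462) (nat_lit 460) (nat_lit 218)) (XT.lf (nat_lit 76) (nat_lit 4568775921) (nat_lit 0) (nat_lit 10026900098) (nat_lit 1748) (nat_lit 6032132867) (nat_lit 397) (nat_lit 5) (nat_lit 396) (nat_lit 5) (nat_lit 419) (nat_lit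 5) (nat_lit 463) (nat_lit 460) (nat_lit 217))))) (XT.nd (nat_lit 312) (nat_lit 0) (nat_lit 152) (XT.nd (nat_lit 156) (nat_lit 0) (nat_lit 76) (XT.nd (nat_lit 78) (nat_lit 0) (nat_lit 76) (XT.lf (nat_lit 76) (nat_lit 14319579656) (nat_lit 0) (nat_lit 763594136) (nat_lit 1748) (nat_lit 5750190374) (nat_lit 397) (nat_lit 5) (nat_lit 396) (nat_lit 5) (nat_lit 419) (nat_lit 5) (nat_lit 464) (nat_lit 460) (nat_lit 216)) (XT.lf (nat_lit 76) (nat_lit 3205789362) (nat_lit 0) (nat_lit 12447923422) (nat_lit 1748) (nat_lit 5387854647) (nat_lit 398) (nat_lit 5) (nat_lit 397) (nat_lit 5) (nat_lit 420) (nat_lit 5) (nat_lit 465) (nat_lit 460) (nat_lit 215))) (XT.nd (nat_lit 78) (nat_lit 0) (nat_lit 76) (XT.lf (nat_lit 76) (nat_lit 13200705949) (nat_lit 0) (nat_lit 3079841968) (nat_lit 1748) (nat_lit 4972491789) (nat_lit 398) (nat_lit 5) (nat_lit 397) (nat_lit 5) (nat_lit 420) (nat_lit 5) (nat_lit 466) (nat_lit 460) (nat_lit 214))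 (XT.lf (nat_lit 76) (nat_lit 1907486970) (nat_lit 0) (nat_lit 15063097985) (nat_lit 1748) (nat_lit 4497145768) (nat_lit 399) (nat_lit 5) (nat_lit 398) (nat_lit 5) (nat_lit 421) (nat_lit 5) (nat_lit 467) (nat_lit 460) (nat_lit 213)))) (XT.nd (nat_lit 156) (nat_lit 0) (nat_lit 76) (XT.nd (nat_lit 78) (nat_lit 0) (nat_lit 76) (XT.lf (nat_lit 76) (nat_lit 12152737556) (nat_lit 0) (nat_lit 5592278505) (nat_lit 1748) (nat_lit 3940290180) (nat_lit 399) (nat_lit 5) (nat_lit 398) (nat_lit 5) (nat_lit 421) (nat_lit 5) (nat_lit 468) (nat_lit 460) (nat_lit 212)) (XT.lf (nat_lit 76) (nat_lit 675820561) (nat_lit 0) (nat_lit 17886292676) (nat_lit 1748) (nat_lit 3344578983) (nat_lit 400) (nat_lit 5) (nat_lit 399) (nat_lit 5) (nat_lit 422) (nat_lit 5) (nat_lit 469) (nat_lit 460) (nat_lit 211))) (XT.nd (nat_lit 78) (nat_lit 0) (nat_lit 76) (XT.lf (nat_lit 76) (nat_lit 11177791060) (nat_lit 0) (nat_lit 8314955099) (nat_lit 1748)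 (nat_lit 2637818332) (nat_lit 400) (nat_lit 5) (nat_lit 399) (nat_lit 5) (nat_lit 422) (nat_lit 5) (nat_lit 470) (nat_lit 460) (nat_lit 210)) (XT.lf (nat_lit 0) (nat_lit 20447903957) (nat_lit 1672) (nat_lit 480825169) (nat_lit 1748) (nat_lit 1430069239) (nat_lit 400) (nat_lit 5) (nat_lit 422) (nat_lit 5) (nat_lit 423) (nat_lit 5) (nat_lit 471) (nat_lit 460) (nat_lit 209))))))))
noncomputable def xc244 : XT := (XT.nd (nat_lit 2184) (nat_lit 2888) (nat_lit 0) (XT.nd (nat_lit 1092) (nat_lit 6080) (nat_lit 0) (XT.nd (nat_lit 546) (nat_lit 0) (nat_lit 152) (XT.nd (nat_lit 234) (nat_lit 0) (nat_lit 0) (XT.nd (nat_lit 78) (nat_lit 1672) (nat_lit 0) (XT.lf (nat_lit 76) (nat_lit 10278027853) (nat_lit 0) (nat_lit 11262515229) (nat_lit 1748) (nat_lit 1048688627) (nat_lit 401) (nat_lit 5) (nat_lit 400) (nat_lit 5) (nat_lit 423) (nat_lit 5) (nat_lit 472) (nat_lit 460) (nat_lit 208)) (XT.nd (nat_lit 78) (nat_lit 1672) (nat_lit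 0) (XT.lf (nat_lit 76) (nat_lit 21256324097) (nat_lit 0) (nat_lit 1398570384) (nat_lit 1748) (nat_lit 169384356) (nat_lit 401) (nat_lit 5) (nat_lit 400) (nat_lit 5) (nat_lit 423) (nat_lit 5) (nat_lit 473) (nat_lit 460) (nat_lit 207)) (XT.lf (nat_lit 0) (nat_lit 833061661) (nat_lit 1748) (nat_lit 13611577632) (nat_lit 1824) (nat_lit 8616993423) (nat_lit 378) (nat_lit 5) (nat_lit 401) (nat_lit 5) (nat_lit 402) (nat_lit 5) (nat_lit 474) (nat_lit 460) (nat_lit 206)))) (XT.nd (nat_lit 156) (nat_lit 0) (nat_lit 76) (XT.nd (nat_lit 78) (nat_lit 0) (nat_lit 76) (XT.lf (nat_lit 0) (nat_lit 1869876415) (nat_lit 1748) (nat_lit 2606610951) (nat_lit 1824) (nat_lit 18826894334) (nat_lit 378) (nat_lit 5) (nat_lit 401) (nat_lit 5) (nat_lit 402) (nat_lit 5) (nat_lit 475) (nat_lit 460) (nat_lit 205)) (XT.lf (nat_lit 0) (nat_lit 3018240594) (nat_lit 1748) (nat_lit 14855537919) (nat_lit 1824) (nat_lit 5674373019) (nat_lit 379) (nat_lit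 5) (nat_lit 402) (nat_lit 5) (nat_lit 403) (nat_lit 5) (nat_lit 476) (nat_lit 460) (nat_lit 204))) (XT.nd (nat_lit 78) (nat_lit 0) (nat_lit 76) (XT.lf (nat_lit 0) (nat_lit 4233675575) (nat_lit 1748) (nat_lit 3576396561) (nat_lit 1824) (nat_lit 15986864645) (nat_lit 379) (nat_lit 5) (nat_lit 402) (nat_lit 5) (nat_lit 403) (nat_lit 5) (nat_lit 477) (nat_lit 460) (nat_lit 203)) (XT.lf (nat_lit 0) (nat_lit 5538765889) (nat_lit 1748) (nat_lit 16034626058) (nat_lit 1824) (nat_lit 2476000905) (nat_lit 380) (nat_lit 5) (nat_lit 403) (nat_lit 5) (nat_lit 404) (nat_lit 5) (nat_lit 478) (nat_lit 460) (nat_lit 202))))) (XT.nd (nat_lit 234) (nat_lit 0) (nat_lit 76) (XT.nd (nat_lit 78) (nat_lit 0) (nat_lit 0) (XT.lf (nat_lit 0) (nat_lit 6942801780) (nat_lit 1748) (nat_lit 4474398404) (nat_lit 1824) (nat_lit 12888242994) (nat_lit 380) (nat_lit 5) (nat_lit 403) (nat_lit 5) (nat_lit 404) (nat_lit 5) (nat_lit 479) (nat_lit 460)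 (nat_lit 201)) (XT.nd (nat_lit 78) (nat_lit 0) (nat_lit 76) (XT.lf (nat_lit 76) (nat_lit 7411957176) (nat_lit 0) (nat_lit 1008107104) (nat_lit 1824) (nat_lit 16145649285) (nat_lit 381) (nat_lit 5) (nat_lit 380) (nat_lit 5) (nat_lit 404) (nat_lit 5) (nat_lit 480) (nat_lit 460) (nat_lit 200)) (XT.lf (nat_lit 0) (nat_lit 10016556026) (nat_lit 1748) (nat_lit 5298820920) (nat_lit 1824) (nat_lit 9514020663) (nat_lit 381) (nat_lit 5) (nat_lit 404) (nat_lit 5) (nat_lit 405) (nat_lit 5) (nat_lit 481) (nat_lit 460) (nat_lit 199)))) (XT.nd (nat_lit 156) (nat_lit 0) (nat_lit 76) (XT.nd (nat_lit 78) (nat_lit 0) (nat_lit 76) (XT.lf (nat_lit 76) (nat_lit 6874406270) (nat_lit 0) (nat_lit 4819008680) (nat_lit 1824) (nat_lit 13403973532) (nat_lit 382) (nat_lit 5) (nat_lit 381) (nat_lit 5) (nat_lit 405) (nat_lit 5) (nat_lit 482) (nat_lit 460) (nat_lit 198)) (XT.lf (nat_lit 0) (nat_lit 13475001671) (nat_lit 1748) (nat_lit 6047899619)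 (nat_lit 1824) (nat_lit 5846415926) (nat_lit 382) (nat_lit 5) (nat_lit 405) (nat_lit 5) (nat_lit 406) (nat_lit 5) (nat_lit 483) (nat_lit 460) (nat_lit 197))) (XT.nd (nat_lit 78) (nat_lit 0) (nat_lit 76) (XT.lf (nat_lit 76) (nat_lit 6420688094) (nat_lit 0) (nat_lit 8942361879) (nat_lit 1824) (nat_lit 10282219775) (nat_lit 383) (nat_lit 5) (nat_lit 382) (nat_lit 5) (nat_lit 406) (nat_lit 5) (nat_lit 484) (nat_lit 460) (nat_lit 196)) (XT.lf (nat_lit 0) (nat_lit 17338993698) (nat_lit 1748) (nat_lit 6719915387) (nat_lit 76) (nat_lit 1866831341) (nat_lit 383) (nat_lit 5) (nat_lit 406) (nat_lit 5) (nat_lit 384) (nat_lit 5) (nat_lit 485) (nat_lit 460) (nat_lit 195)))))) (XT.nd (nat_lit 546) (nat_lit 2356) (nat_lit 0) (XT.nd (nat_lit 234) (nat_lit 1824) (nat_lit 0) (XT.nd (nat_lit 78) (nat_lit 836) (nat_lit 0) (XT.lf (nat_lit 0) (nat_lit 6052716162) (nat_lit 1444) (nat_lit 13397583874) (nat_lit 1520) (nat_lit 6759605356)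 (nat_lit 364) (nat_lit 5) (nat_lit 383) (nat_lit 5) (nat_lit 384) (nat_lit 5) (nat_lit 486) (nat_lit 460) (nat_lit 194)) (XT.nd (nat_lit 78) (nat_lit 836) (nat_lit 0) (XT.lf (nat_lit 0) (nat_lit 19169616063) (nat_lit 1444) (nat_lit 2476672850) (nat_lit 1520) (nat_lit 4852617332) (nat_lit 364) (nat_lit 5) (nat_lit 383) (nat_lit 5) (nat_lit 384) (nat_lit 5) (nat_lit 487) (nat_lit 460) (nat_lit 193)) (XT.lf (nat_lit 0) (nat_lit 5772342832) (nat_lit 836) (nat_lit 18204992603) (nat_lit 912) (nat_lit 2814530604) (nat_lit 353) (nat_lit 5) (nat_lit 364) (nat_lit 5) (nat_lit 365) (nat_lit 5) (nat_lit 488) (nat_lit 460) (nat_lit 192)))) (XT.nd (nat_lit 156) (nat_lit 836) (nat_lit 0) (XT.nd (nat_lit 78) (nat_lit 988) (nat_lit 0) (XT.lf (nat_lit 0) (nat_lit 19216468605) (nat_lit 836) (nat_lit 7201463771) (nat_lit 912) (nat_lit 671495711) (nat_lit 353) (nat_lit 5) (nat_lit 364) (nat_lit 5) (nat_lit 365) (nat_lit 5) (nat_lit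 489) (nat_lit 460) (nat_lit 191)) (XT.lf (nat_lit 0) (nat_lit 1554789120) (nat_lit 988) (nat_lit 21820632697) (nat_lit 76) (nat_lit 4016119477) (nat_lit 340) (nat_lit 5) (nat_lit 353) (nat_lit 5) (nat_lit 341) (nat_lit 5) (nat_lit 490) (nat_lit 460) (nat_lit 190))) (XT.nd (nat_lit 78) (nat_lit 836) (nat_lit 0) (XT.lf (nat_lit 0) (nat_lit 3915010409) (nat_lit 988) (nat_lit 8363053646) (nat_lit 76) (nat_lit 15419577449) (nat_lit 340) (nat_lit 5) (nat_lit 353) (nat_lit 5) (nat_lit 341) (nat_lit 5) (nat_lit 491) (nat_lit 460) (nat_lit 189)) (XT.lf (nat_lit 0) (nat_lit 5432673645) (nat_lit 836) (nat_lit 922603912) (nat_lit 912) (nat_lit 21653930856) (nat_lit 329) (nat_lit 5) (nat_lit 340) (nat_lit 5) (nat_lit 341) (nat_lit 5) (nat_lit 492) (nat_lit 460) (nat_lit 188))))) (XT.nd (nat_lit 234) (nat_lit 1520) (nat_lit 0) (XT.nd (nat_lit 78) (nat_lit 836) (nat_lit 0) (XT.lf (nat_lit 0) (nat_lit 8967656841) (nat_lit 912)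 (nat_lit 8780078091) (nat_lit 76) (nat_lit 10576807087) (nat_lit 329) (nat_lit 5) (nat_lit 341) (nat_lit 5) (nat_lit 330) (nat_lit 5) (nat_lit 493) (nat_lit 460) (nat_lit 187)) (XT.nd (nat_lit 78) (nat_lit 0) (nat_lit 0) (XT.lf (nat_lit 0) (nat_lit 5354174121) (nat_lit 836) (nat_lit 6316632472) (nat_lit 912) (nat_lit 16974606708) (nat_lit 318) (nat_lit 5) (nat_lit 329) (nat_lit 5) (nat_lit 330) (nat_lit 5) (nat_lit 494) (nat_lit 460) (nat_lit 186)) (XT.lf (nat_lit 0) (nat_lit 14519701624) (nat_lit 912) (nat_lit 9118755280) (nat_lit 76) (nat_lit 5332412895) (nat_lit 318) (nat_lit 5) (nat_lit 330) (nat_lit 5) (nat_lit 319) (nat_lit 5) (nat_lit 495) (nat_lit 460) (nat_lit 185)))) (XT.nd (nat_lit 156) (nat_lit 760) (nat_lit 0) (XT.nd (nat_lit 78) (nat_lit 0) (nat_lit 0) (XT.lf (nat_lit 0) (nat_lit 5363455442) (nat_lit 760) (nat_lit 12136501920) (nat_lit 836) (nat_lit 11801391816) (nat_lit 308) (nat_lit 5) (nat_lit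 318) (nat_lit 5) (nat_lit 319) (nat_lit 5) (nat_lit 496) (nat_lit 460) (nat_lit 184)) (XT.lf (nat_lit 0) (nat_lit 20256698665) (nat_lit 760) (nat_lit 342069040) (nat_lit 836) (nat_lit 9038492829) (nat_lit 308) (nat_lit 5) (nat_lit 318) (nat_lit 5) (nat_lit 319) (nat_lit 5) (nat_lit 497) (nat_lit 460) (nat_lit 183))) (XT.nd (nat_lit 78) (nat_lit 0) (nat_lit 0) (XT.lf (nat_lit 0) (nat_lit 5461435659) (nat_lit 760) (nat_lit 18407267703) (nat_lit 836) (nat_lit 6109005126) (nat_lit 298) (nat_lit 5) (nat_lit 308) (nat_lit 5) (nat_lit 309) (nat_lit 5) (nat_lit 498) (nat_lit 460) (nat_lit 182)) (XT.lf (nat_lit 0) (nat_lit 20722927471) (nat_lit 760) (nat_lit 6544139951) (nat_lit 836) (nat_lit 3056638709) (nat_lit 298) (nat_lit 5) (nat_lit 308) (nat_lit 5) (nat_lit 309) (nat_lit 5) (nat_lit 499) (nat_lit 460) (nat_lit 181))))))) (XT.nd (nat_lit 56862) (nat_lit 0) (nat_lit 8892) (XT.nd (nat_lit 56316) (nat_lit 0) (nat_lit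 10260) (XT.nd (nat_lit 234) (nat_lit 1368) (nat_lit 0) (XT.nd (nat_lit 78) (nat_lit 760) (nat_lit 0) (XT.lf (nat_lit 0) (nat_lit 127120685) (nat_lit 760) (nat_lit 25027219463) (nat_lit 76) (nat_lit 5520855679) (nat_lit 288) (nat_lit 5) (nat_lit 298) (nat_lit 5) (nat_lit 289) (nat_lit 5) (nat_lit 500) (nat_lit 460) (nat_lit 180)) (XT.nd (nat_lit 78) (nat_lit 760) (nat_lit 0) (XT.lf (nat_lit 0) (nat_lit 3439742093) (nat_lit 760) (nat_lit 9766808562) (nat_lit 76) (nat_lit 17824639517) (nat_lit 288) (nat_lit 5) (nat_lit 298) (nat_lit 5) (nat_lit 289) (nat_lit 5) (nat_lit 501) (nat_lit 460) (nat_lit 179)) (XT.lf (nat_lit 0) (nat_lit 5873666946) (nat_lit 760) (nat_lit 981011530) (nat_lit 836) (nat_lit 24538905902) (nat_lit 278) (nat_lit 5) (nat_lit 288) (nat_lit 5) (nat_lit 289) (nat_lit 5) (nat_lit 502) (nat_lit 460) (nat_lit 178)))) (XT.nd (nat_lit 156) (nat_lit 684) (nat_lit 0) (XT.nd (nat_lit 78) (nat_lit 684) (nat_lit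 0) (XT.lf (nat_lit 0) (nat_lit 10476435164) (nat_lit 836) (nat_lit 9879805390) (nat_lit 76) (nat_lit 11404216683) (nat_lit 278) (nat_lit 5) (nat_lit 289) (nat_lit 5) (nat_lit 279) (nat_lit 5) (nat_lit 503) (nat_lit 460) (nat_lit 177)) (XT.lf (nat_lit 0) (nat_lit 6145043860) (nat_lit 684) (nat_lit 8069970386) (nat_lit 760) (nat_lit 17918766741) (nat_lit 269) (nat_lit 5) (nat_lit 278) (nat_lit 5) (nat_lit 279) (nat_lit 5) (nat_lit 504) (nat_lit 460) (nat_lit 176))) (XT.nd (nat_lit 78) (nat_lit 684) (nat_lit 0) (XT.lf (nat_lit 0) (nat_lit 18122090229) (nat_lit 760) (nat_lit 9920528386) (nat_lit 76) (nat_lit 4470079242) (nat_lit 269) (nat_lit 5) (nat_lit 279) (nat_lit 5) (nat_lit 270) (nat_lit 5) (nat_lit 505) (nat_lit 460) (nat_lit 175)) (XT.lf (nat_lit 0) (nat_lit 6498688250) (nat_lit 684) (nat_lit 15702312803) (nat_lit 760) (nat_lit 10696319280) (nat_lit 260) (nat_lit 5) (nat_lit 269) (nat_lit 5) (nat_lit 270) (nat_lit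 5) (nat_lit 506) (nat_lit 460) (nat_lit 174))))) (XT.nd (nat_lit 234) (nat_lit 0) (nat_lit 76) (XT.nd (nat_lit 78) (nat_lit 0) (nat_lit 0) (XT.lf (nat_lit 0) (nat_lit 7016447671) (nat_lit 1748) (nat_lit 1597757317) (nat_lit 1748) (nat_lit 1597757317) (nat_lit 395) (nat_lit 3) (nat_lit 418) (nat_lit 3) (nat_lit 418) (nat_lit 5) (nat_lit 461) (nat_lit 461) (nat_lit 218)) (XT.nd (nat_lit 78) (nat_lit 0) (nat_lit 76) (XT.lf (nat_lit 76) (nat_lit 6273726833) (nat_lit 0) (nat_lit 8092211611) (nat_lit 1748) (nat_lit 6258265962) (nat_lit 396) (nat_lit 5) (nat_lit 395) (nat_lit 3) (nat_lit 418) (nat_lit 5) (nat_lit 462) (nat_lit 461) (nat_lit 217)) (XT.lf (nat_lit 0) (nat_lit 14731205308) (nat_lit 1672) (nat_lit 4862655261) (nat_lit 1748) (nat_lit 1234120726) (nat_lit 396) (nat_lit 5) (nat_lit 418) (nat_lit 5) (nat_lit 419) (nat_lit 5) (nat_lit 463) (nat_lit 461) (nat_lit 216)))) (XT.nd (nat_lit 156) (nat_lit 0) (nat_lit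 76) (XT.nd (nat_lit 78) (nat_lit 0) (nat_lit 0) (XT.lf (nat_lit 76) (nat_lit 4822465606) (nat_lit 0) (nat_lit 10362304221) (nat_lit 1748) (nat_lit 5849446752) (nat_lit 397) (nat_lit 5) (nat_lit 396) (nat_lit 5) (nat_lit 419) (nat_lit 5) (nat_lit 464) (nat_lit 461) (nat_lit 215)) (XT.lf (nat_lit 76) (nat_lit 14765102784) (nat_lit 0) (nat_lit 911087706) (nat_lit 1748) (nat_lit 5567813033) (nat_lit 397) (nat_lit 5) (nat_lit 396) (nat_lit 5) (nat_lit 419) (nat_lit 5) (nat_lit 465) (nat_lit 461) (nat_lit 214))) (XT.nd (nat_lit 78) (nat_lit 0) (nat_lit 0) (XT.lf (nat_lit 76) (nat_lit 3434830859) (nat_lit 0) (nat_lit 12817825765) (nat_lit 1748) (nat_lit 5203827842) (nat_lit 398) (nat_lit 5) (nat_lit 397) (nat_lit 5) (nat_lit 420) (nat_lit 5) (nat_lit 466) (nat_lit 461) (nat_lit 213)) (XT.lf (nat_lit 76) (nat_lit 13626411940) (nat_lit 0) (nat_lit 3260011233) (nat_lit 1748) (nat_lit 4785878979) (nat_lit 398) (nat_lit 5)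 (nat_lit 397) (nat_lit 5) (nat_lit 420) (nat_lit 5) (nat_lit 467) (nat_lit 461) (nat_lit 212)))))) (XT.nd (nat_lit 546) (nat_lit 0) (nat_lit 76) (XT.nd (nat_lit 234) (nat_lit 1596) (nat_lit 0) (XT.nd (nat_lit 78) (nat_lit 0) (nat_lit 0) (XT.lf (nat_lit 76) (nat_lit 2112789807) (nat_lit 0) (nat_lit 15472306280) (nat_lit 1748) (nat_lit 4306297986) (nat_lit 399) (nat_lit 5) (nat_lit 398) (nat_lit 5) (nat_lit 421) (nat_lit 5) (nat_lit 468) (nat_lit 461) (nat_lit 211)) (XT.nd (nat_lit 78) (nat_lit 0) (nat_lit 76) (XT.lf (nat_lit 76) (nat_lit 12559667892) (nat_lit 0) (nat_lit 5809953816) (nat_lit 1748) (nat_lit 3743810986) (nat_lit 399) (nat_lit 5) (nat_lit 398) (nat_lit 5) (nat_lit 421) (nat_lit 5) (nat_lit 469) (nat_lit 461) (nat_lit 210)) (XT.lf (nat_lit 76) (nat_lit 858359988) (nat_lit 0) (nat_lit 18339836265) (nat_lit 1748) (nat_lit 3141151069) (nat_lit 400) (nat_lit 5) (nat_lit 399) (nat_lit 5) (nat_lit 422) (nat_lit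 5) (nat_lit 470) (nat_lit 461) (nat_lit 209)))) (XT.nd (nat_lit 156) (nat_lit 1672) (nat_lit 0) (XT.nd (nat_lit 78) (nat_lit 0) (nat_lit 76) (XT.lf (nat_lit 76) (nat_lit 11567055720) (nat_lit 0) (nat_lit 8575193158) (nat_lit 1748) (nat_lit 2425555588) (nat_lit 400) (nat_lit 5) (nat_lit 399) (nat_lit 5) (nat_lit 422) (nat_lit 5) (nat_lit 471) (nat_lit 461) (nat_lit 208)) (XT.lf (nat_lit 0) (nat_lit 21110820744) (nat_lit 1672) (nat_lit 322118076) (nat_lit 1748) (nat_lit 1367781477) (nat_lit 400) (nat_lit 5) (nat_lit 422) (nat_lit 5) (nat_lit 423) (nat_lit 5) (nat_lit 472) (nat_lit 461) (nat_lit 207))) (XT.nd (nat_lit 78) (nat_lit 1748) (nat_lit 0) (XT.lf (nat_lit 76) (nat_lit 10650804615) (nat_lit 0) (nat_lit 11570614132) (nat_lit 1748) (nat_lit 814424866) (nat_lit 401) (nat_lit 5) (nat_lit 400) (nat_lit 5) (nat_lit 423) (nat_lit 5) (nat_lit 473) (nat_lit 461) (nat_lit 206)) (XT.lf (nat_lit 0) (nat_lit 76444918)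 (nat_lit 1748) (nat_lit 1430808003) (nat_lit 1824) (nat_lit 21768430130) (nat_lit 377) (nat_lit 5) (nat_lit 400) (nat_lit 5) (nat_lit 401) (nat_lit 5) (nat_lit 474) (nat_lit 461) (nat_lit 205))))) (XT.nd (nat_lit 312) (nat_lit 0) (nat_lit 152) (XT.nd (nat_lit 156) (nat_lit 0) (nat_lit 76) (XT.nd (nat_lit 78) (nat_lit 0) (nat_lit 0) (XT.lf (nat_lit 0) (nat_lit 1092412041) (nat_lit 1748) (nat_lit 13712001677) (nat_lit 1824) (nat_lit 8713436325) (nat_lit 378) (nat_lit 5) (nat_lit 401) (nat_lit 5) (nat_lit 402) (nat_lit 5) (nat_lit 475) (nat_lit 461) (nat_lit 204)) (XT.lf (nat_lit 0) (nat_lit 2145204479) (nat_lit 1748) (nat_lit 2490304436) (nat_lit 1824) (nat_lit 19129023430) (nat_lit 378) (nat_lit 5) (nat_lit 401) (nat_lit 5) (nat_lit 402) (nat_lit 5) (nat_lit 476) (nat_lit 461) (nat_lit 203))) (XT.nd (nat_lit 78) (nat_lit 0) (nat_lit 0) (XT.lf (nat_lit 0) (nat_lit 3312521912) (nat_lit 1748) (nat_lit 14980040642)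 (nat_lit 1824) (nat_lit 5721718405) (nat_lit 379) (nat_lit 5) (nat_lit 402) (nat_lit 5) (nat_lit 403) (nat_lit 5) (nat_lit 477) (nat_lit 461) (nat_lit 202)) (XT.lf (nat_lit 0) (nat_lit 4547678995) (nat_lit 1748) (nat_lit 3478700929) (nat_lit 1824) (nat_lit 16241756766) (nat_lit 379) (nat_lit 5) (nat_lit 402) (nat_lit 5) (nat_lit 403) (nat_lit 5) (nat_lit 478) (nat_lit 461) (nat_lit 201)))) (XT.nd (nat_lit 156) (nat_lit 0) (nat_lit 0) (XT.nd (nat_lit 78) (nat_lit 0) (nat_lit 0) (XT.lf (nat_lit 0) (nat_lit 5875090564) (nat_lit 1748) (nat_lit 16182165221) (nat_lit 1824) (nat_lit 2468464694) (nat_lit 380) (nat_lit 5) (nat_lit 403) (nat_lit 5) (nat_lit 404) (nat_lit 5) (nat_lit 479) (nat_lit 461) (nat_lit 200)) (XT.lf (nat_lit 0) (nat_lit 7302784637) (nat_lit 1748) (nat_lit 4394128177) (nat_lit 1824) (nat_lit 13090070375) (nat_lit 380) (nat_lit 5) (nat_lit 403) (nat_lit 5) (nat_lit 404) (nat_lit 5) (nat_lit 480) (nat_lit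 461) (nat_lit 199))) (XT.nd (nat_lit 78) (nat_lit 0) (nat_lit 76) (XT.lf (nat_lit 76) (nat_lit 7728837684) (nat_lit 0) (nat_lit 1077513814) (nat_lit 1824) (nat_lit 16246175172) (nat_lit 381) (nat_lit 5) (nat_lit 380) (nat_lit 5) (nat_lit 404) (nat_lit 5) (nat_lit 481) (nat_lit 461) (nat_lit 198)) (XT.lf (nat_lit 0) (nat_lit 10430187346) (nat_lit 1748) (nat_lit 5234736300) (nat_lit 1824) (nat_lit 9656655276) (nat_lit 381) (nat_lit 5) (nat_lit 404) (nat_lit 5) (nat_lit 405) (nat_lit 5) (nat_lit 482) (nat_lit 461) (nat_lit 197))))))))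
noncomputable def xc245 : XT := (XT.nd (nat_lit 58032) (nat_lit 0) (nat_lit 4560) (XT.nd (nat_lit 1092) (nat_lit 3724) (nat_lit 0) (XT.nd (nat_lit 546) (nat_lit 2660) (nat_lit 0) (XT.nd (nat_lit 234) (nat_lit 2128) (nat_lit 0) (XT.nd (nat_lit 78) (nat_lit 0) (nat_lit 76) (XT.lf (nat_lit 76) (nat_lit 7180836611) (nat_lit 0) (nat_lit 4956661365) (nat_lit 1824) (nat_lit 13457496103) (nat_lit 382) (nat_lit 5) (nat_lit 381) (nat_lit 5) (nat_lit 405) (nat_lit 5) (nat_lit 483) (nat_lit 461) (nat_lit 196)) (XT.nd (nat_lit 78) (nat_lit 0) (nat_lit 0) (XT.lf (nat_lit 0) (nat_lit 13950331860) (nat_lit 1748) (nat_lit 5998708242) (nat_lit 1824) (nat_lit 5923411680) (nat_lit 382) (nat_lit 5) (nat_lit 405) (nat_lit 5) (nat_lit 406) (nat_lit 5) (nat_lit 484) (nat_lit 461) (nat_lit 195)) (XT.lf (nat_lit 76) (nat_lit 6718131822) (nat_lit 0) (nat_lit 9155070876) (nat_lit 1824) (nat_lit 10280782087) (nat_lit 383) (nat_lit 5) (nat_lit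 382) (nat_lit 5) (nat_lit 406) (nat_lit 5) (nat_lit 485) (nat_lit 461) (nat_lit 194)))) (XT.nd (nat_lit 156) (nat_lit 836) (nat_lit 0) (XT.nd (nat_lit 78) (nat_lit 1444) (nat_lit 0) (XT.lf (nat_lit 0) (nat_lit 17884471486) (nat_lit 1748) (nat_lit 6684274305) (nat_lit 76) (nat_lit 1871405559) (nat_lit 383) (nat_lit 5) (nat_lit 406) (nat_lit 5) (nat_lit 384) (nat_lit 5) (nat_lit 486) (nat_lit 461) (nat_lit 193)) (XT.lf (nat_lit 0) (nat_lit 6342691195) (nat_lit 1444) (nat_lit 13692513464) (nat_lit 1520) (nat_lit 6694853492) (nat_lit 364) (nat_lit 5) (nat_lit 383) (nat_lit 5) (nat_lit 384) (nat_lit 5) (nat_lit 487) (nat_lit 461) (nat_lit 192))) (XT.nd (nat_lit 78) (nat_lit 836) (nat_lit 0) (XT.lf (nat_lit 0) (nat_lit 19718616923) (nat_lit 1444) (nat_lit 2552655241) (nat_lit 1520) (nat_lit 4753646176) (nat_lit 364) (nat_lit 5) (nat_lit 383) (nat_lit 5) (nat_lit 384) (nat_lit 5) (nat_lit 488) (nat_lit 461) (nat_lit 191))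 (XT.lf (nat_lit 0) (nat_lit 6056419228) (nat_lit 836) (nat_lit 18589681052) (nat_lit 912) (nat_lit 2677696285) (nat_lit 353) (nat_lit 5) (nat_lit 364) (nat_lit 5) (nat_lit 365) (nat_lit 5) (nat_lit 489) (nat_lit 461) (nat_lit 190))))) (XT.nd (nat_lit 234) (nat_lit 1672) (nat_lit 0) (XT.nd (nat_lit 78) (nat_lit 988) (nat_lit 0) (XT.lf (nat_lit 0) (nat_lit 19766121055) (nat_lit 836) (nat_lit 7365677946) (nat_lit 912) (nat_lit 495587457) (nat_lit 353) (nat_lit 5) (nat_lit 364) (nat_lit 5) (nat_lit 365) (nat_lit 5) (nat_lit 490) (nat_lit 461) (nat_lit 189)) (XT.nd (nat_lit 78) (nat_lit 0) (nat_lit 0) (XT.lf (nat_lit 0) (nat_lit 1770045815) (nat_lit 988) (nat_lit 22086311969) (nat_lit 76) (nat_lit 4079215748) (nat_lit 340) (nat_lit 5) (nat_lit 353) (nat_lit 5) (nat_lit 341) (nat_lit 5) (nat_lit 491) (nat_lit 461) (nat_lit 188)) (XT.lf (nat_lit 0) (nat_lit 4173860532) (nat_lit 988) (nat_lit 8362929050) (nat_lit 76) (nat_lit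 15711080646) (nat_lit 340) (nat_lit 5) (nat_lit 353) (nat_lit 5) (nat_lit 341) (nat_lit 5) (nat_lit 492) (nat_lit 461) (nat_lit 187)))) (XT.nd (nat_lit 156) (nat_lit 836) (nat_lit 0) (XT.nd (nat_lit 78) (nat_lit 0) (nat_lit 0) (XT.lf (nat_lit 0) (nat_lit 5707611564) (nat_lit 836) (nat_lit 952860892) (nat_lit 912) (nat_lit 21905247448) (nat_lit 329) (nat_lit 5) (nat_lit 340) (nat_lit 5) (nat_lit 341) (nat_lit 5) (nat_lit 493) (nat_lit 461) (nat_lit 186)) (XT.lf (nat_lit 0) (nat_lit 9321532236) (nat_lit 912) (nat_lit 8788979879) (nat_lit 76) (nat_lit 10776921583) (nat_lit 329) (nat_lit 5) (nat_lit 341) (nat_lit 5) (nat_lit 330) (nat_lit 5) (nat_lit 494) (nat_lit 461) (nat_lit 185))) (XT.nd (nat_lit 78) (nat_lit 0) (nat_lit 0) (XT.lf (nat_lit 0) (nat_lit 5626860668) (nat_lit 836) (nat_lit 6449537515) (nat_lit 912) (nat_lit 17138373291) (nat_lit 318) (nat_lit 5) (nat_lit 329) (nat_lit 5) (nat_lit 330) (nat_lit 5) (nat_lit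 495) (nat_lit 461) (nat_lit 184)) (XT.lf (nat_lit 0) (nat_lit 14978853289) (nat_lit 912) (nat_lit 9135252121) (nat_lit 76) (nat_lit 5432702138) (nat_lit 318) (nat_lit 5) (nat_lit 330) (nat_lit 5) (nat_lit 319) (nat_lit 5) (nat_lit 496) (nat_lit 461) (nat_lit 183)))))) (XT.nd (nat_lit 546) (nat_lit 684) (nat_lit 0) (XT.nd (nat_lit 234) (nat_lit 1520) (nat_lit 0) (XT.nd (nat_lit 78) (nat_lit 760) (nat_lit 0) (XT.lf (nat_lit 0) (nat_lit 5635511511) (nat_lit 760) (nat_lit 12380963564) (nat_lit 836) (nat_lit 11867468270) (nat_lit 308) (nat_lit 5) (nat_lit 318) (nat_lit 5) (nat_lit 319) (nat_lit 5) (nat_lit 497) (nat_lit 461) (nat_lit 182)) (XT.nd (nat_lit 78) (nat_lit 760) (nat_lit 0) (XT.lf (nat_lit 0) (nat_lit 20823388483) (nat_lit 760) (nat_lit 350608073) (nat_lit 836) (nat_lit 9052643683) (nat_lit 308) (nat_lit 5) (nat_lit 318) (nat_lit 5) (nat_lit 319) (nat_lit 5) (nat_lit 498) (nat_lit 461) (nat_lit 181)) (XT.lf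 (nat_lit 0) (nat_lit 5734511663) (nat_lit 760) (nat_lit 18772671212) (nat_lit 836) (nat_lit 6066759206) (nat_lit 298) (nat_lit 5) (nat_lit 308) (nat_lit 5) (nat_lit 309) (nat_lit 5) (nat_lit 499) (nat_lit 461) (nat_lit 180)))) (XT.nd (nat_lit 156) (nat_lit 760) (nat_lit 0) (XT.nd (nat_lit 78) (nat_lit 760) (nat_lit 0) (XT.lf (nat_lit 0) (nat_lit 21298020620) (nat_lit 760) (nat_lit 6672334668) (nat_lit 836) (nat_lit 2956569500) (nat_lit 298) (nat_lit 5) (nat_lit 308) (nat_lit 5) (nat_lit 309) (nat_lit 5) (nat_lit 500) (nat_lit 461) (nat_lit 179)) (XT.lf (nat_lit 0) (nat_lit 286712714) (nat_lit 760) (nat_lit 25362789454) (nat_lit 76) (nat_lit 5635963795) (nat_lit 288) (nat_lit 5) (nat_lit 298) (nat_lit 5) (nat_lit 289) (nat_lit 5) (nat_lit 501) (nat_lit 461) (nat_lit 178))) (XT.nd (nat_lit 78) (nat_lit 760) (nat_lit 0) (XT.lf (nat_lit 0) (nat_lit 3662507146) (nat_lit 760) (nat_lit 9800405127) (nat_lit 76) (nat_lit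 18185731330) (nat_lit 288) (nat_lit 5) (nat_lit 298) (nat_lit 5) (nat_lit 289) (nat_lit 5) (nat_lit 502) (nat_lit 461) (nat_lit 177)) (XT.lf (nat_lit 0) (nat_lit 6151815815) (nat_lit 760) (nat_lit 991950630) (nat_lit 836) (nat_lit 24874560548) (nat_lit 278) (nat_lit 5) (nat_lit 288) (nat_lit 5) (nat_lit 289) (nat_lit 5) (nat_lit 503) (nat_lit 461) (nat_lit 176))))) (XT.nd (nat_lit 56082) (nat_lit 0) (nat_lit 9576) (XT.nd (nat_lit 78) (nat_lit 684) (nat_lit 0) (XT.lf (nat_lit 0) (nat_lit 10835033243) (nat_lit 836) (nat_lit 9916864009) (nat_lit 76) (nat_lit 11640700307) (nat_lit 278) (nat_lit 5) (nat_lit 289) (nat_lit 5) (nat_lit 279) (nat_lit 5) (nat_lit 504) (nat_lit 461) (nat_lit 175)) (XT.nd (nat_lit 78) (nat_lit 0) (nat_lit 0) (XT.lf (nat_lit 0) (nat_lit 6427426058) (nat_lit 684) (nat_lit 8219070377) (nat_lit 760) (nat_lit 18126930811) (nat_lit 269) (nat_lit 5) (nat_lit 278) (nat_lit 5) (nat_lit 279) (nat_lit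 5) (nat_lit 505) (nat_lit 461) (nat_lit 174)) (XT.lf (nat_lit 0) (nat_lit 18628906310) (nat_lit 760) (nat_lit 9959693047) (nat_lit 76) (nat_lit 4571380932) (nat_lit 269) (nat_lit 5) (nat_lit 279) (nat_lit 5) (nat_lit 270) (nat_lit 5) (nat_lit 506) (nat_lit 461) (nat_lit 173)))) (XT.nd (nat_lit 156) (nat_lit 0) (nat_lit 76) (XT.nd (nat_lit 78) (nat_lit 0) (nat_lit 0) (XT.lf (nat_lit 0) (nat_lit 7307770815) (nat_lit 1748) (nat_lit 1552653182) (nat_lit 1748) (nat_lit 1552653182) (nat_lit 395) (nat_lit 3) (nat_lit 418) (nat_lit 3) (nat_lit 418) (nat_lit 5) (nat_lit 462) (nat_lit 462) (nat_lit 216)) (XT.lf (nat_lit 76) (nat_lit 6552305994) (nat_lit 0) (nat_lit 8398012315) (nat_lit 1748) (nat_lit 6080224083) (nat_lit 396) (nat_lit 5) (nat_lit 395) (nat_lit 3) (nat_lit 418) (nat_lit 5) (nat_lit 463) (nat_lit 462) (nat_lit 215))) (XT.nd (nat_lit 78) (nat_lit 0) (nat_lit 0) (XT.lf (nat_lit 0) (nat_lit 15316149449) (nat_lit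 1672) (nat_lit 4802863870) (nat_lit 1748) (nat_lit 1119520339) (nat_lit 396) (nat_lit 5) (nat_lit 418) (nat_lit 5) (nat_lit 419) (nat_lit 5) (nat_lit 464) (nat_lit 462) (nat_lit 214)) (XT.lf (nat_lit 76) (nat_lit 5074926227) (nat_lit 0) (nat_lit 10699179410) (nat_lit 1748) (nat_lit 5674885541) (nat_lit 397) (nat_lit 5) (nat_lit 396) (nat_lit 5) (nat_lit 419) (nat_lit 5) (nat_lit 465) (nat_lit 462) (nat_lit 213))))))) (XT.nd (nat_lit 1092) (nat_lit 3648) (nat_lit 0) (XT.nd (nat_lit 546) (nat_lit 1444) (nat_lit 0) (XT.nd (nat_lit 234) (nat_lit 0) (nat_lit 152) (XT.nd (nat_lit 78) (nat_lit 0) (nat_lit 76) (XT.lf (nat_lit 76) (nat_lit 15213357104) (nat_lit 0) (nat_lit 1056396818) (nat_lit 1748) (nat_lit 5393335816) (nat_lit 397) (nat_lit 5) (nat_lit 396) (nat_lit 5) (nat_lit 419) (nat_lit 5) (nat_lit 466) (nat_lit 462) (nat_lit 212)) (XT.nd (nat_lit 78) (nat_lit 0) (nat_lit 0) (XT.lf (nat_lit 76) (nat_lit 3662048919)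 (nat_lit 0) (nat_lit 13190429756) (nat_lit 1748) (nat_lit 5027450824) (nat_lit 398) (nat_lit 5) (nat_lit 397) (nat_lit 5) (nat_lit 420) (nat_lit 5) (nat_lit 467) (nat_lit 462) (nat_lit 211)) (XT.lf (nat_lit 76) (nat_lit 14054353359) (nat_lit 0) (nat_lit 3439179571) (nat_lit 1748) (nat_lit 4606642074) (nat_lit 398) (nat_lit 5) (nat_lit 397) (nat_lit 5) (nat_lit 420) (nat_lit 5) (nat_lit 468) (nat_lit 462) (nat_lit 210)))) (XT.nd (nat_lit 156) (nat_lit 0) (nat_lit 76) (XT.nd (nat_lit 78) (nat_lit 0) (nat_lit 0) (XT.lf (nat_lit 76) (nat_lit 2315707941) (nat_lit 0) (nat_lit 15885507053) (nat_lit 1748) (nat_lit 4122536693) (nat_lit 399) (nat_lit 5) (nat_lit 398) (nat_lit 5) (nat_lit 421) (nat_lit 5) (nat_lit 469) (nat_lit 462) (nat_lit 209)) (XT.lf (nat_lit 76) (nat_lit 12968373346) (nat_lit 0) (nat_lit 6027873135) (nat_lit 1748) (nat_lit 3554091861) (nat_lit 399) (nat_lit 5) (nat_lit 398) (nat_lit 5) (nat_lit 421)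 (nat_lit 5) (nat_lit 470) (nat_lit 462) (nat_lit 208))) (XT.nd (nat_lit 78) (nat_lit 0) (nat_lit 0) (XT.lf (nat_lit 76) (nat_lit 1037986835) (nat_lit 0) (nat_lit 18798730006) (nat_lit 1748) (nat_lit 2944151433) (nat_lit 400) (nat_lit 5) (nat_lit 399) (nat_lit 5) (nat_lit 422) (nat_lit 5) (nat_lit 471) (nat_lit 462) (nat_lit 207)) (XT.lf (nat_lit 76) (nat_lit 11957670998) (nat_lit 0) (nat_lit 8836988213) (nat_lit 1748) (nat_lit 2219338604) (nat_lit 400) (nat_lit 5) (nat_lit 399) (nat_lit 5) (nat_lit 422) (nat_lit 5) (nat_lit 472) (nat_lit 462) (nat_lit 206))))) (XT.nd (nat_lit 234) (nat_lit 0) (nat_lit 76) (XT.nd (nat_lit 78) (nat_lit 1748) (nat_lit 0) (XT.lf (nat_lit 0) (nat_lit 21777134340) (nat_lit 1672) (nat_lit 166773050) (nat_lit 1748) (nat_lit 1307777296) (nat_lit 400) (nat_lit 5) (nat_lit 422) (nat_lit 5) (nat_lit 423) (nat_lit 5) (nat_lit 473) (nat_lit 462) (nat_lit 205)) (XT.nd (nat_lit 78) (nat_lit 1748)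 (nat_lit 0) (XT.lf (nat_lit 76) (nat_lit 11024543703) (nat_lit 0) (nat_lit 11881657901) (nat_lit 1748) (nat_lit 585387015) (nat_lit 401) (nat_lit 5) (nat_lit 400) (nat_lit 5) (nat_lit 423) (nat_lit 5) (nat_lit 474) (nat_lit 462) (nat_lit 204)) (XT.lf (nat_lit 0) (nat_lit 315335434) (nat_lit 1748) (nat_lit 1298539809) (nat_lit 1824) (nat_lit 22122415859) (nat_lit 377) (nat_lit 5) (nat_lit 400) (nat_lit 5) (nat_lit 401) (nat_lit 5) (nat_lit 475) (nat_lit 462) (nat_lit 203)))) (XT.nd (nat_lit 156) (nat_lit 0) (nat_lit 76) (XT.nd (nat_lit 78) (nat_lit 0) (nat_lit 0) (XT.lf (nat_lit 0) (nat_lit 1347525512) (nat_lit 1748) (nat_lit 13821105697) (nat_lit 1824) (nat_lit 8814755257) (nat_lit 378) (nat_lit 5) (nat_lit 401) (nat_lit 5) (nat_lit 402) (nat_lit 5) (nat_lit 476) (nat_lit 462) (nat_lit 202)) (XT.lf (nat_lit 0) (nat_lit 2416799971) (nat_lit 1748) (nat_lit 2378212473) (nat_lit 1824) (nat_lit 19440084491) (nat_lit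 378) (nat_lit 5) (nat_lit 401) (nat_lit 5) (nat_lit 402) (nat_lit 5) (nat_lit 477) (nat_lit 462) (nat_lit 201))) (XT.nd (nat_lit 78) (nat_lit 0) (nat_lit 0) (XT.lf (nat_lit 0) (nat_lit 3603605594) (nat_lit 1748) (nat_lit 15113736000) (nat_lit 1824) (nat_lit 5772579076) (nat_lit 379) (nat_lit 5) (nat_lit 402) (nat_lit 5) (nat_lit 403) (nat_lit 5) (nat_lit 478) (nat_lit 462) (nat_lit 200)) (XT.lf (nat_lit 0) (nat_lit 4859057323) (nat_lit 1748) (nat_lit 3385622541) (nat_lit 1824) (nat_lit 16504264748) (nat_lit 379) (nat_lit 5) (nat_lit 402) (nat_lit 5) (nat_lit 403) (nat_lit 5) (nat_lit 479) (nat_lit 462) (nat_lit 199)))))) (XT.nd (nat_lit 546) (nat_lit 3876) (nat_lit 0) (XT.nd (nat_lit 234) (nat_lit 0) (nat_lit 76) (XT.nd (nat_lit 78) (nat_lit 0) (nat_lit 0) (XT.lf (nat_lit 0) (nat_lit 6209383375) (nat_lit 1748) (nat_lit 16339378923) (nat_lit 1824) (nat_lit 2462993322) (nat_lit 380) (nat_lit 5) (nat_lit 403) (nat_lit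 5) (nat_lit 404) (nat_lit 5) (nat_lit 480) (nat_lit 462) (nat_lit 198)) (XT.nd (nat_lit 78) (nat_lit 0) (nat_lit 0) (XT.lf (nat_lit 0) (nat_lit 7661380526) (nat_lit 1748) (nat_lit 4318844464) (nat_lit 1824) (nat_lit 13298106424) (nat_lit 380) (nat_lit 5) (nat_lit 403) (nat_lit 5) (nat_lit 404) (nat_lit 5) (nat_lit 481) (nat_lit 462) (nat_lit 197)) (XT.lf (nat_lit 76) (nat_lit 8045507252) (nat_lit 0) (nat_lit 1146396431) (nat_lit 1824) (nat_lit 16357347138) (nat_lit 381) (nat_lit 5) (nat_lit 380) (nat_lit 5) (nat_lit 404) (nat_lit 5) (nat_lit 482) (nat_lit 462) (nat_lit 196)))) (XT.nd (nat_lit 156) (nat_lit 0) (nat_lit 76) (XT.nd (nat_lit 78) (nat_lit 0) (nat_lit 0) (XT.lf (nat_lit 0) (nat_lit 10843808586) (nat_lit 1748) (nat_lit 5175973664) (nat_lit 1824) (nat_lit 9803992726) (nat_lit 381) (nat_lit 5) (nat_lit 404) (nat_lit 5) (nat_lit 405) (nat_lit 5) (nat_lit 483) (nat_lit 462) (nat_lit 195)) (XT.lf (nat_lit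 76) (nat_lit 7486835327) (nat_lit 0) (nat_lit 5095464442) (nat_lit 1824) (nat_lit 13520420631) (nat_lit 382) (nat_lit 5) (nat_lit 381) (nat_lit 5) (nat_lit 405) (nat_lit 5) (nat_lit 484) (nat_lit 462) (nat_lit 194))) (XT.nd (nat_lit 78) (nat_lit 0) (nat_lit 0) (XT.lf (nat_lit 0) (nat_lit 14427176018) (nat_lit 1748) (nat_lit 5955140145) (nat_lit 1824) (nat_lit 6003497980) (nat_lit 382) (nat_lit 5) (nat_lit 405) (nat_lit 5) (nat_lit 406) (nat_lit 5) (nat_lit 485) (nat_lit 462) (nat_lit 193)) (XT.lf (nat_lit 76) (nat_lit 7014960784) (nat_lit 0) (nat_lit 9370719160) (nat_lit 1824) (nat_lit 10287356895) (nat_lit 383) (nat_lit 5) (nat_lit 382) (nat_lit 5) (nat_lit 406) (nat_lit 5) (nat_lit 486) (nat_lit 462) (nat_lit 192))))) (XT.nd (nat_lit 312) (nat_lit 1824) (nat_lit 0) (XT.nd (nat_lit 156) (nat_lit 836) (nat_lit 0) (XT.nd (nat_lit 78) (nat_lit 1444) (nat_lit 0) (XT.lf (nat_lit 0) (nat_lit 18433143148) (nat_lit 1748)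 (nat_lit 6654523239) (nat_lit 76) (nat_lit 1877343467) (nat_lit 383) (nat_lit 5) (nat_lit 406) (nat_lit 5) (nat_lit 384) (nat_lit 5) (nat_lit 487) (nat_lit 462) (nat_lit 191)) (XT.lf (nat_lit 0) (nat_lit 6631906331) (nat_lit 1444) (nat_lit 13992294061) (nat_lit 1520) (nat_lit 6636570657) (nat_lit 364) (nat_lit 5) (nat_lit 383) (nat_lit 5) (nat_lit 384) (nat_lit 5) (nat_lit 488) (nat_lit 462) (nat_lit 190))) (XT.nd (nat_lit 78) (nat_lit 836) (nat_lit 0) (XT.lf (nat_lit 0) (nat_lit 20272167018) (nat_lit 1444) (nat_lit 2629130236) (nat_lit 1520) (nat_lit 4660307429) (nat_lit 364) (nat_lit 5) (nat_lit 383) (nat_lit 5) (nat_lit 384) (nat_lit 5) (nat_lit 489) (nat_lit 462) (nat_lit 189)) (XT.lf (nat_lit 0) (nat_lit 6339629063) (nat_lit 836) (nat_lit 18981263790) (nat_lit 912) (nat_lit 2545624555) (nat_lit 353) (nat_lit 5) (nat_lit 364) (nat_lit 5) (nat_lit 365) (nat_lit 5) (nat_lit 490) (nat_lit 462) (nat_lit 188))))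 (XT.nd (nat_lit 156) (nat_lit 836) (nat_lit 0) (XT.nd (nat_lit 78) (nat_lit 988) (nat_lit 0) (XT.lf (nat_lit 0) (nat_lit 20320346858) (nat_lit 836) (nat_lit 7532392600) (nat_lit 912) (nat_lit 323513269) (nat_lit 353) (nat_lit 5) (nat_lit 364) (nat_lit 5) (nat_lit 365) (nat_lit 5) (nat_lit 491) (nat_lit 462) (nat_lit 187)) (XT.lf (nat_lit 0) (nat_lit 1982456451) (nat_lit 988) (nat_lit 22363934612) (nat_lit 76) (nat_lit 4144242855) (nat_lit 340) (nat_lit 5) (nat_lit 353) (nat_lit 5) (nat_lit 341) (nat_lit 5) (nat_lit 492) (nat_lit 462) (nat_lit 186))) (XT.nd (nat_lit 78) (nat_lit 836) (nat_lit 0) (XT.lf (nat_lit 0) (nat_lit 4430876683) (nat_lit 988) (nat_lit 8369301752) (nat_lit 76) (nat_lit 16009069702) (nat_lit 340) (nat_lit 5) (nat_lit 353) (nat_lit 5) (nat_lit 341) (nat_lit 5) (nat_lit 493) (nat_lit 462) (nat_lit 185)) (XT.lf (nat_lit 0) (nat_lit 5981591215) (nat_lit 836) (nat_lit 983264614) (nat_lit 912) (nat_lit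 22168648412) (nat_lit 329) (nat_lit 5) (nat_lit 340) (nat_lit 5) (nat_lit 341) (nat_lit 5) (nat_lit 494) (nat_lit 462) (nat_lit 184))))))))
noncomputable def xc246 : XT := (XT.nd (nat_lit 58188) (nat_lit 0) (nat_lit 0) (XT.nd (nat_lit 57096) (nat_lit 0) (nat_lit 7524) (XT.nd (nat_lit 546) (nat_lit 1520) (nat_lit 0) (XT.nd (nat_lit 234) (nat_lit 1520) (nat_lit 0) (XT.nd (nat_lit 78) (nat_lit 836) (nat_lit 0) (XT.lf (nat_lit 0) (nat_lit 9675708227) (nat_lit 912) (nat_lit 8804532858) (nat_lit 76) (nat_lit 10981481885) (nat_lit 329) (nat_lit 5) (nat_lit 341) (nat_lit 5) (nat_lit 330) (nat_lit 5) (nat_lit 495) (nat_lit 462) (nat_lit 183)) (XT.nd (nat_lit 78) (nat_lit 0) (nat_lit 0) (XT.lf (nat_lit 0) (nat_lit 5898570377) (nat_lit 836) (nat_lit 6584845445) (nat_lit 912) (nat_lit 17312238842) (nat_lit 318) (nat_lit 5) (nat_lit 329) (nat_lit 5) (nat_lit 330) (nat_lit 5) (nat_lit 496) (nat_lit 462) (nat_lit 182)) (XT.lf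 (nat_lit 0) (nat_lit 15440634924) (nat_lit 912) (nat_lit 9158520153) (nat_lit 76) (nat_lit 5535244094) (nat_lit 318) (nat_lit 5) (nat_lit 330) (nat_lit 5) (nat_lit 319) (nat_lit 5) (nat_lit 497) (nat_lit 462) (nat_lit 181)))) (XT.nd (nat_lit 156) (nat_lit 760) (nat_lit 0) (XT.nd (nat_lit 78) (nat_lit 0) (nat_lit 0) (XT.lf (nat_lit 0) (nat_lit 5906609823) (nat_lit 760) (nat_lit 12630247201) (nat_lit 836) (nat_lit 11941465671) (nat_lit 308) (nat_lit 5) (nat_lit 318) (nat_lit 5) (nat_lit 319) (nat_lit 5) (nat_lit 498) (nat_lit 462) (nat_lit 180)) (XT.lf (nat_lit 0) (nat_lit 21395138686) (nat_lit 760) (nat_lit 359251966) (nat_lit 836) (nat_lit 9073547572) (nat_lit 308) (nat_lit 5) (nat_lit 318) (nat_lit 5) (nat_lit 319) (nat_lit 5) (nat_lit 499) (nat_lit 462) (nat_lit 179))) (XT.nd (nat_lit 78) (nat_lit 0) (nat_lit 0) (XT.lf (nat_lit 0) (nat_lit 6006686797) (nat_lit 760) (nat_lit 19145489261) (nat_lit 836) (nat_lit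 6030053230) (nat_lit 298) (nat_lit 5) (nat_lit 308) (nat_lit 5) (nat_lit 309) (nat_lit 5) (nat_lit 500) (nat_lit 462) (nat_lit 178)) (XT.lf (nat_lit 0) (nat_lit 21878377994) (nat_lit 760) (nat_lit 6803197660) (nat_lit 836) (nat_lit 2860758577) (nat_lit 298) (nat_lit 5) (nat_lit 308) (nat_lit 5) (nat_lit 309) (nat_lit 5) (nat_lit 501) (nat_lit 462) (nat_lit 177))))) (XT.nd (nat_lit 234) (nat_lit 0) (nat_lit 0) (XT.nd (nat_lit 78) (nat_lit 760) (nat_lit 0) (XT.lf (nat_lit 0) (nat_lit 443398155) (nat_lit 760) (nat_lit 25711477001) (nat_lit 76) (nat_lit 5753191916) (nat_lit 288) (nat_lit 5) (nat_lit 298) (nat_lit 5) (nat_lit 289) (nat_lit 5) (nat_lit 502) (nat_lit 462) (nat_lit 176)) (XT.nd (nat_lit 78) (nat_lit 760) (nat_lit 0) (XT.lf (nat_lit 0) (nat_lit 3883748649) (nat_lit 760) (nat_lit 9840954169) (nat_lit 76) (nat_lit 18553866393) (nat_lit 288) (nat_lit 5) (nat_lit 298) (nat_lit 5) (nat_lit 289) (nat_lit 5) (nat_lit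 503) (nat_lit 462) (nat_lit 175)) (XT.lf (nat_lit 0) (nat_lit 6429288434) (nat_lit 760) (nat_lit 1003445611) (nat_lit 836) (nat_lit 25222951920) (nat_lit 278) (nat_lit 5) (nat_lit 288) (nat_lit 5) (nat_lit 289) (nat_lit 5) (nat_lit 504) (nat_lit 462) (nat_lit 174)))) (XT.nd (nat_lit 56160) (nat_lit 0) (nat_lit 8892) (XT.nd (nat_lit 56082) (nat_lit 0) (nat_lit 8892) (XT.lf (nat_lit 0) (nat_lit 11195014738) (nat_lit 836) (nat_lit 9960897666) (nat_lit 76) (nat_lit 11881587448) (nat_lit 278) (nat_lit 5) (nat_lit 289) (nat_lit 5) (nat_lit 279) (nat_lit 5) (nat_lit 505) (nat_lit 462) (nat_lit 173)) (XT.lf (nat_lit 0) (nat_lit 7599057134) (nat_lit 1748) (nat_lit 1509639271) (nat_lit 1748) (nat_lit 1509639271) (nat_lit 395) (nat_lit 3) (nat_lit 418) (nat_lit 3) (nat_lit 418) (nat_lit 5) (nat_lit 463) (nat_lit 463) (nat_lit 214))) (XT.nd (nat_lit 78) (nat_lit 0) (nat_lit 76) (XT.lf (nat_lit 76) (nat_lit 6830511499) (nat_lit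 0) (nat_lit 8704339029) (nat_lit 1748) (nat_lit 5910395272) (nat_lit 396) (nat_lit 5) (nat_lit 395) (nat_lit 3) (nat_lit 418) (nat_lit 5) (nat_lit 464) (nat_lit 463) (nat_lit 213)) (XT.lf (nat_lit 0) (nat_lit 15901518993) (nat_lit 1672) (nat_lit 4747974879) (nat_lit 1748) (nat_lit 1008036465) (nat_lit 396) (nat_lit 5) (nat_lit 418) (nat_lit 5) (nat_lit 419) (nat_lit 5) (nat_lit 465) (nat_lit 463) (nat_lit 212)))))) (XT.nd (nat_lit 546) (nat_lit 1444) (nat_lit 0) (XT.nd (nat_lit 234) (nat_lit 0) (nat_lit 76) (XT.nd (nat_lit 78) (nat_lit 0) (nat_lit 0) (XT.lf (nat_lit 76) (nat_lit 5326377952) (nat_lit 0) (nat_lit 11037758448) (nat_lit 1748) (nat_lit 5508154353) (nat_lit 397) (nat_lit 5) (nat_lit 396) (nat_lit 5) (nat_lit 419) (nat_lit 5) (nat_lit 466) (nat_lit 463) (nat_lit 211)) (XT.nd (nat_lit 78) (nat_lit 0) (nat_lit 76) (XT.lf (nat_lit 76) (nat_lit 15664637188) (nat_lit 0) (nat_lit 1199677156) (nat_lit 1748)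 (nat_lit 5226468318) (nat_lit 397) (nat_lit 5) (nat_lit 396) (nat_lit 5) (nat_lit 419) (nat_lit 5) (nat_lit 467) (nat_lit 463) (nat_lit 210)) (XT.lf (nat_lit 76) (nat_lit 3887655760) (nat_lit 0) (nat_lit 13565971796) (nat_lit 1748) (nat_lit 4858436621) (nat_lit 398) (nat_lit 5) (nat_lit 397) (nat_lit 5) (nat_lit 420) (nat_lit 5) (nat_lit 468) (nat_lit 463) (nat_lit 209)))) (XT.nd (nat_lit 156) (nat_lit 0) (nat_lit 76) (XT.nd (nat_lit 78) (nat_lit 0) (nat_lit 76) (XT.lf (nat_lit 76) (nat_lit 14484818723) (nat_lit 0) (nat_lit 3617505756) (nat_lit 1748) (nat_lit 4434497249) (nat_lit 398) (nat_lit 5) (nat_lit 397) (nat_lit 5) (nat_lit 420) (nat_lit 5) (nat_lit 469) (nat_lit 463) (nat_lit 208)) (XT.lf (nat_lit 76) (nat_lit 2516445724) (nat_lit 0) (nat_lit 16302942922) (nat_lit 1748) (nat_lit 3945580225) (nat_lit 399) (nat_lit 5) (nat_lit 398) (nat_lit 5) (nat_lit 421) (nat_lit 5) (nat_lit 470) (nat_lit 463) (nat_lit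 207))) (XT.nd (nat_lit 78) (nat_lit 0) (nat_lit 76) (XT.lf (nat_lit 76) (nat_lit 13379136523) (nat_lit 0) (nat_lit 6246200919) (nat_lit 1748) (nat_lit 3370852912) (nat_lit 399) (nat_lit 5) (nat_lit 398) (nat_lit 5) (nat_lit 421) (nat_lit 5) (nat_lit 471) (nat_lit 463) (nat_lit 206)) (XT.lf (nat_lit 76) (nat_lit 1214897712) (nat_lit 0) (nat_lit 19263225382) (nat_lit 1748) (nat_lit 2753301034) (nat_lit 400) (nat_lit 5) (nat_lit 399) (nat_lit 5) (nat_lit 422) (nat_lit 5) (nat_lit 472) (nat_lit 463) (nat_lit 205))))) (XT.nd (nat_lit 234) (nat_lit 1672) (nat_lit 0) (XT.nd (nat_lit 78) (nat_lit 0) (nat_lit 76) (XT.lf (nat_lit 76) (nat_lit 12349913771) (nat_lit 0) (nat_lit 9100513052) (nat_lit 1748) (nat_lit 2018888682) (nat_lit 400) (nat_lit 5) (nat_lit 399) (nat_lit 5) (nat_lit 422) (nat_lit 5) (nat_lit 473) (nat_lit 463) (nat_lit 204)) (XT.nd (nat_lit 78) (nat_lit 0) (nat_lit 0) (XT.lf (nat_lit 0) (nat_lit 22447295617)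 (nat_lit 1672) (nat_lit 14603526) (nat_lit 1748) (nat_lit 1249965320) (nat_lit 400) (nat_lit 5) (nat_lit 422) (nat_lit 5) (nat_lit 423) (nat_lit 5) (nat_lit 474) (nat_lit 463) (nat_lit 203)) (XT.lf (nat_lit 76) (nat_lit 11399516503) (nat_lit 0) (nat_lit 12195830358) (nat_lit 1748) (nat_lit 361294727) (nat_lit 401) (nat_lit 5) (nat_lit 400) (nat_lit 5) (nat_lit 423) (nat_lit 5) (nat_lit 475) (nat_lit 463) (nat_lit 202)))) (XT.nd (nat_lit 156) (nat_lit 0) (nat_lit 76) (XT.nd (nat_lit 78) (nat_lit 0) (nat_lit 76) (XT.lf (nat_lit 0) (nat_lit 549786719) (nat_lit 1748) (nat_lit 1169873587) (nat_lit 1824) (nat_lit 22486641498) (nat_lit 377) (nat_lit 5) (nat_lit 400) (nat_lit 5) (nat_lit 401) (nat_lit 5) (nat_lit 476) (nat_lit 463) (nat_lit 201)) (XT.lf (nat_lit 0) (nat_lit 1598683280) (nat_lit 1748) (nat_lit 13938804231) (nat_lit 1824) (nat_lit 8920933296) (nat_lit 378) (nat_lit 5) (nat_lit 401) (nat_lit 5) (nat_lit 402)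 (nat_lit 5) (nat_lit 477) (nat_lit 463) (nat_lit 200))) (XT.nd (nat_lit 78) (nat_lit 0) (nat_lit 76) (XT.lf (nat_lit 0) (nat_lit 2684947007) (nat_lit 1748) (nat_lit 2270165369) (nat_lit 1824) (nat_lit 19760143960) (nat_lit 378) (nat_lit 5) (nat_lit 401) (nat_lit 5) (nat_lit 402) (nat_lit 5) (nat_lit 478) (nat_lit 463) (nat_lit 199)) (XT.lf (nat_lit 0) (nat_lit 3891780401) (nat_lit 1748) (nat_lit 15256547577) (nat_lit 1824) (nat_lit 5826925604) (nat_lit 379) (nat_lit 5) (nat_lit 402) (nat_lit 5) (nat_lit 403) (nat_lit 5) (nat_lit 479) (nat_lit 463) (nat_lit 198))))))) (XT.nd (nat_lit 1092) (nat_lit 4712) (nat_lit 0) (XT.nd (nat_lit 546) (nat_lit 2964) (nat_lit 0) (XT.nd (nat_lit 234) (nat_lit 0) (nat_lit 76) (XT.nd (nat_lit 78) (nat_lit 0) (nat_lit 76) (XT.lf (nat_lit 0) (nat_lit 5168103857) (nat_lit 1748) (nat_lit 3296998576) (nat_lit 1824) (nat_lit 16774443128) (nat_lit 379) (nat_lit 5) (nat_lit 402) (nat_lit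 5) (nat_lit 403) (nat_lit 5) (nat_lit 480) (nat_lit 463) (nat_lit 197)) (XT.nd (nat_lit 78) (nat_lit 0) (nat_lit 0) (XT.lf (nat_lit 0) (nat_lit 6541943785) (nat_lit 1748) (nat_lit 16506199563) (nat_lit 1824) (nat_lit 2459542052) (nat_lit 380) (nat_lit 5) (nat_lit 403) (nat_lit 5) (nat_lit 404) (nat_lit 5) (nat_lit 481) (nat_lit 463) (nat_lit 196)) (XT.lf (nat_lit 0) (nat_lit 8018895138) (nat_lit 1748) (nat_lit 4248391021) (nat_lit 1824) (nat_lit 13512390968) (nat_lit 380) (nat_lit 5) (nat_lit 403) (nat_lit 5) (nat_lit 404) (nat_lit 5) (nat_lit 482) (nat_lit 463) (nat_lit 195)))) (XT.nd (nat_lit 156) (nat_lit 0) (nat_lit 76) (XT.nd (nat_lit 78) (nat_lit 0) (nat_lit 76) (XT.lf (nat_lit 76) (nat_lit 8362215950) (nat_lit 0) (nat_lit 1214818728) (nat_lit 1824) (nat_lit 16479042777) (nat_lit 381) (nat_lit 5) (nat_lit 380) (nat_lit 5) (nat_lit 404) (nat_lit 5) (nat_lit 483) (nat_lit 463) (nat_lit 194)) (XT.lf (nat_lit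 0) (nat_lit 11257741171) (nat_lit 1748) (nat_lit 5122383025) (nat_lit 1824) (nat_lit 9956055226) (nat_lit 381) (nat_lit 5) (nat_lit 404) (nat_lit 5) (nat_lit 405) (nat_lit 5) (nat_lit 484) (nat_lit 463) (nat_lit 193))) (XT.nd (nat_lit 78) (nat_lit 0) (nat_lit 76) (XT.lf (nat_lit 76) (nat_lit 7792648528) (nat_lit 0) (nat_lit 5235503152) (nat_lit 1824) (nat_lit 13592611633) (nat_lit 382) (nat_lit 5) (nat_lit 381) (nat_lit 5) (nat_lit 405) (nat_lit 5) (nat_lit 485) (nat_lit 463) (nat_lit 192)) (XT.lf (nat_lit 0) (nat_lit 14905874787) (nat_lit 1748) (nat_lit 5917051231) (nat_lit 1824) (nat_lit 6086676423) (nat_lit 382) (nat_lit 5) (nat_lit 405) (nat_lit 5) (nat_lit 406) (nat_lit 5) (nat_lit 486) (nat_lit 463) (nat_lit 191))))) (XT.nd (nat_lit 234) (nat_lit 1824) (nat_lit 0) (XT.nd (nat_lit 78) (nat_lit 1368) (nat_lit 0) (XT.lf (nat_lit 76) (nat_lit 7311417561) (nat_lit 0) (nat_lit 9589416575) (nat_lit 1824) (nat_lit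 10301792197) (nat_lit 383) (nat_lit 5) (nat_lit 382) (nat_lit 5) (nat_lit 406) (nat_lit 5) (nat_lit 487) (nat_lit 463) (nat_lit 190)) (XT.nd (nat_lit 78) (nat_lit 1444) (nat_lit 0) (XT.lf (nat_lit 0) (nat_lit 18985372170) (nat_lit 1748) (nat_lit 6630523591) (nat_lit 76) (nat_lit 1884622935) (nat_lit 383) (nat_lit 5) (nat_lit 406) (nat_lit 5) (nat_lit 384) (nat_lit 5) (nat_lit 488) (nat_lit 463) (nat_lit 189)) (XT.lf (nat_lit 0) (nat_lit 6920601082) (nat_lit 1444) (nat_lit 14297063363) (nat_lit 1520) (nat_lit 6584584746) (nat_lit 364) (nat_lit 5) (nat_lit 383) (nat_lit 5) (nat_lit 384) (nat_lit 5) (nat_lit 489) (nat_lit 463) (nat_lit 188)))) (XT.nd (nat_lit 156) (nat_lit 988) (nat_lit 0) (XT.nd (nat_lit 78) (nat_lit 836) (nat_lit 0) (XT.lf (nat_lit 0) (nat_lit 20830607050) (nat_lit 1444) (nat_lit 2706147567) (nat_lit 1520) (nat_lit 4572418162) (nat_lit 364) (nat_lit 5) (nat_lit 383) (nat_lit 5) (nat_lit 384) (nat_lit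 5) (nat_lit 490) (nat_lit 463) (nat_lit 187)) (XT.lf (nat_lit 0) (nat_lit 6622209273) (nat_lit 836) (nat_lit 19379909747) (nat_lit 912) (nat_lit 2418119461) (nat_lit 353) (nat_lit 5) (nat_lit 364) (nat_lit 5) (nat_lit 365) (nat_lit 5) (nat_lit 491) (nat_lit 463) (nat_lit 186))) (XT.nd (nat_lit 78) (nat_lit 988) (nat_lit 0) (XT.lf (nat_lit 0) (nat_lit 20879486766) (nat_lit 836) (nat_lit 7701688179) (nat_lit 912) (nat_lit 155064333) (nat_lit 353) (nat_lit 5) (nat_lit 364) (nat_lit 5) (nat_lit 365) (nat_lit 5) (nat_lit 492) (nat_lit 463) (nat_lit 185)) (XT.lf (nat_lit 0) (nat_lit 2192241797) (nat_lit 988) (nat_lit 22653482050) (nat_lit 76) (nat_lit 4211213440) (nat_lit 340) (nat_lit 5) (nat_lit 353) (nat_lit 5) (nat_lit 341) (nat_lit 5) (nat_lit 493) (nat_lit 463) (nat_lit 184)))))) (XT.nd (nat_lit 546) (nat_lit 2280) (nat_lit 0) (XT.nd (nat_lit 234) (nat_lit 1596) (nat_lit 0) (XT.nd (nat_lit 78) (nat_lit 836) (nat_lit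 0) (XT.lf (nat_lit 0) (nat_lit 4686294430) (nat_lit 988) (nat_lit 8382049303) (nat_lit 76) (nat_lit 16313648870) (nat_lit 340) (nat_lit 5) (nat_lit 353) (nat_lit 5) (nat_lit 341) (nat_lit 5) (nat_lit 494) (nat_lit 463) (nat_lit 183)) (XT.nd (nat_lit 78) (nat_lit 0) (nat_lit 0) (XT.lf (nat_lit 0) (nat_lit 6254844165) (nat_lit 836) (nat_lit 1013835810) (nat_lit 912) (nat_lit 22444101364) (nat_lit 329) (nat_lit 5) (nat_lit 340) (nat_lit 5) (nat_lit 341) (nat_lit 5) (nat_lit 495) (nat_lit 463) (nat_lit 182)) (XT.lf (nat_lit 0) (nat_lit 10030453982) (nat_lit 912) (nat_lit 8826618691) (nat_lit 76) (nat_lit 11190559688) (nat_lit 329) (nat_lit 5) (nat_lit 341) (nat_lit 5) (nat_lit 330) (nat_lit 5) (nat_lit 496) (nat_lit 463) (nat_lit 181)))) (XT.nd (nat_lit 156) (nat_lit 760) (nat_lit 0) (XT.nd (nat_lit 78) (nat_lit 0) (nat_lit 0) (XT.lf (nat_lit 0) (nat_lit 6169533418) (nat_lit 836) (nat_lit 6722614230) (nat_lit 912)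 (nat_lit 17496140372) (nat_lit 318) (nat_lit 5) (nat_lit 329) (nat_lit 5) (nat_lit 330) (nat_lit 5) (nat_lit 497) (nat_lit 463) (nat_lit 180)) (XT.lf (nat_lit 0) (nat_lit 15905353590) (nat_lit 912) (nat_lit 9188444680) (nat_lit 76) (nat_lit 5640074228) (nat_lit 318) (nat_lit 5) (nat_lit 330) (nat_lit 5) (nat_lit 319) (nat_lit 5) (nat_lit 498) (nat_lit 463) (nat_lit 179))) (XT.nd (nat_lit 78) (nat_lit 0) (nat_lit 0) (XT.lf (nat_lit 0) (nat_lit 6176979700) (nat_lit 760) (nat_lit 12884451881) (nat_lit 836) (nat_lit 12023286177) (nat_lit 308) (nat_lit 5) (nat_lit 318) (nat_lit 5) (nat_lit 319) (nat_lit 5) (nat_lit 499) (nat_lit 463) (nat_lit 178)) (XT.lf (nat_lit 0) (nat_lit 21972294087) (nat_lit 760) (nat_lit 368005374) (nat_lit 836) (nat_lit 9101088320) (nat_lit 308) (nat_lit 5) (nat_lit 318) (nat_lit 5) (nat_lit 319) (nat_lit 5) (nat_lit 500) (nat_lit 463) (nat_lit 177))))) (XT.nd (nat_lit 312) (nat_lit 760) (nat_lit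 0) (XT.nd (nat_lit 156) (nat_lit 760) (nat_lit 0) (XT.nd (nat_lit 78) (nat_lit 0) (nat_lit 0) (XT.lf (nat_lit 0) (nat_lit 6278190104) (nat_lit 760) (nat_lit 19525866006) (nat_lit 836) (nat_lit 5998750065) (nat_lit 298) (nat_lit 5) (nat_lit 308) (nat_lit 5) (nat_lit 309) (nat_lit 5) (nat_lit 501) (nat_lit 463) (nat_lit 176)) (XT.lf (nat_lit 0) (nat_lit 22464347094) (nat_lit 760) (nat_lit 6936778240) (nat_lit 836) (nat_lit 2769048033) (nat_lit 298) (nat_lit 5) (nat_lit 308) (nat_lit 5) (nat_lit 309) (nat_lit 5) (nat_lit 502) (nat_lit 463) (nat_lit 175))) (XT.nd (nat_lit 78) (nat_lit 0) (nat_lit 0) (XT.lf (nat_lit 0) (nat_lit 597355687) (nat_lit 760) (nat_lit 26073295698) (nat_lit 76) (nat_lit 5872589516) (nat_lit 288) (nat_lit 5) (nat_lit 298) (nat_lit 5) (nat_lit 289) (nat_lit 5) (nat_lit 503) (nat_lit 463) (nat_lit 174)) (XT.lf (nat_lit 0) (nat_lit 4103668297) (nat_lit 760) (nat_lit 9888350857) (nat_lit 76) (nat_lit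 18929192507) (nat_lit 288) (nat_lit 5) (nat_lit 298) (nat_lit 5) (nat_lit 289) (nat_lit 5) (nat_lit 504) (nat_lit 463) (nat_lit 173)))) (XT.nd (nat_lit 56238) (nat_lit 0) (nat_lit 8892) (XT.nd (nat_lit 56160) (nat_lit 0) (nat_lit 8892) (XT.lf (nat_lit 0) (nat_lit 6706313556) (nat_lit 760) (nat_lit 1015494501) (nat_lit 836) (nat_lit 25584100849) (nat_lit 278) (nat_lit 5) (nat_lit 288) (nat_lit 5) (nat_lit 289) (nat_lit 5) (nat_lit 505) (nat_lit 463) (nat_lit 172)) (XT.lf (nat_lit 0) (nat_lit 7890533568) (nat_lit 1748) (nat_lit 1468641191) (nat_lit 1748) (nat_lit 1468641191) (nat_lit 395) (nat_lit 3) (nat_lit 418) (nat_lit 3) (nat_lit 418) (nat_lit 5) (nat_lit 464) (nat_lit 464) (nat_lit 212))) (XT.nd (nat_lit 78) (nat_lit 0) (nat_lit 76) (XT.lf (nat_lit 76) (nat_lit 7108566737) (nat_lit 0) (nat_lit 9011419338) (nat_lit 1748) (nat_lit 5748486594) (nat_lit 396) (nat_lit 5) (nat_lit 395) (nat_lit 3) (nat_lit 418) (nat_lit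 5) (nat_lit 465) (nat_lit 464) (nat_lit 211)) (XT.lf (nat_lit 0) (nat_lit 16487760209) (nat_lit 1672) (nat_lit 4697849537) (nat_lit 1748) (nat_lit 899521416) (nat_lit 396) (nat_lit 5) (nat_lit 418) (nat_lit 5) (nat_lit 419) (nat_lit 5) (nat_lit 466) (nat_lit 464) (nat_lit 210))))))))
noncomputable def xc247 : XT := (XT.nd (nat_lit 2184) (nat_lit 3952) (nat_lit 0) (XT.nd (nat_lit 1092) (nat_lit 2812) (nat_lit 0) (XT.nd (nat_lit 546) (nat_lit 1444) (nat_lit 0) (XT.nd (nat_lit 234) (nat_lit 0) (nat_lit 76) (XT.nd (nat_lit 78) (nat_lit 0) (nat_lit 0) (XT.lf (nat_lit 76) (nat_lit 5577035845) (nat_lit 0) (nat_lit 11378270873) (nat_lit 1748) (nat_lit 5348970171) (nat_lit 397) (nat_lit 5) (nat_lit 396) (nat_lit 5) (nat_lit 419) (nat_lit 5) (nat_lit 467) (nat_lit 464) (nat_lit 209)) (XT.nd (nat_lit 78) (nat_lit 0) (nat_lit 76) (XT.lf (nat_lit 76) (nat_lit 16119234181) (nat_lit 0) (nat_lit 1341079773) (nat_lit 1748) (nat_lit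 5066931735) (nat_lit 397) (nat_lit 5) (nat_lit 396) (nat_lit 5) (nat_lit 419) (nat_lit 5) (nat_lit 468) (nat_lit 464) (nat_lit 208)) (XT.lf (nat_lit 76) (nat_lit 4111858186) (nat_lit 0) (nat_lit 13944685931) (nat_lit 1748) (nat_lit 4696509601) (nat_lit 398) (nat_lit 5) (nat_lit 397) (nat_lit 5) (nat_lit 420) (nat_lit 5) (nat_lit 469) (nat_lit 464) (nat_lit 207)))) (XT.nd (nat_lit 156) (nat_lit 0) (nat_lit 76) (XT.nd (nat_lit 78) (nat_lit 0) (nat_lit 76) (XT.lf (nat_lit 76) (nat_lit 14918092852) (nat_lit 0) (nat_lit 3795144791) (nat_lit 1748) (nat_lit 4269171751) (nat_lit 398) (nat_lit 5) (nat_lit 397) (nat_lit 5) (nat_lit 420) (nat_lit 5) (nat_lit 470) (nat_lit 464) (nat_lit 206)) (XT.lf (nat_lit 76) (nat_lit 2715201805) (nat_lit 0) (nat_lit 16724855037) (nat_lit 1748) (nat_lit 3775157726) (nat_lit 399) (nat_lit 5) (nat_lit 398) (nat_lit 5) (nat_lit 421) (nat_lit 5) (nat_lit 471) (nat_lit 464) (nat_lit 205))) (XT.nd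 (nat_lit 78) (nat_lit 0) (nat_lit 76) (XT.lf (nat_lit 76) (nat_lit 13792236084) (nat_lit 0) (nat_lit 6465098718) (nat_lit 1748) (nat_lit 3193824770) (nat_lit 399) (nat_lit 5) (nat_lit 398) (nat_lit 5) (nat_lit 421) (nat_lit 5) (nat_lit 472) (nat_lit 464) (nat_lit 204)) (XT.lf (nat_lit 76) (nat_lit 1389283267) (nat_lit 0) (nat_lit 19733573297) (nat_lit 1748) (nat_lit 2568331081) (nat_lit 400) (nat_lit 5) (nat_lit 399) (nat_lit 5) (nat_lit 422) (nat_lit 5) (nat_lit 473) (nat_lit 464) (nat_lit 203))))) (XT.nd (nat_lit 234) (nat_lit 1672) (nat_lit 0) (XT.nd (nat_lit 78) (nat_lit 0) (nat_lit 76) (XT.lf (nat_lit 76) (nat_lit 12744056754) (nat_lit 0) (nat_lit 9365938418) (nat_lit 1748) (nat_lit 1823937069) (nat_lit 400) (nat_lit 5) (nat_lit 399) (nat_lit 5) (nat_lit 422) (nat_lit 5) (nat_lit 474) (nat_lit 464) (nat_lit 202)) (XT.nd (nat_lit 78) (nat_lit 0) (nat_lit 0) (XT.lf (nat_lit 76) (nat_lit 136359317) (nat_lit 0)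 (nat_lit 22986275612) (nat_lit 1748) (nat_lit 1058783683) (nat_lit 401) (nat_lit 5) (nat_lit 400) (nat_lit 5) (nat_lit 423) (nat_lit 5) (nat_lit 475) (nat_lit 464) (nat_lit 201)) (XT.lf (nat_lit 76) (nat_lit 11775990038) (nat_lit 0) (nat_lit 12513314150) (nat_lit 1748) (nat_lit 141876997) (nat_lit 401) (nat_lit 5) (nat_lit 400) (nat_lit 5) (nat_lit 423) (nat_lit 5) (nat_lit 476) (nat_lit 464) (nat_lit 200)))) (XT.nd (nat_lit 156) (nat_lit 0) (nat_lit 76) (XT.nd (nat_lit 78) (nat_lit 0) (nat_lit 76) (XT.lf (nat_lit 0) (nat_lit 780067898) (nat_lit 1748) (nat_lit 1044638784) (nat_lit 1824) (nat_lit 22861189133) (nat_lit 377) (nat_lit 5) (nat_lit 400) (nat_lit 5) (nat_lit 401) (nat_lit 5) (nat_lit 477) (nat_lit 464) (nat_lit 199)) (XT.lf (nat_lit 0) (nat_lit 1846157962) (nat_lit 1748) (nat_lit 14065020165) (nat_lit 1824) (nat_lit 9031957628) (nat_lit 378) (nat_lit 5) (nat_lit 401) (nat_lit 5) (nat_lit 402) (nat_lit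 5) (nat_lit 478) (nat_lit 464) (nat_lit 198))) (XT.nd (nat_lit 78) (nat_lit 0) (nat_lit 76) (XT.lf (nat_lit 0) (nat_lit 2949921454) (nat_lit 1748) (nat_lit 2165999901) (nat_lit 1824) (nat_lit 20089273962) (nat_lit 378) (nat_lit 5) (nat_lit 401) (nat_lit 5) (nat_lit 402) (nat_lit 5) (nat_lit 479) (nat_lit 464) (nat_lit 197)) (XT.lf (nat_lit 0) (nat_lit 4177327173) (nat_lit 1748) (nat_lit 15408407533) (nat_lit 1824) (nat_lit 5884731847) (nat_lit 379) (nat_lit 5) (nat_lit 402) (nat_lit 5) (nat_lit 403) (nat_lit 5) (nat_lit 480) (nat_lit 464) (nat_lit 196)))))) (XT.nd (nat_lit 546) (nat_lit 2964) (nat_lit 0) (XT.nd (nat_lit 234) (nat_lit 0) (nat_lit 76) (XT.nd (nat_lit 78) (nat_lit 0) (nat_lit 76) (XT.lf (nat_lit 0) (nat_lit 5475104330) (nat_lit 1748) (nat_lit 3212672866) (nat_lit 1824) (nat_lit 17052351334) (nat_lit 379) (nat_lit 5) (nat_lit 402) (nat_lit 5) (nat_lit 403) (nat_lit 5) (nat_lit 481) (nat_lit 464) (nat_lit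 195)) (XT.nd (nat_lit 78) (nat_lit 0) (nat_lit 0) (XT.lf (nat_lit 0) (nat_lit 6873064035) (nat_lit 1748) (nat_lit 16682568327) (nat_lit 1824) (nat_lit 2458068595) (nat_lit 380) (nat_lit 5) (nat_lit 403) (nat_lit 5) (nat_lit 404) (nat_lit 5) (nat_lit 482) (nat_lit 464) (nat_lit 194)) (XT.lf (nat_lit 0) (nat_lit 8375627329) (nat_lit 1748) (nat_lit 4182618423) (nat_lit 1824) (nat_lit 13732967906) (nat_lit 380) (nat_lit 5) (nat_lit 403) (nat_lit 5) (nat_lit 404) (nat_lit 5) (nat_lit 483) (nat_lit 464) (nat_lit 193)))) (XT.nd (nat_lit 156) (nat_lit 0) (nat_lit 76) (XT.nd (nat_lit 78) (nat_lit 0) (nat_lit 76) (XT.lf (nat_lit 76) (nat_lit 8679208975) (nat_lit 0) (nat_lit 1282842870) (nat_lit 1824) (nat_lit 16611150253) (nat_lit 381) (nat_lit 5) (nat_lit 380) (nat_lit 5) (nat_lit 404) (nat_lit 5) (nat_lit 484) (nat_lit 464) (nat_lit 192)) (XT.lf (nat_lit 0) (nat_lit 11672300468) (nat_lit 1748) (nat_lit 5073821350) (nat_lit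 1824) (nat_lit 10112868223) (nat_lit 381) (nat_lit 5) (nat_lit 404) (nat_lit 5) (nat_lit 405) (nat_lit 5) (nat_lit 485) (nat_lit 464) (nat_lit 191))) (XT.nd (nat_lit 78) (nat_lit 0) (nat_lit 76) (XT.lf (nat_lit 76) (nat_lit 8098517351) (nat_lit 0) (nat_lit 5376862024) (nat_lit 1824) (nat_lit 13673943478) (nat_lit 382) (nat_lit 5) (nat_lit 381) (nat_lit 5) (nat_lit 405) (nat_lit 5) (nat_lit 486) (nat_lit 464) (nat_lit 190)) (XT.lf (nat_lit 0) (nat_lit 15386763571) (nat_lit 1748) (nat_lit 5884304484) (nat_lit 1824) (nat_lit 6172950978) (nat_lit 382) (nat_lit 5) (nat_lit 405) (nat_lit 5) (nat_lit 406) (nat_lit 5) (nat_lit 487) (nat_lit 464) (nat_lit 189))))) (XT.nd (nat_lit 234) (nat_lit 1824) (nat_lit 0) (XT.nd (nat_lit 78) (nat_lit 1368) (nat_lit 0) (XT.lf (nat_lit 76) (nat_lit 7607739685) (nat_lit 0) (nat_lit 9811273179) (nat_lit 1824) (nat_lit 10323945077) (nat_lit 383) (nat_lit 5) (nat_lit 382) (nat_lit 5) (nat_lit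 406) (nat_lit 5) (nat_lit 488) (nat_lit 464) (nat_lit 188)) (XT.nd (nat_lit 78) (nat_lit 1444) (nat_lit 0) (XT.lf (nat_lit 0) (nat_lit 19541517675) (nat_lit 1748) (nat_lit 6612143951) (nat_lit 76) (nat_lit 1893223313) (nat_lit 383) (nat_lit 5) (nat_lit 406) (nat_lit 5) (nat_lit 384) (nat_lit 5) (nat_lit 489) (nat_lit 464) (nat_lit 187)) (XT.lf (nat_lit 0) (nat_lit 7209009859) (nat_lit 1444) (nat_lit 14606960245) (nat_lit 1520) (nat_lit 6538731916) (nat_lit 364) (nat_lit 5) (nat_lit 383) (nat_lit 5) (nat_lit 384) (nat_lit 5) (nat_lit 490) (nat_lit 464) (nat_lit 186)))) (XT.nd (nat_lit 156) (nat_lit 988) (nat_lit 0) (XT.nd (nat_lit 78) (nat_lit 836) (nat_lit 0) (XT.lf (nat_lit 0) (nat_lit 21394274833) (nat_lit 1444) (nat_lit 2783756415) (nat_lit 1520) (nat_lit 4489803265) (nat_lit 364) (nat_lit 5) (nat_lit 383) (nat_lit 5) (nat_lit 384) (nat_lit 5) (nat_lit 491) (nat_lit 464) (nat_lit 185)) (XT.lf (nat_lit 0) (nat_lit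 6904391665) (nat_lit 836) (nat_lit 19785790027) (nat_lit 912) (nat_lit 2294992437) (nat_lit 353) (nat_lit 5) (nat_lit 364) (nat_lit 5) (nat_lit 365) (nat_lit 5) (nat_lit 492) (nat_lit 464) (nat_lit 184))) (XT.nd (nat_lit 78) (nat_lit 912) (nat_lit 0) (XT.lf (nat_lit 0) (nat_lit 9830610) (nat_lit 912) (nat_lit 7863748976) (nat_lit 76) (nat_lit 21433982084) (nat_lit 352) (nat_lit 5) (nat_lit 364) (nat_lit 5) (nat_lit 353) (nat_lit 5) (nat_lit 493) (nat_lit 464) (nat_lit 183)) (XT.lf (nat_lit 0) (nat_lit 2399616253) (nat_lit 988) (nat_lit 22954945334) (nat_lit 76) (nat_lit 4280141408) (nat_lit 340) (nat_lit 5) (nat_lit 353) (nat_lit 5) (nat_lit 341) (nat_lit 5) (nat_lit 494) (nat_lit 464) (nat_lit 182))))))) (XT.nd (nat_lit 57330) (nat_lit 0) (nat_lit 6764) (XT.nd (nat_lit 546) (nat_lit 1520) (nat_lit 0) (XT.nd (nat_lit 234) (nat_lit 1596) (nat_lit 0) (XT.nd (nat_lit 78) (nat_lit 836) (nat_lit 0) (XT.lf (nat_lit 0)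 (nat_lit 4940343475) (nat_lit 988) (nat_lit 8401056606) (nat_lit 76) (nat_lit 16624925474) (nat_lit 340) (nat_lit 5) (nat_lit 353) (nat_lit 5) (nat_lit 341) (nat_lit 5) (nat_lit 495) (nat_lit 464) (nat_lit 181)) (XT.nd (nat_lit 78) (nat_lit 0) (nat_lit 0) (XT.lf (nat_lit 0) (nat_lit 6527596878) (nat_lit 836) (nat_lit 1044594942) (nat_lit 912) (nat_lit 22731583914) (nat_lit 329) (nat_lit 5) (nat_lit 340) (nat_lit 5) (nat_lit 341) (nat_lit 5) (nat_lit 496) (nat_lit 464) (nat_lit 180)) (XT.lf (nat_lit 0) (nat_lit 10386033833) (nat_lit 912) (nat_lit 8855126437) (nat_lit 76) (nat_lit 11404228787) (nat_lit 329) (nat_lit 5) (nat_lit 341) (nat_lit 5) (nat_lit 330) (nat_lit 5) (nat_lit 497) (nat_lit 464) (nat_lit 179)))) (XT.nd (nat_lit 156) (nat_lit 760) (nat_lit 0) (XT.nd (nat_lit 78) (nat_lit 0) (nat_lit 0) (XT.lf (nat_lit 0) (nat_lit 6439974869) (nat_lit 836) (nat_lit 6862902612) (nat_lit 912) (nat_lit 17690023918)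 (nat_lit 318) (nat_lit 5) (nat_lit 329) (nat_lit 5) (nat_lit 330) (nat_lit 5) (nat_lit 498) (nat_lit 464) (nat_lit 178)) (XT.lf (nat_lit 0) (nat_lit 16373312611) (nat_lit 912) (nat_lit 9224918422) (nat_lit 76) (nat_lit 5747229090) (nat_lit 318) (nat_lit 5) (nat_lit 330) (nat_lit 5) (nat_lit 319) (nat_lit 5) (nat_lit 499) (nat_lit 464) (nat_lit 177))) (XT.nd (nat_lit 78) (nat_lit 0) (nat_lit 0) (XT.lf (nat_lit 0) (nat_lit 6446845399) (nat_lit 760) (nat_lit 13143678535) (nat_lit 836) (nat_lit 12112839936) (nat_lit 308) (nat_lit 5) (nat_lit 318) (nat_lit 5) (nat_lit 319) (nat_lit 5) (nat_lit 500) (nat_lit 464) (nat_lit 176)) (XT.lf (nat_lit 0) (nat_lit 22555196934) (nat_lit 760) (nat_lit 376872948) (nat_lit 836) (nat_lit 9135157180) (nat_lit 308) (nat_lit 5) (nat_lit 318) (nat_lit 5) (nat_lit 319) (nat_lit 5) (nat_lit 501) (nat_lit 464) (nat_lit 175))))) (XT.nd (nat_lit 56472) (nat_lit 0) (nat_lit 8132) (XT.nd (nat_lit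 78) (nat_lit 760) (nat_lit 0) (XT.lf (nat_lit 0) (nat_lit 6549245611) (nat_lit 760) (nat_lit 19913948647) (nat_lit 836) (nat_lit 5972719464) (nat_lit 298) (nat_lit 5) (nat_lit 308) (nat_lit 5) (nat_lit 309) (nat_lit 5) (nat_lit 502) (nat_lit 464) (nat_lit 174)) (XT.nd (nat_lit 78) (nat_lit 760) (nat_lit 0) (XT.lf (nat_lit 0) (nat_lit 23056272962) (nat_lit 760) (nat_lit 7073126865) (nat_lit 836) (nat_lit 2681286246) (nat_lit 298) (nat_lit 5) (nat_lit 308) (nat_lit 5) (nat_lit 309) (nat_lit 5) (nat_lit 503) (nat_lit 464) (nat_lit 173)) (XT.lf (nat_lit 0) (nat_lit 748758365) (nat_lit 760) (nat_lit 26448269068) (nat_lit 76) (nat_lit 5994206783) (nat_lit 288) (nat_lit 5) (nat_lit 298) (nat_lit 5) (nat_lit 289) (nat_lit 5) (nat_lit 504) (nat_lit 464) (nat_lit 172)))) (XT.nd (nat_lit 156) (nat_lit 0) (nat_lit 76) (XT.nd (nat_lit 78) (nat_lit 0) (nat_lit 0) (XT.lf (nat_lit 0) (nat_lit 8182422760) (nat_lit 1748) (nat_lit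 1429587579) (nat_lit 1748) (nat_lit 1429587579) (nat_lit 395) (nat_lit 3) (nat_lit 418) (nat_lit 3) (nat_lit 418) (nat_lit 5) (nat_lit 465) (nat_lit 465) (nat_lit 210)) (XT.lf (nat_lit 76) (nat_lit 7386690597) (nat_lit 0) (nat_lit 9319476952) (nat_lit 1748) (nat_lit 5594217012) (nat_lit 396) (nat_lit 5) (nat_lit 395) (nat_lit 3) (nat_lit 418) (nat_lit 5) (nat_lit 466) (nat_lit 465) (nat_lit 209))) (XT.nd (nat_lit 78) (nat_lit 0) (nat_lit 0) (XT.lf (nat_lit 0) (nat_lit 17075311296) (nat_lit 1672) (nat_lit 4652355509) (nat_lit 1748) (nat_lit 793832703) (nat_lit 396) (nat_lit 5) (nat_lit 418) (nat_lit 5) (nat_lit 419) (nat_lit 5) (nat_lit 467) (nat_lit 465) (nat_lit 208)) (XT.lf (nat_lit 76) (nat_lit 5827110140) (nat_lit 0) (nat_lit 11720943226) (nat_lit 1748) (nat_lit 5197061388) (nat_lit 397) (nat_lit 5) (nat_lit 396) (nat_lit 5) (nat_lit 419) (nat_lit 5) (nat_lit 468) (nat_lit 465) (nat_lit 207)))))) (XT.nd (nat_lit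 546) (nat_lit 1444) (nat_lit 0) (XT.nd (nat_lit 234) (nat_lit 0) (nat_lit 152) (XT.nd (nat_lit 78) (nat_lit 0) (nat_lit 76) (XT.lf (nat_lit 76) (nat_lit 16577436098) (nat_lit 0) (nat_lit 1480751306) (nat_lit 1748) (nat_lit 4914458422) (nat_lit 397) (nat_lit 5) (nat_lit 396) (nat_lit 5) (nat_lit 419) (nat_lit 5) (nat_lit 469) (nat_lit 465) (nat_lit 206)) (XT.nd (nat_lit 78) (nat_lit 0) (nat_lit 0) (XT.lf (nat_lit 76) (nat_lit 4334857855) (nat_lit 0) (nat_lit 14326804081) (nat_lit 1748) (nat_lit 4541405045) (nat_lit 398) (nat_lit 5) (nat_lit 397) (nat_lit 5) (nat_lit 420) (nat_lit 5) (nat_lit 470) (nat_lit 465) (nat_lit 205)) (XT.lf (nat_lit 76) (nat_lit 15354457165) (nat_lit 0) (nat_lit 3972248111) (nat_lit 1748) (nat_lit 4110403473) (nat_lit 398) (nat_lit 5) (nat_lit 397) (nat_lit 5) (nat_lit 420) (nat_lit 5) (nat_lit 471) (nat_lit 465) (nat_lit 204)))) (XT.nd (nat_lit 156) (nat_lit 0) (nat_lit 76) (XT.nd (nat_lit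 78) (nat_lit 0) (nat_lit 0) (XT.lf (nat_lit 76) (nat_lit 2912169400) (nat_lit 0) (nat_lit 17151483296) (nat_lit 1748) (nat_lit 3611008724) (nat_lit 399) (nat_lit 5) (nat_lit 398) (nat_lit 5) (nat_lit 421) (nat_lit 5) (nat_lit 472) (nat_lit 465) (nat_lit 203)) (XT.lf (nat_lit 76) (nat_lit 14207947039) (nat_lit 0) (nat_lit 6684725357) (nat_lit 1748) (nat_lit 3022748171) (nat_lit 399) (nat_lit 5) (nat_lit 398) (nat_lit 5) (nat_lit 421) (nat_lit 5) (nat_lit 473) (nat_lit 465) (nat_lit 202))) (XT.nd (nat_lit 78) (nat_lit 0) (nat_lit 0) (XT.lf (nat_lit 76) (nat_lit 1561328450) (nat_lit 0) (nat_lit 20210024277) (nat_lit 1748) (nat_lit 2388982617) (nat_lit 400) (nat_lit 5) (nat_lit 399) (nat_lit 5) (nat_lit 422) (nat_lit 5) (nat_lit 474) (nat_lit 465) (nat_lit 201)) (XT.lf (nat_lit 76) (nat_lit 13140368788) (nat_lit 0) (nat_lit 9633433180) (nat_lit 1748) (nat_lit 1634224551) (nat_lit 400) (nat_lit 5) (nat_lit 399) (nat_lit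 5) (nat_lit 422) (nat_lit 5) (nat_lit 475) (nat_lit 465) (nat_lit 200))))) (XT.nd (nat_lit 312) (nat_lit 0) (nat_lit 76) (XT.nd (nat_lit 156) (nat_lit 0) (nat_lit 0) (XT.nd (nat_lit 78) (nat_lit 1748) (nat_lit 0) (XT.lf (nat_lit 76) (nat_lit 284658272) (nat_lit 0) (nat_lit 23518125815) (nat_lit 1748) (nat_lit 857759724) (nat_lit 401) (nat_lit 5) (nat_lit 400) (nat_lit 5) (nat_lit 423) (nat_lit 5) (nat_lit 476) (nat_lit 465) (nat_lit 199)) (XT.lf (nat_lit 0) (nat_lit 72169149) (nat_lit 1748) (nat_lit 12761637471) (nat_lit 1824) (nat_lit 12081573817) (nat_lit 377) (nat_lit 5) (nat_lit 400) (nat_lit 5) (nat_lit 401) (nat_lit 5) (nat_lit 477) (nat_lit 465) (nat_lit 198))) (XT.nd (nat_lit 78) (nat_lit 0) (nat_lit 76) (XT.lf (nat_lit 0) (nat_lit 1006439579) (nat_lit 1748) (nat_lit 922670857) (nat_lit 1824) (nat_lit 23246147252) (nat_lit 377) (nat_lit 5) (nat_lit 400) (nat_lit 5) (nat_lit 401) (nat_lit 5) (nat_lit 478)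 (nat_lit 465) (nat_lit 197)) (XT.lf (nat_lit 0) (nat_lit 2090213971) (nat_lit 1748) (nat_lit 14199684514) (nat_lit 1824) (nat_lit 9147819450) (nat_lit 378) (nat_lit 5) (nat_lit 401) (nat_lit 5) (nat_lit 402) (nat_lit 5) (nat_lit 479) (nat_lit 465) (nat_lit 196)))) (XT.nd (nat_lit 156) (nat_lit 0) (nat_lit 76) (XT.nd (nat_lit 78) (nat_lit 0) (nat_lit 76) (XT.lf (nat_lit 0) (nat_lit 3211991304) (nat_lit 1748) (nat_lit 2065559062) (nat_lit 1824) (nat_lit 20427552255) (nat_lit 378) (nat_lit 5) (nat_lit 401) (nat_lit 5) (nat_lit 402) (nat_lit 5) (nat_lit 480) (nat_lit 465) (nat_lit 195)) (XT.lf (nat_lit 0) (nat_lit 4460519202) (nat_lit 1748) (nat_lit 15569256388) (nat_lit 1824) (nat_lit 5945974860) (nat_lit 379) (nat_lit 5) (nat_lit 402) (nat_lit 5) (nat_lit 403) (nat_lit 5) (nat_lit 481) (nat_lit 465) (nat_lit 194))) (XT.nd (nat_lit 78) (nat_lit 0) (nat_lit 76) (XT.lf (nat_lit 0) (nat_lit 5780337285) (nat_lit 1748)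 (nat_lit 3132495641) (nat_lit 1824) (nat_lit 17338053631) (nat_lit 379) (nat_lit 5) (nat_lit 402) (nat_lit 5) (nat_lit 403) (nat_lit 5) (nat_lit 482) (nat_lit 465) (nat_lit 193)) (XT.lf (nat_lit 0) (nat_lit 7203029520) (nat_lit 1748) (nat_lit 16868434969) (nat_lit 1824) (nat_lit 2458533025) (nat_lit 380) (nat_lit 5) (nat_lit 403) (nat_lit 5) (nat_lit 404) (nat_lit 5) (nat_lit 483) (nat_lit 465) (nat_lit 192))))))))
noncomputable def xc248 : XT := (XT.nd (nat_lit 58500) (nat_lit 0) (nat_lit 1520) (XT.nd (nat_lit 1092) (nat_lit 2356) (nat_lit 0) (XT.nd (nat_lit 546) (nat_lit 3876) (nat_lit 0) (XT.nd (nat_lit 234) (nat_lit 0) (nat_lit 76) (XT.nd (nat_lit 78) (nat_lit 0) (nat_lit 0) (XT.lf (nat_lit 0) (nat_lit 8731869488) (nat_lit 1748) (nat_lit 4121383807) (nat_lit 1824) (nat_lit 13959885164) (nat_lit 380) (nat_lit 5) (nat_lit 403) (nat_lit 5) (nat_lit 404) (nat_lit 5) (nat_lit 484) (nat_lit 465) (nat_lit 191)) (XT.nd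 (nat_lit 78) (nat_lit 0) (nat_lit 76) (XT.lf (nat_lit 76) (nat_lit 8996726935) (nat_lit 0) (nat_lit 1350529491) (nat_lit 1824) (nat_lit 16753568010) (nat_lit 381) (nat_lit 5) (nat_lit 380) (nat_lit 5) (nat_lit 404) (nat_lit 5) (nat_lit 485) (nat_lit 465) (nat_lit 190)) (XT.lf (nat_lit 0) (nat_lit 12087796144) (nat_lit 1748) (nat_lit 5030152318) (nat_lit 1824) (nat_lit 10274460356) (nat_lit 381) (nat_lit 5) (nat_lit 404) (nat_lit 5) (nat_lit 405) (nat_lit 5) (nat_lit 486) (nat_lit 465) (nat_lit 189)))) (XT.nd (nat_lit 156) (nat_lit 0) (nat_lit 76) (XT.nd (nat_lit 78) (nat_lit 0) (nat_lit 76) (XT.lf (nat_lit 76) (nat_lit 8404678253) (nat_lit 0) (nat_lit 5519624956) (nat_lit 1824) (nat_lit 13764300099) (nat_lit 382) (nat_lit 5) (nat_lit 381) (nat_lit 5) (nat_lit 405) (nat_lit 5) (nat_lit 487) (nat_lit 465) (nat_lit 188)) (XT.lf (nat_lit 0) (nat_lit 15870172899) (nat_lit 1748) (nat_lit 5856769725) (nat_lit 1824) (nat_lit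 6262327938) (nat_lit 382) (nat_lit 5) (nat_lit 405) (nat_lit 5) (nat_lit 406) (nat_lit 5) (nat_lit 488) (nat_lit 465) (nat_lit 187))) (XT.nd (nat_lit 78) (nat_lit 0) (nat_lit 76) (XT.lf (nat_lit 76) (nat_lit 7904159927) (nat_lit 0) (nat_lit 10036399329) (nat_lit 1824) (nat_lit 10353681414) (nat_lit 383) (nat_lit 5) (nat_lit 382) (nat_lit 5) (nat_lit 406) (nat_lit 5) (nat_lit 489) (nat_lit 465) (nat_lit 186)) (XT.lf (nat_lit 0) (nat_lit 20101934785) (nat_lit 1748) (nat_lit 6599259849) (nat_lit 76) (nat_lit 1903125379) (nat_lit 383) (nat_lit 5) (nat_lit 406) (nat_lit 5) (nat_lit 384) (nat_lit 5) (nat_lit 490) (nat_lit 465) (nat_lit 185))))) (XT.nd (nat_lit 234) (nat_lit 1824) (nat_lit 0) (XT.nd (nat_lit 78) (nat_lit 836) (nat_lit 0) (XT.lf (nat_lit 0) (nat_lit 7497362255) (nat_lit 1444) (nat_lit 14922124838) (nat_lit 1520) (nat_lit 6498856299) (nat_lit 364) (nat_lit 5) (nat_lit 383) (nat_lit 5) (nat_lit 384) (nat_lit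 5) (nat_lit 491) (nat_lit 465) (nat_lit 184)) (XT.nd (nat_lit 78) (nat_lit 836) (nat_lit 0) (XT.lf (nat_lit 0) (nat_lit 21963505623) (nat_lit 1444) (nat_lit 2862005453) (nat_lit 1520) (nat_lit 4412295159) (nat_lit 364) (nat_lit 5) (nat_lit 383) (nat_lit 5) (nat_lit 384) (nat_lit 5) (nat_lit 492) (nat_lit 465) (nat_lit 183)) (XT.lf (nat_lit 0) (nat_lit 7186403187) (nat_lit 836) (nat_lit 20199077998) (nat_lit 912) (nat_lit 2176062016) (nat_lit 353) (nat_lit 5) (nat_lit 364) (nat_lit 5) (nat_lit 365) (nat_lit 5) (nat_lit 493) (nat_lit 465) (nat_lit 182)))) (XT.nd (nat_lit 156) (nat_lit 836) (nat_lit 0) (XT.nd (nat_lit 78) (nat_lit 912) (nat_lit 0) (XT.lf (nat_lit 0) (nat_lit 169506136) (nat_lit 912) (nat_lit 7877702473) (nat_lit 76) (nat_lit 21843214281) (nat_lit 352) (nat_lit 5) (nat_lit 364) (nat_lit 5) (nat_lit 353) (nat_lit 5) (nat_lit 494) (nat_lit 465) (nat_lit 181)) (XT.lf (nat_lit 0) (nat_lit 2604788144) (nat_lit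 988) (nat_lit 23268324943) (nat_lit 76) (nat_lit 4351041910) (nat_lit 340) (nat_lit 5) (nat_lit 353) (nat_lit 5) (nat_lit 341) (nat_lit 5) (nat_lit 495) (nat_lit 465) (nat_lit 180))) (XT.nd (nat_lit 78) (nat_lit 836) (nat_lit 0) (XT.lf (nat_lit 0) (nat_lit 5193247958) (nat_lit 988) (nat_lit 8426215682) (nat_lit 76) (nat_lit 16943009937) (nat_lit 340) (nat_lit 5) (nat_lit 353) (nat_lit 5) (nat_lit 341) (nat_lit 5) (nat_lit 496) (nat_lit 465) (nat_lit 179)) (XT.lf (nat_lit 0) (nat_lit 6800070990) (nat_lit 836) (nat_lit 1075562211) (nat_lit 912) (nat_lit 23031083453) (nat_lit 329) (nat_lit 5) (nat_lit 340) (nat_lit 5) (nat_lit 341) (nat_lit 5) (nat_lit 497) (nat_lit 465) (nat_lit 178)))))) (XT.nd (nat_lit 56862) (nat_lit 0) (nat_lit 7372) (XT.nd (nat_lit 234) (nat_lit 1520) (nat_lit 0) (XT.nd (nat_lit 78) (nat_lit 836) (nat_lit 0) (XT.lf (nat_lit 0) (nat_lit 10742707577) (nat_lit 912) (nat_lit 8889952314) (nat_lit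 76) (nat_lit 11622565098) (nat_lit 329) (nat_lit 5) (nat_lit 341) (nat_lit 5) (nat_lit 330) (nat_lit 5) (nat_lit 498) (nat_lit 465) (nat_lit 177)) (XT.nd (nat_lit 78) (nat_lit 0) (nat_lit 0) (XT.lf (nat_lit 0) (nat_lit 6710114988) (nat_lit 836) (nat_lit 7005770139) (nat_lit 912) (nat_lit 17893844331) (nat_lit 318) (nat_lit 5) (nat_lit 329) (nat_lit 5) (nat_lit 330) (nat_lit 5) (nat_lit 499) (nat_lit 465) (nat_lit 176)) (XT.lf (nat_lit 0) (nat_lit 16844811878) (nat_lit 912) (nat_lit 9267841288) (nat_lit 76) (nat_lit 5856746313) (nat_lit 318) (nat_lit 5) (nat_lit 330) (nat_lit 5) (nat_lit 319) (nat_lit 5) (nat_lit 500) (nat_lit 465) (nat_lit 175)))) (XT.nd (nat_lit 156) (nat_lit 760) (nat_lit 0) (XT.nd (nat_lit 78) (nat_lit 0) (nat_lit 0) (XT.lf (nat_lit 0) (nat_lit 6716426391) (nat_lit 760) (nat_lit 13408030015) (nat_lit 836) (nat_lit 12210044866) (nat_lit 308) (nat_lit 5) (nat_lit 318) (nat_lit 5) (nat_lit 319)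 (nat_lit 5) (nat_lit 501) (nat_lit 465) (nat_lit 174)) (XT.lf (nat_lit 0) (nat_lit 23144187230) (nat_lit 760) (nat_lit 385859338) (nat_lit 836) (nat_lit 9175652609) (nat_lit 308) (nat_lit 5) (nat_lit 318) (nat_lit 5) (nat_lit 319) (nat_lit 5) (nat_lit 502) (nat_lit 465) (nat_lit 173))) (XT.nd (nat_lit 78) (nat_lit 0) (nat_lit 0) (XT.lf (nat_lit 0) (nat_lit 6820072609) (nat_lit 760) (nat_lit 20309887482) (nat_lit 836) (nat_lit 5951837826) (nat_lit 298) (nat_lit 5) (nat_lit 308) (nat_lit 5) (nat_lit 309) (nat_lit 5) (nat_lit 503) (nat_lit 465) (nat_lit 172)) (XT.lf (nat_lit 0) (nat_lit 23654498505) (nat_lit 760) (nat_lit 7212295149) (nat_lit 836) (nat_lit 2597327631) (nat_lit 298) (nat_lit 5) (nat_lit 308) (nat_lit 5) (nat_lit 309) (nat_lit 5) (nat_lit 504) (nat_lit 465) (nat_lit 171))))) (XT.nd (nat_lit 234) (nat_lit 0) (nat_lit 76) (XT.nd (nat_lit 78) (nat_lit 0) (nat_lit 0) (XT.lf (nat_lit 0) (nat_lit 8474943303)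 (nat_lit 1748) (nat_lit 1392409976) (nat_lit 1748) (nat_lit 1392409976) (nat_lit 395) (nat_lit 3) (nat_lit 418) (nat_lit 3) (nat_lit 418) (nat_lit 5) (nat_lit 466) (nat_lit 466) (nat_lit 208)) (XT.nd (nat_lit 78) (nat_lit 0) (nat_lit 76) (XT.lf (nat_lit 76) (nat_lit 7665097732) (nat_lit 0) (nat_lit 9628731954) (nat_lit 1748) (nat_lit 5447316928) (nat_lit 396) (nat_lit 5) (nat_lit 395) (nat_lit 3) (nat_lit 418) (nat_lit 5) (nat_lit 467) (nat_lit 466) (nat_lit 207)) (XT.lf (nat_lit 0) (nat_lit 17664602877) (nat_lit 1672) (nat_lit 4611366653) (nat_lit 1748) (nat_lit 690832827) (nat_lit 396) (nat_lit 5) (nat_lit 418) (nat_lit 5) (nat_lit 419) (nat_lit 5) (nat_lit 468) (nat_lit 466) (nat_lit 206)))) (XT.nd (nat_lit 156) (nat_lit 0) (nat_lit 76) (XT.nd (nat_lit 78) (nat_lit 0) (nat_lit 0) (XT.lf (nat_lit 76) (nat_lit 6076806493) (nat_lit 0) (nat_lit 12065999283) (nat_lit 1748) (nat_lit 5052167373) (nat_lit 397) (nat_lit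 5) (nat_lit 396) (nat_lit 5) (nat_lit 419) (nat_lit 5) (nat_lit 469) (nat_lit 466) (nat_lit 205)) (XT.lf (nat_lit 76) (nat_lit 17039528104) (nat_lit 0) (nat_lit 1618834168) (nat_lit 1748) (nat_lit 4768791470) (nat_lit 397) (nat_lit 5) (nat_lit 396) (nat_lit 5) (nat_lit 419) (nat_lit 5) (nat_lit 470) (nat_lit 466) (nat_lit 204))) (XT.nd (nat_lit 78) (nat_lit 0) (nat_lit 0) (XT.lf (nat_lit 76) (nat_lit 4556851537) (nat_lit 0) (nat_lit 14712556264) (nat_lit 1748) (nat_lit 4392868721) (nat_lit 398) (nat_lit 5) (nat_lit 397) (nat_lit 5) (nat_lit 420) (nat_lit 5) (nat_lit 471) (nat_lit 466) (nat_lit 203)) (XT.lf (nat_lit 76) (nat_lit 15794189961) (nat_lit 0) (nat_lit 4148963760) (nat_lit 1748) (nat_lit 3957940537) (nat_lit 398) (nat_lit 5) (nat_lit 397) (nat_lit 5) (nat_lit 420) (nat_lit 5) (nat_lit 472) (nat_lit 466) (nat_lit 202))))))) (XT.nd (nat_lit 1092) (nat_lit 4484) (nat_lit 0) (XT.nd (nat_lit 546) (nat_lit 0)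 (nat_lit 76) (XT.nd (nat_lit 234) (nat_lit 1596) (nat_lit 0) (XT.nd (nat_lit 78) (nat_lit 0) (nat_lit 0) (XT.lf (nat_lit 76) (nat_lit 3107536547) (nat_lit 0) (nat_lit 17583066554) (nat_lit 1748) (nat_lit 3452882727) (nat_lit 399) (nat_lit 5) (nat_lit 398) (nat_lit 5) (nat_lit 421) (nat_lit 5) (nat_lit 473) (nat_lit 466) (nat_lit 201)) (XT.nd (nat_lit 78) (nat_lit 0) (nat_lit 76) (XT.lf (nat_lit 76) (nat_lit 14626541038) (nat_lit 0) (nat_lit 6905237112) (nat_lit 1748) (nat_lit 2857373555) (nat_lit 399) (nat_lit 5) (nat_lit 398) (nat_lit 5) (nat_lit 421) (nat_lit 5) (nat_lit 474) (nat_lit 466) (nat_lit 200)) (XT.lf (nat_lit 76) (nat_lit 1731212763) (nat_lit 0) (nat_lit 20692828679) (nat_lit 1748) (nat_lit 2215006133) (nat_lit 400) (nat_lit 5) (nat_lit 399) (nat_lit 5) (nat_lit 422) (nat_lit 5) (nat_lit 475) (nat_lit 466) (nat_lit 199)))) (XT.nd (nat_lit 156) (nat_lit 1672) (nat_lit 0) (XT.nd (nat_lit 78) (nat_lit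 0) (nat_lit 76) (XT.lf (nat_lit 76) (nat_lit 13539115129) (nat_lit 0) (nat_lit 9903164507) (nat_lit 1748) (nat_lit 1449501065) (nat_lit 400) (nat_lit 5) (nat_lit 399) (nat_lit 5) (nat_lit 422) (nat_lit 5) (nat_lit 476) (nat_lit 466) (nat_lit 198)) (XT.lf (nat_lit 76) (nat_lit 430270478) (nat_lit 0) (nat_lit 24057812332) (nat_lit 1748) (nat_lit 661343568) (nat_lit 401) (nat_lit 5) (nat_lit 400) (nat_lit 5) (nat_lit 423) (nat_lit 5) (nat_lit 477) (nat_lit 466) (nat_lit 197))) (XT.nd (nat_lit 78) (nat_lit 0) (nat_lit 0) (XT.lf (nat_lit 0) (nat_lit 280250104) (nat_lit 1748) (nat_lit 12876810708) (nat_lit 1824) (nat_lit 12252356604) (nat_lit 377) (nat_lit 5) (nat_lit 400) (nat_lit 5) (nat_lit 401) (nat_lit 5) (nat_lit 478) (nat_lit 466) (nat_lit 196)) (XT.lf (nat_lit 0) (nat_lit 1229154226) (nat_lit 1748) (nat_lit 803811028) (nat_lit 1824) (nat_lit 23641610698) (nat_lit 377) (nat_lit 5) (nat_lit 400) (nat_lit 5) (nat_lit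 401) (nat_lit 5) (nat_lit 479) (nat_lit 466) (nat_lit 195))))) (XT.nd (nat_lit 234) (nat_lit 0) (nat_lit 76) (XT.nd (nat_lit 78) (nat_lit 0) (nat_lit 0) (XT.lf (nat_lit 0) (nat_lit 2331107879) (nat_lit 1748) (nat_lit 14342736207) (nat_lit 1824) (nat_lit 9268513891) (nat_lit 378) (nat_lit 5) (nat_lit 401) (nat_lit 5) (nat_lit 402) (nat_lit 5) (nat_lit 480) (nat_lit 466) (nat_lit 194)) (XT.nd (nat_lit 78) (nat_lit 0) (nat_lit 76) (XT.lf (nat_lit 0) (nat_lit 3471417040) (nat_lit 1748) (nat_lit 1968691815) (nat_lit 1824) (nat_lit 20775062175) (nat_lit 378) (nat_lit 5) (nat_lit 401) (nat_lit 5) (nat_lit 402) (nat_lit 5) (nat_lit 481) (nat_lit 466) (nat_lit 193)) (XT.lf (nat_lit 0) (nat_lit 4741622595) (nat_lit 1748) (nat_lit 15739042808) (nat_lit 1824) (nat_lit 6010634818) (nat_lit 379) (nat_lit 5) (nat_lit 402) (nat_lit 5) (nat_lit 403) (nat_lit 5) (nat_lit 482) (nat_lit 466) (nat_lit 192)))) (XT.nd (nat_lit 156) (nat_lit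 0) (nat_lit 76) (XT.nd (nat_lit 78) (nat_lit 0) (nat_lit 76) (XT.lf (nat_lit 0) (nat_lit 6084074432) (nat_lit 1748) (nat_lit 3056323291) (nat_lit 1824) (nat_lit 17631619078) (nat_lit 379) (nat_lit 5) (nat_lit 402) (nat_lit 5) (nat_lit 403) (nat_lit 5) (nat_lit 483) (nat_lit 466) (nat_lit 191)) (XT.lf (nat_lit 0) (nat_lit 7532119142) (nat_lit 1748) (nat_lit 17063757605) (nat_lit 1824) (nat_lit 2460897705) (nat_lit 380) (nat_lit 5) (nat_lit 403) (nat_lit 5) (nat_lit 404) (nat_lit 5) (nat_lit 484) (nat_lit 466) (nat_lit 190))) (XT.nd (nat_lit 78) (nat_lit 0) (nat_lit 0) (XT.lf (nat_lit 0) (nat_lit 9087907889) (nat_lit 1748) (nat_lit 4064550637) (nat_lit 1824) (nat_lit 14193194652) (nat_lit 380) (nat_lit 5) (nat_lit 403) (nat_lit 5) (nat_lit 404) (nat_lit 5) (nat_lit 485) (nat_lit 466) (nat_lit 189)) (XT.lf (nat_lit 76) (nat_lit 9315006130) (nat_lit 0) (nat_lit 1417937779) (nat_lit 1824) (nat_lit 16906204492) (nat_lit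 381) (nat_lit 5) (nat_lit 380) (nat_lit 5) (nat_lit 404) (nat_lit 5) (nat_lit 486) (nat_lit 466) (nat_lit 188)))))) (XT.nd (nat_lit 546) (nat_lit 3496) (nat_lit 0) (XT.nd (nat_lit 234) (nat_lit 1292) (nat_lit 0) (XT.nd (nat_lit 78) (nat_lit 0) (nat_lit 0) (XT.lf (nat_lit 0) (nat_lit 12504532523) (nat_lit 1748) (nat_lit 4991246080) (nat_lit 1824) (nat_lit 10440863412) (nat_lit 381) (nat_lit 5) (nat_lit 404) (nat_lit 5) (nat_lit 405) (nat_lit 5) (nat_lit 487) (nat_lit 466) (nat_lit 187)) (XT.nd (nat_lit 78) (nat_lit 0) (nat_lit 76) (XT.lf (nat_lit 76) (nat_lit 8711363278) (nat_lit 0) (nat_lit 5663875290) (nat_lit 1824) (nat_lit 13863574713) (nat_lit 382) (nat_lit 5) (nat_lit 381) (nat_lit 5) (nat_lit 405) (nat_lit 5) (nat_lit 488) (nat_lit 466) (nat_lit 186)) (XT.lf (nat_lit 0) (nat_lit 16356428775) (nat_lit 1748) (nat_lit 5834323374) (nat_lit 1824) (nat_lit 6354815886) (nat_lit 382) (nat_lit 5) (nat_lit 405) (nat_lit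 5) (nat_lit 406) (nat_lit 5) (nat_lit 489) (nat_lit 466) (nat_lit 185)))) (XT.nd (nat_lit 156) (nat_lit 1368) (nat_lit 0) (XT.nd (nat_lit 78) (nat_lit 0) (nat_lit 76) (XT.lf (nat_lit 76) (nat_lit 8200906570) (nat_lit 0) (nat_lit 10264905752) (nat_lit 1824) (nat_lit 10390875607) (nat_lit 383) (nat_lit 5) (nat_lit 382) (nat_lit 5) (nat_lit 406) (nat_lit 5) (nat_lit 490) (nat_lit 466) (nat_lit 184)) (XT.lf (nat_lit 0) (nat_lit 20666974977) (nat_lit 1748) (nat_lit 6591753522) (nat_lit 76) (nat_lit 1914311301) (nat_lit 383) (nat_lit 5) (nat_lit 406) (nat_lit 5) (nat_lit 384) (nat_lit 5) (nat_lit 491) (nat_lit 466) (nat_lit 183))) (XT.nd (nat_lit 78) (nat_lit 0) (nat_lit 0) (XT.lf (nat_lit 0) (nat_lit 7785883317) (nat_lit 1444) (nat_lit 15242698620) (nat_lit 1520) (nat_lit 6464809728) (nat_lit 364) (nat_lit 5) (nat_lit 383) (nat_lit 5) (nat_lit 384) (nat_lit 5) (nat_lit 492) (nat_lit 466) (nat_lit 182)) (XT.lf (nat_lit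 0) (nat_lit 22538632419) (nat_lit 1444) (nat_lit 2940942901) (nat_lit 1520) (nat_lit 4339733515) (nat_lit 364) (nat_lit 5) (nat_lit 383) (nat_lit 5) (nat_lit 384) (nat_lit 5) (nat_lit 493) (nat_lit 466) (nat_lit 181))))) (XT.nd (nat_lit 312) (nat_lit 1672) (nat_lit 0) (XT.nd (nat_lit 156) (nat_lit 912) (nat_lit 0) (XT.nd (nat_lit 78) (nat_lit 76) (nat_lit 0) (XT.lf (nat_lit 0) (nat_lit 7468466207) (nat_lit 836) (nat_lit 20619949378) (nat_lit 912) (nat_lit 2061153547) (nat_lit 353) (nat_lit 5) (nat_lit 364) (nat_lit 5) (nat_lit 365) (nat_lit 5) (nat_lit 494) (nat_lit 466) (nat_lit 180)) (XT.lf (nat_lit 0) (nat_lit 326182411) (nat_lit 912) (nat_lit 7897500387) (nat_lit 76) (nat_lit 22261386290) (nat_lit 352) (nat_lit 5) (nat_lit 364) (nat_lit 5) (nat_lit 353) (nat_lit 5) (nat_lit 495) (nat_lit 466) (nat_lit 179))) (XT.nd (nat_lit 78) (nat_lit 0) (nat_lit 0) (XT.lf (nat_lit 0) (nat_lit 2807959998) (nat_lit 988) (nat_lit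 23593630603) (nat_lit 76) (nat_lit 4423931330) (nat_lit 340) (nat_lit 5) (nat_lit 353) (nat_lit 5) (nat_lit 341) (nat_lit 5) (nat_lit 496) (nat_lit 466) (nat_lit 178)) (XT.lf (nat_lit 0) (nat_lit 5445226733) (nat_lit 988) (nat_lit 8457425447) (nat_lit 76) (nat_lit 17268015805) (nat_lit 340) (nat_lit 5) (nat_lit 353) (nat_lit 5) (nat_lit 341) (nat_lit 5) (nat_lit 497) (nat_lit 466) (nat_lit 177)))) (XT.nd (nat_lit 156) (nat_lit 836) (nat_lit 0) (XT.nd (nat_lit 78) (nat_lit 0) (nat_lit 0) (XT.lf (nat_lit 0) (nat_lit 7072483574) (nat_lit 836) (nat_lit 1106757586) (nat_lit 912) (nat_lit 23342596953) (nat_lit 329) (nat_lit 5) (nat_lit 340) (nat_lit 5) (nat_lit 341) (nat_lit 5) (nat_lit 498) (nat_lit 466) (nat_lit 176)) (XT.lf (nat_lit 0) (nat_lit 11100730766) (nat_lit 912) (nat_lit 8930999484) (nat_lit 76) (nat_lit 11845646673) (nat_lit 329) (nat_lit 5) (nat_lit 341) (nat_lit 5) (nat_lit 330) (nat_lit 5) (nat_lit 499)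 (nat_lit 466) (nat_lit 175))) (XT.nd (nat_lit 78) (nat_lit 0) (nat_lit 0) (XT.lf (nat_lit 0) (nat_lit 6980169480) (nat_lit 836) (nat_lit 7151277194) (nat_lit 912) (nat_lit 18107565060) (nat_lit 318) (nat_lit 5) (nat_lit 329) (nat_lit 5) (nat_lit 330) (nat_lit 5) (nat_lit 500) (nat_lit 466) (nat_lit 174)) (XT.lf (nat_lit 0) (nat_lit 17320148154) (nat_lit 912) (nat_lit 9317120161) (nat_lit 76) (nat_lit 5968664632) (nat_lit 318) (nat_lit 5) (nat_lit 330) (nat_lit 5) (nat_lit 319) (nat_lit 5) (nat_lit 501) (nat_lit 466) (nat_lit 173))))))))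
noncomputable def xc249 : XT := (XT.nd (nat_lit 58656) (nat_lit 0) (nat_lit 760) (XT.nd (nat_lit 57564) (nat_lit 0) (nat_lit 5244) (XT.nd (nat_lit 57018) (nat_lit 0) (nat_lit 6764) (XT.nd (nat_lit 56706) (nat_lit 0) (nat_lit 6612) (XT.nd (nat_lit 78) (nat_lit 0) (nat_lit 0) (XT.lf (nat_lit 0) (nat_lit 6985937622) (nat_lit 760) (nat_lit 13677611135) (nat_lit 836) (nat_lit 12314826435) (nat_lit 308) (nat_lit 5) (nat_lit 318) (nat_lit 5) (nat_lit 319) (nat_lit 5) (nat_lit 502) (nat_lit 466) (nat_lit 172)) (XT.nd (nat_lit 56550) (nat_lit 0) (nat_lit 6612) (XT.lf (nat_lit 0) (nat_lit 23739603036) (nat_lit 760) (nat_lit 394969191) (nat_lit 836) (nat_lit 9222480045) (nat_lit 308) (nat_lit 5) (nat_lit 318) (nat_lit 5) (nat_lit 319) (nat_lit 5) (nat_lit 503) (nat_lit 466) (nat_lit 171)) (XT.lf (nat_lit 0) (nat_lit 8768309996) (nat_lit 1748) (nat_lit 1357042725) (nat_lit 1748) (nat_lit 1357042725) (nat_lit 395) (nat_lit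 3) (nat_lit 418) (nat_lit 3) (nat_lit 418) (nat_lit 5) (nat_lit 467) (nat_lit 467) (nat_lit 206)))) (XT.nd (nat_lit 156) (nat_lit 0) (nat_lit 76) (XT.nd (nat_lit 78) (nat_lit 0) (nat_lit 76) (XT.lf (nat_lit 76) (nat_lit 7943998805) (nat_lit 0) (nat_lit 9939401040) (nat_lit 1748) (nat_lit 5307527757) (nat_lit 396) (nat_lit 5) (nat_lit 395) (nat_lit 3) (nat_lit 418) (nat_lit 5) (nat_lit 468) (nat_lit 467) (nat_lit 205)) (XT.lf (nat_lit 0) (nat_lit 18256058482) (nat_lit 1672) (nat_lit 4574762800) (nat_lit 1748) (nat_lit 590389075) (nat_lit 396) (nat_lit 5) (nat_lit 418) (nat_lit 5) (nat_lit 419) (nat_lit 5) (nat_lit 469) (nat_lit 467) (nat_lit 204))) (XT.nd (nat_lit 78) (nat_lit 0) (nat_lit 0) (XT.lf (nat_lit 76) (nat_lit 6326326235) (nat_lit 0) (nat_lit 12413660285) (nat_lit 1748) (nat_lit 4914038054) (nat_lit 397) (nat_lit 5) (nat_lit 396) (nat_lit 5) (nat_lit 419) (nat_lit 5) (nat_lit 470) (nat_lit 467) (nat_lit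 203)) (XT.lf (nat_lit 76) (nat_lit 17505792796) (nat_lit 0) (nat_lit 1755466750) (nat_lit 1748) (nat_lit 4629684293) (nat_lit 397) (nat_lit 5) (nat_lit 396) (nat_lit 5) (nat_lit 419) (nat_lit 5) (nat_lit 471) (nat_lit 467) (nat_lit 202))))) (XT.nd (nat_lit 234) (nat_lit 0) (nat_lit 76) (XT.nd (nat_lit 78) (nat_lit 0) (nat_lit 0) (XT.lf (nat_lit 76) (nat_lit 4778031364) (nat_lit 0) (nat_lit 15102170808) (nat_lit 1748) (nat_lit 4250656483) (nat_lit 398) (nat_lit 5) (nat_lit 397) (nat_lit 5) (nat_lit 420) (nat_lit 5) (nat_lit 472) (nat_lit 467) (nat_lit 201)) (XT.nd (nat_lit 78) (nat_lit 0) (nat_lit 76) (XT.lf (nat_lit 76) (nat_lit 16237566698) (nat_lit 0) (nat_lit 4325436584) (nat_lit 1748) (nat_lit 3811540904) (nat_lit 398) (nat_lit 5) (nat_lit 397) (nat_lit 5) (nat_lit 420) (nat_lit 5) (nat_lit 473) (nat_lit 467) (nat_lit 200)) (XT.lf (nat_lit 76) (nat_lit 3301486354) (nat_lit 0) (nat_lit 18019842834) (nat_lit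 1748) (nat_lit 3300538833) (nat_lit 399) (nat_lit 5) (nat_lit 398) (nat_lit 5) (nat_lit 421) (nat_lit 5) (nat_lit 474) (nat_lit 467) (nat_lit 199)))) (XT.nd (nat_lit 156) (nat_lit 0) (nat_lit 76) (XT.nd (nat_lit 78) (nat_lit 0) (nat_lit 76) (XT.lf (nat_lit 76) (nat_lit 15048286639) (nat_lit 0) (nat_lit 7126787882) (nat_lit 1748) (nat_lit 2697460684) (nat_lit 399) (nat_lit 5) (nat_lit 398) (nat_lit 5) (nat_lit 421) (nat_lit 5) (nat_lit 475) (nat_lit 467) (nat_lit 198)) (XT.lf (nat_lit 76) (nat_lit 1899110513) (nat_lit 0) (nat_lit 21182236883) (nat_lit 1748) (nat_lit 2046161180) (nat_lit 400) (nat_lit 5) (nat_lit 399) (nat_lit 5) (nat_lit 422) (nat_lit 5) (nat_lit 476) (nat_lit 467) (nat_lit 197))) (XT.nd (nat_lit 78) (nat_lit 0) (nat_lit 76) (XT.lf (nat_lit 76) (nat_lit 13940557720) (nat_lit 0) (nat_lit 10175298023) (nat_lit 1748) (nat_lit 1269525326) (nat_lit 400) (nat_lit 5) (nat_lit 399) (nat_lit 5) (nat_lit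 422) (nat_lit 5) (nat_lit 477) (nat_lit 467) (nat_lit 196)) (XT.lf (nat_lit 76) (nat_lit 573361701) (nat_lit 0) (nat_lit 24605600644) (nat_lit 1748) (nat_lit 469292326) (nat_lit 401) (nat_lit 5) (nat_lit 400) (nat_lit 5) (nat_lit 423) (nat_lit 5) (nat_lit 478) (nat_lit 467) (nat_lit 195)))))) (XT.nd (nat_lit 546) (nat_lit 0) (nat_lit 228) (XT.nd (nat_lit 234) (nat_lit 0) (nat_lit 76) (XT.nd (nat_lit 78) (nat_lit 0) (nat_lit 0) (XT.lf (nat_lit 0) (nat_lit 484468689) (nat_lit 1748) (nat_lit 12999726092) (nat_lit 1824) (nat_lit 12429306188) (nat_lit 377) (nat_lit 5) (nat_lit 400) (nat_lit 5) (nat_lit 401) (nat_lit 5) (nat_lit 479) (nat_lit 467) (nat_lit 194)) (XT.nd (nat_lit 78) (nat_lit 0) (nat_lit 76) (XT.lf (nat_lit 0) (nat_lit 1448456509) (nat_lit 1748) (nat_lit 687906042) (nat_lit 1824) (nat_lit 24047680610) (nat_lit 377) (nat_lit 5) (nat_lit 400) (nat_lit 5) (nat_lit 401) (nat_lit 5) (nat_lit 480) (nat_lit 467)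 (nat_lit 193)) (XT.lf (nat_lit 0) (nat_lit 2569088772) (nat_lit 1748) (nat_lit 14494121884) (nat_lit 1824) (nat_lit 9394039929) (nat_lit 378) (nat_lit 5) (nat_lit 401) (nat_lit 5) (nat_lit 402) (nat_lit 5) (nat_lit 481) (nat_lit 467) (nat_lit 192)))) (XT.nd (nat_lit 156) (nat_lit 0) (nat_lit 76) (XT.nd (nat_lit 78) (nat_lit 0) (nat_lit 76) (XT.lf (nat_lit 0) (nat_lit 3728451984) (nat_lit 1748) (nat_lit 1875252859) (nat_lit 1824) (nat_lit 21131892594) (nat_lit 378) (nat_lit 5) (nat_lit 401) (nat_lit 5) (nat_lit 402) (nat_lit 5) (nat_lit 482) (nat_lit 467) (nat_lit 191)) (XT.lf (nat_lit 0) (nat_lit 5020896616) (nat_lit 1748) (nat_lit 15917723406) (nat_lit 1824) (nat_lit 6078694940) (nat_lit 379) (nat_lit 5) (nat_lit 402) (nat_lit 5) (nat_lit 403) (nat_lit 5) (nat_lit 483) (nat_lit 467) (nat_lit 190))) (XT.nd (nat_lit 78) (nat_lit 0) (nat_lit 76) (XT.lf (nat_lit 0) (nat_lit 6386580988) (nat_lit 1748) (nat_lit 2984018132)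 (nat_lit 1824) (nat_lit 17933121484) (nat_lit 379) (nat_lit 5) (nat_lit 402) (nat_lit 5) (nat_lit 403) (nat_lit 5) (nat_lit 484) (nat_lit 467) (nat_lit 189)) (XT.lf (nat_lit 0) (nat_lit 7860605653) (nat_lit 1748) (nat_lit 17268502516) (nat_lit 1824) (nat_lit 2465127212) (nat_lit 380) (nat_lit 5) (nat_lit 403) (nat_lit 5) (nat_lit 404) (nat_lit 5) (nat_lit 485) (nat_lit 467) (nat_lit 188))))) (XT.nd (nat_lit 234) (nat_lit 0) (nat_lit 76) (XT.nd (nat_lit 78) (nat_lit 0) (nat_lit 0) (XT.lf (nat_lit 0) (nat_lit 9444023036) (nat_lit 1748) (nat_lit 4011988471) (nat_lit 1824) (nat_lit 14432952224) (nat_lit 380) (nat_lit 5) (nat_lit 403) (nat_lit 5) (nat_lit 404) (nat_lit 5) (nat_lit 486) (nat_lit 467) (nat_lit 187)) (XT.nd (nat_lit 78) (nat_lit 0) (nat_lit 76) (XT.lf (nat_lit 76) (nat_lit 9634278818) (nat_lit 0) (nat_lit 1485125540) (nat_lit 1824) (nat_lit 17068977872) (nat_lit 381) (nat_lit 5) (nat_lit 380) (nat_lit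 5) (nat_lit 404) (nat_lit 5) (nat_lit 487) (nat_lit 467) (nat_lit 186)) (XT.lf (nat_lit 0) (nat_lit 12922808926) (nat_lit 1748) (nat_lit 4956979033) (nat_lit 1824) (nat_lit 10612112292) (nat_lit 381) (nat_lit 5) (nat_lit 404) (nat_lit 5) (nat_lit 405) (nat_lit 5) (nat_lit 488) (nat_lit 467) (nat_lit 185)))) (XT.nd (nat_lit 156) (nat_lit 0) (nat_lit 76) (XT.nd (nat_lit 78) (nat_lit 0) (nat_lit 76) (XT.lf (nat_lit 76) (nat_lit 9018800328) (nat_lit 0) (nat_lit 5809695890) (nat_lit 1824) (nat_lit 13971669556) (nat_lit 382) (nat_lit 5) (nat_lit 381) (nat_lit 5) (nat_lit 405) (nat_lit 5) (nat_lit 489) (nat_lit 467) (nat_lit 184)) (XT.lf (nat_lit 0) (nat_lit 16845853024) (nat_lit 1748) (nat_lit 5816848225) (nat_lit 1824) (nat_lit 6450425650) (nat_lit 382) (nat_lit 5) (nat_lit 405) (nat_lit 5) (nat_lit 406) (nat_lit 5) (nat_lit 490) (nat_lit 467) (nat_lit 183))) (XT.nd (nat_lit 78) (nat_lit 0) (nat_lit 76) (XT.lf (nat_lit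 76) (nat_lit 8498203676) (nat_lit 0) (nat_lit 10496903633) (nat_lit 1824) (nat_lit 10435410309) (nat_lit 383) (nat_lit 5) (nat_lit 382) (nat_lit 5) (nat_lit 406) (nat_lit 5) (nat_lit 491) (nat_lit 467) (nat_lit 182)) (XT.lf (nat_lit 0) (nat_lit 21236986425) (nat_lit 1748) (nat_lit 6589513694) (nat_lit 76) (nat_lit 1926764591) (nat_lit 383) (nat_lit 5) (nat_lit 406) (nat_lit 5) (nat_lit 384) (nat_lit 5) (nat_lit 492) (nat_lit 467) (nat_lit 181))))))) (XT.nd (nat_lit 57720) (nat_lit 0) (nat_lit 4484) (XT.nd (nat_lit 546) (nat_lit 836) (nat_lit 0) (XT.nd (nat_lit 234) (nat_lit 1824) (nat_lit 0) (XT.nd (nat_lit 78) (nat_lit 836) (nat_lit 0) (XT.lf (nat_lit 0) (nat_lit 8074793810) (nat_lit 1444) (nat_lit 15568824492) (nat_lit 1520) (nat_lit 6436451465) (nat_lit 364) (nat_lit 5) (nat_lit 383) (nat_lit 5) (nat_lit 384) (nat_lit 5) (nat_lit 493) (nat_lit 467) (nat_lit 180)) (XT.nd (nat_lit 78) (nat_lit 836) (nat_lit 0)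 (XT.lf (nat_lit 0) (nat_lit 23119986269) (nat_lit 1444) (nat_lit 3020616562) (nat_lit 1520) (nat_lit 4271964992) (nat_lit 364) (nat_lit 5) (nat_lit 383) (nat_lit 5) (nat_lit 384) (nat_lit 5) (nat_lit 494) (nat_lit 467) (nat_lit 179)) (XT.lf (nat_lit 0) (nat_lit 7750798773) (nat_lit 836) (nat_lit 21048582335) (nat_lit 912) (nat_lit 1950098927) (nat_lit 353) (nat_lit 5) (nat_lit 364) (nat_lit 5) (nat_lit 365) (nat_lit 5) (nat_lit 495) (nat_lit 467) (nat_lit 178)))) (XT.nd (nat_lit 156) (nat_lit 836) (nat_lit 0) (XT.nd (nat_lit 78) (nat_lit 912) (nat_lit 0) (XT.lf (nat_lit 0) (nat_lit 480039923) (nat_lit 912) (nat_lit 7923043498) (nat_lit 76) (nat_lit 22688647583) (nat_lit 352) (nat_lit 5) (nat_lit 364) (nat_lit 5) (nat_lit 353) (nat_lit 5) (nat_lit 496) (nat_lit 467) (nat_lit 177)) (XT.lf (nat_lit 0) (nat_lit 3009328821) (nat_lit 988) (nat_lit 23930881108) (nat_lit 76) (nat_lit 4498827280) (nat_lit 340) (nat_lit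 5) (nat_lit 353) (nat_lit 5) (nat_lit 341) (nat_lit 5) (nat_lit 497) (nat_lit 467) (nat_lit 176))) (XT.nd (nat_lit 78) (nat_lit 836) (nat_lit 0) (XT.lf (nat_lit 0) (nat_lit 5696493643) (nat_lit 988) (nat_lit 8494591499) (nat_lit 76) (nat_lit 17600059771) (nat_lit 340) (nat_lit 5) (nat_lit 353) (nat_lit 5) (nat_lit 341) (nat_lit 5) (nat_lit 498) (nat_lit 467) (nat_lit 175)) (XT.lf (nat_lit 0) (nat_lit 7345047397) (nat_lit 836) (nat_lit 1138200823) (nat_lit 912) (nat_lit 23666130775) (nat_lit 329) (nat_lit 5) (nat_lit 340) (nat_lit 5) (nat_lit 341) (nat_lit 5) (nat_lit 499) (nat_lit 467) (nat_lit 174))))) (XT.nd (nat_lit 56862) (nat_lit 0) (nat_lit 5852) (XT.nd (nat_lit 78) (nat_lit 836) (nat_lit 0) (XT.lf (nat_lit 0) (nat_lit 11460354991) (nat_lit 912) (nat_lit 8978177840) (nat_lit 76) (nat_lit 12073553717) (nat_lit 329) (nat_lit 5) (nat_lit 341) (nat_lit 5) (nat_lit 330) (nat_lit 5) (nat_lit 500) (nat_lit 467)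 (nat_lit 173)) (XT.nd (nat_lit 78) (nat_lit 0) (nat_lit 0) (XT.lf (nat_lit 0) (nat_lit 7250349756) (nat_lit 836) (nat_lit 7299485025) (nat_lit 912) (nat_lit 18331157963) (nat_lit 318) (nat_lit 5) (nat_lit 329) (nat_lit 5) (nat_lit 330) (nat_lit 5) (nat_lit 501) (nat_lit 467) (nat_lit 172)) (XT.lf (nat_lit 0) (nat_lit 17799615359) (nat_lit 912) (nat_lit 9372668685) (nat_lit 76) (nat_lit 6083023884) (nat_lit 318) (nat_lit 5) (nat_lit 330) (nat_lit 5) (nat_lit 319) (nat_lit 5) (nat_lit 502) (nat_lit 467) (nat_lit 171)))) (XT.nd (nat_lit 156) (nat_lit 0) (nat_lit 76) (XT.nd (nat_lit 78) (nat_lit 0) (nat_lit 0) (XT.lf (nat_lit 0) (nat_lit 9062734085) (nat_lit 1748) (nat_lit 1323422862) (nat_lit 1748) (nat_lit 1323422862) (nat_lit 395) (nat_lit 3) (nat_lit 418) (nat_lit 3) (nat_lit 418) (nat_lit 5) (nat_lit 468) (nat_lit 468) (nat_lit 204)) (XT.lf (nat_lit 76) (nat_lit 8223600733) (nat_lit 0) (nat_lit 10251697757) (nat_lit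 1748) (nat_lit 5174601506) (nat_lit 396) (nat_lit 5) (nat_lit 395) (nat_lit 3) (nat_lit 418) (nat_lit 5) (nat_lit 469) (nat_lit 468) (nat_lit 203))) (XT.nd (nat_lit 78) (nat_lit 0) (nat_lit 0) (XT.lf (nat_lit 0) (nat_lit 18850095018) (nat_lit 1672) (nat_lit 4542429542) (nat_lit 1748) (nat_lit 492373318) (nat_lit 396) (nat_lit 5) (nat_lit 418) (nat_lit 5) (nat_lit 419) (nat_lit 5) (nat_lit 470) (nat_lit 468) (nat_lit 202)) (XT.lf (nat_lit 76) (nat_lit 6575866613) (nat_lit 0) (nat_lit 12764145156) (nat_lit 1748) (nat_lit 4782433515) (nat_lit 397) (nat_lit 5) (nat_lit 396) (nat_lit 5) (nat_lit 419) (nat_lit 5) (nat_lit 471) (nat_lit 468) (nat_lit 201)))))) (XT.nd (nat_lit 546) (nat_lit 1444) (nat_lit 0) (XT.nd (nat_lit 234) (nat_lit 0) (nat_lit 152) (XT.nd (nat_lit 78) (nat_lit 0) (nat_lit 76) (XT.lf (nat_lit 76) (nat_lit 17976510469) (nat_lit 0) (nat_lit 1890783599) (nat_lit 1748) (nat_lit 4496900233) (nat_lit 397)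 (nat_lit 5) (nat_lit 396) (nat_lit 5) (nat_lit 419) (nat_lit 5) (nat_lit 472) (nat_lit 468) (nat_lit 200)) (XT.nd (nat_lit 78) (nat_lit 0) (nat_lit 0) (XT.lf (nat_lit 76) (nat_lit 4998585068) (nat_lit 0) (nat_lit 15495874566) (nat_lit 1748) (nat_lit 4114533883) (nat_lit 398) (nat_lit 5) (nat_lit 397) (nat_lit 5) (nat_lit 420) (nat_lit 5) (nat_lit 473) (nat_lit 468) (nat_lit 199)) (XT.lf (nat_lit 76) (nat_lit 16684860263) (nat_lit 0) (nat_lit 4501808395) (nat_lit 1748) (nat_lit 3670971987) (nat_lit 398) (nat_lit 5) (nat_lit 397) (nat_lit 5) (nat_lit 420) (nat_lit 5) (nat_lit 474) (nat_lit 468) (nat_lit 198)))) (XT.nd (nat_lit 156) (nat_lit 0) (nat_lit 76) (XT.nd (nat_lit 78) (nat_lit 0) (nat_lit 0) (XT.lf (nat_lit 76) (nat_lit 3494197239) (nat_lit 0) (nat_lit 18462049522) (nat_lit 1748) (nat_lit 3153745353) (nat_lit 399) (nat_lit 5) (nat_lit 398) (nat_lit 5) (nat_lit 421) (nat_lit 5) (nat_lit 475) (nat_lit 468)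 (nat_lit 197)) (XT.lf (nat_lit 76) (nat_lit 15473449585) (nat_lit 0) (nat_lit 7349529357) (nat_lit 1748) (nat_lit 2542778273) (nat_lit 399) (nat_lit 5) (nat_lit 398) (nat_lit 5) (nat_lit 421) (nat_lit 5) (nat_lit 476) (nat_lit 468) (nat_lit 196))) (XT.nd (nat_lit 78) (nat_lit 0) (nat_lit 0) (XT.lf (nat_lit 76) (nat_lit 2065191046) (nat_lit 0) (nat_lit 21678499489) (nat_lit 1748) (nat_lit 1882216011) (nat_lit 400) (nat_lit 5) (nat_lit 399) (nat_lit 5) (nat_lit 422) (nat_lit 5) (nat_lit 477) (nat_lit 468) (nat_lit 195)) (XT.lf (nat_lit 76) (nat_lit 14344955465) (nat_lit 0) (nat_lit 10449997972) (nat_lit 1748) (nat_lit 1094064467) (nat_lit 400) (nat_lit 5) (nat_lit 399) (nat_lit 5) (nat_lit 422) (nat_lit 5) (nat_lit 478) (nat_lit 468) (nat_lit 194))))) (XT.nd (nat_lit 312) (nat_lit 0) (nat_lit 76) (XT.nd (nat_lit 156) (nat_lit 0) (nat_lit 0) (XT.nd (nat_lit 78) (nat_lit 1748) (nat_lit 0) (XT.lf (nat_lit 76) (nat_lit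 714092500) (nat_lit 0) (nat_lit 25161757318) (nat_lit 1748) (nat_lit 281371257) (nat_lit 401) (nat_lit 5) (nat_lit 400) (nat_lit 5) (nat_lit 423) (nat_lit 5) (nat_lit 479) (nat_lit 468) (nat_lit 193)) (XT.lf (nat_lit 0) (nat_lit 685059239) (nat_lit 1748) (nat_lit 13130327275) (nat_lit 1824) (nat_lit 12612439074) (nat_lit 377) (nat_lit 5) (nat_lit 400) (nat_lit 5) (nat_lit 401) (nat_lit 5) (nat_lit 480) (nat_lit 468) (nat_lit 192))) (XT.nd (nat_lit 78) (nat_lit 0) (nat_lit 76) (XT.lf (nat_lit 0) (nat_lit 1664583655) (nat_lit 1748) (nat_lit 574807948) (nat_lit 1824) (nat_lit 24464464381) (nat_lit 377) (nat_lit 5) (nat_lit 400) (nat_lit 5) (nat_lit 401) (nat_lit 5) (nat_lit 481) (nat_lit 468) (nat_lit 191)) (XT.lf (nat_lit 0) (nat_lit 2804398590) (nat_lit 1748) (nat_lit 14653795702) (nat_lit 1824) (nat_lit 9524400312) (nat_lit 378) (nat_lit 5) (nat_lit 401) (nat_lit 5) (nat_lit 402) (nat_lit 5) (nat_lit 482) (nat_lit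 468) (nat_lit 190)))) (XT.nd (nat_lit 156) (nat_lit 0) (nat_lit 76) (XT.nd (nat_lit 78) (nat_lit 0) (nat_lit 76) (XT.lf (nat_lit 0) (nat_lit 3983342634) (nat_lit 1748) (nat_lit 1785102407) (nat_lit 1824) (nat_lit 21498137882) (nat_lit 378) (nat_lit 5) (nat_lit 401) (nat_lit 5) (nat_lit 402) (nat_lit 5) (nat_lit 483) (nat_lit 468) (nat_lit 189)) (XT.lf (nat_lit 0) (nat_lit 5298594027) (nat_lit 1748) (nat_lit 16105262555) (nat_lit 1824) (nat_lit 6150141412) (nat_lit 379) (nat_lit 5) (nat_lit 402) (nat_lit 5) (nat_lit 403) (nat_lit 5) (nat_lit 484) (nat_lit 468) (nat_lit 188))) (XT.nd (nat_lit 78) (nat_lit 0) (nat_lit 76) (XT.lf (nat_lit 0) (nat_lit 6688116018) (nat_lit 1748) (nat_lit 2915448182) (nat_lit 1824) (nat_lit 18242639378) (nat_lit 379) (nat_lit 5) (nat_lit 402) (nat_lit 5) (nat_lit 403) (nat_lit 5) (nat_lit 485) (nat_lit 468) (nat_lit 187)) (XT.lf (nat_lit 0) (nat_lit 8188755991) (nat_lit 1748) (nat_lit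 17482643960) (nat_lit 1824) (nat_lit 2471188265) (nat_lit 380) (nat_lit 5) (nat_lit 403) (nat_lit 5) (nat_lit 404) (nat_lit 5) (nat_lit 486) (nat_lit 468) (nat_lit 186))))))))
noncomputable def xc250 : XT := (XT.nd (nat_lit 58890) (nat_lit 0) (nat_lit 836) (XT.nd (nat_lit 1092) (nat_lit 836) (nat_lit 0) (XT.nd (nat_lit 546) (nat_lit 3876) (nat_lit 0) (XT.nd (nat_lit 234) (nat_lit 0) (nat_lit 76) (XT.nd (nat_lit 78) (nat_lit 0) (nat_lit 0) (XT.lf (nat_lit 0) (nat_lit 9800489991) (nat_lit 1748) (nat_lit 3963572745) (nat_lit 1824) (nat_lit 14679217650) (nat_lit 380) (nat_lit 5) (nat_lit 403) (nat_lit 5) (nat_lit 404) (nat_lit 5) (nat_lit 487) (nat_lit 468) (nat_lit 185)) (XT.nd (nat_lit 78) (nat_lit 0) (nat_lit 76) (XT.lf (nat_lit 76) (nat_lit 9954773473) (nat_lit 0) (nat_lit 1552149279) (nat_lit 1824) (nat_lit 17241815802) (nat_lit 381) (nat_lit 5) (nat_lit 380) (nat_lit 5) (nat_lit 404) (nat_lit 5) (nat_lit 488)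 (nat_lit 468) (nat_lit 184)) (XT.lf (nat_lit 0) (nat_lit 13342919998) (nat_lit 1748) (nat_lit 4927233600) (nat_lit 1824) (nat_lit 10788244975) (nat_lit 381) (nat_lit 5) (nat_lit 404) (nat_lit 5) (nat_lit 405) (nat_lit 5) (nat_lit 489) (nat_lit 468) (nat_lit 183)))) (XT.nd (nat_lit 156) (nat_lit 0) (nat_lit 76) (XT.nd (nat_lit 78) (nat_lit 0) (nat_lit 76) (XT.lf (nat_lit 76) (nat_lit 9327213421) (nat_lit 0) (nat_lit 5957169213) (nat_lit 1824) (nat_lit 14088495631) (nat_lit 382) (nat_lit 5) (nat_lit 381) (nat_lit 5) (nat_lit 405) (nat_lit 5) (nat_lit 490) (nat_lit 468) (nat_lit 182)) (XT.lf (nat_lit 0) (nat_lit 17338763619) (nat_lit 1748) (nat_lit 5804233231) (nat_lit 1824) (nat_lit 6549170270) (nat_lit 382) (nat_lit 5) (nat_lit 405) (nat_lit 5) (nat_lit 406) (nat_lit 5) (nat_lit 491) (nat_lit 468) (nat_lit 181))) (XT.nd (nat_lit 78) (nat_lit 0) (nat_lit 76) (XT.lf (nat_lit 76) (nat_lit 8796271339) (nat_lit 0) (nat_lit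 10732504688) (nat_lit 1824) (nat_lit 10487176176) (nat_lit 383) (nat_lit 5) (nat_lit 382) (nat_lit 5) (nat_lit 406) (nat_lit 5) (nat_lit 492) (nat_lit 468) (nat_lit 180)) (XT.lf (nat_lit 0) (nat_lit 21812314341) (nat_lit 1748) (nat_lit 6592435361) (nat_lit 76) (nat_lit 1940470072) (nat_lit 383) (nat_lit 5) (nat_lit 406) (nat_lit 5) (nat_lit 384) (nat_lit 5) (nat_lit 493) (nat_lit 468) (nat_lit 179))))) (XT.nd (nat_lit 234) (nat_lit 1824) (nat_lit 0) (XT.nd (nat_lit 78) (nat_lit 836) (nat_lit 0) (XT.lf (nat_lit 0) (nat_lit 8364310473) (nat_lit 1444) (nat_lit 15900646868) (nat_lit 1520) (nat_lit 6413647951) (nat_lit 364) (nat_lit 5) (nat_lit 383) (nat_lit 5) (nat_lit 384) (nat_lit 5) (nat_lit 494) (nat_lit 468) (nat_lit 178)) (XT.nd (nat_lit 78) (nat_lit 836) (nat_lit 0) (XT.lf (nat_lit 0) (nat_lit 23707896570) (nat_lit 1444) (nat_lit 3101073880) (nat_lit 1520) (nat_lit 4208842975) (nat_lit 364) (nat_lit 5) (nat_lit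 383) (nat_lit 5) (nat_lit 384) (nat_lit 5) (nat_lit 495) (nat_lit 468) (nat_lit 177)) (XT.lf (nat_lit 0) (nat_lit 8033614866) (nat_lit 836) (nat_lit 21485157565) (nat_lit 912) (nat_lit 1842736343) (nat_lit 353) (nat_lit 5) (nat_lit 364) (nat_lit 5) (nat_lit 365) (nat_lit 5) (nat_lit 496) (nat_lit 468) (nat_lit 176)))) (XT.nd (nat_lit 156) (nat_lit 836) (nat_lit 0) (XT.nd (nat_lit 78) (nat_lit 912) (nat_lit 0) (XT.lf (nat_lit 0) (nat_lit 631253432) (nat_lit 912) (nat_lit 7954238993) (nat_lit 76) (nat_lit 23125151761) (nat_lit 352) (nat_lit 5) (nat_lit 364) (nat_lit 5) (nat_lit 353) (nat_lit 5) (nat_lit 497) (nat_lit 468) (nat_lit 175)) (XT.lf (nat_lit 0) (nat_lit 3209086354) (nat_lit 988) (nat_lit 24280104164) (nat_lit 76) (nat_lit 4575748580) (nat_lit 340) (nat_lit 5) (nat_lit 353) (nat_lit 5) (nat_lit 341) (nat_lit 5) (nat_lit 498) (nat_lit 468) (nat_lit 174))) (XT.nd (nat_lit 78) (nat_lit 836) (nat_lit 0) (XT.lf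 (nat_lit 0) (nat_lit 5947257787) (nat_lit 988) (nat_lit 8537625911) (nat_lit 76) (nat_lit 17939261706) (nat_lit 340) (nat_lit 5) (nat_lit 353) (nat_lit 5) (nat_lit 341) (nat_lit 5) (nat_lit 499) (nat_lit 468) (nat_lit 173)) (XT.lf (nat_lit 0) (nat_lit 7617971174) (nat_lit 836) (nat_lit 1169911480) (nat_lit 912) (nat_lit 24001700491) (nat_lit 329) (nat_lit 5) (nat_lit 340) (nat_lit 5) (nat_lit 341) (nat_lit 5) (nat_lit 500) (nat_lit 468) (nat_lit 172)))))) (XT.nd (nat_lit 57252) (nat_lit 0) (nat_lit 6004) (XT.nd (nat_lit 56940) (nat_lit 0) (nat_lit 5852) (XT.nd (nat_lit 78) (nat_lit 836) (nat_lit 0) (XT.lf (nat_lit 0) (nat_lit 11821828152) (nat_lit 912) (nat_lit 9031403802) (nat_lit 76) (nat_lit 12306368611) (nat_lit 329) (nat_lit 5) (nat_lit 341) (nat_lit 5) (nat_lit 330) (nat_lit 5) (nat_lit 501) (nat_lit 468) (nat_lit 171)) (XT.nd (nat_lit 56784) (nat_lit 0) (nat_lit 5852) (XT.lf (nat_lit 0) (nat_lit 7520863178)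 (nat_lit 836) (nat_lit 7450455779) (nat_lit 912) (nat_lit 18564603115) (nat_lit 318) (nat_lit 5) (nat_lit 329) (nat_lit 5) (nat_lit 330) (nat_lit 5) (nat_lit 502) (nat_lit 468) (nat_lit 170)) (XT.lf (nat_lit 0) (nat_lit 9358423492) (nat_lit 1748) (nat_lit 1291490014) (nat_lit 1748) (nat_lit 1291490014) (nat_lit 395) (nat_lit 3) (nat_lit 418) (nat_lit 3) (nat_lit 418) (nat_lit 5) (nat_lit 469) (nat_lit 469) (nat_lit 202)))) (XT.nd (nat_lit 156) (nat_lit 0) (nat_lit 76) (XT.nd (nat_lit 78) (nat_lit 0) (nat_lit 76) (XT.lf (nat_lit 76) (nat_lit 8504106919) (nat_lit 0) (nat_lit 10565832727) (nat_lit 1748) (nat_lit 5048300373) (nat_lit 396) (nat_lit 5) (nat_lit 395) (nat_lit 3) (nat_lit 418) (nat_lit 5) (nat_lit 470) (nat_lit 469) (nat_lit 201)) (XT.lf (nat_lit 0) (nat_lit 19447123222) (nat_lit 1672) (nat_lit 4514258031) (nat_lit 1748) (nat_lit 396661828) (nat_lit 396) (nat_lit 5) (nat_lit 418) (nat_lit 5) (nat_lit 419)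 (nat_lit 5) (nat_lit 471) (nat_lit 469) (nat_lit 200))) (XT.nd (nat_lit 78) (nat_lit 0) (nat_lit 0) (XT.lf (nat_lit 76) (nat_lit 6825621020) (nat_lit 0) (nat_lit 13117670720) (nat_lit 1748) (nat_lit 4657123611) (nat_lit 397) (nat_lit 5) (nat_lit 396) (nat_lit 5) (nat_lit 419) (nat_lit 5) (nat_lit 472) (nat_lit 469) (nat_lit 199)) (XT.lf (nat_lit 76) (nat_lit 18451959379) (nat_lit 0) (nat_lit 2024915606) (nat_lit 1748) (nat_lit 4370212185) (nat_lit 397) (nat_lit 5) (nat_lit 396) (nat_lit 5) (nat_lit 419) (nat_lit 5) (nat_lit 473) (nat_lit 469) (nat_lit 198))))) (XT.nd (nat_lit 234) (nat_lit 0) (nat_lit 76) (XT.nd (nat_lit 78) (nat_lit 0) (nat_lit 0) (XT.lf (nat_lit 76) (nat_lit 5218696212) (nat_lit 0) (nat_lit 15893893116) (nat_lit 1748) (nat_lit 3984275801) (nat_lit 398) (nat_lit 5) (nat_lit 397) (nat_lit 5) (nat_lit 420) (nat_lit 5) (nat_lit 474) (nat_lit 469) (nat_lit 197)) (XT.nd (nat_lit 78) (nat_lit 0) (nat_lit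 76) (XT.lf (nat_lit 76) (nat_lit 17136341236) (nat_lit 0) (nat_lit 4678218150) (nat_lit 1748) (nat_lit 3536010290) (nat_lit 398) (nat_lit 5) (nat_lit 397) (nat_lit 5) (nat_lit 420) (nat_lit 5) (nat_lit 475) (nat_lit 469) (nat_lit 196)) (XT.lf (nat_lit 76) (nat_lit 3685843157) (nat_lit 0) (nat_lit 18909923568) (nat_lit 1748) (nat_lit 3012279451) (nat_lit 399) (nat_lit 5) (nat_lit 398) (nat_lit 5) (nat_lit 421) (nat_lit 5) (nat_lit 476) (nat_lit 469) (nat_lit 195)))) (XT.nd (nat_lit 156) (nat_lit 0) (nat_lit 76) (XT.nd (nat_lit 78) (nat_lit 0) (nat_lit 76) (XT.lf (nat_lit 76) (nat_lit 15902293061) (nat_lit 0) (nat_lit 7573611176) (nat_lit 1748) (nat_lit 2393103635) (nat_lit 399) (nat_lit 5) (nat_lit 398) (nat_lit 5) (nat_lit 421) (nat_lit 5) (nat_lit 477) (nat_lit 469) (nat_lit 194)) (XT.lf (nat_lit 76) (nat_lit 2229618975) (nat_lit 0) (nat_lit 22181867507) (nat_lit 1748) (nat_lit 1722947228) (nat_lit 400) (nat_lit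 5) (nat_lit 399) (nat_lit 5) (nat_lit 422) (nat_lit 5) (nat_lit 478) (nat_lit 469) (nat_lit 193))) (XT.nd (nat_lit 78) (nat_lit 0) (nat_lit 76) (XT.lf (nat_lit 76) (nat_lit 14752564485) (nat_lit 0) (nat_lit 10727427371) (nat_lit 1748) (nat_lit 922893694) (nat_lit 400) (nat_lit 5) (nat_lit 399) (nat_lit 5) (nat_lit 422) (nat_lit 5) (nat_lit 479) (nat_lit 469) (nat_lit 192)) (XT.lf (nat_lit 76) (nat_lit 852618453) (nat_lit 0) (nat_lit 25726550194) (nat_lit 1748) (nat_lit 97353436) (nat_lit 401) (nat_lit 5) (nat_lit 400) (nat_lit 5) (nat_lit 423) (nat_lit 5) (nat_lit 480) (nat_lit 469) (nat_lit 191))))))) (XT.nd (nat_lit 1092) (nat_lit 3648) (nat_lit 0) (XT.nd (nat_lit 546) (nat_lit 0) (nat_lit 228) (XT.nd (nat_lit 234) (nat_lit 0) (nat_lit 76) (XT.nd (nat_lit 78) (nat_lit 0) (nat_lit 0) (XT.lf (nat_lit 0) (nat_lit 882248674) (nat_lit 1748) (nat_lit 13268564982) (nat_lit 1824) (nat_lit 12801776247) (nat_lit 377) (nat_lit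 5) (nat_lit 400) (nat_lit 5) (nat_lit 401) (nat_lit 5) (nat_lit 481) (nat_lit 469) (nat_lit 190)) (XT.nd (nat_lit 78) (nat_lit 0) (nat_lit 76) (XT.lf (nat_lit 0) (nat_lit 1877765769) (nat_lit 1748) (nat_lit 464373873) (nat_lit 1824) (nat_lit 24892075621) (nat_lit 377) (nat_lit 5) (nat_lit 400) (nat_lit 5) (nat_lit 401) (nat_lit 5) (nat_lit 482) (nat_lit 469) (nat_lit 189)) (XT.lf (nat_lit 0) (nat_lit 3037272454) (nat_lit 1748) (nat_lit 14821719156) (nat_lit 1824) (nat_lit 9659601490) (nat_lit 378) (nat_lit 5) (nat_lit 401) (nat_lit 5) (nat_lit 402) (nat_lit 5) (nat_lit 483) (nat_lit 469) (nat_lit 188)))) (XT.nd (nat_lit 156) (nat_lit 0) (nat_lit 76) (XT.nd (nat_lit 78) (nat_lit 0) (nat_lit 76) (XT.lf (nat_lit 0) (nat_lit 4236328989) (nat_lit 1748) (nat_lit 1698105965) (nat_lit 1824) (nat_lit 21873897868) (nat_lit 378) (nat_lit 5) (nat_lit 401) (nat_lit 5) (nat_lit 402) (nat_lit 5) (nat_lit 484) (nat_lit 469) (nat_lit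 187)) (XT.lf (nat_lit 0) (nat_lit 5574961407) (nat_lit 1748) (nat_lit 16301632206) (nat_lit 1824) (nat_lit 6224963323) (nat_lit 379) (nat_lit 5) (nat_lit 402) (nat_lit 5) (nat_lit 403) (nat_lit 5) (nat_lit 485) (nat_lit 469) (nat_lit 186))) (XT.nd (nat_lit 78) (nat_lit 0) (nat_lit 76) (XT.lf (nat_lit 0) (nat_lit 6988932750) (nat_lit 1748) (nat_lit 2850486949) (nat_lit 1824) (nat_lit 18560255972) (nat_lit 379) (nat_lit 5) (nat_lit 402) (nat_lit 5) (nat_lit 403) (nat_lit 5) (nat_lit 486) (nat_lit 469) (nat_lit 185)) (XT.lf (nat_lit 0) (nat_lit 8516831595) (nat_lit 1748) (nat_lit 17706164000) (nat_lit 1824) (nat_lit 2479049660) (nat_lit 380) (nat_lit 5) (nat_lit 403) (nat_lit 5) (nat_lit 404) (nat_lit 5) (nat_lit 487) (nat_lit 469) (nat_lit 184))))) (XT.nd (nat_lit 234) (nat_lit 0) (nat_lit 76) (XT.nd (nat_lit 78) (nat_lit 0) (nat_lit 0) (XT.lf (nat_lit 0) (nat_lit 10157578698) (nat_lit 1748) (nat_lit 3919184553)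 (nat_lit 1824) (nat_lit 14932054580) (nat_lit 380) (nat_lit 5) (nat_lit 403) (nat_lit 5) (nat_lit 404) (nat_lit 5) (nat_lit 488) (nat_lit 469) (nat_lit 183)) (XT.nd (nat_lit 78) (nat_lit 0) (nat_lit 76) (XT.lf (nat_lit 76) (nat_lit 10276715038) (nat_lit 0) (nat_lit 1619064263) (nat_lit 1824) (nat_lit 17424655167) (nat_lit 381) (nat_lit 5) (nat_lit 380) (nat_lit 5) (nat_lit 404) (nat_lit 5) (nat_lit 489) (nat_lit 469) (nat_lit 182)) (XT.lf (nat_lit 0) (nat_lit 13765156036) (nat_lit 1748) (nat_lit 4901898020) (nat_lit 1824) (nat_lit 10969302491) (nat_lit 381) (nat_lit 5) (nat_lit 404) (nat_lit 5) (nat_lit 405) (nat_lit 5) (nat_lit 490) (nat_lit 469) (nat_lit 181)))) (XT.nd (nat_lit 156) (nat_lit 0) (nat_lit 76) (XT.nd (nat_lit 78) (nat_lit 0) (nat_lit 76) (XT.lf (nat_lit 76) (nat_lit 9636822940) (nat_lit 0) (nat_lit 6106377386) (nat_lit 1824) (nat_lit 14213972468) (nat_lit 382) (nat_lit 5) (nat_lit 381) (nat_lit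 5) (nat_lit 405) (nat_lit 5) (nat_lit 491) (nat_lit 469) (nat_lit 180)) (XT.lf (nat_lit 0) (nat_lit 17835475007) (nat_lit 1748) (nat_lit 5796373300) (nat_lit 1824) (nat_lit 6651064966) (nat_lit 382) (nat_lit 5) (nat_lit 405) (nat_lit 5) (nat_lit 406) (nat_lit 5) (nat_lit 492) (nat_lit 469) (nat_lit 179))) (XT.nd (nat_lit 78) (nat_lit 0) (nat_lit 76) (XT.lf (nat_lit 76) (nat_lit 9095325937) (nat_lit 0) (nat_lit 10971821239) (nat_lit 1824) (nat_lit 10546071622) (nat_lit 383) (nat_lit 5) (nat_lit 382) (nat_lit 5) (nat_lit 406) (nat_lit 5) (nat_lit 493) (nat_lit 469) (nat_lit 178)) (XT.lf (nat_lit 0) (nat_lit 22393301291) (nat_lit 1748) (nat_lit 6600419587) (nat_lit 76) (nat_lit 1955413834) (nat_lit 383) (nat_lit 5) (nat_lit 406) (nat_lit 5) (nat_lit 384) (nat_lit 5) (nat_lit 494) (nat_lit 469) (nat_lit 177)))))) (XT.nd (nat_lit 57408) (nat_lit 0) (nat_lit 5016) (XT.nd (nat_lit 234) (nat_lit 1824) (nat_lit 0) (XT.nd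 (nat_lit 78) (nat_lit 836) (nat_lit 0) (XT.lf (nat_lit 0) (nat_lit 8654646266) (nat_lit 1444) (nat_lit 16238311753) (nat_lit 1520) (nat_lit 6396272561) (nat_lit 364) (nat_lit 5) (nat_lit 383) (nat_lit 5) (nat_lit 384) (nat_lit 5) (nat_lit 495) (nat_lit 469) (nat_lit 176)) (XT.nd (nat_lit 78) (nat_lit 836) (nat_lit 0) (XT.lf (nat_lit 0) (nat_lit 24302691348) (nat_lit 1444) (nat_lit 3182361973) (nat_lit 1520) (nat_lit 4150227335) (nat_lit 364) (nat_lit 5) (nat_lit 383) (nat_lit 5) (nat_lit 384) (nat_lit 5) (nat_lit 496) (nat_lit 469) (nat_lit 175)) (XT.lf (nat_lit 0) (nat_lit 8317124646) (nat_lit 836) (nat_lit 21929858394) (nat_lit 912) (nat_lit 1738910022) (nat_lit 353) (nat_lit 5) (nat_lit 364) (nat_lit 5) (nat_lit 365) (nat_lit 5) (nat_lit 497) (nat_lit 469) (nat_lit 174)))) (XT.nd (nat_lit 156) (nat_lit 836) (nat_lit 0) (XT.nd (nat_lit 78) (nat_lit 912) (nat_lit 0) (XT.lf (nat_lit 0) (nat_lit 779992217) (nat_lit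 912) (nat_lit 7991000267) (nat_lit 76) (nat_lit 23571056589) (nat_lit 352) (nat_lit 5) (nat_lit 364) (nat_lit 5) (nat_lit 353) (nat_lit 5) (nat_lit 498) (nat_lit 469) (nat_lit 173)) (XT.lf (nat_lit 0) (nat_lit 3407419327) (nat_lit 988) (nat_lit 24641336230) (nat_lit 76) (nat_lit 4654715257) (nat_lit 340) (nat_lit 5) (nat_lit 353) (nat_lit 5) (nat_lit 341) (nat_lit 5) (nat_lit 499) (nat_lit 469) (nat_lit 172))) (XT.nd (nat_lit 78) (nat_lit 836) (nat_lit 0) (XT.lf (nat_lit 0) (nat_lit 6197723772) (nat_lit 988) (nat_lit 8586447040) (nat_lit 76) (nat_lit 18285744691) (nat_lit 340) (nat_lit 5) (nat_lit 353) (nat_lit 5) (nat_lit 341) (nat_lit 5) (nat_lit 500) (nat_lit 469) (nat_lit 171)) (XT.lf (nat_lit 0) (nat_lit 7891459807) (nat_lit 836) (nat_lit 1201908941) (nat_lit 912) (nat_lit 24349330714) (nat_lit 329) (nat_lit 5) (nat_lit 340) (nat_lit 5) (nat_lit 341) (nat_lit 5) (nat_lit 501) (nat_lit 469) (nat_lit 170)))))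 (XT.nd (nat_lit 312) (nat_lit 0) (nat_lit 76) (XT.nd (nat_lit 156) (nat_lit 0) (nat_lit 76) (XT.nd (nat_lit 78) (nat_lit 0) (nat_lit 0) (XT.lf (nat_lit 0) (nat_lit 9655583048) (nat_lit 1748) (nat_lit 1261186304) (nat_lit 1748) (nat_lit 1261186304) (nat_lit 395) (nat_lit 3) (nat_lit 418) (nat_lit 3) (nat_lit 418) (nat_lit 5) (nat_lit 470) (nat_lit 470) (nat_lit 200)) (XT.lf (nat_lit 76) (nat_lit 8785717480) (nat_lit 0) (nat_lit 10882013871) (nat_lit 1748) (nat_lit 4928396367) (nat_lit 396) (nat_lit 5) (nat_lit 395) (nat_lit 3) (nat_lit 418) (nat_lit 5) (nat_lit 471) (nat_lit 470) (nat_lit 199))) (XT.nd (nat_lit 78) (nat_lit 0) (nat_lit 0) (XT.lf (nat_lit 0) (nat_lit 20047548101) (nat_lit 1672) (nat_lit 4490144785) (nat_lit 1748) (nat_lit 303135091) (nat_lit 396) (nat_lit 5) (nat_lit 418) (nat_lit 5) (nat_lit 419) (nat_lit 5) (nat_lit 472) (nat_lit 470) (nat_lit 198)) (XT.lf (nat_lit 76) (nat_lit 7075779226) (nat_lit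 0) (nat_lit 13474451913) (nat_lit 1748) (nat_lit 4537887599) (nat_lit 397) (nat_lit 5) (nat_lit 396) (nat_lit 5) (nat_lit 419) (nat_lit 5) (nat_lit 473) (nat_lit 470) (nat_lit 197)))) (XT.nd (nat_lit 156) (nat_lit 0) (nat_lit 76) (XT.nd (nat_lit 78) (nat_lit 0) (nat_lit 76) (XT.lf (nat_lit 76) (nat_lit 18932416003) (nat_lit 0) (nat_lit 2157990172) (nat_lit 1748) (nat_lit 4249402229) (nat_lit 397) (nat_lit 5) (nat_lit 396) (nat_lit 5) (nat_lit 419) (nat_lit 5) (nat_lit 474) (nat_lit 470) (nat_lit 196)) (XT.lf (nat_lit 76) (nat_lit 5438544418) (nat_lit 0) (nat_lit 16296450966) (nat_lit 1748) (nat_lit 3859666085) (nat_lit 398) (nat_lit 5) (nat_lit 397) (nat_lit 5) (nat_lit 420) (nat_lit 5) (nat_lit 475) (nat_lit 470) (nat_lit 195))) (XT.nd (nat_lit 78) (nat_lit 0) (nat_lit 76) (XT.lf (nat_lit 76) (nat_lit 17592278141) (nat_lit 0) (nat_lit 4854802108) (nat_lit 1748) (nat_lit 3406441053) (nat_lit 398) (nat_lit 5) (nat_lit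 397) (nat_lit 5) (nat_lit 420) (nat_lit 5) (nat_lit 476) (nat_lit 470) (nat_lit 194)) (XT.lf (nat_lit 76) (nat_lit 3876593828) (nat_lit 0) (nat_lit 19363701678) (nat_lit 1748) (nat_lit 2875926801) (nat_lit 399) (nat_lit 5) (nat_lit 398) (nat_lit 5) (nat_lit 421) (nat_lit 5) (nat_lit 477) (nat_lit 470) (nat_lit 193))))))))
noncomputable def xc251 : XT := (XT.nd (nat_lit 59124) (nat_lit 0) (nat_lit 912) (XT.nd (nat_lit 1092) (nat_lit 2812) (nat_lit 0) (XT.nd (nat_lit 546) (nat_lit 0) (nat_lit 76) (XT.nd (nat_lit 234) (nat_lit 1596) (nat_lit 0) (XT.nd (nat_lit 78) (nat_lit 0) (nat_lit 76) (XT.lf (nat_lit 76) (nat_lit 16335077950) (nat_lit 0) (nat_lit 7799181084) (nat_lit 1748) (nat_lit 2248222336) (nat_lit 399) (nat_lit 5) (nat_lit 398) (nat_lit 5) (nat_lit 421) (nat_lit 5) (nat_lit 478) (nat_lit 470) (nat_lit 192)) (XT.nd (nat_lit 78) (nat_lit 0) (nat_lit 0) (XT.lf (nat_lit 76) (nat_lit 2392554404) (nat_lit 0) (nat_lit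 22692592543) (nat_lit 1748) (nat_lit 1568139445) (nat_lit 400) (nat_lit 5) (nat_lit 399) (nat_lit 5) (nat_lit 422) (nat_lit 5) (nat_lit 479) (nat_lit 470) (nat_lit 191)) (XT.lf (nat_lit 76) (nat_lit 15163638372) (nat_lit 0) (nat_lit 11007748159) (nat_lit 1748) (nat_lit 755795953) (nat_lit 400) (nat_lit 5) (nat_lit 399) (nat_lit 5) (nat_lit 422) (nat_lit 5) (nat_lit 480) (nat_lit 470) (nat_lit 190)))) (XT.nd (nat_lit 156) (nat_lit 0) (nat_lit 0) (XT.nd (nat_lit 78) (nat_lit 0) (nat_lit 0) (XT.lf (nat_lit 0) (nat_lit 81892280) (nat_lit 1748) (nat_lit 26217806744) (nat_lit 1824) (nat_lit 906648555) (nat_lit 377) (nat_lit 5) (nat_lit 400) (nat_lit 5) (nat_lit 401) (nat_lit 5) (nat_lit 481) (nat_lit 470) (nat_lit 189)) (XT.lf (nat_lit 0) (nat_lit 1076256825) (nat_lit 1748) (nat_lit 13414396837) (nat_lit 1824) (nat_lit 12997343098) (nat_lit 377) (nat_lit 5) (nat_lit 400) (nat_lit 5) (nat_lit 401) (nat_lit 5) (nat_lit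 482) (nat_lit 470) (nat_lit 188))) (XT.nd (nat_lit 78) (nat_lit 0) (nat_lit 76) (XT.lf (nat_lit 0) (nat_lit 2088226161) (nat_lit 1748) (nat_lit 356465816) (nat_lit 1824) (nat_lit 25330634120) (nat_lit 377) (nat_lit 5) (nat_lit 400) (nat_lit 5) (nat_lit 401) (nat_lit 5) (nat_lit 483) (nat_lit 470) (nat_lit 187)) (XT.lf (nat_lit 0) (nat_lit 3267938984) (nat_lit 1748) (nat_lit 14997860902) (nat_lit 1824) (nat_lit 9799653547) (nat_lit 378) (nat_lit 5) (nat_lit 401) (nat_lit 5) (nat_lit 402) (nat_lit 5) (nat_lit 484) (nat_lit 470) (nat_lit 186))))) (XT.nd (nat_lit 234) (nat_lit 0) (nat_lit 152) (XT.nd (nat_lit 78) (nat_lit 0) (nat_lit 76) (XT.lf (nat_lit 0) (nat_lit 4487644864) (nat_lit 1748) (nat_lit 1614134126) (nat_lit 1824) (nat_lit 22259277812) (nat_lit 378) (nat_lit 5) (nat_lit 401) (nat_lit 5) (nat_lit 402) (nat_lit 5) (nat_lit 485) (nat_lit 470) (nat_lit 185)) (XT.nd (nat_lit 78) (nat_lit 0) (nat_lit 0) (XT.lf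 (nat_lit 0) (nat_lit 5850239471) (nat_lit 1748) (nat_lit 16506811716) (nat_lit 1824) (nat_lit 6303152596) (nat_lit 379) (nat_lit 5) (nat_lit 402) (nat_lit 5) (nat_lit 403) (nat_lit 5) (nat_lit 486) (nat_lit 470) (nat_lit 184)) (XT.lf (nat_lit 0) (nat_lit 7289278890) (nat_lit 1748) (nat_lit 2789013224) (nat_lit 1824) (nat_lit 18886059137) (nat_lit 379) (nat_lit 5) (nat_lit 402) (nat_lit 5) (nat_lit 403) (nat_lit 5) (nat_lit 487) (nat_lit 470) (nat_lit 183)))) (XT.nd (nat_lit 156) (nat_lit 0) (nat_lit 0) (XT.nd (nat_lit 78) (nat_lit 0) (nat_lit 0) (XT.lf (nat_lit 0) (nat_lit 8845088724) (nat_lit 1748) (nat_lit 17939052333) (nat_lit 1824) (nat_lit 2488682199) (nat_lit 380) (nat_lit 5) (nat_lit 403) (nat_lit 5) (nat_lit 404) (nat_lit 5) (nat_lit 488) (nat_lit 470) (nat_lit 182)) (XT.lf (nat_lit 0) (nat_lit 10515554288) (nat_lit 1748) (nat_lit 3878710453) (nat_lit 1824) (nat_lit 15191530521) (nat_lit 380) (nat_lit 5)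 (nat_lit 403) (nat_lit 5) (nat_lit 404) (nat_lit 5) (nat_lit 489) (nat_lit 470) (nat_lit 181))) (XT.nd (nat_lit 78) (nat_lit 0) (nat_lit 76) (XT.lf (nat_lit 76) (nat_lit 10600325171) (nat_lit 0) (nat_lit 1685924594) (nat_lit 1824) (nat_lit 17617441858) (nat_lit 381) (nat_lit 5) (nat_lit 380) (nat_lit 5) (nat_lit 404) (nat_lit 5) (nat_lit 490) (nat_lit 470) (nat_lit 180)) (XT.lf (nat_lit 0) (nat_lit 14189803291) (nat_lit 1748) (nat_lit 4880866150) (nat_lit 1824) (nat_lit 11155328887) (nat_lit 381) (nat_lit 5) (nat_lit 404) (nat_lit 5) (nat_lit 405) (nat_lit 5) (nat_lit 491) (nat_lit 470) (nat_lit 179)))))) (XT.nd (nat_lit 546) (nat_lit 988) (nat_lit 0) (XT.nd (nat_lit 234) (nat_lit 2128) (nat_lit 0) (XT.nd (nat_lit 78) (nat_lit 0) (nat_lit 76) (XT.lf (nat_lit 76) (nat_lit 9947845875) (nat_lit 0) (nat_lit 6257402269) (nat_lit 1824) (nat_lit 14348027892) (nat_lit 382) (nat_lit 5) (nat_lit 381) (nat_lit 5) (nat_lit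 405) (nat_lit 5) (nat_lit 492) (nat_lit 470) (nat_lit 178)) (XT.nd (nat_lit 78) (nat_lit 0) (nat_lit 0) (XT.lf (nat_lit 0) (nat_lit 18336298421) (nat_lit 1748) (nat_lit 5793169090) (nat_lit 1824) (nat_lit 6756127106) (nat_lit 382) (nat_lit 5) (nat_lit 405) (nat_lit 5) (nat_lit 406) (nat_lit 5) (nat_lit 493) (nat_lit 470) (nat_lit 177)) (XT.lf (nat_lit 76) (nat_lit 9395580371) (nat_lit 0) (nat_lit 11214966292) (nat_lit 1824) (nat_lit 10612002592) (nat_lit 383) (nat_lit 5) (nat_lit 382) (nat_lit 5) (nat_lit 406) (nat_lit 5) (nat_lit 494) (nat_lit 470) (nat_lit 176)))) (XT.nd (nat_lit 156) (nat_lit 836) (nat_lit 0) (XT.nd (nat_lit 78) (nat_lit 1444) (nat_lit 0) (XT.lf (nat_lit 0) (nat_lit 22980287524) (nat_lit 1748) (nat_lit 6613373306) (nat_lit 76) (nat_lit 1971583204) (nat_lit 383) (nat_lit 5) (nat_lit 406) (nat_lit 5) (nat_lit 384) (nat_lit 5) (nat_lit 495) (nat_lit 470) (nat_lit 175)) (XT.lf (nat_lit 0) (nat_lit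 8946010609) (nat_lit 1444) (nat_lit 16581966826) (nat_lit 1520) (nat_lit 6384205366) (nat_lit 364) (nat_lit 5) (nat_lit 383) (nat_lit 5) (nat_lit 384) (nat_lit 5) (nat_lit 496) (nat_lit 470) (nat_lit 174))) (XT.nd (nat_lit 78) (nat_lit 836) (nat_lit 0) (XT.lf (nat_lit 0) (nat_lit 24904697546) (nat_lit 1444) (nat_lit 3264527681) (nat_lit 1520) (nat_lit 4095984190) (nat_lit 364) (nat_lit 5) (nat_lit 383) (nat_lit 5) (nat_lit 384) (nat_lit 5) (nat_lit 497) (nat_lit 470) (nat_lit 173)) (XT.lf (nat_lit 0) (nat_lit 8601534692) (nat_lit 836) (nat_lit 22382870861) (nat_lit 912) (nat_lit 1638469991) (nat_lit 353) (nat_lit 5) (nat_lit 364) (nat_lit 5) (nat_lit 365) (nat_lit 5) (nat_lit 498) (nat_lit 470) (nat_lit 172))))) (XT.nd (nat_lit 57174) (nat_lit 0) (nat_lit 4180) (XT.nd (nat_lit 78) (nat_lit 912) (nat_lit 0) (XT.lf (nat_lit 0) (nat_lit 926420317) (nat_lit 912) (nat_lit 8033246737) (nat_lit 76) (nat_lit 24026524043)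 (nat_lit 352) (nat_lit 5) (nat_lit 364) (nat_lit 5) (nat_lit 353) (nat_lit 5) (nat_lit 499) (nat_lit 470) (nat_lit 171)) (XT.nd (nat_lit 78) (nat_lit 0) (nat_lit 0) (XT.lf (nat_lit 0) (nat_lit 3604509703) (nat_lit 988) (nat_lit 25014622377) (nat_lit 76) (nat_lit 4735748534) (nat_lit 340) (nat_lit 5) (nat_lit 353) (nat_lit 5) (nat_lit 341) (nat_lit 5) (nat_lit 500) (nat_lit 470) (nat_lit 170)) (XT.lf (nat_lit 0) (nat_lit 6448091962) (nat_lit 988) (nat_lit 8640979335) (nat_lit 76) (nat_lit 18639635047) (nat_lit 340) (nat_lit 5) (nat_lit 353) (nat_lit 5) (nat_lit 341) (nat_lit 5) (nat_lit 501) (nat_lit 470) (nat_lit 169)))) (XT.nd (nat_lit 156) (nat_lit 0) (nat_lit 76) (XT.nd (nat_lit 78) (nat_lit 0) (nat_lit 0) (XT.lf (nat_lit 0) (nat_lit 9954414707) (nat_lit 1748) (nat_lit 1232456252) (nat_lit 1748) (nat_lit 1232456252) (nat_lit 395) (nat_lit 3) (nat_lit 418) (nat_lit 3) (nat_lit 418) (nat_lit 5) (nat_lit 471) (nat_lit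 471) (nat_lit 198)) (XT.lf (nat_lit 76) (nat_lit 9068629468) (nat_lit 0) (nat_lit 11200446622) (nat_lit 1748) (nat_lit 4814670932) (nat_lit 396) (nat_lit 5) (nat_lit 395) (nat_lit 3) (nat_lit 418) (nat_lit 5) (nat_lit 472) (nat_lit 471) (nat_lit 197))) (XT.nd (nat_lit 78) (nat_lit 0) (nat_lit 0) (XT.lf (nat_lit 0) (nat_lit 20651769358) (nat_lit 1672) (nat_lit 4469991504) (nat_lit 1748) (nat_lit 211677634) (nat_lit 396) (nat_lit 5) (nat_lit 418) (nat_lit 5) (nat_lit 419) (nat_lit 5) (nat_lit 473) (nat_lit 471) (nat_lit 196)) (XT.lf (nat_lit 76) (nat_lit 7326527591) (nat_lit 0) (nat_lit 13834701985) (nat_lit 1748) (nat_lit 4424513783) (nat_lit 397) (nat_lit 5) (nat_lit 396) (nat_lit 5) (nat_lit 419) (nat_lit 5) (nat_lit 474) (nat_lit 471) (nat_lit 195))))))) (XT.nd (nat_lit 1092) (nat_lit 1900) (nat_lit 0) (XT.nd (nat_lit 546) (nat_lit 1444) (nat_lit 0) (XT.nd (nat_lit 234) (nat_lit 0) (nat_lit 152) (XT.nd (nat_lit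 78) (nat_lit 0) (nat_lit 76) (XT.lf (nat_lit 76) (nat_lit 19418155285) (nat_lit 0) (nat_lit 2290131380) (nat_lit 1748) (nat_lit 4134261285) (nat_lit 397) (nat_lit 5) (nat_lit 396) (nat_lit 5) (nat_lit 419) (nat_lit 5) (nat_lit 475) (nat_lit 471) (nat_lit 194)) (XT.nd (nat_lit 78) (nat_lit 0) (nat_lit 0) (XT.lf (nat_lit 76) (nat_lit 5658305581) (nat_lit 0) (nat_lit 16703771745) (nat_lit 1748) (nat_lit 3740497208) (nat_lit 398) (nat_lit 5) (nat_lit 397) (nat_lit 5) (nat_lit 420) (nat_lit 5) (nat_lit 476) (nat_lit 471) (nat_lit 193)) (XT.lf (nat_lit 76) (nat_lit 18052937698) (nat_lit 0) (nat_lit 5031693994) (nat_lit 1748) (nat_lit 3282057914) (nat_lit 398) (nat_lit 5) (nat_lit 397) (nat_lit 5) (nat_lit 420) (nat_lit 5) (nat_lit 477) (nat_lit 471) (nat_lit 192)))) (XT.nd (nat_lit 156) (nat_lit 0) (nat_lit 76) (XT.nd (nat_lit 78) (nat_lit 0) (nat_lit 0) (XT.lf (nat_lit 76) (nat_lit 4066614947) (nat_lit 0) (nat_lit 19823620501)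 (nat_lit 1748) (nat_lit 2744481247) (nat_lit 399) (nat_lit 5) (nat_lit 398) (nat_lit 5) (nat_lit 421) (nat_lit 5) (nat_lit 478) (nat_lit 471) (nat_lit 191)) (XT.lf (nat_lit 76) (nat_lit 16772063080) (nat_lit 0) (nat_lit 8026385087) (nat_lit 1748) (nat_lit 2107927871) (nat_lit 399) (nat_lit 5) (nat_lit 398) (nat_lit 5) (nat_lit 421) (nat_lit 5) (nat_lit 479) (nat_lit 471) (nat_lit 190))) (XT.nd (nat_lit 78) (nat_lit 0) (nat_lit 0) (XT.lf (nat_lit 76) (nat_lit 2554153137) (nat_lit 0) (nat_lit 23210926982) (nat_lit 1748) (nat_lit 1417584964) (nat_lit 400) (nat_lit 5) (nat_lit 399) (nat_lit 5) (nat_lit 422) (nat_lit 5) (nat_lit 480) (nat_lit 471) (nat_lit 189)) (XT.lf (nat_lit 76) (nat_lit 15578428438) (nat_lit 0) (nat_lit 11291121347) (nat_lit 1748) (nat_lit 592561607) (nat_lit 400) (nat_lit 5) (nat_lit 399) (nat_lit 5) (nat_lit 422) (nat_lit 5) (nat_lit 481) (nat_lit 471) (nat_lit 188))))) (XT.nd (nat_lit 234) (nat_lit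 0) (nat_lit 76) (XT.nd (nat_lit 78) (nat_lit 0) (nat_lit 0) (XT.lf (nat_lit 0) (nat_lit 256435202) (nat_lit 1748) (nat_lit 26624967345) (nat_lit 1824) (nat_lit 865498512) (nat_lit 377) (nat_lit 5) (nat_lit 400) (nat_lit 5) (nat_lit 401) (nat_lit 5) (nat_lit 482) (nat_lit 471) (nat_lit 187)) (XT.nd (nat_lit 78) (nat_lit 0) (nat_lit 0) (XT.lf (nat_lit 0) (nat_lit 1267296743) (nat_lit 1748) (nat_lit 13567787191) (nat_lit 1824) (nat_lit 13199169358) (nat_lit 377) (nat_lit 5) (nat_lit 400) (nat_lit 5) (nat_lit 401) (nat_lit 5) (nat_lit 483) (nat_lit 471) (nat_lit 186)) (XT.lf (nat_lit 0) (nat_lit 2296181646) (nat_lit 1748) (nat_lit 250950444) (nat_lit 1824) (nat_lit 25780265820) (nat_lit 377) (nat_lit 5) (nat_lit 400) (nat_lit 5) (nat_lit 401) (nat_lit 5) (nat_lit 484) (nat_lit 471) (nat_lit 185)))) (XT.nd (nat_lit 156) (nat_lit 0) (nat_lit 76) (XT.nd (nat_lit 78) (nat_lit 0) (nat_lit 0) (XT.lf (nat_lit 0) (nat_lit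 3496620602) (nat_lit 1748) (nat_lit 15182196592) (nat_lit 1824) (nat_lit 9944570135) (nat_lit 378) (nat_lit 5) (nat_lit 401) (nat_lit 5) (nat_lit 402) (nat_lit 5) (nat_lit 485) (nat_lit 471) (nat_lit 184)) (XT.lf (nat_lit 0) (nat_lit 4737518191) (nat_lit 1748) (nat_lit 1533062370) (nat_lit 1824) (nat_lit 22654388385) (nat_lit 378) (nat_lit 5) (nat_lit 401) (nat_lit 5) (nat_lit 402) (nat_lit 5) (nat_lit 486) (nat_lit 471) (nat_lit 183))) (XT.nd (nat_lit 78) (nat_lit 0) (nat_lit 0) (XT.lf (nat_lit 0) (nat_lit 6124663363) (nat_lit 1748) (nat_lit 16720787691) (nat_lit 1824) (nat_lit 6384703928) (nat_lit 379) (nat_lit 5) (nat_lit 402) (nat_lit 5) (nat_lit 403) (nat_lit 5) (nat_lit 487) (nat_lit 471) (nat_lit 182)) (XT.lf (nat_lit 0) (nat_lit 7589396923) (nat_lit 1748) (nat_lit 2730910881) (nat_lit 1824) (nat_lit 19220141379) (nat_lit 379) (nat_lit 5) (nat_lit 402) (nat_lit 5) (nat_lit 403) (nat_lit 5) (nat_lit 488)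 (nat_lit 471) (nat_lit 181)))))) (XT.nd (nat_lit 546) (nat_lit 2128) (nat_lit 0) (XT.nd (nat_lit 234) (nat_lit 0) (nat_lit 76) (XT.nd (nat_lit 78) (nat_lit 0) (nat_lit 0) (XT.lf (nat_lit 0) (nat_lit 9173778750) (nat_lit 1748) (nat_lit 18181306133) (nat_lit 1824) (nat_lit 2500058637) (nat_lit 380) (nat_lit 5) (nat_lit 403) (nat_lit 5) (nat_lit 404) (nat_lit 5) (nat_lit 489) (nat_lit 471) (nat_lit 180)) (XT.nd (nat_lit 78) (nat_lit 0) (nat_lit 0) (XT.lf (nat_lit 0) (nat_lit 10874677385) (nat_lit 1748) (nat_lit 3842042264) (nat_lit 1824) (nat_lit 15457716812) (nat_lit 380) (nat_lit 5) (nat_lit 403) (nat_lit 5) (nat_lit 404) (nat_lit 5) (nat_lit 490) (nat_lit 471) (nat_lit 179)) (XT.lf (nat_lit 76) (nat_lit 10925822479) (nat_lit 0) (nat_lit 1752783269) (nat_lit 1824) (nat_lit 17820130553) (nat_lit 381) (nat_lit 5) (nat_lit 380) (nat_lit 5) (nat_lit 404) (nat_lit 5) (nat_lit 491) (nat_lit 471) (nat_lit 178)))) (XT.nd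 (nat_lit 156) (nat_lit 0) (nat_lit 76) (XT.nd (nat_lit 78) (nat_lit 0) (nat_lit 0) (XT.lf (nat_lit 0) (nat_lit 14617144277) (nat_lit 1748) (nat_lit 4864037269) (nat_lit 1824) (nat_lit 11346371207) (nat_lit 381) (nat_lit 5) (nat_lit 404) (nat_lit 5) (nat_lit 405) (nat_lit 5) (nat_lit 492) (nat_lit 471) (nat_lit 177)) (XT.lf (nat_lit 76) (nat_lit 10260496061) (nat_lit 0) (nat_lit 6410325532) (nat_lit 1824) (nat_lit 14490597807) (nat_lit 382) (nat_lit 5) (nat_lit 381) (nat_lit 5) (nat_lit 405) (nat_lit 5) (nat_lit 493) (nat_lit 471) (nat_lit 176))) (XT.nd (nat_lit 78) (nat_lit 0) (nat_lit 0) (XT.lf (nat_lit 0) (nat_lit 18841542184) (nat_lit 1748) (nat_lit 5794526823) (nat_lit 1824) (nat_lit 6864376178) (nat_lit 382) (nat_lit 5) (nat_lit 405) (nat_lit 5) (nat_lit 406) (nat_lit 5) (nat_lit 494) (nat_lit 471) (nat_lit 175)) (XT.lf (nat_lit 76) (nat_lit 9697244300) (nat_lit 0) (nat_lit 11462053611) (nat_lit 1824) (nat_lit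 10684882338) (nat_lit 383) (nat_lit 5) (nat_lit 382) (nat_lit 5) (nat_lit 406) (nat_lit 5) (nat_lit 495) (nat_lit 471) (nat_lit 174))))) (XT.nd (nat_lit 312) (nat_lit 76) (nat_lit 0) (XT.nd (nat_lit 156) (nat_lit 836) (nat_lit 0) (XT.nd (nat_lit 78) (nat_lit 1444) (nat_lit 0) (XT.lf (nat_lit 0) (nat_lit 23573611275) (nat_lit 1748) (nat_lit 6631209138) (nat_lit 76) (nat_lit 1988966706) (nat_lit 383) (nat_lit 5) (nat_lit 406) (nat_lit 5) (nat_lit 384) (nat_lit 5) (nat_lit 496) (nat_lit 471) (nat_lit 173)) (XT.lf (nat_lit 0) (nat_lit 9238609617) (nat_lit 1444) (nat_lit 16931761525) (nat_lit 1520) (nat_lit 6377332912) (nat_lit 364) (nat_lit 5) (nat_lit 383) (nat_lit 5) (nat_lit 384) (nat_lit 5) (nat_lit 497) (nat_lit 471) (nat_lit 172))) (XT.nd (nat_lit 78) (nat_lit 836) (nat_lit 0) (XT.lf (nat_lit 0) (nat_lit 25514241296) (nat_lit 1444) (nat_lit 3347617609) (nat_lit 1520) (nat_lit 4045985676) (nat_lit 364) (nat_lit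 5) (nat_lit 383) (nat_lit 5) (nat_lit 384) (nat_lit 5) (nat_lit 498) (nat_lit 471) (nat_lit 171)) (XT.lf (nat_lit 0) (nat_lit 8887048232) (nat_lit 836) (nat_lit 22844383814) (nat_lit 912) (nat_lit 1541271848) (nat_lit 353) (nat_lit 5) (nat_lit 364) (nat_lit 5) (nat_lit 365) (nat_lit 5) (nat_lit 499) (nat_lit 471) (nat_lit 170)))) (XT.nd (nat_lit 57252) (nat_lit 0) (nat_lit 3268) (XT.nd (nat_lit 57174) (nat_lit 0) (nat_lit 3268) (XT.lf (nat_lit 0) (nat_lit 1070696758) (nat_lit 912) (nat_lit 8080903660) (nat_lit 76) (nat_lit 24491720347) (nat_lit 352) (nat_lit 5) (nat_lit 364) (nat_lit 5) (nat_lit 353) (nat_lit 5) (nat_lit 500) (nat_lit 471) (nat_lit 169)) (XT.lf (nat_lit 0) (nat_lit 10255117763) (nat_lit 1748) (nat_lit 1205246689) (nat_lit 1748) (nat_lit 1205246689) (nat_lit 395) (nat_lit 3) (nat_lit 418) (nat_lit 3) (nat_lit 418) (nat_lit 5) (nat_lit 472) (nat_lit 472) (nat_lit 196))) (XT.nd (nat_lit 78) (nat_lit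 0) (nat_lit 76) (XT.lf (nat_lit 76) (nat_lit 9353037081) (nat_lit 0) (nat_lit 11521334133) (nat_lit 1748) (nat_lit 4706914598) (nat_lit 396) (nat_lit 5) (nat_lit 395) (nat_lit 3) (nat_lit 418) (nat_lit 5) (nat_lit 473) (nat_lit 472) (nat_lit 195)) (XT.lf (nat_lit 0) (nat_lit 21260181806) (nat_lit 1672) (nat_lit 4453704890) (nat_lit 1748) (nat_lit 122177855) (nat_lit 396) (nat_lit 5) (nat_lit 418) (nat_lit 5) (nat_lit 419) (nat_lit 5) (nat_lit 474) (nat_lit 472) (nat_lit 194))))))))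
noncomputable def xc252 : XT := (XT.nd (nat_lit 59436) (nat_lit 0) (nat_lit 0) (XT.nd (nat_lit 1092) (nat_lit 988) (nat_lit 0) (XT.nd (nat_lit 546) (nat_lit 1444) (nat_lit 0) (XT.nd (nat_lit 234) (nat_lit 0) (nat_lit 76) (XT.nd (nat_lit 78) (nat_lit 0) (nat_lit 0) (XT.lf (nat_lit 76) (nat_lit 7578049282) (nat_lit 0) (nat_lit 14198632696) (nat_lit 1748) (nat_lit 4316799168) (nat_lit 397) (nat_lit 5) (nat_lit 396) (nat_lit 5) (nat_lit 419) (nat_lit 5) (nat_lit 475) (nat_lit 472) (nat_lit 193)) (XT.nd (nat_lit 78) (nat_lit 0) (nat_lit 76) (XT.lf (nat_lit 76) (nat_lit 19909450879) (nat_lit 0) (nat_lit 2421460157) (nat_lit 1748) (nat_lit 4024588775) (nat_lit 397) (nat_lit 5) (nat_lit 396) (nat_lit 5) (nat_lit 419) (nat_lit 5) (nat_lit 476) (nat_lit 472) (nat_lit 192)) (XT.lf (nat_lit 76) (nat_lit 5878152079) (nat_lit 0) (nat_lit 17116078399) (nat_lit 1748) (nat_lit 3626569936) (nat_lit 398) (nat_lit 5) (nat_lit 397)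 (nat_lit 5) (nat_lit 420) (nat_lit 5) (nat_lit 477) (nat_lit 472) (nat_lit 191)))) (XT.nd (nat_lit 156) (nat_lit 0) (nat_lit 76) (XT.nd (nat_lit 78) (nat_lit 0) (nat_lit 76) (XT.lf (nat_lit 76) (nat_lit 18518585067) (nat_lit 0) (nat_lit 5209025147) (nat_lit 1748) (nat_lit 3162662586) (nat_lit 398) (nat_lit 5) (nat_lit 397) (nat_lit 5) (nat_lit 420) (nat_lit 5) (nat_lit 478) (nat_lit 472) (nat_lit 190)) (XT.lf (nat_lit 76) (nat_lit 4256068394) (nat_lit 0) (nat_lit 20289916815) (nat_lit 1748) (nat_lit 2617744488) (nat_lit 399) (nat_lit 5) (nat_lit 398) (nat_lit 5) (nat_lit 421) (nat_lit 5) (nat_lit 479) (nat_lit 472) (nat_lit 189))) (XT.nd (nat_lit 78) (nat_lit 0) (nat_lit 76) (XT.lf (nat_lit 76) (nat_lit 17213505467) (nat_lit 0) (nat_lit 8255367596) (nat_lit 1748) (nat_lit 1972021345) (nat_lit 399) (nat_lit 5) (nat_lit 398) (nat_lit 5) (nat_lit 421) (nat_lit 5) (nat_lit 480) (nat_lit 472) (nat_lit 188)) (XT.lf (nat_lit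 76) (nat_lit 2714566885) (nat_lit 0) (nat_lit 23737124174) (nat_lit 1748) (nat_lit 1271083463) (nat_lit 400) (nat_lit 5) (nat_lit 399) (nat_lit 5) (nat_lit 422) (nat_lit 5) (nat_lit 481) (nat_lit 472) (nat_lit 187))))) (XT.nd (nat_lit 234) (nat_lit 0) (nat_lit 0) (XT.nd (nat_lit 78) (nat_lit 1672) (nat_lit 0) (XT.lf (nat_lit 76) (nat_lit 15997183953) (nat_lit 0) (nat_lit 11577707157) (nat_lit 1748) (nat_lit 432988133) (nat_lit 400) (nat_lit 5) (nat_lit 399) (nat_lit 5) (nat_lit 422) (nat_lit 5) (nat_lit 482) (nat_lit 472) (nat_lit 186)) (XT.nd (nat_lit 78) (nat_lit 0) (nat_lit 0) (XT.lf (nat_lit 0) (nat_lit 427754868) (nat_lit 1748) (nat_lit 27044822003) (nat_lit 1824) (nat_lit 825827500) (nat_lit 377) (nat_lit 5) (nat_lit 400) (nat_lit 5) (nat_lit 401) (nat_lit 5) (nat_lit 483) (nat_lit 472) (nat_lit 185)) (XT.lf (nat_lit 0) (nat_lit 1455574993) (nat_lit 1748) (nat_lit 13728706966) (nat_lit 1824) (nat_lit 13407289037)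 (nat_lit 377) (nat_lit 5) (nat_lit 400) (nat_lit 5) (nat_lit 401) (nat_lit 5) (nat_lit 484) (nat_lit 472) (nat_lit 184)))) (XT.nd (nat_lit 156) (nat_lit 0) (nat_lit 76) (XT.nd (nat_lit 78) (nat_lit 0) (nat_lit 76) (XT.lf (nat_lit 0) (nat_lit 2501842843) (nat_lit 1748) (nat_lit 147698895) (nat_lit 1824) (nat_lit 26241102796) (nat_lit 377) (nat_lit 5) (nat_lit 400) (nat_lit 5) (nat_lit 401) (nat_lit 5) (nat_lit 485) (nat_lit 472) (nat_lit 183)) (XT.lf (nat_lit 0) (nat_lit 3723533827) (nat_lit 1748) (nat_lit 15374708721) (nat_lit 1824) (nat_lit 10094368417) (nat_lit 378) (nat_lit 5) (nat_lit 401) (nat_lit 5) (nat_lit 402) (nat_lit 5) (nat_lit 486) (nat_lit 472) (nat_lit 182))) (XT.nd (nat_lit 78) (nat_lit 0) (nat_lit 76) (XT.lf (nat_lit 0) (nat_lit 4986171313) (nat_lit 1748) (nat_lit 1454770869) (nat_lit 1824) (nat_lit 23059345642) (nat_lit 378) (nat_lit 5) (nat_lit 401) (nat_lit 5) (nat_lit 402) (nat_lit 5) (nat_lit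 487) (nat_lit 472) (nat_lit 181)) (XT.lf (nat_lit 0) (nat_lit 6398462958) (nat_lit 1748) (nat_lit 16943553830) (nat_lit 1824) (nat_lit 6469614731) (nat_lit 379) (nat_lit 5) (nat_lit 402) (nat_lit 5) (nat_lit 403) (nat_lit 5) (nat_lit 488) (nat_lit 472) (nat_lit 180)))))) (XT.nd (nat_lit 546) (nat_lit 1140) (nat_lit 0) (XT.nd (nat_lit 234) (nat_lit 0) (nat_lit 76) (XT.nd (nat_lit 78) (nat_lit 0) (nat_lit 76) (XT.lf (nat_lit 0) (nat_lit 7889524398) (nat_lit 1748) (nat_lit 2676068692) (nat_lit 1824) (nat_lit 19562599818) (nat_lit 379) (nat_lit 5) (nat_lit 402) (nat_lit 5) (nat_lit 403) (nat_lit 5) (nat_lit 489) (nat_lit 472) (nat_lit 179)) (XT.nd (nat_lit 78) (nat_lit 0) (nat_lit 0) (XT.lf (nat_lit 0) (nat_lit 9503148454) (nat_lit 1748) (nat_lit 18432929904) (nat_lit 1824) (nat_lit 2513153613) (nat_lit 380) (nat_lit 5) (nat_lit 403) (nat_lit 5) (nat_lit 404) (nat_lit 5) (nat_lit 490) (nat_lit 472) (nat_lit 178)) (XT.lf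 (nat_lit 0) (nat_lit 11235204392) (nat_lit 1748) (nat_lit 3809076882) (nat_lit 1824) (nat_lit 15730688603) (nat_lit 380) (nat_lit 5) (nat_lit 403) (nat_lit 5) (nat_lit 404) (nat_lit 5) (nat_lit 491) (nat_lit 472) (nat_lit 177)))) (XT.nd (nat_lit 156) (nat_lit 0) (nat_lit 76) (XT.nd (nat_lit 78) (nat_lit 0) (nat_lit 76) (XT.lf (nat_lit 76) (nat_lit 11253422746) (nat_lit 0) (nat_lit 1819692243) (nat_lit 1824) (nat_lit 18032684507) (nat_lit 381) (nat_lit 5) (nat_lit 380) (nat_lit 5) (nat_lit 404) (nat_lit 5) (nat_lit 492) (nat_lit 472) (nat_lit 176)) (XT.lf (nat_lit 0) (nat_lit 15047458058) (nat_lit 1748) (nat_lit 4851315896) (nat_lit 1824) (nat_lit 11542479468) (nat_lit 381) (nat_lit 5) (nat_lit 404) (nat_lit 5) (nat_lit 405) (nat_lit 5) (nat_lit 493) (nat_lit 472) (nat_lit 175))) (XT.nd (nat_lit 78) (nat_lit 0) (nat_lit 76) (XT.lf (nat_lit 76) (nat_lit 10574984402) (nat_lit 0) (nat_lit 6565228714) (nat_lit 1824)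 (nat_lit 14641625984) (nat_lit 382) (nat_lit 5) (nat_lit 381) (nat_lit 5) (nat_lit 405) (nat_lit 5) (nat_lit 494) (nat_lit 472) (nat_lit 174)) (XT.lf (nat_lit 0) (nat_lit 19351512008) (nat_lit 1748) (nat_lit 5800358106) (nat_lit 1824) (nat_lit 6975833760) (nat_lit 382) (nat_lit 5) (nat_lit 405) (nat_lit 5) (nat_lit 406) (nat_lit 5) (nat_lit 495) (nat_lit 472) (nat_lit 173))))) (XT.nd (nat_lit 234) (nat_lit 0) (nat_lit 0) (XT.nd (nat_lit 78) (nat_lit 1368) (nat_lit 0) (XT.lf (nat_lit 76) (nat_lit 10000524366) (nat_lit 0) (nat_lit 11713197791) (nat_lit 1824) (nat_lit 10764631210) (nat_lit 383) (nat_lit 5) (nat_lit 382) (nat_lit 5) (nat_lit 406) (nat_lit 5) (nat_lit 496) (nat_lit 472) (nat_lit 172)) (XT.nd (nat_lit 78) (nat_lit 1444) (nat_lit 0) (XT.lf (nat_lit 0) (nat_lit 24173609068) (nat_lit 1748) (nat_lit 6653845206) (nat_lit 76) (nat_lit 2007554036) (nat_lit 383) (nat_lit 5) (nat_lit 406) (nat_lit 5) (nat_lit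 384) (nat_lit 5) (nat_lit 497) (nat_lit 472) (nat_lit 171)) (XT.lf (nat_lit 0) (nat_lit 9532646318) (nat_lit 1444) (nat_lit 17287847122) (nat_lit 1520) (nat_lit 6375548004) (nat_lit 364) (nat_lit 5) (nat_lit 383) (nat_lit 5) (nat_lit 384) (nat_lit 5) (nat_lit 498) (nat_lit 472) (nat_lit 170)))) (XT.nd (nat_lit 57408) (nat_lit 0) (nat_lit 2356) (XT.nd (nat_lit 57330) (nat_lit 0) (nat_lit 2356) (XT.lf (nat_lit 0) (nat_lit 26131648189) (nat_lit 1444) (nat_lit 3431678165) (nat_lit 1520) (nat_lit 4000109736) (nat_lit 364) (nat_lit 5) (nat_lit 383) (nat_lit 5) (nat_lit 384) (nat_lit 5) (nat_lit 499) (nat_lit 472) (nat_lit 169)) (XT.lf (nat_lit 0) (nat_lit 10557889055) (nat_lit 1748) (nat_lit 1179506672) (nat_lit 1748) (nat_lit 1179506672) (nat_lit 395) (nat_lit 3) (nat_lit 418) (nat_lit 3) (nat_lit 418) (nat_lit 5) (nat_lit 473) (nat_lit 473) (nat_lit 194))) (XT.nd (nat_lit 78) (nat_lit 0) (nat_lit 76) (XT.lf (nat_lit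 76) (nat_lit 9639131870) (nat_lit 0) (nat_lit 11844877482) (nat_lit 1748) (nat_lit 4604926638) (nat_lit 396) (nat_lit 5) (nat_lit 395) (nat_lit 3) (nat_lit 418) (nat_lit 5) (nat_lit 474) (nat_lit 473) (nat_lit 193)) (XT.lf (nat_lit 0) (nat_lit 21873175774) (nat_lit 1672) (nat_lit 4441196477) (nat_lit 1748) (nat_lit 34527859) (nat_lit 396) (nat_lit 5) (nat_lit 418) (nat_lit 5) (nat_lit 419) (nat_lit 5) (nat_lit 475) (nat_lit 473) (nat_lit 192))))))) (XT.nd (nat_lit 1092) (nat_lit 988) (nat_lit 0) (XT.nd (nat_lit 546) (nat_lit 1444) (nat_lit 0) (XT.nd (nat_lit 234) (nat_lit 0) (nat_lit 76) (XT.nd (nat_lit 78) (nat_lit 0) (nat_lit 0) (XT.lf (nat_lit 76) (nat_lit 7830524472) (nat_lit 0) (nat_lit 14566454516) (nat_lit 1748) (nat_lit 4214549136) (nat_lit 397) (nat_lit 5) (nat_lit 396) (nat_lit 5) (nat_lit 419) (nat_lit 5) (nat_lit 476) (nat_lit 473) (nat_lit 191)) (XT.nd (nat_lit 78) (nat_lit 0) (nat_lit 76) (XT.lf (nat_lit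 76) (nat_lit 20406575392) (nat_lit 0) (nat_lit 2552094424) (nat_lit 1748) (nat_lit 3920192300) (nat_lit 397) (nat_lit 5) (nat_lit 396) (nat_lit 5) (nat_lit 419) (nat_lit 5) (nat_lit 477) (nat_lit 473) (nat_lit 190)) (XT.lf (nat_lit 76) (nat_lit 6098252979) (nat_lit 0) (nat_lit 17533593372) (nat_lit 1748) (nat_lit 3517693015) (nat_lit 398) (nat_lit 5) (nat_lit 397) (nat_lit 5) (nat_lit 420) (nat_lit 5) (nat_lit 478) (nat_lit 473) (nat_lit 189)))) (XT.nd (nat_lit 156) (nat_lit 0) (nat_lit 76) (XT.nd (nat_lit 78) (nat_lit 0) (nat_lit 76) (XT.lf (nat_lit 76) (nat_lit 18989484080) (nat_lit 0) (nat_lit 5386924675) (nat_lit 1748) (nat_lit 3048064544) (nat_lit 398) (nat_lit 5) (nat_lit 397) (nat_lit 5) (nat_lit 420) (nat_lit 5) (nat_lit 479) (nat_lit 473) (nat_lit 188)) (XT.lf (nat_lit 76) (nat_lit 4445112434) (nat_lit 0) (nat_lit 20762827707) (nat_lit 1748) (nat_lit 2495525768) (nat_lit 399) (nat_lit 5) (nat_lit 398)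 (nat_lit 5) (nat_lit 421) (nat_lit 5) (nat_lit 480) (nat_lit 473) (nat_lit 187))) (XT.nd (nat_lit 78) (nat_lit 0) (nat_lit 76) (XT.lf (nat_lit 76) (nat_lit 17659660549) (nat_lit 0) (nat_lit 8486271572) (nat_lit 1748) (nat_lit 1840311174) (nat_lit 399) (nat_lit 5) (nat_lit 398) (nat_lit 5) (nat_lit 421) (nat_lit 5) (nat_lit 481) (nat_lit 473) (nat_lit 186)) (XT.lf (nat_lit 76) (nat_lit 2873943463) (nat_lit 0) (nat_lit 24271438602) (nat_lit 1748) (nat_lit 1128441694) (nat_lit 400) (nat_lit 5) (nat_lit 399) (nat_lit 5) (nat_lit 422) (nat_lit 5) (nat_lit 482) (nat_lit 473) (nat_lit 185))))) (XT.nd (nat_lit 234) (nat_lit 0) (nat_lit 0) (XT.nd (nat_lit 78) (nat_lit 1672) (nat_lit 0) (XT.lf (nat_lit 76) (nat_lit 16420152379) (nat_lit 0) (nat_lit 11867665168) (nat_lit 1748) (nat_lit 276879820) (nat_lit 400) (nat_lit 5) (nat_lit 399) (nat_lit 5) (nat_lit 422) (nat_lit 5) (nat_lit 483) (nat_lit 473) (nat_lit 184)) (XT.nd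 (nat_lit 78) (nat_lit 0) (nat_lit 0) (XT.lf (nat_lit 0) (nat_lit 596047529) (nat_lit 1748) (nat_lit 27477447885) (nat_lit 1824) (nat_lit 787575709) (nat_lit 377) (nat_lit 5) (nat_lit 400) (nat_lit 5) (nat_lit 401) (nat_lit 5) (nat_lit 484) (nat_lit 473) (nat_lit 183)) (XT.lf (nat_lit 0) (nat_lit 1641291948) (nat_lit 1748) (nat_lit 13897133499) (nat_lit 1824) (nat_lit 13621740366) (nat_lit 377) (nat_lit 5) (nat_lit 400) (nat_lit 5) (nat_lit 401) (nat_lit 5) (nat_lit 485) (nat_lit 473) (nat_lit 182)))) (XT.nd (nat_lit 156) (nat_lit 0) (nat_lit 76) (XT.nd (nat_lit 78) (nat_lit 0) (nat_lit 76) (XT.lf (nat_lit 0) (nat_lit 2705414459) (nat_lit 1748) (nat_lit 46586592) (nat_lit 1824) (nat_lit 26713283232) (nat_lit 377) (nat_lit 5) (nat_lit 400) (nat_lit 5) (nat_lit 401) (nat_lit 5) (nat_lit 486) (nat_lit 473) (nat_lit 181)) (XT.lf (nat_lit 0) (nat_lit 3948889561) (nat_lit 1748) (nat_lit 15575386476) (nat_lit 1824) (nat_lit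 10249069010) (nat_lit 378) (nat_lit 5) (nat_lit 401) (nat_lit 5) (nat_lit 402) (nat_lit 5) (nat_lit 487) (nat_lit 473) (nat_lit 180))) (XT.nd (nat_lit 78) (nat_lit 0) (nat_lit 76) (XT.lf (nat_lit 0) (nat_lit 5233821266) (nat_lit 1748) (nat_lit 1379144307) (nat_lit 1824) (nat_lit 23474271011) (nat_lit 378) (nat_lit 5) (nat_lit 401) (nat_lit 5) (nat_lit 402) (nat_lit 5) (nat_lit 488) (nat_lit 473) (nat_lit 179)) (XT.lf (nat_lit 0) (nat_lit 6671863136) (nat_lit 1748) (nat_lit 17175110783) (nat_lit 1824) (nat_lit 6557885076) (nat_lit 379) (nat_lit 5) (nat_lit 402) (nat_lit 5) (nat_lit 403) (nat_lit 5) (nat_lit 489) (nat_lit 473) (nat_lit 178)))))) (XT.nd (nat_lit 546) (nat_lit 1140) (nat_lit 0) (XT.nd (nat_lit 234) (nat_lit 0) (nat_lit 76) (XT.nd (nat_lit 78) (nat_lit 0) (nat_lit 76) (XT.lf (nat_lit 0) (nat_lit 8189894218) (nat_lit 1748) (nat_lit 2624380140) (nat_lit 1824) (nat_lit 19913536178) (nat_lit 379) (nat_lit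 5) (nat_lit 402) (nat_lit 5) (nat_lit 403) (nat_lit 5) (nat_lit 490) (nat_lit 473) (nat_lit 177)) (XT.nd (nat_lit 78) (nat_lit 0) (nat_lit 0) (XT.lf (nat_lit 0) (nat_lit 9833440305) (nat_lit 1748) (nat_lit 18693935338) (nat_lit 1824) (nat_lit 2527943602) (nat_lit 380) (nat_lit 5) (nat_lit 403) (nat_lit 5) (nat_lit 404) (nat_lit 5) (nat_lit 491) (nat_lit 473) (nat_lit 176)) (XT.lf (nat_lit 0) (nat_lit 11597387776) (nat_lit 1748) (nat_lit 3779716102) (nat_lit 1824) (nat_lit 16010524842) (nat_lit 380) (nat_lit 5) (nat_lit 403) (nat_lit 5) (nat_lit 404) (nat_lit 5) (nat_lit 492) (nat_lit 473) (nat_lit 175)))) (XT.nd (nat_lit 156) (nat_lit 0) (nat_lit 76) (XT.nd (nat_lit 78) (nat_lit 0) (nat_lit 76) (XT.lf (nat_lit 76) (nat_lit 11583339161) (nat_lit 0) (nat_lit 1886702493) (nat_lit 1824) (nat_lit 18255075359) (nat_lit 381) (nat_lit 5) (nat_lit 380) (nat_lit 5) (nat_lit 404) (nat_lit 5) (nat_lit 493) (nat_lit 473) (nat_lit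 174)) (XT.lf (nat_lit 0) (nat_lit 15481020536) (nat_lit 1748) (nat_lit 4842611612) (nat_lit 1824) (nat_lit 11743706639) (nat_lit 381) (nat_lit 5) (nat_lit 404) (nat_lit 5) (nat_lit 405) (nat_lit 5) (nat_lit 494) (nat_lit 473) (nat_lit 173))) (XT.nd (nat_lit 78) (nat_lit 0) (nat_lit 76) (XT.lf (nat_lit 76) (nat_lit 10891519096) (nat_lit 0) (nat_lit 6722193296) (nat_lit 1824) (nat_lit 14801063869) (nat_lit 382) (nat_lit 5) (nat_lit 381) (nat_lit 5) (nat_lit 405) (nat_lit 5) (nat_lit 495) (nat_lit 473) (nat_lit 172)) (XT.lf (nat_lit 0) (nat_lit 19866511279) (nat_lit 1748) (nat_lit 5810579748) (nat_lit 1824) (nat_lit 7090523502) (nat_lit 382) (nat_lit 5) (nat_lit 405) (nat_lit 5) (nat_lit 406) (nat_lit 5) (nat_lit 496) (nat_lit 473) (nat_lit 171))))) (XT.nd (nat_lit 57642) (nat_lit 0) (nat_lit 2356) (XT.nd (nat_lit 156) (nat_lit 1368) (nat_lit 0) (XT.nd (nat_lit 78) (nat_lit 0) (nat_lit 76) (XT.lf (nat_lit 76) (nat_lit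 10305624416) (nat_lit 0) (nat_lit 11968514331) (nat_lit 1824) (nat_lit 10851176453) (nat_lit 383) (nat_lit 5) (nat_lit 382) (nat_lit 5) (nat_lit 406) (nat_lit 5) (nat_lit 497) (nat_lit 473) (nat_lit 170)) (XT.lf (nat_lit 0) (nat_lit 24780616012) (nat_lit 1748) (nat_lit 6681204968) (nat_lit 76) (nat_lit 2027336023) (nat_lit 383) (nat_lit 5) (nat_lit 406) (nat_lit 5) (nat_lit 384) (nat_lit 5) (nat_lit 498) (nat_lit 473) (nat_lit 169))) (XT.nd (nat_lit 57408) (nat_lit 0) (nat_lit 2356) (XT.lf (nat_lit 0) (nat_lit 9828320879) (nat_lit 1444) (nat_lit 17650376813) (nat_lit 1520) (nat_lit 6378749500) (nat_lit 364) (nat_lit 5) (nat_lit 383) (nat_lit 5) (nat_lit 384) (nat_lit 5) (nat_lit 499) (nat_lit 473) (nat_lit 168)) (XT.lf (nat_lit 0) (nat_lit 10862923169) (nat_lit 1748) (nat_lit 1155187394) (nat_lit 1748) (nat_lit 1155187394) (nat_lit 395) (nat_lit 3) (nat_lit 418) (nat_lit 3) (nat_lit 418) (nat_lit 5) (nat_lit 474)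 (nat_lit 474) (nat_lit 192)))) (XT.nd (nat_lit 156) (nat_lit 0) (nat_lit 76) (XT.nd (nat_lit 78) (nat_lit 0) (nat_lit 0) (XT.lf (nat_lit 76) (nat_lit 9927102943) (nat_lit 0) (nat_lit 12171275864) (nat_lit 1748) (nat_lit 4508514741) (nat_lit 396) (nat_lit 5) (nat_lit 395) (nat_lit 3) (nat_lit 418) (nat_lit 5) (nat_lit 475) (nat_lit 474) (nat_lit 191)) (XT.lf (nat_lit 76) (nat_lit 22439416035) (nat_lit 0) (nat_lit 52059463) (nat_lit 1748) (nat_lit 4380661010) (nat_lit 396) (nat_lit 5) (nat_lit 395) (nat_lit 3) (nat_lit 418) (nat_lit 5) (nat_lit 476) (nat_lit 474) (nat_lit 190))) (XT.nd (nat_lit 78) (nat_lit 0) (nat_lit 0) (XT.lf (nat_lit 76) (nat_lit 8084130545) (nat_lit 0) (nat_lit 14938376806) (nat_lit 1748) (nat_lit 4117577128) (nat_lit 397) (nat_lit 5) (nat_lit 396) (nat_lit 5) (nat_lit 419) (nat_lit 5) (nat_lit 477) (nat_lit 474) (nat_lit 189)) (XT.lf (nat_lit 76) (nat_lit 20909800609) (nat_lit 0) (nat_lit 2682149254)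 (nat_lit 1748) (nat_lit 3820887331) (nat_lit 397) (nat_lit 5) (nat_lit 396) (nat_lit 5) (nat_lit 419) (nat_lit 5) (nat_lit 478) (nat_lit 474) (nat_lit 188))))))))
noncomputable def xc253 : XT := (XT.nd (nat_lit 59748) (nat_lit 76) (nat_lit 0) (XT.nd (nat_lit 1092) (nat_lit 0) (nat_lit 228) (XT.nd (nat_lit 546) (nat_lit 0) (nat_lit 0) (XT.nd (nat_lit 234) (nat_lit 1520) (nat_lit 0) (XT.nd (nat_lit 78) (nat_lit 0) (nat_lit 0) (XT.lf (nat_lit 76) (nat_lit 6318774226) (nat_lit 0) (nat_lit 17956538793) (nat_lit 1748) (nat_lit 3413682862) (nat_lit 398) (nat_lit 5) (nat_lit 397) (nat_lit 5) (nat_lit 420) (nat_lit 5) (nat_lit 479) (nat_lit 474) (nat_lit 187)) (XT.nd (nat_lit 78) (nat_lit 0) (nat_lit 76) (XT.lf (nat_lit 76) (nat_lit 19465897475) (nat_lit 0) (nat_lit 5565519593) (nat_lit 1748) (nat_lit 2938080724) (nat_lit 398) (nat_lit 5) (nat_lit 397) (nat_lit 5) (nat_lit 420) (nat_lit 5) (nat_lit 480) (nat_lit 474) (nat_lit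 186)) (XT.lf (nat_lit 76) (nat_lit 4633901911) (nat_lit 0) (nat_lit 21242590755) (nat_lit 1748) (nat_lit 2377641579) (nat_lit 399) (nat_lit 5) (nat_lit 398) (nat_lit 5) (nat_lit 421) (nat_lit 5) (nat_lit 481) (nat_lit 474) (nat_lit 185)))) (XT.nd (nat_lit 156) (nat_lit 1596) (nat_lit 0) (XT.nd (nat_lit 78) (nat_lit 0) (nat_lit 76) (XT.lf (nat_lit 76) (nat_lit 18110782415) (nat_lit 0) (nat_lit 8719238664) (nat_lit 1748) (nat_lit 1712612786) (nat_lit 399) (nat_lit 5) (nat_lit 398) (nat_lit 5) (nat_lit 421) (nat_lit 5) (nat_lit 482) (nat_lit 474) (nat_lit 184)) (XT.lf (nat_lit 76) (nat_lit 3032426986) (nat_lit 0) (nat_lit 24814126068) (nat_lit 1748) (nat_lit 989473199) (nat_lit 400) (nat_lit 5) (nat_lit 399) (nat_lit 5) (nat_lit 422) (nat_lit 5) (nat_lit 483) (nat_lit 474) (nat_lit 183))) (XT.nd (nat_lit 78) (nat_lit 1672) (nat_lit 0) (XT.lf (nat_lit 76) (nat_lit 16847579596) (nat_lit 0) (nat_lit 12161154446) (nat_lit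 1748) (nat_lit 124047485) (nat_lit 400) (nat_lit 5) (nat_lit 399) (nat_lit 5) (nat_lit 422) (nat_lit 5) (nat_lit 484) (nat_lit 474) (nat_lit 182)) (XT.lf (nat_lit 0) (nat_lit 761503239) (nat_lit 1748) (nat_lit 27922930562) (nat_lit 1824) (nat_lit 750685604) (nat_lit 377) (nat_lit 5) (nat_lit 400) (nat_lit 5) (nat_lit 401) (nat_lit 5) (nat_lit 485) (nat_lit 474) (nat_lit 181))))) (XT.nd (nat_lit 234) (nat_lit 0) (nat_lit 76) (XT.nd (nat_lit 78) (nat_lit 0) (nat_lit 0) (XT.lf (nat_lit 0) (nat_lit 1824642061) (nat_lit 1748) (nat_lit 14073050404) (nat_lit 1824) (nat_lit 13842565742) (nat_lit 377) (nat_lit 5) (nat_lit 400) (nat_lit 5) (nat_lit 401) (nat_lit 5) (nat_lit 486) (nat_lit 474) (nat_lit 180)) (XT.nd (nat_lit 78) (nat_lit 0) (nat_lit 76) (XT.lf (nat_lit 76) (nat_lit 53204724) (nat_lit 0) (nat_lit 2854236282) (nat_lit 1824) (nat_lit 27144092131) (nat_lit 378) (nat_lit 5) (nat_lit 377) (nat_lit 5) (nat_lit 401)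 (nat_lit 5) (nat_lit 487) (nat_lit 474) (nat_lit 179)) (XT.lf (nat_lit 0) (nat_lit 4172893358) (nat_lit 1748) (nat_lit 15784225598) (nat_lit 1824) (nat_lit 10408695936) (nat_lit 378) (nat_lit 5) (nat_lit 401) (nat_lit 5) (nat_lit 402) (nat_lit 5) (nat_lit 488) (nat_lit 474) (nat_lit 178)))) (XT.nd (nat_lit 156) (nat_lit 0) (nat_lit 76) (XT.nd (nat_lit 78) (nat_lit 0) (nat_lit 76) (XT.lf (nat_lit 0) (nat_lit 5480680050) (nat_lit 1748) (nat_lit 1306071695) (nat_lit 1824) (nat_lit 23899291279) (nat_lit 378) (nat_lit 5) (nat_lit 401) (nat_lit 5) (nat_lit 402) (nat_lit 5) (nat_lit 489) (nat_lit 474) (nat_lit 177)) (XT.lf (nat_lit 0) (nat_lit 6945084058) (nat_lit 1748) (nat_lit 17415466012) (nat_lit 1824) (nat_lit 6649517644) (nat_lit 379) (nat_lit 5) (nat_lit 402) (nat_lit 5) (nat_lit 403) (nat_lit 5) (nat_lit 490) (nat_lit 474) (nat_lit 176))) (XT.nd (nat_lit 78) (nat_lit 0) (nat_lit 76) (XT.lf (nat_lit 0) (nat_lit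 8490734905) (nat_lit 1748) (nat_lit 2575743247) (nat_lit 1824) (nat_lit 20273056771) (nat_lit 379) (nat_lit 5) (nat_lit 402) (nat_lit 5) (nat_lit 403) (nat_lit 5) (nat_lit 491) (nat_lit 474) (nat_lit 175)) (XT.lf (nat_lit 0) (nat_lit 10164892734) (nat_lit 1748) (nat_lit 18964341185) (nat_lit 1824) (nat_lit 2544406854) (nat_lit 380) (nat_lit 5) (nat_lit 403) (nat_lit 5) (nat_lit 404) (nat_lit 5) (nat_lit 492) (nat_lit 474) (nat_lit 174)))))) (XT.nd (nat_lit 58110) (nat_lit 0) (nat_lit 1140) (XT.nd (nat_lit 234) (nat_lit 0) (nat_lit 76) (XT.nd (nat_lit 78) (nat_lit 0) (nat_lit 0) (XT.lf (nat_lit 0) (nat_lit 11961476339) (nat_lit 1748) (nat_lit 3753866443) (nat_lit 1824) (nat_lit 16297308260) (nat_lit 380) (nat_lit 5) (nat_lit 403) (nat_lit 5) (nat_lit 404) (nat_lit 5) (nat_lit 493) (nat_lit 474) (nat_lit 173)) (XT.nd (nat_lit 78) (nat_lit 0) (nat_lit 76) (XT.lf (nat_lit 76) (nat_lit 11915782530) (nat_lit 0) (nat_lit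 1953864077) (nat_lit 1824) (nat_lit 18487282943) (nat_lit 381) (nat_lit 5) (nat_lit 380) (nat_lit 5) (nat_lit 404) (nat_lit 5) (nat_lit 494) (nat_lit 474) (nat_lit 172)) (XT.lf (nat_lit 0) (nat_lit 15918104728) (nat_lit 1748) (nat_lit 4837838890) (nat_lit 1824) (nat_lit 11950108629) (nat_lit 381) (nat_lit 5) (nat_lit 404) (nat_lit 5) (nat_lit 405) (nat_lit 5) (nat_lit 495) (nat_lit 474) (nat_lit 171)))) (XT.nd (nat_lit 57720) (nat_lit 0) (nat_lit 1064) (XT.nd (nat_lit 156) (nat_lit 0) (nat_lit 76) (XT.lf (nat_lit 76) (nat_lit 11210305847) (nat_lit 0) (nat_lit 6881300760) (nat_lit 1824) (nat_lit 14968870387) (nat_lit 382) (nat_lit 5) (nat_lit 381) (nat_lit 5) (nat_lit 405) (nat_lit 5) (nat_lit 496) (nat_lit 474) (nat_lit 170)) (XT.lf (nat_lit 76) (nat_lit 10612745710) (nat_lit 0) (nat_lit 12228119703) (nat_lit 1824) (nat_lit 10944452018) (nat_lit 383) (nat_lit 5) (nat_lit 382) (nat_lit 5) (nat_lit 406) (nat_lit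 5) (nat_lit 498) (nat_lit 474) (nat_lit 168))) (XT.nd (nat_lit 78) (nat_lit 0) (nat_lit 0) (XT.lf (nat_lit 0) (nat_lit 11170412633) (nat_lit 1748) (nat_lit 1132242112) (nat_lit 1748) (nat_lit 1132242112) (nat_lit 395) (nat_lit 3) (nat_lit 418) (nat_lit 3) (nat_lit 418) (nat_lit 5) (nat_lit 475) (nat_lit 475) (nat_lit 190)) (XT.lf (nat_lit 76) (nat_lit 10217137154) (nat_lit 0) (nat_lit 12500726786) (nat_lit 1748) (nat_lit 4417494695) (nat_lit 396) (nat_lit 5) (nat_lit 395) (nat_lit 3) (nat_lit 418) (nat_lit 5) (nat_lit 476) (nat_lit 475) (nat_lit 189))))) (XT.nd (nat_lit 234) (nat_lit 0) (nat_lit 152) (XT.nd (nat_lit 78) (nat_lit 0) (nat_lit 76) (XT.lf (nat_lit 76) (nat_lit 22977902544) (nat_lit 0) (nat_lit 137439285) (nat_lit 1748) (nat_lit 4290636641) (nat_lit 396) (nat_lit 5) (nat_lit 395) (nat_lit 3) (nat_lit 418) (nat_lit 5) (nat_lit 477) (nat_lit 475) (nat_lit 188)) (XT.nd (nat_lit 78) (nat_lit 0) (nat_lit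 0) (XT.lf (nat_lit 76) (nat_lit 8339042283) (nat_lit 0) (nat_lit 15314608010) (nat_lit 1748) (nat_lit 4025704343) (nat_lit 397) (nat_lit 5) (nat_lit 396) (nat_lit 5) (nat_lit 419) (nat_lit 5) (nat_lit 478) (nat_lit 475) (nat_lit 187)) (XT.lf (nat_lit 76) (nat_lit 21419397726) (nat_lit 0) (nat_lit 2811737011) (nat_lit 1748) (nat_lit 3726496913) (nat_lit 397) (nat_lit 5) (nat_lit 396) (nat_lit 5) (nat_lit 419) (nat_lit 5) (nat_lit 479) (nat_lit 475) (nat_lit 186)))) (XT.nd (nat_lit 156) (nat_lit 0) (nat_lit 76) (XT.nd (nat_lit 78) (nat_lit 0) (nat_lit 0) (XT.lf (nat_lit 76) (nat_lit 6539878841) (nat_lit 0) (nat_lit 18385136652) (nat_lit 1748) (nat_lit 3314363273) (nat_lit 398) (nat_lit 5) (nat_lit 397) (nat_lit 5) (nat_lit 420) (nat_lit 5) (nat_lit 480) (nat_lit 475) (nat_lit 185)) (XT.lf (nat_lit 76) (nat_lit 19948087121) (nat_lit 0) (nat_lit 5744934969) (nat_lit 1748) (nat_lit 2832535234) (nat_lit 398) (nat_lit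 5) (nat_lit 397) (nat_lit 5) (nat_lit 420) (nat_lit 5) (nat_lit 481) (nat_lit 475) (nat_lit 184))) (XT.nd (nat_lit 78) (nat_lit 0) (nat_lit 0) (XT.lf (nat_lit 76) (nat_lit 4822588435) (nat_lit 0) (nat_lit 21729444198) (nat_lit 1748) (nat_lit 2263915379) (nat_lit 399) (nat_lit 5) (nat_lit 398) (nat_lit 5) (nat_lit 421) (nat_lit 5) (nat_lit 482) (nat_lit 475) (nat_lit 183)) (XT.lf (nat_lit 76) (nat_lit 18567124029) (nat_lit 0) (nat_lit 8954409347) (nat_lit 1748) (nat_lit 1588748344) (nat_lit 399) (nat_lit 5) (nat_lit 398) (nat_lit 5) (nat_lit 421) (nat_lit 5) (nat_lit 483) (nat_lit 475) (nat_lit 182))))))) (XT.nd (nat_lit 58734) (nat_lit 0) (nat_lit 0) (XT.nd (nat_lit 546) (nat_lit 0) (nat_lit 228) (XT.nd (nat_lit 234) (nat_lit 0) (nat_lit 76) (XT.nd (nat_lit 78) (nat_lit 1748) (nat_lit 0) (XT.lf (nat_lit 76) (nat_lit 3190158045) (nat_lit 0) (nat_lit 25365443858) (nat_lit 1748) (nat_lit 853998024) (nat_lit 400) (nat_lit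 5) (nat_lit 399) (nat_lit 5) (nat_lit 422) (nat_lit 5) (nat_lit 484) (nat_lit 475) (nat_lit 181)) (XT.nd (nat_lit 78) (nat_lit 0) (nat_lit 76) (XT.lf (nat_lit 0) (nat_lit 25354845) (nat_lit 1748) (nat_lit 12432808691) (nat_lit 1824) (nat_lit 17254185139) (nat_lit 376) (nat_lit 5) (nat_lit 399) (nat_lit 5) (nat_lit 400) (nat_lit 5) (nat_lit 485) (nat_lit 475) (nat_lit 180)) (XT.lf (nat_lit 0) (nat_lit 924306122) (nat_lit 1748) (nat_lit 28381363914) (nat_lit 1824) (nat_lit 715101834) (nat_lit 377) (nat_lit 5) (nat_lit 400) (nat_lit 5) (nat_lit 401) (nat_lit 5) (nat_lit 486) (nat_lit 475) (nat_lit 179)))) (XT.nd (nat_lit 156) (nat_lit 0) (nat_lit 76) (XT.nd (nat_lit 78) (nat_lit 0) (nat_lit 0) (XT.lf (nat_lit 0) (nat_lit 2005814135) (nat_lit 1748) (nat_lit 14256447432) (nat_lit 1824) (nat_lit 14069811683) (nat_lit 377) (nat_lit 5) (nat_lit 400) (nat_lit 5) (nat_lit 401) (nat_lit 5) (nat_lit 487) (nat_lit 475) (nat_lit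 178)) (XT.lf (nat_lit 76) (nat_lit 151687641) (nat_lit 0) (nat_lit 2956377078) (nat_lit 1824) (nat_lit 27541554939) (nat_lit 378) (nat_lit 5) (nat_lit 377) (nat_lit 5) (nat_lit 401) (nat_lit 5) (nat_lit 488) (nat_lit 475) (nat_lit 177))) (XT.nd (nat_lit 78) (nat_lit 0) (nat_lit 0) (XT.lf (nat_lit 0) (nat_lit 4395745695) (nat_lit 1748) (nat_lit 16001228249) (nat_lit 1824) (nat_lit 10573276568) (nat_lit 378) (nat_lit 5) (nat_lit 401) (nat_lit 5) (nat_lit 402) (nat_lit 5) (nat_lit 489) (nat_lit 475) (nat_lit 176)) (XT.lf (nat_lit 0) (nat_lit 5726954896) (nat_lit 1748) (nat_lit 1235446207) (nat_lit 1824) (nat_lit 24334538589) (nat_lit 378) (nat_lit 5) (nat_lit 401) (nat_lit 5) (nat_lit 402) (nat_lit 5) (nat_lit 490) (nat_lit 475) (nat_lit 175))))) (XT.nd (nat_lit 234) (nat_lit 0) (nat_lit 76) (XT.nd (nat_lit 78) (nat_lit 0) (nat_lit 0) (XT.lf (nat_lit 0) (nat_lit 7218341428) (nat_lit 1748) (nat_lit 17664633670) (nat_lit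 1824) (nat_lit 6744517672) (nat_lit 379) (nat_lit 5) (nat_lit 402) (nat_lit 5) (nat_lit 403) (nat_lit 5) (nat_lit 491) (nat_lit 475) (nat_lit 174)) (XT.nd (nat_lit 78) (nat_lit 0) (nat_lit 76) (XT.lf (nat_lit 0) (nat_lit 8792270867) (nat_lit 1748) (nat_lit 2530060403) (nat_lit 1824) (nat_lit 20641272490) (nat_lit 379) (nat_lit 5) (nat_lit 402) (nat_lit 5) (nat_lit 403) (nat_lit 5) (nat_lit 492) (nat_lit 475) (nat_lit 173)) (XT.lf (nat_lit 0) (nat_lit 10497740400) (nat_lit 1748) (nat_lit 19244173126) (nat_lit 1824) (nat_lit 2562523345) (nat_lit 380) (nat_lit 5) (nat_lit 403) (nat_lit 5) (nat_lit 404) (nat_lit 5) (nat_lit 493) (nat_lit 475) (nat_lit 172)))) (XT.nd (nat_lit 156) (nat_lit 0) (nat_lit 76) (XT.nd (nat_lit 78) (nat_lit 0) (nat_lit 0) (XT.lf (nat_lit 0) (nat_lit 12327715485) (nat_lit 1748) (nat_lit 3731438985) (nat_lit 1824) (nat_lit 16591125361) (nat_lit 380) (nat_lit 5) (nat_lit 403) (nat_lit 5) (nat_lit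 404) (nat_lit 5) (nat_lit 494) (nat_lit 475) (nat_lit 171)) (XT.lf (nat_lit 76) (nat_lit 12250961489) (nat_lit 0) (nat_lit 2021226185) (nat_lit 1824) (nat_lit 18729295111) (nat_lit 381) (nat_lit 5) (nat_lit 380) (nat_lit 5) (nat_lit 404) (nat_lit 5) (nat_lit 495) (nat_lit 475) (nat_lit 170))) (XT.nd (nat_lit 78) (nat_lit 0) (nat_lit 0) (XT.lf (nat_lit 0) (nat_lit 16358981029) (nat_lit 1748) (nat_lit 4836916935) (nat_lit 1824) (nat_lit 12161744266) (nat_lit 381) (nat_lit 5) (nat_lit 404) (nat_lit 5) (nat_lit 405) (nat_lit 5) (nat_lit 496) (nat_lit 475) (nat_lit 169)) (XT.lf (nat_lit 76) (nat_lit 11531548074) (nat_lit 0) (nat_lit 7042632656) (nat_lit 1824) (nat_lit 15145011771) (nat_lit 382) (nat_lit 5) (nat_lit 381) (nat_lit 5) (nat_lit 405) (nat_lit 5) (nat_lit 497) (nat_lit 475) (nat_lit 168)))))) (XT.nd (nat_lit 546) (nat_lit 1444) (nat_lit 0) (XT.nd (nat_lit 234) (nat_lit 0) (nat_lit 76) (XT.nd (nat_lit 78)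 (nat_lit 0) (nat_lit 0) (XT.lf (nat_lit 0) (nat_lit 11480548106) (nat_lit 1748) (nat_lit 1110626064) (nat_lit 1748) (nat_lit 1110626064) (nat_lit 395) (nat_lit 3) (nat_lit 418) (nat_lit 3) (nat_lit 418) (nat_lit 5) (nat_lit 476) (nat_lit 476) (nat_lit 188)) (XT.nd (nat_lit 78) (nat_lit 0) (nat_lit 0) (XT.lf (nat_lit 76) (nat_lit 10509419297) (nat_lit 0) (nat_lit 12833426257) (nat_lit 1748) (nat_lit 4331690090) (nat_lit 396) (nat_lit 5) (nat_lit 395) (nat_lit 3) (nat_lit 418) (nat_lit 5) (nat_lit 477) (nat_lit 476) (nat_lit 187)) (XT.lf (nat_lit 76) (nat_lit 23523675694) (nat_lit 0) (nat_lit 221251732) (nat_lit 1748) (nat_lit 4205709669) (nat_lit 396) (nat_lit 5) (nat_lit 395) (nat_lit 3) (nat_lit 418) (nat_lit 5) (nat_lit 478) (nat_lit 476) (nat_lit 186)))) (XT.nd (nat_lit 156) (nat_lit 0) (nat_lit 76) (XT.nd (nat_lit 78) (nat_lit 0) (nat_lit 0) (XT.lf (nat_lit 76) (nat_lit 8595432054) (nat_lit 0) (nat_lit 15695355830)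 (nat_lit 1748) (nat_lit 3938759445) (nat_lit 397) (nat_lit 5) (nat_lit 396) (nat_lit 5) (nat_lit 419) (nat_lit 5) (nat_lit 479) (nat_lit 476) (nat_lit 185)) (XT.lf (nat_lit 76) (nat_lit 21935637569) (nat_lit 0) (nat_lit 2940967496) (nat_lit 1748) (nat_lit 3636851376) (nat_lit 397) (nat_lit 5) (nat_lit 396) (nat_lit 5) (nat_lit 419) (nat_lit 5) (nat_lit 480) (nat_lit 476) (nat_lit 184))) (XT.nd (nat_lit 78) (nat_lit 0) (nat_lit 0) (XT.lf (nat_lit 76) (nat_lit 6761727101) (nat_lit 0) (nat_lit 18819608977) (nat_lit 1748) (nat_lit 3219565142) (nat_lit 398) (nat_lit 5) (nat_lit 397) (nat_lit 5) (nat_lit 420) (nat_lit 5) (nat_lit 481) (nat_lit 476) (nat_lit 183)) (XT.lf (nat_lit 76) (nat_lit 20436314239) (nat_lit 0) (nat_lit 5925294053) (nat_lit 1748) (nat_lit 2731259080) (nat_lit 398) (nat_lit 5) (nat_lit 397) (nat_lit 5) (nat_lit 420) (nat_lit 5) (nat_lit 482) (nat_lit 476) (nat_lit 182))))) (XT.nd (nat_lit 312) (nat_lit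 0) (nat_lit 76) (XT.nd (nat_lit 156) (nat_lit 1672) (nat_lit 0) (XT.nd (nat_lit 78) (nat_lit 0) (nat_lit 0) (XT.lf (nat_lit 76) (nat_lit 5011320562) (nat_lit 0) (nat_lit 22223627111) (nat_lit 1748) (nat_lit 2154177317) (nat_lit 399) (nat_lit 5) (nat_lit 398) (nat_lit 5) (nat_lit 421) (nat_lit 5) (nat_lit 483) (nat_lit 476) (nat_lit 181)) (XT.lf (nat_lit 76) (nat_lit 19028937450) (nat_lit 0) (nat_lit 9191923053) (nat_lit 1748) (nat_lit 1468546478) (nat_lit 399) (nat_lit 5) (nat_lit 398) (nat_lit 5) (nat_lit 421) (nat_lit 5) (nat_lit 484) (nat_lit 476) (nat_lit 180))) (XT.nd (nat_lit 78) (nat_lit 1748) (nat_lit 0) (XT.lf (nat_lit 76) (nat_lit 3347273893) (nat_lit 0) (nat_lit 25925650917) (nat_lit 1748) (nat_lit 721842462) (nat_lit 400) (nat_lit 5) (nat_lit 399) (nat_lit 5) (nat_lit 422) (nat_lit 5) (nat_lit 485) (nat_lit 476) (nat_lit 179)) (XT.lf (nat_lit 0) (nat_lit 170252405) (nat_lit 1748) (nat_lit 12587966429)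 (nat_lit 1824) (nat_lit 17545392469) (nat_lit 376) (nat_lit 5) (nat_lit 399) (nat_lit 5) (nat_lit 400) (nat_lit 5) (nat_lit 486) (nat_lit 476) (nat_lit 178)))) (XT.nd (nat_lit 156) (nat_lit 0) (nat_lit 0) (XT.nd (nat_lit 78) (nat_lit 0) (nat_lit 0) (XT.lf (nat_lit 0) (nat_lit 1084634630) (nat_lit 1748) (nat_lit 28852850035) (nat_lit 1824) (nat_lit 680771152) (nat_lit 377) (nat_lit 5) (nat_lit 400) (nat_lit 5) (nat_lit 401) (nat_lit 5) (nat_lit 487) (nat_lit 476) (nat_lit 177)) (XT.lf (nat_lit 0) (nat_lit 2184991580) (nat_lit 1748) (nat_lit 14447320344) (nat_lit 1824) (nat_lit 14303528780) (nat_lit 377) (nat_lit 5) (nat_lit 400) (nat_lit 5) (nat_lit 401) (nat_lit 5) (nat_lit 488) (nat_lit 476) (nat_lit 176))) (XT.nd (nat_lit 78) (nat_lit 0) (nat_lit 76) (XT.lf (nat_lit 76) (nat_lit 248357325) (nat_lit 0) (nat_lit 3058811108) (nat_lit 1824) (nat_lit 27952613801) (nat_lit 378) (nat_lit 5) (nat_lit 377) (nat_lit 5)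 (nat_lit 401) (nat_lit 5) (nat_lit 489) (nat_lit 476) (nat_lit 175)) (XT.lf (nat_lit 0) (nat_lit 4617642222) (nat_lit 1748) (nat_lit 16226402890) (nat_lit 1824) (nat_lit 10742841593) (nat_lit 378) (nat_lit 5) (nat_lit 401) (nat_lit 5) (nat_lit 402) (nat_lit 5) (nat_lit 490) (nat_lit 476) (nat_lit 174))))))))
noncomputable def xc254 : XT := (XT.nd (nat_lit 117936) (nat_lit 0) (nat_lit 0) (XT.nd (nat_lit 58812) (nat_lit 152) (nat_lit 0) (XT.nd (nat_lit 58266) (nat_lit 0) (nat_lit 1292) (XT.nd (nat_lit 234) (nat_lit 0) (nat_lit 152) (XT.nd (nat_lit 78) (nat_lit 0) (nat_lit 76) (XT.lf (nat_lit 0) (nat_lit 5972848516) (nat_lit 1748) (nat_lit 1167165009) (nat_lit 1824) (nat_lit 24780150433) (nat_lit 378) (nat_lit 5) (nat_lit 401) (nat_lit 5) (nat_lit 402) (nat_lit 5) (nat_lit 491) (nat_lit 476) (nat_lit 173)) (XT.nd (nat_lit 78) (nat_lit 0) (nat_lit 0) (XT.lf (nat_lit 0) (nat_lit 7491846750) (nat_lit 1748) (nat_lit 17922634472)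 (nat_lit 1824) (nat_lit 6842892912) (nat_lit 379) (nat_lit 5) (nat_lit 402) (nat_lit 5) (nat_lit 403) (nat_lit 5) (nat_lit 492) (nat_lit 476) (nat_lit 172)) (XT.lf (nat_lit 0) (nat_lit 9094722651) (nat_lit 1748) (nat_lit 2487238208) (nat_lit 1824) (nat_lit 21018298808) (nat_lit 379) (nat_lit 5) (nat_lit 402) (nat_lit 5) (nat_lit 403) (nat_lit 5) (nat_lit 493) (nat_lit 476) (nat_lit 171)))) (XT.nd (nat_lit 156) (nat_lit 0) (nat_lit 0) (XT.nd (nat_lit 78) (nat_lit 0) (nat_lit 0) (XT.lf (nat_lit 0) (nat_lit 10832214442) (nat_lit 1748) (nat_lit 19533463660) (nat_lit 1824) (nat_lit 2582274729) (nat_lit 380) (nat_lit 5) (nat_lit 403) (nat_lit 5) (nat_lit 404) (nat_lit 5) (nat_lit 494) (nat_lit 476) (nat_lit 170)) (XT.lf (nat_lit 0) (nat_lit 12696347475) (nat_lit 1748) (nat_lit 3712349207) (nat_lit 1824) (nat_lit 16892066414) (nat_lit 380) (nat_lit 5) (nat_lit 403) (nat_lit 5) (nat_lit 404) (nat_lit 5) (nat_lit 495) (nat_lit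 476) (nat_lit 169))) (XT.nd (nat_lit 78) (nat_lit 0) (nat_lit 76) (XT.lf (nat_lit 76) (nat_lit 12589082707) (nat_lit 0) (nat_lit 2088837201) (nat_lit 1824) (nat_lit 18981107570) (nat_lit 381) (nat_lit 5) (nat_lit 380) (nat_lit 5) (nat_lit 404) (nat_lit 5) (nat_lit 496) (nat_lit 476) (nat_lit 168)) (XT.lf (nat_lit 0) (nat_lit 16803917481) (nat_lit 1748) (nat_lit 4839769524) (nat_lit 1824) (nat_lit 12378675292) (nat_lit 381) (nat_lit 5) (nat_lit 404) (nat_lit 5) (nat_lit 405) (nat_lit 5) (nat_lit 497) (nat_lit 476) (nat_lit 167))))) (XT.nd (nat_lit 234) (nat_lit 0) (nat_lit 76) (XT.nd (nat_lit 78) (nat_lit 0) (nat_lit 0) (XT.lf (nat_lit 0) (nat_lit 11793518565) (nat_lit 1748) (nat_lit 1090296399) (nat_lit 1748) (nat_lit 1090296399) (nat_lit 395) (nat_lit 3) (nat_lit 418) (nat_lit 3) (nat_lit 418) (nat_lit 5) (nat_lit 477) (nat_lit 477) (nat_lit 186)) (XT.nd (nat_lit 78) (nat_lit 0) (nat_lit 0) (XT.lf (nat_lit 76)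 (nat_lit 10804132290) (nat_lit 0) (nat_lit 13169568959) (nat_lit 1748) (nat_lit 4250932025) (nat_lit 396) (nat_lit 5) (nat_lit 395) (nat_lit 3) (nat_lit 418) (nat_lit 5) (nat_lit 478) (nat_lit 477) (nat_lit 185)) (XT.lf (nat_lit 76) (nat_lit 24077016469) (nat_lit 0) (nat_lit 303592627) (nat_lit 1748) (nat_lit 4125714189) (nat_lit 396) (nat_lit 5) (nat_lit 395) (nat_lit 3) (nat_lit 418) (nat_lit 5) (nat_lit 479) (nat_lit 477) (nat_lit 184)))) (XT.nd (nat_lit 156) (nat_lit 0) (nat_lit 76) (XT.nd (nat_lit 78) (nat_lit 0) (nat_lit 0) (XT.lf (nat_lit 76) (nat_lit 8853469998) (nat_lit 0) (nat_lit 16080827402) (nat_lit 1748) (nat_lit 3856578285) (nat_lit 397) (nat_lit 5) (nat_lit 396) (nat_lit 5) (nat_lit 419) (nat_lit 5) (nat_lit 480) (nat_lit 477) (nat_lit 183)) (XT.lf (nat_lit 76) (nat_lit 22458790812) (nat_lit 0) (nat_lit 3069948077) (nat_lit 1748) (nat_lit 3551788062) (nat_lit 397) (nat_lit 5) (nat_lit 396) (nat_lit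 5) (nat_lit 419) (nat_lit 5) (nat_lit 481) (nat_lit 477) (nat_lit 182))) (XT.nd (nat_lit 78) (nat_lit 0) (nat_lit 0) (XT.lf (nat_lit 76) (nat_lit 6984476717) (nat_lit 0) (nat_lit 19260178004) (nat_lit 1748) (nat_lit 3129126191) (nat_lit 398) (nat_lit 5) (nat_lit 397) (nat_lit 5) (nat_lit 420) (nat_lit 5) (nat_lit 482) (nat_lit 477) (nat_lit 181)) (XT.lf (nat_lit 76) (nat_lit 20930839616) (nat_lit 0) (nat_lit 6106718412) (nat_lit 1748) (nat_lit 2634089895) (nat_lit 398) (nat_lit 5) (nat_lit 397) (nat_lit 5) (nat_lit 420) (nat_lit 5) (nat_lit 483) (nat_lit 477) (nat_lit 180)))))) (XT.nd (nat_lit 546) (nat_lit 0) (nat_lit 152) (XT.nd (nat_lit 234) (nat_lit 1672) (nat_lit 0) (XT.nd (nat_lit 78) (nat_lit 0) (nat_lit 0) (XT.lf (nat_lit 76) (nat_lit 5200243974) (nat_lit 0) (nat_lit 22725379574) (nat_lit 1748) (nat_lit 2048263968) (nat_lit 399) (nat_lit 5) (nat_lit 398) (nat_lit 5) (nat_lit 421) (nat_lit 5) (nat_lit 484)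 (nat_lit 477) (nat_lit 179)) (XT.nd (nat_lit 78) (nat_lit 0) (nat_lit 76) (XT.lf (nat_lit 76) (nat_lit 19496474042) (nat_lit 0) (nat_lit 9431918299) (nat_lit 1748) (nat_lit 1351842019) (nat_lit 399) (nat_lit 5) (nat_lit 398) (nat_lit 5) (nat_lit 421) (nat_lit 5) (nat_lit 485) (nat_lit 477) (nat_lit 178)) (XT.lf (nat_lit 76) (nat_lit 3503908612) (nat_lit 0) (nat_lit 26495008017) (nat_lit 1748) (nat_lit 592838785) (nat_lit 400) (nat_lit 5) (nat_lit 399) (nat_lit 5) (nat_lit 422) (nat_lit 5) (nat_lit 486) (nat_lit 477) (nat_lit 177)))) (XT.nd (nat_lit 156) (nat_lit 0) (nat_lit 76) (XT.nd (nat_lit 78) (nat_lit 0) (nat_lit 76) (XT.lf (nat_lit 0) (nat_lit 312441058) (nat_lit 1748) (nat_lit 12749857979) (nat_lit 1824) (nat_lit 17844516031) (nat_lit 376) (nat_lit 5) (nat_lit 399) (nat_lit 5) (nat_lit 400) (nat_lit 5) (nat_lit 487) (nat_lit 477) (nat_lit 176)) (XT.lf (nat_lit 0) (nat_lit 1242661795) (nat_lit 1748) (nat_lit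 29337499157) (nat_lit 1824) (nat_lit 647642323) (nat_lit 377) (nat_lit 5) (nat_lit 400) (nat_lit 5) (nat_lit 401) (nat_lit 5) (nat_lit 488) (nat_lit 477) (nat_lit 175))) (XT.nd (nat_lit 78) (nat_lit 0) (nat_lit 0) (XT.lf (nat_lit 0) (nat_lit 2362352659) (nat_lit 1748) (nat_lit 14645670791) (nat_lit 1824) (nat_lit 14543771658) (nat_lit 377) (nat_lit 5) (nat_lit 400) (nat_lit 5) (nat_lit 401) (nat_lit 5) (nat_lit 489) (nat_lit 477) (nat_lit 174)) (XT.lf (nat_lit 76) (nat_lit 343324405) (nat_lit 0) (nat_lit 3161612175) (nat_lit 1824) (nat_lit 28377321368) (nat_lit 378) (nat_lit 5) (nat_lit 377) (nat_lit 5) (nat_lit 401) (nat_lit 5) (nat_lit 490) (nat_lit 477) (nat_lit 173))))) (XT.nd (nat_lit 390) (nat_lit 0) (nat_lit 152) (XT.nd (nat_lit 78) (nat_lit 0) (nat_lit 0) (XT.lf (nat_lit 0) (nat_lit 4838774010) (nat_lit 1748) (nat_lit 16459764162) (nat_lit 1824) (nat_lit 10917424967) (nat_lit 378) (nat_lit 5) (nat_lit 401)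 (nat_lit 5) (nat_lit 402) (nat_lit 5) (nat_lit 491) (nat_lit 477) (nat_lit 172)) (XT.nd (nat_lit 78) (nat_lit 0) (nat_lit 76) (XT.lf (nat_lit 0) (nat_lit 6218559353) (nat_lit 1748) (nat_lit 1101129108) (nat_lit 1824) (nat_lit 25236269659) (nat_lit 378) (nat_lit 5) (nat_lit 401) (nat_lit 5) (nat_lit 402) (nat_lit 5) (nat_lit 492) (nat_lit 477) (nat_lit 171)) (XT.lf (nat_lit 0) (nat_lit 7765807574) (nat_lit 1748) (nat_lit 18189495589) (nat_lit 1824) (nat_lit 6944653582) (nat_lit 379) (nat_lit 5) (nat_lit 402) (nat_lit 5) (nat_lit 403) (nat_lit 5) (nat_lit 493) (nat_lit 477) (nat_lit 170)))) (XT.nd (nat_lit 58032) (nat_lit 0) (nat_lit 1140) (XT.nd (nat_lit 57954) (nat_lit 0) (nat_lit 1140) (XT.lf (nat_lit 0) (nat_lit 13067611679) (nat_lit 1748) (nat_lit 3696516840) (nat_lit 1824) (nat_lit 17200225453) (nat_lit 380) (nat_lit 5) (nat_lit 403) (nat_lit 5) (nat_lit 404) (nat_lit 5) (nat_lit 496) (nat_lit 477) (nat_lit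 167)) (XT.lf (nat_lit 0) (nat_lit 12109511482) (nat_lit 1748) (nat_lit 1071212106) (nat_lit 1748) (nat_lit 1071212106) (nat_lit 395) (nat_lit 3) (nat_lit 418) (nat_lit 3) (nat_lit 418) (nat_lit 5) (nat_lit 478) (nat_lit 478) (nat_lit 184))) (XT.nd (nat_lit 78) (nat_lit 0) (nat_lit 0) (XT.lf (nat_lit 76) (nat_lit 11101457348) (nat_lit 0) (nat_lit 13509348437) (nat_lit 1748) (nat_lit 4175058828) (nat_lit 396) (nat_lit 5) (nat_lit 395) (nat_lit 3) (nat_lit 418) (nat_lit 5) (nat_lit 479) (nat_lit 478) (nat_lit 183)) (XT.lf (nat_lit 76) (nat_lit 24638206222) (nat_lit 0) (nat_lit 384554772) (nat_lit 1748) (nat_lit 4050491378) (nat_lit 396) (nat_lit 5) (nat_lit 395) (nat_lit 3) (nat_lit 418) (nat_lit 5) (nat_lit 480) (nat_lit 478) (nat_lit 182))))))) (XT.nd (nat_lit 1092) (nat_lit 0) (nat_lit 0) (XT.nd (nat_lit 546) (nat_lit 1520) (nat_lit 0) (XT.nd (nat_lit 234) (nat_lit 0) (nat_lit 76) (XT.nd (nat_lit 78) (nat_lit 0)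 (nat_lit 0) (XT.lf (nat_lit 76) (nat_lit 9113324194) (nat_lit 0) (nat_lit 16471229470) (nat_lit 1748) (nat_lit 3779003634) (nat_lit 397) (nat_lit 5) (nat_lit 396) (nat_lit 5) (nat_lit 419) (nat_lit 5) (nat_lit 481) (nat_lit 478) (nat_lit 181)) (XT.nd (nat_lit 78) (nat_lit 0) (nat_lit 76) (XT.lf (nat_lit 76) (nat_lit 22989128194) (nat_lit 0) (nat_lit 3198783823) (nat_lit 1748) (nat_lit 3471151062) (nat_lit 397) (nat_lit 5) (nat_lit 396) (nat_lit 5) (nat_lit 419) (nat_lit 5) (nat_lit 482) (nat_lit 478) (nat_lit 180)) (XT.lf (nat_lit 76) (nat_lit 7208283008) (nat_lit 0) (nat_lit 19707066347) (nat_lit 1748) (nat_lit 3042890709) (nat_lit 398) (nat_lit 5) (nat_lit 397) (nat_lit 5) (nat_lit 420) (nat_lit 5) (nat_lit 483) (nat_lit 478) (nat_lit 179)))) (XT.nd (nat_lit 156) (nat_lit 0) (nat_lit 76) (XT.nd (nat_lit 78) (nat_lit 0) (nat_lit 76) (XT.lf (nat_lit 76) (nat_lit 21431923817) (nat_lit 0) (nat_lit 6289328057) (nat_lit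 1748) (nat_lit 2540871686) (nat_lit 398) (nat_lit 5) (nat_lit 397) (nat_lit 5) (nat_lit 420) (nat_lit 5) (nat_lit 484) (nat_lit 478) (nat_lit 178)) (XT.lf (nat_lit 76) (nat_lit 5389501641) (nat_lit 0) (nat_lit 23234942837) (nat_lit 1748) (nat_lit 1946018082) (nat_lit 399) (nat_lit 5) (nat_lit 398) (nat_lit 5) (nat_lit 421) (nat_lit 5) (nat_lit 485) (nat_lit 478) (nat_lit 177))) (XT.nd (nat_lit 78) (nat_lit 0) (nat_lit 76) (XT.lf (nat_lit 76) (nat_lit 19969984687) (nat_lit 0) (nat_lit 9674532813) (nat_lit 1748) (nat_lit 1238475757) (nat_lit 399) (nat_lit 5) (nat_lit 398) (nat_lit 5) (nat_lit 421) (nat_lit 5) (nat_lit 486) (nat_lit 478) (nat_lit 176)) (XT.lf (nat_lit 76) (nat_lit 3660193283) (nat_lit 0) (nat_lit 27073777921) (nat_lit 1748) (nat_lit 466825006) (nat_lit 400) (nat_lit 5) (nat_lit 399) (nat_lit 5) (nat_lit 422) (nat_lit 5) (nat_lit 487) (nat_lit 478) (nat_lit 175))))) (XT.nd (nat_lit 234) (nat_lit 0)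 (nat_lit 76) (XT.nd (nat_lit 78) (nat_lit 0) (nat_lit 76) (XT.lf (nat_lit 0) (nat_lit 452084348) (nat_lit 1748) (nat_lit 12918477036) (nat_lit 1824) (nat_lit 18151632911) (nat_lit 376) (nat_lit 5) (nat_lit 399) (nat_lit 5) (nat_lit 400) (nat_lit 5) (nat_lit 488) (nat_lit 478) (nat_lit 174)) (XT.nd (nat_lit 78) (nat_lit 0) (nat_lit 0) (XT.lf (nat_lit 0) (nat_lit 1398555470) (nat_lit 1748) (nat_lit 29835429572) (nat_lit 1824) (nat_lit 615666054) (nat_lit 377) (nat_lit 5) (nat_lit 400) (nat_lit 5) (nat_lit 401) (nat_lit 5) (nat_lit 489) (nat_lit 478) (nat_lit 173)) (XT.lf (nat_lit 0) (nat_lit 2538070731) (nat_lit 1748) (nat_lit 14851506199) (nat_lit 1824) (nat_lit 14790598938) (nat_lit 377) (nat_lit 5) (nat_lit 400) (nat_lit 5) (nat_lit 401) (nat_lit 5) (nat_lit 490) (nat_lit 478) (nat_lit 172)))) (XT.nd (nat_lit 156) (nat_lit 0) (nat_lit 76) (XT.nd (nat_lit 78) (nat_lit 0) (nat_lit 76) (XT.lf (nat_lit 76) (nat_lit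 436696020) (nat_lit 0) (nat_lit 3264852920) (nat_lit 1824) (nat_lit 28815739854) (nat_lit 378) (nat_lit 5) (nat_lit 377) (nat_lit 5) (nat_lit 401) (nat_lit 5) (nat_lit 491) (nat_lit 478) (nat_lit 171)) (XT.lf (nat_lit 0) (nat_lit 5059327790) (nat_lit 1748) (nat_lit 16701332777) (nat_lit 1824) (nat_lit 11097063876) (nat_lit 378) (nat_lit 5) (nat_lit 401) (nat_lit 5) (nat_lit 402) (nat_lit 5) (nat_lit 492) (nat_lit 478) (nat_lit 170))) (XT.nd (nat_lit 78) (nat_lit 0) (nat_lit 76) (XT.lf (nat_lit 0) (nat_lit 6464281814) (nat_lit 1748) (nat_lit 1037243192) (nat_lit 1824) (nat_lit 25703044474) (nat_lit 378) (nat_lit 5) (nat_lit 401) (nat_lit 5) (nat_lit 402) (nat_lit 5) (nat_lit 493) (nat_lit 478) (nat_lit 169)) (XT.lf (nat_lit 0) (nat_lit 8040427732) (nat_lit 1748) (nat_lit 18465250542) (nat_lit 1824) (nat_lit 7049812333) (nat_lit 379) (nat_lit 5) (nat_lit 402) (nat_lit 5) (nat_lit 403) (nat_lit 5) (nat_lit 494) (nat_lit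 478) (nat_lit 168)))))) (XT.nd (nat_lit 58578) (nat_lit 228) (nat_lit 0) (XT.nd (nat_lit 58266) (nat_lit 0) (nat_lit 1216) (XT.nd (nat_lit 58110) (nat_lit 0) (nat_lit 1216) (XT.lf (nat_lit 0) (nat_lit 9703238047) (nat_lit 1748) (nat_lit 2409822276) (nat_lit 1824) (nat_lit 21799268029) (nat_lit 379) (nat_lit 5) (nat_lit 402) (nat_lit 5) (nat_lit 403) (nat_lit 5) (nat_lit 495) (nat_lit 478) (nat_lit 167)) (XT.nd (nat_lit 78) (nat_lit 0) (nat_lit 0) (XT.lf (nat_lit 0) (nat_lit 12428713002) (nat_lit 1748) (nat_lit 1053333944) (nat_lit 1748) (nat_lit 1053333944) (nat_lit 395) (nat_lit 3) (nat_lit 418) (nat_lit 3) (nat_lit 418) (nat_lit 5) (nat_lit 479) (nat_lit 479) (nat_lit 182)) (XT.lf (nat_lit 76) (nat_lit 11401574166) (nat_lit 0) (nat_lit 13852957261) (nat_lit 1748) (nat_lit 4103915794) (nat_lit 396) (nat_lit 5) (nat_lit 395) (nat_lit 3) (nat_lit 418) (nat_lit 5) (nat_lit 480) (nat_lit 479) (nat_lit 181)))) (XT.nd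 (nat_lit 156) (nat_lit 0) (nat_lit 76) (XT.nd (nat_lit 78) (nat_lit 0) (nat_lit 76) (XT.lf (nat_lit 76) (nat_lit 25207526887) (nat_lit 0) (nat_lit 464228078) (nat_lit 1748) (nat_lit 3979889233) (nat_lit 396) (nat_lit 5) (nat_lit 395) (nat_lit 3) (nat_lit 418) (nat_lit 5) (nat_lit 481) (nat_lit 479) (nat_lit 180)) (XT.lf (nat_lit 76) (nat_lit 9375160840) (nat_lit 0) (nat_lit 16866768554) (nat_lit 1748) (nat_lit 3705884920) (nat_lit 397) (nat_lit 5) (nat_lit 396) (nat_lit 5) (nat_lit 419) (nat_lit 5) (nat_lit 482) (nat_lit 479) (nat_lit 179))) (XT.nd (nat_lit 78) (nat_lit 0) (nat_lit 76) (XT.lf (nat_lit 76) (nat_lit 23526920720) (nat_lit 0) (nat_lit 3327577631) (nat_lit 1748) (nat_lit 3394790959) (nat_lit 397) (nat_lit 5) (nat_lit 396) (nat_lit 5) (nat_lit 419) (nat_lit 5) (nat_lit 483) (nat_lit 479) (nat_lit 178)) (XT.lf (nat_lit 76) (nat_lit 7433299070) (nat_lit 0) (nat_lit 20160497160) (nat_lit 1748) (nat_lit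 2960709301) (nat_lit 398) (nat_lit 5) (nat_lit 397) (nat_lit 5) (nat_lit 420) (nat_lit 5) (nat_lit 484) (nat_lit 479) (nat_lit 177))))) (XT.nd (nat_lit 312) (nat_lit 1596) (nat_lit 0) (XT.nd (nat_lit 156) (nat_lit 0) (nat_lit 76) (XT.nd (nat_lit 78) (nat_lit 0) (nat_lit 76) (XT.lf (nat_lit 76) (nat_lit 21939827393) (nat_lit 0) (nat_lit 6473241566) (nat_lit 1748) (nat_lit 2451454589) (nat_lit 398) (nat_lit 5) (nat_lit 397) (nat_lit 5) (nat_lit 420) (nat_lit 5) (nat_lit 485) (nat_lit 479) (nat_lit 176)) (XT.lf (nat_lit 76) (nat_lit 5579233991) (nat_lit 0) (nat_lit 23752559486) (nat_lit 1748) (nat_lit 1847288344) (nat_lit 399) (nat_lit 5) (nat_lit 398) (nat_lit 5) (nat_lit 421) (nat_lit 5) (nat_lit 486) (nat_lit 479) (nat_lit 175))) (XT.nd (nat_lit 78) (nat_lit 0) (nat_lit 76) (XT.lf (nat_lit 76) (nat_lit 20449719987) (nat_lit 0) (nat_lit 9919903658) (nat_lit 1748) (nat_lit 1128294194) (nat_lit 399) (nat_lit 5) (nat_lit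 398) (nat_lit 5) (nat_lit 421) (nat_lit 5) (nat_lit 487) (nat_lit 479) (nat_lit 174)) (XT.lf (nat_lit 76) (nat_lit 3816256145) (nat_lit 0) (nat_lit 27662225552) (nat_lit 1748) (nat_lit 343644632) (nat_lit 400) (nat_lit 5) (nat_lit 399) (nat_lit 5) (nat_lit 422) (nat_lit 5) (nat_lit 488) (nat_lit 479) (nat_lit 173)))) (XT.nd (nat_lit 156) (nat_lit 0) (nat_lit 76) (XT.nd (nat_lit 78) (nat_lit 0) (nat_lit 76) (XT.lf (nat_lit 0) (nat_lit 589340634) (nat_lit 1748) (nat_lit 13093822642) (nat_lit 1824) (nat_lit 18466824892) (nat_lit 376) (nat_lit 5) (nat_lit 399) (nat_lit 5) (nat_lit 400) (nat_lit 5) (nat_lit 489) (nat_lit 479) (nat_lit 172)) (XT.lf (nat_lit 0) (nat_lit 1552478559) (nat_lit 1748) (nat_lit 30346767567) (nat_lit 1824) (nat_lit 584794912) (nat_lit 377) (nat_lit 5) (nat_lit 400) (nat_lit 5) (nat_lit 401) (nat_lit 5) (nat_lit 490) (nat_lit 479) (nat_lit 171))) (XT.nd (nat_lit 78) (nat_lit 0) (nat_lit 0) (XT.lf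 (nat_lit 0) (nat_lit 2712314478) (nat_lit 1748) (nat_lit 15064839660) (nat_lit 1824) (nat_lit 15044073208) (nat_lit 377) (nat_lit 5) (nat_lit 400) (nat_lit 5) (nat_lit 401) (nat_lit 5) (nat_lit 491) (nat_lit 479) (nat_lit 170)) (XT.lf (nat_lit 76) (nat_lit 528575967) (nat_lit 0) (nat_lit 3368604900) (nat_lit 1824) (nat_lit 29267940905) (nat_lit 378) (nat_lit 5) (nat_lit 377) (nat_lit 5) (nat_lit 401) (nat_lit 5) (nat_lit 492) (nat_lit 479) (nat_lit 169))))))))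
noncomputable def xc255 : XT := (XT.nd (nat_lit 177216) (nat_lit 0) (nat_lit 0) (XT.nd (nat_lit 59280) (nat_lit 0) (nat_lit 76) (XT.nd (nat_lit 58734) (nat_lit 152) (nat_lit 0) (XT.nd (nat_lit 58422) (nat_lit 0) (nat_lit 1292) (XT.nd (nat_lit 58266) (nat_lit 0) (nat_lit 1292) (XT.lf (nat_lit 0) (nat_lit 6710206507) (nat_lit 1748) (nat_lit 975415489) (nat_lit 1824) (nat_lit 26180628451) (nat_lit 378) (nat_lit 5) (nat_lit 401) (nat_lit 5) (nat_lit 402) (nat_lit 5) (nat_lit 494) (nat_lit 479) (nat_lit 167)) (XT.nd (nat_lit 78) (nat_lit 0) (nat_lit 0) (XT.lf (nat_lit 0) (nat_lit 12751308110) (nat_lit 1748) (nat_lit 1036624380) (nat_lit 1748) (nat_lit 1036624380) (nat_lit 395) (nat_lit 3) (nat_lit 418) (nat_lit 3) (nat_lit 418) (nat_lit 5) (nat_lit 480) (nat_lit 480) (nat_lit 180)) (XT.lf (nat_lit 76) (nat_lit 11704661081) (nat_lit 0) (nat_lit 14200587202) (nat_lit 1748) (nat_lit 4037354922) (nat_lit 396) (nat_lit 5)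 (nat_lit 395) (nat_lit 3) (nat_lit 418) (nat_lit 5) (nat_lit 481) (nat_lit 480) (nat_lit 179)))) (XT.nd (nat_lit 156) (nat_lit 0) (nat_lit 76) (XT.nd (nat_lit 78) (nat_lit 0) (nat_lit 76) (XT.lf (nat_lit 76) (nat_lit 25785261181) (nat_lit 0) (nat_lit 542699694) (nat_lit 1748) (nat_lit 3913762324) (nat_lit 396) (nat_lit 5) (nat_lit 395) (nat_lit 3) (nat_lit 418) (nat_lit 5) (nat_lit 482) (nat_lit 480) (nat_lit 178)) (XT.lf (nat_lit 76) (nat_lit 9639144412) (nat_lit 0) (nat_lit 17267651114) (nat_lit 1748) (nat_lit 3637077987) (nat_lit 397) (nat_lit 5) (nat_lit 396) (nat_lit 5) (nat_lit 419) (nat_lit 5) (nat_lit 483) (nat_lit 480) (nat_lit 177))) (XT.nd (nat_lit 78) (nat_lit 0) (nat_lit 76) (XT.lf (nat_lit 76) (nat_lit 24072439875) (nat_lit 0) (nat_lit 3456430349) (nat_lit 1748) (nat_lit 3322564591) (nat_lit 397) (nat_lit 5) (nat_lit 396) (nat_lit 5) (nat_lit 419) (nat_lit 5) (nat_lit 484) (nat_lit 480) (nat_lit 176))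 (XT.lf (nat_lit 76) (nat_lit 7659675932) (nat_lit 0) (nat_lit 20620694307) (nat_lit 1748) (nat_lit 2882438652) (nat_lit 398) (nat_lit 5) (nat_lit 397) (nat_lit 5) (nat_lit 420) (nat_lit 5) (nat_lit 485) (nat_lit 480) (nat_lit 175))))) (XT.nd (nat_lit 234) (nat_lit 1596) (nat_lit 0) (XT.nd (nat_lit 78) (nat_lit 0) (nat_lit 76) (XT.lf (nat_lit 76) (nat_lit 22454811079) (nat_lit 0) (nat_lit 6658576205) (nat_lit 1748) (nat_lit 2365694627) (nat_lit 398) (nat_lit 5) (nat_lit 397) (nat_lit 5) (nat_lit 420) (nat_lit 5) (nat_lit 486) (nat_lit 480) (nat_lit 174)) (XT.nd (nat_lit 78) (nat_lit 0) (nat_lit 0) (XT.lf (nat_lit 76) (nat_lit 5769579069) (nat_lit 0) (nat_lit 24278473606) (nat_lit 1748) (nat_lit 1751929132) (nat_lit 399) (nat_lit 5) (nat_lit 398) (nat_lit 5) (nat_lit 421) (nat_lit 5) (nat_lit 487) (nat_lit 480) (nat_lit 173)) (XT.lf (nat_lit 76) (nat_lit 20935930463) (nat_lit 0) (nat_lit 10168167349) (nat_lit 1748)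 (nat_lit 1021149314) (nat_lit 399) (nat_lit 5) (nat_lit 398) (nat_lit 5) (nat_lit 421) (nat_lit 5) (nat_lit 488) (nat_lit 480) (nat_lit 172)))) (XT.nd (nat_lit 156) (nat_lit 0) (nat_lit 76) (XT.nd (nat_lit 78) (nat_lit 1748) (nat_lit 0) (XT.lf (nat_lit 76) (nat_lit 3972222747) (nat_lit 0) (nat_lit 28260618152) (nat_lit 1748) (nat_lit 223146443) (nat_lit 400) (nat_lit 5) (nat_lit 399) (nat_lit 5) (nat_lit 422) (nat_lit 5) (nat_lit 489) (nat_lit 480) (nat_lit 171)) (XT.lf (nat_lit 0) (nat_lit 724363317) (nat_lit 1748) (nat_lit 13275899080) (nat_lit 1824) (nat_lit 18790178424) (nat_lit 376) (nat_lit 5) (nat_lit 399) (nat_lit 5) (nat_lit 400) (nat_lit 5) (nat_lit 490) (nat_lit 480) (nat_lit 170))) (XT.nd (nat_lit 78) (nat_lit 0) (nat_lit 0) (XT.lf (nat_lit 0) (nat_lit 1704589240) (nat_lit 1748) (nat_lit 30871647366) (nat_lit 1824) (nat_lit 554983252) (nat_lit 377) (nat_lit 5) (nat_lit 400) (nat_lit 5) (nat_lit 401)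 (nat_lit 5) (nat_lit 491) (nat_lit 480) (nat_lit 169)) (XT.lf (nat_lit 0) (nat_lit 2885248131) (nat_lit 1748) (nat_lit 15285689833) (nat_lit 1824) (nat_lit 15304260988) (nat_lit 377) (nat_lit 5) (nat_lit 400) (nat_lit 5) (nat_lit 401) (nat_lit 5) (nat_lit 492) (nat_lit 480) (nat_lit 168)))))) (XT.nd (nat_lit 58812) (nat_lit 0) (nat_lit 0) (XT.nd (nat_lit 58500) (nat_lit 0) (nat_lit 1368) (XT.nd (nat_lit 78) (nat_lit 0) (nat_lit 76) (XT.lf (nat_lit 76) (nat_lit 619064852) (nat_lit 0) (nat_lit 3472938669) (nat_lit 1824) (nat_lit 29734005466) (nat_lit 378) (nat_lit 5) (nat_lit 377) (nat_lit 5) (nat_lit 401) (nat_lit 5) (nat_lit 493) (nat_lit 480) (nat_lit 167)) (XT.nd (nat_lit 58344) (nat_lit 0) (nat_lit 1292) (XT.lf (nat_lit 0) (nat_lit 5499427923) (nat_lit 1748) (nat_lit 17209204627) (nat_lit 1824) (nat_lit 11471672999) (nat_lit 378) (nat_lit 5) (nat_lit 401) (nat_lit 5) (nat_lit 402) (nat_lit 5) (nat_lit 494) (nat_lit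 480) (nat_lit 166)) (XT.lf (nat_lit 0) (nat_lit 13077480800) (nat_lit 1748) (nat_lit 1021047521) (nat_lit 1748) (nat_lit 1021047521) (nat_lit 395) (nat_lit 3) (nat_lit 418) (nat_lit 3) (nat_lit 418) (nat_lit 5) (nat_lit 481) (nat_lit 481) (nat_lit 178)))) (XT.nd (nat_lit 156) (nat_lit 0) (nat_lit 76) (XT.nd (nat_lit 78) (nat_lit 0) (nat_lit 0) (XT.lf (nat_lit 76) (nat_lit 12010895240) (nat_lit 0) (nat_lit 14552429391) (nat_lit 1748) (nat_lit 3975234673) (nat_lit 396) (nat_lit 5) (nat_lit 395) (nat_lit 3) (nat_lit 418) (nat_lit 5) (nat_lit 482) (nat_lit 481) (nat_lit 177)) (XT.lf (nat_lit 76) (nat_lit 26371692814) (nat_lit 0) (nat_lit 620054125) (nat_lit 1748) (nat_lit 3851971544) (nat_lit 396) (nat_lit 5) (nat_lit 395) (nat_lit 3) (nat_lit 418) (nat_lit 5) (nat_lit 483) (nat_lit 481) (nat_lit 176))) (XT.nd (nat_lit 78) (nat_lit 0) (nat_lit 0) (XT.lf (nat_lit 76) (nat_lit 9905437831) (nat_lit 0) (nat_lit 17674083709)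 (nat_lit 1748) (nat_lit 3572444854) (nat_lit 397) (nat_lit 5) (nat_lit 396) (nat_lit 5) (nat_lit 419) (nat_lit 5) (nat_lit 484) (nat_lit 481) (nat_lit 175)) (XT.lf (nat_lit 76) (nat_lit 24625957820) (nat_lit 0) (nat_lit 3585440891) (nat_lit 1748) (nat_lit 3254334810) (nat_lit 397) (nat_lit 5) (nat_lit 396) (nat_lit 5) (nat_lit 419) (nat_lit 5) (nat_lit 485) (nat_lit 481) (nat_lit 174))))) (XT.nd (nat_lit 234) (nat_lit 1520) (nat_lit 0) (XT.nd (nat_lit 78) (nat_lit 0) (nat_lit 0) (XT.lf (nat_lit 76) (nat_lit 7887562724) (nat_lit 0) (nat_lit 21087882515) (nat_lit 1748) (nat_lit 2807941294) (nat_lit 398) (nat_lit 5) (nat_lit 397) (nat_lit 5) (nat_lit 420) (nat_lit 5) (nat_lit 486) (nat_lit 481) (nat_lit 173)) (XT.nd (nat_lit 78) (nat_lit 0) (nat_lit 76) (XT.lf (nat_lit 76) (nat_lit 22977136000) (nat_lit 0) (nat_lit 6845448044) (nat_lit 1748) (nat_lit 2283453489) (nat_lit 398) (nat_lit 5) (nat_lit 397) (nat_lit 5)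 (nat_lit 420) (nat_lit 5) (nat_lit 487) (nat_lit 481) (nat_lit 172)) (XT.lf (nat_lit 76) (nat_lit 5960672686) (nat_lit 0) (nat_lit 24812930939) (nat_lit 1748) (nat_lit 1659800299) (nat_lit 399) (nat_lit 5) (nat_lit 398) (nat_lit 5) (nat_lit 421) (nat_lit 5) (nat_lit 488) (nat_lit 481) (nat_lit 171)))) (XT.nd (nat_lit 312) (nat_lit 1596) (nat_lit 0) (XT.nd (nat_lit 78) (nat_lit 0) (nat_lit 76) (XT.lf (nat_lit 76) (nat_lit 21428866754) (nat_lit 0) (nat_lit 10419459971) (nat_lit 1748) (nat_lit 916898363) (nat_lit 399) (nat_lit 5) (nat_lit 398) (nat_lit 5) (nat_lit 421) (nat_lit 5) (nat_lit 489) (nat_lit 481) (nat_lit 170)) (XT.lf (nat_lit 76) (nat_lit 4128216106) (nat_lit 0) (nat_lit 28869225449) (nat_lit 1748) (nat_lit 105184264) (nat_lit 400) (nat_lit 5) (nat_lit 399) (nat_lit 5) (nat_lit 422) (nat_lit 5) (nat_lit 490) (nat_lit 481) (nat_lit 169))) (XT.nd (nat_lit 58500) (nat_lit 0) (nat_lit 1368) (XT.lf (nat_lit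 0) (nat_lit 3057031682) (nat_lit 1748) (nat_lit 15514080851) (nat_lit 1824) (nat_lit 15571232709) (nat_lit 377) (nat_lit 5) (nat_lit 400) (nat_lit 5) (nat_lit 401) (nat_lit 5) (nat_lit 493) (nat_lit 481) (nat_lit 166)) (XT.lf (nat_lit 0) (nat_lit 13407414238) (nat_lit 1748) (nat_lit 1006569062) (nat_lit 1748) (nat_lit 1006569062) (nat_lit 395) (nat_lit 3) (nat_lit 418) (nat_lit 3) (nat_lit 418) (nat_lit 5) (nat_lit 482) (nat_lit 482) (nat_lit 176))))))) (XT.nd (nat_lit 59982) (nat_lit 0) (nat_lit 1444) (XT.nd (nat_lit 702) (nat_lit 1444) (nat_lit 0) (XT.nd (nat_lit 234) (nat_lit 0) (nat_lit 76) (XT.nd (nat_lit 78) (nat_lit 0) (nat_lit 0) (XT.lf (nat_lit 76) (nat_lit 12320452762) (nat_lit 0) (nat_lit 14908674485) (nat_lit 1748) (nat_lit 3917419733) (nat_lit 396) (nat_lit 5) (nat_lit 395) (nat_lit 3) (nat_lit 418) (nat_lit 5) (nat_lit 483) (nat_lit 482) (nat_lit 175)) (XT.nd (nat_lit 78) (nat_lit 0) (nat_lit 76)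 (XT.lf (nat_lit 76) (nat_lit 26967106687) (nat_lit 0) (nat_lit 696373351) (nat_lit 1748) (nat_lit 3794383883) (nat_lit 396) (nat_lit 5) (nat_lit 395) (nat_lit 3) (nat_lit 418) (nat_lit 5) (nat_lit 484) (nat_lit 482) (nat_lit 174)) (XT.lf (nat_lit 76) (nat_lit 10174202614) (nat_lit 0) (nat_lit 18086273163) (nat_lit 1748) (nat_lit 3511853484) (nat_lit 397) (nat_lit 5) (nat_lit 396) (nat_lit 5) (nat_lit 419) (nat_lit 5) (nat_lit 485) (nat_lit 482) (nat_lit 173)))) (XT.nd (nat_lit 156) (nat_lit 0) (nat_lit 76) (XT.nd (nat_lit 78) (nat_lit 0) (nat_lit 76) (XT.lf (nat_lit 76) (nat_lit 25187747591) (nat_lit 0) (nat_lit 3714706355) (nat_lit 1748) (nat_lit 3189970265) (nat_lit 397) (nat_lit 5) (nat_lit 396) (nat_lit 5) (nat_lit 419) (nat_lit 5) (nat_lit 486) (nat_lit 482) (nat_lit 172)) (XT.lf (nat_lit 76) (nat_lit 8117106821) (nat_lit 0) (nat_lit 21562287533) (nat_lit 1748) (nat_lit 2737085384) (nat_lit 398) (nat_lit 5)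 (nat_lit 397) (nat_lit 5) (nat_lit 420) (nat_lit 5) (nat_lit 487) (nat_lit 482) (nat_lit 171))) (XT.nd (nat_lit 78) (nat_lit 0) (nat_lit 76) (XT.lf (nat_lit 76) (nat_lit 23507063859) (nat_lit 0) (nat_lit 7033972071) (nat_lit 1748) (nat_lit 2204598308) (nat_lit 398) (nat_lit 5) (nat_lit 397) (nat_lit 5) (nat_lit 420) (nat_lit 5) (nat_lit 488) (nat_lit 482) (nat_lit 170)) (XT.lf (nat_lit 76) (nat_lit 6152648572) (nat_lit 0) (nat_lit 25356179043) (nat_lit 1748) (nat_lit 1570766955) (nat_lit 399) (nat_lit 5) (nat_lit 398) (nat_lit 5) (nat_lit 421) (nat_lit 5) (nat_lit 489) (nat_lit 482) (nat_lit 169))))) (XT.nd (nat_lit 58812) (nat_lit 0) (nat_lit 1444) (XT.nd (nat_lit 58656) (nat_lit 0) (nat_lit 1444) (XT.lf (nat_lit 0) (nat_lit 988297970) (nat_lit 1748) (nat_lit 13660287215) (nat_lit 1824) (nat_lit 19461739142) (nat_lit 376) (nat_lit 5) (nat_lit 399) (nat_lit 5) (nat_lit 400) (nat_lit 5) (nat_lit 492) (nat_lit 482)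 (nat_lit 166)) (XT.nd (nat_lit 78) (nat_lit 0) (nat_lit 0) (XT.lf (nat_lit 0) (nat_lit 13741290917) (nat_lit 1748) (nat_lit 993156220) (nat_lit 1748) (nat_lit 993156220) (nat_lit 395) (nat_lit 3) (nat_lit 418) (nat_lit 3) (nat_lit 418) (nat_lit 5) (nat_lit 483) (nat_lit 483) (nat_lit 174)) (XT.lf (nat_lit 76) (nat_lit 12633508892) (nat_lit 0) (nat_lit 15269512822) (nat_lit 1748) (nat_lit 3863780782) (nat_lit 396) (nat_lit 5) (nat_lit 395) (nat_lit 3) (nat_lit 418) (nat_lit 5) (nat_lit 484) (nat_lit 483) (nat_lit 173)))) (XT.nd (nat_lit 156) (nat_lit 0) (nat_lit 76) (XT.nd (nat_lit 78) (nat_lit 0) (nat_lit 76) (XT.lf (nat_lit 76) (nat_lit 27571789091) (nat_lit 0) (nat_lit 771736942) (nat_lit 1748) (nat_lit 3740872203) (nat_lit 396) (nat_lit 5) (nat_lit 395) (nat_lit 3) (nat_lit 418) (nat_lit 5) (nat_lit 485) (nat_lit 483) (nat_lit 172)) (XT.lf (nat_lit 76) (nat_lit 10445599033) (nat_lit 0) (nat_lit 18504426711)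 (nat_lit 1748) (nat_lit 3455177571) (nat_lit 397) (nat_lit 5) (nat_lit 396) (nat_lit 5) (nat_lit 419) (nat_lit 5) (nat_lit 486) (nat_lit 483) (nat_lit 171))) (XT.nd (nat_lit 78) (nat_lit 0) (nat_lit 76) (XT.lf (nat_lit 76) (nat_lit 25758083295) (nat_lit 0) (nat_lit 3844322134) (nat_lit 1748) (nat_lit 3129345178) (nat_lit 397) (nat_lit 5) (nat_lit 396) (nat_lit 5) (nat_lit 419) (nat_lit 5) (nat_lit 487) (nat_lit 483) (nat_lit 170)) (XT.lf (nat_lit 76) (nat_lit 8348453996) (nat_lit 0) (nat_lit 22044136290) (nat_lit 1748) (nat_lit 2669744493) (nat_lit 398) (nat_lit 5) (nat_lit 397) (nat_lit 5) (nat_lit 420) (nat_lit 5) (nat_lit 488) (nat_lit 483) (nat_lit 169)))))) (XT.nd (nat_lit 59280) (nat_lit 0) (nat_lit 0) (XT.nd (nat_lit 58968) (nat_lit 0) (nat_lit 0) (XT.nd (nat_lit 58812) (nat_lit 228) (nat_lit 0) (XT.lf (nat_lit 76) (nat_lit 22435921070) (nat_lit 0) (nat_lit 10931674881) (nat_lit 1748) (nat_lit 716532261)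 (nat_lit 399) (nat_lit 5) (nat_lit 398) (nat_lit 5) (nat_lit 421) (nat_lit 5) (nat_lit 491) (nat_lit 483) (nat_lit 166)) (XT.nd (nat_lit 78) (nat_lit 0) (nat_lit 0) (XT.lf (nat_lit 0) (nat_lit 14079292816) (nat_lit 1748) (nat_lit 980777684) (nat_lit 1748) (nat_lit 980777684) (nat_lit 395) (nat_lit 3) (nat_lit 418) (nat_lit 3) (nat_lit 418) (nat_lit 5) (nat_lit 484) (nat_lit 484) (nat_lit 172)) (XT.lf (nat_lit 76) (nat_lit 12950238158) (nat_lit 0) (nat_lit 15635134572) (nat_lit 1748) (nat_lit 3814194282) (nat_lit 396) (nat_lit 5) (nat_lit 395) (nat_lit 3) (nat_lit 418) (nat_lit 5) (nat_lit 485) (nat_lit 484) (nat_lit 171)))) (XT.nd (nat_lit 156) (nat_lit 0) (nat_lit 76) (XT.nd (nat_lit 78) (nat_lit 0) (nat_lit 76) (XT.lf (nat_lit 76) (nat_lit 28186027900) (nat_lit 0) (nat_lit 846222165) (nat_lit 1748) (nat_lit 3691315024) (nat_lit 396) (nat_lit 5) (nat_lit 395) (nat_lit 3) (nat_lit 418) (nat_lit 5) (nat_lit 486)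 (nat_lit 484) (nat_lit 170)) (XT.lf (nat_lit 76) (nat_lit 10719786261) (nat_lit 0) (nat_lit 18928752158) (nat_lit 1748) (nat_lit 3402296326) (nat_lit 397) (nat_lit 5) (nat_lit 396) (nat_lit 5) (nat_lit 419) (nat_lit 5) (nat_lit 487) (nat_lit 484) (nat_lit 169))) (XT.nd (nat_lit 78) (nat_lit 0) (nat_lit 76) (XT.lf (nat_lit 76) (nat_lit 26337240301) (nat_lit 0) (nat_lit 3974382021) (nat_lit 1748) (nat_lit 3072339143) (nat_lit 397) (nat_lit 5) (nat_lit 396) (nat_lit 5) (nat_lit 419) (nat_lit 5) (nat_lit 488) (nat_lit 484) (nat_lit 168)) (XT.lf (nat_lit 76) (nat_lit 8581748565) (nat_lit 0) (nat_lit 22533657045) (nat_lit 1748) (nat_lit 2605797401) (nat_lit 398) (nat_lit 5) (nat_lit 397) (nat_lit 5) (nat_lit 420) (nat_lit 5) (nat_lit 489) (nat_lit 484) (nat_lit 167))))) (XT.nd (nat_lit 59280) (nat_lit 0) (nat_lit 0) (XT.nd (nat_lit 59124) (nat_lit 0) (nat_lit 0) (XT.nd (nat_lit 59046) (nat_lit 152) (nat_lit 0) (XT.lf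 (nat_lit 76) (nat_lit 24590779267) (nat_lit 0) (nat_lit 7416431892) (nat_lit 1748) (nat_lit 2056540322) (nat_lit 398) (nat_lit 5) (nat_lit 397) (nat_lit 5) (nat_lit 420) (nat_lit 5) (nat_lit 490) (nat_lit 484) (nat_lit 166)) (XT.lf (nat_lit 76) (nat_lit 13270814517) (nat_lit 0) (nat_lit 16005729896) (nat_lit 1748) (nat_lit 3768542263) (nat_lit 396) (nat_lit 5) (nat_lit 395) (nat_lit 3) (nat_lit 418) (nat_lit 5) (nat_lit 486) (nat_lit 485) (nat_lit 169))) (XT.nd (nat_lit 78) (nat_lit 0) (nat_lit 76) (XT.lf (nat_lit 76) (nat_lit 28810112767) (nat_lit 0) (nat_lit 919904091) (nat_lit 1748) (nat_lit 3645596319) (nat_lit 396) (nat_lit 5) (nat_lit 395) (nat_lit 3) (nat_lit 418) (nat_lit 5) (nat_lit 487) (nat_lit 485) (nat_lit 168)) (XT.lf (nat_lit 76) (nat_lit 10996922516) (nat_lit 0) (nat_lit 19359458029) (nat_lit 1748) (nat_lit 3353094274) (nat_lit 397) (nat_lit 5) (nat_lit 396) (nat_lit 5) (nat_lit 419) (nat_lit 5)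 (nat_lit 488) (nat_lit 485) (nat_lit 167)))) (XT.nd (nat_lit 59280) (nat_lit 0) (nat_lit 0) (XT.nd (nat_lit 59202) (nat_lit 76) (nat_lit 0) (XT.lf (nat_lit 76) (nat_lit 26925495430) (nat_lit 0) (nat_lit 4104978316) (nat_lit 1748) (nat_lit 3018836928) (nat_lit 397) (nat_lit 5) (nat_lit 396) (nat_lit 5) (nat_lit 419) (nat_lit 5) (nat_lit 489) (nat_lit 485) (nat_lit 166)) (XT.lf (nat_lit 76) (nat_lit 13595411503) (nat_lit 0) (nat_lit 16381489084) (nat_lit 1748) (nat_lit 3726712123) (nat_lit 396) (nat_lit 5) (nat_lit 395) (nat_lit 3) (nat_lit 418) (nat_lit 5) (nat_lit 487) (nat_lit 486) (nat_lit 167))) (XT.nd (nat_lit 59358) (nat_lit 0) (nat_lit 0) (XT.lf (nat_lit 76) (nat_lit 29444335313) (nat_lit 0) (nat_lit 992855693) (nat_lit 1748) (nat_lit 3603605319) (nat_lit 396) (nat_lit 5) (nat_lit 395) (nat_lit 3) (nat_lit 418) (nat_lit 5) (nat_lit 488) (nat_lit 486) (nat_lit 166)) (XT.lf (nat_lit 76) (nat_lit 13924202370)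 (nat_lit 0) (nat_lit 16762602709) (nat_lit 1748) (nat_lit 3688596437) (nat_lit 396) (nat_lit 5) (nat_lit 395) (nat_lit 3) (nat_lit 418) (nat_lit 5) (nat_lit 488) (nat_lit 487) (nat_lit 165))))))))

set_option maxRecDepth 10000000 in
noncomputable def Tp : PT := (PT.nd (nat_lit 11707020) (PT.nd (nat_lit 10402860) (PT.nd (nat_lit 9216636) (PT.nd (nat_lit 8149284) (PT.nd (nat_lit 7318350) (PT.nd (nat_lit 6665880) pc0 pc1) (PT.nd (nat_lit 474630) pc2 pc3)) (PT.nd (nat_lit 593190) (PT.nd (nat_lit 355290) pc4 pc5) (PT.nd (nat_lit 237354) pc6 pc7))) (PT.nd (nat_lit 653328) (PT.nd (nat_lit 356304) (PT.nd (nat_lit 178308) pc8 pc9) (PT.nd (nat_lit 177450) pc10 pc11)) (PT.nd (nat_lit 295776) (PT.nd (nat_lit 176748) pc12 pc13) (PT.nd (nat_lit 118638) pc14 pc15)))) (PT.nd (nat_lit 769782) (PT.nd (nat_lit 415194) (PT.nd (nat_lit 236418) (PT.nd (nat_lit 118326) pc16 pc17) (PT.nd (nat_lit 61152) pc18 pc19)) (PT.nd (nat_lit 177684)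 (PT.nd (nat_lit 60840) pc20 pc21) (PT.nd (nat_lit 60528) pc22 pc23))) (PT.nd (nat_lit 240630) (PT.nd (nat_lit 120588) (PT.nd (nat_lit 60294) pc24 pc25) (PT.nd (nat_lit 60060) pc26 pc27)) (PT.nd (nat_lit 174798) (PT.nd (nat_lit 115050) pc28 pc29) (PT.nd (nat_lit 59514) pc30 pc31))))) (PT.nd (nat_lit 773916) (PT.nd (nat_lit 416832) (PT.nd (nat_lit 236340) (PT.nd (nat_lit 118404) (PT.nd (nat_lit 59280) pc32 pc33) (PT.nd (nat_lit 58968) pc34 pc35)) (PT.nd (nat_lit 63336) (PT.nd (nat_lit 58734) pc36 pc37) (PT.nd (nat_lit 58578) pc38 pc39))) (PT.nd (nat_lit 179244) (PT.nd (nat_lit 116610) (PT.nd (nat_lit 58344) pc40 pc41) (PT.nd (nat_lit 58032) pc42 pc43)) (PT.nd (nat_lit 115674) (PT.nd (nat_lit 57876) pc44 pc45) (PT.nd (nat_lit 57564) pc46 pc47)))) (PT.nd (nat_lit 416052) (PT.nd (nat_lit 177060) (PT.nd (nat_lit 114738) (PT.nd (nat_lit 57408) pc48 pc49) (PT.nd (nat_lit 4524) pc50 pc51)) (PT.nd (nat_lit 115752) (PT.nd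 (nat_lit 56940) pc52 pc53) (PT.nd (nat_lit 59436) pc54 pc55))) (PT.nd (nat_lit 409110) (PT.nd (nat_lit 178308) (PT.nd (nat_lit 112242) pc56 pc57) (PT.nd (nat_lit 112320) pc58 pc59)) (PT.nd (nat_lit 304668) (PT.nd (nat_lit 126516) pc60 pc61) (PT.nd (nat_lit 227994) pc62 pc63))))))

set_option maxRecDepth 10000000 in
noncomputable def Tx : XT := (XT.nd (nat_lit 18086406) (nat_lit 0) (nat_lit 608) XT.nil (XT.nd (nat_lit 10859082) (nat_lit 0) (nat_lit 0) (XT.nd (nat_lit 5101044) (nat_lit 0) (nat_lit 2660) (XT.nd (nat_lit 3554226) (nat_lit 0) (nat_lit 1140) (XT.nd (nat_lit 2488512) (nat_lit 0) (nat_lit 380) (XT.nd (nat_lit 1720056) (nat_lit 0) (nat_lit 228) (XT.nd (nat_lit 1186770) (nat_lit 0) (nat_lit 76) (XT.nd (nat_lit 830154) (nat_lit 0) (nat_lit 76) (XT.nd (nat_lit 592254) (nat_lit 0) (nat_lit 76) (XT.nd (nat_lit 414414) (nat_lit 0) (nat_lit 0) xc0 xc1) (XT.nd (nat_lit 119262) (nat_lit 0) (nat_lit 0) xc2 xc3))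 (XT.nd (nat_lit 235404) (nat_lit 0) (nat_lit 0) (XT.nd (nat_lit 118014) (nat_lit 0) (nat_lit 0) xc4 xc5) (XT.nd (nat_lit 60684) (nat_lit 0) (nat_lit 0) xc6 xc7))) (XT.nd (nat_lit 295854) (nat_lit 0) (nat_lit 76) (XT.nd (nat_lit 176202) (nat_lit 0) (nat_lit 0) (XT.nd (nat_lit 116142) (nat_lit 0) (nat_lit 0) xc8 xc9) (XT.nd (nat_lit 59904) (nat_lit 0) (nat_lit 76) xc10 xc11)) (XT.nd (nat_lit 119028) (nat_lit 0) (nat_lit 0) (XT.nd (nat_lit 59592) (nat_lit 0) (nat_lit 0) xc12 xc13) (XT.nd (nat_lit 59280) (nat_lit 0) (nat_lit 0) xc14 xc15)))) (XT.nd (nat_lit 414180) (nat_lit 0) (nat_lit 76) (XT.nd (nat_lit 234936) (nat_lit 0) (nat_lit 76) (XT.nd (nat_lit 117780) (nat_lit 0) (nat_lit 0) (XT.nd (nat_lit 58968) (nat_lit 0) (nat_lit 0) xc16 xc17) (XT.nd (nat_lit 58656) (nat_lit 0) (nat_lit 76) xc18 xc19)) (XT.nd (nat_lit 62868) (nat_lit 0) (nat_lit 0) (XT.nd (nat_lit 58422) (nat_lit 0) (nat_lit 152) xc20 xc21) (XT.nd (nat_lit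 58266) (nat_lit 0) (nat_lit 0) xc22 xc23))) (XT.nd (nat_lit 177840) (nat_lit 0) (nat_lit 76) (XT.nd (nat_lit 115752) (nat_lit 0) (nat_lit 76) (XT.nd (nat_lit 57954) (nat_lit 0) (nat_lit 76) xc24 xc25) (XT.nd (nat_lit 4446) (nat_lit 836) (nat_lit 0) xc26 xc27)) (XT.nd (nat_lit 61932) (nat_lit 0) (nat_lit 0) (XT.nd (nat_lit 57486) (nat_lit 0) (nat_lit 228) xc28 xc29) (XT.nd (nat_lit 57330) (nat_lit 0) (nat_lit 0) xc30 xc31))))) (XT.nd (nat_lit 590148) (nat_lit 0) (nat_lit 532) (XT.nd (nat_lit 296868) (nat_lit 0) (nat_lit 228) (XT.nd (nat_lit 122772) (nat_lit 0) (nat_lit 228) (XT.nd (nat_lit 61464) (nat_lit 0) (nat_lit 228) (XT.nd (nat_lit 4446) (nat_lit 228) (nat_lit 0) xc32 xc33) (XT.nd (nat_lit 56862) (nat_lit 0) (nat_lit 304) xc34 xc35)) (XT.nd (nat_lit 113256) (nat_lit 0) (nat_lit 0) (XT.nd (nat_lit 56706) (nat_lit 0) (nat_lit 0) xc36 xc37) (XT.nd (nat_lit 4446) (nat_lit 988) (nat_lit 0) xc38 xc39))) (XT.nd (nat_lit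 121290) (nat_lit 0) (nat_lit 76) (XT.nd (nat_lit 60684) (nat_lit 0) (nat_lit 76) (XT.nd (nat_lit 56238) (nat_lit 0) (nat_lit 3040) xc40 xc41) (XT.nd (nat_lit 56160) (nat_lit 0) (nat_lit 1444) xc42 xc43)) (XT.nd (nat_lit 60450) (nat_lit 0) (nat_lit 0) (XT.nd (nat_lit 56004) (nat_lit 0) (nat_lit 532) xc44 xc45) (XT.nd (nat_lit 55848) (nat_lit 0) (nat_lit 152) xc46 xc47)))) (XT.nd (nat_lit 238992) (nat_lit 0) (nat_lit 76) (XT.nd (nat_lit 119808) (nat_lit 0) (nat_lit 0) (XT.nd (nat_lit 59982) (nat_lit 0) (nat_lit 0) (XT.nd (nat_lit 4446) (nat_lit 3648) (nat_lit 0) xc48 xc49) (XT.nd (nat_lit 4446) (nat_lit 2736) (nat_lit 0) xc50 xc51)) (XT.nd (nat_lit 59670) (nat_lit 0) (nat_lit 0) (XT.nd (nat_lit 4446) (nat_lit 2052) (nat_lit 0) xc52 xc53) (XT.nd (nat_lit 4446) (nat_lit 1748) (nat_lit 0) xc54 xc55))) (XT.nd (nat_lit 118560) (nat_lit 0) (nat_lit 0) (XT.nd (nat_lit 59358) (nat_lit 0) (nat_lit 0) (XT.nd (nat_lit 4446)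 (nat_lit 1520) (nat_lit 0) xc56 xc57) (XT.nd (nat_lit 4446) (nat_lit 1520) (nat_lit 0) xc58 xc59)) (XT.nd (nat_lit 59046) (nat_lit 0) (nat_lit 152) (XT.nd (nat_lit 4446) (nat_lit 1748) (nat_lit 0) xc60 xc61) (XT.nd (nat_lit 4446) (nat_lit 2052) (nat_lit 0) xc62 xc63)))))) (XT.nd (nat_lit 827346) (nat_lit 0) (nat_lit 608) (XT.nd (nat_lit 417300) (nat_lit 0) (nat_lit 304) (XT.nd (nat_lit 184860) (nat_lit 0) (nat_lit 152) (XT.nd (nat_lit 117468) (nat_lit 0) (nat_lit 152) (XT.nd (nat_lit 58812) (nat_lit 0) (nat_lit 76) (XT.nd (nat_lit 4446) (nat_lit 2736) (nat_lit 0) xc64 xc65) (XT.nd (nat_lit 4446) (nat_lit 3648) (nat_lit 0) xc66 xc67)) (XT.nd (nat_lit 58500) (nat_lit 0) (nat_lit 152) (XT.nd (nat_lit 4446) (nat_lit 4940) (nat_lit 0) xc68 xc69) (XT.nd (nat_lit 4446) (nat_lit 7144) (nat_lit 0) xc70 xc71))) (XT.nd (nat_lit 116532) (nat_lit 0) (nat_lit 0) (XT.nd (nat_lit 58344) (nat_lit 0) (nat_lit 0) (XT.nd (nat_lit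 53898) (nat_lit 0) (nat_lit 1216) xc72 xc73) (XT.nd (nat_lit 53742) (nat_lit 0) (nat_lit 2736) xc74 xc75)) (XT.nd (nat_lit 58032) (nat_lit 0) (nat_lit 152) (XT.nd (nat_lit 53586) (nat_lit 0) (nat_lit 5244) xc76 xc77) (XT.nd (nat_lit 53430) (nat_lit 0) (nat_lit 9120) xc78 xc79)))) (XT.nd (nat_lit 181662) (nat_lit 0) (nat_lit 152) (XT.nd (nat_lit 115284) (nat_lit 0) (nat_lit 152) (XT.nd (nat_lit 57720) (nat_lit 0) (nat_lit 0) (XT.nd (nat_lit 4446) (nat_lit 684) (nat_lit 0) xc80 xc81) (XT.nd (nat_lit 4446) (nat_lit 2812) (nat_lit 0) xc82 xc83)) (XT.nd (nat_lit 57486) (nat_lit 0) (nat_lit 1824) (XT.nd (nat_lit 4446) (nat_lit 6232) (nat_lit 0) xc84 xc85) (XT.nd (nat_lit 4446) (nat_lit 10564) (nat_lit 0) xc86 xc87))) (XT.nd (nat_lit 114504) (nat_lit 0) (nat_lit 152) (XT.nd (nat_lit 57330) (nat_lit 0) (nat_lit 152) (XT.nd (nat_lit 52884) (nat_lit 0) (nat_lit 5168) xc88 xc89) (XT.nd (nat_lit 52728) (nat_lit 0) (nat_lit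 11628) xc90 xc91)) (XT.nd (nat_lit 57018) (nat_lit 0) (nat_lit 0) (XT.nd (nat_lit 4446) (nat_lit 1368) (nat_lit 0) xc92 xc93) (XT.nd (nat_lit 4446) (nat_lit 5396) (nat_lit 0) xc94 xc95))))) (XT.nd (nat_lit 358254) (nat_lit 0) (nat_lit 532) (XT.nd (nat_lit 178776) (nat_lit 0) (nat_lit 380) (XT.nd (nat_lit 65598) (nat_lit 0) (nat_lit 152) (XT.nd (nat_lit 8892) (nat_lit 2128) (nat_lit 0) (XT.nd (nat_lit 4446) (nat_lit 11704) (nat_lit 0) xc96 xc97) (XT.nd (nat_lit 52260) (nat_lit 0) (nat_lit 7524) xc98 xc99)) (XT.nd (nat_lit 56550) (nat_lit 0) (nat_lit 76) (XT.nd (nat_lit 52104) (nat_lit 0) (nat_lit 18924) xc100 xc101) (XT.nd (nat_lit 4446) (nat_lit 3648) (nat_lit 0) xc102 xc103))) (XT.nd (nat_lit 65676) (nat_lit 0) (nat_lit 0) (XT.nd (nat_lit 8892) (nat_lit 988) (nat_lit 0) (XT.nd (nat_lit 4446) (nat_lit 9804) (nat_lit 0) xc104 xc105) (XT.nd (nat_lit 52338) (nat_lit 0) (nat_lit 5320) xc106 xc107)) (XT.nd (nat_lit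 56862) (nat_lit 0) (nat_lit 0) (XT.nd (nat_lit 52416) (nat_lit 0) (nat_lit 14060) xc108 xc109) (XT.nd (nat_lit 4446) (nat_lit 1900) (nat_lit 0) xc110 xc111)))) (XT.nd (nat_lit 180180) (nat_lit 0) (nat_lit 228) (XT.nd (nat_lit 65910) (nat_lit 0) (nat_lit 76) (XT.nd (nat_lit 57018) (nat_lit 0) (nat_lit 2508) (XT.nd (nat_lit 4446) (nat_lit 6612) (nat_lit 0) xc112 xc113) (XT.nd (nat_lit 4446) (nat_lit 13224) (nat_lit 0) xc114 xc115)) (XT.nd (nat_lit 57096) (nat_lit 0) (nat_lit 0) (XT.nd (nat_lit 52650) (nat_lit 0) (nat_lit 7296) xc116 xc117) (XT.nd (nat_lit 52728) (nat_lit 0) (nat_lit 15656) xc118 xc119))) (XT.nd (nat_lit 114660) (nat_lit 0) (nat_lit 152) (XT.nd (nat_lit 57252) (nat_lit 0) (nat_lit 152) (XT.nd (nat_lit 4446) (nat_lit 2508) (nat_lit 0) xc120 xc121) (XT.nd (nat_lit 4446) (nat_lit 6992) (nat_lit 0) xc122 xc123)) (XT.nd (nat_lit 8892) (nat_lit 1900) (nat_lit 0) (XT.nd (nat_lit 4446) (nat_lit 12160) (nat_lit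 0) xc124 xc125) (XT.nd (nat_lit 53040) (nat_lit 0) (nat_lit 5472) xc126 xc127))))))) (XT.nd (nat_lit 1835574) (nat_lit 0) (nat_lit 4104) (XT.nd (nat_lit 831636) (nat_lit 0) (nat_lit 1596) (XT.nd (nat_lit 413556) (nat_lit 0) (nat_lit 760) (XT.nd (nat_lit 230646) (nat_lit 0) (nat_lit 456) (XT.nd (nat_lit 115128) (nat_lit 0) (nat_lit 304) (XT.nd (nat_lit 57486) (nat_lit 0) (nat_lit 304) (XT.nd (nat_lit 53040) (nat_lit 0) (nat_lit 11704) xc128 xc129) (XT.nd (nat_lit 4446) (nat_lit 836) (nat_lit 0) xc130 xc131)) (XT.nd (nat_lit 57720) (nat_lit 0) (nat_lit 0) (XT.nd (nat_lit 4446) (nat_lit 3800) (nat_lit 0) xc132 xc133) (XT.nd (nat_lit 4446) (nat_lit 7980) (nat_lit 0) xc134 xc135))) (XT.nd (nat_lit 66768) (nat_lit 0) (nat_lit 228) (XT.nd (nat_lit 8892) (nat_lit 1672) (nat_lit 0) (XT.nd (nat_lit 4446) (nat_lit 11856) (nat_lit 0) xc136 xc137) (XT.nd (nat_lit 53430) (nat_lit 0) (nat_lit 4332) xc138 xc139)) (XT.nd (nat_lit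 58032) (nat_lit 0) (nat_lit 76) (XT.nd (nat_lit 53586) (nat_lit 0) (nat_lit 7980) xc140 xc141) (XT.nd (nat_lit 53664) (nat_lit 0) (nat_lit 12692) xc142 xc143)))) (XT.nd (nat_lit 233220) (nat_lit 0) (nat_lit 380) (XT.nd (nat_lit 116454) (nat_lit 0) (nat_lit 152) (XT.nd (nat_lit 58188) (nat_lit 0) (nat_lit 152) (XT.nd (nat_lit 4446) (nat_lit 1140) (nat_lit 0) xc144 xc145) (XT.nd (nat_lit 4446) (nat_lit 2964) (nat_lit 0) xc146 xc147)) (XT.nd (nat_lit 58344) (nat_lit 0) (nat_lit 228) (XT.nd (nat_lit 4446) (nat_lit 5624) (nat_lit 0) xc148 xc149) (XT.nd (nat_lit 4446) (nat_lit 8512) (nat_lit 0) xc150 xc151))) (XT.nd (nat_lit 67470) (nat_lit 0) (nat_lit 228) (XT.nd (nat_lit 8892) (nat_lit 760) (nat_lit 0) (XT.nd (nat_lit 4446) (nat_lit 11476) (nat_lit 0) xc152 xc153) (XT.nd (nat_lit 54132) (nat_lit 0) (nat_lit 2128) xc154 xc155)) (XT.nd (nat_lit 58656) (nat_lit 0) (nat_lit 0) (XT.nd (nat_lit 54210) (nat_lit 0) (nat_lit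 3344) xc156 xc157) (XT.nd (nat_lit 54288) (nat_lit 0) (nat_lit 4788) xc158 xc159))))) (XT.nd (nat_lit 473226) (nat_lit 0) (nat_lit 1064) (XT.nd (nat_lit 235872) (nat_lit 0) (nat_lit 532) (XT.nd (nat_lit 117702) (nat_lit 0) (nat_lit 228) (XT.nd (nat_lit 58812) (nat_lit 0) (nat_lit 0) (XT.nd (nat_lit 54366) (nat_lit 0) (nat_lit 6232) xc160 xc161) (XT.nd (nat_lit 54444) (nat_lit 0) (nat_lit 8056) xc162 xc163)) (XT.nd (nat_lit 59046) (nat_lit 0) (nat_lit 76) (XT.nd (nat_lit 54600) (nat_lit 0) (nat_lit 8816) xc164 xc165) (XT.nd (nat_lit 54678) (nat_lit 0) (nat_lit 9728) xc166 xc167))) (XT.nd (nat_lit 118482) (nat_lit 0) (nat_lit 228) (XT.nd (nat_lit 59202) (nat_lit 0) (nat_lit 0) (XT.nd (nat_lit 54756) (nat_lit 0) (nat_lit 10640) xc168 xc169) (XT.nd (nat_lit 54834) (nat_lit 0) (nat_lit 11248) xc170 xc171)) (XT.nd (nat_lit 59358) (nat_lit 0) (nat_lit 76) (XT.nd (nat_lit 54912) (nat_lit 0) (nat_lit 11020) xc172 xc173)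 (XT.nd (nat_lit 55068) (nat_lit 0) (nat_lit 10944) xc174 xc175)))) (XT.nd (nat_lit 238836) (nat_lit 0) (nat_lit 608) (XT.nd (nat_lit 119262) (nat_lit 0) (nat_lit 228) (XT.nd (nat_lit 59592) (nat_lit 0) (nat_lit 0) (XT.nd (nat_lit 55146) (nat_lit 0) (nat_lit 10108) xc176 xc177) (XT.nd (nat_lit 55224) (nat_lit 0) (nat_lit 8968) xc178 xc179)) (XT.nd (nat_lit 59748) (nat_lit 0) (nat_lit 0) (XT.nd (nat_lit 55302) (nat_lit 0) (nat_lit 7676) xc180 xc181) (XT.nd (nat_lit 55380) (nat_lit 0) (nat_lit 6232) xc182 xc183))) (XT.nd (nat_lit 120042) (nat_lit 0) (nat_lit 228) (XT.nd (nat_lit 59982) (nat_lit 0) (nat_lit 228) (XT.nd (nat_lit 55536) (nat_lit 0) (nat_lit 4484) xc184 xc185) (XT.nd (nat_lit 55614) (nat_lit 0) (nat_lit 2660) xc186 xc187)) (XT.nd (nat_lit 60138) (nat_lit 0) (nat_lit 0) (XT.nd (nat_lit 55692) (nat_lit 0) (nat_lit 912) xc188 xc189) (XT.nd (nat_lit 55770) (nat_lit 0) (nat_lit 304) xc190 xc191)))))) (XT.nd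 (nat_lit 1192308) (nat_lit 0) (nat_lit 4560) (XT.nd (nat_lit 538590) (nat_lit 0) (nat_lit 1672) (XT.nd (nat_lit 242346) (nat_lit 0) (nat_lit 608) (XT.nd (nat_lit 120978) (nat_lit 0) (nat_lit 304) (XT.nd (nat_lit 60450) (nat_lit 0) (nat_lit 0) (XT.nd (nat_lit 4446) (nat_lit 8056) (nat_lit 0) xc192 xc193) (XT.nd (nat_lit 4446) (nat_lit 4560) (nat_lit 0) xc194 xc195)) (XT.nd (nat_lit 60606) (nat_lit 0) (nat_lit 304) (XT.nd (nat_lit 4446) (nat_lit 1444) (nat_lit 0) xc196 xc197) (XT.nd (nat_lit 56316) (nat_lit 0) (nat_lit 6916) xc198 xc199))) (XT.nd (nat_lit 173862) (nat_lit 0) (nat_lit 684) (XT.nd (nat_lit 60840) (nat_lit 0) (nat_lit 380) (XT.nd (nat_lit 56394) (nat_lit 0) (nat_lit 2660) xc200 xc201) (XT.nd (nat_lit 56472) (nat_lit 0) (nat_lit 0) xc202 xc203)) (XT.nd (nat_lit 61152) (nat_lit 0) (nat_lit 380) (XT.nd (nat_lit 4446) (nat_lit 6232) (nat_lit 0) xc204 xc205) (XT.nd (nat_lit 4446) (nat_lit 380) (nat_lit 0)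 xc206 xc207)))) (XT.nd (nat_lit 298818) (nat_lit 0) (nat_lit 1216) (XT.nd (nat_lit 175422) (nat_lit 0) (nat_lit 760) (XT.nd (nat_lit 61308) (nat_lit 0) (nat_lit 380) (XT.nd (nat_lit 56862) (nat_lit 0) (nat_lit 2508) xc208 xc209) (XT.nd (nat_lit 57018) (nat_lit 0) (nat_lit 0) xc210 xc211)) (XT.nd (nat_lit 61620) (nat_lit 0) (nat_lit 380) (XT.nd (nat_lit 4446) (nat_lit 2584) (nat_lit 0) xc212 xc213) (XT.nd (nat_lit 57330) (nat_lit 0) (nat_lit 2204) xc214 xc215))) (XT.nd (nat_lit 176982) (nat_lit 0) (nat_lit 760) (XT.nd (nat_lit 114894) (nat_lit 0) (nat_lit 760) (XT.nd (nat_lit 57408) (nat_lit 0) (nat_lit 380) xc216 xc217) (XT.nd (nat_lit 57642) (nat_lit 0) (nat_lit 5624) xc218 xc219)) (XT.nd (nat_lit 115518) (nat_lit 0) (nat_lit 912) (XT.nd (nat_lit 57720) (nat_lit 0) (nat_lit 456) xc220 xc221) (XT.nd (nat_lit 4446) (nat_lit 988) (nat_lit 0) xc222 xc223))))) (XT.nd (nat_lit 831402) (nat_lit 0) (nat_lit 5244) (XT.nd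 (nat_lit 412932) (nat_lit 0) (nat_lit 2432) (XT.nd (nat_lit 178854) (nat_lit 0) (nat_lit 988) (XT.nd (nat_lit 116142) (nat_lit 0) (nat_lit 912) (XT.nd (nat_lit 58032) (nat_lit 0) (nat_lit 456) xc224 xc225) (XT.nd (nat_lit 58266) (nat_lit 0) (nat_lit 3116) xc226 xc227)) (XT.nd (nat_lit 116844) (nat_lit 0) (nat_lit 912) (XT.nd (nat_lit 58344) (nat_lit 0) (nat_lit 456) xc228 xc229) (XT.nd (nat_lit 58578) (nat_lit 0) (nat_lit 0) xc230 xc231))) (XT.nd (nat_lit 181194) (nat_lit 0) (nat_lit 1064) (XT.nd (nat_lit 63258) (nat_lit 0) (nat_lit 532) (XT.nd (nat_lit 58812) (nat_lit 0) (nat_lit 1064) xc232 xc233) (XT.nd (nat_lit 58890) (nat_lit 0) (nat_lit 532) xc234 xc235)) (XT.nd (nat_lit 118404) (nat_lit 0) (nat_lit 1140) (XT.nd (nat_lit 59124) (nat_lit 0) (nat_lit 532) xc236 xc237) (XT.nd (nat_lit 59358) (nat_lit 0) (nat_lit 608) xc238 xc239)))) (XT.nd (nat_lit 592488) (nat_lit 0) (nat_lit 5472) (XT.nd (nat_lit 294762) (nat_lit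 0) (nat_lit 2584) (XT.nd (nat_lit 119340) (nat_lit 0) (nat_lit 1216) (XT.nd (nat_lit 59592) (nat_lit 0) (nat_lit 608) xc240 xc241) (XT.nd (nat_lit 115362) (nat_lit 0) (nat_lit 760) xc242 xc243)) (XT.nd (nat_lit 120510) (nat_lit 0) (nat_lit 1368) (XT.nd (nat_lit 60216) (nat_lit 0) (nat_lit 684) xc244 xc245) (XT.nd (nat_lit 116532) (nat_lit 0) (nat_lit 760) xc246 xc247))) (XT.nd (nat_lit 414804) (nat_lit 0) (nat_lit 5016) (XT.nd (nat_lit 178308) (nat_lit 0) (nat_lit 1520) (XT.nd (nat_lit 60762) (nat_lit 0) (nat_lit 760) xc248 xc249) (XT.nd (nat_lit 118014) (nat_lit 0) (nat_lit 1672) xc250 xc251)) (XT.nd (nat_lit 238680) (nat_lit 0) (nat_lit 912) (XT.nd (nat_lit 119028) (nat_lit 0) (nat_lit 912) xc252 xc253) (XT.nd (nat_lit 178308) (nat_lit 0) (nat_lit 0) xc254 xc255)))))))) XT.nil))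

set_option maxRecDepth 10000000 in
noncomputable def Te : XT := XT.nil

set_option maxRecDepth 10000000 in
noncomputable def Tz : ZL := (ZL.cons (nat_lit 76) (nat_lit 6) (nat_lit 217301250536073932806) (ZL.cons (nat_lit 152) (nat_lit 3) (nat_lit 107641157176562376886) (ZL.cons (nat_lit 456) (nat_lit 6) (nat_lit 194643160985079079222) (ZL.cons (nat_lit 532) (nat_lit 6) (nat_lit 192920816721728647774) (ZL.cons (nat_lit 608) (nat_lit 3) (nat_lit 96442060408037726015) (ZL.cons (nat_lit 684) (nat_lit 6) (nat_lit 191164025573111207700) (ZL.cons (nat_lit 760) (nat_lit 6) (nat_lit 189482200709032242608) (ZL.cons (nat_lit 836) (nat_lit 3) (nat_lit 94723112165470437114) (ZL.cons (nat_lit 912) (nat_lit 6) (nat_lit 187766739347671698212) (ZL.cons (nat_lit 988) (nat_lit 6) (nat_lit 186124912001741613306) (ZL.cons (nat_lit 1064) (nat_lit 3) (nat_lit 93044820521414253527) (ZL.cons (nat_lit 1216) (nat_lit 6) (nat_lit 184450248108892926704)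 (ZL.cons (nat_lit 1292) (nat_lit 6) (nat_lit 182847917646675178504) (ZL.cons (nat_lit 1368) (nat_lit 3) (nat_lit 91406669137595870500) (ZL.cons (nat_lit 1444) (nat_lit 6) (nat_lit 181282021291288118240) (ZL.cons (nat_lit 1520) (nat_lit 6) (nat_lit 181213540575213075340) (ZL.cons (nat_lit 1596) (nat_lit 6) (nat_lit 179650227637309879264) (ZL.cons (nat_lit 1672) (nat_lit 3) (nat_lit 89808163146359136934) (ZL.cons (nat_lit 1748) (nat_lit 6) (nat_lit 178122786397584935832) (ZL.cons (nat_lit 1824) (nat_lit 6) (nat_lit 178055648440648619266) (ZL.cons (nat_lit 1900) (nat_lit 6) (nat_lit 176530894988473888138) (ZL.cons (nat_lit 1976) (nat_lit 3) (nat_lit 88248829188064588484) (ZL.cons (nat_lit 2052) (nat_lit 6) (nat_lit 175041467993663815886) (ZL.cons (nat_lit 2128) (nat_lit 6) (nat_lit 174975646467255662390) (ZL.cons (nat_lit 2204) (nat_lit 6) (nat_lit 173489015846612831018) (ZL.cons (nat_lit 2280) (nat_lit 3) (nat_lit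 86728215466274694346) (ZL.cons (nat_lit 2356) (nat_lit 6) (nat_lit 172037183521800430762) (ZL.cons (nat_lit 2432) (nat_lit 6) (nat_lit 171972652613557143018) (ZL.cons (nat_lit 2508) (nat_lit 6) (nat_lit 170619580146808731264) (ZL.cons (nat_lit 2584) (nat_lit 6) (nat_lit 170523729636428340172) (ZL.cons (nat_lit 2660) (nat_lit 3) (nat_lit 85245891821124247377) (ZL.cons (nat_lit 2736) (nat_lit 6) (nat_lit 169109093796073910036) (ZL.cons (nat_lit 2812) (nat_lit 6) (nat_lit 169045828199756961270) (ZL.cons (nat_lit 2888) (nat_lit 6) (nat_lit 167728190333340772442) (ZL.cons (nat_lit 2964) (nat_lit 6) (nat_lit 167634219244732545880) (ZL.cons (nat_lit 3040) (nat_lit 3) (nat_lit 83801449821297721266) (ZL.cons (nat_lit 3116) (nat_lit 6) (nat_lit 166256403205036023330) (ZL.cons (nat_lit 3192) (nat_lit 6) (nat_lit 166194378110607642186) (ZL.cons (nat_lit 3268) (nat_lit 6) (nat_lit 164911839760651826350) (ZL.cons (nat_lit 3344)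 (nat_lit 6) (nat_lit 164819711242408466978) (ZL.cons (nat_lit 3420) (nat_lit 3) (nat_lit 82394502875058594591) (ZL.cons (nat_lit 3572) (nat_lit 6) (nat_lit 163478359952951564286) (ZL.cons (nat_lit 3648) (nat_lit 6) (nat_lit 163417551036845308262) (ZL.cons (nat_lit 3724) (nat_lit 6) (nat_lit 162169798222123421606) (ZL.cons (nat_lit 3800) (nat_lit 6) (nat_lit 162079476145414245748) (ZL.cons (nat_lit 3876) (nat_lit 3) (nat_lit 81024686360799633760) (ZL.cons (nat_lit 3952) (nat_lit 6) (nat_lit 160893512888460969072) (ZL.cons (nat_lit 4028) (nat_lit 6) (nat_lit 160774256340572460046) (ZL.cons (nat_lit 4104) (nat_lit 6) (nat_lit 160714639756154561984) (ZL.cons (nat_lit 4180) (nat_lit 6) (nat_lit 159501379771416091632) (ZL.cons (nat_lit 4256) (nat_lit 6) (nat_lit 159412828715818860402) (ZL.cons (nat_lit 4332) (nat_lit 3) (nat_lit 79691657777607970284) (ZL.cons (nat_lit 4408) (nat_lit 6) (nat_lit 158260347270663118404)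 (ZL.cons (nat_lit 4484) (nat_lit 6) (nat_lit 158143429086458697790) (ZL.cons (nat_lit 4560) (nat_lit 6) (nat_lit 158084981454676444788) (ZL.cons (nat_lit 4636) (nat_lit 6) (nat_lit 156905943064297854478) (ZL.cons (nat_lit 4712) (nat_lit 6) (nat_lit 156819128303908412092) (ZL.cons (nat_lit 4788) (nat_lit 3) (nat_lit 78395096916364539462) (ZL.cons (nat_lit 4864) (nat_lit 6) (nat_lit 155699885360700188954) (ZL.cons (nat_lit 4940) (nat_lit 6) (nat_lit 155585259689911541294) (ZL.cons (nat_lit 5016) (nat_lit 6) (nat_lit 155527958090125018742) (ZL.cons (nat_lit 5092) (nat_lit 6) (nat_lit 154524783011860368808) (ZL.cons (nat_lit 5168) (nat_lit 6) (nat_lit 154382891742641127738) (ZL.cons (nat_lit 5244) (nat_lit 6) (nat_lit 154297779232455399912) (ZL.cons (nat_lit 5320) (nat_lit 3) (nat_lit 77134706051924105264) (ZL.cons (nat_lit 5396) (nat_lit 6) (nat_lit 153211552945255104596) (ZL.cons (nat_lit 5472) (nat_lit 6) (nat_lit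 153099174836638783360) (ZL.cons (nat_lit 5548) (nat_lit 6) (nat_lit 153042996797632388702) (ZL.cons (nat_lit 5624) (nat_lit 6) (nat_lit 152070783949205477348) (ZL.cons (nat_lit 5700) (nat_lit 6) (nat_lit 151931674861735633164) (ZL.cons (nat_lit 5776) (nat_lit 6) (nat_lit 151848231224298645096) (ZL.cons (nat_lit 5852) (nat_lit 3) (nat_lit 75910210156949719911) (ZL.cons (nat_lit 5928) (nat_lit 6) (nat_lit 150794821464618536320) (ZL.cons (nat_lit 6004) (nat_lit 6) (nat_lit 150684646848328025304) (ZL.cons (nat_lit 6080) (nat_lit 6) (nat_lit 150629570339498226620) (ZL.cons (nat_lit 6156) (nat_lit 6) (nat_lit 149688168820425878282) (ZL.cons (nat_lit 6232) (nat_lit 6) (nat_lit 149551787362122109472) (ZL.cons (nat_lit 6308) (nat_lit 6) (nat_lit 149469979874438787840) (ZL.cons (nat_lit 6384) (nat_lit 3) (nat_lit 74721357138004097215) (ZL.cons (nat_lit 6460) (nat_lit 6) (nat_lit 148611282947728563890) (ZL.cons (nat_lit 6536)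 (nat_lit 6) (nat_lit 148449208507058856068) (ZL.cons (nat_lit 6612) (nat_lit 6) (nat_lit 148341194177362276642) (ZL.cons (nat_lit 6688) (nat_lit 6) (nat_lit 148287197600078160284) (ZL.cons (nat_lit 6764) (nat_lit 6) (nat_lit 147376477899273534400) (ZL.cons (nat_lit 6840) (nat_lit 6) (nat_lit 147242770587211015962) (ZL.cons (nat_lit 6916) (nat_lit 6) (nat_lit 147162567167913641810) (ZL.cons (nat_lit 6992) (nat_lit 3) (nat_lit 73567918094530059431) (ZL.cons (nat_lit 7068) (nat_lit 6) (nat_lit 146333174860096424738) (ZL.cons (nat_lit 7144) (nat_lit 6) (nat_lit 146174278349635926874) (ZL.cons (nat_lit 7220) (nat_lit 6) (nat_lit 146068381947972613710) (ZL.cons (nat_lit 7296) (nat_lit 6) (nat_lit 146015444127105832968) (ZL.cons (nat_lit 7372) (nat_lit 6) (nat_lit 145135298448073254442) (ZL.cons (nat_lit 7448) (nat_lit 6) (nat_lit 145004212848011961852) (ZL.cons (nat_lit 7524) (nat_lit 6) (nat_lit 144925582044779242098)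 (ZL.cons (nat_lit 7600) (nat_lit 3) (nat_lit 72449687601382992152) (ZL.cons (nat_lit 7676) (nat_lit 6) (nat_lit 144125423439424346636) (ZL.cons (nat_lit 7752) (nat_lit 6) (nat_lit 143969642546816015396) (ZL.cons (nat_lit 7828) (nat_lit 6) (nat_lit 143865822545185316216) (ZL.cons (nat_lit 7904) (nat_lit 6) (nat_lit 143813922720806119410) (ZL.cons (nat_lit 7980) (nat_lit 6) (nat_lit 143144257294274047028) (ZL.cons (nat_lit 8056) (nat_lit 6) (nat_lit 142964265330541168088) (ZL.cons (nat_lit 8132) (nat_lit 6) (nat_lit 142835750036363430258) (ZL.cons (nat_lit 8208) (nat_lit 6) (nat_lit 142758661013586254026) (ZL.cons (nat_lit 8284) (nat_lit 3) (nat_lit 71366484015610157507) (ZL.cons (nat_lit 8360) (nat_lit 6) (nat_lit 141987686933612410182) (ZL.cons (nat_lit 8436) (nat_lit 6) (nat_lit 141834960568310124652) (ZL.cons (nat_lit 8512) (nat_lit 6) (nat_lit 141733176252985909770) (ZL.cons (nat_lit 8588) (nat_lit 6) (nat_lit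 141682294072221991332) (ZL.cons (nat_lit 8664) (nat_lit 6) (nat_lit 141039524384109377460) (ZL.cons (nat_lit 8740) (nat_lit 6) (nat_lit 140863061674567339288) (ZL.cons (nat_lit 8816) (nat_lit 6) (nat_lit 140737066288118576706) (ZL.cons (nat_lit 8892) (nat_lit 6) (nat_lit 140661488814807619618) (ZL.cons (nat_lit 8968) (nat_lit 3) (nat_lit 70318149808204820096) (ZL.cons (nat_lit 9044) (nat_lit 6) (nat_lit 140119405853581284420) (ZL.cons (nat_lit 9120) (nat_lit 6) (nat_lit 139919672218313998556) (ZL.cons (nat_lit 9196) (nat_lit 6) (nat_lit 139769940487625483332) (ZL.cons (nat_lit 9272) (nat_lit 6) (nat_lit 139670151943189978544) (ZL.cons (nat_lit 9348) (nat_lit 6) (nat_lit 139620267452244960468) (ZL.cons (nat_lit 9424) (nat_lit 6) (nat_lit 139004422242900591344) (ZL.cons (nat_lit 9500) (nat_lit 6) (nat_lit 138831419586486828428) (ZL.cons (nat_lit 9576) (nat_lit 6) (nat_lit 138707894697811570998) (ZL.cons (nat_lit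 9652) (nat_lit 6) (nat_lit 138633799135742005222) (ZL.cons (nat_lit 9728) (nat_lit 3) (nat_lit 69304551921597483286) (ZL.cons (nat_lit 9804) (nat_lit 6) (nat_lit 138116952826768132004) (ZL.cons (nat_lit 9880) (nat_lit 6) (nat_lit 137921135537290400764) (ZL.cons (nat_lit 9956) (nat_lit 6) (nat_lit 137774339722889895642) (ZL.cons (nat_lit 10032) (nat_lit 6) (nat_lit 137676507816580577224) (ZL.cons (nat_lit 10108) (nat_lit 6) (nat_lit 137627601452908990874) (ZL.cons (nat_lit 10184) (nat_lit 6) (nat_lit 137256915942694607806) (ZL.cons (nat_lit 10260) (nat_lit 6) (nat_lit 137038731365899260562) (ZL.cons (nat_lit 10336) (nat_lit 6) (nat_lit 136869120918434787116) (ZL.cons (nat_lit 10412) (nat_lit 6) (nat_lit 136748018086400221006) (ZL.cons (nat_lit 10488) (nat_lit 6) (nat_lit 136675375378488882014) (ZL.cons (nat_lit 10564) (nat_lit 3) (nat_lit 68325582153682167157) (ZL.cons (nat_lit 10640) (nat_lit 6) (nat_lit 136183861031461881884)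 (ZL.cons (nat_lit 10716) (nat_lit 6) (nat_lit 135991883296679792434) (ZL.cons (nat_lit 10792) (nat_lit 6) (nat_lit 135847965831581258000) (ZL.cons (nat_lit 10868) (nat_lit 6) (nat_lit 135752052197944671316) (ZL.cons (nat_lit 10944) (nat_lit 6) (nat_lit 135704104782580370974) (ZL.cons (nat_lit 11020) (nat_lit 6) (nat_lit 135356189290709857916) (ZL.cons (nat_lit 11096) (nat_lit 6) (nat_lit 135142282842871282186) (ZL.cons (nat_lit 11172) (nat_lit 6) (nat_lit 134975998090455131748) (ZL.cons (nat_lit 11248) (nat_lit 6) (nat_lit 134857269823754576740) (ZL.cons (nat_lit 11324) (nat_lit 6) (nat_lit 134786051482665028706) (ZL.cons (nat_lit 11400) (nat_lit 3) (nat_lit 67381157569212638032) (ZL.cons (nat_lit 11476) (nat_lit 6) (nat_lit 134555391566489952570) (ZL.cons (nat_lit 11552) (nat_lit 6) (nat_lit 134319986380360704018) (ZL.cons (nat_lit 11628) (nat_lit 6) (nat_lit 134131772914888067300) (ZL.cons (nat_lit 11704) (nat_lit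 6) (nat_lit 133990677360869896288) (ZL.cons (nat_lit 11780) (nat_lit 6) (nat_lit 133896644386716379930) (ZL.cons (nat_lit 11856) (nat_lit 6) (nat_lit 133849637116751379596) (ZL.cons (nat_lit 11932) (nat_lit 6) (nat_lit 133524671439947073388) (ZL.cons (nat_lit 12008) (nat_lit 6) (nat_lit 133314959236183763848) (ZL.cons (nat_lit 12084) (nat_lit 6) (nat_lit 133151934969109106556) (ZL.cons (nat_lit 12160) (nat_lit 6) (nat_lit 133035534707637974194) (ZL.cons (nat_lit 12236) (nat_lit 6) (nat_lit 132965712804609005536) (ZL.cons (nat_lit 12312) (nat_lit 3) (nat_lit 66471220939441878922) (ZL.cons (nat_lit 12388) (nat_lit 6) (nat_lit 132756026133418463378) (ZL.cons (nat_lit 12464) (nat_lit 6) (nat_lit 132525236735252533426) (ZL.cons (nat_lit 12540) (nat_lit 6) (nat_lit 132340713729887203312) (ZL.cons (nat_lit 12616) (nat_lit 6) (nat_lit 132202384755359584670) (ZL.cons (nat_lit 12692) (nat_lit 6) (nat_lit 132110195565013000008)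 (ZL.cons (nat_lit 12768) (nat_lit 6) (nat_lit 132064110006223783992) (ZL.cons (nat_lit 12844) (nat_lit 6) (nat_lit 132013749031242901990) (ZL.cons (nat_lit 12920) (nat_lit 6) (nat_lit 131762295716995971630) (ZL.cons (nat_lit 12996) (nat_lit 6) (nat_lit 131556695517228021104) (ZL.cons (nat_lit 13072) (nat_lit 6) (nat_lit 131396867804409729640) (ZL.cons (nat_lit 13148) (nat_lit 6) (nat_lit 131282749901006658698) (ZL.cons (nat_lit 13224) (nat_lit 6) (nat_lit 131214297054899826678) (ZL.cons (nat_lit 13300) (nat_lit 3) (nat_lit 65595741210917929177) (ZL.cons (nat_lit 13376) (nat_lit 6) (nat_lit 131025836988857899422) (ZL.cons (nat_lit 13452) (nat_lit 6) (nat_lit 130799572873008948488) (ZL.cons (nat_lit 13528) (nat_lit 6) (nat_lit 130618667965788036612) (ZL.cons (nat_lit 13604) (nat_lit 6) (nat_lit 130483051324094292848) (ZL.cons (nat_lit 13680) (nat_lit 6) (nat_lit 130392669764930974548) (ZL.cons (nat_lit 13756) (nat_lit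 6) (nat_lit 130347487844549390220) (ZL.cons (nat_lit 13832) (nat_lit 6) (nat_lit 130315571743493948924) (ZL.cons (nat_lit 13908) (nat_lit 6) (nat_lit 130069048886389115240) (ZL.cons (nat_lit 13984) (nat_lit 6) (nat_lit 129867480063087202956) (ZL.cons (nat_lit 14060) (nat_lit 6) (nat_lit 129710786226990838780) (ZL.cons (nat_lit 14136) (nat_lit 6) (nat_lit 129598905929536847658) (ZL.cons (nat_lit 14212) (nat_lit 6) (nat_lit 129531795296098777050) (ZL.cons (nat_lit 14288) (nat_lit 3) (nat_lit 64754714004390580523) (ZL.cons (nat_lit 14364) (nat_lit 6) (nat_lit 129631221445513781334) (ZL.cons (nat_lit 14440) (nat_lit 6) (nat_lit 129364837077373768482) (ZL.cons (nat_lit 14516) (nat_lit 6) (nat_lit 129143009512815973448) (ZL.cons (nat_lit 14592) (nat_lit 6) (nat_lit 128965651760638608864) (ZL.cons (nat_lit 14668) (nat_lit 6) (nat_lit 128832694268781997330) (ZL.cons (nat_lit 14744) (nat_lit 6) (nat_lit 128744084897053253900)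 (ZL.cons (nat_lit 14820) (nat_lit 6) (nat_lit 128699788896679151616) (ZL.cons (nat_lit 14896) (nat_lit 6) (nat_lit 128686661284469176710) (ZL.cons (nat_lit 14972) (nat_lit 6) (nat_lit 128444972208876202508) (ZL.cons (nat_lit 15048) (nat_lit 6) (nat_lit 128247355715442955174) (ZL.cons (nat_lit 15124) (nat_lit 6) (nat_lit 128093734307505343232) (ZL.cons (nat_lit 15200) (nat_lit 6) (nat_lit 127984047741373979390) (ZL.cons (nat_lit 15276) (nat_lit 6) (nat_lit 127918253002709204284) (ZL.cons (nat_lit 15352) (nat_lit 3) (nat_lit 63948162144826359002) (ZL.cons (nat_lit 15428) (nat_lit 6) (nat_lit 128034255556384004784) (ZL.cons (nat_lit 15504) (nat_lit 6) (nat_lit 127773094411148698066) (ZL.cons (nat_lit 15580) (nat_lit 6) (nat_lit 127555616406680271564) (ZL.cons (nat_lit 15656) (nat_lit 6) (nat_lit 127381736257486776872) (ZL.cons (nat_lit 15732) (nat_lit 6) (nat_lit 127251385775274412622) (ZL.cons (nat_lit 15808) (nat_lit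 6) (nat_lit 127164513842207017104) (ZL.cons (nat_lit 15884) (nat_lit 6) (nat_lit 127121086390859858002) (ZL.cons (nat_lit 15960) (nat_lit 6) (nat_lit 127407364047734689896) (ZL.cons (nat_lit 16036) (nat_lit 6) (nat_lit 127127112638144155220) (ZL.cons (nat_lit 16112) (nat_lit 6) (nat_lit 126890162564033396202) (ZL.cons (nat_lit 16188) (nat_lit 6) (nat_lit 126696420903804722342) (ZL.cons (nat_lit 16264) (nat_lit 6) (nat_lit 126545811680336475342) (ZL.cons (nat_lit 16340) (nat_lit 6) (nat_lit 126438275831188079416) (ZL.cons (nat_lit 16416) (nat_lit 6) (nat_lit 126373771185438299902) (ZL.cons (nat_lit 16492) (nat_lit 3) (nat_lit 63176136223573813540) (ZL.cons (nat_lit 16568) (nat_lit 6) (nat_lit 126805740918713918588) (ZL.cons (nat_lit 16644) (nat_lit 6) (nat_lit 126506773563677081992) (ZL.cons (nat_lit 16720) (nat_lit 6) (nat_lit 126250733225211095016) (ZL.cons (nat_lit 16796) (nat_lit 6) (nat_lit 126037519495340088640)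 (ZL.cons (nat_lit 16872) (nat_lit 6) (nat_lit 125867048760836662472) (ZL.cons (nat_lit 16948) (nat_lit 6) (nat_lit 125739254170432383796) (ZL.cons (nat_lit 17024) (nat_lit 6) (nat_lit 125654085608601603874) (ZL.cons (nat_lit 17100) (nat_lit 6) (nat_lit 125611509675908310640) (ZL.cons (nat_lit 17176) (nat_lit 6) (nat_lit 125911833917522197178) (ZL.cons (nat_lit 17252) (nat_lit 6) (nat_lit 125637077633609908282) (ZL.cons (nat_lit 17328) (nat_lit 6) (nat_lit 125404773639383673948) (ZL.cons (nat_lit 17404) (nat_lit 6) (nat_lit 125214830835237915264) (ZL.cons (nat_lit 17480) (nat_lit 6) (nat_lit 125067174733798457420) (ZL.cons (nat_lit 17556) (nat_lit 6) (nat_lit 124961747430711794748) (ZL.cons (nat_lit 17632) (nat_lit 6) (nat_lit 124898507581937501106) (ZL.cons (nat_lit 17708) (nat_lit 3) (nat_lit 62438715193767440347) (ZL.cons (nat_lit 17784) (nat_lit 6) (nat_lit 125342060390014341998) (ZL.cons (nat_lit 17860) (nat_lit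 6) (nat_lit 125048955139978227690) (ZL.cons (nat_lit 17936) (nat_lit 6) (nat_lit 124797935200305691436) (ZL.cons (nat_lit 18012) (nat_lit 6) (nat_lit 124588902131804704794) (ZL.cons (nat_lit 18088) (nat_lit 6) (nat_lit 124421773960722914434) (ZL.cons (nat_lit 18164) (nat_lit 6) (nat_lit 124296485146601072594) (ZL.cons (nat_lit 18240) (nat_lit 6) (nat_lit 124212986556570896202) (ZL.cons (nat_lit 18316) (nat_lit 6) (nat_lit 124171245446087275382) (ZL.cons (nat_lit 18392) (nat_lit 6) (nat_lit 124797229540554493764) (ZL.cons (nat_lit 18468) (nat_lit 6) (nat_lit 124486135108044040818) (ZL.cons (nat_lit 18544) (nat_lit 6) (nat_lit 124216766202247679152) (ZL.cons (nat_lit 18620) (nat_lit 6) (nat_lit 123989017188300390590) (ZL.cons (nat_lit 18696) (nat_lit 6) (nat_lit 123802798752863372272) (ZL.cons (nat_lit 18772) (nat_lit 6) (nat_lit 123658037869099197916) (ZL.cons (nat_lit 18848) (nat_lit 6) (nat_lit 123554677768033842356)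 (ZL.cons (nat_lit 18924) (nat_lit 6) (nat_lit 123492677916294338786) (ZL.cons (nat_lit 19000) (nat_lit 3) (nat_lit 61736007000106669189) (ZL.cons (nat_lit 19076) (nat_lit 6) (nat_lit 124277127709986001556) (ZL.cons (nat_lit 19152) (nat_lit 6) (nat_lit 123948396824069334258) (ZL.cons (nat_lit 19228) (nat_lit 6) (nat_lit 123661038735798633954) (ZL.cons (nat_lit 19304) (nat_lit 6) (nat_lit 123414940755727519980) (ZL.cons (nat_lit 19380) (nat_lit 6) (nat_lit 123210006374844199742) (ZL.cons (nat_lit 19456) (nat_lit 6) (nat_lit 123046155226724797428) (ZL.cons (nat_lit 19532) (nat_lit 6) (nat_lit 122923323056017109352) (ZL.cons (nat_lit 19608) (nat_lit 6) (nat_lit 122841461693242426614) (ZL.cons (nat_lit 19684) (nat_lit 6) (nat_lit 122800539035905543456) (ZL.cons (nat_lit 19760) (nat_lit 6) (nat_lit 123435529410295686558) (ZL.cons (nat_lit 19836) (nat_lit 6) (nat_lit 123130534868618771902) (ZL.cons (nat_lit 19912) (nat_lit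 6) (nat_lit 122866447706073319290) (ZL.cons (nat_lit 19988) (nat_lit 6) (nat_lit 122643164359066173640) (ZL.cons (nat_lit 20064) (nat_lit 6) (nat_lit 122460597265500469406) (ZL.cons (nat_lit 20140) (nat_lit 6) (nat_lit 122318674830437553372) (ZL.cons (nat_lit 20216) (nat_lit 6) (nat_lit 122217341398020538118) (ZL.cons (nat_lit 20292) (nat_lit 6) (nat_lit 122156557229648475792) (ZL.cons (nat_lit 20368) (nat_lit 3) (nat_lit 61068149244196296521) (ZL.cons (nat_lit 20444) (nat_lit 6) (nat_lit 122947331742247108052) (ZL.cons (nat_lit 20520) (nat_lit 6) (nat_lit 122625046559975865600) (ZL.cons (nat_lit 20596) (nat_lit 6) (nat_lit 122343322944024198636) (ZL.cons (nat_lit 20672) (nat_lit 6) (nat_lit 122102050414542714348) (ZL.cons (nat_lit 20748) (nat_lit 6) (nat_lit 121901134354853184702) (ZL.cons (nat_lit 20824) (nat_lit 6) (nat_lit 121740495974343966748) (ZL.cons (nat_lit 20900) (nat_lit 6) (nat_lit 121620072277571723536)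 (ZL.cons (nat_lit 20976) (nat_lit 6) (nat_lit 121539816039557328694) (ZL.cons (nat_lit 21052) (nat_lit 6) (nat_lit 121499695787266266776) (ZL.cons (nat_lit 21128) (nat_lit 6) (nat_lit 122483612369857697334) (ZL.cons (nat_lit 21204) (nat_lit 6) (nat_lit 122144375579160643318) (ZL.cons (nat_lit 21280) (nat_lit 6) (nat_lit 121845361322614648558) (ZL.cons (nat_lit 21356) (nat_lit 6) (nat_lit 121586452339726949918) (ZL.cons (nat_lit 21432) (nat_lit 6) (nat_lit 121367547097563081634) (ZL.cons (nat_lit 21508) (nat_lit 6) (nat_lit 121188559750930038268) (ZL.cons (nat_lit 21584) (nat_lit 6) (nat_lit 121049420108711493136) (ZL.cons (nat_lit 21660) (nat_lit 6) (nat_lit 120950073606341870336) (ZL.cons (nat_lit 21736) (nat_lit 6) (nat_lit 120890481284408475902) (ZL.cons (nat_lit 21812) (nat_lit 3) (nat_lit 60435309886686648367) (ZL.cons (nat_lit 21888) (nat_lit 6) (nat_lit 122044189442393184048) (ZL.cons (nat_lit 21964) (nat_lit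 6) (nat_lit 121688333427749255950) (ZL.cons (nat_lit 22040) (nat_lit 6) (nat_lit 121372367562777449626) (ZL.cons (nat_lit 22116) (nat_lit 6) (nat_lit 121096167939295423190) (ZL.cons (nat_lit 22192) (nat_lit 6) (nat_lit 120859626243725340554) (ZL.cons (nat_lit 22268) (nat_lit 6) (nat_lit 120662649714617958550) (ZL.cons (nat_lit 22344) (nat_lit 6) (nat_lit 120505161106275588006) (ZL.cons (nat_lit 22420) (nat_lit 6) (nat_lit 120387098658459663286) (ZL.cons (nat_lit 22496) (nat_lit 6) (nat_lit 120308416072171040894) (ZL.cons (nat_lit 22572) (nat_lit 6) (nat_lit 120269082491493529210) (ZL.cons (nat_lit 22648) (nat_lit 6) (nat_lit 121256741265682326482) (ZL.cons (nat_lit 22724) (nat_lit 6) (nat_lit 120924156176763646076) (ZL.cons (nat_lit 22800) (nat_lit 6) (nat_lit 120631004944855808076) (ZL.cons (nat_lit 22876) (nat_lit 6) (nat_lit 120377172608691397644) (ZL.cons (nat_lit 22952) (nat_lit 6) (nat_lit 120162559626177801288)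 (ZL.cons (nat_lit 23028) (nat_lit 6) (nat_lit 119987081835361092106) (ZL.cons (nat_lit 23104) (nat_lit 6) (nat_lit 119850670421421341974) (ZL.cons (nat_lit 23180) (nat_lit 6) (nat_lit 119753271889686417662) (ZL.cons (nat_lit 23256) (nat_lit 6) (nat_lit 119694848044653678020) (ZL.cons (nat_lit 23332) (nat_lit 3) (nat_lit 59837687987505672752) (ZL.cons (nat_lit 23408) (nat_lit 6) (nat_lit 120849429841131593374) (ZL.cons (nat_lit 23484) (nat_lit 6) (nat_lit 120500551395402252102) (ZL.cons (nat_lit 23560) (nat_lit 6) (nat_lit 120190780939547540020) (ZL.cons (nat_lit 23636) (nat_lit 6) (nat_lit 119919996994957318024) (ZL.cons (nat_lit 23712) (nat_lit 6) (nat_lit 119688093371849393872) (ZL.cons (nat_lit 23788) (nat_lit 6) (nat_lit 119494979127626470338) (ZL.cons (nat_lit 23864) (nat_lit 6) (nat_lit 119340578531212381568) (ZL.cons (nat_lit 23940) (nat_lit 6) (nat_lit 119224831033353631844) (ZL.cons (nat_lit 24016) (nat_lit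 6) (nat_lit 119147691242874590282) (ZL.cons (nat_lit 24092) (nat_lit 6) (nat_lit 119109128908877029808) (ZL.cons (nat_lit 24168) (nat_lit 6) (nat_lit 120466239424126644572) (ZL.cons (nat_lit 24244) (nat_lit 6) (nat_lit 120101387099171165196) (ZL.cons (nat_lit 24320) (nat_lit 6) (nat_lit 119775323286505792248) (ZL.cons (nat_lit 24396) (nat_lit 6) (nat_lit 119487920117968696170) (ZL.cons (nat_lit 24472) (nat_lit 6) (nat_lit 119239064886434960454) (ZL.cons (nat_lit 24548) (nat_lit 6) (nat_lit 119028660001617709124) (ZL.cons (nat_lit 24624) (nat_lit 6) (nat_lit 118856622951797406002) (ZL.cons (nat_lit 24700) (nat_lit 6) (nat_lit 118722886271464317640) (ZL.cons (nat_lit 24776) (nat_lit 6) (nat_lit 118627397514861450666) (ZL.cons (nat_lit 24852) (nat_lit 6) (nat_lit 118570119235417588272) (ZL.cons (nat_lit 24928) (nat_lit 3) (nat_lit 59275514485531180157) (ZL.cons (nat_lit 25004) (nat_lit 6) (nat_lit 120107019743915713430)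 (ZL.cons (nat_lit 25080) (nat_lit 6) (nat_lit 119726506753052255522) (ZL.cons (nat_lit 25156) (nat_lit 6) (nat_lit 119384469061160744470) (ZL.cons (nat_lit 25232) (nat_lit 6) (nat_lit 119080772535812987526) (ZL.cons (nat_lit 25308) (nat_lit 6) (nat_lit 118815298080332377728) (ZL.cons (nat_lit 25384) (nat_lit 6) (nat_lit 118587941587089314834) (ZL.cons (nat_lit 25460) (nat_lit 6) (nat_lit 118398613896674683916) (ZL.cons (nat_lit 25536) (nat_lit 6) (nat_lit 118247240762935381202) (ZL.cons (nat_lit 25612) (nat_lit 6) (nat_lit 118133762823858175590) (ZL.cons (nat_lit 25688) (nat_lit 6) (nat_lit 118058135578290487784) (ZL.cons (nat_lit 25764) (nat_lit 6) (nat_lit 118020329368488957906) (ZL.cons (nat_lit 25840) (nat_lit 6) (nat_lit 119771629930035972130) (ZL.cons (nat_lit 25916) (nat_lit 6) (nat_lit 119375763345145084288) (ZL.cons (nat_lit 25992) (nat_lit 6) (nat_lit 119018064987345594704) (ZL.cons (nat_lit 26068) (nat_lit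 6) (nat_lit 118698394582771699656) (ZL.cons (nat_lit 26144) (nat_lit 6) (nat_lit 118416626770480428992) (ZL.cons (nat_lit 26220) (nat_lit 6) (nat_lit 118172651053290492016) (ZL.cons (nat_lit 26296) (nat_lit 6) (nat_lit 117966371754450049534) (ZL.cons (nat_lit 26372) (nat_lit 6) (nat_lit 117797707980116419024) (ZL.cons (nat_lit 26448) (nat_lit 6) (nat_lit 117666593587632999060) (ZL.cons (nat_lit 26524) (nat_lit 6) (nat_lit 117572977159590972616) (ZL.cons (nat_lit 26600) (nat_lit 6) (nat_lit 117516821983665617326) (ZL.cons (nat_lit 26676) (nat_lit 3) (nat_lit 58749053019109657703) (ZL.cons (nat_lit 26752) (nat_lit 6) (nat_lit 119459938457070212934) (ZL.cons (nat_lit 26828) (nat_lit 6) (nat_lit 119049019329015178098) (ZL.cons (nat_lit 26904) (nat_lit 6) (nat_lit 118675967377188258580) (ZL.cons (nat_lit 26980) (nat_lit 6) (nat_lit 118340636306706385000) (ZL.cons (nat_lit 27056) (nat_lit 6) (nat_lit 118042894615188976232)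 (ZL.cons (nat_lit 27132) (nat_lit 6) (nat_lit 117782625541188378390) (ZL.cons (nat_lit 27208) (nat_lit 6) (nat_lit 117559727018401061826) (ZL.cons (nat_lit 27284) (nat_lit 6) (nat_lit 117374111635641619752) (ZL.cons (nat_lit 27360) (nat_lit 6) (nat_lit 117225706602563871992) (ZL.cons (nat_lit 27436) (nat_lit 6) (nat_lit 117114453721115631196) (ZL.cons (nat_lit 27512) (nat_lit 6) (nat_lit 117040309362715937268) (ZL.cons (nat_lit 27588) (nat_lit 6) (nat_lit 117003244451145809936) (ZL.cons (nat_lit 27664) (nat_lit 6) (nat_lit 118746146569754250712) (ZL.cons (nat_lit 27740) (nat_lit 6) (nat_lit 118358042074763184200) (ZL.cons (nat_lit 27816) (nat_lit 6) (nat_lit 118007357410253880686) (ZL.cons (nat_lit 27892) (nat_lit 6) (nat_lit 117693955052828493386) (ZL.cons (nat_lit 27968) (nat_lit 6) (nat_lit 117417712099601757440) (ZL.cons (nat_lit 28044) (nat_lit 6) (nat_lit 117178520220003780010) (ZL.cons (nat_lit 28120) (nat_lit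 6) (nat_lit 116976285613297463854) (ZL.cons (nat_lit 28196) (nat_lit 6) (nat_lit 116810928971793904530) (ZL.cons (nat_lit 28272) (nat_lit 6) (nat_lit 116682385449751335938) (ZL.cons (nat_lit 28348) (nat_lit 6) (nat_lit 116590604637945427658) (ZL.cons (nat_lit 28424) (nat_lit 6) (nat_lit 116535550543900961688) (ZL.cons (nat_lit 28500) (nat_lit 3) (nat_lit 58258600788888568138) (ZL.cons (nat_lit 28576) (nat_lit 6) (nat_lit 117170222938729883404) (ZL.cons (nat_lit 28652) (nat_lit 6) (nat_lit 117285624010683421922) (ZL.cons (nat_lit 28728) (nat_lit 6) (nat_lit 117424204811930122872) (ZL.cons (nat_lit 28804) (nat_lit 6) (nat_lit 117586019687882239860) (ZL.cons (nat_lit 28880) (nat_lit 6) (nat_lit 117771132095353871754) (ZL.cons (nat_lit 28956) (nat_lit 6) (nat_lit 117979614627445987822) (ZL.cons (nat_lit 29032) (nat_lit 6) (nat_lit 118211549042014310464) (ZL.cons (nat_lit 29108) (nat_lit 6) (nat_lit 118467026293731219414)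 (ZL.cons (nat_lit 29184) (nat_lit 6) (nat_lit 118064164403481185260) (ZL.cons (nat_lit 29260) (nat_lit 6) (nat_lit 117698427195807734752) (ZL.cons (nat_lit 29336) (nat_lit 6) (nat_lit 117369671244354917518) (ZL.cons (nat_lit 29412) (nat_lit 6) (nat_lit 117077767625220203040) (ZL.cons (nat_lit 29488) (nat_lit 6) (nat_lit 116822601866396087506) (ZL.cons (nat_lit 29564) (nat_lit 6) (nat_lit 116604073902879110484) (ZL.cons (nat_lit 29640) (nat_lit 6) (nat_lit 116422098037428677078) (ZL.cons (nat_lit 29716) (nat_lit 6) (nat_lit 116276602906960296922) (ZL.cons (nat_lit 29792) (nat_lit 6) (nat_lit 116167531454560060846) (ZL.cons (nat_lit 29868) (nat_lit 6) (nat_lit 116094840907109380524) (ZL.cons (nat_lit 29944) (nat_lit 6) (nat_lit 116058502758511216474) (ZL.cons (nat_lit 30020) (nat_lit 3) (nat_lit 58190360230155948012) (ZL.cons (nat_lit 30096) (nat_lit 6) (nat_lit 116392356565762953098) (ZL.cons (nat_lit 30172) (nat_lit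 6) (nat_lit 116427269445294732582) (ZL.cons (nat_lit 30248) (nat_lit 6) (nat_lit 116485472790232541054) (ZL.cons (nat_lit 30324) (nat_lit 6) (nat_lit 116566989425417530600) (ZL.cons (nat_lit 30400) (nat_lit 6) (nat_lit 116671851318157616896) (ZL.cons (nat_lit 30476) (nat_lit 6) (nat_lit 116800099590763678410) (ZL.cons (nat_lit 30552) (nat_lit 6) (nat_lit 116951784536675952814) (ZL.cons (nat_lit 30628) (nat_lit 6) (nat_lit 117126965640186954724) (ZL.cons (nat_lit 30704) (nat_lit 6) (nat_lit 117325711599768649240) (ZL.cons (nat_lit 30780) (nat_lit 6) (nat_lit 117548100355013029182) (ZL.cons (nat_lit 30856) (nat_lit 6) (nat_lit 117794219117196660978) (ZL.cons (nat_lit 30932) (nat_lit 6) (nat_lit 117413724514264242828) (ZL.cons (nat_lit 31008) (nat_lit 6) (nat_lit 117069916019647278600) (ZL.cons (nat_lit 31084) (nat_lit 6) (nat_lit 116762658806485134188) (ZL.cons (nat_lit 31160) (nat_lit 6) (nat_lit 116491832381753040122)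 (ZL.cons (nat_lit 31236) (nat_lit 6) (nat_lit 116257330539009924996) (ZL.cons (nat_lit 31312) (nat_lit 6) (nat_lit 116059061316748830724) (ZL.cons (nat_lit 31388) (nat_lit 6) (nat_lit 115896946962333576486) (ZL.cons (nat_lit 31464) (nat_lit 6) (nat_lit 115770923901507528846) (ZL.cons (nat_lit 31540) (nat_lit 6) (nat_lit 115680942713462520728) (ZL.cons (nat_lit 31616) (nat_lit 6) (nat_lit 115626968111458142326) (ZL.cons (nat_lit 31692) (nat_lit 3) (nat_lit 57804489464491901844) (ZL.cons (nat_lit 31768) (nat_lit 6) (nat_lit 115855797472435006660) (ZL.cons (nat_lit 31844) (nat_lit 6) (nat_lit 115879302405446141952) (ZL.cons (nat_lit 31920) (nat_lit 6) (nat_lit 115926321489089201218) (ZL.cons (nat_lit 31996) (nat_lit 6) (nat_lit 115996873162220515068) (ZL.cons (nat_lit 32072) (nat_lit 6) (nat_lit 116090985092162880096) (ZL.cons (nat_lit 32148) (nat_lit 6) (nat_lit 116208694185555489388) (ZL.cons (nat_lit 32224) (nat_lit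 6) (nat_lit 116350046602827124356) (ZL.cons (nat_lit 32300) (nat_lit 6) (nat_lit 116515097776298283682) (ZL.cons (nat_lit 32376) (nat_lit 6) (nat_lit 116703912431919348214) (ZL.cons (nat_lit 32452) (nat_lit 6) (nat_lit 116916564614653306604) (ZL.cons (nat_lit 32528) (nat_lit 6) (nat_lit 117153137717512995700) (ZL.cons (nat_lit 32604) (nat_lit 6) (nat_lit 116794571827637063830) (ZL.cons (nat_lit 32680) (nat_lit 6) (nat_lit 116472262071310772424) (ZL.cons (nat_lit 32756) (nat_lit 6) (nat_lit 116186082052551248424) (ZL.cons (nat_lit 32832) (nat_lit 6) (nat_lit 115935919543900154766) (ZL.cons (nat_lit 32908) (nat_lit 6) (nat_lit 115721676442412922390) (ZL.cons (nat_lit 32984) (nat_lit 6) (nat_lit 115543268731187007286) (ZL.cons (nat_lit 33060) (nat_lit 6) (nat_lit 115400626446414085564) (ZL.cons (nat_lit 33136) (nat_lit 6) (nat_lit 115293693649943265882) (ZL.cons (nat_lit 33212) (nat_lit 6) (nat_lit 115222428407344559684)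 (ZL.cons (nat_lit 33288) (nat_lit 6) (nat_lit 115186802771464006694) (ZL.cons (nat_lit 33364) (nat_lit 3) (nat_lit 57676401598807301788) (ZL.cons (nat_lit 33440) (nat_lit 6) (nat_lit 115364672025174681794) (ZL.cons (nat_lit 33516) (nat_lit 6) (nat_lit 115400283162297096868) (ZL.cons (nat_lit 33592) (nat_lit 6) (nat_lit 115459650574133661512) (ZL.cons (nat_lit 33668) (nat_lit 6) (nat_lit 115542797542022350844) (ZL.cons (nat_lit 33744) (nat_lit 6) (nat_lit 115649756672617238868) (ZL.cons (nat_lit 33820) (nat_lit 6) (nat_lit 115780569910675421614) (ZL.cons (nat_lit 33896) (nat_lit 6) (nat_lit 115935288555505941504) (ZL.cons (nat_lit 33972) (nat_lit 6) (nat_lit 116113973281087163452) (ZL.cons (nat_lit 34048) (nat_lit 6) (nat_lit 116316694159860491858) (ZL.cons (nat_lit 34124) (nat_lit 6) (nat_lit 116543530690209759402) (ZL.cons (nat_lit 34200) (nat_lit 6) (nat_lit 116206463538624500354) (ZL.cons (nat_lit 34276) (nat_lit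 6) (nat_lit 115905230976700829360) (ZL.cons (nat_lit 34352) (nat_lit 6) (nat_lit 115639714874022305768) (ZL.cons (nat_lit 34428) (nat_lit 6) (nat_lit 115409811106627094860) (ZL.cons (nat_lit 34504) (nat_lit 6) (nat_lit 115215429516175041652) (ZL.cons (nat_lit 34580) (nat_lit 6) (nat_lit 115056493874591459064) (ZL.cons (nat_lit 34656) (nat_lit 6) (nat_lit 114932941854173765300) (ZL.cons (nat_lit 34732) (nat_lit 6) (nat_lit 114844725003149247538) (ZL.cons (nat_lit 34808) (nat_lit 6) (nat_lit 114791808726674366752) (ZL.cons (nat_lit 34884) (nat_lit 3) (nat_lit 57387086136634076200) (ZL.cons (nat_lit 34960) (nat_lit 6) (nat_lit 114883176488644951532) (ZL.cons (nat_lit 35036) (nat_lit 6) (nat_lit 114907151520316309532) (ZL.cons (nat_lit 35112) (nat_lit 6) (nat_lit 114955110985632229984) (ZL.cons (nat_lit 35188) (nat_lit 6) (nat_lit 115027073692226170110) (ZL.cons (nat_lit 35264) (nat_lit 6) (nat_lit 115123067860767382438)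 (ZL.cons (nat_lit 35340) (nat_lit 6) (nat_lit 115243131136027843916) (ZL.cons (nat_lit 35416) (nat_lit 6) (nat_lit 115387310601644911584) (ZL.cons (nat_lit 35492) (nat_lit 6) (nat_lit 115555662798585494096) (ZL.cons (nat_lit 35568) (nat_lit 6) (nat_lit 115748253747318979918) (ZL.cons (nat_lit 35644) (nat_lit 6) (nat_lit 115965158973707617478) (ZL.cons (nat_lit 35720) (nat_lit 6) (nat_lit 115649169016524978842) (ZL.cons (nat_lit 35796) (nat_lit 6) (nat_lit 115368600370682308256) (ZL.cons (nat_lit 35872) (nat_lit 6) (nat_lit 115123343009259667414) (ZL.cons (nat_lit 35948) (nat_lit 6) (nat_lit 114913300752899635674) (ZL.cons (nat_lit 36024) (nat_lit 6) (nat_lit 114738391232089914982) (ZL.cons (nat_lit 36100) (nat_lit 6) (nat_lit 114598545854861560352) (ZL.cons (nat_lit 36176) (nat_lit 6) (nat_lit 114493709779890168508) (ZL.cons (nat_lit 36252) (nat_lit 6) (nat_lit 114423841894989476158) (ZL.cons (nat_lit 36328) (nat_lit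 6) (nat_lit 114388914800988934010) (ZL.cons (nat_lit 36404) (nat_lit 3) (nat_lit 57217313487038959950) (ZL.cons (nat_lit 36480) (nat_lit 6) (nat_lit 114446733178189199682) (ZL.cons (nat_lit 36556) (nat_lit 6) (nat_lit 114483056538054063060) (ZL.cons (nat_lit 36632) (nat_lit 6) (nat_lit 114543611298127358994) (ZL.cons (nat_lit 36708) (nat_lit 6) (nat_lit 114628421205373822116) (ZL.cons (nat_lit 36784) (nat_lit 6) (nat_lit 114737519518580607898) (ZL.cons (nat_lit 36860) (nat_lit 6) (nat_lit 114870949021399954298) (ZL.cons (nat_lit 36936) (nat_lit 6) (nat_lit 115028762039127084588) (ZL.cons (nat_lit 37012) (nat_lit 6) (nat_lit 115211020459219930974) (ZL.cons (nat_lit 37088) (nat_lit 6) (nat_lit 115417795755568725950) (ZL.cons (nat_lit 37164) (nat_lit 6) (nat_lit 115122469714467087722) (ZL.cons (nat_lit 37240) (nat_lit 6) (nat_lit 114862159809880299886) (ZL.cons (nat_lit 37316) (nat_lit 6) (nat_lit 114636763959492838212)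 (ZL.cons (nat_lit 37392) (nat_lit 6) (nat_lit 114446193772775138988) (ZL.cons (nat_lit 37468) (nat_lit 6) (nat_lit 114290374516320646254) (ZL.cons (nat_lit 37544) (nat_lit 6) (nat_lit 114169245084538593544) (ZL.cons (nat_lit 37620) (nat_lit 6) (nat_lit 114082757975691027112) (ZL.cons (nat_lit 37696) (nat_lit 6) (nat_lit 114030879273264673400) (ZL.cons (nat_lit 37772) (nat_lit 3) (nat_lit 57006794316335172802) (ZL.cons (nat_lit 37848) (nat_lit 6) (nat_lit 114018847579703168458) (ZL.cons (nat_lit 37924) (nat_lit 6) (nat_lit 114043302112007953618) (ZL.cons (nat_lit 38000) (nat_lit 6) (nat_lit 114092220766630192478) (ZL.cons (nat_lit 38076) (nat_lit 6) (nat_lit 114165622727356011408) (ZL.cons (nat_lit 38152) (nat_lit 6) (nat_lit 114263536779268047984) (ZL.cons (nat_lit 38228) (nat_lit 6) (nat_lit 114386001320033718688) (ZL.cons (nat_lit 38304) (nat_lit 6) (nat_lit 114533064374963127710) (ZL.cons (nat_lit 38380) (nat_lit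 6) (nat_lit 114704783615842521874) (ZL.cons (nat_lit 38456) (nat_lit 6) (nat_lit 114901226383550677414) (ZL.cons (nat_lit 38532) (nat_lit 6) (nat_lit 114626159083704921936) (ZL.cons (nat_lit 38608) (nat_lit 6) (nat_lit 114385710690153313268) (ZL.cons (nat_lit 38684) (nat_lit 6) (nat_lit 114179786909408184110) (ZL.cons (nat_lit 38760) (nat_lit 6) (nat_lit 114008306987045712844) (ZL.cons (nat_lit 38836) (nat_lit 6) (nat_lit 113871203676037522030) (ZL.cons (nat_lit 38912) (nat_lit 6) (nat_lit 113768423210379294732) (ZL.cons (nat_lit 38988) (nat_lit 6) (nat_lit 113699925284006066938) (ZL.cons (nat_lit 39064) (nat_lit 6) (nat_lit 113665683034985927578) (ZL.cons (nat_lit 39140) (nat_lit 3) (nat_lit 56811663463292149883) (ZL.cons (nat_lit 39216) (nat_lit 6) (nat_lit 113635675254777805144) (ZL.cons (nat_lit 39292) (nat_lit 6) (nat_lit 113672725081839965786) (ZL.cons (nat_lit 39368) (nat_lit 6) (nat_lit 113734490937114727642)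 (ZL.cons (nat_lit 39444) (nat_lit 6) (nat_lit 113820997042506120026) (ZL.cons (nat_lit 39520) (nat_lit 6) (nat_lit 113932277321977041524) (ZL.cons (nat_lit 39596) (nat_lit 6) (nat_lit 114068375414852774850) (ZL.cons (nat_lit 39672) (nat_lit 6) (nat_lit 114229344692934447746) (ZL.cons (nat_lit 39748) (nat_lit 6) (nat_lit 114415248281429151064) (ZL.cons (nat_lit 39824) (nat_lit 6) (nat_lit 114160042492618574754) (ZL.cons (nat_lit 39900) (nat_lit 6) (nat_lit 113939066168709298602) (ZL.cons (nat_lit 39976) (nat_lit 6) (nat_lit 113752232652319397402) (ZL.cons (nat_lit 40052) (nat_lit 6) (nat_lit 113599468675403228056) (ZL.cons (nat_lit 40128) (nat_lit 6) (nat_lit 113480714330518862654) (ZL.cons (nat_lit 40204) (nat_lit 6) (nat_lit 113395923047334973994) (ZL.cons (nat_lit 40280) (nat_lit 6) (nat_lit 113345061574367960552) (ZL.cons (nat_lit 40356) (nat_lit 3) (nat_lit 56664054982971074494) (ZL.cons (nat_lit 40432) (nat_lit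 6) (nat_lit 113260016112694115620) (ZL.cons (nat_lit 40508) (nat_lit 6) (nat_lit 113284959735644996480) (ZL.cons (nat_lit 40584) (nat_lit 6) (nat_lit 113334856763359680118) (ZL.cons (nat_lit 40660) (nat_lit 6) (nat_lit 113409726763300015428) (ZL.cons (nat_lit 40736) (nat_lit 6) (nat_lit 113509599096250292734) (ZL.cons (nat_lit 40812) (nat_lit 6) (nat_lit 113634512927831276854) (ZL.cons (nat_lit 40888) (nat_lit 6) (nat_lit 113784517243859274054) (ZL.cons (nat_lit 40964) (nat_lit 6) (nat_lit 113959670869556256104) (ZL.cons (nat_lit 41040) (nat_lit 6) (nat_lit 113723937150388012310) (ZL.cons (nat_lit 41116) (nat_lit 6) (nat_lit 113522051090833964116) (ZL.cons (nat_lit 41192) (nat_lit 6) (nat_lit 113353933519890364836) (ZL.cons (nat_lit 41268) (nat_lit 6) (nat_lit 113219518509098020902) (ZL.cons (nat_lit 41344) (nat_lit 6) (nat_lit 113118753346687994138) (ZL.cons (nat_lit 41420) (nat_lit 6) (nat_lit 113051598516910319830)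 (ZL.cons (nat_lit 41496) (nat_lit 6) (nat_lit 113018027684537634184) (ZL.cons (nat_lit 41572) (nat_lit 3) (nat_lit 56458088684223131995) (ZL.cons (nat_lit 41648) (nat_lit 6) (nat_lit 112928772663203639472) (ZL.cons (nat_lit 41724) (nat_lit 6) (nat_lit 112966563486807043328) (ZL.cons (nat_lit 41800) (nat_lit 6) (nat_lit 113029564659187300420) (ZL.cons (nat_lit 41876) (nat_lit 6) (nat_lit 113117800886686520652) (ZL.cons (nat_lit 41952) (nat_lit 6) (nat_lit 113231306771746860580) (ZL.cons (nat_lit 42028) (nat_lit 6) (nat_lit 113370126826480108574) (ZL.cons (nat_lit 42104) (nat_lit 6) (nat_lit 113534315490123414928) (ZL.cons (nat_lit 42180) (nat_lit 6) (nat_lit 113317672035310399092) (ZL.cons (nat_lit 42256) (nat_lit 6) (nat_lit 113134501921202652818) (ZL.cons (nat_lit 42332) (nat_lit 6) (nat_lit 112984733316382878950) (ZL.cons (nat_lit 42408) (nat_lit 6) (nat_lit 112868307488064873654) (ZL.cons (nat_lit 42484) (nat_lit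 6) (nat_lit 112785178779061061242) (ZL.cons (nat_lit 42560) (nat_lit 6) (nat_lit 112735314589877714730) (ZL.cons (nat_lit 42636) (nat_lit 3) (nat_lit 56359347682965420324) (ZL.cons (nat_lit 42712) (nat_lit 6) (nat_lit 112604024183311015800) (ZL.cons (nat_lit 42788) (nat_lit 6) (nat_lit 112629466678720914278) (ZL.cons (nat_lit 42864) (nat_lit 6) (nat_lit 112680361646989891588) (ZL.cons (nat_lit 42940) (nat_lit 6) (nat_lit 112756729046929033602) (ZL.cons (nat_lit 43016) (nat_lit 6) (nat_lit 112858598826538316456) (ZL.cons (nat_lit 43092) (nat_lit 6) (nat_lit 112986010934750920258) (ZL.cons (nat_lit 43168) (nat_lit 6) (nat_lit 113139015337099477406) (ZL.cons (nat_lit 43244) (nat_lit 6) (nat_lit 112941087827732763490) (ZL.cons (nat_lit 43320) (nat_lit 6) (nat_lit 112776266679748842628) (ZL.cons (nat_lit 43396) (nat_lit 6) (nat_lit 112644487257403407398) (ZL.cons (nat_lit 43472) (nat_lit 6) (nat_lit 112545697882491616454)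 (ZL.cons (nat_lit 43548) (nat_lit 6) (nat_lit 112479859814082131838) (ZL.cons (nat_lit 43624) (nat_lit 6) (nat_lit 112446947233324596890) (ZL.cons (nat_lit 43700) (nat_lit 3) (nat_lit 56155293471811034765) (ZL.cons (nat_lit 43776) (nat_lit 6) (nat_lit 112323434144274592526) (ZL.cons (nat_lit 43852) (nat_lit 6) (nat_lit 112361980784350064458) (ZL.cons (nat_lit 43928) (nat_lit 6) (nat_lit 112426241980177926690) (ZL.cons (nat_lit 44004) (nat_lit 6) (nat_lit 112516242932227131326) (ZL.cons (nat_lit 44080) (nat_lit 6) (nat_lit 112632018934988678054) (ZL.cons (nat_lit 44156) (nat_lit 6) (nat_lit 112773615390816591010) (ZL.cons (nat_lit 44232) (nat_lit 6) (nat_lit 112594036847573702506) (ZL.cons (nat_lit 44308) (nat_lit 6) (nat_lit 112447204882064120282) (ZL.cons (nat_lit 44384) (nat_lit 6) (nat_lit 112333061913124899404) (ZL.cons (nat_lit 44460) (nat_lit 6) (nat_lit 112251563178807436256) (ZL.cons (nat_lit 44536) (nat_lit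 6) (nat_lit 112202676718823763204) (ZL.cons (nat_lit 44612) (nat_lit 3) (nat_lit 56093191681006551169) (ZL.cons (nat_lit 44688) (nat_lit 6) (nat_lit 112048345870709471668) (ZL.cons (nat_lit 44764) (nat_lit 6) (nat_lit 112074297216027568118) (ZL.cons (nat_lit 44840) (nat_lit 6) (nat_lit 112126210083661924972) (ZL.cons (nat_lit 44916) (nat_lit 6) (nat_lit 112204104831599849826) (ZL.cons (nat_lit 44992) (nat_lit 6) (nat_lit 112308012006801318336) (ZL.cons (nat_lit 45068) (nat_lit 6) (nat_lit 112437972357178174218) (ZL.cons (nat_lit 45144) (nat_lit 6) (nat_lit 112276382996409624352) (ZL.cons (nat_lit 45220) (nat_lit 6) (nat_lit 112147187484306256480) (ZL.cons (nat_lit 45296) (nat_lit 6) (nat_lit 112050335155961363398) (ZL.cons (nat_lit 45372) (nat_lit 6) (nat_lit 111985788030069711814) (ZL.cons (nat_lit 45448) (nat_lit 6) (nat_lit 111953520794032912844) (ZL.cons (nat_lit 45524) (nat_lit 3) (nat_lit 55902046990135606222)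 (ZL.cons (nat_lit 45600) (nat_lit 6) (nat_lit 111817198124936785898) (ZL.cons (nat_lit 45676) (nat_lit 6) (nat_lit 111856515697813767270) (ZL.cons (nat_lit 45752) (nat_lit 6) (nat_lit 111922062117558186746) (ZL.cons (nat_lit 45828) (nat_lit 6) (nat_lit 112013863088648375474) (ZL.cons (nat_lit 45904) (nat_lit 6) (nat_lit 112131954611465153138) (ZL.cons (nat_lit 45980) (nat_lit 6) (nat_lit 111988001704102817624) (ZL.cons (nat_lit 46056) (nat_lit 6) (nat_lit 111876096832593777548) (ZL.cons (nat_lit 46132) (nat_lit 6) (nat_lit 111796196112674696030) (ZL.cons (nat_lit 46208) (nat_lit 6) (nat_lit 111748268210729918528) (ZL.cons (nat_lit 46284) (nat_lit 3) (nat_lit 55866147165751890212) (ZL.cons (nat_lit 46360) (nat_lit 6) (nat_lit 111590582687904741026) (ZL.cons (nat_lit 46436) (nat_lit 6) (nat_lit 111617053060129199402) (ZL.cons (nat_lit 46512) (nat_lit 6) (nat_lit 111670004185116243396) (ZL.cons (nat_lit 46588) (nat_lit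 6) (nat_lit 111749456828012926746) (ZL.cons (nat_lit 46664) (nat_lit 6) (nat_lit 111855442146718424628) (ZL.cons (nat_lit 46740) (nat_lit 6) (nat_lit 111728779879950416910) (ZL.cons (nat_lit 46816) (nat_lit 6) (nat_lit 111633826616867188398) (ZL.cons (nat_lit 46892) (nat_lit 6) (nat_lit 111570545120894980962) (ZL.cons (nat_lit 46968) (nat_lit 6) (nat_lit 111538910575760864326) (ZL.cons (nat_lit 47044) (nat_lit 3) (nat_lit 55697181018066298702) (ZL.cons (nat_lit 47120) (nat_lit 6) (nat_lit 111407728263691482326) (ZL.cons (nat_lit 47196) (nat_lit 6) (nat_lit 111447832188026003324) (ZL.cons (nat_lit 47272) (nat_lit 6) (nat_lit 111514689536165311192) (ZL.cons (nat_lit 47348) (nat_lit 6) (nat_lit 111608326526677303696) (ZL.cons (nat_lit 47424) (nat_lit 6) (nat_lit 111498615868335107542) (ZL.cons (nat_lit 47500) (nat_lit 6) (nat_lit 111420281829198753112) (ZL.cons (nat_lit 47576) (nat_lit 6) (nat_lit 111373293690037206542)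 (ZL.cons (nat_lit 47652) (nat_lit 3) (nat_lit 55678816512064614005) (ZL.cons (nat_lit 47728) (nat_lit 6) (nat_lit 111228459220345150268) (ZL.cons (nat_lit 47804) (nat_lit 6) (nat_lit 111255459000014097812) (ZL.cons (nat_lit 47880) (nat_lit 6) (nat_lit 111309469147500882684) (ZL.cons (nat_lit 47956) (nat_lit 6) (nat_lit 111390510843255499706) (ZL.cons (nat_lit 48032) (nat_lit 6) (nat_lit 111297419408860177634) (ZL.cons (nat_lit 48108) (nat_lit 6) (nat_lit 111235378726534484070) (ZL.cons (nat_lit 48184) (nat_lit 6) (nat_lit 111204364466599075604) (ZL.cons (nat_lit 48260) (nat_lit 3) (nat_lit 55539587814252288607) (ZL.cons (nat_lit 48336) (nat_lit 6) (nat_lit 111092809180614639836) (ZL.cons (nat_lit 48412) (nat_lit 6) (nat_lit 111133715183435851254) (ZL.cons (nat_lit 48488) (nat_lit 6) (nat_lit 111201909678537945280) (ZL.cons (nat_lit 48564) (nat_lit 6) (nat_lit 111125111600953284074) (ZL.cons (nat_lit 48640) (nat_lit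 6) (nat_lit 111079044797853728614) (ZL.cons (nat_lit 48716) (nat_lit 3) (nat_lit 55531845601913149340) (ZL.cons (nat_lit 48792) (nat_lit 6) (nat_lit 110959818945584727648) (ZL.cons (nat_lit 48868) (nat_lit 6) (nat_lit 110987358720847054144) (ZL.cons (nat_lit 48944) (nat_lit 6) (nat_lit 111042449071283574716) (ZL.cons (nat_lit 49020) (nat_lit 6) (nat_lit 110981624872925051614) (ZL.cons (nat_lit 49096) (nat_lit 6) (nat_lit 110951218735733474686) (ZL.cons (nat_lit 49172) (nat_lit 3) (nat_lit 55428218070945508093) (ZL.cons (nat_lit 49248) (nat_lit 6) (nat_lit 110870342365043280060) (ZL.cons (nat_lit 49324) (nat_lit 6) (nat_lit 110912066487920915710) (ZL.cons (nat_lit 49400) (nat_lit 6) (nat_lit 110866902955470371140) (ZL.cons (nat_lit 49476) (nat_lit 3) (nat_lit 55425925206153112073) (ZL.cons (nat_lit 49552) (nat_lit 6) (nat_lit 110782620227257547130) (ZL.cons (nat_lit 49628) (nat_lit 6) (nat_lit 110810710798025120158)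 (ZL.cons (nat_lit 49704) (nat_lit 6) (nat_lit 110780900859602005522) (ZL.cons (nat_lit 49780) (nat_lit 3) (nat_lit 55362078953325754004) (ZL.cons (nat_lit 49856) (nat_lit 6) (nat_lit 110738342254266817162) (ZL.cons (nat_lit 49932) (nat_lit 3) (nat_lit 55361792429503924760) (ZL.cons (nat_lit 50008) (nat_lit 6) (nat_lit 110694932476824925034) (ZL.cons (nat_lit 50084) (nat_lit 1) (nat_lit 18446744073709551617) ZL.nil))))))))))))))))))))))))))))))))))))))))))))))))))))))))))))))))))))))))))))))))))))))))))))))))))))))))))))))))))))))))))))))))))))))))))))))))))))))))))))))))))))))))))))))))))))))))))))))))))))))))))))))))))))))))))))))))))))))))))))))))))))))))))))))))))))))))))))))))))))))))))))))))))))))))))))))))))))))))))))))))))))))))))))))))))))))))))))))))))))))))))))))))))))))))))))))))))))))))))))))))))))))))))))))))))))))))))))))))))))))))))))))))))))))))))))))))))))))))))))))))))))))))))))))))))))))))))))))))))))))))))))))))))))))))))))))))))))))))))))))))))))))))))))))))))))))))))))))))))))))))))))))))))))))))))))))))))))))))))))))))))))))))))))))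

noncomputable def vl : XL := ⟨(nat_lit 0), (nat_lit 76), (nat_lit 153389696), (nat_lit 152), (nat_lit 242373361), (nat_lit 76), (nat_lit 153389696), (nat_lit 1), (nat_lit 5), (nat_lit 2), (nat_lit 4), (nat_lit 1), (nat_lit 4), (nat_lit 0), (nat_lit 0), (nat_lit 0)⟩

noncomputable def cp0 : Nat := (nat_lit 243827361378000028534856517888569479692539063640765053334664074273735971659939957086841501994924906839752424605867535565821428628218741494001788973740311697476292090777026593954250506853702090091259323777383581272844720247432690779970612257281883008706842221064171636051926449211980320995441141149728703725641955775272596036327081201307554636597113741833748594353524230396796594226599916257184570581595821651123059432978980764807244784923517167252747262702885273506211998089898522574486021353117129388406296485650269553496476006867431496868948185836083517497759602830219566791926767043826197732980982672138740357901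120109466673243092948945928524221771775068055721043189952624505611214466590858725093247668593916180553759523356216704481321499473034914244390711207523682755148108523310801555414194584833762286487584235062183123687919313537599662777401017657761709460944116784374319283187840429488451716103600853255104753767699186105443381630373188860587811732938983891400210047347929757279934039210122167430050840349925597824307098629842342276560942158170740401607566053984634967677050575835060572768844284810510811441569237321322454770372311787625518606591034488542146195467462576835557334941654432870211439038692907209376232224348714340821816336568297336536773263173350650365722923038026035852808373282484609185199362516271781272798630097177182158800771383766993329589476720337791390401633020157949703305414145197151872881756334627980332229560372252853151557774681752691824090756629431776431028240317784927671820694733014472028058591585879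007552896092049206800765186762956596371335667216925234647266435925635425725271793133492206867304305093505335406177973160247939832812187112632175692168044709191461839751732727042497860828578439196992871326963307320571686253744823592642764292078488248160801076697369508442223563169951925661169848540856122327209099450872285084158101085398993671926156005806455226944309038965505335130428398233962681802714521751468992154121901498219300822554769706343486569651493271353061010433986455577515207212960888548459441265975588967343408333977692792161072823968395709336877404489967638884122753040758270743317800138901650038425020644551675466505471323696853153611394191708092129072973880604970322498369011918773425389942356367635821416970850265643459062213153140274483193035801368358398962087816072061282444544478745789029793656333567472790010585858388501773928823025185511427379526359174364061180362453746731469692596439874505608177265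959940583436241574867678624733360596548098323443640214688925818998215779273998658458359947789038249477655028380857366906120910162338595584596123287892349511252106798588385551056197035609293908057454632913797271101592373851652487084618646203675657884650767540208607010307249834675127969283429723762073878588049475439112900095107392205432308654553297005864708232005568624470151782297643085321595035634070467936383475701305914961461093389287422442616149406384136622223672782598139247640943837624578498375614048035709266406645652667237979936124902764580992239100382231933891790380705047320507866478279336474592598142655686572847417387200003915703945861470311045342388669439812988449765824555450009539235462327227681404879174049947411054853118220160816034461797397130874998555330972362365972143173912389990936678188905253212704543489806372385462054416938888352123829379812651680210828880980993780773166664428552934103323186499983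991756874125734266468270936271081905420230753334379622564007766389410165559433532442984468011216775651386844551193776036182937562232407902689144409973426085056080282529874333395982574033278716743562060394401861428611627135303010512753871264965314438435770003864812906168411792470250412667974680610933612666956001219874348548031976646370758704332278909854639870109238401964276795881917848533324389482907387377462630720350138459123005749867413404209400057772981857733960698880014696344444881762587490282499434955730129010488720080813203094034621258637544790895702428638371932752750185673822727918783527469044594964143591969267059800920261021685133507381064729796321016125669555240734438224797741521531995260414968963144075083943697470947955381573677974208376307630728720926385752213782513363030640255844182738811668704095398129937067205386170052307589412400604826398452097597487484902860047976031421473516773709867731814054355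180899437686833357691045995277999035126027085978618695584691171860378695581949574062468721454309682210519950865622201278128926238171657639608493775303038803800258858948969240815389326419356734934780623175350196996128161087953302738542152870716952418144254474118977383968063328658553776227769022458600160330266556669143084527479770115474840964815303642321517293010490123868448390512261799358690310170531247475880902132603165560741272966294199278345928971833761704991097874968176748754799090272809464390114623163477579989571230520551280775836961006651149192544448562637930645571146721612076417189851965020689164426536947662331362511731247304494091947947437944081893379870212149074686312633911602938502767930940524615901248076302962636357761221934574677340106538229996458928376447092813981980769226424117055590604728716624700812314819929920308701659169890025874482100587410547844227147284955643939340035077194016363019584655366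016736529237271346588824004878162458226415287819187762027455844192343349010130471126671995036906236164546249003352437488499641658202388114151667746499049194306353594101913356294862536768409859780372041648386558870128152085097080907921018171091712188959416110003141905912309723986231215923561592720299731344091082960543263298907742099984317740633194359466623832301035762787733442454306639775631836409768368693039812973161612676768272375026659837993012893327413074788249313166220951423884420573362784969915379505882048516042972042373332539237834620858987691354437863840082664607302094403998988050833755123285888132836702838063675210811259374919214668156645072369573432241722002825094181895108465938091377278830252230490223558239853946466596238861853571625779933698732924083961649563429216248744773688168023724254016582813289912420048866528787001975710152006401086825405387582224453766652872434191700251702112194289634280918911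099366228811019069038021712679737442554146935778231010319395029365790912309671410644005615053395334612591676259879486470664722834842192756726998052110746119819460949719978092603822718703798462160019987133218841477398136248495980104957448609400344895084180176105734772504644545758728106108133736813738953452382423023611067116472781784401310494577692976746598961786844289056685945133094996895760023026087613128800010843958907272311586899659487838861174206448065867975728523713768116595537361578872610330356169472411281477256725920489409701022202754403819434813944782367129276487568286866293644076535697069766032131768039355023200716534623457666600567274182922013343661783286209611382946600631163467537896895780695570031752037441103569399979711971230723169794520143515088778272443925544713277766379957623775700675435713681591535046860020281158864403835690169831383292479870321005859317583191959147273237603746425179780915578702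901415816265591043931527204183616989148478825756591800308141023580976483615165636192900241633067465461757444059662563982966359882176580598136816901658967162143580795936491608974376142448902525966942932584106948157951632983894004701192967989632774240375615373565129750969041274630432907162125868240223254148141889545181662886242590226558579429739053994789122912441450916047769392663337718682222779082046793821928739776822277997886815291583696747292883307566239788714327198393661040097233329451074710015881616666845941411856769166055249147092958339988869288316801239130109887603692720415941064971995487725128929720065632493015745778094199764539188031967742040449877035691348067687464666858509879931717987680526537458754934490070567378074281144211449297658582703918936178576522806211056352136448383681238375919085151279651549073262276687554888783137810809302825972246573734657794409305607663071642996578989639023754522072728804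558225043715440781881587248169824020701620743629162139472011709803977606375547620990748470822829406240115969096509364522939204726992979997547866731186071429943733648885190204622165724021034683503064279497885356138846383183594507550141414356992828245804387965385011740711407300239877895364553368234792112365774003826791546239731421568146015688833745592299823506226499775108479384608745622406777158145274170488056521066632471818296120389503458553176462040611552888225936905200308919856970887004338080669388710011785403124947280491639796598234931968936156231465908278295567024409958851980458368347223728980842163773639619307139267705960204708369670814104925885317863872134594658309328328307032356328631979331165671460100792109875199047279720972016746957998369880539549711294104186099053270152425721212708962609766999264752212820836300644616355301515933862555905411428314517132339333519470405664587124397564195973256172680886425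185297490793628650137136972646484461644719046026689616632876149640375172028342811429345872338629972275926343553263501106988035309762212249835414831094703018919483944341316148384586710871861681333026225406487858481350258823322984726791537849338407434256882688692871253087723478040356066130900346144104423029825125542130616377663768916913835613416446421432869095994754234064551307408155504118744760155302045373348510431575468572846322356282455169688129610899747095268741383877265360655489223478270955089507573720284474876841335087603217920918702747212356328801596270738343436462901691451762124555692926437836429836541645518444949559250994042134054113107616465534741640856416377845126897436441344942373272146608053414514248813632160424911279273397285336118573770265024904672487778716997385771753081748661429042251294955716143928074082563899079345706336985310574913193060526551701798304725717145244760690421715569846447113523944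402688482277962454936968217243505361030731348565908300253308456967599906327180772627886266859465887053900638226683025565097855676057734359219277868345005270668723354199129274272590322800519241913619122266167417515090523454178704470408393839680193766058090493963316378302254536662328403330795999229474790995640332335935458085600762758212896702710487802196323985687532858052697975416931234481599737991591109721924690887205875030672079731862698516257078795848071156147016991871481122052328552673778130943085112910757508139596545225530587754752631163331780724568872269351886284772439832162780438045350287583766264128273546385566665234761607825637893894300870667329349469413612086292058993452508575939554384680346770323070102730017806286589361640839321226775256338828952806787657032666504162319572485116526252032085256555526697179040233375211126413624573927584164290694055354471463977797501924557733189184531059935749432920197845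998985814747612021272927343410495216640805513790050944794355474401945882629268469658642915554808999178555740561934488156789508317241774678299483932618633648695532939162205451981963505195272403517035253944455991628021500587177587947469253444175038158903614035831296631520201075778500087798664036364399136170964257042010709835238280202136298708438834831490594188916011810308457651186938906889251503260591409638235203594781222020345237663793663541629133645935601668011227168966766976838579263975667940016224085463955796150726198120432375944101840332912372049030729451164442271992110016344149328523210253353890507193164886687630663217878049871053303025534670608281064242732306419981693742568107799634854714471499954369530928670299902232315809472090578640461257125208177494455336712910896192792836286266491447986079112282572352744364114652296926062859836726415369855681549877841861590265532523578251054269956808377505806155445865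720548570988001076923950548485474956467971105041031758850194590651738671022074565992409485195025253622407449826489379211612984685069098800224619341043614306576283068553419706988114050181212851496946588818418202700056146742714201755293406249023831358399202661038290415220824770876811814924635781804979368871617334815434167622015285406506025142215665812448036782926977923931047601573462437591528412276343090733442098572786632580081237165579667006098807958659736206164922865203266022544460076515622954633364353609497894945445720763158719924428738293618877698740459785528697257501072823932417952809192111457186802334692997709121647589695807598001448717554986601617384375677995644249200374395522921081515338287220902141716282046262461993337996647151085296594712017360035600637677673718777127849906208079806443842706823994139423421495671692885631096960903936631167619951606358009155833872082044969807628034762026724882543937939412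847986599974332346706334522440258812996781403156345162327928869974837965702289184203160718656920618022607443404982747560095632446346452669483314943327606441949462982516367495744533239856170962982685856464443460658678423479731767516652838099754086872705875996803827446747685122208840167752581155144780396770235399489033307545962149584429936035595193114071987313564618799607338497888047574464383484135583541499500775627622248181461030249556437299886998022337778187395553513527245039704882215654919297416940997772647121929007483411812635558640205819230345915824570041345130176990606010236517838009977358688301627436581937936669515368362269852285431403129402502273143222801022836808742833902127319288554465109624560823081908672783006614730907536252763120858998893771336268701871352294576074744793516342313326976907069762712701705764823562951221615817210101132424862369751177842139529156464699637733691545865049306008387925274130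868037731762877548137830409256041529083695385998821121733210444237963658325009265040936500336479840187257138294356939784672061174902485552873035419010255555644555029119101801013363298691659979890375539107646452430798810578011751739008180774537638139473747506541489945374435874396326811817882933238431753814096016759674559339916938153837194446732330995285107347904323271855412834676596214506734481365151834231779664761999010773237085948009538929708028756340120662632572474538795456277272237110726838112508958355382864776342930245923185118131665373508414762172739849044245856701916364754780789000398666676027879755693194997513104050759180574443974802977698699775214818684694161588484874829649516493828997808413697256078720679939657042139982616230307651740496906698610543576286147136023171777930481924846040734082007368990623206389244495942534034537047245889869464192727342509092105058725001566441849782705145313888637603607089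755644589688663955194662126488232933310932438029254925824167234974967040213804345209028000315088170525477611986613064119587584075872701690601332962123428557723147965310976275470469245169375157803353357409002168926801305252378752406610091836923052398508605638812564795566411058521331106502959852761759459652093633449022030108246111634546099250901127084773368075766123122345081642345980019164981113598842366663408953898411643043220213469373611364989565582129412088213681884308786323321480024134154937321773912814397864872424323684593078675774002957114004267036686167000389758419425827247040904659405762022190299263604359168)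

noncomputable def cp1 : Nat := (nat_lit 264112031085117551679753736662468352277176425510048581936535305907154252518170477723208885874839553633197218559992496860087989086986542257409057960568193158174248239424541475430043466848115408085471413565859617706946359546537378144203715664744913726275412380945760354819681641142857057386932582389843481769118370546089633982349635363884089487092579883941824847318212893613625228349560974877696760152122504772648595451640041029965448564663170264091769200008026537574874383083801899379892871387450355223909213436308160282656564702053555093247344113902393265067778350360970018143796507335601971160338727619420096609100156417836564821190235908111532984323888357452970746694594984804460725048452318001639661794868870875300297952660081219411719333183635329154347034237344776403716824736772475896432375788075860845850155780611746790392310764467333415422673098729219265240320241553053470984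762587204987863751477011952033428626482421411632980977307070435370955859624397038585770002235476802795750405654575925273585499727787225105688777212117788486945717829794736425810955385672520881294512885977708955662251487531442314541393717845686949743729182293794484288715759156534541579755194231281192511737595531571991938713449513643175899508834946517163590957718080055466036068385392459473113991559174088577607636182969599357682778893436224355971425930586886699596310571135288990894937600851410804995710139676089634967805950740819902734961742060955985334401365885012065557523314875977505577571852771839822617157006343412806629654905708695661467618233682378193152966102048663317532772355498717411801058306294648708043919251683524774679414085275710254523328616620598693589343090793701935063900602412186400222509600348014299017603994416701651446932317363846686447823005278131140496925530415130134750904672208666983690747496962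976217790032024087194923248099263388455934979565240624628235162185454677106290242972837438613810757969922302523212140501663183690712951099849982337122674843762201138149109610318998720180306204053088243094662732896565034005986419384442792125476989956920082558020803119177041652070982172101843211684037572773224048814167256185849112351927443504847150166604602564401404280689788868179994927863232303812128853138483354894752051646492825111453954300066897720502367077150839218980437882904429278594542084692029183249034629458311626657040254546485046665251470529780505901361199471502949004700527422484063781849729537018100165857364705440358932280584877221162070108537908771242716046333720403856788482941985406729336711227100949353555817835404577561582214677580464211746590334442590018915629134018425319543507050267985469574679265297300461758215979927352847398421037840514348753687194932460875378481604377047508828816171865639095509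903422117759530013710258418188765781012496113015338345219655813721657533852462582326715652850617808545837277745871230697323152475133627523254053447417271758271330908768928869873202834675791269962406945471538137746717942181947991938481621107857757766860127916856872546039209708860082480447831908984844040350209552211872217170641768103767721681256210747608207947632130503779959001612115253735549801384829210363173993997098357734588257309901794263626995855467440027334775256646585170263950157121876598143919523635659045917729159539671358970203665712669630517783947034079020143749854733003533847205907180262677622779947660993396933887755662332785877433974147045136053187884865141025383968747979360207827497423288035137251844459477509380535540781881694074762884807737631855546825905260929924601313907681454378559767728786329381023489309907330756699147704043434973257993545570302588818180595960844779471097011560125961894804557553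751298831480611170579075653814714093292190130117486361626433954989862137056324230519433885543270263136125928186508903582044525636194236539694696350215334099935452032143756036302149555960008922403308014038168980622985587900672782728351413348804912754084459228377521776970647969140203610319962177227003133341810241211577517819369308521414100499907789667632471125991639961720276735897365697590045820826091063383479644527664100517950122392722843454236325250221157863316071569239773126656158911658438205235009141844845025749463616736209062472137982899493583001417331532098122960413419599465570430584079866239740086776798457540876139352451664614542070789280706966275155834647461827752458289325128151739289832318697895077671316717593927190989028806772083246769172260921114779797946292374968502072739665968449315245405699615442081825184178282549277456976530529736485530117624598293804047964254599804837595567464637800300947384579739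174971837702491227684502730361824414301631318363959839249838034668366813150968433428726823001669622629347856831112343575042385445391329592391764027379215687680511313163473335743729030473927058290544093962971684706595113811036692028273868767098628358363397568589385705665700759335544130619358629817083009542932919005151101281065212348468583796162818538304746374801298370859154290329870045087708897057277180466296708934695827525287457664008313045722540865459428556252360608499793789896743466597975761572385582928283117637390825113849138370264960631955894892152773627206295095173635871335141024407508436681958367576410077324134570528908232945510583555811521537888306450755147621687026807813949005857434816356597208358196804458526585116543037841356197898275283331309644815819586155445876226167919408212644545960986293245535734441830370854100391624738984475647713770312214353498637605665299667525623441140014964543775131511124546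769106400872034693094094297857484465506681766443450011892905022900773250853360852923820766470032016624938588289014903759596729955556827541004019791912720326855070796809318074630694105424362403474148049394835741884477472575657042782095778657658905735006722703427415688476671296325466733037452186165647830567932959456036736869584478801069677557900728542826549231076294508579576167427227112186022024958793120797121878558416568185862789350226932315275787011928667434722689504629827997961308964946210496947786178588582714949329455524351644710809833082796904204105106126224185707296323964380704761539627517190748821816055206075313303802161453453559722943291618703003966293601297027682083439358614538000814596318830894141368419576188620845490764015834093776376156254347105897748888894699045614969652845196979295334232335020229452368011226776135550601706833008887959591634700930415828793338234348495334312412030799744887205913654072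287873472066799944799510751110020524367371967088231941563703987356933681498077831319780007456411640466974519801384306024518785846964285592558469921048693998646801305013894465674384501564818108890624351132972027112642317263225939541320203132201321639363338009186280220616053490911908851879480076323421107130146853968228402895061282029085823981332908513991701544082617819544508279801529397144788597585743176413650637601158678566718526835927631535237346561151046600034418748059633551612688820831454688816060327216519424815439853358698061394979415135648955895703352512186860205515664958782357352597887792810274419839317213731249187572439935308120524740654527209799683658873980538107808949828707724715292602720059038309854231637483775038889369723723998102823567516564256838460669844155858381725213129581869895833635446597484279623421033262675807712481833913122715682446575947267946445294747380434687852958536297183559478549514228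731415539883484556715771781518034718888214982018228866593251711011665275398800462494484435009339485930521982739194322481282349092815982467448171362160854335873166230583056603216426655922264842263234061084891842774105288233023281481329193718163796580421356258361675236419849036481926486659549287267404866674263814426027266615876797941926596415392877270720265348533999335274071112530927311453293674957793156681939858811440819049040298263306070896329926104289808215730019981047940238142751134751760173181137268184647507240605457158562677743601881409250659621571076107569606276816647123976194977907586562240171663890164791120156855724080189200697591950609556872288161181757645230074364932757699866425946759278774609445950194837464414900848572995431048421337748412539386130122004930430309318745755317743521930246262459970612408572469801101962386679881479802742200101051488021267199055570616626708690372373231122615731965804815840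644396600814181482629121002192043884019028691713606386164448252625824602071406706618800610965478530284297669954657693688320227016101305988838567362633458793065247447859815740931469018878545514230125584846760761069655496387489891896521063935769149565958015127368003650722369582608297359692680578765418996648509086863375658824721858545797061823599165461666790740776463098924377416528532471344768766898717462916643131286591322133957172826794914926884881930785594349441190812446712095549436471092469695534066018731158882504615276875230060675522887607423697363519280243270619578813150393544683918256447733709314378151855082134704825428597364594098120110742860386437483684106268082919032373121011987865242896337084198885406748038096420987519646154996832145195188120600835071256184526832097907620904721233120102184238753176953871244753008025670907643915264025590709021343588462945063277007630289928272906249003928252903026829463119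383320220204463200094176298323211943209310241655489779193307807581388373048248439738413252159249696742197343608148063787555014498827049417998466012022800529501933507896496461863508780102158115904458224060045108015823628970280543340407348727893885362745014236800421587010635224212332906192362216899126974578172347681283205032568476103008154461327419225568674886103920183675242169245841308898675718343407202491424931051490624680285683303523476247647619252066700892217611476192686545235663805486347168708086976835421689507611501761226796938665234102997616985009304409742615247101807426556445243914039737697877051791841158879252816186065664249881644744700896559314596614717501105439805183336186211644131992921037370228046574130166339656577847556400734555505565166512334029712433343547831492508832346481938612112786227348668027913337138005083740908599524300905986959593539021760248321660505818104827952571572821692110647086462343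480178699963306359099794030589766254205000564092720214427768635562125776635989502477005520589593689528246937695071486217981158902907739831920842220228895658552520000654353657030040263729097142950288493460678281782527874131273532318479890770248776101643209337401540482986293465997211813746763343710000769050600565462982568504744031620905610387355446713413329242111548101222541020764831780041190874729413982464997820264426315555545369484351299438502817622348355685806242633496613741098440669098291087468548411167966943658772883446240135506425099262850916456149311505264900771623141773298655307845940895229655046230996517463248532215359613108917976390808113387764100854986899060754943790529400303094658371686216701210083138351308622796623769941912227487353446985353123700771769005276312987561290889718496613520955277339803667958345222869337940725814545070397033888936014030082072027783877284357751093028934005295104580490468254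534284951310915070852161077476331593115361021975979858040766882015446524958819406332858789029211914558110512857738480414511053196189196126852043345227196869592891716249853883719762757320668033967174694328117848167586161862662943043609833011992363743112250914195302978477296640605095007611457431024235133012802854549622457495161921639822335750959479066762424854342440230710007630734287210491115603139014673640490944416056154091836498811272952936067160225628490472938152171486902337371464558292222565015348504155223744644327295248365320852537573522856434337595297382009582716410696876740221656981531298509040697953572223289536636210766083412683085482187312242507962188867117788054123336113238005919932409528012341479837515852248150570143048329904631015619224014458145274961874124585162314416540641457034904010554860822887868021908088430001746777332343400278066359663064535839341767386556732957115301823745720687061858494664837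248766505228170399506139939979720824285287131776724756388115011285051503096685255460838090710728404143435100057814399434435026331472313423813774954883830808680831378137026627928095339270604374667314219640279919486549470073282217300375187960822830161085776724608925175312469308404107431637118559635815547431125942310703183216664138527064195027356837686313966485064649671925767317161994519655013170842241347219865996989597503915739772067661656764336465977650614429219194898698087390839107716393447119590363126393099548236453255870413672045758539702901635241542621432156755014145041937537207770477709228316721368742238759471218256705931748594834742409870076320818846017468403896644012516755568814828508905480149307025324332023033033545991112426669738881291153791905739581548562759201854611167025689681835386057518287767234342294269565343297652335386914434951560825062257178233384058361288047330052239065266823937702495121156416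882485881550915769876317546218568357342613476771575640913765420809302879210402575755536743188030298106726095030861062164443040611530564389371230978036338973961600926439927529513305096437652529308645051032572027967356856650684622598930138112134615554304646950115218613141970970490337903631221080134105249934127570750426604836486958506175434162714938952174545627100708324343897006889307420297438961241096817848214749370055201429764411500580775005987937092053511355450846966237245313488805716075024649003149984959240668647209848484239496712649832448326666679462596741331522228174801230619776121636228567187884428539092596810632491418781512395282980900457593085372896222009549677588847707351602432777499447564735206182453837410389575850430363081335415878111351801716818085702346356896709153949898302109996343775130403870304794273632112363469287711003249969865532049079492731180901033341866785179186029778710609727283717971417272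349511990697026191779078169863886444371392306899109508733192781600011411533051919461282928407934129975132297416676927320726879638399797033375104549231306824406662447853655896988119634939606516273703355087166558080609492084328897770500254423227896634957378165040288818764423246069643276444384884332838664372591340351628718467044857861173668949774025778853241426429929924778014673330174709240263536030511687388116475352503904293196128673545482261664060552828858033660826779558664015502184996240679408093168064507985446676819505695075855343651301219444240114515668649000078179212413316051932514982485356023005474884590414454263433910161447541089803782796771280734419762691614648104249636501686623507161130711687242582953836033487312814274535438258846487952158446695703054470419033560233330845817136237139545500900205074552592285862655333858250192897594553935158272351919159016642704346290611723412150575656651296051375482443750610128089407037966312447061804612683913094593687263110415571512604182380555483562173678058541580887581265797334823036909132410753388799318962394472878705205667657193918856308832856723328730455843134006662528113049397125626598130076902911164020195731423893683299974949486782047816834871062406945844530901239256029628740229941759994091011470823469472546816)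

noncomputable def rc0 : Nat := (nat_lit 235388818692933113248512227709532447768220541657033343460007870063051006301217042899611124698770918506722758665132306211872472515036318297280429632740670495940425279400728679223033502303299263457081989705269870187148193601068666151250450564598768623935047872598172104446764343876859916151379684229329397543850893741941898457855009271032863373052236070666167869915512205653453648500752802248230422288624219162613171099738952474366784950973852700011896381551159433560179055117536915402528752442100063896228830988926676012780215097531451229087647551027979371892248480534391546830252670377428818838856022018602241090498657618502104984913259131786127546048296908701571303041878565761562112229300198322263772611991625215668680918042523999823772752260694437422885431333128691525170453887939199033994803039992584292966529626965950747130673438628756581782070420779812404964701638831297277925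925460792603990768162251303333430104327491694976611684339360507885425891567418431043385615562813079964723317907148566935212067455888229245680676451486913383667597738683278173912627349284450902870779573571922812103007887967210618806011908732778775592862770371725948984680122423088488173404979276956587476812285188740497967440338876865259115292656530752945687431442983816731439106963648093325785616540227160891986375866394596372379647445909009116868563368441917998621553444935551916209022408897304039345383241804313224799637969498796394670836371013159641000202716615518702741849571072700194435574861079138888179817634979300188034200421967458294956864845078836901892784896916648884995167345704214852549274488366882597722438521832540588065977716805917897841398423012834617559397532483353168982074431134528665180375600235963013645191793240177012916636642533999689424366342980723360447781708073243268322144406385515244365628463151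402108997293133532301288486467008296143941406041555968265307496675577837067951900402016932109867156492793857186064220675731147521942860926606976461962423414640225415077409346433538378567009720730631557361727855616804767234952599843795933085301589430511916615606191370075959708794769883818355984961742178395929105575882064061288687412674092718617541848835750190404918793727182569129663130844205573267511752663032008080470148042257036674693407309175368237750866095662606062484258635882976635585212717874442796674128284637179601184543280461608526420572289578806724677726634767472385789877017620585724168996210723248118623834552977264040165908955168883003406117897446338749010756264851725713969682564042636828088406730365113544885850277688158966436416848043085815657645244248282952070315204812361847953205521047200495298308329077626842703839480989402084053595565906036238647259421876082588991023267417021862131455428373409061164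242407929726122731558839737014840527405486759714296495614256033108244053816497383902827118227745190303535693152140181994166509833281483609506599263588544138915936517379357605215021266395567023033847589411884895457537292435921340486771082851512697172940874389871646518108141579493544803320117408772611608070098059317309022039752991783584705302102811187064659989322464213324593479089564381432370976026356286921021491797998973243738674404565129481513248840019341111713481794125006073906235722660072652084109743948172018016430717969774589760766015873654833423720728685960427790301896622391745251103476873173496741734934534648837146709867137852295891758474427521209036890929968640847714583046252014380313062985184044833090957458001072014611965967685479971969337613235199505409565266178295423426603097613110159949674503427958700201254515924144994109764896024337664253853856623309555155843422418168473668592501421704033588810292971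122154326191089953909316478834407910880372961786656038576178521816462748792958101793142483248272927253377272979086406625350572078220270650274695052985614039476960955395522553379224737152160926160768309665487733501977389789512867180932000921787861019416474232168491416583172050011164464443876878422665788037708394657129884994918666437415939665103197412817121214420108711767199022359944981472192450485292898049626050351907508622921461461860098674114247695497234569406104224895401460536091533070124861299000204522014755577641942292415127632096054360717915785472483604563290454751473001733189503000666125274905981456642150169346106122465609127665470878668318997464425728354058263620424934162798660742933515492526027240216071980184761873019914141916860577370310980288110579518823505895029896514363139608441221133457782904561255425239902363794314411515160283698528674269866190200513185035836145049130758737061161886345318929317265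719521512269515036402960021495409922631052518473027204259244380605680183511362766559139069602032392890341100551063417979924632480144169079401756137407571494341721707264655390343118019187996572383494840467554582922086012729085217216431692071851043790207776372881217920228219154722283489138537711652504756731454888342714826401125464345140818349089416202049683107747115267306997015028630553321637868384312479250495360267097272113274993918482143663767656065258459877973082287336721490918795973972336117416592253417033951506236676440775368728170985624061998735934494000807679705841773580531846318721564255861745492481285990978422530686119033665013357894998537011076352678121780657107331257171174847633238966583637172308367295248230378649238670487816735294947407973302474031195958002452229699934203374072268805747188985387191243472426526426156349631714648970206202711111223605629499288562008755589761389481802343730036952551879658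291021335327717940964068270790521115433988318805662018895610127421262904438614635353803037068628052194108541797362758500821798709961591803025200880881005292563792513571666974454172499799764930066648552357509025565322778929166398385659519908737536968602397447037441213389515574761841024071174657527941223409988650789770701148382258322831661875734376417416940736449172202497096452307083639882610529910181832463571761261582519149633298065614856401218692952704615562761119548129391334946113610066389641604081360708243222210431247424529931651479491471727754146309271923520900291315776176481363393861615876844457984815434041840332371288538017754408427390474628458618039672965956909874616388467742670300842429887975501023967573926758668630884938833332262343313233989272003801756413491209608832425654256041588304469639532912388555358993108088039017934941022399360108046494395575441963452751097750009481584378705909650046177466442641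066351620626941666968727689288412544502130346397464145054924186206398559301097373898760295430344368004204358583016095514278764737656187850883874622281545385219830329196198322170005285175621919147359398755894273712936478327347396559132339437911363137580805695152054698995564238225441189441327671732852934695607799946994427749546784942358375205301462474250996894399834669507875150881484351209451640710544140077300169299306539072174715961016086696853012314878255940327926451995873117232134726664360169994932335355121335724546953453787113362146325481732496549225463680000532272999264327487653389194818305975104213160045534790125120828852937701919156068234660070686285940571860157030100696223904741338565722399388617911874071283994814976139666610786843935457338439680557660765098933024421205546878848247652725874512920616743801590175829595426165768024945779034426851169233420268027198844559963567766311990317154531100707372262631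542881909631222001424291344190296870112985652146693347893430313388380784611294441256538454777827077216040602888376193786546809979410025179218253186278476639557278775908547995805892526517941758194134701620747339270554870748441337441690028826477243595774109732984292661017806342166998385683180671240853307981773788473366225923557442768159332443311352753810008816363897220728055175544368091962474759070668676562987706343811787242327546325270996160445286978479837367495373144720606626099149179651283408209630561160685664093841155131736561332440529756620332941345759420944142218099054076277462421542481614468614117943170648996127587690739829040783859991888808460018407474012501208861752585605865838757448981072899276954165937045732421648468791812951658291729097467840380517798233105824806803204411846679444156393113444497433024026078697228802112647139927669933515295116411790600916827885087149110383013677657333607380314681605392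954555280472206490490871868241934474349491043680055612520975080421571307417767293302166010959572942931504660498748119631440119260143612865795192868364929084627224138890958919300691632435813965614254887898274991566442905493472922214276187851850080420884394573167566773959814770871887306651833820444159712960445370664606885844651742930862879205042625667592062912312477992163576335237006677795126647560235403280532750017778671070789139342961563911184738433525909749651384068397645254164672246173644002389032402962023424209506140445557391828827747586884569661802571728060758207417885677317023996438839980728679982523785835267855377339735784353916198514980804052421880498906602854228236648335775438354114970133247637913568602114542755723614706604865921513424673900884457055241376523450110073505585749249544612719155559124564941783486985203005300607184372649345909347478333774937455815962424527329978509047692855099274750877508944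888048619356850904870168861872775157566529534603586490904723940064006426897535851894134277247549881665478908389161528589400087935285433496913921818296621978971213649641642034910443321900434650012956891643219085302323068119533019015296604989227778046595945432593172948636946885561654014759812933053069991624647814497290891460496323362662281262526154251770061042726462909770140576217465727582182899991811123655174519975353878835470347362380229658603887267420995351120867729852265779163306919038601918865513891370823706052365417222766146993595674264682489440278355179423111233786154960785308813201351821271919880947246007156310601436809701307147698582749900326913261434050928559642433252110557051848696139232769951882483481285723871409294848741683174945271488477430074113838369242264817490640708233976602090168988894766266663119297925116746290045182203700815981944378840657743258423419955592055632260236019830037473089884688653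629293675104259800874504800119299789549258543440493764981654161563044030272102083620142918235163632060329483013872799913753651318634331303859841387111873014475753679314660691022560001257183877648181355332646949483531069766048091845458940902823033177166446294458132869192776764551926214445352373067829342880869182731573506909606615480912882426634985276104363671025526098612316745797986303011296302770756957123998137077123228843399109976553936553505018627573802264562249149112712611133766130147833927213406825600891806566145025876344501860691409787977747345040259969778994629665095749053562291314252226595375296664563033030305510807297051615851683438051722130833126638185214624365039813355850461662482032071814017347403822513253107456160175584551990871332499933928104275082739853194272757794985845600470816371393922946657952973723936961740950122387087249314393508556877741172908470617495201419683541959534995351161151226237998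025563253450244354545871602730788362293840325248096376573989041071530153509487567217880514824322139433631379539620793001526582832880071115841877029320993559678966897288464586989745240429661968848874012329895701309840617503195544223031222694389125392353212692994614053770902529887893622036111437478651999760333443374727253242264456682630487369473372744110414029356101853550959107120971404070069436393740256864740980036359689419954985812250569104667763855259740066608445395770865007780514240338769199708932250609305481084831411484415121086131376028621541279895788741150834325542428748693820984676063798510066496442035400973818907060740094130171443803137016492581933082344674756787753297906445191056004436142666892278506948978683311711485357846392084686122583976598825446741586815938215199995213100768646169842904421781999464607912393760255956918757067582660885650739991748647371749522526973782209753257221659014160456112098476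850328026149131564574025515178441454620201347930061044445464229547734189249118640234249564369515018173207269595239117078287319142603981312737690774167238138527172493775028517718887671150649949165467160466297898964914765474457423754743429393087010635265417930854188994187918484824946407737097334517793646436003663733631419976945766970013389148593319884823850439470282149961905653403205161992398616369941248401590963737965752247206715881200633122916125735126822138923138002115118182518122196268625788498206198109749639134241728364180724829248668201857393619555435529693525261615697083116917903044088123252537637486366310977255115129816415601303901399424579521615294121548185935823953174605028814194228476816944957774873567119773137125257687657981544667630991766538159604628557850716519830567725897982082363114193987120408566234667290826901692527315691937340231754669966517676241199563019436859285869641923342875435166203998147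863829640071084022204747659952215316890705060695789598619065155265374249148159766937205878479978563588105594938165918616022099937559036559327111959132593948494729257125998451693551390629081952704998171031123957959138424312936883545259273714904852033919613942609054122462567876105757892129062646205760596455524696590880616731744494102004884773283595605390009979943400267018722375491591321232095121004782006679554974774948068015058559101843662467298028791997605845774496073376659512195530963698958226697085335708864915794870158089524598006342656326155012454810995094456277314467327001178824909589868449867547229261338221600716045339394694256077368959585017637865302981103368554956751577039675425932222928558944926031241866992564668705607947482363664099429527027462522060922305733055809935740921723572573665293962299721195476726721484862997734243386715687452905921942212741668530887723173948948606338451166129295344572862576062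498862553091665716946347331810424006354093639743794334966706759253536706713427435077241249582808041306865114019637435578292313466131555255563917857361786573626230279622934974527425605402106089219490300031626804677427088262267587532193485976756980542334581407200633044063406195860448239166166601197831382715925216429228839808466645290299990402908946215670737579727536584111015526959963149409412717650712681612094426757382721269444873134927342364858895746427061924066766250444065407892229167862874933738237963472249749828651449180968499870821827291415146314288594067825698442471574096508849123404004987933169552963016412252063202548786642523013117518405648116202030029515939257190839108738329846751289793954494854853075459568234469991377152823520778052665453306840162495333972233092835274860342085855898016077103611455104491383050615118642105485496180501448778117797015170556682563200011572417369784766237750861199341252241391758060775722779702659095575763308191014609769794882675096981870736012556854019525642685422627177994957261362031392603583089549516660345938116000092636262903641803163698614469390002321373805500541524312041724576590176318554024527480654786129044366675778602665745686845792967589525317921266685928866614599678199794114267249642352792056984154884235740577792)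

noncomputable def rc1 : Nat := (nat_lit 237597252257264427902854375805589078052461240214827979919971264740042488181295455171134428248933305691724801637570503359119943564028306801567940104240756593649327243588691929672540739680867482041784256553288656800734861645641226066912366576790758347444486699429014624722147327866826771102890515177689006283957493844611775321016557261119153592601218126754249563338051767472646034704560638202131028564011404557361028208398317172728073213971522313750155609097832732820112065717303747890699515888632904953872720002122258389905939756122206936216594640828895191843533025944437446724485995098202807997185477550948923527275912269000046372289067198464606612344794070140679086777989571767557329893017221954223549196160176217260048404038879639221701478058816847304863834846795354399570388097305655850684837789311295790082658431076835086501279452543716779348417574958450489325091941184174206428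002037962418964697529668692720683715257347126456405911946186085530365950744940968349198521970093345422893475922851841498225540796038430592141530684183927335251640604104686387557713435621867787334628778461064721664137547660016538846395568648018143444938021742198331922806520790903043767669798245106558433683136336030801622255198138140257332780146880361822861058968653679954301877871351684108846728702437319040636645186878553403933248733108363402334448256730081532104942095580358104499633997086624886411312821492683549862374678414238645322875772989071209642556772662277514105680662064998239976850160055856661511364306757942532650766772399717893300280919669361236080764376252583684194663590619826632318984655364098958682440109359455999273386231489046341671893612273162839735765550589449090927918635260379575623969317431950795148179110217536979587201882763220035352516169747472413344015165637908658804815581070845503790467090728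872365077630473532939529452487668684845952508545542621322843963202544697950883180292370167835537097989128665677664257155816126284777901224938343549888553532140312756657329172407478104461270555107815952808694786342540280255586710937484127129413390483325027993823563664985176026923142273979012304986730278178750726428620056534679546723721329405994552758108618830814676045711054966235790216783710351399001406877604708313259620688560353926231625779781876896685634428058931782734795932283161127753437311491324452689166580150221959096160435253516875787060107648531582736805843076664012043012216138300879770219349570461620011746795161826281233270967013150643561761298681960681154843045918597009800943291622368936546634070139868184611736770023420898789257345837976911757263427263721670349472659069457494190777709514570056570053668214626796736485853084401359264170219096889830174760161452508498308128025958558031124340292522200208135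438196029424367608969425676930720266036066062637649073956474418801745581716292239284398523661451582226446081456543509143974928782250434706312700651009694258313991559840070026887027921064134957411600857989537988513602606957620628340152445746204575589775634509181154571913138725102851346012173882313547375575456475067895090981012317823888247547740911931364012157071272733114769195451811660463469382069834552381419033673756664675314117329406319575148991138375029418988373052252738375413967175538400750701561644585134967317319429243092909430448908269496968587204308648646060976612672578327691125882400119055121538212143872011162924337290810259325448963272927086913488435089302878182703616074154094910780598701647101037520599777477674084018162899719121375827088071543978859332723098797694632350620239867397677393502889159744596233064305840266501765038421746350800280661176621461991830151977452589285924065189310110496470550292396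317678560205780846387541658844478458274734597121474298718096805653282326193826835432924163306673590477881381557037898433173871357412165445480445594385364907260231978769664770059798863229899054271416518197236793738075535060599690908665358107848731477427847489724856174382909830572879704816267012699746790953414612689837314791391068109931327262375525638450708152938585373074190010211110674311001516078375789764160888301746255244345566520785129843208705783248307663360570421670789481070510142917836513959644558820275026778622038713299027432828139515172281863924110047061596249880144743138538389028015157112564173349942170014501663988067946451753445963576242567911577252954078681336777971843916260096471830224307241299619456607294090970710630965138631203261588819373257156852445960347709670702674304334742105005099277991510036755614286818888792412821931407111637504481481516318598080900645553445626708950515879643112890481399692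656237248279107306646382482337060156906865639579529917988517572802121362048659989935792925967771596579675166017964784918380513769476213195534275345116665781666451818917672845556790905195867060698682784237857523508960115245886187337258557716561154012290988182962226182301911438157908450268480495786477267125728884104251504649778173914493124143840935534980317837954209737169630210014776209942158781275371706067640844923661177142296900044774412109796658572550143199759764327963464034596371352239899302178137087403637454547271497137620787124911572279537117303851169351108241753902088299305663513890263922106240960138343111067596798457665078362735332865828992653943067775714072851007461047374029881254733005500645037041847110925715421220733543837370871387741729759543735593051122584928409771163850415220506914631809569324091384985523782208361506668703304360673277803454710415218558861069264665481656170754105159749040311098017224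551445161882557868290441617567731780973038489349791986746565182531163059972979496809319250549281396956558527476863045035226392460083483679918936582421552604249713768048908216564697198897955267681771996197954568075476261765214239237542620161457887134975456817419926275315547624056672235488439765643825610013201468706637884672355086850782738580461305044073157130265921180623575484323520958183149543711512353339191528963185581106826153800333837007058596273799088620049900335374062715362271646807733571247552242003916350267005153166309902734897021205898835441161273968221186424595399819363330684175243677820975842628492810656408022210936671929314023321064276096489643031031685341081792300289990641288910757777448587817515463465533291491119241107563871679315799316906162419683109353989123883640041024870151594630422440692586775987926108704914626588363283340084968233603872821174355773250077161225578330239244267146154932204036029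628361547371326821671184445664875729835163353392797965372903471953284107328448411655877121702754103877447785675106253156731300640036695024132855398015049203474048666385467056831572870963773057452732138296026818902592789796210882830682126210390929417305918693252368855026114702353363081134788223186662440518192138305602634729053196476664654267627129394914744008931235780874728156401839950712860631638984219263742176189390655639093289126811363103691665986153970233640294333370419685498196936014603265722459079818343183495598043968345288241962845609114445197017334563203334508215665844454675438063233395556625848299400826890992512079339946913116392006763005733116927400221293967617999179623290919569418692161182774549735089193349655896683077788856122834934522881834650508730078716034002726377121121324983560082954979651479074498298910195690690110531832119565038458600185947281778263982432461652402819527081152263103614986118351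613994902277834028718888437718969662790591990813397553705056619042414027886177453439991516743955425486177266188581051867220880782022143131514336191594536129930403949720498578540279309080627163546732268531178947435821385250419348022722033701219380427518781668424072664264811325985844916187965030868941131134010726201703333448659351084070483047617591072651816424328549907548405844695625674845511960335578030819940830219262285104897829147004129405737672479563082689183265933710253550856287153303573910872296993284960007313214390279420043751179245854610310731285708794650482043306473475182040049012716842196003019071539047540133601063972978590950442654722032861451786400539928449823807097416148922634344668617455760050524672083405311340090647172935392702603694654630943640675759601436555716080995813381677960316479806967942010423872510147258244428562028689572036434309156039131149616548819008005522766567126759766803857397729488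300284951796893704929354256877294109606110739444842744154111386618845436279407408215340612712815513343666566090754063405968419759735265105401993390753191278192863761468682539823389985242308475601896213038751860298428376722983156244520170277979936865277743271012559676626899995861291275488908712596186350383014611739998964434548999033113569313527995965117711066764681476400167891936887957012746630688197256448351189905180904088538120913021050752775245857524847527290583821236757759346088017259468784498171592981596278064864080486738945160473430926204393390340430742959195778912312049225250213338239167695237654818052487314522443548657349650777610730407241506580007474881858721304674177570819351793436360277293213191461698807246284704952691354013885290010785487885584079836201064723715890135563521103835847746354785352933264689543274534399482350762499775593600609100550704405138355569022248713173221069477890453747085376103330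385718472555451650145253663083580892175524912470154376435152708274276387429168373534596997026092316241366880211281233166080096016818668518713571124797437653900805286259737730575024658745793578709033529533010306908439295916929699646568113588017837670559434782447874139700846104465766892389017934177830700539535325788971495549433974266499075426026988100658600636437845760769585521352356372829016263163379687052331795862362171342639288989004882760007156017501124085559895341746302447505542385782042779303873215699291741110825760009752164243257545533754264119898408799670522936523566924675938210268300365532371806365693006027501173296279360454452466835546598042179684880639785909289897800233900644293535627028701864280572702778827747902450985040164335285543521443834356761700663835326432203077997235046415132692898027618647128275652005157653937935478481140115198923925037051668366018440018582487774936991360221791392433384777839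596138120117723222109193172720950065636097559588446375515828574276052891051630925353717689782573657237766203200389988528881760671316432543708533175661255149308736707277737531940081272336832934219839587437660417455175093134952882232991640852864981091747347958547232230193797668188181169648798346847316685059168889569673115323637184048015852198304890952423947685363264552645044262826126157187907992006947958910743563662465695497403804175796939794867940687045034324389792449917400319915649686313149524933129132144093333634146744248335848441315643620989588462699174685937780278794535635131512419197606313615079220518368019666265473705305130121954353900187916915213839707971079845463350394868057535751260347080431106642016310412641264579132908211522729262070361253261231901637390794148999492561846364712064777389337413737668532141191437197902923243506458001141992021832859036170855425160289485577317581322757832198933359532691793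453273564402952854192349843042987817485842305979518987460693241613130973773562063804014272654037051510742319290586012151700139696088781673751261442341749683762354529896349696447954882291832113312337445287611656243978156543971265673013189929207700824899100685123618724059039620019671301032484886482260603888858094097279767306438481652508779579040287222171445314916848371421223333791434737101035374865420464326156018716449070470354333887445468489750548340422513616225432553671583169297048468753247191742566722697995321874230641546146787550130346914431742572888831074612387528814396272976457932049287840458371820316633147283679736035683389341889614923383065062658342005123516380450388711216862541835942593039812027686440004956010010044319838561026233567303603840745292242884355779610657144309609215706695592929183177739509162126887160294384312904293170609622494272503002217727223397777335214538055192344868309059418957639233562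107223958619471972426033513621983001137335861176666022604603288570474095757221712006638227932042185042602333837034462409493585841640083303530089407929730498347600017302072671112025177653983088557047702915479832234104314646894199614556905513008207985117340983106336200311641841090668123661196191586801504797702601934889571215740680017525160752250362846196958629365505098377936734362270386541583228164407152573401296094397243561040150313160746939951712430653417417124273856194417221775123527510208327279574144382056307672610403179783121098710249719925117205690924230437332414021211941006625746529393539754413040972126546966901266098358012075952355618397841768208569479833370232803352892415130792303304808136162492248812734849570294423037465191160808642521609356705901122125890645312758568826911921510162432857033812746802059150113105053412475442171963180455404677683484566263900223080341014300430088774568183735194538872725995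947589648753621400196013358038945755027668725000272096816996057583624171565670555987646621454714676295921869418374646225871936806396845539099614596794161466897908723136872978378772143249134929440628205702080034785838373019791379041623157679974253291942945545996038053743101640103363815333423552971900696619467956723497827730996048337417589335411692989688487824498197161934536602346851279078968546264901084366824657893229308135395201513949095632957641339808902528799389439837268708542164426566565521376618074531817442176548108154727468220561786889162040641510666790374712078490527535150405286192215306047615186851802792164545821917436800625774697751633620977702711885848687888379467819918746011658709734751852416004280298762245950359884597121773844558505598989426514256476514623645069147738960826531749039126241004137684170265055287986475412357354388264999316785882945443004562685270977504661128465938147316007036418306374197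400011215301016525399407370865792311700396576986911593154085564651238460455522104680976810685561220453733844206372676618266609814011274101413691808379974400702451444438615560622192964737441076883934379064070006900604772214334850411620065172210780435019486916271378211791581940878428592507865426565690274652258132742233806255549234477508073046172180011063554145545338426218364064517855544423804800612452066446037731645778826567801182950436176663844194564808465230588154034230750736949268719985571108565420298068010423627760945347742420609194381223644235234561654077686090753896823919169588421831693102492187501600368855751328301367665120328189337235202498993201043474974240233163975811685698185888999776626053307432597439342170029068341516276862830827886367947208420166916986024705150640465391167177272980705640491307414691900268466307459023035502339783471861006218079805773351591869219111585448522099839751093377455528384970036547929097508281117958549944880629554495489701514500494030241285207740459287494296115379899606624492952373381923350201165909965518758939169435843745046239499412287153843943330967181106367654174551793560572201238134361888711837165606998910940455964747825438274001457971957954544664622134830236199572879220847832567589000547243866398945794369325604274176)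

noncomputable def rc2 : Nat := (nat_lit 239794245013288097020946655619048064365792575281486119227962654649688206063464427182049195014819935920936424473299730851580621558037509010599059705633981921757922859333483112377444784849317049338731896565660034768315222578226271708271965702727697151719861960307817191755593787989119867866586788962582412637908350778237161381266711301282927253357932166150361458957198464025853883462675914763904427462782005975126730303097311229836160885241695538395048967204119897343689218733466489788740165300124943267398147663641509304720316396046523030274478044780078854313661381259519778460766735519888822652658377553458422991098250669684984839466750648350550950874811367338615133678335642657521359067611056331522875400894714799757818126775299627270507984111493630012591084211235588394952409920899578022530646919746585571478583560820114190095724042380327355930767420477982409332003276626059045541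975595239760995099832906101612760764955639621801334144930379032704170157977269818642281069148232854127428945513013038325374614036951988767827522775421546458084510547326273570647492303705804707518048013045963276721824030268501664780667140721987600425539675049180910983450206531062268589028782618728597149151128311066910795599383296280508607975006253280594435158970989749269918155844025911664319263293629273497742663911111123081327074450889457064876731237291704610856656222160444746095663594219277261903526895015794468784542250447558431406825837346742670922836087680156520503242572196761992195941469172006082895438354056455404203228431725386728583540934393425775733408868832911195524728794769427629370696679729530727017204324576152551920543449158710458666794782450642730093224768613865088627990584780646048906799215397729609558855589727884616930846465459589240767380285859151523314285227784595211602752148297086841987925105917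454196891914044534966697525997439153192894369920480159097376583388936008461699626231274174846363437399704792109408658010962223843525533121635896480192418541882955803166081204975882428085557190297335337067185411233082726495969354777058316264170135794954223043034156693920790153510036478804305171952411720043192246118401538119216835343828928626480779749746442873756072887937392244157602417403011155583896639054458168829978742604767926128529184423769137274310569580162273718828362491603657756716556505198075256489877217816252516455189305387324082129083443984631520744716276200708341291738267254590155725808924232443864051125876195323727789706011779893635325835407776601998393061262155872680949654416955525942503026800457927495379011083126031265965391299439082992824312424261317932522190491929156550655288792748277155475594910579035527899754190433955597009509908884631420390982501229089687508443919705337590259080498343387649042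752509945747639445103472253636965577633872163950743800371173223596455594330554119231102467966429851543406805264942835967920306718053599077663099344029871056286505023730999649313888686782123345682774257043644459001134607272147614568421400552949989461005658183441349415334712360095083289059122014510060098564465277754435019189278013578971204719716630155948671956572455710365822157667919456467404488967993320346137050387677986533050314439124446761333323239499004938343271539303933752520515374105456279860125080100609486129050267521008021038828545746518605338915255565021108468280033899493723301611089971646308339336212747020325361938654521269622068472668777399167942444166954936451940072491988585067775757808655061236286802845546997053171932101290204524234813259825672354953962180089713766569989632858247913025571864766386303664730234161640019729279543075066296112619479813439810707313038683279726845070185744047925517185778454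669421351238651990454958994002804381101630503077511259067236502792894547583736249106427638855263414392211093084296614330090243735980021857574506159422107492753245983516881136436127704577685317488845343630635657856292650753050656611853986520371026807829368170592962891174766189315731755453057359503623116071442730305196059109275161617105355665993935393841548440985637765703665768706246091355088161563050238450099518017262813321739696368018718716331916799244519692856487333355395654942438372536059895762142373749012564782796073884213285708782702646375179640350284329547432382694032167857772488985312962568636844125591399179573428492039383665334234263135411407962492525327087482586594235493876485734741696251664427586873183692992860015315658027126208943362374122692472185521563913615197173057512156380004556447311097003403587145625472702109571078805926068476192993945652213682997345904328105180301577218528503088735998334726715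601825031090813096092457012116271021048585458450829865916413854805967501083804992950284705041612502683826806038886177818170146056594559168398144516853492093531438950549962233328145697979698939197230363058156127979266885411306401636303848056148322736951503229254416837571756704220845118467648100569186903098329297998841666074665031842017918427495402315570132473330307546423055958259875530831621140230912598941317916756357323535572142199389884790380217321411450108781296488509698351322540324505229754516876197937853982926826326692344168802888856791319270483401561585134505690475263982025000779367996895487284020495862941561241978206350490951166578957290907481758591645267158132348794949206239019298123542098284645613488894835234450687031842428015553084659147702784337948271634107702924720163942597251357927275258028243412084763289717358873936139911439419684895266753237269350589421038826287998596671981405329479443496887435991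735908534128996317952867034596121851147702100253552935580431585289874684879839052814915748873866917467138540493760551157732974099873441957825828181183613914229456255688037444660232045389719867134712545689483756181050262555567316169399318005304584991583163720617190379971517318292137696558536746464097897739893876254948774639149810559943987675835662349638557558199152378205113896587756154280167720869427324258773485902998642355510891249312395124975568987436989795432294084751167596135966730185345883393049401056430586601469121272212345302129215415321533175332414841858645881858176566124510011973350703365087155414530892937369407319427198363090634383895348855360627007403368739198244599716547181694229858317486000186966609427975606214288965967791883130340867159742636876950175300428907219838553793769909930457354141685454996505573452893237146323937033580565982989832589214418961427363136708919687501242131389547149681570386702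911656335848836051902925415635990890352637310144603970573216774931958917874364105047110762696786048826557848534018404719723737125213156360959273508205348642455698760065627876444729954471356050067019092582546791943975891989641554109703922907793381505252876012877866436557445604181975348498705351385198711612668755390363505162141123189663497761943269186331149907723203720554655932217983410384162950973543671039185294677172779227334259310440985949831572225491782198776095224259433654090121108993569829727600417060961100784313389198603461200345597311770284404971897681674803199734074235067895802946571562418430636879779393171597270671391547836092313271154951018948016533569102651309742991276019985047628673316858375881150331237936962900336518004778860834429362984200385385104196566010358459754300036472704629347879431223813059365311315394077118810442226155792631632321114312575794650629740016606538524744112128894289728832148129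076197910735097664013305914898466449944759853386365880216083795631914570155830274345284733413313003752275565753917419230064731304702745320579474281105274134809129658717319193659237424942298514959841527012037599814843790617451225568199361633933161795353487230831078074325230106270887320916163469775983777499273857262058915927804315725018592501295265206375205614274414818137220617781043535895807010610911220236603979724548877552298582877981670871022115317381971077985292548205251937452182814100364937644079189966721786108621656782643111250309880528890071727392665475252894487608537439416687724346265331705316544378509305102914157613891050719588221086952073329567088229203255268958818712101294645953739364824583061793139183231479237576424029396664441665602713337405298800253966368503475414203808460181061576938866180329343175115757040598311643288656470472439606350508790484271118265266424720062188887466926185873326399206684097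287517706908122279211596838507130228479330702218427986500589672844605592627803464099747556657112172485046741910204519175987265765156990834191429203880276750237538111270808974135269506506034196396782042333214169336533321731956883664348708982922220641249328550439405612887006435661775316816773631566585600722009917806583406081263592184096663330799705538369806170749387228804793925710516386660775950738854063189379198482118888387749613383962297624868044147852459614338485242990062800217596574676427569263456676682710513153226052472981467284847449641669072180377761567874168287262811196728420574725165334039453262876316914017552423405969868160634166650399321006808326245593489086807896067936998563444146053337828889480529695730864626304697129676478688141262201645584882987900907712373031875131471048751255338823528173135532040084859615916266030157100020619783777786135276765425370559658221660215614751459940818469306730170041290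634994060847166521678359875950919966262002547410920164807577621464703714540642614429237278859162464855108344362241231068174862974317351327164678539100781608777658077516253574913761297142485499707897550044580301443140167384309906707890381553716100094465056701916456195374941793223857797672706051464749504304988397135525102635639168394135526305182426382652752909888982589276394244148119532944807684312729169041416081183962848863650102398671201279554981746749842252832961930448029125555920329225517813323824800664411059361125839119668878501367369369243808048492576891423486012442236274977933886954404771737584505438111436577641799639569665803459594570486378097215468995663481592224340776451317681844150707031887737021546619683719410806471386471354268647677301819607745379300549166000562826686762896337334370798864200370006377816780698304153619677415353998543456509848524396114647339037750519741969631453785001183194454656045472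601523133991075225070077816692940746623424828551232268542786524446019617454697713914496020301819578642539583305342525739714061552762356526017153209995855913493918751457210616698911786943016658023077551591029474991161275687872032192081084972479938147101656823978680639087463529775048688601974000484300602221484990734852454830684291976506372384831895187361151506405648063765937536772669607723835541558643325361258547748771609101660723109195222693060258657252469978462207778165522425185249567289714428368543744496295580843837952342808569320168788049334219369474633745439760271988835587511233611058074722354508715679956389099619482853849624015294071776932702796396672613146572165252256078872708690460184854367001450426253394089738982045913594566406423648440903114343518370412107195107083406023112913639095340533218800037211011252111749061204748136421806513905071998752418208688692953009393926403609911983259814427329064691969269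725552017122547576337748994880938616666054208268468725723610782901095839382240146468470600761311359080198424709613060048662206132727435105407975238955983056225109657151019381133455226864436193404178785390879951570726334214165699626141554974117206738278740130239625042709783924263910617568171473626237567779313110421280901611761699530180034728659339202067065837915923975586598776300352091861609928143555335259139516097534418444836795929077650452139232418420275631791020017551850220466414237375917187011458149756242304426616978065934748668022397361578407687550719651643994879816724510522365884569589749365301633884078403580479452563508971895737735061632734099684186723144631715103889331802323363401770204167477883519375026372770037838251672410838803885996770558225199385658197091058890679622448654880964837266580737641719619525065571953496780461507240288242644920050537966236303383506217184315969490446687700715728882428795302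200095903458463693382538073574555181563774962406183445190230685815197672248533761454476617714244190686896216753683204960965436426077077932291973461425178606182802210153979848556638476454040393582333488402229759659563601768706467733803886519929451288240052486137808366183943076466415732286920603660822269670509273074125688666712503011295981563303302095890277139040738421737694428700170867700571943737302306509472336547666424912865828979435201998339625092083992778423489490761704070768772246157565607089770721990105072666115091976899857731684425006242086901829003955382444774826194975136034412154966549153642937312497303183573155576071350803408145632489706378589011461919822078481439089443159805759238806882077661396029105074606394151151702909053273262672646697144552666566985187263997000099851348950892880485988688954401731889457741134833998943080766457490417111444213764221415255156924838393508454650000323820907067670891505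274569175347682555454146933646448032379991123113931606020872104645056631712662018287362921341994349388726759220147030873872859128145629394299920411675862667923761773466828093224832080349384153316013818063351031480972628001454683628154767630232396624415161607852198692977771766413754240424807745450241174703691150929204170377347135156670911379634326405646196297426960484862739399401949594246893703029973729464923447732864032821027629550133481274666048694499428495105473140027239738920824267028198632691277719465731532083896898389986341226892789774348751409218132130069987068153592362393855182553809437279207985850160406442702866971253930648831942987318437000442642622564758567288111016809892574053399855662258839722898667799583733709061937236612897791283534031172050994182748337255058276613214318329329838174515114763934705971829206928103541865445873268894607963631194703624176993559961261957200939486373860004351540916082626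896201473512663566352828202983064259732779872959545601455560653761272472732533684135508250918752984010638143833912651858036897689247707422499481014661982116420477596691020093678309365213272756861063330536985112211730873822048738714308942316154524634578181032098261350546570629415753695305124873097102379384947855474027706507298005714048418240730262250463724387287409191958653876409786466569671299754969857722036270236779636860510847726193010099163600402960930984919833629465509139947493657624588618279765875480211041628542684072666458534736323097295512569249633551835826949888064891731187507303998560858364098929860598721436357794813595934966028146484174989468299653764482285633203525008245860625646566123384307593202635265357196933682412983918765686319408316473616024669106758309457214528526624238016865538969758935779467038863917760277242595006518679767835151457304123884287060080307660888539791415003050583067745252223302046470682273428047146227045045441180976279635129867562633897220713492258051909409903188045631184526146663191109968234401564542091427685134512300650620427552504676382985500497253759583064973626649406144604437247797344634079480683515519886315173203056178190858350957354146153382045539615781909012648400390811352074538206700158625727311531643289791537086464)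

noncomputable def rc3 : Nat := (nat_lit 241971753908390549600726327135324109684858510705452397540155879841646396772016430807307970848960919748762187112842866903520830727476474788800204817841530287240857426947505935509547640118885790478835132551426099905730807557305843083370736999057040816667985683298691289947405785617725478547203893207010647095989104700815349990132480075002477314682476209631030581619884645627041302589039546469927371141576675627747685925202618807212766294943032040511288247048044717783485486917365921953587403639489930596980097943912506833219905602748827536431013179464337044870857120641584409473947674913953401916593590355723562888372542191505873644712310298007244171613084324415007627283316801122644417809753998408118890297873859254524030605497948197158729834507743765856479057799053222149932345035021104947381405136312941741620596019029453897654838175319870519027946007163360342353426130101630420157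549917366391805619249083034601827982072865756730787959240528685439182097967682527458094323198021831304968091395990475574060519842044190899693944414571575149355854806402510840408863704312770173890192210068270545903596896548062271697647625349723248384448952081113678101164140979247033641226183175824642356924988919595497412600186728319794677760931519534431645977181061433153375687807395479777721101534958018147482955952410771327605361822302419139330145477830777025681653608377924633344532901205343012138265363944881252070528200333095653836942656436309341191417410628696488915530804749260865376901756270939192078699365236611414050765221088532559747679136327212958460265304644660021611851133127510219368179062161428502862634944662538080047375739727103783961070530205331197405304651372446548985937445491952297185003097641488154862822617657382125038642202328827575351290628969128311895554193562783659549577246963116746074015127851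153945611712624325789143484471691246282143295001006839729878799369843776787219996638583998796269859997376772025506973966865557280020772645604475243684370750091889619384900179351302238098908907916882129633120053368426205799229036543150313456382811709526423826809486631353501542620037427045694232204186054108262497715524992057114377191049967732379027455485535154100925497603108834898480770754289161716891692522494010014184321073772443996947369758079641453770812603466540320944632660148769955343873327402060980212174286219438060601217843626693843508437370724657173167227785970702343676473865719419365323347765136383059267082276176311327071804144011552751526255918057216539301252120273092039965893953242521366505686941363782002880908795183642748071073140778577468732364493169034327077844715914877034072429332128719086690492720699745716739846399172498475922925279261577351146930697868850639782790629862216575521002233761270864925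983872365007501182618557396861007119765029767458632891431401134270275373356538626879815040960194088548172303460644859137633874066586319683097259944448407260812350040959318916608680311854394425690442274562283273996020735257565325317572528136008485270585337613686414428390377272253686677585584925002159195563410459336402076867100794489210778877322781673592950796192664622165957079845274835187366072807670445335371879620001636949382863683435220867263383340382011090642375333967456784526321794142118261123595869834325454632012067373125919204081621766150426052266618444463852650184571304620317675950636590722448613491421336593550291554186929990559581164681985076248433974310045558397414059429746026839714642865960359140851317951081512523728844811119276819389780033804166654836940039820290079647331943885615774890256944206738298017733008815291707620722965916695264658511332851354619296508608858406275363427600120024697119181704283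484723184344547775556818727713119613978713127923564401590000402266509272302261830394844931492528001248589368370845129994667116741208787173639322010878003083202543463644607494509388037438520754728357650241150807388583713740154513601256485133480617107327893364665426074211612185417118099261376074059295901247543932894313767741747432936324114526798804935430779092503570381803496771353153344198079654200730685603144014134723820437124884420613002661884625310526633272984654507999877609910952181338523766470196924416352818200607597963009192164284623266820943077795262486707703005684722323150246309227804129123058328759006390685434409347466599250643710204868625099010790898923845741267952696424411420571728160734876826357591637229069048923277434975129132101694608616316401303037167446650009791907261770879377680550909280940480036558533647889527898950127311832090923607101758218245357608770340679379258861679903700203593205870334503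607367348210197663147744920159899880845533896547617198561110347282341012218230361629596624822418926121875599394632457340124922183507311744240444397375239377330627241313599957713785592740617485834545999946568731314371704121518764552015936367523997398252244439135678516913879224885516034082640267440472462441837474967324422667552803004335916245272918140286529984941809137561244923388729144035035432779128393865931260732331066172388142292849394053053206697064366910302207092214924235709941200992210682667945571798957876512914931003085161762159324081009007706188605317938135464477533144324533098878977640852783322423651033023311447820412597276660345873903250811819178078141085877066365312718666943298911305085044225090172671119203740774940685582330674120016898812772577693276238399592815884918702077167442933779156625811525321901457717331422952769844685830663547775938971703382681771383235079501109041465040756113452418324652974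262853731498233921124956311695168571738570791280667090878551354917160469586287546957341578722316228790871145372065987569048701792456778782543806463221325127788383684217096073246461063495179679884209305113920403888617255768752472354815509746102863396704906164297678036941158915185608153270427001395863149334012689119470949973784622615586822962294430924610476474061443189222311064713198979551496812792065449760400406675621940163206068413765537886356299738423482831399771550175355195882484390318607923856113695189172765604647406147449223887191899156405942345584635631442115144318240649872364885484727470083049105339883561068398647079837829641913365436014848726070831745007218768638994042970569376166240404858809513350339363204310607166631969711800150666787456590316449774387122784519842370426593082342294252953462653495891648719504261711184389803442241625726839969840336276227548523861843151294679602324095451856676537854949114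271493588546035984399347435071058873016135388270203621119801729260299388512248084086362735212457497810388355638606579518000407826972683295198393206569316295055374811400346862591857676008312570703667475891806455254374058272016180540566678910059510548393328769942762996076448858073450609668552428714136345049471338056860683103405552839567547707000776160137064198628257942982032542847290263243970584311769852255153596724223534479455429479867593000315156885446754225924276390177363549490267499731165246977158033367579873567598384423469370095418496944156399174533655039104722310169969503906377348834868393700268286962863884589390904504226447002201752011564406204010766742598700101867039998357207629334136420819990901212992726965671087554871641610878452571338768320060123765680425105223009025249310347521978310071167285359428644804007207982519301593583697132537052049391016824344891458388703417177636149938019644818306317648345129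181409899042319117066750148218504530613151030259080113653427551867011117787700244133298109320652766330074663009676984903181719430000470946088245926675859828380209488269012890510668285861392101759841908844762434154233393016028738944936662274151896108310188622179280399764794864330166699160531030779802642467649602950203213743401575684462925176464940482718706578857557960871445817193147562593555678940038270058567368737956748796723234420286791029266126025096997470318527686035104649005258491521402068504180605511801641114038751476988766112319235854335038701776188024520952142611120138167842129860249039042822308835994060837239541421541011027643309996462261883719306649251659154353928965176373502290441875113873825868105508226065986128638337739881708790494872657804472473322815613238413396706225721865580974177619588670129375945743415444828514055288538393277109219903165713653048477971091331637856555323318156135903460876020985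192985857598349225824640312106990473728214052313972091679322866254001688380495423547518564643351146134771477757947354673536083357232537511857149449773593755192424583358142995278529969565231465780471773701467104613976889137348048039735648477859188576225701532285066396936941092395713146474493999660629184996720569621582623019836919638870142363873757101105162142334366153696234158267669954999243401663673383248516803159932822469398204964557524400528111486271346642766182327893517193432243012174145325739966457509315511320572763188235516024649029851405011516806757152448480565706123398404266538514762055098857724431223283717061462326930747308461796558734243437839998247762146754697048655371279862732096984443464453088593061376775526561718190387553474903595296753171525340858045708330066146006061232850556484511194171350697448681571836529922020974707797319091486561955136509884528435642802012679578373892877943961648066896341830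696021112011358492271498581853146361405542128237316299531836952277669818475223744413755870153496776718152519766656866265032732538447879759133454849237855708495201283348970332280484000108363246407200567295790174179289698273300219126083355105455458518871603133547073764527346711394592454971953646749217605604300925734879609314910593880085835659183477910923804018746849150304137570249227325527754200783641999071514305933010987274830145053828183184546983359281400854168550594939397493310313639092352644444748709933598323669931274831185500421336142538486434597694301370252446868072224113715919074747368464862403982438884629712242042806446295314815979734795786687132962195298575210893024097227259263036085270900752066402683396719004379248855271402018141440730702148521637388915393114784896406466048793612183735665222638683391502708278881561013758487090014175263700372552955932173093597467565385009978677275373306576458644446848590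334049897347023850742003393947077746221146638438510183173483316307148704527904406121544796074745283817201919513272604590057276132158615296861410429861551842112418696947168849598127190158595976644779838357552331902912532996260007588622311568338223863311811590227481836416052980404010175214514524970075590875784968301857588552422958639610229829957578612302988982948212375303099948973922782250962957971248994894626136187016347163412987569249751904010882881906201101055454414466642230233662618768243668060734019767343901806708475788514602930492464362950705643401610791876952731760351943330399312755766374116851889243502851991981405172639464705975368780005663181691492406890350284418759777585344393743267246337873535501743047244348815698667843843813173516580883135506315977322594305136329820963764640744279436110415930309131354191156248243388137281035008181237121562062428047112249460753549940750926625938064023198381035978242235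868089801057017185659296274359594795672448702892822738929575104523097810761822903048537660620513664489532529016241216824004891362908739312329704562307677425880402301299488540849743083061996079853275535785527959043693552916637142250245326722839974348083807878741832480815146623967583188398332550229150845268788951503356410391389157049543366736512960757470553965450994504372818817617607879840280583046089879020264355182552063760871883538981483973680495574844669287729693987986212273999152226049107511106927455181774624648206308120987146898935082049081252913891038558238159229212665117993740004194252570094719137657682586701773899249310738291527657473773284306031680573147119967746643930248884571334081908678969537412129887482109859132010649466031715086906749626601202402394774283312484658250375544201917055039707837465580905687884119402076279597455536627309921332729025308602487788623179921071456319617743588671292730899332837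480734036311859540326127542051898708489328648636336767901067113808490067244156798094576203737260747527162087570029730950057023827591692840947701274965549811922209070286867037843161045666500430624717219696891787633828325060394577714823403233627353669614223490935144627927879875991666283860762178055135162898277723701208159507194337069296418011698542808805850976077469456007093632008686623693791113687731932076367502844910708607513487535540593649145549930161677591632267584162142748321000357747380423887025184529881727553007716166241525654424776564874455478678503832059385152813005834062958621829867246055603874721528148518648438933615452693169963254192039720266006555465930495719394119001980339971703803714855146256856251449600243976133612249763585543972907356142227626660957609046551165317930563124912349124721752108316357413843918069435099053705616538086545774805165224566649879275284931879007704047561365915416445518905087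187122887533986567692205805006608385884715479682203802051744987173309853909656859448549249469560156711167447882654307222398954298699806602320124580853013739500435742271372863119134344930151252781079713543503649667250420791773362571897063551543688312980447658695192370130826348627820831128910425397220596407821603075255327754277404131562886621132776558786313231041326969426136479424379435149745450727488981593161791984710035635430588312843243823495178066320133314313648933623417767084468807666108858204480193115937906328371016775896889811233675851757749096119381609452002941447006230703718753012590218275368610594910263477473122296898688173996193697498872986798129609239104198285657785696297138130289616085696058956794376542526282868257762963751367420885767611730313876257995451444458302023570353380310458354460949895541510370185018737348468099380797000179371038982166595083466467880662431779726305440842190425659449004338308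344042508919337726986120230879584042875954193702016044931746559431224094956738577320926860185751833601067444317492648820114020621220417936383846297650967945601634757346085705077450734440921180078533532642044110416329552422424615732933367062232598431726045186817633190210236347618712227309269508951072587854256248075375006176645355297259319476057729311324423049499243608530910281990067872612497844666090280912611432412827044543518919440844403839683675322084173593281980987784474681540934110113155153833476050866421567965117119255930082768793018062601049570252980630665478357672825097170685445444199708498337409978244651450866212210866768412072603070643820462729047722291407563510556717367252607621862284182454492418176509436323774987825435094202087955752119844396727318041974854314918311784895172384551957130220014215331737739001590934745101149563385669860470457472941985095953218176773338459997535593796621349973381527444861222861043051560840521667722280723246450028486366128968131056083931803195283111932328679172646953213515923550413212142225492686065230158767783561377377697738435020771513398148933059175132592363747850393587191430007799631570459996119886293527582603563520926966539175940814433557333177738601675022646132975182560228172315327360357158885286446160685050101760)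

noncomputable def rc4 : Nat := (nat_lit 244127960760882653780441140537898567472658601089884267795291862482982484396356985717993595876949392156514099391330764318730523285399348053851816005352792278150881143025475143504324357655633177011953758934817018055832622769895567028821096602692279873971819830792956176764876606527063674730209053413234309322589346563273700035827826215882738263230122781776278362133458833087380947587913672915454382871365014570774274990905573797039548179887478866797398634519619651707879932188233222910606908375207509420991175838074773894196305842966470856619437259845619012688747722422543605410410810526834408302966784881590368316948716949799986772314058137910706284429882754855803483529006366670887829619391328661664565690570554780366154551383217877141314697745052258968566754964427996968431372634038444381112541229833513707821816795018618295809147431187610719564806489991565146669423107047609043562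369526734750589482292401015294206328664475970554123786256375237085848318809055703406419506239767653303604386061495825263189019212666071594473899880893001143342583328654552807640539960461498992398338421299971547316103941006263433909593359775764224337476654837026246698224329222902131662359824439859173212410233358579904268062625305290104066278134218779948282618575386365914266760860882937259705714910180480929295683961668489876405355264945601413697803196511446443253026555040119671064373700691624460638570443080232703327917658793024940581778752713827649211908892768925045775664719437285902201419712620572097713021929404660124000184540271985321596026464489790814076317392105453156298016517494171062990698280399724384643010444803582440586620517791139819976930358368987913069418162796884408301255038352787647957552709510796304755941877626659007940137143195283141555412527411420153925435314638289791184641812139469684467442864899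262993127901051669652597582559814116079613735354407544253867578084903127684567012883616611102866275835862803518730498058923585706531533976406250152356700805369911934859028476732698980671230630431329359167500334868361973155948042494490139638870824091944381079049620818340879657580226734048307187305883544691535100123113896081685719799374516494923549020622747206752115162859384888097072187798677890897087280521385284345171149587738124938337865247732186563518026005491689648057121948557516961491980044092260465924101611037359275802424334267321246701705780254693198219587754632371815134593307090569270318983299432009098594687784804104417124617576206297103819393917715355042295819655060241539369836315671964102978989519885304225680664473131262214068459892478445403684619136715339193257735135764162459455256280766726416239926902425921807435032955124949282975466109411412307724494379316586702335573127075669071391770491771493999717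038985400904789014146012947575318636528104649584695876597695540698630225221815044389276037209875150279136832358806879774582539694100455337104871279058796344134388928542401048843957966276145642143120075557919674819080310691839601608620053098337478226715522996699751364898912161206527063589830641005312607467692555423209178414993596832847090867987914629329009175554633118154725725786018781567658499626858978772366726788996174687721272183546800462985482620150147126071954222178565012144037267982140175611668468188190653210084122075060622515500674966248560387931763724144432956647027487401107987781189630532396740616286670476058095617147873736085173733864461262332195327047454774268225257491525880710618021154367697463804490794938862340979094049815191212021236298185187659543989590770111012720197433756190934508760859227850793198145100985150221290777551719492729268127444566731280503470915706566458840560893457020731018627241149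164421082477179048023985386179798796547940481988773248175980411035882921245841711442691148848250196435902589230375366436647109961917962531575206116701339625994885426302063376785165475259084599653015554729296250017406951293447010689182578038390722054999632183078011862361720011027847293397176084539361907890401262519247644058052940777220842072672931244157424737602926669356959685230499759545780863007418849483957915869429779057299448063729331784455412573092055986230678352782867905724205671002898250753660009221314884381077375388706127952903057614526793689713795093428411020189879268069597356963603526651766756149052401133939881754224367876518971976898280718162826907258189413758690088361333793224468601221878218265892322330045915717955038086808035468217614961900102045407085305989619330451322490910473449372022557461661881916756567753942012843732448543254201756213238649139243976425358242310865947956986881583402714749433845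362166759807318871932493398387282136425533253479309057746541116830254254555065434249772856078690036313897791549069847904720146825830114267353006825885760905435289985175524296144326650284236051663387326092743373429749118847231424526347333409745379521883144797725305936489755249022269765168995779300324239112292412109619289928178869655569091565184052841424606378659817605888260672254696774753601235714302629387818141187146529748966981708611357792720596355993550084489308983762165521401614775064060632203791382585010319428286161257338148589096244247208555534223106271955730514814507582260066244958784903290880256055797757524090332604542216062203508247856471073645424553229666156872009993645842423867451937977058050624647453462871011965984107925811884245278821639110808036455800255993058404328248456482443778700200898740369571356232958151877587294997710804265050222090086594114001152339668665861536576847694401383155687341925916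065593374936363786512051299241336155455660935886060972157850133129454582091177170251848959771181580335060679417956641475382326131016576052154214853424973469359519065197589905274440866327181571320104033626403174261782905485265525897358032801456046179247543635614928696870183878544877162249649361980703444777769967192279234712644068489052532968614927286304639934579565934421127480800678898255964287249624839640375492254721242435614146401485235763609795513920854702834134791056104229223193157545975648196699941188608473396423629757056469889867328263163569665432345094200655967892202012931602731397426818519086086991332220099973146282751836437088244245990972710458018055566144278767220733864970261911457817754035289356510720571881308040546077443609673682893541836606554043830966195954238411399257224842893170229405295557309834278125144904407640042758634687727134393189257511843132636611352096601280487078973023824500153698334656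960019203407079612116724397732372375374676786515523006600767309849605675173247767045992951012509846495521883579612847958047649043573873325255030275556212900402803576330386276611846626612146916811092391383594241503589235803819146253480600810571116897895396847770266251357331155644000963875547202134558317143108663561979968609539369401764202809884661617803166352712265143210943191494398178146578646077427890599795076685488479783617858599680836539986934661102891219193839970136836360448752450179025700040937512929046780120754675945972783226715270821874345781265062695284445477995446677643289772414456848144367198147500646257371309198289485417185523674582460400410525249328807232114513663073231364108071693754848945658154458304025175224510464892145581046398336851681936338057847557111838282591353012834277826124049670688176291801845304637768730282078339839722882361707879457064842981801834392228157639609129799630804340890879405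168388445531965622388027830670689951386751681908993332984343851717475465735955029827110088371944472649439125196308342855357098434179564021340413145167381853506520647142017409676985807618395443755223586235868042641917452115617832519023762326688309534992977210964957627235072424634656170454584714583035528791537978548528194697321150913361324595943640637336830362654930415538851260360344174042371185982463950559485227761243928429726610019078641740560030059324586926589019524326381043401417469394334832661688629476008997467556679191197020538392139917430234394887283930245615832534380583979046783396782122756563754570677075291927334407763708138393422461714528563592170926504015846671717683663184515259653947587516303261052997216202180755658032825359706935616592194048138745510874716493368247768626299877476337666456223155653029152239874130499002571776880811422698087765863396784375305461085871882904949880210381866604672248203165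635527416033656868299664106067703598622087788200033943043595428387059437455070409582627556558370941748614055070781929953777487895068108721849656367396915840752308793747050529107873483142499408763604042411390210236759799000182236389331443782632387345583401255491556370136403857737264995993065395277123912388687543692992549520583170605607468047633009436164492909716751527526919672879795476841121345229132439860612863339072940681721768844757762417931890615090014290113891171454190167534329433335470508319503209749398705472086497975030212965678245542690947297589018734668395937118382628099666043400415772655688450109049954727264210450823624037313464779597331350133610406376589935784716538861680364773342263730026369249486852918305338865039467959050770292848799894800535883141454552448038165463681099510930408204531622357925569413894053423683703054095106414929538700597249363344342827859903242782159495933348343902147362755203407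100924784819606933330406451200127962431831088718912951021179578355297428745186431128207455798147409475767677813132654613248232025948677270785689889247808471313953559995125246121195586188634767120961932548680100522142712949793521356226958173852369192428983158141103356391620405202708847560961716912478749381742199419869930632607205999717351657347159311245641448684361807190818235090084802987455224401649674963185149250183391092890061674141171261173136011414223134164985235640910706683835147654681382919888335592432082868106421823025557190007760543788125253164772104737612577027577628125144496722781823982895126402335531216352768341198954920226728040895727644207737193734993280328344388108191164776745880178293230802223170404356419148219956752060531377397775495627567315558659783733757240485427436529437454150348547061601280393245372926864552701338598034532768724001522099175164639830526410941492525273947601172362037674500634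148702323924948186814824860481810175854831829320755697422276607082011950712651709546608261961729878123774944889240119739917533545196943256377641522636347772231650142412586011863737859068529632375219818626465676718311870900792352907689254315100975193201086102927347443075072032283438692314617883365437611966155523974463777239636867378884929414911884996415336130223289281055761103388877249376496753477459301021195229686200168009331562103923758858358073202916720711162315507026470121339894098254974763041229864385117563075475538981353971941659266584878240243458302147546398773300559810302668221713072688204934889919197119435626383375278780770194666294462244715369016271182457414309611453264092349161590654411777289418316255135625640200859215903299654132845391334137728456739812864904994095222889485172621432847283405254035356355117217338926787847841792007093982090706582566166552312161733347542871147008828940735246092206484134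996726081176452974112371092867448481537310199390613877521809428377491613935706251712864723633653342591008627818605711269996491629276100277722981852924201480178954506273818874804641811026101445655507094101031746916680726359853269899677470116042700357232708078737681861032686840421169499565156214801432102666510808953780200391479602734518992807847732903587259785347490032567631570707935231588719391454079794067135740542945883925325348710634718469735245911817120776260777364418543323346227149820443949132969312924779140265464498831049097909306515305544083927870497747261607017119302386095358569466211733367714869115203343091360934480749799205396934749380367611141478773947429156350066737658758382143764209299700798543991393410994065388785643803979933684174923947865838414662829952400429372584566098652195288807595383784960485837324940907615206564376833401356130895264484906808872823789589086841351282787527796756294656141340205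082084073540003974794686253159822810983003899691002802557677891515752781474792973513957987130617423472047264496995379531802631471167522530540293592443587407488246581258007952611424877040203054417230613196857518697770190869841360116745551189596398922734678119660740783857088087327093709892266270184188613913735133742467354498243266812751429618426933647077837021924458051765339069151841170057210473726550725436650751311757154116256367298737367044642379703863584235845607472021882167372313323687283604064670362252731747593319698263345773763106840221840699177039442241968019828890923696112026220607288371787084748437039044178400368203025369206967717665908441127136265223930918216715463350899073891494363606364143520789113753883771369100929462000127188629351494673986152525286696591102026581540142122372168482738162023624741085025802125124186935717478348706784757781229236397109221423447234058612677623154066977835536010698192009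496152338551559507137754151357924400607608071180294222467491547055856584722356429067417377483372831458283874510835453276734167104252879881395679855635607297711847258346433677441363089449711487719721014273013710954546771158898503433276835571816464346483273401602438708950976092903653145914670708437843781184475830783514947071428350921836128693169217184021225589773265290134201406686276828879346333129351724404106360366751098903675420181023044592500619340680385117491788816625180163552648565469325336890361792438656305895830637510074353190570426068179520520320807878610328338241421238207079330667766075580459209528248275719054771529304267513433511430097948617648823782056644283884497326000236157440018321096195678547516824876995288237980676530711661955387262304270183678070895076232451893969817396362193927493967489046397756210487674741696379604499113699340795514164872417683854556504636490151797064515398313241067256303066186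961031994196121165182000868753040452265984670240044884624962573355222809894223408708537104664701217500098331921550704378290839381277321673546160254797403632961389559180033420745155306268838910131637470051942189868663883883795270014049460097799893292074518430645492087358774074322181577223731598436725973120375669579263782499967388619170579592371975785375158628525914119072588259649761755980896344985997824351250210282708400008205608556893184318021499550790058502937220653100824167932700575661090396590654349107554575085809902122106441311638891253799607138474780509183924355296929517291831521351299674342612878058470742866025202782883214925921588349989650310441900878949169803163512011479866568754078816045323436334223063746622529492075004917476464292101288862025645311893206225604024090837666253852024010779338977297685083619446892274065246239965315402555338585827070331810849596447424099883085728420761193680896562286194964993534843374659084121420937281290399463331872464807082864463293376794227813937525007174918617459423406514055688784285425134307966377374504968388713328595627207597781488608676927285428723340660800121886653397052397428429961751582343157953735804776020522698303970090513197162219783205291032726544217297570106871309133927707932668586044064649830428676456448)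

noncomputable def rc5 : Nat := (nat_lit 246260432154963786823843470439841572695071500261733690752786729182349870164093308538299230099609395849141327960547660836173714671430842361338872979059003726948184214803103341380406929839920088320245713288985132761017007752386653741870096033639493710318242037393820331013811147411744283473520827228872218595987050098436346483878009873341949869215869428552634241440067520284067063307571294677953310921059673270492857214290846500000641022125155245243986821496492360488222850685160242100104311848066544082247037764928367326783776359728478702203918804250923671475737518557841796975698849013003151426748714850880682167683818185881327208805828929840912716545643895739345563223870842749954459531974760316990140477405906383935966934256696496418169804271813356088424380859170379840653771919316843910187157694931092945680399370231390336115757140728438723419268497303715047557259396069351285559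866542520379452205489891049837033123294062265368958352815410644523954233360776163778647601522984958302091787403446422887112946722982947354880458367536829464698731629852637975739990194142753901952367822207108058614291825221800513989966752400461954254559795071413702965748224232626359955579552936914833029755667211442038232500326880389989406227720833853043783241618605947362821669599837782073489860317760488406887956341876397352889268725213784739678418959780730894574620015510309483531591016350244316824970659920482858597902149353721446019675045608140744753292369197027035281943428251230809289725810029939340623144023242218983237735959891718140136586202026035458780522507460640986303971059330400771813433194547952723441033265022106128944102876860428235419717725898902002258149228842126861016020400332289879471489619101290344321029182761253549877097632150232074243090831406511542396164814232411999482596861355424844331063994165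282215236287542308378543980050782292556654194861625472482965437919285885277415936074640328876097647089550248278040037321835458023500031427562193780204092193570661825532054462602203179607463955173572228884118857135458822881572873384194597202044693927495931701429226651561372922706598922994120009193080325825487384705432829044148409356095264665248642018580556901537096614851037525194058771612910281612348010377519572752404461157004142484420072828332028495890339598696504487454841986079077163879111057077307775732147386359725583431457375517463692223377747556858521325347832951190736121756586818012746991890166458215226094019122353701867008188612528517898308918923355475822968205256219047546058266992017850593748557295752696586983748056109549422683860398733981378516457476211244991746603021395599883028872091997484849134077975126937081569626489628318382704248089306687637540894245730728722172310988201246109876555924382100584179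044399398036524550559338939194237021716003042374319365884984568741884419098873958444065662241980192366297815403409498329998411741014210467677944845979221454282260048681247065988789611835560534036296065380136819182967725002153970050393446440604692273042698248171943193671803693505826436760678293679683162404575075042306827767931654324375392130432168665198549291325534732568243310725772641685814487321975639283700432730876321748450948992961413537429610769866103342069829926973006302813317705114178691986891116426675474686737806769709612811593772563308863044175773172903622406745802410794648531218044401195396874297079066744347910591411060135475732307129261582201066194073039507836098639427472993884663215163381862969282689387302499436326960871282518890914165268400391281540451387940892358576096521652466436384061605469267296281517818029901687310598951568644657501413227013775939898254576695637772586635731674563590282279019551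575124087716047326080787870256655820358008603496550340817705576634654878694276253989812644362928192217780995373028621892230956246440347298204053049770367578026532223425343498895311671907291027381944555575869803850172092059845538942983690437970738379919550287467216599864547342412563655718281969836211050467679587168738349136764058787089470726345268109284206970777583516401364128063672840502941730729741311713381800453622172801350977834066129087467795105889765495476298738105971983953251968761270970788586652319071244680177097445981251211601209298295249888736504988337306555914070330222669590867127407180227886144688716237998609509181155761265387758036464135897395752962534149178760589248585506486030039299329683603103369570201147493619784053767951994926031595041476726557931060660636659991348726522474166835496837101670381650373390447528763965486711524219176997550939588021891668081572487205994779228097009290807286021195710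348410020905448907812583387181759225707769657894985291585899015779381858863819233479978197690019851327134933343155350181059150461253426860247257147002694245316543763016561780853611013352162980549661845806214258521289738786031550821033726344101317707291288977580533396813121580834547946087306630108536438124453343749903510626368884999327173242001089935943593772287061977058240138280931536206528131185931875495990045391572305347065279653708528458824306750437588562893924621192423924125801204016615532210635983657417370741262096385775195119523991105673959145596716289706550874662735710056867147082730605115844233671999429816423682843571423473520992297196445816177724845596527107291187599733893754920113213529265718198278491653405286632053077511325383401222234626621252563614563541593071737638402597696571615599363515621192297508204786931318573906539156193154177057374865330299421107922494944629375534807383221903107664367712727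182468189521678357715659605179534515654364302192628723346162378368648476327029753847232033319597900462019306180586544136429555622915776128238532334975511834771804820554986845174089758806156317940499144804690389600863081538702507395213690519039638476143408512521038379602783928618673848133741114596121240708151170599388544227533407931379426067393609564741247029598594684452667258103929855362591810625185524341685975788635408865083475404091852209055829372928471278202353071007322728415453426266644215543744176396876207723819866741055777962100845974303475224430259705046901631057575019951079208169594494737898198483317555164903103463914630647700385001235097533740890583023992035837846150848557420975155641341395731974361274866923476347190561034325295813519233009071503591520811269702630478413298047546057992538383709394876761279504837808427482048611671576560714372557420208430870113280710919964682897196716377928234026330290460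697717112598393912560868140805183460893244040956292023791678978159873921042364377311546772400484852340611847803373804118175591070021348818438647996787960667593716887657893257027651498471673964895089643786804739299005753916320971345556898111281918718109394904480251646285169619990247569275618604901189134597176942473317388246668888972490267099656122316241777448680207169369729398525409990080193323708638009562098908697069958402974228759842057531512759127851443910102882608670692924635590132336219232330935040406557271368789667261158899333613528725191184522489763870958975574277625152714768292661774980972805515478942852509437816324785009730382750172855425304359824924742262137717561899022384934543486202550395267117779698268060069536332100227139550316300570592339567078596774644134560868669254949033443111886033882905269171288768246634135483214497297574054023299759266824024862313766472934868063978481250171910231830490032106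067488146943105734772732473729537488369868983481723762785170378233511430234292294118712430638075426202596185001704421652663588984247848082533817534015354110910552603909712082128914804764505024197348949085699016673118634575320642694920832993942215727956007407534724329803554376011199522424589668475027986270985314715506057393653817776255233878708004320067280232481769305182438511699155644877937287513926295374664438505393758668998030077909173182546317510273246315891146361926568528419111227153873681294222971359966476750216660074515029116460210135792316068419106811293270304692716127918960475514135428388476683497874673807319616119225046366321528847909915512844272973146556361723218485850824136607465654393526571220788103807221292531137737512625948691585865080640719367414371671284340161746213647828953930576460952620214329794353128804510626834979802575975748788899665107831696220134882535249093980587044503497799739361903640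767689284912818297431202768977034523796449199110586727574898800668708018509543012332582288363011041980429254368253929963366389093154312120832697723576633420984967383451401931843408000688694992346590837741986590405397734331563746202443415660449510171950647230480913897197541596581867066777874317210336430583688041645349752005828670022341196976453887404586245868823588011680722694530531838011131521486522309124630690004257857243426977932559312598945900085527848549361887543384088312448952138699571092161116913959909598399933050364036501339097341706580786851705790014996814445012883185529127015739213552716478693591984335165251596139864766708656208511317731471733474413461038504599464190381520909698148403312702046761545635023286005016895403854202719924779677381448235739948878291605744710621860541208194375535161575468469158919237384733206955820339199087322128738288158441036904783720390871924391080558260666561519825284189048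254656335996078791083656397956546274568120294399567805702211520421716472286014167333558232877642824072335459052634746952113236125572290225084139574412646526229786226061532009509364175391224702995739012604526465655739583865515521867365025232160463187688522191743572381362304376259858023642022033351659323041078572252948374165894823124464530442040835186688404754275906770146268108357925923701305694822218757121782551629013166705960745609580364507433386093487120524607348120511782428482156288367716119481971103356258862516980266800524443543091550893795754175422210106095565811209199265542588583343215926469927287047342841386566313015338915422876133443944810785179959145698940699963342392058741108861354643519565527984692758560477267664937660910449948073112589233994183597583246898123733764306419025145330801691502943737017039242135598327055454630997234013592640057620538413784442219700334196973398867576751365608258792780821670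255984414729100844891453084571401845547794106823403842948444262135140591458760428447943701339573827037404927406797840208132211720910573833045705566700985212795331108073568192423277706219579490054596595873769001921804450061555866984048945318197632170741339166306276966499820535329497268965528062525636363722617777460763706764712812991343287764592590757279670786181776222598355751242767517945347641640772150339530962490375200335465512825191464045293574054662605223742461412126151716930820317323182917238907904105138300803359636195968665397004970954561370447807502707330023433304240394707284835251827544000804398079607511717466453710411927834943243215751480167438713780245100657805838246561578125820151354418809677396549971930101031834052115208396759175303441613212501406164960034617141192963762481329806834524093867240584620551822043031503896146794567104987082364946348399258779865127105612709891552444716474061504581030424544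573038222932016085397723914066562976176861920534449787373105462400501770531893082589489207707666021951370344703211830030285602523582247167201038216724127498581109307536184032916585769818553773062341008139572284296685155014200045994029967458842810239248469067829730763334441060631530357087526385191844814122060023091573962745377141404669736888634414596659553671202639906436054451168864669302576549635553020453039520642844735739008485234598653234829603658478603548968357956326393015630131154392983476320578211065039657951209702550858129946517584175613494941814795904594263949820423704449376574380700781191468387801049923873634367628476077053813200724085477350584651080322983400108786388230265834605327865764322730176312475174634608110693958961488809326657146248839252816288724202970493728234560902006497971392823631044937596658813561810505021750337696215543509693762136724734851682354870943416365131950011394222248923443876218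213486238980402357903919532303289579425128231800658266368136274096287674859782214346721457126373576857704416160553329818012395507898189372957153465949917682885810711429642294834988761918988096846614525725188759404997887606410234115077606747351757092116846142661576923063652383529927668611455760325047178416742824909778786792513995887661822117470773942201244755648158985544704555894149324739364205577042973632157870535128689139867224748932422746327561646699327217885022717791773733390710898559805656557544399376333710111289385613948704608721750360974481090759280547053265374281716181906708358215251362392515321914433943529735976079026617010072805396449715936636073705476839981795117487202693534491000949946387958614895657444260197081250720872225179962859310491576319913633555190777400878563667628353911019528087038717675854674552428000943637631547403958787659512146358069975361420899878077412077267831483083281952862554328439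329632652940386732347619884762991159596200144023963260544734573598713988794143511801028757929600584396872460733016642219430133145620569302789845962768927753871507745855490538568783178632579561167528665995365344034592655860333746672672627315717450118360154036480744910144395797946207123687761632166380020434978261246344367460270649011433043648231297734453566536706383051735897079722648644836935358446470856342504497416531606937444390543708493490183801960648323492634210360551277498148580869438617568279413795328969370235300264117888361876176020687482851555754834042343873447284633702517467524230757754137196905478191281751434554937602335998884559326875086036124167739761534548240941845378662243112733382729604369260712903845640942345337518297575011717719714542641598299344158500906622992934069570065751766866292891161278220572583851723316710302748803217888182162328523791313231071363157057893274754724701300045922748558950934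404505555345119015557888375535831088031445156811488840510519808320043906518389811674106288372489273625123653085554707288209082085828441136356791597110228748290009522589432763763448546458031689159520036542495871752754886570707591733011579012932663932834039385217752732982366491434887645390576928003262580656545471135123504157220987967320672115843606783300268009205429888105961131384635774036315842180994724177319794340774215301038850329365576118224503629942115547604747435357750687412608497614452057084147222518471735383920772149530051754149052444837994134924850295094514735774984710873117024128127422227387846951540688583476952538158689478638199243013875808268734712738629670198846055417224641064091446322038371029720205868077456271712826058026596833336858115126521421265284626296171585393801277123410688215413776419907902714949612906125475650161523946131674402964504078170926801106317775457102890549689536212176448830649445807129539767890374974060490699449743817191314098878576110068687860191487741391176009201616682302695149335146057823307329745759093583886022891053234435140171840016647577986828831530743955774546469165143127583741957906680600652805460718472913787240994021723287716289034968691187275223403323311266497521140122420914619112168127834155581808266856228204838912)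

noncomputable def rc6 : Nat := (nat_lit 248367021525128020266733472850589759065105932727294184876973747336921005486286844607350943482950483977990318996039053490436799925807123898444815542051458408878857894657615315188118640633903340865949268255665170171311658450284387362614930901552643599602541107189405983876743962000469908688144717095793904857764871421798253760278016166056011499176092636175439913765947867658413480817204483808101115223359088489662062280510190855215835004378864691902555054746588849241985604959210810863408930395957532330470067530148344940080251394747308471298922997791028535235639812738987810202442183574421954366933044363396772111290868509621290854649354344111821961874629323309360087072571102198461971420055175505139970527315874647513533060363849026328404205180040905431370995293733188751075181049020846453709524307244390255141906260709350021675687981429395446422696078639014040994325572204608074400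310054428290269650431120870782241057794638759571963805393530712588272024809295584507131592253084319980047598428742913552376448368280428371586227205771773179750772894251672963121548045269995965019147186317624912158292848211952946019062510341768628752800547775148971512593764368406233627056968639038648483603363013366327951494388541853497492117513200867048684248256468571805767683945931240814665276322207878510479266917922024731223331768610085090917703718201144791945035377739191968825257587780607010758740982223542095923766662885675066702107558900939240816498221907663277347601074258100791677178444210820775963600455638764596884854640440253250781051974823981380067846152993085756009420472134588623812749446716622764873406877619451482887872332840343249760683192289708182911116794092717275117017224059279410848294662088304349182678629935686604543450066769958493527011976436371717609343324280222099344200939944476813823815343409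623720362466373623572057353079635298973770688899803725209931214890837754782558572414919236427990088465126198702407829990591003991109269853131315503715685497317947017256216688262287030728694847433338046646033048232627829682132320968542471723473665635171260581938367546129210974174239950813501691128582537858632077747159059393010931858674093153612341139945430591057877392092207371945096772571929064885576034312564980496203893965853819053129454419838604629698479483730567825209745198047056351898415943652466182345012382728052214059497359229377936844436354782490245243412062203410122573175852197025216683061391881509641591307320549484383570513012536005123346096397033267253145344067590260146960109738284336750045252376616830679260977803879944305047320825312005446139731201362087378657257390039971234819902007161940023652008471464149795854278414886653106504091584893872824457927598907035512083620322832492733527299410744418546320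372264089694729137581197945695408759862739169643958697985681006447987931108591705839494979113444496112508480830941223371295645046463972755207982132936271752856796151634734211299861653050823211833171890673359241196303183088875942862229205324844486708338161389383395253043669041443289693989996263203501975073563675386057474229377091487234265376379523565791152332452822113575991255571767481986720540174701964618280558410356229807733608540918186381280557615735323627493355661818391782364517300633342271474763374304424329955895852772523738747152206851764122367190860539405389155117097668624836016720632335203751755838319962409500683066854814281278823928860470968168281000346197064119420415697290466963832071579811203432065780470150339349289678888818032573952895504490126380925457376034539304641379992644454989693110597164865723814697889007558526705963516034623351139837092942690980035719720704808726531935109646620141681955948377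047463999914256716002500117661917969572838100901979826810768764083204228330001797310796046915871247460472470978243469607622419736514196536131304674309330472162881877195112118769667332254279445148208345029246621824239282153478455736878887930214478707413792017306345597254947569868368116355971205466108980211420156877539100083813931773812903633572168611691259711007681339095231674473349355428410544969823404364244387998600754613166696093785102240065174705963802971576714842200534749285389179045146381126823611890259626912819480960677144278094849699807831763402347918446562656990315365361377185384949417660365578952346208327490788948841512300748269300207835759829005227337815564013002692443769273513665747754117839503143088955620674130211954367726352809295508908652136114053694845037256818635017938921518920495368694142900281518863598865215990099598302720699583019114174977635954258217704548091729827656112273830921384375572536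074433274898936916568027874599111163856777274634335909737521295506891601162853996777804634376810678357904795854776124507305212845400540058441970334302010769386639851900044513151071853406672483413439948594526305916639680957354772214690982086282353530650318461852266548410994895040474220847565834476264588957721830944937182363570670732740677916289549850884083413348972414270411255073178697045747720922377640429211425810553556833648681397226115258996956802727718832942744344835080371378288136511735043491641410459431193569209956487108839169715323294407216899335297561368226189128371051393311021008335659135715024971490417349078285613378783360701870323692127755255762340266102770046618478480499642938482706552576384047445646636494194296982696202773107548212671125650885531195652883419462069107592695795666541645678513001296586274386262456575196915059711477584518530254618229667482007361842476228682221794154172055380077773675059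172782743614471077579633946747964562036094869603128561070023036643639237698101401575571774915149598503666861165803351766140855569796541454268725247184099538286052156388714816914097866055587898228341246997564577614058149897693818387537334640030134269654020090631597943199864782464271712644611030499250616120410297743001021579004809567958209291904630423713690005248094111811075384516202388370842063172013284857454442062662776482749284398157344954971398924349703398512292493043990266125701919591300704061790291913260140498404086935043251843858759655889602313389875177189980502859137819784939660230359871535614000267473057480188877433821935261301046562860454335266754120242145328556306064462317456602582981598792135452871276702940106571541410425140804143423066439217696855639692434120019519375285057201850611763618362593967022083277357235343931325750054649893097791539619511773893396699613779770678115925197543512927816412795541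217189134106997786276159951687910105295413245773310484504810182127852420399407935953292296620654487551299716023123084995265185080986536053240755072359569471241995853408038878745525721319349170889956387619232306551790841061936043804996061013893139044244751215702025469311869708700910199633823825777735710784012387908344649575141789022294689483608551726344321367140192850872077340430605096491446854515293638946703845085280760156514217694856459259526253102088628499295175092149879696651826457365193951690998782150976203498145360100422245420672308112234315323261106582067566253696649583851141522652908653000129091184854698489700058499189078454959720325035809840169133320017512710352828503230868707070969366915196635030472004195770320921722832579576646287712438099691916757282237882895381911048999847966137982824056147014348505012651888091255131864860812775762243194798477521701322523352345282028192297554947050418292875454727362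733153459906815750002197394922333416554988156245646957444810692350117598268259158930317930750966332750670027619599572661072118555608194148442954738817194893940585815067936419634388591438481040667271901714316979514214870696311887077318814736549334724378086022689400517369646339437763306869328215625169469058918189018925009782368723895392934972698464435236229287147464567511461849199528260994270849489870369372759813187354763632385120620682749332109471988917260501195789788528445146883784213090886027004901449961735652687632511787622670154153619162011733840726122045409120267605093109176838352706006656031359152809575127206729162035211455684920248360130805301178980306084660625177567598698374929195966691847498073155085376672092208757251442423062255650147767309314051677073243157756584970491731556613852597901014829703166078933917648099422140597201957379557798083199719254148199992825447457227247172412534093629964980144807739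559547206508660637328581123356855357346512210133818817706024062139509308990040777914919211974989986410900766935524112533954640603250922126525400567082740808604535865062768703229676521269683062122151687947798693962724521803610816745516291991708573122655032967097392181677939231033707599886278413243246953558702090597854098910855151263775363278042892410072203200898226039052835440682704053372435318321745253291256749171270186698784220391360006266311346687079030862571894613663218784062535023617912944696274311947857480517953899080273113942080980503884741771955820843247347185084895581440022453135758366674425449761624742971238477023217095862308304958882859440211148089193518460153401963771686723997062154026889195058129531811180031060229740132269781065136587254386648434318130220139280459211644313861467094841464831174688209499144396047543664785024295212009959719933574642464249191323842582516416437646938987657466730876566028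111794209655353678943871240213720197346575688865326694975044772059172001622799513624761387551299348941035151220426493611293222164200881567110597797347579543057576750880036848746090640431052840997486723055038126547899238262424494907681034260108658105252846672988135327464973520057044450067871135967453158469455040426206133742914471226783992861024790741661265239514823725521104684988480532742804593963929346181057464848031201319135854004600673787064081378006636409462937737791786255052603402973534826241433888836893703786195574540435139129801812077341571870500359466630997050369554825309794322451318608602205248822389304422978680277580354984006483858709193140314037388596950313515019699128934228960592631028021609133952924179131088835980738069963754178823244765647547193370395427304731726070841144301923698609806408428107112461055921730213970152566262942851040035936412188736081341565895921610691281755217052412165013506536940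064419736913573573947180623385648020066894799255751760045746447520056726574798116071529651605257622043524370808069290992218425248992797950062667865797924211659783952104601563815129490119832726966870962201192206470512353904906714031915399071414197928256317460428749757487551400841906567646754257598010230530026894295512831278112254985319454439710031500950371351306495917980116759144619694443662936454820380071071521305316899570455743370889103563868976372092094400982903970576860376985316564299875547498521825841912853468265269251674724294954962941519569667952039925043889832732032418490224399165635835515293180703880880879252282653062393628480883765815778530845770344030457935215723649314997809617781650377354211911193270909964307261670303424493198072066331061013804610896750293057602645233027540566567150987580230594731492319934518182276876204060519983915313874324282001654690907965454861028604741697330175514692136946526518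218480042486284066667845594195499096141517824513919190695723271575481159018240416825272885921431070931311079550952259792752404965947944818629922204416866397663965717684395241964746865093715789743695925383563274854413663885358728470788528767905179315950292923281946548910260389951992714204102044638688663374905982981613138261857511782288607585085027946425146212900661391685941760326407366666801995905928325328164971938148335503625447645327148555006392026246450762348708389863565197485399895392937758929618129746576986583479959173507483268440224182905597964807994853142682822008243975423217153000408108482571166849563848324894324986999230093286441639210132115832524892063705823662336689302059155629478887806188636692223165109813286871287581002685989478608177792152501174769665917835454367850016184925274899249732848854619638510878366373665221171477186299577319278084798651523421607960688092357945918666846921587980315484944019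157632730071889484798339686886247438866993490649170767558567671682910752080393802671118971431729303584644467853360485281152278739622337194608446058353108535852578075498001668306308358264188306671426982476192975724016250869406494372952411730710927659547601472391117643256219270380541398593711307229673269043736722318330795941801807969357022956505707845462174797069047065737969586121573859870581651096684047285820935327727202179512112175799207434220407061460062083402561431203461679037248702519130396233102888698728342496521624377243771040677270899907544217911130070210370454020513323115015550988618929855348613886669252740437395835903462741256245614696451860179202951918141972725564467546582782442659209642616386861704273483959502813602092718080520374185225744971187024167221529955890961260011978435990766759432381093980501911018636839633724520578606650979508614938445698895191602894837562514408782148309056047244835463931158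711574334985828483025277665650129068493150204180604673045389191451360934711911511274290931118837651114310404186273657000570448479168414512769649653891182318678757998812066661889494404901588952780697723105535578870967166115141667002776388444370138062309816868672348643123249772730402864548649561409930922466136853637824109094614934899641555553786176447506427754450495881820740417814828351698121512742958855605042077190324123203697326475003977079948432375968928340409446967029451642335316840180988932614111890619394919656635367666846886384199087093990716945863600763603228069505550526865323258201443328843812822161282283467185079967838466851417368367882880730437457979637167177351768313574902381177726543343544612442716435986266760049662864444146019923698492097794035485827649949139982279350308778184699468903120936387811507978846463290614428104084474451143278049871366757137425348216935237933326535445248683689254443709735561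446940697716211673461781528837332891290560569533508850030737288765088953366286101979237476980988039329557658036445138926226469928913200625264853810813854890301456629511933619168114523753124996572990159954385868201190453200597382472584363875942101067818563576015795721793996631040532070983478888812407466381724543167886322629153440021685247925968547072515402547082215573843541187843993014444824981302837665335470713473987528866444606003790425690803330523449434513380858319265217804674364120023331599458647194533744163132316224394338466161479071939566171461338859256856133812016526544752404129184809529645019260499673576468405973305695750193466801298899355756610286527987563339328753549560541596020098383040002935234013656545987173311211642604383855569620132890303583188573629604274926143274351347187050069612302809868666554755800838986870939489157262517660932547925020459119769075707203363501744795137487136845990839316917448149028366570821684473652642207036411094586265488046651833520717866026137900373595607925514308898349708884112826852615707548636970174451532789975012928433568884817348228911437621767139368991453986876689897301227339220010200621214317462570642007538205334656821109547298261572552879770507970291817361071891783778875935622949120721803686410456216932028776448)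

noncomputable def rc7 : Nat := (nat_lit 250445879368976909824845836898785511064949692357808391112589972688272384967838180656373749001142847535459593757932870633364230166660012268992278516729378253423444263514260851097010117684284076495284456283625894291268913977429942975965629077206431450658260196132898548378767739689465087131649323827006160375169189814344427330957246067740512598584029297773139535886339424484637004373796880178809699751882066383114847264053139118601092300451808001342132213036551344236196610779614752825672637671136637742346766642400649357197275667787584358692181463294778298728930914967897724751616845922829807526117745237451012193533192466642108703253661523105765419971677318912912204494988334206040958771492000798962282978947353748086486278683697399736158013198153831009319781586692712186976619655013362407062201225006021253914819061821343762577339937863537532528241639543175716158482685076469044109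557186413871791180000249120100261057622336652348505277339028640830869321374520895881357193456636408861067422663336161577250168523691122750994810050327443968349362182479566716066114741967260815855237014495019855113906438289694627955073904556509901328724128703613264033654242202960772547989218660271649843283856605066582238403358088530760587981606623116109849017661224860641983845362280512733119559391323584783036170520518285084090540431476523935021031591759538880786568340565303429101126520748989455912033196939110276963374847024771727948735508233481506741689978361874570469141545291241914250300087592091501861511646204285582436069304430355734456252230558130358289163559576944335151853317191041527526120249330716159158451344391646133604940235618010072545936216779990696964212721534260902572651489597181592152376782147456528737789977765170045630439376319542640477519470805975804867222947307782906309252101889300923580548014075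117758834212720944448585117231046093720577027665789137285809423595012334164013784253085158106480104075229724091126595882019138825932881860659086787324877174201511100610870990418839569071820512851486370404011060178272264647632151246268240634721211155995870024344976461898587595837790798704247249005687774376025737543134138620831223353511542575625474104207233526648661032750068428887765428309998968746460660752784778926551380379448454208561433188044029943052846667924857185402749421545195563722248395136311868309328080296270011521867140784347257003462086286630653661770053696926362532788579059201266856589335094232670809607592087322042166688157087645953101251649432085282160214665884977024231189909781347808939914429029067277335865922078255585414635570189721788447184416092253823583439292966499219489215526043242657033987939544704186880331685820193830405533715691046958798614190765500597835019343708771263658497998213821454492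037359145748692828019079305478330757860282070316772817250363706799025799853404629202850640977421743686745314412192659058859441235047533043161911037425736516058743637394127826518365185092215770697354830729031098876364153404313553390227026120650438707752699896043557182787056734570069738554539312897977393952641553718281512286352497821435196961476697147851513660372362322458081064974573180530980502567270134168762735611051625403722678813680406541538714820583085925132898337779756587281630607088817503238619903262287185531497052562463524664363240274158199596882811618793350231779084710181987773295527317127980943064691392329693721374507790120477785081380610080429219136556639766120551843053604205241055651162755157279710058285887016940400165345365405235529919810419244442888514615425195615376939129747447307251946790098746442115180627126866212218380577566056499173683339082857969159655391862818405613737430326299369502220470518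463720763568396250643597570964775512544065674014364020051857493534733949030507550247001101252558595605655889867935945837477622958277476113822949808415914182435222742523618915192066034976812058509031170552241290717998901784495153203260418391514698390879382966368276476252287751474609549888949659134695628584521497963856700672135155397270748440942732537542742827356956418778854940232380844554017055355764263467790902922479796752950457671201637275174949144650482221143096425566758702531030836251985458749269991450608519980816067357201782663430205041973070784773245924970327291840296832130385448218004969002095264452491001084700437558210653694240948807625676145253155524100576408890593953161140690647770429496195133710813272022363865734370211266214157010251789307670737400950472742428744230046140626801096908663448233326792125528892649988192554057567147143349723298102863603339967241774051015742314539100973504275869817104409884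889667889539361094405533341060368917624119013669772271122249676872876888903353491527553767060337006837512674002519134677365061487507081309614460431142441049408997466080844181873747229603392200277255437883695757876804252323378717858873255354564393810172794706906114695512193058739961987479636014009714142297153622405583071226794555294181010453550590775163757215983883214360863809718098166215466174425093100541639515630899848562852328028469580355437153494305325610674128682962824396070257878391568644411080374920240395011647475909694225818621081562518356523630436005811177476584274779791151246668303465978029067973045307621169678766429774799762985838222423225982087495225299118367309179494510752044972711704885964344960389210219033908168826768428818088527500595575851703357991207161941791338406688015435422950842357023881983807066497945253165181907572615282461993552870608579409421585349245447404912463291102202471616564153857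228382862129633365727885923514167838797025596854648687115461554312140208691263452347657819881809118363364457687459312466553887511403229546999246473864779016325538518537500315980856441781468660427442553228298243103518652832467448742204777354111620492687391609275613987449385029288573653319096078890301640723643204267876306455715135028624729868233925810438756293192264028954914083857200200601490858420619076268629130345548366947043918992798509017851810753359375763735620046443892025968468958781847503055920510060962541193477763956408727348361907392688389443082242068019680988080060953451938296440528221669327172736224322174119925715101480527003988122873707078926127188288670981635256307306336427590984973379240595182346007162879347937797922523944092937582086070407729907821911879956444470534784492491769943388349589263620063875754521728881546650974105479149602368909947203996989156479487963360464964243879590578261487459528551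466381982103775147936105908203699598513243676139754316448019584915793070285056854939534294893992520404466875057826340558086535322929502624876978412670505663324849809768814894324067989601076832910147430712815881884580465990529332100648218201539333280843710171342055479256436556110530561809930210733255956567641789048028006202046910214398600472553531099044079139612549705656490646718219957205511130215919745688008408865291262955661097053934997751924067842070493975244458150851373893787507094683694691427372538835530610740839054361668490902705314278228951281688779284267974438845909833313093192057848989307020553159433052207650290885346274637736895438165524026272349729687010991568104951325443505115934782052933865585472032912965310445272797986530682246093943753476883709899768632110898961405806015149262315253810753732460691723839764079233753579371700981719830879872644346628836559340750706677421596196509481051490108743426080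713478431806112092736573265471443397315508396299506991999072720173763070184508551977103119798738402503346861316150242093988461104513010153423992101791324533812825636344492076760493094295160697845372287389169333422225789946153603938126441290445975612827950989743067920277009274056643513763420371335558744342855700523481820090371523557447087487474225773121531528416088466589905146096251451413426610905968999302675442824301211979497850192933458651954106953053990931967028581416189610774690936955701404472388923969306332034009271305506917842851942656729225524046638103476915951391721007132416967555508754182916494318335332964093059571156183842024168042478919539873260798543918412486707122950660508683439486674883115252770074522148865516532524957188138512464308697150637204720803223928786511001951180850420962983836545609449564391443242689738550734225776143263304531809910221080734974020780045358592838411008152116737582624709009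907018110239821782529404133840431861216431990453595352011897910106024549525920861814833147308013338886271295118737270223340216859998569424399677596138923480479397495780407742540753896023270174381567847936364083284527186517462508423048595803010263614122314421879044229504106614714904778307893808460663947863233992444850554582353307157666825079725866508238410047251595311688959864382906329099002631950888401840881468076646403762806300643696818131107978520578570786991813138805738654292326638996609008992665336860349802713763765358479182401473205542369667514523863649034867122311333164691125675935538061773806753358015084855118872919772259582101776745793061062121539366375533401499343015978225459591268141501280460215327956289425562254839473346539748173850724312806582444333520867626982391430443824451126763835339847624285104674499684418284974410386031387594618184458183038124535736816375696327016612146518358583185645556413966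487316703552661594145921201200081432832170335616531016275430948937573856843817923175599498818755111639391711140984191848917503297330963894209311102152351742231650671417855513195552344947103596243613624499745224441405714546365330978003595249963724064402829467879500498901906575063260827609468045332068571619310081443316382876646848986047912567700938181834277985377026899611123569192579922184690804300136609530830148346597817913647880084849420799904697880058651412101957864923111065191423025184567098405652725449387472624112882480793950164433415923668741554801637045433166789854339780197584274940759069630187501871252213482592875059752679457722716047126742371120818186462456253893303867516608065770979914097383888332451973755865964877452036749052996887776386737488566299690420206926371774425245214301910991014742115017393103345237502464316566277818725992718974263417337231803653844316249808211739176954068039114716878263395673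760431505839818262689428886392326974455417695474791216774142146666615673632969908951793725358186989280603180130319424149864475940502085874001625969991765475856474840044576671278013121155745677126284510724724013679612076590407531737737838023948399679019939654015132364960535615526602573974676914135628435730107348251249243653471631515490908077197135616685902970759122516390980255144684513660182161876253831847687870747473419315264055523269824050673889354347599925601876944923016538397584901489134845644374721472126315105993052934433549118972347792314280809264294649411339245221015579768403083314031533405161249710406220171028533195244169847679159193943692741000946029007318896588324321132491132669464247467497784407454884221130370179782692064846238112817649662125704026457206253380273614686068088531409993878719531362687950569179674672655330698492663764141058812942737428460734834482362049452642570171533320393800307386736656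542321110399903868167198649702352046258822862960383550978447312263911361954412081787879922052067880076968159472044751286697230443222930936434913761507963410243812143503200728536020497628245202215370947665631171737680424204409196602470565356989569965947404155178026326039865362905784001992442877724355518901642025873340196245609259951324507914950323417887731205568464081500095368929257909581324735385898803589921651740290926694257752596624866653829373910546502046683936794510077978264078220507347739699178495688410698532766093389658704865148874304426239054823286744394705693083677351835187284507210276751177786157078602666645705258512133096090548796349255553738645460914179763692489350591029393832647157138050146033956947438488207399074202571321809944073079416670643916371877006188733908266561197175443680684811496530699009038846754972518275686827473095475382279250493278127990368556984290159190147607471707219054435281442078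705782248160728151030825021319773946069691533543462033611762180641077549005116329696351760273049411798513598726876708617724279705108398894818244051651583178362297901512148735604396354509334956118494503823423500240747850894342063762837972278737124798384823949138236541145326457426488282655059236629740413836353443815854079018859023958664049405460232045637452197974575557132842655008841446372077271592014112755735776761099328453423359820442669617558113938691109991311465139418296982237726445352985895419158343233039588300117206675261779674893555781131372068609837147521774560347901070569395422297807049517747429715616821202979479830120723709944673915458047600574069799156193505384135836926630480773225737004828275258900722686355834165075734375965698977144464771130409752942765948314868731486391767495882453531551538951709874960482639433036501070602090276028930216075345137218391370524405481033847464667271437553342175331889875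960351164622840515742037562588831110653050449825623945470298843822332228321826095993689436424941112583096111785133903639347188950980667370705145052609550726687000864659027896783589461525735570343408975148319068457056516807910084951536494314369779875918915346840995706764326532365340107065788575194036729074389851855238598232752231638631488777810083305903953754917697732955332614891242416626306627853195879025608480307182097532909756625778416800316289802700474114308194278735473594658139856351100892054823478528255512933287193368055167246706621582612648459157855270336433566839383557277760830762822145234479667777898585136020142633982279748261596740872716898574283802795939294429041312548081340728275956807919488477310040451262252626413817382172115793799752621574009124747408479698962586842732591196803768142373031598134568402833536041319219219208335020450889769329683241378054721179550169424106781805578849282532232573164573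837084444386303151854411123665390197119775666141084853666056202773670839991390784573766590527710715002097012340581536417016912575048190823079162824823048464698524044266580000992163550966651930863807368167013373117231869157208139476352316166491566092615036642461323549573600400951986037174769192588244959746402426299568620141538144947388517645252070069237643795097497734941497587390954932507278443317487003994352254386890782163267061591594236207284378755373553981269567517429109438272721817862123407331841692561725152529726169156657992879952216224117467676032146079706361240166780710797571314199026363883862834542421572755066697237492900721343700795501153533474726359031529965044178527173251317020418215876312934396946143605663924224038618462294248688871739396541477134270761247202784767142197791746249758065184444766565943882991709874624033576061586828208327861420819681503179323476217442490109454763357753933676228143248939529941087713721433352191444960863866642548785847570571435238310353238102976941784276007796363004921336807165897795912078246193885946992877725075294440181719562357728936162704335442887932636408463553917179430519776432454804357351370660310840074038725067314668140287989182743014778120647746084433684916614371686667385976787414461094423643474808494171881472)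

noncomputable def rc8 : Nat := (nat_lit 252495432067275317268043761307766082968023531970767095876407963982181597104904052463789217515038655789102437676874766331958939513428789395335625603650975246361433896514228601802997221402726278762730010319456924666384379930856998038712386100682939589829203160047746462702187595557082118968442248031689812694836788935916387353391608321000700066616624589069009444068531854003339955520296188534180890745251634044911458496553830524279744236355130294800246298247837471705160036581413279223138935732945161929573180648164379702092626581916660721769265450076865273561142891819826168313465120146952576869488913966954705563597502079165390413595676900686423591084782819365071347382868433726928264367781442994697998497961995519083481367184486770438798319925723859877162361100808089704998447785948199689490736384369408565004435574876193329050624446956734303235732357438204411289162330694795707040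689562561548593540267171513660936153156817549242883449594910550431154767540680298354970972776617056645433410412488355941150284074404870736254522129586279524663877943559387696808084950676728473414757989310651962341149047653000683450303530539894052641085825143449991272985528716492403908751599893800550248724983592226183819304850820384878200830671738280079436369227053929702658637683076047070614474282857683858218363471034008132471364245498006899047303614412993151238218896777927704727426379391060470874636794344955456587316256481954786424067600506049528178404155418508022357639175526959561882702229679757962682192846282181505896493942224546799689635701505587957299002970010086488782202990364236037832846054385101703492737557385535050394901327974418821597381557115603579652365033607961483875877282540515008698890240059248013060456184610116972341983982361876116533057112625595434573782038933317530662769586555916668572588029271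249089963083012239992928426417387408628123261689808155545129917900000411934909736336334306034761078005185793209050816342870137279912126608490147457929666237688891645759480570871029006205566288306169692434049359907489580328845228905705015320310469313349227885867949549947091904337697444179335408511635611980009180749690846432412094576084765741158980889227028575869578411247255792526526586920234527997487056261979241634707538952864777730787337315372964938949856377782191169712655223721218484476807475249021880322542222143496264100128317325780752719121484546737110277034757534903511008035957640798844189648103156836735735380462242802388517575832514912013093514902928026281075421008414172187431766827236788971855256663570653858034719819011411183180112416983070982230337383518416877980965436379380171927056062791506589828695088244844316329408602444595093961450476497178146841261606919230038522100185248930095425589550985942184703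523895610473212471010185932233149550124133390277970880308268822076865417088676600965968282476493987882107535213361114978361444142220179393798941504595477368684218564798165273300012499056099369505704388208873038030591447200700579322767938073181137960650557124438838246945096272723710363332015710610106342184169482540445439553387849920928359244790349446659564696313380799051847317072940538823757343845090382119940515749154665422620167469258776397173793495225572438062492450286281648235406223560495035107355418528707334913412543061349260848214090992188385100475262599667030043980586069602266264032432861467589633540474514330894895448671544519068552056933697737465945982679743369919906318216150890098438351077155956792155771060141465504633106859360010210502083056798252458769875995202032769690217400669219439484757526339715297511024111821451448725699957923256332334397295412957728479348051808840032362129377575050046469923288393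202491560558375295386108823534650450870226712335272134325396907019282253799105301889468512732518702481562531199029205693596233052457047517716959024950175519592196712741569841652156737290357788120560902382377160935251516314344868098159079728763050780562710945247537362151446224124069814349656739354436780763459782796968564583677521272280935078865304723086647632280811617851525403256921772180812231969438642789724608127800727849959067376288371922323497565118828104916948444462090501241081467475351626575087841595178590070415554176498307765307628407060489809483031123023077113875700657994889715530559218335480270331446614116044349684200859825331786591037064859196876729339224304146407704486069654907312453174688253456120264313374905661366896284960787494193503073469999073047173103087094759250942997804151424529276357828843684951193362052948106859472928247739999777301642488206886418860696816936520540298712493933730105702330894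935899733499746898673797787719807185917561177418085019433837643319271420084968461037637342973004101308081757816651293134905091623919219447872965091962485122475701829321473525235074681031980480222164906282224224044758058293695649780466309617953892103088622915992226214112137795142098861705165403973273560284559189601772035104394043698039492728558531334647512226973904498550173862696823276529353740159337580082500447427284137707907125103225642214815618841769496465768268775997770337591569380486165153497646699496228160550561764612511623107924081917218020197815757732757451416463976874624359234436956791870125611396480816901392456922435368915175364802518910994128629651506434764608233499028983910422085818521542529346673351849836091069586180461940054793234738204048607910732009401460772171815042014100694226423397745683652577731526631297267077569632719419500093943628830568423752182106692394360993811142796469602236130026424544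509100491137295468968835761175494168095617056951958540889352718024247676686024775401226995431833749158789170898715220753354237835142849280725454308424748930719168236238336969036083344262714333411577618574030411685513965602825412340392508534300636166349917594931965410749260322305257543989847850899870304943623081915637364736547695473931253366434945305678442757080192593685553073241339059807053939128116823755122063356273625153874720665007040134665132826634873486434654331370540572839347971908457075063819892958284057549477395270469774684188221588986884623109138790421317223525198892483816663917585504284694030665511517793668758736809611397941416701582502775421055137563947383523310041995446691597107873350457273695567687948666461123363115172932774117782993473285191852989207034891168823944029538213805571428114064816488393647818934743328615561901984598579715191758514223510852214068711542398845498042496593067009359933750659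395475174246762402613463042685329623325465617355378458125799528437091349972853337039062865626368507081569652094617735795082515421262624799985127347109937369175352195231474839770686675228515116353136990571453051738870239502723298025858697892319506708538630421092776534122875578171161622578525144296420195855878455199843369479680654670199823549571306608652476040334821675226268412047107080647570688652953376920676826158181428148520373751889789388022834934715540616135891414352331107837081178589304524761707588588028227842683021920571456579572021941682546736493984372962269152214451213237636894898530191345005620040904814784856306850951761793003780946009705175112981210011493814406151740440803686930632404265098109599996113685745410866255354185951387446864956061519629137045143123199854948386092087220386056359715318425232366754164224259015547981029964177368407570231713461913875802418062191367594831070295019131601957163429832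460155278448990776488117237134397430360628835151628721105947657994472972614635335149575336522753940120413015983979419508675105542229442946545932664055168770866992016131937859967097510324769417716814726532853291763884877110135074050193842535422014870420121394915767470509877738692583039853542215587445229438512858541810887233667009363553602930532194558915161774337232831539184601033552459749713397470146576417387917065745706624558391744639005054692000242459672522880230151823603689377503066118270953243677509279104562037898744828941861094529352601023630961857903301640952803979306409628770326624344800793096961790047338125446229085891269302065924448089579071248235406945063382292036985210920586246796531423687998903156568158586101578244113347408731266740506179231116707031642109199608766869256158357262859452963297359295871626126382304219744557141121377246031076907501674375118629451643789965964750247936710634129387767870398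500729471417660461489239348588006987950177220952332690420455450046231580261355697720419540672339403132843734909875402536410886331582611601900520163032928526715613525965141096146114035701104757450548574598546442072545418518887597696340884061505947574563459515147018264076199309253561209290275630558956442859342393139092810602020831767273260343247703533531531752097675692279846914443764235383670624044343562686249822340195498740356301330158341282620928988662532105809200055851552112794525602086096372186249708119466205172674363857441597689617786348190366017061307110293469870787467148133192032575597332968070707260908085156744880918336780356360088296920952115746893839007744814050188890859275845905910525696419845879575933640209861182916971906267688517502536013492665077844240299733645623996434712743843424627454136092993518506313752219070038108610318057728830996427556409354334271438098477457169761526115950865554125989303888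215480651064977017165853570525814155052626394687305844368165432760857453462438454440710491630471153610962561900128478121715546970746974565922465995817247840099143320394682514521435269994155636811864670218535188899562833119268278532224408747106072277643240050057955142919515537440122600585892402636976835370131466414275711115228691057712559062749499982699076199335338206901491489335577820070273157218450348274015985617738170058668945145120606822051285990830107177083447506601987814644955728656715629820336486201939869857666433535087851444841968822803014885292593762791769427457602232379679894748248757292059393301434227508776442069089008671900680902364655402953299781131279897633480337727044945614709494858033033667094550234169276484291308099874825546032438984491224472185668180131430658176788578784580767735893190773866877622841323687292099778106332185599986177035011902995172763698160382764965662353896063695006003331758137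309825914781225526421906900181523461583985122425033087359299247911555938842853226222516801688136134152331482691001515991204025550457922734509921591863043908384866866049267527953210796243255120664316982275088462760014660601457216783009140745087067057650283235782232112936517187252195375363390099581361573281522155471549628787658931714508996497976227688730226617823591365009337338038308208203480013524465930883925749203830852849850172817318362870391353399246783093927442321027889954199016195066508800456607807807252080183685941306224883410764392867195361495080222544847891218120690601514617427970248059265494894580929284736397894651388961914569406291870001550382493521802903811811063468812244609021178498741642736922681913916151318205276096831942551333998762994747399577506740008640316869685614106310611334352572764740963880700210397480445247874631910351179137061606502605929309088750545992074374580604346768916694995222276008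123578866302078702140802577577868323030462600519807885102481499065096008642159880791285249158617902002865936652173183825906285809799784025872164061186326210196398620170649888354803362713569301119704330388383042080365643497398592967663775193819257532224729606186071283319973989305891235477644941810220587988773831234907711832257956776947578841226670829129934795181937264514678411186499658092351493237115554787320571901599524545976194678521587874862846847340436001122427717753230068247562286837662995214232541555575421496909996496581299249243719876562434846276946822234858735717178104637770264400615884702210798391139168625729596053277997349295855016365754103633325036820445163495948671453847151818173224588372886495779971346143366177103950912737381660550881323203206837720395199222041444295405267745636084331882162082733617831573738834609556774944377202160470876282570130572220481468159070631944290962392305392793580376132329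740832537281884796653812787611177200637243561581634674708915122692795623266740747164365217084131490313535024723685269817435020294525091221685369687717188323176634335208334629760469987303195782950009213093695045396347427149322926406788760555075318058480330326799777348437538476455130450709253255900630599735461565372166737685020297465822416887382943647634528700806947530338761446994895534046656026899225347852353566518763398279637030341613012498067089816305475994657671623371453366713864684355313772850068248358236516362137907654529661410532107346975076516836315012486369943536789675179019413466523373343708331095845197491048883034966224895611089302307213793062866929437912410679746819224945648429307766352057605878388054576201308043257025550830519728296705707268845929058747183056162013352301173706268352503138864510771800719768083368487911077604673285131660379070321937919254512978697624401984208876289553206060171993313732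347582638361372698140004920360246793525580375754270773702217087812496998182814387690364306470336273625383830641051791162351470107721114855996589428822522746083204948795340186301332477174486979598056772683515852300935232131703497536426779857756181871318723482021130182317313582958065365058371347770303482258200087310477980360993423833223325023490293212129934802313778307117289525392650227665188692466572616318442412287453994647715252696782001669970739376118732508898425998404902914409355424042084298949278622849369894011349758774240456518832840583139561692978735888896748606408188125021591697507001208882701809673248178149721569935924293785040594420427604403526506674764408515816993751809443953026190234921939249741069891318567834346104143064999570008908910349746240902833675018159420287270084631176787484600648526400352398851618821989660462972804596511950709410540026291350638155505037154646433370731743048223303750911388223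287272590425788379879936843442978125572213053190486930549514221864982005725781897630479695590770097526346900659050923986454593104914361953702481957217832721193294758688767410203538311511812160167510666907997857546683085976681132256210390075733458159323510643693620911366904969976251689829793724636558576171812014034843524245364347526612313470576340212461165431388063918999333663601821097758610031962826082704862427592128684938384190358915446125792500840577887124832831798112441073829490974314312367501694950325861235634393817246910402709349904054792694699242022817098049229835069691105281839877949628129041893891051241635354868802674683142158967575217491386072949772448388456867310166141671945290135354733066407880428867535557526694535855089549791047664809548465527706238755568289738159922737112916671514665459715377243826308548493523789442249262665667268362153647118391366660677033223418429357654967229519150520289267135283170041136086074407310134515004964016603505648340151099793805826204069196428207953748653901272315475904138781155382437149373334220933736405980121747499456102890609274194498727503556221544188521553464864041200509394879633127470677694364601130523670289255308930970784614548561901613914244314864967470679957263457787667361027477085603691907196816822716334080)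

noncomputable def rc9 : Nat := (nat_lit 254514267585904473289158047658510637972607809738582333490972559045271615609857637317779286646194185534100218506284145545369795740618891173339984049884877574158738129268735416364205457108770247491152975436601722587883575353247058281308261963347315848234005159966732442163141745022373033685411628156151169820460009170071307528462786592509130295497038479076477964152815804347570084947585455501724862111671010424906228514109710370334589998147316184168230188377012467974870201725350403401088392044217760775151191184054516233637441026063617742454280954493694987127427573768631743738026576299523457683539926879143686922257029641698035837539343096841582011517246184471397106545033317911050016468333018338835729697610608521380979477345893523644534578327020513728497171832996249082142766898291553469926333821511010781973313028702264542531683919923761108936212432457738611143827260233023251141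737400063294372140155374375077584748518063945478098822922196106774632568507760707693895964536527754095053916830842482882338890519212359228822953665244660647989214363323823220113393781407538049028811167352131301548368014700395188447955124214765578511642584305790507440649777092388965108612392200647523004618000076169274584056814117557346524547155603721939062834880509164924865795883161438461333232028366106217806549797492908370343294585803062497722262732867895755002834601673997894304180457115830510823604141161743000700026508500181475660622603600396451195650883998720001672146432457695388205746456602708834898019370011973247192397558570324825993317297115029228049202252350855447471776805086982563698647722677532554831366879169241173454909972910628466744600462986216169983391322169539824361389462333122736820037190763808123638509663912404125737685938286377500707228763049403608159574128007635535378805585744277730070760812080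423323959689969744392767816513513954798806251087436709841649269329578728036325558178284406901976256340951966704428439180386644112579748725958249017493651566150637417555167657413011954043465560255410415584039641361034749523074185618732401208053876348292523743044075268317528541380345575692995506011401894513188924708225316946040327044219245904738931423736124529713118503010238642849088424662779050598126611823780194693973442224118535507925766690475387546572980920015087960248367100092163120728554019492794439026289566824252497929751173965155002832945667247844978481197461940913194707788146421312176261060415865750438011679375431067348045978230735564141274131298085237080948450400483219731048014731077175964409180000308363044036003962222074030239015871050585809521717891440116047320291311035692628057212888704711507777598759700349531888224497401245600425699817009843755295359686972494658444236382910093197069465693357874933369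602234033133482065704974386301126769274493877253628845336887942883193302246920784264702241391296646491965922383584445005175686455658698091846007774079644752729382386047904672574066265728952007660707497458227643155292368491372608625997573715813849011760186537158690958260699240112345761583597329444069651275232335580846115722137334983210299199049506186332570369210144898062635503444019885607100898642455708677348712270030413200667791684648479474700401815756388864906648784759418213108558137931636061127252762237864643441355904961039630463530379848628652655587936508288524446958259654337551990238315259222898243770588327727254775125080500806070834245542602016624887356964753248187930797544834029031277089307196433709384734786110670596427069797892184386970919414349557286724313167033124689907771102788435910215563707111136227597769507295278409072298040059899411827127421553881350064690531264425214418670771187422391778959803897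947523561581726822584050842461682925029211606403947096941484916420889475270657922084093003736674611633359453989354203427346515553189582802263154954862832216968722615197999545680518295815001338127725193357742928419301801567187165559044862634880989735821023290001696764849783316989098875307251032707269618136181348882761074981629977516281518743116557386601512345784380511895022917936531721341607789158901559271352993279233323450964373393020175302440558182379993599509838634626998320205502029362643517269059094685822457847280307398421190280514473038951125523860394800410598212993893989041316549526142245041536181114956577205916674498594751189053011189130881314011701462593800564510354248951623308932799267669138917440653454124901096798038293577440816958306268107395834741179715292121421030738416293487889325797638613176333192993538479648351243656109845252153391497861403831801779058754720106553025484942935616699047455708525918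302630758941552678003604816800955884188527394094028844296979993350951469374724820987340151608232085280824827404370976343133197355126402263450142446850325894600229260661146332238781712568657493818673045552764583382036623204133246423247209806314355185433515122794249530990901542664278032277129477663099367224407973471335141038507816110895270198543363697954491412952902455637556547866995179240019440681346137592068136773881519490616250618471082555249182399147624396805088222649179926592025597208474749719131568181772877801784528780753554388187548615399422278311195411595410226955480537667722090810426094375521149297586015246280416018812482206062651144592606285994130847998830592632121717725635456907601342741792060415708302241043961843026700552981382245549486608791399061793769610801701227490245491163192856060309340432039181099442292830114181542583382630959715282406029240576000183624185069658314341600244400765192848450734079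805763854582095856534577790720663735467783650689734997780117189314288873129466083868354970599293841985611449935581214371785640382318988370869819032469619069133429615540695891470410499215421123063539377878926852512809713917599567790239616381663420405827316895510084510877866626108103800701617904047275007983437463745219318050134769631515512414659083517509439578821710933177916055510730054490258631050422738527087702007563790362603541594061370563987981557055333507113857869024285586005184449477515080620148524682009404106045717845346451169325706003282400857200401690454079231039632159490027829928456889168718117476201428099172640620985209623759739044821082947889372977357847502266270095097168237001887147218782043999938679953148333065498134664755191769300517793109225177480503822090082591349647266005052867657743914572722263867115686763207366709989458428788887626515639865693636909905709072195472972075317703785490098202355413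039617055491290386120910725853921082651666690911012509575138650248540683389386852020757838360853595860083193737231318906422600643647908588329935539441645274706088774241539336702262756327813902476476848071972663763241525002525218514850214303114370096387290872170916346761942611991850444538088122864113361928596122227415399290993439025947209626236323503439524346621313936042793589100946716062362164864429396170421161683371953978371630153920575408000027004860618935936823653906416171926847506330390427338361484242599476580231349768680695267590475088725145292335869081162403400157250889375343713095850127237683171570154522409166208462706908954888246086328721548141326255024224500267352849315599866824510739095959162353275836940312972506111819571028389970605118358724490044309547269956697102574307586596895070487318856972880674833721591036143204792689784358283471008935334413032295313698592028385343000972601895458715813207180870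313130038305119728609056968351777084076204795354974585021491505906432018446694891374812389280607584587018618202120719874935265664972111281233164086290238619575252642977352859057294085670429973504260649461912023289068506475816685933843257476587692392384020067206647152915398621932608915412534651678743792788931422799744896620474654750796902873007518095258339556118500714394775107777499366295389023202119838002228524490069454619086787442182138562356195401798884633941103533434921972143912268925219842657606914806433214185453730599564476546147319081748059658420255497125857955651899601580727759981508787847192677583580708546048830014727282883199409449614572052943144775368991297981880338146333359145945168460683536100359334488632002207871917459898068413975375035483040355218561468618869214709133667775846574284703407279703890590469284872712570234426212799206124734924879480528870702414013946062513074429691675765537785032895204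549756851049924441190283810819313706102486527375672238871799951595045469585458646486475841304582346940387066890682403069310094681153050365733046861572870362034519264543442185840905246044562588098156580531269457312825978721046257072127993421155157200403439778454283814294880852666598274901060264581034875534037281100041015817188135884177426945053165080951449638417576089733599311120519710922542498786403721184508671214362343982640346844021838934393094289133499128761627594405727352476859946830639584292071286023431111222805687348067353890890010506890341921954286028295923062290118585309645139867780354073382685201513338003638345058863036098564297179336184307378664984272726547275498402567629698071232339066608515354338177988551335872052734616832279589498095404627062824672653073293880458756825894426838439967501063876081517579833026484941167813677030268356814581541688411637815888731264192865349917629489483048967180045872818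613221524276123399882320013634696777100641867882853353354225004668050956748614024459590450427617057677226553984847502989778312178907541176183593312087520279244290681569782177948782859487444594555974311051342022928407661597187425222776940149322052479485679917865308543689602264610463194884660465061755420799249550452071360960127937157216312419562046001106191156079829572457660825205406382536751646970165857460685961173963555509408219189443746739538955923956802181154664586022219014632580846382951534149429910516270251363266732438325122965985297837324590582430383439315967969707742508664139472515191242489012246816650743103723940709435618195850160891422181408720907743197742189095925723087254086931951843103590520768597942744483383173105648326291376520498260089092764135880100489049801543509719160811941096714993980847256929878180814476472323783628025451091671040753228082095188780155989557377974932425965792924052112688001431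947694616689635249801143919445713370924572134538102057707822111099409646325743277790588227308865467091677162189479074671007444456426713770251661150109323438091058034680328980320458736248133160363883524821713931810245634415089307499978967083021586497796794422442550807942562220751885141966324855212629506065585340020445176172969198414962635012986955032774580540001546148554529510253325266772156667318471255524234771548203618945387940979396575887468875523258501783870996900442846450002042907864373986155027246409060229815348952644290107410266162868999942787686776508283611180530221935579996802703103122930427895316877183599287084563599470040130317309258974646756799078578502659473141818211189497138502934902321381417108851478075820274397237532763106631579784533774496897248331401716862791298959518367476572226104123488134360466147785833653792529714578609733000637386324507075369312501638072541078743926694593599521125059512959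618220055227707892772855749674140812649057739862226386289028968998718583633513892259803992077089988486529616600027379784237985713929235227896174038474573018871750851139366260047454768257445986256998703432018275235000302165067930328033069575647465210492755542564215526402239520216443665091351825993000208345651653511895875189359637779281844708644581707625912135998431104036128701330871343071966078378245493069512366733522035133344035522157218458124082676951147124599648384816320249910272676250396720191566253436076072529788303799133429640232364398036486540997773350897340011813282574449708740448009983627469854373756353618703224797407101937910215219675799099752120485227941863733513728429878000979901188339204352774250955270577825902654818397923043594967359406090617565221002942880669664461461473446580316757187013309462492409390759787058051739746819540452494230958218318706091133950889276196007634525366317018131330295699544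306510960906960245811697907336090840819747297201251787848692762766100765957642117074122443635929081202026177210807958197012405312407548523942562610493476718016175990711952674443901595042815002903363307401674256778596295504288139898316119451853127839896562266001880306689789788414451228745916650987431163096293272307809815893330963020028754134768221350404006359630974267690579880988961723285057317472647895269781958970142558680779012222179172751916693640140288214738829497278185143452532710704696831688727675794216431707642292437705630853618235325396275519472010298505742817343642504624205364651358821420587710754822198744081830193109537426697491593627274671649803378910098701569768411495843545936543727411806068834359917020014020872090331330285408403842375507724075082282624183189844180784098845140898822845528498651137644753701987154829314794847829285416602816969627498435525736850236161502942736473266404600374044791895361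620041551433277409559015256729424516895482529011280952417505794535258034321689198480232515186396347020794558603608764733700457723916171227303739300320224844730635117245642354736946691348096263371969634196869289940955899440275500772533597695311373123806661669284464553855537450054867447917475335455500085976222073761138197767443172265392648711777045244106278211454049724005787777222257312678420303703888195978322952685234977515664676772000977810795107116853534190821572831012224521227028336075466190155673502177306335050379570480059528272355079421685442572026498745901440501087095596243964888407526407629827172898015738482242357537263594471219057294113006266724304480533820261326834139498494549363847002762026641477743779665679616871634498964449550776037647523244555399054389016094084811797408174811704828014490924439978362214536571646167473378500360651849725418705867451716354698539159745621520258091234770672575026560327575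278882274715825527192311711426940757863964675465369100818124070034706688467348842564908332525570180547691265362000079694464255391687846969330533510815746825857047136926580859384653602464102689857922892376088388102874307233732733689080958026864010997119552471084316122435691237287892001615634383944973044654840838135294337835709871072811744170950745511568113908381046199069060960341226602945797613880008852199979839171132636228079720394652963425000003829204676102183032334053685614162821015059318971343800286587888753600886789198621339602830600967759559215097390930991891103974463527918356621476946207385742127442252743344218486626890246616565354353720874403344495238484757272871760486149264141168633111634912485973367570659628076328165881192415399728907909106116070086818468970598675552051644905961613992309492694708467834739868177084386027329282689507995858961205343764133521201492470979544570276419870061920189870344391071687317962891804078009997473322761352960406545385830813909571581504823052822868082066495042940105965105542021531326848777370781464805759990375119064120821252848603295846142151846170154917490873488632961694229715545024805625693871299550418048833604975127667801520778758490254138512787463862825311174151883327141448044611392823733651871488310548331958894592)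

noncomputable def rc10 : Nat := (nat_lit 25650119831545891819777405045763402142739173273551042825561433002043543928038849077485346195963584987953887459355971751185237525181477052701687440477542757194127480021077554179292048491983582648947375888823648722341486351774600773197313993090049785564267090764780611198148237376807001914680125110062157315194617062666546309276080771497246148300631915283140210524196830083884036253309556906139775860677464474364752284460536036687024329495667284637106695612437754223484600509033734982943612607373363419469683072662176202647691469084595955612593224658862630587697666597365501659925534314314561097351278404966701237579879597116213229963328820279146673077970125173148813908470863469368911588800938388033477000365756784782604899382746479900719661105231127814978557341733174624704957005123364378582527058671929869532129933395524787146036908907698030808633383995792000882955275997975780243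723417980694719276320260666171515305231960907695968730231387950318800909426869734383861726763841206343799518432890670103522924831085999879508916185991052776731730577971482214405382947264716339607907575176310491925969879591800663596816549579137563897092839959484742829847181950051783450871956244084751166779497155915515745764378022737548575818753219906753218882867439495423795434928127421736481086598983528027542215545774043032844729309691608809194969533199716394486527778680823395962364765829465935274076868783868790485083779851697129321960110120363391505463032752110255512102102268848970796560726093195449900392143786891518783427077099587558170833608459771014434533693286832015969647061133696972795060894810854458937680200410461458714542623461967557378568697012582788576330341833778996805608578081034979793245290377460884420905079231219584444622068268780186520186241336222030202989043319265738688206708856116015381629457927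717780405299877558791584917838739628046631605144943778527292574852075983426498213018195255177973559630499920116169451174230076944514097466071378784409388486234689600985646770076917325725901154346764367953443950595902524631895308157145906667862282289049925560734946265588995293528950565341583323856449036326300337269361212325859357845333160617234905327132997230142500514336341310622111107095678289326498345032941047771533624379695086443989452780549028051786128681061708089536742799800447444294995176091676359358595563900264954701865332214938119855990820175336017686800342177064485328590878705722737425388698514042692852718604705643937899335640595594759734177727308707751664227498735761239035436033055110448583469529861683562268953548002850063446895674427623267332584782823305059251125583181308816325320812508391918468846295012498586689673485210015143864230296717487734097707738764911992818719865135815013552303935903234346611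485295667534014999379353660726972660280509924537678454325832613415983307833004513345460726020401814795176161320730713211188818320778093012039973023387426287968225935390839796681154119628375406169502510443599202135768681995120985670833824366242619315502998351380800392260808640239532289113392533926132489563044531508901091360385948113620241676397583613407922920183002911961507752981712299465694506825548648996789701334573550493464914682408735915527003171310298330433802603718611677742636442693074543696265339100043831564024268428756270284248374620653230020936162477806552790660752805314331459877783709575513525014669553162587545682654343222964447227627558950506691356863879352270636693571956668540844533971043260044930004830817229708574049315072538675824330352435238043097525822220246516615364226512152703512016955402391354781504653782379452275834025784364317403809249003312715742592531621444152429398991854522500731109177931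144143089545819156749256124622586737651101804200602683690441311386084226679439479114466558404313641647032352030500699488626056687910320198677765260445177895957888462107898377131383074149717050488280004836133892611305022649317641580965082162082269165014536823684372197536566011257150903181152048440836151611973916793945046299576104661987211200635708328669605890622227513780896466495933951356111004692708601542660751053152533258056382987625837066359867498315620413828636586759617310270399497478308820649179153973293817607944398604619140065402186806506977046455607605746813762161983768095988195646703058767702947581070491319656868762320647293856549088705902428264236852614481023552397537486990378680320152510078561950481419624907996985168735451976774198517109755787938890572392750015712113338450670530832354676337187567003570247001852168875245606325178183541319327461647988613591086971652849550356738669423827801236342343721491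536697511129754778114814520204594669912541788779779109707830851133970054810092540382224980890822389825351330542208857441967058277052225271497301871478685674678685775181047918149930629786435443610617336803446716356946675014490913338136370031796830021699364958733339625034170206034039980197440797595742765838206085630587555962459587032968192187346461001721492097484696662676634643306687712520181164504757773831837227914935809751609986141300627223705650033723218093763949942941051266378967637957313567698041841110007442943959574486981355904248229698052062625916088605328055612396032853960699613298696134287118566329256757667356867884542489017792478751598684880604974975027360320404390809655297625123870019485928018306457197413441504693128171452414117216343282728535238170053506439221639838184417227059133808739284416990229383702199790327282658915046389481706255455598675741622042223493508049156382241765947664140438333615092007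177421122156451001471140517187274563596007221789117494564552110667419797349268262471893433600668831492248443709397726638183104127775051817404090108344331526473725498705845348362354183281049708168097918330611723701759466513514417797459344631026816907339306443415275098490193172818629890432423147845222728166005143298743728355124783799975629170394826754343587309415127826893147512576259704768562728218238460665028137089703901650834731589316280171477181138164590855529614771578407672257122912359421963434905394362755604288306342824727407741505904976088768204727717453691182225502099472366059063214050667432061424693528847427372893565195383310774413839443112758316480147105698304596621574750062098401886588618503058052708145256840246220867181258649877960397101402670409732868986493279129377372294049708329075540331404134140731345022307412340021749519087240681932078803593556942188823038336450620309272636423273517828608798286059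756003387698631756963194681374052863497113026116525957591241495478785774022779788823289342847133722155458544173868266926272887021761647692638659197554322234770395083382912558254292773144530062665412202827977274760336069207918096045411286647764738198814496015890824193539182037030443169729291154628635204664114416652093449693545429315900945388868854809730926970281187312326331956237636162141191200531471762995666903222974563358223411478227108142619511744796471936903491981909129084547176759232783470939089003796090854940319935366290695767394846093402539532084160286023901206076719138202191034402670173239958385110518665524255879983678626707682478162953979949772927718784080367215123947737459019333244796003172244631685255051094730554658011983354868236750016184457162168749062466245578970674410384500188462406025185527214453692032015479541462092202505000390361234532279567262699193504913071590388844410374709247350734965778592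241374691058393358014732186042320506897234727430784810419193035959714037477079981224200078697189140284415359533505257478619887235293336777490552007557489002148139058771926288301690340106176009890482412312202314459713950586547083165259829991426704212529424068527866612389417409722517390821867674564146485383417328547969182347314243804303204374180058239926513659693027853966330564929840100635324438188597435522204100135761740982931510100876624188577479725059843260718150055898001098044781350315595394616001390491701541070286658855105509488028767563627427033849070634121276983749528268945370776206266040884606061598750423507284307505485468031488311819534885973269124549072145657454869718483089246014474051331158725661892753635801293860298377834510698852470666588489785090227940271948723419402136950936409675531280565629072772305873179975285393407507941854060909710451640944262384789401879510742508952575756651430700742722011285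451461384244141027945437656122103063236368342991270165056017694416620333142526762899507460284713285491973978712209991065378497378350117621263911206663394054387113267907177494861285723070194486552487406289197236513600310849329447850004011701714433116543262802068590860345664110164006026923881302060120298755387832785013515191016655331122621058543990081850285422106976801931802426886896202321992686398338895294631852855091580635100432742606926079245989054239848804899778864591560355986954306123677515343467072042076515828358155622678735284120722377149148279991325365845635299091901113732650267118521883191252188776357230603984003284885452160287026369243132422448498964663305814715274234647733402822936058299427041674130341948398646884597977806478136165244732074880830766209203555941155252599420406687850019348004416383929448704537039802490678924271964477952231859475629565976748894495883341154751408673103492619395541597176883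822291061952516169223122541226279585572624525006223466638172782977802401982484684896672097408661473043498639595215469378667716697213357596487729444098082340793072952046525483905920013711563050440230569936283328954826782232022194968146688237884824144425393850332101925533142664940330564835917465393009237339535482219330683193686385546363878668209417930704891281531321564157654618104010939648702117174107358261051821164897892514120498086497083923527380500751679043964973099319814075403868401973531141493253307712143066579709327156904229754941231939949375212775967999299688057786343127691213682496916825508478030453929630121001278907204943328093138761467808294250757333179054224064988507059710227394152119812111628422349445061252310119674957567333093268259273684552449216868452956060212123558291472653820458389817537598263413031417800503362946126225882847444463071352403348355399956026972605858772935162637257782331480963640752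206256919389925988605857810366682132276965115815112225851414637674138592502038389738276449874826616239991584076633869709365148790907713514207727416519674307097333612093576838651215569755709832292681077836342503160329608184750707588423498884836877760580040156129841616284208340404479966468084889292568168261415909662581251299733389432309175036654034872910502352999541094485804972587488828974026017067744984743753939072070091050772962223589932157991340576332499491031725008623777198508243893071059844635406370570875603309664261550787956936918753994775424183213333440201574960529599053210630353616018923622112391056613625930739809181522735140345537044061469360639918188585656252831849302637331585412762514188583905232169979726097676710823009494550844140641191977522445838312224243865449840496241754518339097860960298366047545855703736957170381221132755047065691283074541161148583833427790610468500211177633690981300698989664945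609440276173568824746080337265070263013829268565951927110442025773049941689100223151728253852653808200755307369231911194481195877506589541889466941766391033592502681709220543853706433011578809570060538979592329481711379978892436094371513136797275483347457654028803110906140287257579670646278535811320742760090001312963918421234854941872137678559417610980560146156888732349127167699894209572392485981778721298334352474488818076111538498284503447538758817873812674393181879848744407431568584293088369556179720711325291757242790579261744573127575112898805955719257359206980469649039004944409757445218517642114277432086989958131398776949409271532689243461962726652840799059786124346411791281522334942741603422791580423183967869195008066881949365359090778820797180732964901225954395269432856884195307788847295100397190265012888964858120853504055242087980527607492441149120024173791590965978582217559214840829187960480757943060044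149050039520037674404986779515471809607094259422918729425378869175576736343364638952510633162598515453474803024217830305310506277979110353310245350879290917372826980491219090799346355690683276098254795854583579868067010812195656363895853663304441139211232460892885702705795075358131926911237556128657713867309749663474340691808982343400706965187767763074605319119784322516352651589550172880322271861106002878921788211193194025891826682504127519350854193265006209888641362986260260208414616801076655868716431734358354983098037532948532468334394353766013957861019407606302174608308403888519813678616626256101770592773060726341867107599750402310517405295098666101625306458374490505055969854901989381608091088454506698158084859929472741566317462432028224699841093341714292613557036933817692227313186902975734492560286457990599137459706731513504879279274768965428752896369243844997576585974277558318653722703540641586400397515887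433070812268343124065957479804888586805066390660454713386274302190353426130414623788695833382747215930152179759144932756290906333725770107904909283932446621196780398287697084891056245540062636195087831600240548308785421232044217956488869282013628173409359800922980293862187522100014552454496705094907457377675355533829153343795324350159730800251055722884814435297535309037386965629179326651412409420088947451174970503431147252903031583834207454548133456070573965319674303179578753083009092230143096967855933920141613561381869056890278444246404261129116355582119870606733139871283830808591247062330419298064726266312686155973097802514289248717019851049258651365598172938256991492054303162458534939078745465551499121756445902851338423568500212234160368675362669809741878263670584413197300159031541159529349887549562555917367698575949577257663672152319958648341916096689485507026390219311810727306858636639592576175007391123521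4065956121999390782377613056418610410593988949448829042212686817732850473587210685909921717177190406850258041175482161930247290347831291060580555060107286456029787045681591352097377794249671413439196799220537337499474697222183093141264472903256210837883274852671903731044781032034478909321837428379089560831677036748276934702107187980728912626870722349354177102276585534639579192048949190136661171536808771387349521574393195627949446148490967460620647198447808164715041585182377444565990499245443649923585362492640671227384305807881932439742831832004312077166365692151806290754841482877717723270129778970970917903995556862235202730050852712215557432251098743133834463853089223232748574018956948936942562794030149334051413605435340106879675288255128756865374533468639784274211073602605560678344773620610043871149450870308492327438149464045751896822118454176196038559066508771216906282962921939857851668824370457199794634297271308097995426455188869731294126178996012453083093448270151975577137689194469545361326804108464664486613055605011239713148137802571064674147860855541818178585802330859634550039098297954153128798048685798478210398104216047403329519421650967532566228447133121122149698301606158463078623415749357426293405983755741697818557480124765551907527354552508867411968)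

noncomputable def rc11 : Nat := (nat_lit 25845519174568728948988699098425505236236507006124855458899759367680984235804826357199919613929606040854487348082253206505504101832906561087264827796300979630734021841520031799184188329340339390401884313386550157970447259941404479602538123403969656744040092192628210113626966648456199635639844691679138789067181056895050283971038188556320107755403308142363298860982419960683805127425382499448276203129512955101275589123966581153911781261463892819809203216520654606936379921063022230343517677912466571625304149559427277088735806231197170687956758838009217176988833280920196246466807669587709367207295316003608942121688546427777333329685406647148648878073985447714683365441589709599087945782049450493932262108659714733443969681280618804489132259123269751886352496997605703178635587811903586527223443424324640388277150334264750078044031890985821327803566609496509580058523417815970023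864424196097267541480268042228374298248537662379561974220826441412928734420833933089787749736646182088044889338153231509132029055751690458801234507695362006376950726540525776403072636941963012364810545110830151002169898491227434386244026165248150505835580502134934916231478257974392052236336151044876297513851341649622728984671237297394717612596221928474233194242475961656537851497338035481969667656138735552813652327354920091814672834872290758079278642043990231658607884658486814069826640415183778604734767714671533149227077806449730862792415223515052457531590130863108621507815724467406561732554255513636506458579966948051096239765813648654351783812583935236188809915698992304341309217926190045795665708577583381675284094459841259758402275124975129174851420347249590180804173656355004488415733579769494508808908049440280612726210105264874889917835341122776240007758692913532929997156246187090543647599847255722838403447906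277473374406599430782776862904037141651427534274807422662649532961436797164003851555072954085023593915644247974193114324876093363159838589791672216270849217089999308518875465556127873815032903132613111944829217540165442108769761881944354496284867887876591330511117132276537741284051510299096068979235939923961705416397842326760172992228434235838718141734696940066861667056272184100069916902713252572475460963691365309669928595152569453907004832086377876867860583285069313363581328709090411878361851910917241487017397199981253883449894083925199704022225437863836775224996645573319642476569278198186813873446365293447314991728992240353670568078307137888772239834723324992598231540159435637377410592394326532806307872632048651942976871562020043087270107836760626113745131531996025339720588657215131500808015970624564781795937948603802908739787707645100589671216909587296878011603208502636647605015415650060349052608102259454358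683379579168757401432797264153984250014768710750806345085288439978279267340222175605931538968795925040020722704239596483241309388520996020166433035245275286048665452779465441175262910838254639194654651761888893644427609588349427551655446625815819985910239265298050315007117122513168301150504716678397653865303439372203938902570829104545276517681448388561047511550193599425256683058804635206798615950840554912542476443526503422617551494780534276745767712686957067193362304254502474536213861161927646406063208541245491153050963883515832001434035593485779463560195015079935069582482951905668718147517293811378389531194970420190275263834838294789874388864618613532941661174463758738949006770911154459341838302772949832659119872406257623331520000501797029281836930638126695321885880813071063522386355785188072713885309794960485211494905763720112230111733978114678923466958726592925068725940537552804736324277586121986553697539576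156347618612871035464635556811479930681482205225047035743385357886935779768078837476681689008351529839428453404843441819879931267378904654540745078835159825331545540396270090090598617009537215242653676576857038784127567993185497287237105309577046721582525055909328488391544841971177469047558914675130155939137616145616454718589305235692137177250734945502375932027044955126663203164927520080994358586753381089616337246405557818260557169563827404452999497696378091734001225970870019166839053880890973801271296461751475493115244225837109650237975638407975421460647094041552114099347002871459737040447065832899468392131190092763349422261737625263924756555043721114230866327269274467612256415432073157754470157121735880371904862721937403905992292640729136488149958487762938435930563834401085143349955405723414104373562714923383163428771157990541509814300670466423412493220984337594848340473138828458288792481057076610716952911024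761821009517903578663529977674155791275087930975168898368432268640228337900379569248807444057748983807854004796265593577562623490445654015051376705858296101933158392946509085752183934163022050726667830577302917084715225129980765567419384650531087268623376174199471287269387237977304963634981287751173265196576141157044208318305871608995374404302838390966175619274888335536660713237693410905919140957480681335253132542533794125501765158377551007540183680681151982743714789096443200932562256117782692324292609728874237610926195322921024255353132872063954065420040475278156920387712351893791843692732110731716260209930241062382643467148897596851720926607334271048025544146095306982016551719927202849716953742363796121842998042451288562480904669400450005694908299862585050273810958750004655864506918144897175027774675909635862242537711411338957272292008402426963817469015017160525345804231108211195471495652953468036367265863758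563334051284899485701318767682422302538376530281223953156591999965239577807512078523122840036727721956260127806393852752112567861848200620817795642212060173167522004187934648643805463563032957139583960498187832606220774215320167952076038016660088421888588488032915410283043523889356667018591786619999579445601912886548838568042985857382372085841006665865687664662022661539014429740596780384279741956474036187132862725497747181700667241855028478030859156361337581293872012850424821399650954240805534691339928706879405289595415950850819232945551960854281783782611317342734222794793222915017820968003172378347068716036548134590040438097656046085929908643802589172728583885138993665758322199937304029565719992578202864749682356620442248229468178490763675788437649630350132914082235722763721092330237813169102706204958614629224136566981124281638219641581292781880429441532629905303117176129950426263433360773618181045215259881210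374846566710696900650315651949522549760924261493010747149742342359606295382650164262242069334042243673736353527363513798828243711137688808268878441002625344773396617488908918394482757350284082528148047543628335426372507783469737649024111709091791713095774097385056729426531596068397607485357830642578836291957275227402565196318021817893654223997753682262586519466503427889820480779491747388268022606413647597245924389813195585823039012654296241608569663896773424022170799965647697114317569214574985073090612163968715443683149015807142299915474895830835158848839764063436022301777265038625458344701815080785070720923709434768770293166739941616095463738559935225483364459314684880642602412964832787902728670666019797050059162052305762718067394511217665105706209880114291999042238852645682287125018890483243318466848195799500007923500595738135139570189638739541026676062137422968717002293310508462720588569679707281823155216487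375586436075046777964532898627706313456364077344340367226637760984779326138514723768942158158519464779066735352936455880884150858595492058114712539942345564624141233278854110518927216040771097949756172970854804074293631248267038873030215934272587734751430807648340743005572646687811567323845514820960548190489109207131379892851783305364189669631248235728703581982219149199982392077853255700690040477832846809865125888403990189469987693751032016919091440082583297299408516030339466033018147260851635711306752903418471373093152047010410183777231166871370540139501007492713398330376923814776103952572645114623787554974227685213009291105967292493773249243152656054264738746124732469349553610031812754696873646450767225106504877210736471741143412607780799635612035769265779077214664921102868141221589061978450988131941068394928112157023582577183026778407865263756785270917176165804695516016818273715233551964501210403233150495464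920185518769946491927454063808445420810618891967622217212225748992900521038341057553094125895134957785838680814161888166086034976082395013434366041369578872022310959039208946980611616678127763636697607665961679254877951326193985143359433812580948698316273009485349217932257381388688921773650201283600247624909158843766775018080518310339038796943707138225589970013298720671411058237971619685716193930129253654897309797642274593066619421279714422372737698038946224537502541311144001986179681033022625983154234889798092215343292097282726298857809096237121117910179382437319357596798661642578266958546882952119783868950646072059724543286776691164531556589444732465479598251679608697769741648211417486597079672772041003687806656934520914160473420853335473689498346667041160247477247402650989690377812697331651147419793289170719163028819127805389211387610081068091751901860752398326147083170730729582103493410456930615993388681766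558045724606137672881019533095948856458899281201346753886085840922531884628752207185747211247538565178129676207349579052733636464279304607321116668114588329543257807116202532752502048940295897207026672368197880674443107318475573870016791036040382046844879141834596024970443079609641284134991690506788154986985317614692530556075461558023054064450194983904899825675320396270562628090324998654486727596094232947524568276010458195865106897420761592569517021912229490658850024305679018505170827415480321763888551953815565743915983273752635745472458551151346978523483886617799678591548817043784114829854385204135787013766551474660371656596355573001264199403041645384798296164263424885329149470707939144923915917081109923820442078642502947596320860555130103198222282642099360846800013164519988011028575354035672337338054958821160557832271085039100898177314432358172185264334367025541651197873312003673894337429907565161465962477236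618941503038306562919160785073002360442682901543423473995840694788288968077224259459619803505167483306166761332167292712351754243074711129603751818309731395636195363752945044125365053959947237835291434226471818055434851770886386787234441128321052521953990180677258471416609896549765033021453879068047651292129324733154202262845270351269977210423382557891275334536105261105964481326764349229323219389952433562368954262670140837004743103444484067298522677221668682274946859981436419284781926077356344887149142742305432204090606522507604980112100315243087158849338402786113978520198274866941849128974953669596991789564485708556269770885187783489435586960131019745336645704535654120535624423802751562906518286177119290048156392134471042668827173284183133818150843566352279039932176724726174296814264623384753448332988283291108627724000095126969668689996624960119584169495946274451429320643721191653843398093308871921873702431575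708312776941044630213509548330556427700541491562587803416078068964338796174791048328224893164963108097109973499328862188252770879200423794971012998929717526966375169935735280495195808064742706566715358607468161480452475010321089556779353439106962042618495488852589014971516257745390280806671690185429256637982616045146270559491002827251415281850856845047170512693154708940492896501742969830666978678467924584658233894968710485721929533383170121284737855094660985487051413457873971386253848210402224195497987853371017109029825219242599353477774495603309721117808769629605985546997242899091911915847025027062989649405974099797629422896582657772766162461862541394578863029193603672688756812108795620911592496738047256234735118103300342843366796887135737294502775258367199902908068739316286123843398961807489169514765096896891261901850717811657046731722959909993893598165941146855248159602022553938554860076985105947764040762827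390617586147259079537193400510763372604581681032511707597310123649131647473246685895804733781962364533866188840064967661305121168199492498111863719550961420436627415845290908800466613381829926546742523204076328315288108392103863679905057654998803214900517377708528680373434622213433032254434702579681490115277131074145709265934930582021381050673625569258011134389283127834025566293782031172774297340973037478717930116182729499793915873156861602140376878511439038908475954217868131703496631308532194536446724874335620590713815973404583844820573282037167640665186679053442504974473635808410818074185275654883269025129142670399108260551599893915423405200740329188522847775096463182230747009166719046696652325248339016941320603151768139194150402497981047256145442874731449413365355013454206813582500756545201125092171354031948033944388766785882954533336334475625901203826608434215887332532027884829830289361603620619844788809398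022455957901903880694327341403131984745907236864602174152133407703786726869223447654114120528337182241651531976957616268981870117633769664841996069646148017688268062580792394948688691415508517301240559548174972867157866793462377806028477685447184031600692459892088638069102600260086666595920085532035806900488230464245694191382280670657689601224639077875762374871308183087581258930877531229219062483615198746740145552915624565505593341455304739615194720149241049765792340917173120306134127222610982215593201739829911591732047454523049158386578469530282613944431611771473929723686978055512751154648697571949358565998775419282855172552829930779161423196076712759304264646721786430587314810438319280315787252129600047661648020806262345802507074162582937346563282899891703689115789418094673211962480049475544008221217240850667466686605573777136420145316319165912732731419924864176453034607763152337040563553200233451251862165992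2399566290455953979896745134071206855207414973292522933611550228400597485889919168945545627130003301111200136598597162093028805792019003419379225668063604994263209653510710366046528123406791734040428166868143515482881164261629536319779635287867664091817521191584112638633552753271951366219655908131428284713734729561704276404081217934054970367134208910308730122977267948714781608939277804593421587897298196407455556913972581148325636783884760544814082638465610406117189462882601503406680046620837099117483417941985960941656347338904295980003687928622158307907737789165265751029681152300431178200625523507442472992622380434576727975136360794982436078445385984408247116793164337923290644591399288008600233232863752917079488927490799938156163736103744648258207124101028135169917216046528610761112473955602599565961862150517436353385056131916562340532903392710816871924174925385098216769508047651303354911503736265836422164049772693098261635373964575227168625701350392226897830428263342421972067243940877117571007874846540154843155582041337211519068450928866621251106462866105434829509240728313857161996161208725700187080373186700992789755636329378976777613946660960035416753909452833299334699368875817879358765115346341931922238844314343721934912157804256689908439514187510428205056)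

noncomputable def rc12 : Nat := (nat_lit 26037542078993969220329972638492871517212406088132755760891805453469787108263989467107703155674068250347999820202257235513062403280375652697118317050983758818791622880743879800272372397644635015096014420168346515760095994895819636050101187561188083996869178741824627583437517423003189531314840899653534863082772975253415753151703743897877232902659546928394406790474520928537784981910837161929957340560494812050420920287388182497681208260850694583595213396663385368269896214410653693978147682801104620288925905790499113197418033080255119383382555104634703619350425064885770022700906905767649049938778123846135343075363858655451273526298916499340271886543817259997354074388773717922206702651876453416376151148196494142956619029325749748007188690874700260016983678478915834766814812855518969517511118943217065714413000916274427499459869298189979898401605947007147411488707306302625166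987411914358566855893082628172532003933162778260459654444125505138840775867213880888177308589327344757388044039479327724850932489589995726881051948060963074976680005180510701002189934463050548777253900584476640133765514876960320499424510536738119118344289171525462178850792484543125306813431625722000729124580182300039839431798337829138066865819448080833552272271416855943698599744993814390451050725805100842635325746108583702694099169126880426953361925109488372415755597760188892365687901448788666768853166616205098992882711627844494216057621010222254816544011952807955519240979155258616658950915806953738063580366052154915581628445541076293371834604511708817220041609163664673518863413364282687797564080734204962703205800239570387638907918939401674126298060607994971431009429948834507084453698717056080014416198190132968919092977792207377397109832136269944966799316190277293083950091730678739088403846190719122576994259431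220077082329920415712220329848287539008278681894754288637823346918313315732145218564812597722187301855260644312436490253471339755273772404903080421070335023805638356437875589461981945465906790599125879798681187580947953888129922360646769761444679910212762226485776518655019103588506034182702261444337199412029840899408956245025791438257186786087245197494207761987558670261421996695914103751179714931189742460324781055633179679743829276954412457388428683541323715131364537839828382601277456223515583435077210437747523767286534185078025291334850698687958861370041324716400866534200415288872013774409199706388046268600669213316709116984102563328811075922660200861779386728827923046338530262849800334805612731917328688746151413913611258460690166148141774200231396773071255091732785343958374811243951202881450300822299709980744626085772675105121236562216930410404746417812011901091152372125974334817291909075806787469802112130955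768776842490693953208898465604483957464470055241675196452219190011849055114787910171138692020907945907642014245081533198089976005434554027430284967889478751553907590781272471996301201110740830425835343189480610637557148133283250497861547178991350502410174606457137451167196792739136952562034842119489327267424151196600223813995668143097323832080200394853095525565941203657332099204328696472459015537053815930177962119410576401019107269245378152630628859717001541470534698619082859647646561423726729587513599665438501026248310475036006820390139153339308734132827606174773253427298700055538349071197240861541531465803775286988610098228477508370794080068528839924020044924392679591306062046647513585759892083438830750897728204486401482614450823517365987478088792451955855494500996691644437535531949127976725816502054064421257913894462345054375500629085256401731798785646043534253561132549730404585802447845640117640660582058454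490510586954550161390608537667075046657697396255000697238520795855960788944894767381200165414082100383290724841510748729828955989866219312684916089262368040540271334368849175294009317797925445970268052653112215212445982619264035267434179420766071873025571314021491652093358753197132147049526260659623708561977618157698026310970488478725743038645147182450513029986325399799309479773139166381421818952812074309266263722587706922948651380544572014884587123369841899492975842114219145155906664192781916872770571534359037013882333185612920084831706929468366555299271317169056600343922926178081077600684034333105420540116863027577540409721744281226489817312939699175301895633472969895263239308032022046734346183752703163882386764901040243436847830855907509257839828743945357533977157393902813504076498931790084527543013778353426250962586601379927428064893791369753732215839126977671287934163978580125545950372365287970897024632383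321047587271473030370160750397483522210073439884709003282263264827928106104238405618480873132216601000641173625074427145069780808385246836293754756395218127438946280378783312441319901028934088841323982478228188909531711969165499000029633783195207975807376176384031276797324253613059699593335727516432138220650048541313315878959875734568721673051515717863276275541682327356245593277923481475876992009146514979602764473270796918462824273363784487353211083799469547524728127291773859415263227708208955364729992491203898786007158664740418451065294939082090270189967725356045063219335117015456233237118552501717365293929684132832088976859489708120419871206875511795323968308335176591069079758757400398765144398753489062348803256477445385839467922119103880795261517409272651712258283136848596074038413232788934562165186926238026091480370459003957788219442128760357173611419488395424502966572890468956735577886574345826486963333058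459760522037038662269177718879687913769773652804891026426234805835994379378640057306612776170239550946024330752904152080921360443555058947047110868194108363947808397110784223740835694344953327902351297335887657015984733317306994479271948679371249525086988438160627219089349000006015353381761669102504745349230722135651360785470785546185911318205948556303699718957726488004532757747460534568624136040786104246032489236707330118976056839223907686037474639339939739117005447561055003344181022411751619602900859383765701442807680845547371009432151947581713501139614000034343662424655375442273121335830528070678022752139506289053318002817298478490012508690804446801280960523731287813096484470666835417792167022753915617139124142565743275823240527087953851688265351461786146061102736189380480702163311843749962935400739284289414199340459700283925042755270186736312375926945080180826406146567357337344499239587274596443379344824053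573574065302595335330261568481574653952473057221506301770896464364687519204528358942503054747191320405223972466107854817290276414353650521025328696978801382331731575959328655172125026934538988958843547231069060287529329689127995003638608761730079457965766847785907483006353577339895467980874276100369533123846172086581621337875481324635135910398827694986734736042782380112406036641545954341695261926995879602227987637865523060686170918113639171708136786818583291121956868935981735838362463297249643861835698893278324825830671071288790371783022878903328251347240846782647818358729805913748850050032656987602168741695520778307395916147489915941816548729572931398369833655831819611304613532995433804575549058238361137400164464587897793257703422148878623215136124535066131183194759313519107331469844875110167774641954105316127585295718185898306033593574284379030352236652926117748598694624852025555250456417574642717705102469861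215198212456017594395558448005276862437807227804137566483191978845153982940743287939465753712839459938403822510409406582217822416452870207244633137707296154064538231946064939236144845680731598632825251684962708827789003423070670822844380188047679067924943111094094204570562575145780404894652980676270906355896448565724125351457079956436480785287213921849907039774398738906622689159121670373883735061575184235678864864703820190224446827852434512028729862103112434178699754074320735657388655286424240958697010671820249154746371169464965580413147171505522834422865459865181591156012918864187074972920469481023895921081507061988176581222033439861225668771424894894584487898497182337013744129910923501930320583101012442239026851524913722497070201365066806459441276766198805462717010107433727616756746378591181177015949858040830711304316138776196488645028252011776539289681419356751406687819241565506183189155102930990190989500461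464638665140761773337700504479558346743559444549318043703008789732028416158532798090862270021160746450966957770713714209412546615999047438801575594336850933532378018846767853142502437125034790214183943304448827772162824182041918932741723915538886071071368337587710528852703862306019221255347234071810202056789139641347218759156158695809583378726119962573625442491682347293693269208135807044851267879913531260144463128499525284747938516078422109096368669240375610054096136670272848568058619176686511525695891253856591291086063192243031854268490622347147311431593279550536509023897427014795478606631264418938783955015451281060412937383293259235378945610193199482988985156893486862543353495185632133990808554423310965760824591595041140988491593932078682041026122578667891927132273512636440954528578360063541658065577549704429128378455722920022023689853866902946928389381537755100691553500786359479259518051402513945719231482876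836454762480557942578524074664945725987201136345435586147992631948662757419961147879459735775814611055363022127375740617920395227586007454304822223068909405666045785212032479901607751125492815615370211684050438916657936372084927889277550467853523043814262391881948631102791820508661648330066819823132838119391427398694246644701002044485345609622653020927433576551231311474631846116757031971949221402535276743374031038589118254725479524315525877954907709818877982190874971972318426325884481300704905509694927977165580205546639154322980016337548956070875129072359119332223825184315475849964170819719327978674987094881665976732616583198706438130897234670890590971900271417833864461556960095415910896381475282587280998069850999953945641936828177992143776692149890533615427763898325884494577984870060476551853626635262152362650187314396021527184663962164977492657468430161904853237799785878671745052239541875069717695757909545314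207893968077492605489983157399678817338523865968550629190987216478067633432724190653427922760367212819076531906197305320233173941134928385559416832312299914072314854254461892800003577092694275192796825613249991210770361366301332346256003246970871507540136525654233635553227004334007498817837610471408270188367417663401339382889634138679083952572610467849408665668691877693484237749203929080600819375642799662761516052674916421202737360525699771384081498489279918060331367812309393435056861355623839392918228069289440194519307448249267124483066745068036999556106102870510046617060747029946277407396002166668849522378504137527486042174785148559971541959043556959046952198980137593366649385011797827474880096713761250692402068778143642093356329159910183623934616667694985367755049471802235685474854818784264402158882668554698998981437367919639618710146259908493040633767160187638438242913719761291202633845365880790516951986177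058173831306888936812697422919135391576968793586260630095784219925454750598520433362614258024021101366713555872289019296552911880578646282568200146933627934476608843363053513276236279008386128319560701630899219801233638172440953470702711597441494706076210363239389899100848924489601375914634438013719095120702725111851488573466096065843760864401412045839922568913589587605461388950089591876624147389784150183904162004470169960073723391127349593796120680246809182924342185446270193797926239063485413316072158883052349143780997700612160961038101481328339517673245006220551929253474017199895702628020476170059147182674575695007747275864397029550560302657734212399409287576095629408715551551533029090098277867378708841346269852198082405587584709633508924448339261636492933301819514997006539282178345542680650189846666317823370910555733325111535728379376730211108130121052326821748153185979079568305002782764809328140152085156126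560863923366776205516707341337198709593952103895364375067571077697394970233206046539557037400700538382473350238916520257245445888877579127158473629179666982800848223523474103377616761449553163359210771471934807373714593688438974902178888645734611150281685349237772042473462254216315485914323731300274536632233481796536738805928890880179904187399012145150244042368697558810289008754307008321513785859019685239896678790927032031265225406629600322620140220062067748490947799801403614642496995011711584862737065659562787852713220738289159835990542989918612269652620209595509582723452170973668254477689226572809100025336865507828225895811747852071051031231919931549353893123147437690749313415672982168076666290566368058239612746013477842243926050726136063529738072194667994977657545449566894563312916934823229139722942298195655114770720171167873764940521195279513084042034457765774638712451325826913822684253472387257826442752758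504098987763274645354462265901781465803708889408455666017905726404544434621976748026824048617508180559517059035983410830960038263399301033065767787187338727380308866844119098522118409216586866886975009598388388210533507470527941041089522782400391674139582832140283863614000039349455818546142924373085806673484548066168249233548570997001581654972415323292225593074685484961145176857480511216163487940775507964722114002992103583038619632023519798332317937101016555540961054055276592024682821430365278305499633666926270510334368438393042040096958608986315312974657982706160602564476447596781756875774747149606783019152316689447965176968236119328019660072493004236160546135614773446292899541569150704625779882261339796352739292184822323456950005682728880993130036977891488817275663268319580706034430641315100384532784570455798179268346539849274290737213110590434104844828496811326416708734939722966174471163504757266881893436314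2307244433467473153249677073723450699808335923640869629338118475142712011454187978583802392757140737195637731355775088839318218662922977339178350154913292509130567959220773799012703319491125214363071762800175780085326137745768224334849674750185287092760815166467520034510030035486877970342449557368893713659934128225803502896825145236498647482609591163879217182530615692223916896012348409360351406120160942191468645276550433709478194814657220140372493479045225278137806602485987054198373238663338396385901734571463354297587465585410026561857814713560228542120252635662974412304085814233379852734410802223562873751767644720657592150483543893906746170085798571776019403513059030732032841769168510376394518378093771252377882442532997962325217759813334774137659761382216462149612988399982359092651046087182569854715569331232293119444256770838374159958812932894885584578618247078772408575256544211754500241397612496443944180253861723318549603481399839847338516042557012706122559125089320701158427361078392333237558076134714502560940527107665013562262070894250427819412226991044603989953157102306347470142569432758799073500973352650642094388552534149029487743104054926392747958552735891357106083643104042004044313116311309906655145082664354019460632866080519768474424048773439068045312)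

noncomputable def rc13 : Nat := (nat_lit 26226122544413435453134906375397039737904930420227160348464605417409277836668416676934738472635702608737093932424371987077817914721280259577334626859493195298994042843843115595919608840261258467859561821816443341247103490619137823755644755692600762358162207872050554327509882195066014306316577251831577528169761058642160997031053622475158526372918243032217492898722288329183130765808960071365913574498526944855006600962440096805500351218662402001920977370866954404529636158239887592332737487536376485627130473934892405316884567633158551556358091851599438586196826119096679422842296617465562671336595309159323686389692232962520543117287311842287590866168163755252348365560435999044757652135842157690765112515957482988778988561323098118510336249422842075586099689692596055287797951933232004280318994947253662602476701405384953795889435101884587207012633885184195744908252821458301654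789709161955494643203553838211424480024822870087874163802800840756640093876840884808720179500035687871440125664737405785534113598325981454953415964964643565187099062817950105868307190228397763812931496002899313217532909906597225452110498843298324129666615297438357464507732761741749738571691561731387393189556090599445891451442715250906398695940486024858285964986608069925279703701005921470001129449809024956789796579179858049807398645428705740558416337733043152864351640940968310280694018275072224595739737968423204601190350710182418103897923070868480339444016930930367463091915246901103128780772507230815752175763240618836573192299246674316800309712103025678076854434929364721424093951223110327609264111919344339478722237632953394500942223715046079163686025918332434144193028870835786135690955358822389142966475882794763091936764248939404298142742406183955341420113219217256828805235503635736720942662817622841894665956852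162329320434458921215440586480987079012328430437043013529528076747977448673848697651435521688121875053157372482951700921163506126821843678622879882078791379177483072363074351249963989325209861543699393561583934287665227265398877916961999404879968041923790292122914920700216998857064200470119790418253423416244201722777984379857416714559814636467834377741148178965288894504151681301456519073649515636002258427095555232776010630699045275244756354136053410545117359054498644621084165430116298484017985721304773392421164286998467088011200967576162813909018865316002049295354399988862842277999789137802842420543583139857906729245029127559655088579827119244996139107488047601961990329262682346934969488392957167258466641627699534531106336527929351968124449726775414352614940625601266731850946014359355588806898647499470485353063237033314102617863608764345779354559499945659090749632936053213849329271805636545963056078788938806705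862343284476509347985832638104048487279187788159170158438129742220179955237562168715888074583230450254632030086387509358024312662564242600138458367769202767895490065722302054637737356740227378899130111005622207624139148744136900323166280386842976579575584619384723198321443280571263865861373213878614103133046210732498612293325382829129292936991950680270617425219179715353103000425731877813353256835156414631816326531129080286911123260710839943299427161239986384130248449979681204359612841213032855404263701471177585263539129814925898330804685030672123264602181662846520951800783882335429736928665502296685161544927528262034360049353390440475374066988476429266513162371347233823902851677920055563447362547825616798504267416669202943969768737310078518097559624931212177083961110938683630241817918226770824830150499341800161930586741270261984322147777550608320883140342624990542469600718040799424781349494407753212088634649374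909763638876414346214725451267447033132399877486657240856765532249717718818803895203382551930752685998250053003206743442751162019991590182629325410567554134395813134691964800114802153024938098900111256048781630481312980740721906026333938518892297653424419557149704946950132299124962413095987588591769273423930748651578231676183988738420929406365640754187768305289342406038383607943746887002080719608344618352570753911125431181764435380842697448662610448006937400360487698093342033181135802718489486255456657059297550848630662141126659643484535968199067511490518245401139571636723964568451604491931394562127331390999761228322925753355410151442259144297352010297503594960730944184408175568240138680571588966333442152944340866384590795083184225512380456110902965124974700940609928366769060428349081735653150460171520878006606389806203803514198016022900648539590845052293580023378293382335915474593189756772007052558072829322665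171863047344006083843191569380345830852178015503181801873006868714578952304209704494633981143745270598420022199206537722911656139645833030394146389868773037687539067067617569671402337066011659990815748592632920273136105975320367382433141591994581415532346203415370127062021518465624136129900506490547569019119332687288703088434719175925923497206328005618973973471355883046307180779004882227892174189978056248125237024495617796167810642564055014664973615098232637988288904777633465673124641329780072117189509869868887590189465279314699563920976656571857275996967840606965276145611530462575135163964216875189631777184331349122195960045859229746022605649272636588449690434542350410419734480158315102693087080801082279174600987994287093646017084566005658015125986003302246713077973770976798425777579703317227238270388084774031854215805996927261459069862161187150814331514361253877819068926906099558293128847590963954089961317937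770229084659746383532329834827710442435192483086910042900919450814634038513268673820705284611335408995064121933102448349786225260024919293248379617693517914470561195594482397060563308646079399359191510533128501665419684147075051070387862091464742746672463402003169443750787862366496401485218810055909219635020306499497840116386159064483103528046237286196499790806638693865804584075521959991272113750818451908495324925029727403098782943061683102915031666354483291202607352178840440515559264276793905444574228131171052356680540365878891932169009780766944200441537146224618980802171196241381757419868115797249834466877996117597553249405862581038757566147310254789770785515810807922131397115049957909197406262475188039555259369360878996466991213614240343273773091180460913346964750135098833608863969515507456076080011033376827159560993766944088068024588323609890101203028927127799599040319523082043141648630824565939185364824999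409200921904505533821827322391758974452813775949786231191879203005849668392562375851960036250568873892326210123214507824512233820777922487983816468066665480856560173447067427401996520671967765921006284813068754331547835885165581641267969881682474348264886578288632318529586742230659566252068092306166466144282317921347108046969617820475345519655045866402194872021805677140191211122318546458755242108266846603730797258217151453630395673437111375661601306075002776496894648619139638293037352984660294871979547784275974988333721157247186632659252029240693912999112434758829883091882792195319289918101090297290709475525855733921504155788943362557864408645932666130521397294770156966721537683322964309602694677003425232961807002818733314318833470761004527657370251413329562737278775947857873088009579507600239991367380130181278619429145875007957228597064134830202966278468864150819169423146339192625752992704693597314687645601513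971054284687375943869591092438683843115069831483554492859740677766294993552035937851866084374446859747625901968834811961829073203443392692205183527250927044284009048403354223115177420129722414277387313665040934452733091809672641063716160981274149857476045950082268010618008384487556860380205775383798210538375968538398017025217380837429231035012617995047621988501963162218966039611076933680817132479024378892595021543484638333073218625982229574823240687014193439870625571110749780852457244420861905890061218423880430169735035231305203497974064596343313699193911432350782475878014239932059547390417979127360274453893896731958171792177108191019115918129548050571668863238652049433409210013018360860071959980416054667612027680893504612723886057110822222805419986300375705376735148277793124197759005564706044452734648244859176492630324754564769771890717288287709323399849107332480634913676073411947965219875415041164037926215264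933691846982686164294110132477867865409598951414012920629691503893401334088137056713296410353189033905998561785707869677307998393541587976844982637506350296677625549233666711461954078698288662992919304107997152874665095299866547130518806757498961331893095721760933413923468139298871746021173484446947969096064047842181524291349949698999392403987756765914759175613086117667881616888860170690228975441909736872643674105569328086687596316608257291050703653478293917735316815554121026564334407409239604115956055858299396044966310987236402306869519232143461516788623823025140965512261333554801281116508157315912863964758257013188100221436903073015689378061554447366848307592165819504833349718765671243754029188977516232717015154667619071662477944775526403354255090548618381234515848308755944238338208703810361086983466690412422667323560559671427082406861683056088985842622009875969318778816574966876943815928099005706177794523280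779517029918315546391088939229689111858775252334187739188465333837504319442322705974122302307727749501523791527363139598352247077370842749726414675070280635062518695762276705314361930359266378650961479746272712937611455245362125179038751653805527140570942860298713601092885657040656887441936322378303108824044584095363971476823627269635217815255992803919056640182626682164821748417143328181167258970246571822711290847225009871518477801766007470825217149431876135059354128637059098250060065559459565772039792478554532383724444655903334616536618534943821787304064341415541141743741241414970875775676945145299170567676906226311628457573845941627873680277862111040155082619412674992768310692320847947125993485454313272594647231444383006335996258266031947480631183995745221617692450801904115801389747655186628256500124807235119374383984840505074969895951712293086271097569665401672266532176853022846918500418913875741487697314876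198428459300790827201795235462921228851703635704144528597872580567612760521060668984275115154380619799976420590312310206109793726643262671377654814722460544092751272114178764718429383526968072484231461413322671856680282389632105974882693745881227587170853116889157372066863037393230561993139295664275841644001814507779019764243343493264195605324468594322677865843713519519120392986940063164537609461712447352967885734098314624914899793686804643770361834566869089655195912436929221748876684876346446905407461106814898522328373366986907119861429521557836171414151529057220066932635706968535179586758319178569433311311425823679752596019567311406729071673612985102970066188424535440980752992341293152846661888166393234677545766194799295327860699760955118947643429801608891751225050337379777413258373831840480032287661506812503225572485652228939584212514243837030835243267880396279924486540905110741275735219051380449039085415292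439724146872103121747256657646455997243682298748835273721510685403014675835150801233776625511960020320381538118130490110050889717280193419086030482688472005419571226952547628701778330544045982344072193894702152577636383710627132039736523984802579623858568401883594915604137282376059561332215740191497768684666742934158372005740538790689717376051280007532470238886270189012866931566277116938733879151587561088803727854217058942502405614863356091960688448133181104296895542332347301596839712879003658293611909715908562603606260112831875192988808003860348671711529737991102541136748792121161795223385571057492358030663226938103691317541170897628926384796211036380323671391286172699139586086983079054844465136916035311541044072464341905667949366494824616171249418917482862777651057395574315007678963581331788911913358341213847269543289855442567449025391735945844038053381625837783406429646223656130073163034360135142249517680644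869196939464387963910640213990874778037597341553405486801045712586593232931885896408877709216990518942384563963446790326551550539542472728775316170432165749627138876268610655343692253015665746588550693208339044479079670365326052503004872527522305480601057497973941228061820777040719589247782933138470696103116102645359135211193936227637930573762426290136949268076655861798017203858309143669230554591722607822881995241406297620734124990326780101734720558619744018044964681035548375905946810658811421804567597532873398290270713337782701783843929431590098220326466482764019047429542986727392835035359901777210807448870712378588857250670074894214786268280225245790014875039576359882965944173258820039578289206903875712866208777385688349997117125592437524037416216643515917331083063792333303446466475879076190016971268854191401325119276769708339291975470324781435885487108112696721827162893337807688199187648119522086433302282769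857286848291336612339333050573139533406182682138891708483692645448458177564570510397387538375586587030318529420295863466448059751800081156208021997256532499896083667929306188406060436594397683747089589637784426465401211004390264352519933426438905393936768063101997898296737046854999286309445848692868429769458648833819348499871183979388197847895264990996615605799617537934136066802927780847637324230631192470859164353893527486751193366255593713967801081187652519268562617287832953667962665072706404911836097923453683850857775748023932610945103939896729746996943090408725034571152783168703336349157165987828938727237370915844168214459661411930785398698826697244204095315536111694873695695638655134343053190009164211748162827319042516095838062144746907935302263047233050668274277905705495166646194803471091855342696769572290077856557196547252382434155445469018087644256922595832382931998009143792061404757247182776428236909553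1294976965116120714697474402186668130792324219196397021290284804854434720589402546532857936780795875275419745244650202001945876958777585718753258916761801996724299520456932910320018745644664486851266377343344784868556662305259871187059083178690401114957499514141085330201376661958647239769218515770485502641415102900263305777991204362211043500225916491488191798504002990650636075581777438798719468664236001811290338463230800110552940169409922321560403432861686170484820783337749442678366116361005459697009757879721797772109930052136585238710346750425535987895479727845148153398986178838152299932634612614094096027781201617716868636807949907671995835970204039252457971835939122199637743095635789251628131827140123783500677093004391479991211448840803505310704402125699391245361462066699707290741690448755038956292780907051448860333271191480160659910149751217614111530240233932504086881375734580619109672569739677538487663222648806005174265294581604021024694891078870351807293096653538112236142067668200227323315807926747746772361145519079995680592877585566362252318072134040448551103181980721591698174479078007329842655953344276811807431127052776431542036299019252564560878263167775356927748695003201181327114953655389164544603928733759214058533045520249390745727037018176380469248)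

noncomputable def rc14 : Nat := (nat_lit 26411203108511755167975373666246835227717642551004858193653530590715425251817047772320888587483955363319721855999249686008798908698654225740905796056819315817424823942454147543004346684811540808547141356585961770694635954653737814420371566474491372627541238094576035481968164114285705738693258238984348176911837054608963398234963536388408948709257988394182484731821289361362522834956097487769676015212250477264859545164004102996544856466317026409176920000802653757487438308380189937989287138745035522390921343630816028265656470205355509324734411390239326506777835036097001814379650733560197116033872761942009660910015641783656482119023590811153298432388835745297074669459498480446072504845231800163966179486887087530029795266008121941171933318363532915434703423734477640371682473677247589643237578807586084585015578061174679039231076446733341542267309872921926524032024155305347098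476258720498786375147701195203342862648242141163298097730707043537095585962439703858577000223547680279575040565457592527358549972778722510568877721211778848694571782979473642581095538567252088129451288597770895566225148753144231454139371784568694974372918229379448428871575915653454157975519423128119251173759553157199193871344951364317589950883494651716359095771808005546603606838539245947311399155917408857760763618296959935768277889343622435597142593058688669959631057113528899089493760085141080499571013967608963496780595074081990273496174206095598533440136588501206555752331487597750557757185277183982261715700634341280662965490570869566146761823368237819315296610204866331753277235549871741180105830629464870804391925168352477467941408527571025452332861662059869358934309079370193506390060241218640022250960034801429901760399441670165144693231736384668644782300527813114049692553041513013475090467220866698369074749696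297621779003202408719492324809926338845593497956524062462823516218545467710629024297283743861381075796992230252321214050166318369071295109984998233712267484376220113814910961031899872018030620405308824309466273289656503400598641938444279212547698995692008255802080311917704165207098217210184321168403757277322404881416725618584911235192744350484715016660460256440140428068978886817999492786323230381212885313848335489475205164649282511145395430006689772050236707715083921898043788290442927859454208469202918324903462945831162665704025454648504666525147052978050590136119947150294900470052742248406378184972953701810016585736470544035893228058487722116207010853790877124271604633372040385678848294198540672933671122710094935355581783540457756158221467758046421174659033444259001891562913401842531954350705026798546957467926529730046175821597992735284739842103784051434875368719493246087537848160437704750882881617186563909550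990342211775953001371025841818876578101249611301533834521965581372165753385246258232671565285061780854583727774587123069732315247513362752325405344741727175827133090876892886987320283467579126996240694547153813774671794218194799193848162110785775776686012791685687254603920970886008248044783190898484404035020955221187221717064176810376772168125621074760820794763213050377995900161211525373554980138482921036317399399709835773458825730990179426362699585546744002733477525664658517026395015712187659814391952363565904591772915953967135897020366571266963051778394703407902014374985473300353384720590718026267762277994766099339693388775566233278587743397414704513605318788486514102538396874797936020782749742328803513725184445947750938053554078188169407476288480773763185554682590526092992460131390768145437855976772878632938102348930990733075669914770404343497325799354557030258881818059596084477947109701156012596189480455755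375129883148061117057907565381471409329219013011748636162643395498986213705632423051943388554327026313612592818650890358204452563619423653969469635021533409993545203214375603630214955596000892240330801403816898062298558790067278272835141334880491275408445922837752177697064796914020361031996217722700313334181024121157751781936930852141410049990778966763247112599163996172027673589736569759004582082609106338347964452766410051795012239272284345423632525022115786331607156923977312665615891165843820523500914184484502574946361673620906247213798289949358300141733153209812296041341959946557043058407986623974008677679845754087613935245166461454207078928070696627515583464746182775245828932512815173928983231869789507767131671759392719098902880677208324676917226092111477979794629237496850207273966596844931524540569961544208182518417828254927745697653052973648553011762459829380404796425459980483759556746463780030094738457973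917497183770249122768450273036182441430163131836395983924983803466836681315096843342872682300166962262934785683111234357504238544539132959239176402737921568768051131316347333574372903047392705829054409396297168470659511381103669202827386876709862835836339756858938570566570075933554413061935862981708300954293291900515110128106521234846858379616281853830474637480129837085915429032987004508770889705727718046629670893469582752528745766400831304572254086545942855625236060849979378989674346659797576157238558292828311763739082511384913837026496063195589489215277362720629509517363587133514102440750843668195836757641007732413457052890823294551058355581152153788830645075514762168702680781394900585743481635659720835819680445852658511654303784135619789827528333130964481581958615544587622616791940821264454596098629324553573444183037085410039162473898447564771377031221435349863760566529966752562344114001496454377513151112454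676910640087203469309409429785748446550668176644345001189290502290077325085336085292382076647003201662493858828901490375959672995555682754100401979191272032685507079680931807463069410542436240347414804939483574188447747257565704278209577865765890573500672270342741568847667129632546673303745218616564783056793295945603673686958447880106967755790072854282654923107629450857957616742722711218602202495879312079712187855841656818586278935022693231527578701192866743472268950462982799796130896494621049694778617858858271494932945552435164471080983308279690420410510612622418570729632396438070476153962751719074882181605520607531330380216145345355972294329161870300396629360129702768208343935861453800081459631883089414136841957618862084549076401583409377637615625434710589774888889469904561496965284519697929533423233502022945236801122677613555060170683300888795959163470093041582879333823434849533431241203079974488720591365407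228787347206679994479951075111002052436737196708823194156370398735693368149807783131978000745641164046697451980138430602451878584696428559255846992104869399864680130501389446567438450156481810889062435113297202711264231726322593954132020313220132163936333800918628022061605349091190885187948007632342110713014685396822840289506128202908582398133290851399170154408261781954450827980152939714478859758574317641365063760115867856671852683592763153523734656115104660003441874805963355161268882083145468881606032721651942481543985335869806139497941513564895589570335251218686020551566495878235735259788779281027441983931721373124918757243993530812052474065452720979968365887398053810780894982870772471529260272005903830985423163748377503888936972372399810282356751656425683846066984415585838172521312958186989583363544659748427962342103326267580771248183391312271568244657594726794644529474738043468785295853629718355947854951422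873141553988348455671577178151803471888821498201822886659325171101166527539880046249448443500933948593052198273919432248128234909281598246744817136216085433587316623058305660321642665592226484226323406108489184277410528823302328148132919371816379658042135625836167523641984903648192648665954928726740486667426381442602726661587679794192659641539287727072026534853399933527407111253092731145329367495779315668193985881144081904904029826330607089632992610428980821573001998104794023814275113475176017318113726818464750724060545715856267774360188140925065962157107610756960627681664712397619497790758656224017166389016479112015685572408018920069759195060955687228816118175764523007436493275769986642594675927877460944595019483746441490084857299543104842133774841253938613012200493043030931874575531774352193024626245997061240857246980110196238667988147980274220010105148802126719905557061662670869037237323112261573196580481584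064439660081418148262912100219204388401902869171360638616444825262582460207140670661880061096547853028429766995465769368832022701610130598883856736263345879306524744785981574093146901887854551423012558484676076106965549638748989189652106393576914956595801512736800365072236958260829735969268057876541899664850908686337565882472185854579706182359916546166679074077646309892437741652853247134476876689871746291664313128659132213395717282679491492688488193078559434944119081244671209554943647109246969553406601873115888250461527687523006067552288760742369736351928024327061957881315039354468391825644773370931437815185508213470482542859736459409812011074286038643748368410626808291903237312101198786524289633708419888540674803809642098751964615499683214519518812060083507125618452683209790762090472123312010218423875317695387124475300802567090764391526402559070902134358846294506327700763028992827290624900392825290302682946311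938332022020446320009417629832321194320931024165548977919330780758138837304824843973841325215924969674219734360814806378755501449882704941799846601202280052950193350789649646186350878010215811590445822406004510801582362897028054334040734872789388536274501423680042158701063522421233290619236221689912697457817234768128320503256847610300815446132741922556867488610392018367524216924584130889867571834340720249142493105149062468028568330352347624764761925206670089221761147619268654523566380548634716870808697683542168950761150176122679693866523410299761698500930440974261524710180742655644524391403973769787705179184115887925281618606566424988164474470089655931459661471750110543980518333618621164413199292103737022804657413016633965657784755640073455550556516651233402971243334354783149250883234648193861211278622734866802791333713800508374090859952430090598695959353902176024832166050581810482795257157282169211064708646234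348017869996330635909979403058976625420500056409272021442776863556212577663598950247700552058959368952824693769507148621798115890290773983192084222022889565855252000065435365703004026372909714295028849346067828178252787413127353231847989077024877610164320933740154048298629346599721181374676334371000076905060056546298256850474403162090561038735544671341332924211154810122254102076483178004119087472941398246499782026442631555554536948435129943850281762234835568580624263349661374109844066909829108746854841116796694365877288344624013550642509926285091645614931150526490077162314177329865530784594089522965504623099651746324853221535961310891797639080811338776410085498689906075494379052940030309465837168621670121008313835130862279662376994191222748735344698535312370077176900527631298756129088971849661352095527733980366795834522286933794072581454507039703388893601403008207202778387728435775109302893400529510458049046825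453428495131091507085216107747633159311536102197597985804076688201544652495881940633285878902921191455811051285773848041451105319618919612685204334522719686959289171624985388371976275732066803396717469432811784816758616186266294304360983301199236374311225091419530297847729664060509500761145743102423513301280285454962245749516192163982233575095947906676242485434244023071000763073428721049111560313901467364049094441605615409183649881127295293606716022562849047293815217148690233737146455829222256501534850415522374464432729524836532085253757352285643433759529738200958271641069687674022165698153129850904069795357222328953663621076608341268308548218731224250796218886711778805412333611323800591993240952801234147983751585224815057014304832990463101561922401445814527496187412458516231441654064145703490401055486082288786802190808843000174677733234340027806635966306453583934176738655673295711530182374572068706185849466483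724876650522817039950613993997972082428528713177672475638811501128505150309668525546083809071072840414343510005781439943443502633147231342381377495488383080868083137813702662792809533927060437466731421964027991948654947007328221730037518796082283016108577672460892517531246930840410743163711855963581554743112594231070318321666413852706419502735683768631396648506464967192576731716199451965501317084224134721986599698959750391573977206766165676433646597765061442921919489869808739083910771639344711959036312639309954823645325587041367204575853970290163524154262143215675501414504193753720777047770922831672136874223875947121825670593174859483474240987007632081884601746840389664401251675556881482850890548014930702532433202303303354599111242666973888129115379190573958154856275920185461116702568968183538605751828776723434229426956534329765233538691443495156082506225717823338405836128804733005223906526682393770249512115641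688248588155091576987631754621856835734261347677157564091376542080930287921040257575553674318803029810672609503086106216444304061153056438937123097803633897396160092643992752951330509643765252930864505103257202796735685665068462259893013811213461555430464695011521861314197097049033790363122108013410524993412757075042660483648695850617543416271493895217454562710070832434389700688930742029743896124109681784821474937005520142976441150058077500598793709205351135545084696623724531348880571607502464900314998495924066864720984848423949671264983244832666667946259674133152222817480123061977612163622856718788442853909259681063249141878151239528298090045759308537289622200954967758884770735160243277749944756473520618245383741038957585043036308133541587811135180171681808570234635689670915394989830210999634377513040387030479427363211236346928771100324996986553204907949273118090103334186678517918602977871060972728371797141727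2349511990697026191779078169863886444371392306899109508733192781600011411533051919461282928407934129975132297416676927320726879638399797033375104549231306824406662447853655896988119634939606516273703355087166558080609492084328897770500254423227896634957378165040288818764423246069643276444384884332838664372591340351628718467044857861173668949774025778853241426429929924778014673330174709240263536030511687388116475352503904293196128673545482261664060552828858033660826779558664015502184996240679408093168064507985446676819505695075855343651301219444240114515668649000078179212413316051932514982485356023005474884590414454263433910161447541089803782796771280734419762691614648104249636501686623507161130711687242582953836033487312814274535438258846487952158446695703054470419033560233330845817136237139545500900205074552592285862655333858250192897594553935158272351919159016642704346290611723412150575656651296051375482443750610128089407037966312447061804612683913094593687263110415571512604182380555483562173678058541580887581265797334823036909132410753388799318962394472878705205667657193918856308832856723328730455843134006662528113049397125626598130076902911164020195731423893683299974949486782047816834871062406945844530901239256029628740229941759994091011470823469472546816)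

end Vale.Agent.Lib.P154.PChain.BM.S8
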